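import Vale.Agent.Lib.P154.Chain.D4.R5_1

set_option linter.all false

namespace Vale.Agent.Lib.P154.Chain.D4.S6

noncomputable def pc0 : PT := (PT.nd (nat_lit 722202) (PT.nd (nat_lit 647190) (PT.nd (nat_lit 609402) (PT.nd (nat_lit 571802) (PT.nd (nat_lit 571708) (PT.nd (nat_lit 534108) PT.nil (PT.lf (nat_lit 3696) (nat_lit 3) (nat_lit 44) (nat_lit 1) (nat_lit 68) (nat_lit 14) (nat_lit 68))) (PT.lf (nat_lit 3948) (nat_lit 6) (nat_lit 47) (nat_lit 3) (nat_lit 67) (nat_lit 15) (nat_lit 68))) (PT.nd (nat_lit 37506) (PT.lf (nat_lit 3948) (nat_lit 6) (nat_lit 47) (nat_lit 1) (nat_lit 68) (nat_lit 15) (nat_lit 67)) (PT.lf (nat_lit 4200) (nat_lit 6) (nat_lit 50) (nat_lit 3) (nat_lit 66) (nat_lit 16) (nat_lit 68)))) (PT.nd (nat_lit 37506) (PT.nd (nat_lit 94) (PT.lf (nat_lit 4284) (nat_lit 3) (nat_lit 51) (nat_lit 1) (nat_lit 67) (nat_lit 16) (nat_lit 67)) (PT.lf (nat_lit 4200) (nat_lit 6) (nat_lit 50) (nat_lit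 1) (nat_lit 68) (nat_lit 16) (nat_lit 66))) (PT.nd (nat_lit 94) (PT.lf (nat_lit 4536) (nat_lit 6) (nat_lit 54) (nat_lit 3) (nat_lit 65) (nat_lit 17) (nat_lit 68)) (PT.nd (nat_lit 94) (PT.lf (nat_lit 4620) (nat_lit 6) (nat_lit 55) (nat_lit 3) (nat_lit 66) (nat_lit 17) (nat_lit 67)) (PT.lf (nat_lit 4620) (nat_lit 6) (nat_lit 55) (nat_lit 1) (nat_lit 67) (nat_lit 17) (nat_lit 66)))))) (PT.nd (nat_lit 37600) (PT.nd (nat_lit 37318) (PT.nd (nat_lit 37224) (PT.lf (nat_lit 4536) (nat_lit 6) (nat_lit 54) (nat_lit 1) (nat_lit 68) (nat_lit 17) (nat_lit 65)) (PT.lf (nat_lit 4704) (nat_lit 6) (nat_lit 56) (nat_lit 3) (nat_lit 63) (nat_lit 18) (nat_lit 69))) (PT.nd (nat_lit 94) (PT.lf (nat_lit 4788) (nat_lit 6) (nat_lit 57) (nat_lit 3) (nat_lit 64) (nat_lit 18) (nat_lit 68)) (PT.nd (nat_lit 94) (PT.lf (nat_lit 4872) (nat_lit 6) (nat_lit 58) (nat_lit 3) (nat_lit 65) (nat_lit 18) (nat_lit 67)) (PT.lf (nat_lit 4956)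 (nat_lit 3) (nat_lit 59) (nat_lit 1) (nat_lit 66) (nat_lit 18) (nat_lit 66))))) (PT.nd (nat_lit 188) (PT.nd (nat_lit 94) (PT.lf (nat_lit 4872) (nat_lit 6) (nat_lit 58) (nat_lit 1) (nat_lit 67) (nat_lit 18) (nat_lit 65)) (PT.lf (nat_lit 4788) (nat_lit 6) (nat_lit 57) (nat_lit 1) (nat_lit 68) (nat_lit 18) (nat_lit 64))) (PT.nd (nat_lit 37036) (PT.lf (nat_lit 4704) (nat_lit 6) (nat_lit 56) (nat_lit 1) (nat_lit 69) (nat_lit 18) (nat_lit 63)) (PT.nd (nat_lit 94) (PT.lf (nat_lit 5040) (nat_lit 6) (nat_lit 60) (nat_lit 3) (nat_lit 62) (nat_lit 19) (nat_lit 69)) (PT.lf (nat_lit 5124) (nat_lit 6) (nat_lit 61) (nat_lit 3) (nat_lit 63) (nat_lit 19) (nat_lit 68))))))) (PT.nd (nat_lit 37788) (PT.nd (nat_lit 470) (PT.nd (nat_lit 188) (PT.nd (nat_lit 94) (PT.lf (nat_lit 5208) (nat_lit 6) (nat_lit 62) (nat_lit 3) (nat_lit 64) (nat_lit 19) (nat_lit 67)) (PT.lf (nat_lit 5292) (nat_lit 6) (nat_lit 63) (nat_lit 3) (nat_lit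 65) (nat_lit 19) (nat_lit 66))) (PT.nd (nat_lit 94) (PT.lf (nat_lit 5292) (nat_lit 6) (nat_lit 63) (nat_lit 1) (nat_lit 66) (nat_lit 19) (nat_lit 65)) (PT.nd (nat_lit 94) (PT.lf (nat_lit 5208) (nat_lit 6) (nat_lit 62) (nat_lit 1) (nat_lit 67) (nat_lit 19) (nat_lit 64)) (PT.lf (nat_lit 5124) (nat_lit 6) (nat_lit 61) (nat_lit 1) (nat_lit 68) (nat_lit 19) (nat_lit 63))))) (PT.nd (nat_lit 37036) (PT.nd (nat_lit 36942) (PT.lf (nat_lit 5040) (nat_lit 6) (nat_lit 60) (nat_lit 1) (nat_lit 69) (nat_lit 19) (nat_lit 62)) (PT.lf (nat_lit 5376) (nat_lit 6) (nat_lit 64) (nat_lit 3) (nat_lit 61) (nat_lit 20) (nat_lit 69))) (PT.nd (nat_lit 94) (PT.lf (nat_lit 5460) (nat_lit 6) (nat_lit 65) (nat_lit 3) (nat_lit 62) (nat_lit 20) (nat_lit 68)) (PT.nd (nat_lit 94) (PT.lf (nat_lit 5544) (nat_lit 6) (nat_lit 66) (nat_lit 3) (nat_lit 63) (nat_lit 20) (nat_lit 67)) (PT.lf (nat_lit 5628) (nat_lit 6) (nat_lit 67) (nat_lit 3)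 (nat_lit 64) (nat_lit 20) (nat_lit 66)))))) (PT.nd (nat_lit 37318) (PT.nd (nat_lit 188) (PT.nd (nat_lit 94) (PT.lf (nat_lit 5712) (nat_lit 3) (nat_lit 68) (nat_lit 1) (nat_lit 65) (nat_lit 20) (nat_lit 65)) (PT.lf (nat_lit 5628) (nat_lit 6) (nat_lit 67) (nat_lit 1) (nat_lit 66) (nat_lit 20) (nat_lit 64))) (PT.nd (nat_lit 94) (PT.lf (nat_lit 5544) (nat_lit 6) (nat_lit 66) (nat_lit 1) (nat_lit 67) (nat_lit 20) (nat_lit 63)) (PT.nd (nat_lit 94) (PT.lf (nat_lit 5460) (nat_lit 6) (nat_lit 65) (nat_lit 1) (nat_lit 68) (nat_lit 20) (nat_lit 62)) (PT.lf (nat_lit 5376) (nat_lit 6) (nat_lit 64) (nat_lit 1) (nat_lit 69) (nat_lit 20) (nat_lit 61))))) (PT.nd (nat_lit 188) (PT.nd (nat_lit 94) (PT.lf (nat_lit 5796) (nat_lit 6) (nat_lit 69) (nat_lit 3) (nat_lit 61) (nat_lit 21) (nat_lit 68)) (PT.lf (nat_lit 5880) (nat_lit 6) (nat_lit 70) (nat_lit 3) (nat_lit 62) (nat_lit 21) (nat_lit 67))) (PT.nd (nat_lit 94) (PT.lf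 (nat_lit 5964) (nat_lit 6) (nat_lit 71) (nat_lit 3) (nat_lit 63) (nat_lit 21) (nat_lit 66)) (PT.nd (nat_lit 94) (PT.lf (nat_lit 6048) (nat_lit 6) (nat_lit 72) (nat_lit 3) (nat_lit 64) (nat_lit 21) (nat_lit 65)) (PT.lf (nat_lit 6048) (nat_lit 6) (nat_lit 72) (nat_lit 1) (nat_lit 65) (nat_lit 21) (nat_lit 64))))))))
noncomputable def pc1 : PT := (PT.nd (nat_lit 75388) (PT.nd (nat_lit 37694) (PT.nd (nat_lit 37224) (PT.nd (nat_lit 188) (PT.nd (nat_lit 94) (PT.lf (nat_lit 5964) (nat_lit 6) (nat_lit 71) (nat_lit 1) (nat_lit 66) (nat_lit 21) (nat_lit 63)) (PT.lf (nat_lit 5880) (nat_lit 6) (nat_lit 70) (nat_lit 1) (nat_lit 67) (nat_lit 21) (nat_lit 62))) (PT.nd (nat_lit 36942) (PT.lf (nat_lit 5796) (nat_lit 6) (nat_lit 69) (nat_lit 1) (nat_lit 68) (nat_lit 21) (nat_lit 61)) (PT.lf (nat_lit 6132) (nat_lit 6) (nat_lit 73) (nat_lit 3) (nat_lit 60) (nat_lit 22) (nat_lit 68)))) (PT.nd (nat_lit 188) (PT.nd (nat_lit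 94) (PT.lf (nat_lit 6216) (nat_lit 6) (nat_lit 74) (nat_lit 3) (nat_lit 61) (nat_lit 22) (nat_lit 67)) (PT.lf (nat_lit 6300) (nat_lit 6) (nat_lit 75) (nat_lit 3) (nat_lit 62) (nat_lit 22) (nat_lit 66))) (PT.nd (nat_lit 94) (PT.lf (nat_lit 6384) (nat_lit 6) (nat_lit 76) (nat_lit 3) (nat_lit 63) (nat_lit 22) (nat_lit 65)) (PT.nd (nat_lit 94) (PT.lf (nat_lit 6468) (nat_lit 3) (nat_lit 77) (nat_lit 1) (nat_lit 64) (nat_lit 22) (nat_lit 64)) (PT.lf (nat_lit 6384) (nat_lit 6) (nat_lit 76) (nat_lit 1) (nat_lit 65) (nat_lit 22) (nat_lit 63)))))) (PT.nd (nat_lit 37224) (PT.nd (nat_lit 188) (PT.nd (nat_lit 94) (PT.lf (nat_lit 6300) (nat_lit 6) (nat_lit 75) (nat_lit 1) (nat_lit 66) (nat_lit 22) (nat_lit 62)) (PT.lf (nat_lit 6216) (nat_lit 6) (nat_lit 74) (nat_lit 1) (nat_lit 67) (nat_lit 22) (nat_lit 61))) (PT.nd (nat_lit 36848) (PT.lf (nat_lit 6132) (nat_lit 6) (nat_lit 73) (nat_lit 1) (nat_lit 68) (nat_lit 22)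 (nat_lit 60)) (PT.nd (nat_lit 94) (PT.lf (nat_lit 6552) (nat_lit 6) (nat_lit 78) (nat_lit 3) (nat_lit 59) (nat_lit 23) (nat_lit 68)) (PT.lf (nat_lit 6636) (nat_lit 6) (nat_lit 79) (nat_lit 3) (nat_lit 60) (nat_lit 23) (nat_lit 67))))) (PT.nd (nat_lit 188) (PT.nd (nat_lit 94) (PT.lf (nat_lit 6720) (nat_lit 6) (nat_lit 80) (nat_lit 3) (nat_lit 61) (nat_lit 23) (nat_lit 66)) (PT.lf (nat_lit 6804) (nat_lit 6) (nat_lit 81) (nat_lit 3) (nat_lit 62) (nat_lit 23) (nat_lit 65))) (PT.nd (nat_lit 94) (PT.lf (nat_lit 6888) (nat_lit 6) (nat_lit 82) (nat_lit 3) (nat_lit 63) (nat_lit 23) (nat_lit 64)) (PT.nd (nat_lit 94) (PT.lf (nat_lit 6888) (nat_lit 6) (nat_lit 82) (nat_lit 1) (nat_lit 64) (nat_lit 23) (nat_lit 63)) (PT.lf (nat_lit 6804) (nat_lit 6) (nat_lit 81) (nat_lit 1) (nat_lit 65) (nat_lit 23) (nat_lit 62))))))) (PT.nd (nat_lit 37694) (PT.nd (nat_lit 37224) (PT.nd (nat_lit 188) (PT.nd (nat_lit 94) (PT.lf (nat_lit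 6720) (nat_lit 6) (nat_lit 80) (nat_lit 1) (nat_lit 66) (nat_lit 23) (nat_lit 61)) (PT.lf (nat_lit 6636) (nat_lit 6) (nat_lit 79) (nat_lit 1) (nat_lit 67) (nat_lit 23) (nat_lit 60))) (PT.nd (nat_lit 36848) (PT.lf (nat_lit 6552) (nat_lit 6) (nat_lit 78) (nat_lit 1) (nat_lit 68) (nat_lit 23) (nat_lit 59)) (PT.nd (nat_lit 94) (PT.lf (nat_lit 6972) (nat_lit 6) (nat_lit 83) (nat_lit 3) (nat_lit 59) (nat_lit 24) (nat_lit 67)) (PT.lf (nat_lit 7056) (nat_lit 6) (nat_lit 84) (nat_lit 3) (nat_lit 60) (nat_lit 24) (nat_lit 66))))) (PT.nd (nat_lit 188) (PT.nd (nat_lit 94) (PT.lf (nat_lit 7140) (nat_lit 6) (nat_lit 85) (nat_lit 3) (nat_lit 61) (nat_lit 24) (nat_lit 65)) (PT.lf (nat_lit 7224) (nat_lit 6) (nat_lit 86) (nat_lit 3) (nat_lit 62) (nat_lit 24) (nat_lit 64))) (PT.nd (nat_lit 94) (PT.lf (nat_lit 7308) (nat_lit 3) (nat_lit 87) (nat_lit 1) (nat_lit 63) (nat_lit 24) (nat_lit 63)) (PT.nd (nat_lit 94) (PT.lf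 (nat_lit 7224) (nat_lit 6) (nat_lit 86) (nat_lit 1) (nat_lit 64) (nat_lit 24) (nat_lit 62)) (PT.lf (nat_lit 7140) (nat_lit 6) (nat_lit 85) (nat_lit 1) (nat_lit 65) (nat_lit 24) (nat_lit 61)))))) (PT.nd (nat_lit 37224) (PT.nd (nat_lit 36942) (PT.nd (nat_lit 94) (PT.lf (nat_lit 7056) (nat_lit 6) (nat_lit 84) (nat_lit 1) (nat_lit 66) (nat_lit 24) (nat_lit 60)) (PT.lf (nat_lit 6972) (nat_lit 6) (nat_lit 83) (nat_lit 1) (nat_lit 67) (nat_lit 24) (nat_lit 59))) (PT.nd (nat_lit 94) (PT.lf (nat_lit 7392) (nat_lit 6) (nat_lit 88) (nat_lit 3) (nat_lit 58) (nat_lit 25) (nat_lit 67)) (PT.nd (nat_lit 94) (PT.lf (nat_lit 7476) (nat_lit 6) (nat_lit 89) (nat_lit 3) (nat_lit 59) (nat_lit 25) (nat_lit 66)) (PT.lf (nat_lit 7560) (nat_lit 6) (nat_lit 90) (nat_lit 3) (nat_lit 60) (nat_lit 25) (nat_lit 65))))) (PT.nd (nat_lit 188) (PT.nd (nat_lit 94) (PT.lf (nat_lit 7644) (nat_lit 6) (nat_lit 91) (nat_lit 3) (nat_lit 61)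 (nat_lit 25) (nat_lit 64)) (PT.lf (nat_lit 7728) (nat_lit 6) (nat_lit 92) (nat_lit 3) (nat_lit 62) (nat_lit 25) (nat_lit 63))) (PT.nd (nat_lit 94) (PT.lf (nat_lit 7728) (nat_lit 6) (nat_lit 92) (nat_lit 1) (nat_lit 63) (nat_lit 25) (nat_lit 62)) (PT.nd (nat_lit 94) (PT.lf (nat_lit 7644) (nat_lit 6) (nat_lit 91) (nat_lit 1) (nat_lit 64) (nat_lit 25) (nat_lit 61)) (PT.lf (nat_lit 7560) (nat_lit 6) (nat_lit 90) (nat_lit 1) (nat_lit 65) (nat_lit 25) (nat_lit 60))))))))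
noncomputable def pc2 : PT := (PT.nd (nat_lit 75106) (PT.nd (nat_lit 37506) (PT.nd (nat_lit 37036) (PT.nd (nat_lit 36848) (PT.nd (nat_lit 94) (PT.lf (nat_lit 7476) (nat_lit 6) (nat_lit 89) (nat_lit 1) (nat_lit 66) (nat_lit 25) (nat_lit 59)) (PT.lf (nat_lit 7392) (nat_lit 6) (nat_lit 88) (nat_lit 1) (nat_lit 67) (nat_lit 25) (nat_lit 58))) (PT.nd (nat_lit 94) (PT.lf (nat_lit 7812) (nat_lit 6) (nat_lit 93) (nat_lit 3) (nat_lit 57) (nat_lit 26) (nat_lit 67)) (PT.lf (nat_lit 7896) (nat_lit 6) (nat_lit 94) (nat_lit 3) (nat_lit 58) (nat_lit 26) (nat_lit 66)))) (PT.nd (nat_lit 188) (PT.nd (nat_lit 94) (PT.lf (nat_lit 7980) (nat_lit 6) (nat_lit 95) (nat_lit 3) (nat_lit 59) (nat_lit 26) (nat_lit 65)) (PT.lf (nat_lit 8064) (nat_lit 6) (nat_lit 96) (nat_lit 3) (nat_lit 60) (nat_lit 26) (nat_lit 64))) (PT.nd (nat_lit 94) (PT.lf (nat_lit 8148) (nat_lit 6) (nat_lit 97) (nat_lit 3) (nat_lit 61) (nat_lit 26) (nat_lit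 63)) (PT.nd (nat_lit 94) (PT.lf (nat_lit 8232) (nat_lit 3) (nat_lit 98) (nat_lit 1) (nat_lit 62) (nat_lit 26) (nat_lit 62)) (PT.lf (nat_lit 8148) (nat_lit 6) (nat_lit 97) (nat_lit 1) (nat_lit 63) (nat_lit 26) (nat_lit 61)))))) (PT.nd (nat_lit 37130) (PT.nd (nat_lit 188) (PT.nd (nat_lit 94) (PT.lf (nat_lit 8064) (nat_lit 6) (nat_lit 96) (nat_lit 1) (nat_lit 64) (nat_lit 26) (nat_lit 60)) (PT.lf (nat_lit 7980) (nat_lit 6) (nat_lit 95) (nat_lit 1) (nat_lit 65) (nat_lit 26) (nat_lit 59))) (PT.nd (nat_lit 94) (PT.lf (nat_lit 7896) (nat_lit 6) (nat_lit 94) (nat_lit 1) (nat_lit 66) (nat_lit 26) (nat_lit 58)) (PT.nd (nat_lit 36754) (PT.lf (nat_lit 7812) (nat_lit 6) (nat_lit 93) (nat_lit 1) (nat_lit 67) (nat_lit 26) (nat_lit 57)) (PT.lf (nat_lit 8316) (nat_lit 6) (nat_lit 99) (nat_lit 3) (nat_lit 57) (nat_lit 27) (nat_lit 66))))) (PT.nd (nat_lit 188) (PT.nd (nat_lit 94) (PT.lf (nat_lit 8400) (nat_lit 6) (nat_lit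 100) (nat_lit 3) (nat_lit 58) (nat_lit 27) (nat_lit 65)) (PT.lf (nat_lit 8484) (nat_lit 6) (nat_lit 101) (nat_lit 3) (nat_lit 59) (nat_lit 27) (nat_lit 64))) (PT.nd (nat_lit 94) (PT.lf (nat_lit 8568) (nat_lit 6) (nat_lit 102) (nat_lit 3) (nat_lit 60) (nat_lit 27) (nat_lit 63)) (PT.nd (nat_lit 94) (PT.lf (nat_lit 8652) (nat_lit 6) (nat_lit 103) (nat_lit 3) (nat_lit 61) (nat_lit 27) (nat_lit 62)) (PT.lf (nat_lit 8652) (nat_lit 6) (nat_lit 103) (nat_lit 1) (nat_lit 62) (nat_lit 27) (nat_lit 61))))))) (PT.nd (nat_lit 37600) (PT.nd (nat_lit 37130) (PT.nd (nat_lit 188) (PT.nd (nat_lit 94) (PT.lf (nat_lit 8568) (nat_lit 6) (nat_lit 102) (nat_lit 1) (nat_lit 63) (nat_lit 27) (nat_lit 60)) (PT.lf (nat_lit 8484) (nat_lit 6) (nat_lit 101) (nat_lit 1) (nat_lit 64) (nat_lit 27) (nat_lit 59))) (PT.nd (nat_lit 94) (PT.lf (nat_lit 8400) (nat_lit 6) (nat_lit 100) (nat_lit 1) (nat_lit 65) (nat_lit 27) (nat_lit 58)) (PT.nd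 (nat_lit 36754) (PT.lf (nat_lit 8316) (nat_lit 6) (nat_lit 99) (nat_lit 1) (nat_lit 66) (nat_lit 27) (nat_lit 57)) (PT.lf (nat_lit 8736) (nat_lit 6) (nat_lit 104) (nat_lit 3) (nat_lit 56) (nat_lit 28) (nat_lit 66))))) (PT.nd (nat_lit 188) (PT.nd (nat_lit 94) (PT.lf (nat_lit 8820) (nat_lit 6) (nat_lit 105) (nat_lit 3) (nat_lit 57) (nat_lit 28) (nat_lit 65)) (PT.lf (nat_lit 8904) (nat_lit 6) (nat_lit 106) (nat_lit 3) (nat_lit 58) (nat_lit 28) (nat_lit 64))) (PT.nd (nat_lit 94) (PT.lf (nat_lit 8988) (nat_lit 6) (nat_lit 107) (nat_lit 3) (nat_lit 59) (nat_lit 28) (nat_lit 63)) (PT.nd (nat_lit 94) (PT.lf (nat_lit 9072) (nat_lit 6) (nat_lit 108) (nat_lit 3) (nat_lit 60) (nat_lit 28) (nat_lit 62)) (PT.lf (nat_lit 9156) (nat_lit 3) (nat_lit 109) (nat_lit 1) (nat_lit 61) (nat_lit 28) (nat_lit 61)))))) (PT.nd (nat_lit 37036) (PT.nd (nat_lit 188) (PT.nd (nat_lit 94) (PT.lf (nat_lit 9072) (nat_lit 6) (nat_lit 108)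 (nat_lit 1) (nat_lit 62) (nat_lit 28) (nat_lit 60)) (PT.lf (nat_lit 8988) (nat_lit 6) (nat_lit 107) (nat_lit 1) (nat_lit 63) (nat_lit 28) (nat_lit 59))) (PT.nd (nat_lit 94) (PT.lf (nat_lit 8904) (nat_lit 6) (nat_lit 106) (nat_lit 1) (nat_lit 64) (nat_lit 28) (nat_lit 58)) (PT.nd (nat_lit 94) (PT.lf (nat_lit 8820) (nat_lit 6) (nat_lit 105) (nat_lit 1) (nat_lit 65) (nat_lit 28) (nat_lit 57)) (PT.lf (nat_lit 8736) (nat_lit 6) (nat_lit 104) (nat_lit 1) (nat_lit 66) (nat_lit 28) (nat_lit 56))))) (PT.nd (nat_lit 188) (PT.nd (nat_lit 94) (PT.lf (nat_lit 9240) (nat_lit 6) (nat_lit 110) (nat_lit 3) (nat_lit 55) (nat_lit 29) (nat_lit 66)) (PT.lf (nat_lit 9324) (nat_lit 6) (nat_lit 111) (nat_lit 3) (nat_lit 56) (nat_lit 29) (nat_lit 65))) (PT.nd (nat_lit 94) (PT.lf (nat_lit 9408) (nat_lit 6) (nat_lit 112) (nat_lit 3) (nat_lit 57) (nat_lit 29) (nat_lit 64)) (PT.nd (nat_lit 94) (PT.lf (nat_lit 9492) (nat_lit 6)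 (nat_lit 113) (nat_lit 3) (nat_lit 58) (nat_lit 29) (nat_lit 63)) (PT.lf (nat_lit 9576) (nat_lit 6) (nat_lit 114) (nat_lit 3) (nat_lit 59) (nat_lit 29) (nat_lit 62))))))))
noncomputable def pc3 : PT := (PT.nd (nat_lit 38258) (PT.nd (nat_lit 37318) (PT.nd (nat_lit 376) (PT.nd (nat_lit 188) (PT.nd (nat_lit 94) (PT.lf (nat_lit 9660) (nat_lit 6) (nat_lit 115) (nat_lit 3) (nat_lit 60) (nat_lit 29) (nat_lit 61)) (PT.lf (nat_lit 9660) (nat_lit 6) (nat_lit 115) (nat_lit 1) (nat_lit 61) (nat_lit 29) (nat_lit 60))) (PT.nd (nat_lit 94) (PT.lf (nat_lit 9576) (nat_lit 6) (nat_lit 114) (nat_lit 1) (nat_lit 62) (nat_lit 29) (nat_lit 59)) (PT.lf (nat_lit 9492) (nat_lit 6) (nat_lit 113) (nat_lit 1) (nat_lit 63) (nat_lit 29) (nat_lit 58)))) (PT.nd (nat_lit 188) (PT.nd (nat_lit 94) (PT.lf (nat_lit 9408) (nat_lit 6) (nat_lit 112) (nat_lit 1) (nat_lit 64) (nat_lit 29) (nat_lit 57)) (PT.lf (nat_lit 9324) (nat_lit 6) (nat_lit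 111) (nat_lit 1) (nat_lit 65) (nat_lit 29) (nat_lit 56))) (PT.nd (nat_lit 36566) (PT.lf (nat_lit 9240) (nat_lit 6) (nat_lit 110) (nat_lit 1) (nat_lit 66) (nat_lit 29) (nat_lit 55)) (PT.nd (nat_lit 94) (PT.lf (nat_lit 9744) (nat_lit 6) (nat_lit 116) (nat_lit 3) (nat_lit 54) (nat_lit 30) (nat_lit 66)) (PT.lf (nat_lit 9828) (nat_lit 6) (nat_lit 117) (nat_lit 3) (nat_lit 55) (nat_lit 30) (nat_lit 65)))))) (PT.nd (nat_lit 470) (PT.nd (nat_lit 188) (PT.nd (nat_lit 94) (PT.lf (nat_lit 9912) (nat_lit 6) (nat_lit 118) (nat_lit 3) (nat_lit 56) (nat_lit 30) (nat_lit 64)) (PT.lf (nat_lit 9996) (nat_lit 6) (nat_lit 119) (nat_lit 3) (nat_lit 57) (nat_lit 30) (nat_lit 63))) (PT.nd (nat_lit 94) (PT.lf (nat_lit 10080) (nat_lit 6) (nat_lit 120) (nat_lit 3) (nat_lit 58) (nat_lit 30) (nat_lit 62)) (PT.nd (nat_lit 94) (PT.lf (nat_lit 10164) (nat_lit 6) (nat_lit 121) (nat_lit 3) (nat_lit 59) (nat_lit 30) (nat_lit 61)) (PT.lf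 (nat_lit 10248) (nat_lit 3) (nat_lit 122) (nat_lit 1) (nat_lit 60) (nat_lit 30) (nat_lit 60))))) (PT.nd (nat_lit 188) (PT.nd (nat_lit 94) (PT.lf (nat_lit 10164) (nat_lit 6) (nat_lit 121) (nat_lit 1) (nat_lit 61) (nat_lit 30) (nat_lit 59)) (PT.lf (nat_lit 10080) (nat_lit 6) (nat_lit 120) (nat_lit 1) (nat_lit 62) (nat_lit 30) (nat_lit 58))) (PT.nd (nat_lit 94) (PT.lf (nat_lit 9996) (nat_lit 6) (nat_lit 119) (nat_lit 1) (nat_lit 63) (nat_lit 30) (nat_lit 57)) (PT.nd (nat_lit 94) (PT.lf (nat_lit 9912) (nat_lit 6) (nat_lit 118) (nat_lit 1) (nat_lit 64) (nat_lit 30) (nat_lit 56)) (PT.lf (nat_lit 9828) (nat_lit 6) (nat_lit 117) (nat_lit 1) (nat_lit 65) (nat_lit 30) (nat_lit 55))))))) (PT.nd (nat_lit 37412) (PT.nd (nat_lit 36942) (PT.nd (nat_lit 36660) (PT.nd (nat_lit 36566) (PT.lf (nat_lit 9744) (nat_lit 6) (nat_lit 116) (nat_lit 1) (nat_lit 66) (nat_lit 30) (nat_lit 54)) (PT.lf (nat_lit 10332) (nat_lit 6)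 (nat_lit 123) (nat_lit 3) (nat_lit 54) (nat_lit 31) (nat_lit 65))) (PT.nd (nat_lit 94) (PT.lf (nat_lit 10416) (nat_lit 6) (nat_lit 124) (nat_lit 3) (nat_lit 55) (nat_lit 31) (nat_lit 64)) (PT.nd (nat_lit 94) (PT.lf (nat_lit 10500) (nat_lit 6) (nat_lit 125) (nat_lit 3) (nat_lit 56) (nat_lit 31) (nat_lit 63)) (PT.lf (nat_lit 10584) (nat_lit 6) (nat_lit 126) (nat_lit 3) (nat_lit 57) (nat_lit 31) (nat_lit 62))))) (PT.nd (nat_lit 188) (PT.nd (nat_lit 94) (PT.lf (nat_lit 10668) (nat_lit 6) (nat_lit 127) (nat_lit 3) (nat_lit 58) (nat_lit 31) (nat_lit 61)) (PT.lf (nat_lit 10752) (nat_lit 6) (nat_lit 128) (nat_lit 3) (nat_lit 59) (nat_lit 31) (nat_lit 60))) (PT.nd (nat_lit 94) (PT.lf (nat_lit 10752) (nat_lit 6) (nat_lit 128) (nat_lit 1) (nat_lit 60) (nat_lit 31) (nat_lit 59)) (PT.nd (nat_lit 94) (PT.lf (nat_lit 10668) (nat_lit 6) (nat_lit 127) (nat_lit 1) (nat_lit 61) (nat_lit 31) (nat_lit 58)) (PT.lf (nat_lit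 10584) (nat_lit 6) (nat_lit 126) (nat_lit 1) (nat_lit 62) (nat_lit 31) (nat_lit 57)))))) (PT.nd (nat_lit 36942) (PT.nd (nat_lit 188) (PT.nd (nat_lit 94) (PT.lf (nat_lit 10500) (nat_lit 6) (nat_lit 125) (nat_lit 1) (nat_lit 63) (nat_lit 31) (nat_lit 56)) (PT.lf (nat_lit 10416) (nat_lit 6) (nat_lit 124) (nat_lit 1) (nat_lit 64) (nat_lit 31) (nat_lit 55))) (PT.nd (nat_lit 36566) (PT.lf (nat_lit 10332) (nat_lit 6) (nat_lit 123) (nat_lit 1) (nat_lit 65) (nat_lit 31) (nat_lit 54)) (PT.nd (nat_lit 94) (PT.lf (nat_lit 10836) (nat_lit 6) (nat_lit 129) (nat_lit 3) (nat_lit 53) (nat_lit 32) (nat_lit 65)) (PT.lf (nat_lit 10920) (nat_lit 6) (nat_lit 130) (nat_lit 3) (nat_lit 54) (nat_lit 32) (nat_lit 64))))) (PT.nd (nat_lit 188) (PT.nd (nat_lit 94) (PT.lf (nat_lit 11004) (nat_lit 6) (nat_lit 131) (nat_lit 3) (nat_lit 55) (nat_lit 32) (nat_lit 63)) (PT.lf (nat_lit 11088) (nat_lit 6) (nat_lit 132) (nat_lit 3) (nat_lit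 56) (nat_lit 32) (nat_lit 62))) (PT.nd (nat_lit 94) (PT.lf (nat_lit 11172) (nat_lit 6) (nat_lit 133) (nat_lit 3) (nat_lit 57) (nat_lit 32) (nat_lit 61)) (PT.nd (nat_lit 94) (PT.lf (nat_lit 11256) (nat_lit 6) (nat_lit 134) (nat_lit 3) (nat_lit 58) (nat_lit 32) (nat_lit 60)) (PT.lf (nat_lit 11340) (nat_lit 3) (nat_lit 135) (nat_lit 1) (nat_lit 59) (nat_lit 32) (nat_lit 59))))))))
noncomputable def pc4 : PT := (PT.nd (nat_lit 38164) (PT.nd (nat_lit 37224) (PT.nd (nat_lit 376) (PT.nd (nat_lit 188) (PT.nd (nat_lit 94) (PT.lf (nat_lit 11256) (nat_lit 6) (nat_lit 134) (nat_lit 1) (nat_lit 60) (nat_lit 32) (nat_lit 58)) (PT.lf (nat_lit 11172) (nat_lit 6) (nat_lit 133) (nat_lit 1) (nat_lit 61) (nat_lit 32) (nat_lit 57))) (PT.nd (nat_lit 94) (PT.lf (nat_lit 11088) (nat_lit 6) (nat_lit 132) (nat_lit 1) (nat_lit 62) (nat_lit 32) (nat_lit 56)) (PT.lf (nat_lit 11004) (nat_lit 6) (nat_lit 131) (nat_lit 1) (nat_lit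 63) (nat_lit 32) (nat_lit 55)))) (PT.nd (nat_lit 36566) (PT.nd (nat_lit 94) (PT.lf (nat_lit 10920) (nat_lit 6) (nat_lit 130) (nat_lit 1) (nat_lit 64) (nat_lit 32) (nat_lit 54)) (PT.lf (nat_lit 10836) (nat_lit 6) (nat_lit 129) (nat_lit 1) (nat_lit 65) (nat_lit 32) (nat_lit 53))) (PT.nd (nat_lit 94) (PT.lf (nat_lit 11424) (nat_lit 6) (nat_lit 136) (nat_lit 3) (nat_lit 52) (nat_lit 33) (nat_lit 65)) (PT.nd (nat_lit 94) (PT.lf (nat_lit 11508) (nat_lit 6) (nat_lit 137) (nat_lit 3) (nat_lit 53) (nat_lit 33) (nat_lit 64)) (PT.lf (nat_lit 11592) (nat_lit 6) (nat_lit 138) (nat_lit 3) (nat_lit 54) (nat_lit 33) (nat_lit 63)))))) (PT.nd (nat_lit 470) (PT.nd (nat_lit 188) (PT.nd (nat_lit 94) (PT.lf (nat_lit 11676) (nat_lit 6) (nat_lit 139) (nat_lit 3) (nat_lit 55) (nat_lit 33) (nat_lit 62)) (PT.lf (nat_lit 11760) (nat_lit 6) (nat_lit 140) (nat_lit 3) (nat_lit 56) (nat_lit 33) (nat_lit 61))) (PT.nd (nat_lit 94) (PT.lf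 (nat_lit 11844) (nat_lit 6) (nat_lit 141) (nat_lit 3) (nat_lit 57) (nat_lit 33) (nat_lit 60)) (PT.nd (nat_lit 94) (PT.lf (nat_lit 11928) (nat_lit 6) (nat_lit 142) (nat_lit 3) (nat_lit 58) (nat_lit 33) (nat_lit 59)) (PT.lf (nat_lit 11928) (nat_lit 6) (nat_lit 142) (nat_lit 1) (nat_lit 59) (nat_lit 33) (nat_lit 58))))) (PT.nd (nat_lit 188) (PT.nd (nat_lit 94) (PT.lf (nat_lit 11844) (nat_lit 6) (nat_lit 141) (nat_lit 1) (nat_lit 60) (nat_lit 33) (nat_lit 57)) (PT.lf (nat_lit 11760) (nat_lit 6) (nat_lit 140) (nat_lit 1) (nat_lit 61) (nat_lit 33) (nat_lit 56))) (PT.nd (nat_lit 94) (PT.lf (nat_lit 11676) (nat_lit 6) (nat_lit 139) (nat_lit 1) (nat_lit 62) (nat_lit 33) (nat_lit 55)) (PT.nd (nat_lit 94) (PT.lf (nat_lit 11592) (nat_lit 6) (nat_lit 138) (nat_lit 1) (nat_lit 63) (nat_lit 33) (nat_lit 54)) (PT.lf (nat_lit 11508) (nat_lit 6) (nat_lit 137) (nat_lit 1) (nat_lit 64) (nat_lit 33) (nat_lit 53))))))) (PT.nd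 (nat_lit 37224) (PT.nd (nat_lit 36754) (PT.nd (nat_lit 36472) (PT.nd (nat_lit 36378) (PT.lf (nat_lit 11424) (nat_lit 6) (nat_lit 136) (nat_lit 1) (nat_lit 65) (nat_lit 33) (nat_lit 52)) (PT.lf (nat_lit 12012) (nat_lit 6) (nat_lit 143) (nat_lit 3) (nat_lit 51) (nat_lit 34) (nat_lit 65))) (PT.nd (nat_lit 94) (PT.lf (nat_lit 12096) (nat_lit 6) (nat_lit 144) (nat_lit 3) (nat_lit 52) (nat_lit 34) (nat_lit 64)) (PT.nd (nat_lit 94) (PT.lf (nat_lit 12180) (nat_lit 6) (nat_lit 145) (nat_lit 3) (nat_lit 53) (nat_lit 34) (nat_lit 63)) (PT.lf (nat_lit 12264) (nat_lit 6) (nat_lit 146) (nat_lit 3) (nat_lit 54) (nat_lit 34) (nat_lit 62))))) (PT.nd (nat_lit 188) (PT.nd (nat_lit 94) (PT.lf (nat_lit 12348) (nat_lit 6) (nat_lit 147) (nat_lit 3) (nat_lit 55) (nat_lit 34) (nat_lit 61)) (PT.lf (nat_lit 12432) (nat_lit 6) (nat_lit 148) (nat_lit 3) (nat_lit 56) (nat_lit 34) (nat_lit 60))) (PT.nd (nat_lit 94) (PT.lf (nat_lit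 12516) (nat_lit 6) (nat_lit 149) (nat_lit 3) (nat_lit 57) (nat_lit 34) (nat_lit 59)) (PT.nd (nat_lit 94) (PT.lf (nat_lit 12600) (nat_lit 3) (nat_lit 150) (nat_lit 1) (nat_lit 58) (nat_lit 34) (nat_lit 58)) (PT.lf (nat_lit 12516) (nat_lit 6) (nat_lit 149) (nat_lit 1) (nat_lit 59) (nat_lit 34) (nat_lit 57)))))) (PT.nd (nat_lit 470) (PT.nd (nat_lit 188) (PT.nd (nat_lit 94) (PT.lf (nat_lit 12432) (nat_lit 6) (nat_lit 148) (nat_lit 1) (nat_lit 60) (nat_lit 34) (nat_lit 56)) (PT.lf (nat_lit 12348) (nat_lit 6) (nat_lit 147) (nat_lit 1) (nat_lit 61) (nat_lit 34) (nat_lit 55))) (PT.nd (nat_lit 94) (PT.lf (nat_lit 12264) (nat_lit 6) (nat_lit 146) (nat_lit 1) (nat_lit 62) (nat_lit 34) (nat_lit 54)) (PT.nd (nat_lit 94) (PT.lf (nat_lit 12180) (nat_lit 6) (nat_lit 145) (nat_lit 1) (nat_lit 63) (nat_lit 34) (nat_lit 53)) (PT.lf (nat_lit 12096) (nat_lit 6) (nat_lit 144) (nat_lit 1) (nat_lit 64) (nat_lit 34) (nat_lit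 52))))) (PT.nd (nat_lit 36378) (PT.nd (nat_lit 36284) (PT.lf (nat_lit 12012) (nat_lit 6) (nat_lit 143) (nat_lit 1) (nat_lit 65) (nat_lit 34) (nat_lit 51)) (PT.lf (nat_lit 12684) (nat_lit 6) (nat_lit 151) (nat_lit 3) (nat_lit 50) (nat_lit 35) (nat_lit 65))) (PT.nd (nat_lit 94) (PT.lf (nat_lit 12768) (nat_lit 6) (nat_lit 152) (nat_lit 3) (nat_lit 51) (nat_lit 35) (nat_lit 64)) (PT.nd (nat_lit 94) (PT.lf (nat_lit 12852) (nat_lit 6) (nat_lit 153) (nat_lit 3) (nat_lit 52) (nat_lit 35) (nat_lit 63)) (PT.lf (nat_lit 12936) (nat_lit 6) (nat_lit 154) (nat_lit 3) (nat_lit 53) (nat_lit 35) (nat_lit 62))))))))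
noncomputable def pc5 : PT := (PT.nd (nat_lit 37976) (PT.nd (nat_lit 846) (PT.nd (nat_lit 376) (PT.nd (nat_lit 188) (PT.nd (nat_lit 94) (PT.lf (nat_lit 13020) (nat_lit 6) (nat_lit 155) (nat_lit 3) (nat_lit 54) (nat_lit 35) (nat_lit 61)) (PT.lf (nat_lit 13104) (nat_lit 6) (nat_lit 156) (nat_lit 3) (nat_lit 55) (nat_lit 35) (nat_lit 60))) (PT.nd (nat_lit 94) (PT.lf (nat_lit 13188) (nat_lit 6) (nat_lit 157) (nat_lit 3) (nat_lit 56) (nat_lit 35) (nat_lit 59)) (PT.lf (nat_lit 13272) (nat_lit 6) (nat_lit 158) (nat_lit 3) (nat_lit 57) (nat_lit 35) (nat_lit 58)))) (PT.nd (nat_lit 188) (PT.nd (nat_lit 94) (PT.lf (nat_lit 13272) (nat_lit 6) (nat_lit 158) (nat_lit 1) (nat_lit 58) (nat_lit 35) (nat_lit 57)) (PT.lf (nat_lit 13188) (nat_lit 6) (nat_lit 157) (nat_lit 1) (nat_lit 59) (nat_lit 35) (nat_lit 56))) (PT.nd (nat_lit 94) (PT.lf (nat_lit 13104) (nat_lit 6) (nat_lit 156) (nat_lit 1) (nat_lit 60) (nat_lit 35)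 (nat_lit 55)) (PT.nd (nat_lit 94) (PT.lf (nat_lit 13020) (nat_lit 6) (nat_lit 155) (nat_lit 1) (nat_lit 61) (nat_lit 35) (nat_lit 54)) (PT.lf (nat_lit 12936) (nat_lit 6) (nat_lit 154) (nat_lit 1) (nat_lit 62) (nat_lit 35) (nat_lit 53)))))) (PT.nd (nat_lit 36660) (PT.nd (nat_lit 188) (PT.nd (nat_lit 94) (PT.lf (nat_lit 12852) (nat_lit 6) (nat_lit 153) (nat_lit 1) (nat_lit 63) (nat_lit 35) (nat_lit 52)) (PT.lf (nat_lit 12768) (nat_lit 6) (nat_lit 152) (nat_lit 1) (nat_lit 64) (nat_lit 35) (nat_lit 51))) (PT.nd (nat_lit 36284) (PT.lf (nat_lit 12684) (nat_lit 6) (nat_lit 151) (nat_lit 1) (nat_lit 65) (nat_lit 35) (nat_lit 50)) (PT.nd (nat_lit 94) (PT.lf (nat_lit 13944) (nat_lit 6) (nat_lit 166) (nat_lit 3) (nat_lit 50) (nat_lit 36) (nat_lit 64)) (PT.lf (nat_lit 14028) (nat_lit 6) (nat_lit 167) (nat_lit 3) (nat_lit 51) (nat_lit 36) (nat_lit 63))))) (PT.nd (nat_lit 188) (PT.nd (nat_lit 94) (PT.lf (nat_lit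 14112) (nat_lit 6) (nat_lit 168) (nat_lit 3) (nat_lit 52) (nat_lit 36) (nat_lit 62)) (PT.lf (nat_lit 14196) (nat_lit 6) (nat_lit 169) (nat_lit 3) (nat_lit 53) (nat_lit 36) (nat_lit 61))) (PT.nd (nat_lit 94) (PT.lf (nat_lit 14280) (nat_lit 6) (nat_lit 170) (nat_lit 3) (nat_lit 54) (nat_lit 36) (nat_lit 60)) (PT.nd (nat_lit 94) (PT.lf (nat_lit 14364) (nat_lit 6) (nat_lit 171) (nat_lit 3) (nat_lit 55) (nat_lit 36) (nat_lit 59)) (PT.lf (nat_lit 14448) (nat_lit 6) (nat_lit 172) (nat_lit 3) (nat_lit 56) (nat_lit 36) (nat_lit 58))))))) (PT.nd (nat_lit 37130) (PT.nd (nat_lit 470) (PT.nd (nat_lit 188) (PT.nd (nat_lit 94) (PT.lf (nat_lit 14532) (nat_lit 3) (nat_lit 173) (nat_lit 1) (nat_lit 57) (nat_lit 36) (nat_lit 57)) (PT.lf (nat_lit 14448) (nat_lit 6) (nat_lit 172) (nat_lit 1) (nat_lit 58) (nat_lit 36) (nat_lit 56))) (PT.nd (nat_lit 94) (PT.lf (nat_lit 14364) (nat_lit 6) (nat_lit 171) (nat_lit 1) (nat_lit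 59) (nat_lit 36) (nat_lit 55)) (PT.nd (nat_lit 94) (PT.lf (nat_lit 14280) (nat_lit 6) (nat_lit 170) (nat_lit 1) (nat_lit 60) (nat_lit 36) (nat_lit 54)) (PT.lf (nat_lit 14196) (nat_lit 6) (nat_lit 169) (nat_lit 1) (nat_lit 61) (nat_lit 36) (nat_lit 53))))) (PT.nd (nat_lit 188) (PT.nd (nat_lit 94) (PT.lf (nat_lit 14112) (nat_lit 6) (nat_lit 168) (nat_lit 1) (nat_lit 62) (nat_lit 36) (nat_lit 52)) (PT.lf (nat_lit 14028) (nat_lit 6) (nat_lit 167) (nat_lit 1) (nat_lit 63) (nat_lit 36) (nat_lit 51))) (PT.nd (nat_lit 36284) (PT.lf (nat_lit 13944) (nat_lit 6) (nat_lit 166) (nat_lit 1) (nat_lit 64) (nat_lit 36) (nat_lit 50)) (PT.nd (nat_lit 94) (PT.lf (nat_lit 13860) (nat_lit 6) (nat_lit 165) (nat_lit 3) (nat_lit 49) (nat_lit 37) (nat_lit 64)) (PT.lf (nat_lit 15120) (nat_lit 6) (nat_lit 180) (nat_lit 3) (nat_lit 50) (nat_lit 37) (nat_lit 63)))))) (PT.nd (nat_lit 470) (PT.nd (nat_lit 188) (PT.nd (nat_lit 94)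 (PT.lf (nat_lit 15204) (nat_lit 6) (nat_lit 181) (nat_lit 3) (nat_lit 51) (nat_lit 37) (nat_lit 62)) (PT.lf (nat_lit 15288) (nat_lit 6) (nat_lit 182) (nat_lit 3) (nat_lit 52) (nat_lit 37) (nat_lit 61))) (PT.nd (nat_lit 94) (PT.lf (nat_lit 15372) (nat_lit 6) (nat_lit 183) (nat_lit 3) (nat_lit 53) (nat_lit 37) (nat_lit 60)) (PT.nd (nat_lit 94) (PT.lf (nat_lit 15456) (nat_lit 6) (nat_lit 184) (nat_lit 3) (nat_lit 54) (nat_lit 37) (nat_lit 59)) (PT.lf (nat_lit 15540) (nat_lit 6) (nat_lit 185) (nat_lit 3) (nat_lit 55) (nat_lit 37) (nat_lit 58))))) (PT.nd (nat_lit 188) (PT.nd (nat_lit 94) (PT.lf (nat_lit 15624) (nat_lit 6) (nat_lit 186) (nat_lit 3) (nat_lit 56) (nat_lit 37) (nat_lit 57)) (PT.lf (nat_lit 15624) (nat_lit 6) (nat_lit 186) (nat_lit 1) (nat_lit 57) (nat_lit 37) (nat_lit 56))) (PT.nd (nat_lit 94) (PT.lf (nat_lit 15540) (nat_lit 6) (nat_lit 185) (nat_lit 1) (nat_lit 58) (nat_lit 37) (nat_lit 55))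 (PT.nd (nat_lit 94) (PT.lf (nat_lit 15456) (nat_lit 6) (nat_lit 184) (nat_lit 1) (nat_lit 59) (nat_lit 37) (nat_lit 54)) (PT.lf (nat_lit 15372) (nat_lit 6) (nat_lit 183) (nat_lit 1) (nat_lit 60) (nat_lit 37) (nat_lit 53))))))))
noncomputable def pc6 : PT := (PT.nd (nat_lit 37882) (PT.nd (nat_lit 36942) (PT.nd (nat_lit 36472) (PT.nd (nat_lit 188) (PT.nd (nat_lit 94) (PT.lf (nat_lit 15288) (nat_lit 6) (nat_lit 182) (nat_lit 1) (nat_lit 61) (nat_lit 37) (nat_lit 52)) (PT.lf (nat_lit 15204) (nat_lit 6) (nat_lit 181) (nat_lit 1) (nat_lit 62) (nat_lit 37) (nat_lit 51))) (PT.nd (nat_lit 94) (PT.lf (nat_lit 15120) (nat_lit 6) (nat_lit 180) (nat_lit 1) (nat_lit 63) (nat_lit 37) (nat_lit 50)) (PT.lf (nat_lit 13860) (nat_lit 6) (nat_lit 165) (nat_lit 1) (nat_lit 64) (nat_lit 37) (nat_lit 49)))) (PT.nd (nat_lit 188) (PT.nd (nat_lit 94) (PT.lf (nat_lit 13776) (nat_lit 6) (nat_lit 164) (nat_lit 3) (nat_lit 48) (nat_lit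 38) (nat_lit 64)) (PT.lf (nat_lit 15036) (nat_lit 6) (nat_lit 179) (nat_lit 3) (nat_lit 49) (nat_lit 38) (nat_lit 63))) (PT.nd (nat_lit 94) (PT.lf (nat_lit 16212) (nat_lit 6) (nat_lit 193) (nat_lit 3) (nat_lit 50) (nat_lit 38) (nat_lit 62)) (PT.nd (nat_lit 94) (PT.lf (nat_lit 16296) (nat_lit 6) (nat_lit 194) (nat_lit 3) (nat_lit 51) (nat_lit 38) (nat_lit 61)) (PT.lf (nat_lit 16380) (nat_lit 6) (nat_lit 195) (nat_lit 3) (nat_lit 52) (nat_lit 38) (nat_lit 60)))))) (PT.nd (nat_lit 470) (PT.nd (nat_lit 188) (PT.nd (nat_lit 94) (PT.lf (nat_lit 16464) (nat_lit 6) (nat_lit 196) (nat_lit 3) (nat_lit 53) (nat_lit 38) (nat_lit 59)) (PT.lf (nat_lit 16548) (nat_lit 6) (nat_lit 197) (nat_lit 3) (nat_lit 54) (nat_lit 38) (nat_lit 58))) (PT.nd (nat_lit 94) (PT.lf (nat_lit 16632) (nat_lit 6) (nat_lit 198) (nat_lit 3) (nat_lit 55) (nat_lit 38) (nat_lit 57)) (PT.nd (nat_lit 94) (PT.lf (nat_lit 16716) (nat_lit 3) (nat_lit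 199) (nat_lit 1) (nat_lit 56) (nat_lit 38) (nat_lit 56)) (PT.lf (nat_lit 16632) (nat_lit 6) (nat_lit 198) (nat_lit 1) (nat_lit 57) (nat_lit 38) (nat_lit 55))))) (PT.nd (nat_lit 188) (PT.nd (nat_lit 94) (PT.lf (nat_lit 16548) (nat_lit 6) (nat_lit 197) (nat_lit 1) (nat_lit 58) (nat_lit 38) (nat_lit 54)) (PT.lf (nat_lit 16464) (nat_lit 6) (nat_lit 196) (nat_lit 1) (nat_lit 59) (nat_lit 38) (nat_lit 53))) (PT.nd (nat_lit 94) (PT.lf (nat_lit 16380) (nat_lit 6) (nat_lit 195) (nat_lit 1) (nat_lit 60) (nat_lit 38) (nat_lit 52)) (PT.nd (nat_lit 94) (PT.lf (nat_lit 16296) (nat_lit 6) (nat_lit 194) (nat_lit 1) (nat_lit 61) (nat_lit 38) (nat_lit 51)) (PT.lf (nat_lit 16212) (nat_lit 6) (nat_lit 193) (nat_lit 1) (nat_lit 62) (nat_lit 38) (nat_lit 50))))))) (PT.nd (nat_lit 36942) (PT.nd (nat_lit 36472) (PT.nd (nat_lit 36190) (PT.nd (nat_lit 94) (PT.lf (nat_lit 15036) (nat_lit 6) (nat_lit 179) (nat_lit 1) (nat_lit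 63) (nat_lit 38) (nat_lit 49)) (PT.lf (nat_lit 13776) (nat_lit 6) (nat_lit 164) (nat_lit 1) (nat_lit 64) (nat_lit 38) (nat_lit 48))) (PT.nd (nat_lit 94) (PT.lf (nat_lit 13692) (nat_lit 6) (nat_lit 163) (nat_lit 3) (nat_lit 47) (nat_lit 39) (nat_lit 64)) (PT.nd (nat_lit 94) (PT.lf (nat_lit 14952) (nat_lit 6) (nat_lit 178) (nat_lit 3) (nat_lit 48) (nat_lit 39) (nat_lit 63)) (PT.lf (nat_lit 16128) (nat_lit 6) (nat_lit 192) (nat_lit 3) (nat_lit 49) (nat_lit 39) (nat_lit 62))))) (PT.nd (nat_lit 188) (PT.nd (nat_lit 94) (PT.lf (nat_lit 17220) (nat_lit 6) (nat_lit 205) (nat_lit 3) (nat_lit 50) (nat_lit 39) (nat_lit 61)) (PT.lf (nat_lit 17304) (nat_lit 6) (nat_lit 206) (nat_lit 3) (nat_lit 51) (nat_lit 39) (nat_lit 60))) (PT.nd (nat_lit 94) (PT.lf (nat_lit 17388) (nat_lit 6) (nat_lit 207) (nat_lit 3) (nat_lit 52) (nat_lit 39) (nat_lit 59)) (PT.nd (nat_lit 94) (PT.lf (nat_lit 17472) (nat_lit 6) (nat_lit 208)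 (nat_lit 3) (nat_lit 53) (nat_lit 39) (nat_lit 58)) (PT.lf (nat_lit 17556) (nat_lit 6) (nat_lit 209) (nat_lit 3) (nat_lit 54) (nat_lit 39) (nat_lit 57)))))) (PT.nd (nat_lit 470) (PT.nd (nat_lit 188) (PT.nd (nat_lit 94) (PT.lf (nat_lit 17640) (nat_lit 6) (nat_lit 210) (nat_lit 3) (nat_lit 55) (nat_lit 39) (nat_lit 56)) (PT.lf (nat_lit 17640) (nat_lit 6) (nat_lit 210) (nat_lit 1) (nat_lit 56) (nat_lit 39) (nat_lit 55))) (PT.nd (nat_lit 94) (PT.lf (nat_lit 17556) (nat_lit 6) (nat_lit 209) (nat_lit 1) (nat_lit 57) (nat_lit 39) (nat_lit 54)) (PT.nd (nat_lit 94) (PT.lf (nat_lit 17472) (nat_lit 6) (nat_lit 208) (nat_lit 1) (nat_lit 58) (nat_lit 39) (nat_lit 53)) (PT.lf (nat_lit 17388) (nat_lit 6) (nat_lit 207) (nat_lit 1) (nat_lit 59) (nat_lit 39) (nat_lit 52))))) (PT.nd (nat_lit 188) (PT.nd (nat_lit 94) (PT.lf (nat_lit 17304) (nat_lit 6) (nat_lit 206) (nat_lit 1) (nat_lit 60) (nat_lit 39) (nat_lit 51)) (PT.lf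 (nat_lit 17220) (nat_lit 6) (nat_lit 205) (nat_lit 1) (nat_lit 61) (nat_lit 39) (nat_lit 50))) (PT.nd (nat_lit 94) (PT.lf (nat_lit 16128) (nat_lit 6) (nat_lit 192) (nat_lit 1) (nat_lit 62) (nat_lit 39) (nat_lit 49)) (PT.nd (nat_lit 94) (PT.lf (nat_lit 14952) (nat_lit 6) (nat_lit 178) (nat_lit 1) (nat_lit 63) (nat_lit 39) (nat_lit 48)) (PT.lf (nat_lit 13692) (nat_lit 6) (nat_lit 163) (nat_lit 1) (nat_lit 64) (nat_lit 39) (nat_lit 47))))))))
noncomputable def pc7 : PT := (PT.nd (nat_lit 37694) (PT.nd (nat_lit 940) (PT.nd (nat_lit 470) (PT.nd (nat_lit 188) (PT.nd (nat_lit 94) (PT.lf (nat_lit 13608) (nat_lit 6) (nat_lit 162) (nat_lit 3) (nat_lit 46) (nat_lit 40) (nat_lit 64)) (PT.lf (nat_lit 14868) (nat_lit 6) (nat_lit 177) (nat_lit 3) (nat_lit 47) (nat_lit 40) (nat_lit 63))) (PT.nd (nat_lit 94) (PT.lf (nat_lit 16044) (nat_lit 6) (nat_lit 191) (nat_lit 3) (nat_lit 48) (nat_lit 40) (nat_lit 62)) (PT.nd (nat_lit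 94) (PT.lf (nat_lit 17136) (nat_lit 6) (nat_lit 204) (nat_lit 3) (nat_lit 49) (nat_lit 40) (nat_lit 61)) (PT.lf (nat_lit 18144) (nat_lit 6) (nat_lit 216) (nat_lit 3) (nat_lit 50) (nat_lit 40) (nat_lit 60))))) (PT.nd (nat_lit 188) (PT.nd (nat_lit 94) (PT.lf (nat_lit 18228) (nat_lit 6) (nat_lit 217) (nat_lit 3) (nat_lit 51) (nat_lit 40) (nat_lit 59)) (PT.lf (nat_lit 18312) (nat_lit 6) (nat_lit 218) (nat_lit 3) (nat_lit 52) (nat_lit 40) (nat_lit 58))) (PT.nd (nat_lit 94) (PT.lf (nat_lit 18396) (nat_lit 6) (nat_lit 219) (nat_lit 3) (nat_lit 53) (nat_lit 40) (nat_lit 57)) (PT.nd (nat_lit 94) (PT.lf (nat_lit 18480) (nat_lit 6) (nat_lit 220) (nat_lit 3) (nat_lit 54) (nat_lit 40) (nat_lit 56)) (PT.lf (nat_lit 18564) (nat_lit 3) (nat_lit 221) (nat_lit 1) (nat_lit 55) (nat_lit 40) (nat_lit 55)))))) (PT.nd (nat_lit 470) (PT.nd (nat_lit 188) (PT.nd (nat_lit 94) (PT.lf (nat_lit 18480) (nat_lit 6) (nat_lit 220) (nat_lit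 1) (nat_lit 56) (nat_lit 40) (nat_lit 54)) (PT.lf (nat_lit 18396) (nat_lit 6) (nat_lit 219) (nat_lit 1) (nat_lit 57) (nat_lit 40) (nat_lit 53))) (PT.nd (nat_lit 94) (PT.lf (nat_lit 18312) (nat_lit 6) (nat_lit 218) (nat_lit 1) (nat_lit 58) (nat_lit 40) (nat_lit 52)) (PT.nd (nat_lit 94) (PT.lf (nat_lit 18228) (nat_lit 6) (nat_lit 217) (nat_lit 1) (nat_lit 59) (nat_lit 40) (nat_lit 51)) (PT.lf (nat_lit 18144) (nat_lit 6) (nat_lit 216) (nat_lit 1) (nat_lit 60) (nat_lit 40) (nat_lit 50))))) (PT.nd (nat_lit 188) (PT.nd (nat_lit 94) (PT.lf (nat_lit 17136) (nat_lit 6) (nat_lit 204) (nat_lit 1) (nat_lit 61) (nat_lit 40) (nat_lit 49)) (PT.lf (nat_lit 16044) (nat_lit 6) (nat_lit 191) (nat_lit 1) (nat_lit 62) (nat_lit 40) (nat_lit 48))) (PT.nd (nat_lit 94) (PT.lf (nat_lit 14868) (nat_lit 6) (nat_lit 177) (nat_lit 1) (nat_lit 63) (nat_lit 40) (nat_lit 47)) (PT.nd (nat_lit 35908) (PT.lf (nat_lit 13608) (nat_lit 6)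 (nat_lit 162) (nat_lit 1) (nat_lit 64) (nat_lit 40) (nat_lit 46)) (PT.lf (nat_lit 13524) (nat_lit 6) (nat_lit 161) (nat_lit 3) (nat_lit 45) (nat_lit 41) (nat_lit 64))))))) (PT.nd (nat_lit 940) (PT.nd (nat_lit 470) (PT.nd (nat_lit 188) (PT.nd (nat_lit 94) (PT.lf (nat_lit 14784) (nat_lit 6) (nat_lit 176) (nat_lit 3) (nat_lit 46) (nat_lit 41) (nat_lit 63)) (PT.lf (nat_lit 15960) (nat_lit 6) (nat_lit 190) (nat_lit 3) (nat_lit 47) (nat_lit 41) (nat_lit 62))) (PT.nd (nat_lit 94) (PT.lf (nat_lit 17052) (nat_lit 6) (nat_lit 203) (nat_lit 3) (nat_lit 48) (nat_lit 41) (nat_lit 61)) (PT.nd (nat_lit 94) (PT.lf (nat_lit 18060) (nat_lit 6) (nat_lit 215) (nat_lit 3) (nat_lit 49) (nat_lit 41) (nat_lit 60)) (PT.lf (nat_lit 18984) (nat_lit 6) (nat_lit 226) (nat_lit 3) (nat_lit 50) (nat_lit 41) (nat_lit 59))))) (PT.nd (nat_lit 188) (PT.nd (nat_lit 94) (PT.lf (nat_lit 19068) (nat_lit 6) (nat_lit 227) (nat_lit 3) (nat_lit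 51) (nat_lit 41) (nat_lit 58)) (PT.lf (nat_lit 19152) (nat_lit 6) (nat_lit 228) (nat_lit 3) (nat_lit 52) (nat_lit 41) (nat_lit 57))) (PT.nd (nat_lit 94) (PT.lf (nat_lit 19236) (nat_lit 6) (nat_lit 229) (nat_lit 3) (nat_lit 53) (nat_lit 41) (nat_lit 56)) (PT.nd (nat_lit 94) (PT.lf (nat_lit 19320) (nat_lit 6) (nat_lit 230) (nat_lit 3) (nat_lit 54) (nat_lit 41) (nat_lit 55)) (PT.lf (nat_lit 19320) (nat_lit 6) (nat_lit 230) (nat_lit 1) (nat_lit 55) (nat_lit 41) (nat_lit 54)))))) (PT.nd (nat_lit 470) (PT.nd (nat_lit 188) (PT.nd (nat_lit 94) (PT.lf (nat_lit 19236) (nat_lit 6) (nat_lit 229) (nat_lit 1) (nat_lit 56) (nat_lit 41) (nat_lit 53)) (PT.lf (nat_lit 19152) (nat_lit 6) (nat_lit 228) (nat_lit 1) (nat_lit 57) (nat_lit 41) (nat_lit 52))) (PT.nd (nat_lit 94) (PT.lf (nat_lit 19068) (nat_lit 6) (nat_lit 227) (nat_lit 1) (nat_lit 58) (nat_lit 41) (nat_lit 51)) (PT.nd (nat_lit 94) (PT.lf (nat_lit 18984) (nat_lit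 6) (nat_lit 226) (nat_lit 1) (nat_lit 59) (nat_lit 41) (nat_lit 50)) (PT.lf (nat_lit 18060) (nat_lit 6) (nat_lit 215) (nat_lit 1) (nat_lit 60) (nat_lit 41) (nat_lit 49))))) (PT.nd (nat_lit 188) (PT.nd (nat_lit 94) (PT.lf (nat_lit 17052) (nat_lit 6) (nat_lit 203) (nat_lit 1) (nat_lit 61) (nat_lit 41) (nat_lit 48)) (PT.lf (nat_lit 15960) (nat_lit 6) (nat_lit 190) (nat_lit 1) (nat_lit 62) (nat_lit 41) (nat_lit 47))) (PT.nd (nat_lit 94) (PT.lf (nat_lit 14784) (nat_lit 6) (nat_lit 176) (nat_lit 1) (nat_lit 63) (nat_lit 41) (nat_lit 46)) (PT.nd (nat_lit 35814) (PT.lf (nat_lit 13524) (nat_lit 6) (nat_lit 161) (nat_lit 1) (nat_lit 64) (nat_lit 41) (nat_lit 45)) (PT.lf (nat_lit 13440) (nat_lit 6) (nat_lit 160) (nat_lit 3) (nat_lit 44) (nat_lit 42) (nat_lit 64))))))))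
noncomputable def pc8 : PT := (PT.nd (nat_lit 1786) (PT.nd (nat_lit 846) (PT.nd (nat_lit 376) (PT.nd (nat_lit 188) (PT.nd (nat_lit 94) (PT.lf (nat_lit 14700) (nat_lit 6) (nat_lit 175) (nat_lit 3) (nat_lit 45) (nat_lit 42) (nat_lit 63)) (PT.lf (nat_lit 15876) (nat_lit 6) (nat_lit 189) (nat_lit 3) (nat_lit 46) (nat_lit 42) (nat_lit 62))) (PT.nd (nat_lit 94) (PT.lf (nat_lit 16968) (nat_lit 6) (nat_lit 202) (nat_lit 3) (nat_lit 47) (nat_lit 42) (nat_lit 61)) (PT.lf (nat_lit 17976) (nat_lit 6) (nat_lit 214) (nat_lit 3) (nat_lit 48) (nat_lit 42) (nat_lit 60)))) (PT.nd (nat_lit 188) (PT.nd (nat_lit 94) (PT.lf (nat_lit 18900) (nat_lit 6) (nat_lit 225) (nat_lit 3) (nat_lit 49) (nat_lit 42) (nat_lit 59)) (PT.lf (nat_lit 19740) (nat_lit 6) (nat_lit 235) (nat_lit 3) (nat_lit 50) (nat_lit 42) (nat_lit 58))) (PT.nd (nat_lit 94) (PT.lf (nat_lit 19824) (nat_lit 6) (nat_lit 236) (nat_lit 3) (nat_lit 51) (nat_lit 42)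 (nat_lit 57)) (PT.nd (nat_lit 94) (PT.lf (nat_lit 19908) (nat_lit 6) (nat_lit 237) (nat_lit 3) (nat_lit 52) (nat_lit 42) (nat_lit 56)) (PT.lf (nat_lit 19992) (nat_lit 6) (nat_lit 238) (nat_lit 3) (nat_lit 53) (nat_lit 42) (nat_lit 55)))))) (PT.nd (nat_lit 470) (PT.nd (nat_lit 188) (PT.nd (nat_lit 94) (PT.lf (nat_lit 20076) (nat_lit 3) (nat_lit 239) (nat_lit 1) (nat_lit 54) (nat_lit 42) (nat_lit 54)) (PT.lf (nat_lit 19992) (nat_lit 6) (nat_lit 238) (nat_lit 1) (nat_lit 55) (nat_lit 42) (nat_lit 53))) (PT.nd (nat_lit 94) (PT.lf (nat_lit 19908) (nat_lit 6) (nat_lit 237) (nat_lit 1) (nat_lit 56) (nat_lit 42) (nat_lit 52)) (PT.nd (nat_lit 94) (PT.lf (nat_lit 19824) (nat_lit 6) (nat_lit 236) (nat_lit 1) (nat_lit 57) (nat_lit 42) (nat_lit 51)) (PT.lf (nat_lit 19740) (nat_lit 6) (nat_lit 235) (nat_lit 1) (nat_lit 58) (nat_lit 42) (nat_lit 50))))) (PT.nd (nat_lit 188) (PT.nd (nat_lit 94) (PT.lf (nat_lit 18900)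 (nat_lit 6) (nat_lit 225) (nat_lit 1) (nat_lit 59) (nat_lit 42) (nat_lit 49)) (PT.lf (nat_lit 17976) (nat_lit 6) (nat_lit 214) (nat_lit 1) (nat_lit 60) (nat_lit 42) (nat_lit 48))) (PT.nd (nat_lit 94) (PT.lf (nat_lit 16968) (nat_lit 6) (nat_lit 202) (nat_lit 1) (nat_lit 61) (nat_lit 42) (nat_lit 47)) (PT.nd (nat_lit 94) (PT.lf (nat_lit 15876) (nat_lit 6) (nat_lit 189) (nat_lit 1) (nat_lit 62) (nat_lit 42) (nat_lit 46)) (PT.lf (nat_lit 14700) (nat_lit 6) (nat_lit 175) (nat_lit 1) (nat_lit 63) (nat_lit 42) (nat_lit 45))))))) (PT.nd (nat_lit 36566) (PT.nd (nat_lit 36096) (PT.nd (nat_lit 35814) (PT.nd (nat_lit 35720) (PT.lf (nat_lit 13440) (nat_lit 6) (nat_lit 160) (nat_lit 1) (nat_lit 64) (nat_lit 42) (nat_lit 44)) (PT.lf (nat_lit 13356) (nat_lit 3) (nat_lit 159) (nat_lit 3) (nat_lit 43) (nat_lit 43) (nat_lit 64))) (PT.nd (nat_lit 94) (PT.lf (nat_lit 14616) (nat_lit 6) (nat_lit 174) (nat_lit 3) (nat_lit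 44) (nat_lit 43) (nat_lit 63)) (PT.nd (nat_lit 94) (PT.lf (nat_lit 15792) (nat_lit 6) (nat_lit 188) (nat_lit 3) (nat_lit 45) (nat_lit 43) (nat_lit 62)) (PT.lf (nat_lit 16884) (nat_lit 6) (nat_lit 201) (nat_lit 3) (nat_lit 46) (nat_lit 43) (nat_lit 61))))) (PT.nd (nat_lit 188) (PT.nd (nat_lit 94) (PT.lf (nat_lit 17892) (nat_lit 6) (nat_lit 213) (nat_lit 3) (nat_lit 47) (nat_lit 43) (nat_lit 60)) (PT.lf (nat_lit 18816) (nat_lit 6) (nat_lit 224) (nat_lit 3) (nat_lit 48) (nat_lit 43) (nat_lit 59))) (PT.nd (nat_lit 94) (PT.lf (nat_lit 19656) (nat_lit 6) (nat_lit 234) (nat_lit 3) (nat_lit 49) (nat_lit 43) (nat_lit 58)) (PT.nd (nat_lit 94) (PT.lf (nat_lit 20412) (nat_lit 6) (nat_lit 243) (nat_lit 3) (nat_lit 50) (nat_lit 43) (nat_lit 57)) (PT.lf (nat_lit 20496) (nat_lit 6) (nat_lit 244) (nat_lit 3) (nat_lit 51) (nat_lit 43) (nat_lit 56)))))) (PT.nd (nat_lit 470) (PT.nd (nat_lit 188) (PT.nd (nat_lit 94) (PT.lf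 (nat_lit 20580) (nat_lit 6) (nat_lit 245) (nat_lit 3) (nat_lit 52) (nat_lit 43) (nat_lit 55)) (PT.lf (nat_lit 20664) (nat_lit 6) (nat_lit 246) (nat_lit 3) (nat_lit 53) (nat_lit 43) (nat_lit 54))) (PT.nd (nat_lit 94) (PT.lf (nat_lit 20664) (nat_lit 6) (nat_lit 246) (nat_lit 1) (nat_lit 54) (nat_lit 43) (nat_lit 53)) (PT.nd (nat_lit 94) (PT.lf (nat_lit 20580) (nat_lit 6) (nat_lit 245) (nat_lit 1) (nat_lit 55) (nat_lit 43) (nat_lit 52)) (PT.lf (nat_lit 20496) (nat_lit 6) (nat_lit 244) (nat_lit 1) (nat_lit 56) (nat_lit 43) (nat_lit 51))))) (PT.nd (nat_lit 188) (PT.nd (nat_lit 94) (PT.lf (nat_lit 20412) (nat_lit 6) (nat_lit 243) (nat_lit 1) (nat_lit 57) (nat_lit 43) (nat_lit 50)) (PT.lf (nat_lit 19656) (nat_lit 6) (nat_lit 234) (nat_lit 1) (nat_lit 58) (nat_lit 43) (nat_lit 49))) (PT.nd (nat_lit 94) (PT.lf (nat_lit 18816) (nat_lit 6) (nat_lit 224) (nat_lit 1) (nat_lit 59) (nat_lit 43) (nat_lit 48)) (PT.nd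 (nat_lit 94) (PT.lf (nat_lit 17892) (nat_lit 6) (nat_lit 213) (nat_lit 1) (nat_lit 60) (nat_lit 43) (nat_lit 47)) (PT.lf (nat_lit 16884) (nat_lit 6) (nat_lit 201) (nat_lit 1) (nat_lit 61) (nat_lit 43) (nat_lit 46))))))))
noncomputable def pc9 : PT := (PT.nd (nat_lit 37318) (PT.nd (nat_lit 36378) (PT.nd (nat_lit 35908) (PT.nd (nat_lit 188) (PT.nd (nat_lit 94) (PT.lf (nat_lit 15792) (nat_lit 6) (nat_lit 188) (nat_lit 1) (nat_lit 62) (nat_lit 43) (nat_lit 45)) (PT.lf (nat_lit 14616) (nat_lit 6) (nat_lit 174) (nat_lit 1) (nat_lit 63) (nat_lit 43) (nat_lit 44))) (PT.nd (nat_lit 35626) (PT.lf (nat_lit 13356) (nat_lit 3) (nat_lit 159) (nat_lit 0) (nat_lit 64) (nat_lit 43) (nat_lit 43)) (PT.lf (nat_lit 13440) (nat_lit 6) (nat_lit 160) (nat_lit 5) (nat_lit 42) (nat_lit 44) (nat_lit 64)))) (PT.nd (nat_lit 188) (PT.nd (nat_lit 94) (PT.lf (nat_lit 14616) (nat_lit 6) (nat_lit 174) (nat_lit 5) (nat_lit 43) (nat_lit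 44) (nat_lit 63)) (PT.lf (nat_lit 15708) (nat_lit 3) (nat_lit 187) (nat_lit 3) (nat_lit 44) (nat_lit 44) (nat_lit 62))) (PT.nd (nat_lit 94) (PT.lf (nat_lit 16800) (nat_lit 6) (nat_lit 200) (nat_lit 3) (nat_lit 45) (nat_lit 44) (nat_lit 61)) (PT.nd (nat_lit 94) (PT.lf (nat_lit 17808) (nat_lit 6) (nat_lit 212) (nat_lit 3) (nat_lit 46) (nat_lit 44) (nat_lit 60)) (PT.lf (nat_lit 18732) (nat_lit 6) (nat_lit 223) (nat_lit 3) (nat_lit 47) (nat_lit 44) (nat_lit 59)))))) (PT.nd (nat_lit 470) (PT.nd (nat_lit 188) (PT.nd (nat_lit 94) (PT.lf (nat_lit 19572) (nat_lit 6) (nat_lit 233) (nat_lit 3) (nat_lit 48) (nat_lit 44) (nat_lit 58)) (PT.lf (nat_lit 20328) (nat_lit 6) (nat_lit 242) (nat_lit 3) (nat_lit 49) (nat_lit 44) (nat_lit 57))) (PT.nd (nat_lit 94) (PT.lf (nat_lit 21000) (nat_lit 6) (nat_lit 250) (nat_lit 3) (nat_lit 50) (nat_lit 44) (nat_lit 56)) (PT.nd (nat_lit 94) (PT.lf (nat_lit 21084) (nat_lit 6) (nat_lit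 251) (nat_lit 3) (nat_lit 51) (nat_lit 44) (nat_lit 55)) (PT.lf (nat_lit 21168) (nat_lit 6) (nat_lit 252) (nat_lit 3) (nat_lit 52) (nat_lit 44) (nat_lit 54))))) (PT.nd (nat_lit 188) (PT.nd (nat_lit 94) (PT.lf (nat_lit 21252) (nat_lit 3) (nat_lit 253) (nat_lit 1) (nat_lit 53) (nat_lit 44) (nat_lit 53)) (PT.lf (nat_lit 21168) (nat_lit 6) (nat_lit 252) (nat_lit 1) (nat_lit 54) (nat_lit 44) (nat_lit 52))) (PT.nd (nat_lit 94) (PT.lf (nat_lit 21084) (nat_lit 6) (nat_lit 251) (nat_lit 1) (nat_lit 55) (nat_lit 44) (nat_lit 51)) (PT.nd (nat_lit 94) (PT.lf (nat_lit 21000) (nat_lit 6) (nat_lit 250) (nat_lit 1) (nat_lit 56) (nat_lit 44) (nat_lit 50)) (PT.lf (nat_lit 20328) (nat_lit 6) (nat_lit 242) (nat_lit 1) (nat_lit 57) (nat_lit 44) (nat_lit 49))))))) (PT.nd (nat_lit 36378) (PT.nd (nat_lit 470) (PT.nd (nat_lit 188) (PT.nd (nat_lit 94) (PT.lf (nat_lit 19572) (nat_lit 6) (nat_lit 233) (nat_lit 1) (nat_lit 58)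 (nat_lit 44) (nat_lit 48)) (PT.lf (nat_lit 18732) (nat_lit 6) (nat_lit 223) (nat_lit 1) (nat_lit 59) (nat_lit 44) (nat_lit 47))) (PT.nd (nat_lit 94) (PT.lf (nat_lit 17808) (nat_lit 6) (nat_lit 212) (nat_lit 1) (nat_lit 60) (nat_lit 44) (nat_lit 46)) (PT.nd (nat_lit 94) (PT.lf (nat_lit 16800) (nat_lit 6) (nat_lit 200) (nat_lit 1) (nat_lit 61) (nat_lit 44) (nat_lit 45)) (PT.lf (nat_lit 15708) (nat_lit 3) (nat_lit 187) (nat_lit 0) (nat_lit 62) (nat_lit 44) (nat_lit 44))))) (PT.nd (nat_lit 35626) (PT.nd (nat_lit 94) (PT.lf (nat_lit 14616) (nat_lit 6) (nat_lit 174) (nat_lit 0) (nat_lit 63) (nat_lit 44) (nat_lit 43)) (PT.lf (nat_lit 13440) (nat_lit 6) (nat_lit 160) (nat_lit 0) (nat_lit 64) (nat_lit 44) (nat_lit 42))) (PT.nd (nat_lit 94) (PT.lf (nat_lit 13524) (nat_lit 6) (nat_lit 161) (nat_lit 5) (nat_lit 41) (nat_lit 45) (nat_lit 64)) (PT.nd (nat_lit 94) (PT.lf (nat_lit 14700) (nat_lit 6) (nat_lit 175) (nat_lit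 5) (nat_lit 42) (nat_lit 45) (nat_lit 63)) (PT.lf (nat_lit 15792) (nat_lit 6) (nat_lit 188) (nat_lit 5) (nat_lit 43) (nat_lit 45) (nat_lit 62)))))) (PT.nd (nat_lit 470) (PT.nd (nat_lit 188) (PT.nd (nat_lit 94) (PT.lf (nat_lit 16800) (nat_lit 6) (nat_lit 200) (nat_lit 5) (nat_lit 44) (nat_lit 45) (nat_lit 61)) (PT.lf (nat_lit 17724) (nat_lit 3) (nat_lit 211) (nat_lit 3) (nat_lit 45) (nat_lit 45) (nat_lit 60))) (PT.nd (nat_lit 94) (PT.lf (nat_lit 18648) (nat_lit 6) (nat_lit 222) (nat_lit 3) (nat_lit 46) (nat_lit 45) (nat_lit 59)) (PT.nd (nat_lit 94) (PT.lf (nat_lit 19488) (nat_lit 6) (nat_lit 232) (nat_lit 3) (nat_lit 47) (nat_lit 45) (nat_lit 58)) (PT.lf (nat_lit 20244) (nat_lit 6) (nat_lit 241) (nat_lit 3) (nat_lit 48) (nat_lit 45) (nat_lit 57))))) (PT.nd (nat_lit 188) (PT.nd (nat_lit 94) (PT.lf (nat_lit 20916) (nat_lit 6) (nat_lit 249) (nat_lit 3) (nat_lit 49) (nat_lit 45) (nat_lit 56)) (PT.lf (nat_lit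 21504) (nat_lit 6) (nat_lit 256) (nat_lit 3) (nat_lit 50) (nat_lit 45) (nat_lit 55))) (PT.nd (nat_lit 94) (PT.lf (nat_lit 21588) (nat_lit 6) (nat_lit 257) (nat_lit 3) (nat_lit 51) (nat_lit 45) (nat_lit 54)) (PT.nd (nat_lit 94) (PT.lf (nat_lit 21672) (nat_lit 6) (nat_lit 258) (nat_lit 3) (nat_lit 52) (nat_lit 45) (nat_lit 53)) (PT.lf (nat_lit 21672) (nat_lit 6) (nat_lit 258) (nat_lit 1) (nat_lit 53) (nat_lit 45) (nat_lit 52))))))))
noncomputable def pc10 : PT := (PT.nd (nat_lit 37130) (PT.nd (nat_lit 846) (PT.nd (nat_lit 376) (PT.nd (nat_lit 188) (PT.nd (nat_lit 94) (PT.lf (nat_lit 21588) (nat_lit 6) (nat_lit 257) (nat_lit 1) (nat_lit 54) (nat_lit 45) (nat_lit 51)) (PT.lf (nat_lit 21504) (nat_lit 6) (nat_lit 256) (nat_lit 1) (nat_lit 55) (nat_lit 45) (nat_lit 50))) (PT.nd (nat_lit 94) (PT.lf (nat_lit 20916) (nat_lit 6) (nat_lit 249) (nat_lit 1) (nat_lit 56) (nat_lit 45) (nat_lit 49)) (PT.lf (nat_lit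 20244) (nat_lit 6) (nat_lit 241) (nat_lit 1) (nat_lit 57) (nat_lit 45) (nat_lit 48)))) (PT.nd (nat_lit 188) (PT.nd (nat_lit 94) (PT.lf (nat_lit 19488) (nat_lit 6) (nat_lit 232) (nat_lit 1) (nat_lit 58) (nat_lit 45) (nat_lit 47)) (PT.lf (nat_lit 18648) (nat_lit 6) (nat_lit 222) (nat_lit 1) (nat_lit 59) (nat_lit 45) (nat_lit 46))) (PT.nd (nat_lit 94) (PT.lf (nat_lit 17724) (nat_lit 3) (nat_lit 211) (nat_lit 0) (nat_lit 60) (nat_lit 45) (nat_lit 45)) (PT.nd (nat_lit 94) (PT.lf (nat_lit 16800) (nat_lit 6) (nat_lit 200) (nat_lit 0) (nat_lit 61) (nat_lit 45) (nat_lit 44)) (PT.lf (nat_lit 15792) (nat_lit 6) (nat_lit 188) (nat_lit 0) (nat_lit 62) (nat_lit 45) (nat_lit 43)))))) (PT.nd (nat_lit 35814) (PT.nd (nat_lit 35532) (PT.nd (nat_lit 94) (PT.lf (nat_lit 14700) (nat_lit 6) (nat_lit 175) (nat_lit 0) (nat_lit 63) (nat_lit 45) (nat_lit 42)) (PT.lf (nat_lit 13524) (nat_lit 6) (nat_lit 161) (nat_lit 0) (nat_lit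 64) (nat_lit 45) (nat_lit 41))) (PT.nd (nat_lit 94) (PT.lf (nat_lit 13608) (nat_lit 6) (nat_lit 162) (nat_lit 5) (nat_lit 40) (nat_lit 46) (nat_lit 64)) (PT.nd (nat_lit 94) (PT.lf (nat_lit 14784) (nat_lit 6) (nat_lit 176) (nat_lit 5) (nat_lit 41) (nat_lit 46) (nat_lit 63)) (PT.lf (nat_lit 15876) (nat_lit 6) (nat_lit 189) (nat_lit 5) (nat_lit 42) (nat_lit 46) (nat_lit 62))))) (PT.nd (nat_lit 188) (PT.nd (nat_lit 94) (PT.lf (nat_lit 16884) (nat_lit 6) (nat_lit 201) (nat_lit 5) (nat_lit 43) (nat_lit 46) (nat_lit 61)) (PT.lf (nat_lit 17808) (nat_lit 6) (nat_lit 212) (nat_lit 5) (nat_lit 44) (nat_lit 46) (nat_lit 60))) (PT.nd (nat_lit 94) (PT.lf (nat_lit 18648) (nat_lit 6) (nat_lit 222) (nat_lit 5) (nat_lit 45) (nat_lit 46) (nat_lit 59)) (PT.nd (nat_lit 94) (PT.lf (nat_lit 19404) (nat_lit 3) (nat_lit 231) (nat_lit 3) (nat_lit 46) (nat_lit 46) (nat_lit 58)) (PT.lf (nat_lit 20160) (nat_lit 6) (nat_lit 240)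 (nat_lit 3) (nat_lit 47) (nat_lit 46) (nat_lit 57))))))) (PT.nd (nat_lit 940) (PT.nd (nat_lit 470) (PT.nd (nat_lit 188) (PT.nd (nat_lit 94) (PT.lf (nat_lit 20832) (nat_lit 6) (nat_lit 248) (nat_lit 3) (nat_lit 48) (nat_lit 46) (nat_lit 56)) (PT.lf (nat_lit 21420) (nat_lit 6) (nat_lit 255) (nat_lit 3) (nat_lit 49) (nat_lit 46) (nat_lit 55))) (PT.nd (nat_lit 94) (PT.lf (nat_lit 21924) (nat_lit 6) (nat_lit 261) (nat_lit 3) (nat_lit 50) (nat_lit 46) (nat_lit 54)) (PT.nd (nat_lit 94) (PT.lf (nat_lit 22008) (nat_lit 6) (nat_lit 262) (nat_lit 3) (nat_lit 51) (nat_lit 46) (nat_lit 53)) (PT.lf (nat_lit 22092) (nat_lit 3) (nat_lit 263) (nat_lit 1) (nat_lit 52) (nat_lit 46) (nat_lit 52))))) (PT.nd (nat_lit 188) (PT.nd (nat_lit 94) (PT.lf (nat_lit 22008) (nat_lit 6) (nat_lit 262) (nat_lit 1) (nat_lit 53) (nat_lit 46) (nat_lit 51)) (PT.lf (nat_lit 21924) (nat_lit 6) (nat_lit 261) (nat_lit 1) (nat_lit 54) (nat_lit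 46) (nat_lit 50))) (PT.nd (nat_lit 94) (PT.lf (nat_lit 21420) (nat_lit 6) (nat_lit 255) (nat_lit 1) (nat_lit 55) (nat_lit 46) (nat_lit 49)) (PT.nd (nat_lit 94) (PT.lf (nat_lit 20832) (nat_lit 6) (nat_lit 248) (nat_lit 1) (nat_lit 56) (nat_lit 46) (nat_lit 48)) (PT.lf (nat_lit 20160) (nat_lit 6) (nat_lit 240) (nat_lit 1) (nat_lit 57) (nat_lit 46) (nat_lit 47)))))) (PT.nd (nat_lit 470) (PT.nd (nat_lit 188) (PT.nd (nat_lit 94) (PT.lf (nat_lit 19404) (nat_lit 3) (nat_lit 231) (nat_lit 0) (nat_lit 58) (nat_lit 46) (nat_lit 46)) (PT.lf (nat_lit 18648) (nat_lit 6) (nat_lit 222) (nat_lit 0) (nat_lit 59) (nat_lit 46) (nat_lit 45))) (PT.nd (nat_lit 94) (PT.lf (nat_lit 17808) (nat_lit 6) (nat_lit 212) (nat_lit 0) (nat_lit 60) (nat_lit 46) (nat_lit 44)) (PT.nd (nat_lit 94) (PT.lf (nat_lit 16884) (nat_lit 6) (nat_lit 201) (nat_lit 0) (nat_lit 61) (nat_lit 46) (nat_lit 43)) (PT.lf (nat_lit 15876) (nat_lit 6) (nat_lit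 189) (nat_lit 0) (nat_lit 62) (nat_lit 46) (nat_lit 42))))) (PT.nd (nat_lit 35438) (PT.nd (nat_lit 94) (PT.lf (nat_lit 14784) (nat_lit 6) (nat_lit 176) (nat_lit 0) (nat_lit 63) (nat_lit 46) (nat_lit 41)) (PT.lf (nat_lit 13608) (nat_lit 6) (nat_lit 162) (nat_lit 0) (nat_lit 64) (nat_lit 46) (nat_lit 40))) (PT.nd (nat_lit 94) (PT.lf (nat_lit 13692) (nat_lit 6) (nat_lit 163) (nat_lit 5) (nat_lit 39) (nat_lit 47) (nat_lit 64)) (PT.nd (nat_lit 94) (PT.lf (nat_lit 14868) (nat_lit 6) (nat_lit 177) (nat_lit 5) (nat_lit 40) (nat_lit 47) (nat_lit 63)) (PT.lf (nat_lit 15960) (nat_lit 6) (nat_lit 190) (nat_lit 5) (nat_lit 41) (nat_lit 47) (nat_lit 62))))))))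
noncomputable def pc11 : PT := (PT.nd (nat_lit 1786) (PT.nd (nat_lit 846) (PT.nd (nat_lit 376) (PT.nd (nat_lit 188) (PT.nd (nat_lit 94) (PT.lf (nat_lit 16968) (nat_lit 6) (nat_lit 202) (nat_lit 5) (nat_lit 42) (nat_lit 47) (nat_lit 61)) (PT.lf (nat_lit 17892) (nat_lit 6) (nat_lit 213) (nat_lit 5) (nat_lit 43) (nat_lit 47) (nat_lit 60))) (PT.nd (nat_lit 94) (PT.lf (nat_lit 18732) (nat_lit 6) (nat_lit 223) (nat_lit 5) (nat_lit 44) (nat_lit 47) (nat_lit 59)) (PT.lf (nat_lit 19488) (nat_lit 6) (nat_lit 232) (nat_lit 5) (nat_lit 45) (nat_lit 47) (nat_lit 58)))) (PT.nd (nat_lit 188) (PT.nd (nat_lit 94) (PT.lf (nat_lit 20160) (nat_lit 6) (nat_lit 240) (nat_lit 5) (nat_lit 46) (nat_lit 47) (nat_lit 57)) (PT.lf (nat_lit 20748) (nat_lit 3) (nat_lit 247) (nat_lit 3) (nat_lit 47) (nat_lit 47) (nat_lit 56))) (PT.nd (nat_lit 94) (PT.lf (nat_lit 21336) (nat_lit 6) (nat_lit 254) (nat_lit 3) (nat_lit 48) (nat_lit 47)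 (nat_lit 55)) (PT.nd (nat_lit 94) (PT.lf (nat_lit 21840) (nat_lit 6) (nat_lit 260) (nat_lit 3) (nat_lit 49) (nat_lit 47) (nat_lit 54)) (PT.lf (nat_lit 22260) (nat_lit 6) (nat_lit 265) (nat_lit 3) (nat_lit 50) (nat_lit 47) (nat_lit 53)))))) (PT.nd (nat_lit 470) (PT.nd (nat_lit 188) (PT.nd (nat_lit 94) (PT.lf (nat_lit 22344) (nat_lit 6) (nat_lit 266) (nat_lit 3) (nat_lit 51) (nat_lit 47) (nat_lit 52)) (PT.lf (nat_lit 22344) (nat_lit 6) (nat_lit 266) (nat_lit 1) (nat_lit 52) (nat_lit 47) (nat_lit 51))) (PT.nd (nat_lit 94) (PT.lf (nat_lit 22260) (nat_lit 6) (nat_lit 265) (nat_lit 1) (nat_lit 53) (nat_lit 47) (nat_lit 50)) (PT.nd (nat_lit 94) (PT.lf (nat_lit 21840) (nat_lit 6) (nat_lit 260) (nat_lit 1) (nat_lit 54) (nat_lit 47) (nat_lit 49)) (PT.lf (nat_lit 21336) (nat_lit 6) (nat_lit 254) (nat_lit 1) (nat_lit 55) (nat_lit 47) (nat_lit 48))))) (PT.nd (nat_lit 188) (PT.nd (nat_lit 94) (PT.lf (nat_lit 20748)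 (nat_lit 3) (nat_lit 247) (nat_lit 0) (nat_lit 56) (nat_lit 47) (nat_lit 47)) (PT.lf (nat_lit 20160) (nat_lit 6) (nat_lit 240) (nat_lit 0) (nat_lit 57) (nat_lit 47) (nat_lit 46))) (PT.nd (nat_lit 94) (PT.lf (nat_lit 19488) (nat_lit 6) (nat_lit 232) (nat_lit 0) (nat_lit 58) (nat_lit 47) (nat_lit 45)) (PT.nd (nat_lit 94) (PT.lf (nat_lit 18732) (nat_lit 6) (nat_lit 223) (nat_lit 0) (nat_lit 59) (nat_lit 47) (nat_lit 44)) (PT.lf (nat_lit 17892) (nat_lit 6) (nat_lit 213) (nat_lit 0) (nat_lit 60) (nat_lit 47) (nat_lit 43))))))) (PT.nd (nat_lit 36096) (PT.nd (nat_lit 35626) (PT.nd (nat_lit 188) (PT.nd (nat_lit 94) (PT.lf (nat_lit 16968) (nat_lit 6) (nat_lit 202) (nat_lit 0) (nat_lit 61) (nat_lit 47) (nat_lit 42)) (PT.lf (nat_lit 15960) (nat_lit 6) (nat_lit 190) (nat_lit 0) (nat_lit 62) (nat_lit 47) (nat_lit 41))) (PT.nd (nat_lit 94) (PT.lf (nat_lit 14868) (nat_lit 6) (nat_lit 177) (nat_lit 0) (nat_lit 63)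 (nat_lit 47) (nat_lit 40)) (PT.nd (nat_lit 35250) (PT.lf (nat_lit 13692) (nat_lit 6) (nat_lit 163) (nat_lit 0) (nat_lit 64) (nat_lit 47) (nat_lit 39)) (PT.lf (nat_lit 13776) (nat_lit 6) (nat_lit 164) (nat_lit 5) (nat_lit 38) (nat_lit 48) (nat_lit 64))))) (PT.nd (nat_lit 188) (PT.nd (nat_lit 94) (PT.lf (nat_lit 14952) (nat_lit 6) (nat_lit 178) (nat_lit 5) (nat_lit 39) (nat_lit 48) (nat_lit 63)) (PT.lf (nat_lit 16044) (nat_lit 6) (nat_lit 191) (nat_lit 5) (nat_lit 40) (nat_lit 48) (nat_lit 62))) (PT.nd (nat_lit 94) (PT.lf (nat_lit 17052) (nat_lit 6) (nat_lit 203) (nat_lit 5) (nat_lit 41) (nat_lit 48) (nat_lit 61)) (PT.nd (nat_lit 94) (PT.lf (nat_lit 17976) (nat_lit 6) (nat_lit 214) (nat_lit 5) (nat_lit 42) (nat_lit 48) (nat_lit 60)) (PT.lf (nat_lit 18816) (nat_lit 6) (nat_lit 224) (nat_lit 5) (nat_lit 43) (nat_lit 48) (nat_lit 59)))))) (PT.nd (nat_lit 470) (PT.nd (nat_lit 188) (PT.nd (nat_lit 94) (PT.lf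 (nat_lit 19572) (nat_lit 6) (nat_lit 233) (nat_lit 5) (nat_lit 44) (nat_lit 48) (nat_lit 58)) (PT.lf (nat_lit 20244) (nat_lit 6) (nat_lit 241) (nat_lit 5) (nat_lit 45) (nat_lit 48) (nat_lit 57))) (PT.nd (nat_lit 94) (PT.lf (nat_lit 20832) (nat_lit 6) (nat_lit 248) (nat_lit 5) (nat_lit 46) (nat_lit 48) (nat_lit 56)) (PT.nd (nat_lit 94) (PT.lf (nat_lit 21336) (nat_lit 6) (nat_lit 254) (nat_lit 5) (nat_lit 47) (nat_lit 48) (nat_lit 55)) (PT.lf (nat_lit 21756) (nat_lit 3) (nat_lit 259) (nat_lit 3) (nat_lit 48) (nat_lit 48) (nat_lit 54))))) (PT.nd (nat_lit 188) (PT.nd (nat_lit 94) (PT.lf (nat_lit 22176) (nat_lit 6) (nat_lit 264) (nat_lit 3) (nat_lit 49) (nat_lit 48) (nat_lit 53)) (PT.lf (nat_lit 22512) (nat_lit 6) (nat_lit 268) (nat_lit 3) (nat_lit 50) (nat_lit 48) (nat_lit 52))) (PT.nd (nat_lit 94) (PT.lf (nat_lit 22596) (nat_lit 3) (nat_lit 269) (nat_lit 1) (nat_lit 51) (nat_lit 48) (nat_lit 51)) (PT.nd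 (nat_lit 94) (PT.lf (nat_lit 22512) (nat_lit 6) (nat_lit 268) (nat_lit 1) (nat_lit 52) (nat_lit 48) (nat_lit 50)) (PT.lf (nat_lit 22176) (nat_lit 6) (nat_lit 264) (nat_lit 1) (nat_lit 53) (nat_lit 48) (nat_lit 49))))))))
noncomputable def pc12 : PT := (PT.nd (nat_lit 36848) (PT.nd (nat_lit 846) (PT.nd (nat_lit 376) (PT.nd (nat_lit 188) (PT.nd (nat_lit 94) (PT.lf (nat_lit 21756) (nat_lit 3) (nat_lit 259) (nat_lit 0) (nat_lit 54) (nat_lit 48) (nat_lit 48)) (PT.lf (nat_lit 21336) (nat_lit 6) (nat_lit 254) (nat_lit 0) (nat_lit 55) (nat_lit 48) (nat_lit 47))) (PT.nd (nat_lit 94) (PT.lf (nat_lit 20832) (nat_lit 6) (nat_lit 248) (nat_lit 0) (nat_lit 56) (nat_lit 48) (nat_lit 46)) (PT.lf (nat_lit 20244) (nat_lit 6) (nat_lit 241) (nat_lit 0) (nat_lit 57) (nat_lit 48) (nat_lit 45)))) (PT.nd (nat_lit 188) (PT.nd (nat_lit 94) (PT.lf (nat_lit 19572) (nat_lit 6) (nat_lit 233) (nat_lit 0) (nat_lit 58) (nat_lit 48)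 (nat_lit 44)) (PT.lf (nat_lit 18816) (nat_lit 6) (nat_lit 224) (nat_lit 0) (nat_lit 59) (nat_lit 48) (nat_lit 43))) (PT.nd (nat_lit 94) (PT.lf (nat_lit 17976) (nat_lit 6) (nat_lit 214) (nat_lit 0) (nat_lit 60) (nat_lit 48) (nat_lit 42)) (PT.nd (nat_lit 94) (PT.lf (nat_lit 17052) (nat_lit 6) (nat_lit 203) (nat_lit 0) (nat_lit 61) (nat_lit 48) (nat_lit 41)) (PT.lf (nat_lit 16044) (nat_lit 6) (nat_lit 191) (nat_lit 0) (nat_lit 62) (nat_lit 48) (nat_lit 40)))))) (PT.nd (nat_lit 35532) (PT.nd (nat_lit 35250) (PT.nd (nat_lit 94) (PT.lf (nat_lit 14952) (nat_lit 6) (nat_lit 178) (nat_lit 0) (nat_lit 63) (nat_lit 48) (nat_lit 39)) (PT.lf (nat_lit 13776) (nat_lit 6) (nat_lit 164) (nat_lit 0) (nat_lit 64) (nat_lit 48) (nat_lit 38))) (PT.nd (nat_lit 94) (PT.lf (nat_lit 13860) (nat_lit 6) (nat_lit 165) (nat_lit 5) (nat_lit 37) (nat_lit 49) (nat_lit 64)) (PT.nd (nat_lit 94) (PT.lf (nat_lit 15036) (nat_lit 6) (nat_lit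 179) (nat_lit 5) (nat_lit 38) (nat_lit 49) (nat_lit 63)) (PT.lf (nat_lit 16128) (nat_lit 6) (nat_lit 192) (nat_lit 5) (nat_lit 39) (nat_lit 49) (nat_lit 62))))) (PT.nd (nat_lit 188) (PT.nd (nat_lit 94) (PT.lf (nat_lit 17136) (nat_lit 6) (nat_lit 204) (nat_lit 5) (nat_lit 40) (nat_lit 49) (nat_lit 61)) (PT.lf (nat_lit 18060) (nat_lit 6) (nat_lit 215) (nat_lit 5) (nat_lit 41) (nat_lit 49) (nat_lit 60))) (PT.nd (nat_lit 94) (PT.lf (nat_lit 18900) (nat_lit 6) (nat_lit 225) (nat_lit 5) (nat_lit 42) (nat_lit 49) (nat_lit 59)) (PT.nd (nat_lit 94) (PT.lf (nat_lit 19656) (nat_lit 6) (nat_lit 234) (nat_lit 5) (nat_lit 43) (nat_lit 49) (nat_lit 58)) (PT.lf (nat_lit 20328) (nat_lit 6) (nat_lit 242) (nat_lit 5) (nat_lit 44) (nat_lit 49) (nat_lit 57))))))) (PT.nd (nat_lit 940) (PT.nd (nat_lit 470) (PT.nd (nat_lit 188) (PT.nd (nat_lit 94) (PT.lf (nat_lit 20916) (nat_lit 6) (nat_lit 249) (nat_lit 5) (nat_lit 45) (nat_lit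 49) (nat_lit 56)) (PT.lf (nat_lit 21420) (nat_lit 6) (nat_lit 255) (nat_lit 5) (nat_lit 46) (nat_lit 49) (nat_lit 55))) (PT.nd (nat_lit 94) (PT.lf (nat_lit 21840) (nat_lit 6) (nat_lit 260) (nat_lit 5) (nat_lit 47) (nat_lit 49) (nat_lit 54)) (PT.nd (nat_lit 94) (PT.lf (nat_lit 22176) (nat_lit 6) (nat_lit 264) (nat_lit 5) (nat_lit 48) (nat_lit 49) (nat_lit 53)) (PT.lf (nat_lit 22428) (nat_lit 3) (nat_lit 267) (nat_lit 3) (nat_lit 49) (nat_lit 49) (nat_lit 52))))) (PT.nd (nat_lit 188) (PT.nd (nat_lit 94) (PT.lf (nat_lit 22680) (nat_lit 6) (nat_lit 270) (nat_lit 3) (nat_lit 50) (nat_lit 49) (nat_lit 51)) (PT.lf (nat_lit 22680) (nat_lit 6) (nat_lit 270) (nat_lit 1) (nat_lit 51) (nat_lit 49) (nat_lit 50))) (PT.nd (nat_lit 94) (PT.lf (nat_lit 22428) (nat_lit 3) (nat_lit 267) (nat_lit 0) (nat_lit 52) (nat_lit 49) (nat_lit 49)) (PT.nd (nat_lit 94) (PT.lf (nat_lit 22176) (nat_lit 6) (nat_lit 264) (nat_lit 0)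 (nat_lit 53) (nat_lit 49) (nat_lit 48)) (PT.lf (nat_lit 21840) (nat_lit 6) (nat_lit 260) (nat_lit 0) (nat_lit 54) (nat_lit 49) (nat_lit 47)))))) (PT.nd (nat_lit 470) (PT.nd (nat_lit 188) (PT.nd (nat_lit 94) (PT.lf (nat_lit 21420) (nat_lit 6) (nat_lit 255) (nat_lit 0) (nat_lit 55) (nat_lit 49) (nat_lit 46)) (PT.lf (nat_lit 20916) (nat_lit 6) (nat_lit 249) (nat_lit 0) (nat_lit 56) (nat_lit 49) (nat_lit 45))) (PT.nd (nat_lit 94) (PT.lf (nat_lit 20328) (nat_lit 6) (nat_lit 242) (nat_lit 0) (nat_lit 57) (nat_lit 49) (nat_lit 44)) (PT.nd (nat_lit 94) (PT.lf (nat_lit 19656) (nat_lit 6) (nat_lit 234) (nat_lit 0) (nat_lit 58) (nat_lit 49) (nat_lit 43)) (PT.lf (nat_lit 18900) (nat_lit 6) (nat_lit 225) (nat_lit 0) (nat_lit 59) (nat_lit 49) (nat_lit 42))))) (PT.nd (nat_lit 188) (PT.nd (nat_lit 94) (PT.lf (nat_lit 18060) (nat_lit 6) (nat_lit 215) (nat_lit 0) (nat_lit 60) (nat_lit 49) (nat_lit 41)) (PT.lf (nat_lit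 17136) (nat_lit 6) (nat_lit 204) (nat_lit 0) (nat_lit 61) (nat_lit 49) (nat_lit 40))) (PT.nd (nat_lit 94) (PT.lf (nat_lit 16128) (nat_lit 6) (nat_lit 192) (nat_lit 0) (nat_lit 62) (nat_lit 49) (nat_lit 39)) (PT.nd (nat_lit 94) (PT.lf (nat_lit 15036) (nat_lit 6) (nat_lit 179) (nat_lit 0) (nat_lit 63) (nat_lit 49) (nat_lit 38)) (PT.lf (nat_lit 13860) (nat_lit 6) (nat_lit 165) (nat_lit 0) (nat_lit 64) (nat_lit 49) (nat_lit 37))))))))
noncomputable def pc13 : PT := (PT.nd (nat_lit 1786) (PT.nd (nat_lit 846) (PT.nd (nat_lit 376) (PT.nd (nat_lit 188) (PT.nd (nat_lit 94) (PT.lf (nat_lit 12684) (nat_lit 6) (nat_lit 151) (nat_lit 5) (nat_lit 35) (nat_lit 50) (nat_lit 65)) (PT.lf (nat_lit 13944) (nat_lit 6) (nat_lit 166) (nat_lit 5) (nat_lit 36) (nat_lit 50) (nat_lit 64))) (PT.nd (nat_lit 94) (PT.lf (nat_lit 15120) (nat_lit 6) (nat_lit 180) (nat_lit 5) (nat_lit 37) (nat_lit 50) (nat_lit 63)) (PT.lf (nat_lit 16212)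 (nat_lit 6) (nat_lit 193) (nat_lit 5) (nat_lit 38) (nat_lit 50) (nat_lit 62)))) (PT.nd (nat_lit 188) (PT.nd (nat_lit 94) (PT.lf (nat_lit 17220) (nat_lit 6) (nat_lit 205) (nat_lit 5) (nat_lit 39) (nat_lit 50) (nat_lit 61)) (PT.lf (nat_lit 18144) (nat_lit 6) (nat_lit 216) (nat_lit 5) (nat_lit 40) (nat_lit 50) (nat_lit 60))) (PT.nd (nat_lit 94) (PT.lf (nat_lit 18984) (nat_lit 6) (nat_lit 226) (nat_lit 5) (nat_lit 41) (nat_lit 50) (nat_lit 59)) (PT.nd (nat_lit 94) (PT.lf (nat_lit 19740) (nat_lit 6) (nat_lit 235) (nat_lit 5) (nat_lit 42) (nat_lit 50) (nat_lit 58)) (PT.lf (nat_lit 20412) (nat_lit 6) (nat_lit 243) (nat_lit 5) (nat_lit 43) (nat_lit 50) (nat_lit 57)))))) (PT.nd (nat_lit 470) (PT.nd (nat_lit 188) (PT.nd (nat_lit 94) (PT.lf (nat_lit 21000) (nat_lit 6) (nat_lit 250) (nat_lit 5) (nat_lit 44) (nat_lit 50) (nat_lit 56)) (PT.lf (nat_lit 21504) (nat_lit 6) (nat_lit 256) (nat_lit 5) (nat_lit 45) (nat_lit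 50) (nat_lit 55))) (PT.nd (nat_lit 94) (PT.lf (nat_lit 21924) (nat_lit 6) (nat_lit 261) (nat_lit 5) (nat_lit 46) (nat_lit 50) (nat_lit 54)) (PT.nd (nat_lit 94) (PT.lf (nat_lit 22260) (nat_lit 6) (nat_lit 265) (nat_lit 5) (nat_lit 47) (nat_lit 50) (nat_lit 53)) (PT.lf (nat_lit 22512) (nat_lit 6) (nat_lit 268) (nat_lit 5) (nat_lit 48) (nat_lit 50) (nat_lit 52))))) (PT.nd (nat_lit 188) (PT.nd (nat_lit 94) (PT.lf (nat_lit 22680) (nat_lit 6) (nat_lit 270) (nat_lit 5) (nat_lit 49) (nat_lit 50) (nat_lit 51)) (PT.lf (nat_lit 22764) (nat_lit 1) (nat_lit 271) (nat_lit 0) (nat_lit 50) (nat_lit 50) (nat_lit 50))) (PT.nd (nat_lit 94) (PT.lf (nat_lit 22680) (nat_lit 6) (nat_lit 270) (nat_lit 0) (nat_lit 51) (nat_lit 50) (nat_lit 49)) (PT.nd (nat_lit 94) (PT.lf (nat_lit 22512) (nat_lit 6) (nat_lit 268) (nat_lit 0) (nat_lit 52) (nat_lit 50) (nat_lit 48)) (PT.lf (nat_lit 22260) (nat_lit 6) (nat_lit 265) (nat_lit 0)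 (nat_lit 53) (nat_lit 50) (nat_lit 47))))))) (PT.nd (nat_lit 940) (PT.nd (nat_lit 470) (PT.nd (nat_lit 188) (PT.nd (nat_lit 94) (PT.lf (nat_lit 21924) (nat_lit 6) (nat_lit 261) (nat_lit 0) (nat_lit 54) (nat_lit 50) (nat_lit 46)) (PT.lf (nat_lit 21504) (nat_lit 6) (nat_lit 256) (nat_lit 0) (nat_lit 55) (nat_lit 50) (nat_lit 45))) (PT.nd (nat_lit 94) (PT.lf (nat_lit 21000) (nat_lit 6) (nat_lit 250) (nat_lit 0) (nat_lit 56) (nat_lit 50) (nat_lit 44)) (PT.nd (nat_lit 94) (PT.lf (nat_lit 20412) (nat_lit 6) (nat_lit 243) (nat_lit 0) (nat_lit 57) (nat_lit 50) (nat_lit 43)) (PT.lf (nat_lit 19740) (nat_lit 6) (nat_lit 235) (nat_lit 0) (nat_lit 58) (nat_lit 50) (nat_lit 42))))) (PT.nd (nat_lit 188) (PT.nd (nat_lit 94) (PT.lf (nat_lit 18984) (nat_lit 6) (nat_lit 226) (nat_lit 0) (nat_lit 59) (nat_lit 50) (nat_lit 41)) (PT.lf (nat_lit 18144) (nat_lit 6) (nat_lit 216) (nat_lit 0) (nat_lit 60) (nat_lit 50) (nat_lit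 40))) (PT.nd (nat_lit 94) (PT.lf (nat_lit 17220) (nat_lit 6) (nat_lit 205) (nat_lit 0) (nat_lit 61) (nat_lit 50) (nat_lit 39)) (PT.nd (nat_lit 94) (PT.lf (nat_lit 16212) (nat_lit 6) (nat_lit 193) (nat_lit 0) (nat_lit 62) (nat_lit 50) (nat_lit 38)) (PT.lf (nat_lit 15120) (nat_lit 6) (nat_lit 180) (nat_lit 0) (nat_lit 63) (nat_lit 50) (nat_lit 37)))))) (PT.nd (nat_lit 35156) (PT.nd (nat_lit 34874) (PT.nd (nat_lit 94) (PT.lf (nat_lit 13944) (nat_lit 6) (nat_lit 166) (nat_lit 0) (nat_lit 64) (nat_lit 50) (nat_lit 36)) (PT.lf (nat_lit 12684) (nat_lit 6) (nat_lit 151) (nat_lit 0) (nat_lit 65) (nat_lit 50) (nat_lit 35))) (PT.nd (nat_lit 94) (PT.lf (nat_lit 12012) (nat_lit 6) (nat_lit 143) (nat_lit 5) (nat_lit 34) (nat_lit 51) (nat_lit 65)) (PT.nd (nat_lit 94) (PT.lf (nat_lit 12768) (nat_lit 6) (nat_lit 152) (nat_lit 5) (nat_lit 35) (nat_lit 51) (nat_lit 64)) (PT.lf (nat_lit 14028) (nat_lit 6) (nat_lit 167)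 (nat_lit 5) (nat_lit 36) (nat_lit 51) (nat_lit 63))))) (PT.nd (nat_lit 188) (PT.nd (nat_lit 94) (PT.lf (nat_lit 15204) (nat_lit 6) (nat_lit 181) (nat_lit 5) (nat_lit 37) (nat_lit 51) (nat_lit 62)) (PT.lf (nat_lit 16296) (nat_lit 6) (nat_lit 194) (nat_lit 5) (nat_lit 38) (nat_lit 51) (nat_lit 61))) (PT.nd (nat_lit 94) (PT.lf (nat_lit 17304) (nat_lit 6) (nat_lit 206) (nat_lit 5) (nat_lit 39) (nat_lit 51) (nat_lit 60)) (PT.nd (nat_lit 94) (PT.lf (nat_lit 18228) (nat_lit 6) (nat_lit 217) (nat_lit 5) (nat_lit 40) (nat_lit 51) (nat_lit 59)) (PT.lf (nat_lit 19068) (nat_lit 6) (nat_lit 227) (nat_lit 5) (nat_lit 41) (nat_lit 51) (nat_lit 58))))))))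
noncomputable def pc14 : PT := (PT.nd (nat_lit 1786) (PT.nd (nat_lit 846) (PT.nd (nat_lit 376) (PT.nd (nat_lit 188) (PT.nd (nat_lit 94) (PT.lf (nat_lit 19824) (nat_lit 6) (nat_lit 236) (nat_lit 5) (nat_lit 42) (nat_lit 51) (nat_lit 57)) (PT.lf (nat_lit 20496) (nat_lit 6) (nat_lit 244) (nat_lit 5) (nat_lit 43) (nat_lit 51) (nat_lit 56))) (PT.nd (nat_lit 94) (PT.lf (nat_lit 21084) (nat_lit 6) (nat_lit 251) (nat_lit 5) (nat_lit 44) (nat_lit 51) (nat_lit 55)) (PT.lf (nat_lit 21588) (nat_lit 6) (nat_lit 257) (nat_lit 5) (nat_lit 45) (nat_lit 51) (nat_lit 54)))) (PT.nd (nat_lit 188) (PT.nd (nat_lit 94) (PT.lf (nat_lit 22008) (nat_lit 6) (nat_lit 262) (nat_lit 5) (nat_lit 46) (nat_lit 51) (nat_lit 53)) (PT.lf (nat_lit 22344) (nat_lit 6) (nat_lit 266) (nat_lit 5) (nat_lit 47) (nat_lit 51) (nat_lit 52))) (PT.nd (nat_lit 94) (PT.lf (nat_lit 22596) (nat_lit 3) (nat_lit 269) (nat_lit 4) (nat_lit 48) (nat_lit 51)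 (nat_lit 51)) (PT.nd (nat_lit 94) (PT.lf (nat_lit 22680) (nat_lit 6) (nat_lit 270) (nat_lit 4) (nat_lit 49) (nat_lit 51) (nat_lit 50)) (PT.lf (nat_lit 22680) (nat_lit 6) (nat_lit 270) (nat_lit 2) (nat_lit 50) (nat_lit 51) (nat_lit 49)))))) (PT.nd (nat_lit 470) (PT.nd (nat_lit 188) (PT.nd (nat_lit 94) (PT.lf (nat_lit 22596) (nat_lit 3) (nat_lit 269) (nat_lit 0) (nat_lit 51) (nat_lit 51) (nat_lit 48)) (PT.lf (nat_lit 22344) (nat_lit 6) (nat_lit 266) (nat_lit 0) (nat_lit 52) (nat_lit 51) (nat_lit 47))) (PT.nd (nat_lit 94) (PT.lf (nat_lit 22008) (nat_lit 6) (nat_lit 262) (nat_lit 0) (nat_lit 53) (nat_lit 51) (nat_lit 46)) (PT.nd (nat_lit 94) (PT.lf (nat_lit 21588) (nat_lit 6) (nat_lit 257) (nat_lit 0) (nat_lit 54) (nat_lit 51) (nat_lit 45)) (PT.lf (nat_lit 21084) (nat_lit 6) (nat_lit 251) (nat_lit 0) (nat_lit 55) (nat_lit 51) (nat_lit 44))))) (PT.nd (nat_lit 188) (PT.nd (nat_lit 94) (PT.lf (nat_lit 20496)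 (nat_lit 6) (nat_lit 244) (nat_lit 0) (nat_lit 56) (nat_lit 51) (nat_lit 43)) (PT.lf (nat_lit 19824) (nat_lit 6) (nat_lit 236) (nat_lit 0) (nat_lit 57) (nat_lit 51) (nat_lit 42))) (PT.nd (nat_lit 94) (PT.lf (nat_lit 19068) (nat_lit 6) (nat_lit 227) (nat_lit 0) (nat_lit 58) (nat_lit 51) (nat_lit 41)) (PT.nd (nat_lit 94) (PT.lf (nat_lit 18228) (nat_lit 6) (nat_lit 217) (nat_lit 0) (nat_lit 59) (nat_lit 51) (nat_lit 40)) (PT.lf (nat_lit 17304) (nat_lit 6) (nat_lit 206) (nat_lit 0) (nat_lit 60) (nat_lit 51) (nat_lit 39))))))) (PT.nd (nat_lit 35532) (PT.nd (nat_lit 35062) (PT.nd (nat_lit 188) (PT.nd (nat_lit 94) (PT.lf (nat_lit 16296) (nat_lit 6) (nat_lit 194) (nat_lit 0) (nat_lit 61) (nat_lit 51) (nat_lit 38)) (PT.lf (nat_lit 15204) (nat_lit 6) (nat_lit 181) (nat_lit 0) (nat_lit 62) (nat_lit 51) (nat_lit 37))) (PT.nd (nat_lit 94) (PT.lf (nat_lit 14028) (nat_lit 6) (nat_lit 167) (nat_lit 0) (nat_lit 63)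 (nat_lit 51) (nat_lit 36)) (PT.nd (nat_lit 94) (PT.lf (nat_lit 12768) (nat_lit 6) (nat_lit 152) (nat_lit 0) (nat_lit 64) (nat_lit 51) (nat_lit 35)) (PT.lf (nat_lit 12012) (nat_lit 6) (nat_lit 143) (nat_lit 0) (nat_lit 65) (nat_lit 51) (nat_lit 34))))) (PT.nd (nat_lit 188) (PT.nd (nat_lit 94) (PT.lf (nat_lit 11424) (nat_lit 6) (nat_lit 136) (nat_lit 5) (nat_lit 33) (nat_lit 52) (nat_lit 65)) (PT.lf (nat_lit 12096) (nat_lit 6) (nat_lit 144) (nat_lit 5) (nat_lit 34) (nat_lit 52) (nat_lit 64))) (PT.nd (nat_lit 94) (PT.lf (nat_lit 12852) (nat_lit 6) (nat_lit 153) (nat_lit 5) (nat_lit 35) (nat_lit 52) (nat_lit 63)) (PT.nd (nat_lit 94) (PT.lf (nat_lit 14112) (nat_lit 6) (nat_lit 168) (nat_lit 5) (nat_lit 36) (nat_lit 52) (nat_lit 62)) (PT.lf (nat_lit 15288) (nat_lit 6) (nat_lit 182) (nat_lit 5) (nat_lit 37) (nat_lit 52) (nat_lit 61)))))) (PT.nd (nat_lit 470) (PT.nd (nat_lit 188) (PT.nd (nat_lit 94) (PT.lf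 (nat_lit 16380) (nat_lit 6) (nat_lit 195) (nat_lit 5) (nat_lit 38) (nat_lit 52) (nat_lit 60)) (PT.lf (nat_lit 17388) (nat_lit 6) (nat_lit 207) (nat_lit 5) (nat_lit 39) (nat_lit 52) (nat_lit 59))) (PT.nd (nat_lit 94) (PT.lf (nat_lit 18312) (nat_lit 6) (nat_lit 218) (nat_lit 5) (nat_lit 40) (nat_lit 52) (nat_lit 58)) (PT.nd (nat_lit 94) (PT.lf (nat_lit 19152) (nat_lit 6) (nat_lit 228) (nat_lit 5) (nat_lit 41) (nat_lit 52) (nat_lit 57)) (PT.lf (nat_lit 19908) (nat_lit 6) (nat_lit 237) (nat_lit 5) (nat_lit 42) (nat_lit 52) (nat_lit 56))))) (PT.nd (nat_lit 188) (PT.nd (nat_lit 94) (PT.lf (nat_lit 20580) (nat_lit 6) (nat_lit 245) (nat_lit 5) (nat_lit 43) (nat_lit 52) (nat_lit 55)) (PT.lf (nat_lit 21168) (nat_lit 6) (nat_lit 252) (nat_lit 5) (nat_lit 44) (nat_lit 52) (nat_lit 54))) (PT.nd (nat_lit 94) (PT.lf (nat_lit 21672) (nat_lit 6) (nat_lit 258) (nat_lit 5) (nat_lit 45) (nat_lit 52) (nat_lit 53)) (PT.nd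 (nat_lit 94) (PT.lf (nat_lit 22092) (nat_lit 3) (nat_lit 263) (nat_lit 4) (nat_lit 46) (nat_lit 52) (nat_lit 52)) (PT.lf (nat_lit 22344) (nat_lit 6) (nat_lit 266) (nat_lit 4) (nat_lit 47) (nat_lit 52) (nat_lit 51))))))))
noncomputable def pc15 : PT := (PT.nd (nat_lit 36378) (PT.nd (nat_lit 940) (PT.nd (nat_lit 470) (PT.nd (nat_lit 188) (PT.nd (nat_lit 94) (PT.lf (nat_lit 22512) (nat_lit 6) (nat_lit 268) (nat_lit 4) (nat_lit 48) (nat_lit 52) (nat_lit 50)) (PT.lf (nat_lit 22428) (nat_lit 3) (nat_lit 267) (nat_lit 2) (nat_lit 49) (nat_lit 52) (nat_lit 49))) (PT.nd (nat_lit 94) (PT.lf (nat_lit 22512) (nat_lit 6) (nat_lit 268) (nat_lit 2) (nat_lit 50) (nat_lit 52) (nat_lit 48)) (PT.nd (nat_lit 94) (PT.lf (nat_lit 22344) (nat_lit 6) (nat_lit 266) (nat_lit 2) (nat_lit 51) (nat_lit 52) (nat_lit 47)) (PT.lf (nat_lit 22092) (nat_lit 3) (nat_lit 263) (nat_lit 0) (nat_lit 52) (nat_lit 52) (nat_lit 46))))) (PT.nd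 (nat_lit 188) (PT.nd (nat_lit 94) (PT.lf (nat_lit 21672) (nat_lit 6) (nat_lit 258) (nat_lit 0) (nat_lit 53) (nat_lit 52) (nat_lit 45)) (PT.lf (nat_lit 21168) (nat_lit 6) (nat_lit 252) (nat_lit 0) (nat_lit 54) (nat_lit 52) (nat_lit 44))) (PT.nd (nat_lit 94) (PT.lf (nat_lit 20580) (nat_lit 6) (nat_lit 245) (nat_lit 0) (nat_lit 55) (nat_lit 52) (nat_lit 43)) (PT.nd (nat_lit 94) (PT.lf (nat_lit 19908) (nat_lit 6) (nat_lit 237) (nat_lit 0) (nat_lit 56) (nat_lit 52) (nat_lit 42)) (PT.lf (nat_lit 19152) (nat_lit 6) (nat_lit 228) (nat_lit 0) (nat_lit 57) (nat_lit 52) (nat_lit 41)))))) (PT.nd (nat_lit 470) (PT.nd (nat_lit 188) (PT.nd (nat_lit 94) (PT.lf (nat_lit 18312) (nat_lit 6) (nat_lit 218) (nat_lit 0) (nat_lit 58) (nat_lit 52) (nat_lit 40)) (PT.lf (nat_lit 17388) (nat_lit 6) (nat_lit 207) (nat_lit 0) (nat_lit 59) (nat_lit 52) (nat_lit 39))) (PT.nd (nat_lit 94) (PT.lf (nat_lit 16380) (nat_lit 6) (nat_lit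 195) (nat_lit 0) (nat_lit 60) (nat_lit 52) (nat_lit 38)) (PT.nd (nat_lit 94) (PT.lf (nat_lit 15288) (nat_lit 6) (nat_lit 182) (nat_lit 0) (nat_lit 61) (nat_lit 52) (nat_lit 37)) (PT.lf (nat_lit 14112) (nat_lit 6) (nat_lit 168) (nat_lit 0) (nat_lit 62) (nat_lit 52) (nat_lit 36))))) (PT.nd (nat_lit 188) (PT.nd (nat_lit 94) (PT.lf (nat_lit 12852) (nat_lit 6) (nat_lit 153) (nat_lit 0) (nat_lit 63) (nat_lit 52) (nat_lit 35)) (PT.lf (nat_lit 12096) (nat_lit 6) (nat_lit 144) (nat_lit 0) (nat_lit 64) (nat_lit 52) (nat_lit 34))) (PT.nd (nat_lit 34592) (PT.lf (nat_lit 11424) (nat_lit 6) (nat_lit 136) (nat_lit 0) (nat_lit 65) (nat_lit 52) (nat_lit 33)) (PT.nd (nat_lit 94) (PT.lf (nat_lit 10836) (nat_lit 6) (nat_lit 129) (nat_lit 5) (nat_lit 32) (nat_lit 53) (nat_lit 65)) (PT.lf (nat_lit 11508) (nat_lit 6) (nat_lit 137) (nat_lit 5) (nat_lit 33) (nat_lit 53) (nat_lit 64))))))) (PT.nd (nat_lit 940) (PT.nd (nat_lit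 470) (PT.nd (nat_lit 188) (PT.nd (nat_lit 94) (PT.lf (nat_lit 12180) (nat_lit 6) (nat_lit 145) (nat_lit 5) (nat_lit 34) (nat_lit 53) (nat_lit 63)) (PT.lf (nat_lit 12936) (nat_lit 6) (nat_lit 154) (nat_lit 5) (nat_lit 35) (nat_lit 53) (nat_lit 62))) (PT.nd (nat_lit 94) (PT.lf (nat_lit 14196) (nat_lit 6) (nat_lit 169) (nat_lit 5) (nat_lit 36) (nat_lit 53) (nat_lit 61)) (PT.nd (nat_lit 94) (PT.lf (nat_lit 15372) (nat_lit 6) (nat_lit 183) (nat_lit 5) (nat_lit 37) (nat_lit 53) (nat_lit 60)) (PT.lf (nat_lit 16464) (nat_lit 6) (nat_lit 196) (nat_lit 5) (nat_lit 38) (nat_lit 53) (nat_lit 59))))) (PT.nd (nat_lit 188) (PT.nd (nat_lit 94) (PT.lf (nat_lit 17472) (nat_lit 6) (nat_lit 208) (nat_lit 5) (nat_lit 39) (nat_lit 53) (nat_lit 58)) (PT.lf (nat_lit 18396) (nat_lit 6) (nat_lit 219) (nat_lit 5) (nat_lit 40) (nat_lit 53) (nat_lit 57))) (PT.nd (nat_lit 94) (PT.lf (nat_lit 19236) (nat_lit 6) (nat_lit 229) (nat_lit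 5) (nat_lit 41) (nat_lit 53) (nat_lit 56)) (PT.nd (nat_lit 94) (PT.lf (nat_lit 19992) (nat_lit 6) (nat_lit 238) (nat_lit 5) (nat_lit 42) (nat_lit 53) (nat_lit 55)) (PT.lf (nat_lit 20664) (nat_lit 6) (nat_lit 246) (nat_lit 5) (nat_lit 43) (nat_lit 53) (nat_lit 54)))))) (PT.nd (nat_lit 470) (PT.nd (nat_lit 188) (PT.nd (nat_lit 94) (PT.lf (nat_lit 21252) (nat_lit 3) (nat_lit 253) (nat_lit 4) (nat_lit 44) (nat_lit 53) (nat_lit 53)) (PT.lf (nat_lit 21672) (nat_lit 6) (nat_lit 258) (nat_lit 4) (nat_lit 45) (nat_lit 53) (nat_lit 52))) (PT.nd (nat_lit 94) (PT.lf (nat_lit 22008) (nat_lit 6) (nat_lit 262) (nat_lit 4) (nat_lit 46) (nat_lit 53) (nat_lit 51)) (PT.nd (nat_lit 94) (PT.lf (nat_lit 22260) (nat_lit 6) (nat_lit 265) (nat_lit 4) (nat_lit 47) (nat_lit 53) (nat_lit 50)) (PT.lf (nat_lit 22176) (nat_lit 6) (nat_lit 264) (nat_lit 4) (nat_lit 48) (nat_lit 53) (nat_lit 49))))) (PT.nd (nat_lit 188) (PT.nd (nat_lit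 94) (PT.lf (nat_lit 22176) (nat_lit 6) (nat_lit 264) (nat_lit 2) (nat_lit 49) (nat_lit 53) (nat_lit 48)) (PT.lf (nat_lit 22260) (nat_lit 6) (nat_lit 265) (nat_lit 2) (nat_lit 50) (nat_lit 53) (nat_lit 47))) (PT.nd (nat_lit 94) (PT.lf (nat_lit 22008) (nat_lit 6) (nat_lit 262) (nat_lit 2) (nat_lit 51) (nat_lit 53) (nat_lit 46)) (PT.nd (nat_lit 94) (PT.lf (nat_lit 21672) (nat_lit 6) (nat_lit 258) (nat_lit 2) (nat_lit 52) (nat_lit 53) (nat_lit 45)) (PT.lf (nat_lit 21252) (nat_lit 3) (nat_lit 253) (nat_lit 0) (nat_lit 53) (nat_lit 53) (nat_lit 44))))))))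
noncomputable def pc16 : PT := (PT.nd (nat_lit 36096) (PT.nd (nat_lit 846) (PT.nd (nat_lit 376) (PT.nd (nat_lit 188) (PT.nd (nat_lit 94) (PT.lf (nat_lit 20664) (nat_lit 6) (nat_lit 246) (nat_lit 0) (nat_lit 54) (nat_lit 53) (nat_lit 43)) (PT.lf (nat_lit 19992) (nat_lit 6) (nat_lit 238) (nat_lit 0) (nat_lit 55) (nat_lit 53) (nat_lit 42))) (PT.nd (nat_lit 94) (PT.lf (nat_lit 19236) (nat_lit 6) (nat_lit 229) (nat_lit 0) (nat_lit 56) (nat_lit 53) (nat_lit 41)) (PT.lf (nat_lit 18396) (nat_lit 6) (nat_lit 219) (nat_lit 0) (nat_lit 57) (nat_lit 53) (nat_lit 40)))) (PT.nd (nat_lit 188) (PT.nd (nat_lit 94) (PT.lf (nat_lit 17472) (nat_lit 6) (nat_lit 208) (nat_lit 0) (nat_lit 58) (nat_lit 53) (nat_lit 39)) (PT.lf (nat_lit 16464) (nat_lit 6) (nat_lit 196) (nat_lit 0) (nat_lit 59) (nat_lit 53) (nat_lit 38))) (PT.nd (nat_lit 94) (PT.lf (nat_lit 15372) (nat_lit 6) (nat_lit 183) (nat_lit 0) (nat_lit 60) (nat_lit 53)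 (nat_lit 37)) (PT.nd (nat_lit 94) (PT.lf (nat_lit 14196) (nat_lit 6) (nat_lit 169) (nat_lit 0) (nat_lit 61) (nat_lit 53) (nat_lit 36)) (PT.lf (nat_lit 12936) (nat_lit 6) (nat_lit 154) (nat_lit 0) (nat_lit 62) (nat_lit 53) (nat_lit 35)))))) (PT.nd (nat_lit 34780) (PT.nd (nat_lit 188) (PT.nd (nat_lit 94) (PT.lf (nat_lit 12180) (nat_lit 6) (nat_lit 145) (nat_lit 0) (nat_lit 63) (nat_lit 53) (nat_lit 34)) (PT.lf (nat_lit 11508) (nat_lit 6) (nat_lit 137) (nat_lit 0) (nat_lit 64) (nat_lit 53) (nat_lit 33))) (PT.nd (nat_lit 34404) (PT.lf (nat_lit 10836) (nat_lit 6) (nat_lit 129) (nat_lit 0) (nat_lit 65) (nat_lit 53) (nat_lit 32)) (PT.nd (nat_lit 94) (PT.lf (nat_lit 9744) (nat_lit 6) (nat_lit 116) (nat_lit 5) (nat_lit 30) (nat_lit 54) (nat_lit 66)) (PT.lf (nat_lit 10332) (nat_lit 6) (nat_lit 123) (nat_lit 5) (nat_lit 31) (nat_lit 54) (nat_lit 65))))) (PT.nd (nat_lit 188) (PT.nd (nat_lit 94) (PT.lf (nat_lit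 10920) (nat_lit 6) (nat_lit 130) (nat_lit 5) (nat_lit 32) (nat_lit 54) (nat_lit 64)) (PT.lf (nat_lit 11592) (nat_lit 6) (nat_lit 138) (nat_lit 5) (nat_lit 33) (nat_lit 54) (nat_lit 63))) (PT.nd (nat_lit 94) (PT.lf (nat_lit 12264) (nat_lit 6) (nat_lit 146) (nat_lit 5) (nat_lit 34) (nat_lit 54) (nat_lit 62)) (PT.nd (nat_lit 94) (PT.lf (nat_lit 13020) (nat_lit 6) (nat_lit 155) (nat_lit 5) (nat_lit 35) (nat_lit 54) (nat_lit 61)) (PT.lf (nat_lit 14280) (nat_lit 6) (nat_lit 170) (nat_lit 5) (nat_lit 36) (nat_lit 54) (nat_lit 60))))))) (PT.nd (nat_lit 940) (PT.nd (nat_lit 470) (PT.nd (nat_lit 188) (PT.nd (nat_lit 94) (PT.lf (nat_lit 15456) (nat_lit 6) (nat_lit 184) (nat_lit 5) (nat_lit 37) (nat_lit 54) (nat_lit 59)) (PT.lf (nat_lit 16548) (nat_lit 6) (nat_lit 197) (nat_lit 5) (nat_lit 38) (nat_lit 54) (nat_lit 58))) (PT.nd (nat_lit 94) (PT.lf (nat_lit 17556) (nat_lit 6) (nat_lit 209) (nat_lit 5) (nat_lit 39)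 (nat_lit 54) (nat_lit 57)) (PT.nd (nat_lit 94) (PT.lf (nat_lit 18480) (nat_lit 6) (nat_lit 220) (nat_lit 5) (nat_lit 40) (nat_lit 54) (nat_lit 56)) (PT.lf (nat_lit 19320) (nat_lit 6) (nat_lit 230) (nat_lit 5) (nat_lit 41) (nat_lit 54) (nat_lit 55))))) (PT.nd (nat_lit 188) (PT.nd (nat_lit 94) (PT.lf (nat_lit 20076) (nat_lit 3) (nat_lit 239) (nat_lit 4) (nat_lit 42) (nat_lit 54) (nat_lit 54)) (PT.lf (nat_lit 20664) (nat_lit 6) (nat_lit 246) (nat_lit 4) (nat_lit 43) (nat_lit 54) (nat_lit 53))) (PT.nd (nat_lit 94) (PT.lf (nat_lit 21168) (nat_lit 6) (nat_lit 252) (nat_lit 4) (nat_lit 44) (nat_lit 54) (nat_lit 52)) (PT.nd (nat_lit 94) (PT.lf (nat_lit 21588) (nat_lit 6) (nat_lit 257) (nat_lit 4) (nat_lit 45) (nat_lit 54) (nat_lit 51)) (PT.lf (nat_lit 21924) (nat_lit 6) (nat_lit 261) (nat_lit 4) (nat_lit 46) (nat_lit 54) (nat_lit 50)))))) (PT.nd (nat_lit 470) (PT.nd (nat_lit 188) (PT.nd (nat_lit 94) (PT.lf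 (nat_lit 21840) (nat_lit 6) (nat_lit 260) (nat_lit 4) (nat_lit 47) (nat_lit 54) (nat_lit 49)) (PT.lf (nat_lit 21756) (nat_lit 3) (nat_lit 259) (nat_lit 2) (nat_lit 48) (nat_lit 54) (nat_lit 48))) (PT.nd (nat_lit 94) (PT.lf (nat_lit 21840) (nat_lit 6) (nat_lit 260) (nat_lit 2) (nat_lit 49) (nat_lit 54) (nat_lit 47)) (PT.nd (nat_lit 94) (PT.lf (nat_lit 21924) (nat_lit 6) (nat_lit 261) (nat_lit 2) (nat_lit 50) (nat_lit 54) (nat_lit 46)) (PT.lf (nat_lit 21588) (nat_lit 6) (nat_lit 257) (nat_lit 2) (nat_lit 51) (nat_lit 54) (nat_lit 45))))) (PT.nd (nat_lit 188) (PT.nd (nat_lit 94) (PT.lf (nat_lit 21168) (nat_lit 6) (nat_lit 252) (nat_lit 2) (nat_lit 52) (nat_lit 54) (nat_lit 44)) (PT.lf (nat_lit 20664) (nat_lit 6) (nat_lit 246) (nat_lit 2) (nat_lit 53) (nat_lit 54) (nat_lit 43))) (PT.nd (nat_lit 94) (PT.lf (nat_lit 20076) (nat_lit 3) (nat_lit 239) (nat_lit 0) (nat_lit 54) (nat_lit 54) (nat_lit 42)) (PT.nd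 (nat_lit 94) (PT.lf (nat_lit 19320) (nat_lit 6) (nat_lit 230) (nat_lit 0) (nat_lit 55) (nat_lit 54) (nat_lit 41)) (PT.lf (nat_lit 18480) (nat_lit 6) (nat_lit 220) (nat_lit 0) (nat_lit 56) (nat_lit 54) (nat_lit 40))))))))
noncomputable def pc17 : PT := (PT.nd (nat_lit 35908) (PT.nd (nat_lit 846) (PT.nd (nat_lit 376) (PT.nd (nat_lit 188) (PT.nd (nat_lit 94) (PT.lf (nat_lit 17556) (nat_lit 6) (nat_lit 209) (nat_lit 0) (nat_lit 57) (nat_lit 54) (nat_lit 39)) (PT.lf (nat_lit 16548) (nat_lit 6) (nat_lit 197) (nat_lit 0) (nat_lit 58) (nat_lit 54) (nat_lit 38))) (PT.nd (nat_lit 94) (PT.lf (nat_lit 15456) (nat_lit 6) (nat_lit 184) (nat_lit 0) (nat_lit 59) (nat_lit 54) (nat_lit 37)) (PT.lf (nat_lit 14280) (nat_lit 6) (nat_lit 170) (nat_lit 0) (nat_lit 60) (nat_lit 54) (nat_lit 36)))) (PT.nd (nat_lit 188) (PT.nd (nat_lit 94) (PT.lf (nat_lit 13020) (nat_lit 6) (nat_lit 155) (nat_lit 0) (nat_lit 61) (nat_lit 54)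 (nat_lit 35)) (PT.lf (nat_lit 12264) (nat_lit 6) (nat_lit 146) (nat_lit 0) (nat_lit 62) (nat_lit 54) (nat_lit 34))) (PT.nd (nat_lit 94) (PT.lf (nat_lit 11592) (nat_lit 6) (nat_lit 138) (nat_lit 0) (nat_lit 63) (nat_lit 54) (nat_lit 33)) (PT.nd (nat_lit 94) (PT.lf (nat_lit 10920) (nat_lit 6) (nat_lit 130) (nat_lit 0) (nat_lit 64) (nat_lit 54) (nat_lit 32)) (PT.lf (nat_lit 10332) (nat_lit 6) (nat_lit 123) (nat_lit 0) (nat_lit 65) (nat_lit 54) (nat_lit 31)))))) (PT.nd (nat_lit 34592) (PT.nd (nat_lit 34310) (PT.nd (nat_lit 34216) (PT.lf (nat_lit 9744) (nat_lit 6) (nat_lit 116) (nat_lit 0) (nat_lit 66) (nat_lit 54) (nat_lit 30)) (PT.lf (nat_lit 9240) (nat_lit 6) (nat_lit 110) (nat_lit 5) (nat_lit 29) (nat_lit 55) (nat_lit 66))) (PT.nd (nat_lit 94) (PT.lf (nat_lit 9828) (nat_lit 6) (nat_lit 117) (nat_lit 5) (nat_lit 30) (nat_lit 55) (nat_lit 65)) (PT.nd (nat_lit 94) (PT.lf (nat_lit 10416) (nat_lit 6) (nat_lit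 124) (nat_lit 5) (nat_lit 31) (nat_lit 55) (nat_lit 64)) (PT.lf (nat_lit 11004) (nat_lit 6) (nat_lit 131) (nat_lit 5) (nat_lit 32) (nat_lit 55) (nat_lit 63))))) (PT.nd (nat_lit 188) (PT.nd (nat_lit 94) (PT.lf (nat_lit 11676) (nat_lit 6) (nat_lit 139) (nat_lit 5) (nat_lit 33) (nat_lit 55) (nat_lit 62)) (PT.lf (nat_lit 12348) (nat_lit 6) (nat_lit 147) (nat_lit 5) (nat_lit 34) (nat_lit 55) (nat_lit 61))) (PT.nd (nat_lit 94) (PT.lf (nat_lit 13104) (nat_lit 6) (nat_lit 156) (nat_lit 5) (nat_lit 35) (nat_lit 55) (nat_lit 60)) (PT.nd (nat_lit 94) (PT.lf (nat_lit 14364) (nat_lit 6) (nat_lit 171) (nat_lit 5) (nat_lit 36) (nat_lit 55) (nat_lit 59)) (PT.lf (nat_lit 15540) (nat_lit 6) (nat_lit 185) (nat_lit 5) (nat_lit 37) (nat_lit 55) (nat_lit 58))))))) (PT.nd (nat_lit 940) (PT.nd (nat_lit 470) (PT.nd (nat_lit 188) (PT.nd (nat_lit 94) (PT.lf (nat_lit 16632) (nat_lit 6) (nat_lit 198) (nat_lit 5) (nat_lit 38) (nat_lit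 55) (nat_lit 57)) (PT.lf (nat_lit 17640) (nat_lit 6) (nat_lit 210) (nat_lit 5) (nat_lit 39) (nat_lit 55) (nat_lit 56))) (PT.nd (nat_lit 94) (PT.lf (nat_lit 18564) (nat_lit 3) (nat_lit 221) (nat_lit 4) (nat_lit 40) (nat_lit 55) (nat_lit 55)) (PT.nd (nat_lit 94) (PT.lf (nat_lit 19320) (nat_lit 6) (nat_lit 230) (nat_lit 4) (nat_lit 41) (nat_lit 55) (nat_lit 54)) (PT.lf (nat_lit 19992) (nat_lit 6) (nat_lit 238) (nat_lit 4) (nat_lit 42) (nat_lit 55) (nat_lit 53))))) (PT.nd (nat_lit 188) (PT.nd (nat_lit 94) (PT.lf (nat_lit 20580) (nat_lit 6) (nat_lit 245) (nat_lit 4) (nat_lit 43) (nat_lit 55) (nat_lit 52)) (PT.lf (nat_lit 21084) (nat_lit 6) (nat_lit 251) (nat_lit 4) (nat_lit 44) (nat_lit 55) (nat_lit 51))) (PT.nd (nat_lit 94) (PT.lf (nat_lit 21504) (nat_lit 6) (nat_lit 256) (nat_lit 4) (nat_lit 45) (nat_lit 55) (nat_lit 50)) (PT.nd (nat_lit 94) (PT.lf (nat_lit 21420) (nat_lit 6) (nat_lit 255) (nat_lit 4)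 (nat_lit 46) (nat_lit 55) (nat_lit 49)) (PT.lf (nat_lit 21336) (nat_lit 6) (nat_lit 254) (nat_lit 4) (nat_lit 47) (nat_lit 55) (nat_lit 48)))))) (PT.nd (nat_lit 470) (PT.nd (nat_lit 188) (PT.nd (nat_lit 94) (PT.lf (nat_lit 21336) (nat_lit 6) (nat_lit 254) (nat_lit 2) (nat_lit 48) (nat_lit 55) (nat_lit 47)) (PT.lf (nat_lit 21420) (nat_lit 6) (nat_lit 255) (nat_lit 2) (nat_lit 49) (nat_lit 55) (nat_lit 46))) (PT.nd (nat_lit 94) (PT.lf (nat_lit 21504) (nat_lit 6) (nat_lit 256) (nat_lit 2) (nat_lit 50) (nat_lit 55) (nat_lit 45)) (PT.nd (nat_lit 94) (PT.lf (nat_lit 21084) (nat_lit 6) (nat_lit 251) (nat_lit 2) (nat_lit 51) (nat_lit 55) (nat_lit 44)) (PT.lf (nat_lit 20580) (nat_lit 6) (nat_lit 245) (nat_lit 2) (nat_lit 52) (nat_lit 55) (nat_lit 43))))) (PT.nd (nat_lit 188) (PT.nd (nat_lit 94) (PT.lf (nat_lit 19992) (nat_lit 6) (nat_lit 238) (nat_lit 2) (nat_lit 53) (nat_lit 55) (nat_lit 42)) (PT.lf (nat_lit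 19320) (nat_lit 6) (nat_lit 230) (nat_lit 2) (nat_lit 54) (nat_lit 55) (nat_lit 41))) (PT.nd (nat_lit 94) (PT.lf (nat_lit 18564) (nat_lit 3) (nat_lit 221) (nat_lit 0) (nat_lit 55) (nat_lit 55) (nat_lit 40)) (PT.nd (nat_lit 94) (PT.lf (nat_lit 17640) (nat_lit 6) (nat_lit 210) (nat_lit 0) (nat_lit 56) (nat_lit 55) (nat_lit 39)) (PT.lf (nat_lit 16632) (nat_lit 6) (nat_lit 198) (nat_lit 0) (nat_lit 57) (nat_lit 55) (nat_lit 38))))))))
noncomputable def pc18 : PT := (PT.nd (nat_lit 35814) (PT.nd (nat_lit 34874) (PT.nd (nat_lit 376) (PT.nd (nat_lit 188) (PT.nd (nat_lit 94) (PT.lf (nat_lit 15540) (nat_lit 6) (nat_lit 185) (nat_lit 0) (nat_lit 58) (nat_lit 55) (nat_lit 37)) (PT.lf (nat_lit 14364) (nat_lit 6) (nat_lit 171) (nat_lit 0) (nat_lit 59) (nat_lit 55) (nat_lit 36))) (PT.nd (nat_lit 94) (PT.lf (nat_lit 13104) (nat_lit 6) (nat_lit 156) (nat_lit 0) (nat_lit 60) (nat_lit 55) (nat_lit 35)) (PT.lf (nat_lit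 12348) (nat_lit 6) (nat_lit 147) (nat_lit 0) (nat_lit 61) (nat_lit 55) (nat_lit 34)))) (PT.nd (nat_lit 188) (PT.nd (nat_lit 94) (PT.lf (nat_lit 11676) (nat_lit 6) (nat_lit 139) (nat_lit 0) (nat_lit 62) (nat_lit 55) (nat_lit 33)) (PT.lf (nat_lit 11004) (nat_lit 6) (nat_lit 131) (nat_lit 0) (nat_lit 63) (nat_lit 55) (nat_lit 32))) (PT.nd (nat_lit 94) (PT.lf (nat_lit 10416) (nat_lit 6) (nat_lit 124) (nat_lit 0) (nat_lit 64) (nat_lit 55) (nat_lit 31)) (PT.nd (nat_lit 94) (PT.lf (nat_lit 9828) (nat_lit 6) (nat_lit 117) (nat_lit 0) (nat_lit 65) (nat_lit 55) (nat_lit 30)) (PT.lf (nat_lit 9240) (nat_lit 6) (nat_lit 110) (nat_lit 0) (nat_lit 66) (nat_lit 55) (nat_lit 29)))))) (PT.nd (nat_lit 470) (PT.nd (nat_lit 188) (PT.nd (nat_lit 94) (PT.lf (nat_lit 8736) (nat_lit 6) (nat_lit 104) (nat_lit 5) (nat_lit 28) (nat_lit 56) (nat_lit 66)) (PT.lf (nat_lit 9324) (nat_lit 6) (nat_lit 111) (nat_lit 5) (nat_lit 29) (nat_lit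 56) (nat_lit 65))) (PT.nd (nat_lit 94) (PT.lf (nat_lit 9912) (nat_lit 6) (nat_lit 118) (nat_lit 5) (nat_lit 30) (nat_lit 56) (nat_lit 64)) (PT.nd (nat_lit 94) (PT.lf (nat_lit 10500) (nat_lit 6) (nat_lit 125) (nat_lit 5) (nat_lit 31) (nat_lit 56) (nat_lit 63)) (PT.lf (nat_lit 11088) (nat_lit 6) (nat_lit 132) (nat_lit 5) (nat_lit 32) (nat_lit 56) (nat_lit 62))))) (PT.nd (nat_lit 188) (PT.nd (nat_lit 94) (PT.lf (nat_lit 11760) (nat_lit 6) (nat_lit 140) (nat_lit 5) (nat_lit 33) (nat_lit 56) (nat_lit 61)) (PT.lf (nat_lit 12432) (nat_lit 6) (nat_lit 148) (nat_lit 5) (nat_lit 34) (nat_lit 56) (nat_lit 60))) (PT.nd (nat_lit 94) (PT.lf (nat_lit 13188) (nat_lit 6) (nat_lit 157) (nat_lit 5) (nat_lit 35) (nat_lit 56) (nat_lit 59)) (PT.nd (nat_lit 94) (PT.lf (nat_lit 14448) (nat_lit 6) (nat_lit 172) (nat_lit 5) (nat_lit 36) (nat_lit 56) (nat_lit 58)) (PT.lf (nat_lit 15624) (nat_lit 6) (nat_lit 186) (nat_lit 5) (nat_lit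 37) (nat_lit 56) (nat_lit 57))))))) (PT.nd (nat_lit 940) (PT.nd (nat_lit 470) (PT.nd (nat_lit 188) (PT.nd (nat_lit 94) (PT.lf (nat_lit 16716) (nat_lit 3) (nat_lit 199) (nat_lit 4) (nat_lit 38) (nat_lit 56) (nat_lit 56)) (PT.lf (nat_lit 17640) (nat_lit 6) (nat_lit 210) (nat_lit 4) (nat_lit 39) (nat_lit 56) (nat_lit 55))) (PT.nd (nat_lit 94) (PT.lf (nat_lit 18480) (nat_lit 6) (nat_lit 220) (nat_lit 4) (nat_lit 40) (nat_lit 56) (nat_lit 54)) (PT.nd (nat_lit 94) (PT.lf (nat_lit 19236) (nat_lit 6) (nat_lit 229) (nat_lit 4) (nat_lit 41) (nat_lit 56) (nat_lit 53)) (PT.lf (nat_lit 19908) (nat_lit 6) (nat_lit 237) (nat_lit 4) (nat_lit 42) (nat_lit 56) (nat_lit 52))))) (PT.nd (nat_lit 188) (PT.nd (nat_lit 94) (PT.lf (nat_lit 20496) (nat_lit 6) (nat_lit 244) (nat_lit 4) (nat_lit 43) (nat_lit 56) (nat_lit 51)) (PT.lf (nat_lit 21000) (nat_lit 6) (nat_lit 250) (nat_lit 4) (nat_lit 44) (nat_lit 56) (nat_lit 50)))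 (PT.nd (nat_lit 94) (PT.lf (nat_lit 20916) (nat_lit 6) (nat_lit 249) (nat_lit 4) (nat_lit 45) (nat_lit 56) (nat_lit 49)) (PT.nd (nat_lit 94) (PT.lf (nat_lit 20832) (nat_lit 6) (nat_lit 248) (nat_lit 4) (nat_lit 46) (nat_lit 56) (nat_lit 48)) (PT.lf (nat_lit 20748) (nat_lit 3) (nat_lit 247) (nat_lit 2) (nat_lit 47) (nat_lit 56) (nat_lit 47)))))) (PT.nd (nat_lit 470) (PT.nd (nat_lit 188) (PT.nd (nat_lit 94) (PT.lf (nat_lit 20832) (nat_lit 6) (nat_lit 248) (nat_lit 2) (nat_lit 48) (nat_lit 56) (nat_lit 46)) (PT.lf (nat_lit 20916) (nat_lit 6) (nat_lit 249) (nat_lit 2) (nat_lit 49) (nat_lit 56) (nat_lit 45))) (PT.nd (nat_lit 94) (PT.lf (nat_lit 21000) (nat_lit 6) (nat_lit 250) (nat_lit 2) (nat_lit 50) (nat_lit 56) (nat_lit 44)) (PT.nd (nat_lit 94) (PT.lf (nat_lit 20496) (nat_lit 6) (nat_lit 244) (nat_lit 2) (nat_lit 51) (nat_lit 56) (nat_lit 43)) (PT.lf (nat_lit 19908) (nat_lit 6) (nat_lit 237) (nat_lit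 2) (nat_lit 52) (nat_lit 56) (nat_lit 42))))) (PT.nd (nat_lit 188) (PT.nd (nat_lit 94) (PT.lf (nat_lit 19236) (nat_lit 6) (nat_lit 229) (nat_lit 2) (nat_lit 53) (nat_lit 56) (nat_lit 41)) (PT.lf (nat_lit 18480) (nat_lit 6) (nat_lit 220) (nat_lit 2) (nat_lit 54) (nat_lit 56) (nat_lit 40))) (PT.nd (nat_lit 94) (PT.lf (nat_lit 17640) (nat_lit 6) (nat_lit 210) (nat_lit 2) (nat_lit 55) (nat_lit 56) (nat_lit 39)) (PT.nd (nat_lit 94) (PT.lf (nat_lit 16716) (nat_lit 3) (nat_lit 199) (nat_lit 0) (nat_lit 56) (nat_lit 56) (nat_lit 38)) (PT.lf (nat_lit 15624) (nat_lit 6) (nat_lit 186) (nat_lit 0) (nat_lit 57) (nat_lit 56) (nat_lit 37))))))))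
noncomputable def pc19 : PT := (PT.nd (nat_lit 35626) (PT.nd (nat_lit 34686) (PT.nd (nat_lit 376) (PT.nd (nat_lit 188) (PT.nd (nat_lit 94) (PT.lf (nat_lit 14448) (nat_lit 6) (nat_lit 172) (nat_lit 0) (nat_lit 58) (nat_lit 56) (nat_lit 36)) (PT.lf (nat_lit 13188) (nat_lit 6) (nat_lit 157) (nat_lit 0) (nat_lit 59) (nat_lit 56) (nat_lit 35))) (PT.nd (nat_lit 94) (PT.lf (nat_lit 12432) (nat_lit 6) (nat_lit 148) (nat_lit 0) (nat_lit 60) (nat_lit 56) (nat_lit 34)) (PT.lf (nat_lit 11760) (nat_lit 6) (nat_lit 140) (nat_lit 0) (nat_lit 61) (nat_lit 56) (nat_lit 33)))) (PT.nd (nat_lit 188) (PT.nd (nat_lit 94) (PT.lf (nat_lit 11088) (nat_lit 6) (nat_lit 132) (nat_lit 0) (nat_lit 62) (nat_lit 56) (nat_lit 32)) (PT.lf (nat_lit 10500) (nat_lit 6) (nat_lit 125) (nat_lit 0) (nat_lit 63) (nat_lit 56) (nat_lit 31))) (PT.nd (nat_lit 94) (PT.lf (nat_lit 9912) (nat_lit 6) (nat_lit 118) (nat_lit 0) (nat_lit 64) (nat_lit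 56) (nat_lit 30)) (PT.nd (nat_lit 94) (PT.lf (nat_lit 9324) (nat_lit 6) (nat_lit 111) (nat_lit 0) (nat_lit 65) (nat_lit 56) (nat_lit 29)) (PT.lf (nat_lit 8736) (nat_lit 6) (nat_lit 104) (nat_lit 0) (nat_lit 66) (nat_lit 56) (nat_lit 28)))))) (PT.nd (nat_lit 470) (PT.nd (nat_lit 188) (PT.nd (nat_lit 94) (PT.lf (nat_lit 7812) (nat_lit 6) (nat_lit 93) (nat_lit 5) (nat_lit 26) (nat_lit 57) (nat_lit 67)) (PT.lf (nat_lit 8316) (nat_lit 6) (nat_lit 99) (nat_lit 5) (nat_lit 27) (nat_lit 57) (nat_lit 66))) (PT.nd (nat_lit 94) (PT.lf (nat_lit 8820) (nat_lit 6) (nat_lit 105) (nat_lit 5) (nat_lit 28) (nat_lit 57) (nat_lit 65)) (PT.nd (nat_lit 94) (PT.lf (nat_lit 9408) (nat_lit 6) (nat_lit 112) (nat_lit 5) (nat_lit 29) (nat_lit 57) (nat_lit 64)) (PT.lf (nat_lit 9996) (nat_lit 6) (nat_lit 119) (nat_lit 5) (nat_lit 30) (nat_lit 57) (nat_lit 63))))) (PT.nd (nat_lit 188) (PT.nd (nat_lit 94) (PT.lf (nat_lit 10584) (nat_lit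 6) (nat_lit 126) (nat_lit 5) (nat_lit 31) (nat_lit 57) (nat_lit 62)) (PT.lf (nat_lit 11172) (nat_lit 6) (nat_lit 133) (nat_lit 5) (nat_lit 32) (nat_lit 57) (nat_lit 61))) (PT.nd (nat_lit 94) (PT.lf (nat_lit 11844) (nat_lit 6) (nat_lit 141) (nat_lit 5) (nat_lit 33) (nat_lit 57) (nat_lit 60)) (PT.nd (nat_lit 94) (PT.lf (nat_lit 12516) (nat_lit 6) (nat_lit 149) (nat_lit 5) (nat_lit 34) (nat_lit 57) (nat_lit 59)) (PT.lf (nat_lit 13272) (nat_lit 6) (nat_lit 158) (nat_lit 5) (nat_lit 35) (nat_lit 57) (nat_lit 58))))))) (PT.nd (nat_lit 940) (PT.nd (nat_lit 470) (PT.nd (nat_lit 188) (PT.nd (nat_lit 94) (PT.lf (nat_lit 14532) (nat_lit 3) (nat_lit 173) (nat_lit 4) (nat_lit 36) (nat_lit 57) (nat_lit 57)) (PT.lf (nat_lit 15624) (nat_lit 6) (nat_lit 186) (nat_lit 4) (nat_lit 37) (nat_lit 57) (nat_lit 56))) (PT.nd (nat_lit 94) (PT.lf (nat_lit 16632) (nat_lit 6) (nat_lit 198) (nat_lit 4) (nat_lit 38) (nat_lit 57)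 (nat_lit 55)) (PT.nd (nat_lit 94) (PT.lf (nat_lit 17556) (nat_lit 6) (nat_lit 209) (nat_lit 4) (nat_lit 39) (nat_lit 57) (nat_lit 54)) (PT.lf (nat_lit 18396) (nat_lit 6) (nat_lit 219) (nat_lit 4) (nat_lit 40) (nat_lit 57) (nat_lit 53))))) (PT.nd (nat_lit 188) (PT.nd (nat_lit 94) (PT.lf (nat_lit 19152) (nat_lit 6) (nat_lit 228) (nat_lit 4) (nat_lit 41) (nat_lit 57) (nat_lit 52)) (PT.lf (nat_lit 19824) (nat_lit 6) (nat_lit 236) (nat_lit 4) (nat_lit 42) (nat_lit 57) (nat_lit 51))) (PT.nd (nat_lit 94) (PT.lf (nat_lit 20412) (nat_lit 6) (nat_lit 243) (nat_lit 4) (nat_lit 43) (nat_lit 57) (nat_lit 50)) (PT.nd (nat_lit 94) (PT.lf (nat_lit 20328) (nat_lit 6) (nat_lit 242) (nat_lit 4) (nat_lit 44) (nat_lit 57) (nat_lit 49)) (PT.lf (nat_lit 20244) (nat_lit 6) (nat_lit 241) (nat_lit 4) (nat_lit 45) (nat_lit 57) (nat_lit 48)))))) (PT.nd (nat_lit 470) (PT.nd (nat_lit 188) (PT.nd (nat_lit 94) (PT.lf (nat_lit 20160)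 (nat_lit 6) (nat_lit 240) (nat_lit 4) (nat_lit 46) (nat_lit 57) (nat_lit 47)) (PT.lf (nat_lit 20160) (nat_lit 6) (nat_lit 240) (nat_lit 2) (nat_lit 47) (nat_lit 57) (nat_lit 46))) (PT.nd (nat_lit 94) (PT.lf (nat_lit 20244) (nat_lit 6) (nat_lit 241) (nat_lit 2) (nat_lit 48) (nat_lit 57) (nat_lit 45)) (PT.nd (nat_lit 94) (PT.lf (nat_lit 20328) (nat_lit 6) (nat_lit 242) (nat_lit 2) (nat_lit 49) (nat_lit 57) (nat_lit 44)) (PT.lf (nat_lit 20412) (nat_lit 6) (nat_lit 243) (nat_lit 2) (nat_lit 50) (nat_lit 57) (nat_lit 43))))) (PT.nd (nat_lit 188) (PT.nd (nat_lit 94) (PT.lf (nat_lit 19824) (nat_lit 6) (nat_lit 236) (nat_lit 2) (nat_lit 51) (nat_lit 57) (nat_lit 42)) (PT.lf (nat_lit 19152) (nat_lit 6) (nat_lit 228) (nat_lit 2) (nat_lit 52) (nat_lit 57) (nat_lit 41))) (PT.nd (nat_lit 94) (PT.lf (nat_lit 18396) (nat_lit 6) (nat_lit 219) (nat_lit 2) (nat_lit 53) (nat_lit 57) (nat_lit 40)) (PT.nd (nat_lit 94) (PT.lf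 (nat_lit 17556) (nat_lit 6) (nat_lit 209) (nat_lit 2) (nat_lit 54) (nat_lit 57) (nat_lit 39)) (PT.lf (nat_lit 16632) (nat_lit 6) (nat_lit 198) (nat_lit 2) (nat_lit 55) (nat_lit 57) (nat_lit 38))))))))
noncomputable def pc20 : PT := (PT.nd (nat_lit 35438) (PT.nd (nat_lit 846) (PT.nd (nat_lit 376) (PT.nd (nat_lit 188) (PT.nd (nat_lit 94) (PT.lf (nat_lit 15624) (nat_lit 6) (nat_lit 186) (nat_lit 2) (nat_lit 56) (nat_lit 57) (nat_lit 37)) (PT.lf (nat_lit 14532) (nat_lit 3) (nat_lit 173) (nat_lit 0) (nat_lit 57) (nat_lit 57) (nat_lit 36))) (PT.nd (nat_lit 94) (PT.lf (nat_lit 13272) (nat_lit 6) (nat_lit 158) (nat_lit 0) (nat_lit 58) (nat_lit 57) (nat_lit 35)) (PT.lf (nat_lit 12516) (nat_lit 6) (nat_lit 149) (nat_lit 0) (nat_lit 59) (nat_lit 57) (nat_lit 34)))) (PT.nd (nat_lit 188) (PT.nd (nat_lit 94) (PT.lf (nat_lit 11844) (nat_lit 6) (nat_lit 141) (nat_lit 0) (nat_lit 60) (nat_lit 57) (nat_lit 33)) (PT.lf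 (nat_lit 11172) (nat_lit 6) (nat_lit 133) (nat_lit 0) (nat_lit 61) (nat_lit 57) (nat_lit 32))) (PT.nd (nat_lit 94) (PT.lf (nat_lit 10584) (nat_lit 6) (nat_lit 126) (nat_lit 0) (nat_lit 62) (nat_lit 57) (nat_lit 31)) (PT.nd (nat_lit 94) (PT.lf (nat_lit 9996) (nat_lit 6) (nat_lit 119) (nat_lit 0) (nat_lit 63) (nat_lit 57) (nat_lit 30)) (PT.lf (nat_lit 9408) (nat_lit 6) (nat_lit 112) (nat_lit 0) (nat_lit 64) (nat_lit 57) (nat_lit 29)))))) (PT.nd (nat_lit 34122) (PT.nd (nat_lit 188) (PT.nd (nat_lit 94) (PT.lf (nat_lit 8820) (nat_lit 6) (nat_lit 105) (nat_lit 0) (nat_lit 65) (nat_lit 57) (nat_lit 28)) (PT.lf (nat_lit 8316) (nat_lit 6) (nat_lit 99) (nat_lit 0) (nat_lit 66) (nat_lit 57) (nat_lit 27))) (PT.nd (nat_lit 33746) (PT.lf (nat_lit 7812) (nat_lit 6) (nat_lit 93) (nat_lit 0) (nat_lit 67) (nat_lit 57) (nat_lit 26)) (PT.nd (nat_lit 94) (PT.lf (nat_lit 7392) (nat_lit 6) (nat_lit 88) (nat_lit 5) (nat_lit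 25) (nat_lit 58) (nat_lit 67)) (PT.lf (nat_lit 7896) (nat_lit 6) (nat_lit 94) (nat_lit 5) (nat_lit 26) (nat_lit 58) (nat_lit 66))))) (PT.nd (nat_lit 188) (PT.nd (nat_lit 94) (PT.lf (nat_lit 8400) (nat_lit 6) (nat_lit 100) (nat_lit 5) (nat_lit 27) (nat_lit 58) (nat_lit 65)) (PT.lf (nat_lit 8904) (nat_lit 6) (nat_lit 106) (nat_lit 5) (nat_lit 28) (nat_lit 58) (nat_lit 64))) (PT.nd (nat_lit 94) (PT.lf (nat_lit 9492) (nat_lit 6) (nat_lit 113) (nat_lit 5) (nat_lit 29) (nat_lit 58) (nat_lit 63)) (PT.nd (nat_lit 94) (PT.lf (nat_lit 10080) (nat_lit 6) (nat_lit 120) (nat_lit 5) (nat_lit 30) (nat_lit 58) (nat_lit 62)) (PT.lf (nat_lit 10668) (nat_lit 6) (nat_lit 127) (nat_lit 5) (nat_lit 31) (nat_lit 58) (nat_lit 61))))))) (PT.nd (nat_lit 940) (PT.nd (nat_lit 470) (PT.nd (nat_lit 188) (PT.nd (nat_lit 94) (PT.lf (nat_lit 11256) (nat_lit 6) (nat_lit 134) (nat_lit 5) (nat_lit 32) (nat_lit 58) (nat_lit 60)) (PT.lf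 (nat_lit 11928) (nat_lit 6) (nat_lit 142) (nat_lit 5) (nat_lit 33) (nat_lit 58) (nat_lit 59))) (PT.nd (nat_lit 94) (PT.lf (nat_lit 12600) (nat_lit 3) (nat_lit 150) (nat_lit 4) (nat_lit 34) (nat_lit 58) (nat_lit 58)) (PT.nd (nat_lit 94) (PT.lf (nat_lit 13272) (nat_lit 6) (nat_lit 158) (nat_lit 4) (nat_lit 35) (nat_lit 58) (nat_lit 57)) (PT.lf (nat_lit 14448) (nat_lit 6) (nat_lit 172) (nat_lit 4) (nat_lit 36) (nat_lit 58) (nat_lit 56))))) (PT.nd (nat_lit 188) (PT.nd (nat_lit 94) (PT.lf (nat_lit 15540) (nat_lit 6) (nat_lit 185) (nat_lit 4) (nat_lit 37) (nat_lit 58) (nat_lit 55)) (PT.lf (nat_lit 16548) (nat_lit 6) (nat_lit 197) (nat_lit 4) (nat_lit 38) (nat_lit 58) (nat_lit 54))) (PT.nd (nat_lit 94) (PT.lf (nat_lit 17472) (nat_lit 6) (nat_lit 208) (nat_lit 4) (nat_lit 39) (nat_lit 58) (nat_lit 53)) (PT.nd (nat_lit 94) (PT.lf (nat_lit 18312) (nat_lit 6) (nat_lit 218) (nat_lit 4) (nat_lit 40) (nat_lit 58)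 (nat_lit 52)) (PT.lf (nat_lit 19068) (nat_lit 6) (nat_lit 227) (nat_lit 4) (nat_lit 41) (nat_lit 58) (nat_lit 51)))))) (PT.nd (nat_lit 470) (PT.nd (nat_lit 188) (PT.nd (nat_lit 94) (PT.lf (nat_lit 19740) (nat_lit 6) (nat_lit 235) (nat_lit 4) (nat_lit 42) (nat_lit 58) (nat_lit 50)) (PT.lf (nat_lit 19656) (nat_lit 6) (nat_lit 234) (nat_lit 4) (nat_lit 43) (nat_lit 58) (nat_lit 49))) (PT.nd (nat_lit 94) (PT.lf (nat_lit 19572) (nat_lit 6) (nat_lit 233) (nat_lit 4) (nat_lit 44) (nat_lit 58) (nat_lit 48)) (PT.nd (nat_lit 94) (PT.lf (nat_lit 19488) (nat_lit 6) (nat_lit 232) (nat_lit 4) (nat_lit 45) (nat_lit 58) (nat_lit 47)) (PT.lf (nat_lit 19404) (nat_lit 3) (nat_lit 231) (nat_lit 2) (nat_lit 46) (nat_lit 58) (nat_lit 46))))) (PT.nd (nat_lit 188) (PT.nd (nat_lit 94) (PT.lf (nat_lit 19488) (nat_lit 6) (nat_lit 232) (nat_lit 2) (nat_lit 47) (nat_lit 58) (nat_lit 45)) (PT.lf (nat_lit 19572) (nat_lit 6) (nat_lit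 233) (nat_lit 2) (nat_lit 48) (nat_lit 58) (nat_lit 44))) (PT.nd (nat_lit 94) (PT.lf (nat_lit 19656) (nat_lit 6) (nat_lit 234) (nat_lit 2) (nat_lit 49) (nat_lit 58) (nat_lit 43)) (PT.nd (nat_lit 94) (PT.lf (nat_lit 19740) (nat_lit 6) (nat_lit 235) (nat_lit 2) (nat_lit 50) (nat_lit 58) (nat_lit 42)) (PT.lf (nat_lit 19068) (nat_lit 6) (nat_lit 227) (nat_lit 2) (nat_lit 51) (nat_lit 58) (nat_lit 41))))))))
noncomputable def pc21 : PT := (PT.nd (nat_lit 35250) (PT.nd (nat_lit 846) (PT.nd (nat_lit 376) (PT.nd (nat_lit 188) (PT.nd (nat_lit 94) (PT.lf (nat_lit 18312) (nat_lit 6) (nat_lit 218) (nat_lit 2) (nat_lit 52) (nat_lit 58) (nat_lit 40)) (PT.lf (nat_lit 17472) (nat_lit 6) (nat_lit 208) (nat_lit 2) (nat_lit 53) (nat_lit 58) (nat_lit 39))) (PT.nd (nat_lit 94) (PT.lf (nat_lit 16548) (nat_lit 6) (nat_lit 197) (nat_lit 2) (nat_lit 54) (nat_lit 58) (nat_lit 38)) (PT.lf (nat_lit 15540) (nat_lit 6) (nat_lit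 185) (nat_lit 2) (nat_lit 55) (nat_lit 58) (nat_lit 37)))) (PT.nd (nat_lit 188) (PT.nd (nat_lit 94) (PT.lf (nat_lit 14448) (nat_lit 6) (nat_lit 172) (nat_lit 2) (nat_lit 56) (nat_lit 58) (nat_lit 36)) (PT.lf (nat_lit 13272) (nat_lit 6) (nat_lit 158) (nat_lit 2) (nat_lit 57) (nat_lit 58) (nat_lit 35))) (PT.nd (nat_lit 94) (PT.lf (nat_lit 12600) (nat_lit 3) (nat_lit 150) (nat_lit 0) (nat_lit 58) (nat_lit 58) (nat_lit 34)) (PT.nd (nat_lit 94) (PT.lf (nat_lit 11928) (nat_lit 6) (nat_lit 142) (nat_lit 0) (nat_lit 59) (nat_lit 58) (nat_lit 33)) (PT.lf (nat_lit 11256) (nat_lit 6) (nat_lit 134) (nat_lit 0) (nat_lit 60) (nat_lit 58) (nat_lit 32)))))) (PT.nd (nat_lit 470) (PT.nd (nat_lit 188) (PT.nd (nat_lit 94) (PT.lf (nat_lit 10668) (nat_lit 6) (nat_lit 127) (nat_lit 0) (nat_lit 61) (nat_lit 58) (nat_lit 31)) (PT.lf (nat_lit 10080) (nat_lit 6) (nat_lit 120) (nat_lit 0) (nat_lit 62) (nat_lit 58) (nat_lit 30)))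 (PT.nd (nat_lit 94) (PT.lf (nat_lit 9492) (nat_lit 6) (nat_lit 113) (nat_lit 0) (nat_lit 63) (nat_lit 58) (nat_lit 29)) (PT.nd (nat_lit 94) (PT.lf (nat_lit 8904) (nat_lit 6) (nat_lit 106) (nat_lit 0) (nat_lit 64) (nat_lit 58) (nat_lit 28)) (PT.lf (nat_lit 8400) (nat_lit 6) (nat_lit 100) (nat_lit 0) (nat_lit 65) (nat_lit 58) (nat_lit 27))))) (PT.nd (nat_lit 33652) (PT.nd (nat_lit 94) (PT.lf (nat_lit 7896) (nat_lit 6) (nat_lit 94) (nat_lit 0) (nat_lit 66) (nat_lit 58) (nat_lit 26)) (PT.lf (nat_lit 7392) (nat_lit 6) (nat_lit 88) (nat_lit 0) (nat_lit 67) (nat_lit 58) (nat_lit 25))) (PT.nd (nat_lit 94) (PT.lf (nat_lit 6552) (nat_lit 6) (nat_lit 78) (nat_lit 5) (nat_lit 23) (nat_lit 59) (nat_lit 68)) (PT.nd (nat_lit 94) (PT.lf (nat_lit 6972) (nat_lit 6) (nat_lit 83) (nat_lit 5) (nat_lit 24) (nat_lit 59) (nat_lit 67)) (PT.lf (nat_lit 7476) (nat_lit 6) (nat_lit 89) (nat_lit 5) (nat_lit 25) (nat_lit 59) (nat_lit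 66))))))) (PT.nd (nat_lit 940) (PT.nd (nat_lit 470) (PT.nd (nat_lit 188) (PT.nd (nat_lit 94) (PT.lf (nat_lit 7980) (nat_lit 6) (nat_lit 95) (nat_lit 5) (nat_lit 26) (nat_lit 59) (nat_lit 65)) (PT.lf (nat_lit 8484) (nat_lit 6) (nat_lit 101) (nat_lit 5) (nat_lit 27) (nat_lit 59) (nat_lit 64))) (PT.nd (nat_lit 94) (PT.lf (nat_lit 8988) (nat_lit 6) (nat_lit 107) (nat_lit 5) (nat_lit 28) (nat_lit 59) (nat_lit 63)) (PT.nd (nat_lit 94) (PT.lf (nat_lit 9576) (nat_lit 6) (nat_lit 114) (nat_lit 5) (nat_lit 29) (nat_lit 59) (nat_lit 62)) (PT.lf (nat_lit 10164) (nat_lit 6) (nat_lit 121) (nat_lit 5) (nat_lit 30) (nat_lit 59) (nat_lit 61))))) (PT.nd (nat_lit 188) (PT.nd (nat_lit 94) (PT.lf (nat_lit 10752) (nat_lit 6) (nat_lit 128) (nat_lit 5) (nat_lit 31) (nat_lit 59) (nat_lit 60)) (PT.lf (nat_lit 11340) (nat_lit 3) (nat_lit 135) (nat_lit 4) (nat_lit 32) (nat_lit 59) (nat_lit 59))) (PT.nd (nat_lit 94) (PT.lf (nat_lit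 11928) (nat_lit 6) (nat_lit 142) (nat_lit 4) (nat_lit 33) (nat_lit 59) (nat_lit 58)) (PT.nd (nat_lit 94) (PT.lf (nat_lit 12516) (nat_lit 6) (nat_lit 149) (nat_lit 4) (nat_lit 34) (nat_lit 59) (nat_lit 57)) (PT.lf (nat_lit 13188) (nat_lit 6) (nat_lit 157) (nat_lit 4) (nat_lit 35) (nat_lit 59) (nat_lit 56)))))) (PT.nd (nat_lit 470) (PT.nd (nat_lit 188) (PT.nd (nat_lit 94) (PT.lf (nat_lit 14364) (nat_lit 6) (nat_lit 171) (nat_lit 4) (nat_lit 36) (nat_lit 59) (nat_lit 55)) (PT.lf (nat_lit 15456) (nat_lit 6) (nat_lit 184) (nat_lit 4) (nat_lit 37) (nat_lit 59) (nat_lit 54))) (PT.nd (nat_lit 94) (PT.lf (nat_lit 16464) (nat_lit 6) (nat_lit 196) (nat_lit 4) (nat_lit 38) (nat_lit 59) (nat_lit 53)) (PT.nd (nat_lit 94) (PT.lf (nat_lit 17388) (nat_lit 6) (nat_lit 207) (nat_lit 4) (nat_lit 39) (nat_lit 59) (nat_lit 52)) (PT.lf (nat_lit 18228) (nat_lit 6) (nat_lit 217) (nat_lit 4) (nat_lit 40) (nat_lit 59) (nat_lit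 51))))) (PT.nd (nat_lit 188) (PT.nd (nat_lit 94) (PT.lf (nat_lit 18984) (nat_lit 6) (nat_lit 226) (nat_lit 4) (nat_lit 41) (nat_lit 59) (nat_lit 50)) (PT.lf (nat_lit 18900) (nat_lit 6) (nat_lit 225) (nat_lit 4) (nat_lit 42) (nat_lit 59) (nat_lit 49))) (PT.nd (nat_lit 94) (PT.lf (nat_lit 18816) (nat_lit 6) (nat_lit 224) (nat_lit 4) (nat_lit 43) (nat_lit 59) (nat_lit 48)) (PT.nd (nat_lit 94) (PT.lf (nat_lit 18732) (nat_lit 6) (nat_lit 223) (nat_lit 4) (nat_lit 44) (nat_lit 59) (nat_lit 47)) (PT.lf (nat_lit 18648) (nat_lit 6) (nat_lit 222) (nat_lit 4) (nat_lit 45) (nat_lit 59) (nat_lit 46))))))))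
noncomputable def pc22 : PT := (PT.nd (nat_lit 1786) (PT.nd (nat_lit 846) (PT.nd (nat_lit 376) (PT.nd (nat_lit 188) (PT.nd (nat_lit 94) (PT.lf (nat_lit 18648) (nat_lit 6) (nat_lit 222) (nat_lit 2) (nat_lit 46) (nat_lit 59) (nat_lit 45)) (PT.lf (nat_lit 18732) (nat_lit 6) (nat_lit 223) (nat_lit 2) (nat_lit 47) (nat_lit 59) (nat_lit 44))) (PT.nd (nat_lit 94) (PT.lf (nat_lit 18816) (nat_lit 6) (nat_lit 224) (nat_lit 2) (nat_lit 48) (nat_lit 59) (nat_lit 43)) (PT.lf (nat_lit 18900) (nat_lit 6) (nat_lit 225) (nat_lit 2) (nat_lit 49) (nat_lit 59) (nat_lit 42)))) (PT.nd (nat_lit 188) (PT.nd (nat_lit 94) (PT.lf (nat_lit 18984) (nat_lit 6) (nat_lit 226) (nat_lit 2) (nat_lit 50) (nat_lit 59) (nat_lit 41)) (PT.lf (nat_lit 18228) (nat_lit 6) (nat_lit 217) (nat_lit 2) (nat_lit 51) (nat_lit 59) (nat_lit 40))) (PT.nd (nat_lit 94) (PT.lf (nat_lit 17388) (nat_lit 6) (nat_lit 207) (nat_lit 2) (nat_lit 52) (nat_lit 59)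 (nat_lit 39)) (PT.nd (nat_lit 94) (PT.lf (nat_lit 16464) (nat_lit 6) (nat_lit 196) (nat_lit 2) (nat_lit 53) (nat_lit 59) (nat_lit 38)) (PT.lf (nat_lit 15456) (nat_lit 6) (nat_lit 184) (nat_lit 2) (nat_lit 54) (nat_lit 59) (nat_lit 37)))))) (PT.nd (nat_lit 470) (PT.nd (nat_lit 188) (PT.nd (nat_lit 94) (PT.lf (nat_lit 14364) (nat_lit 6) (nat_lit 171) (nat_lit 2) (nat_lit 55) (nat_lit 59) (nat_lit 36)) (PT.lf (nat_lit 13188) (nat_lit 6) (nat_lit 157) (nat_lit 2) (nat_lit 56) (nat_lit 59) (nat_lit 35))) (PT.nd (nat_lit 94) (PT.lf (nat_lit 12516) (nat_lit 6) (nat_lit 149) (nat_lit 2) (nat_lit 57) (nat_lit 59) (nat_lit 34)) (PT.nd (nat_lit 94) (PT.lf (nat_lit 11928) (nat_lit 6) (nat_lit 142) (nat_lit 2) (nat_lit 58) (nat_lit 59) (nat_lit 33)) (PT.lf (nat_lit 11340) (nat_lit 3) (nat_lit 135) (nat_lit 0) (nat_lit 59) (nat_lit 59) (nat_lit 32))))) (PT.nd (nat_lit 188) (PT.nd (nat_lit 94) (PT.lf (nat_lit 10752)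 (nat_lit 6) (nat_lit 128) (nat_lit 0) (nat_lit 60) (nat_lit 59) (nat_lit 31)) (PT.lf (nat_lit 10164) (nat_lit 6) (nat_lit 121) (nat_lit 0) (nat_lit 61) (nat_lit 59) (nat_lit 30))) (PT.nd (nat_lit 94) (PT.lf (nat_lit 9576) (nat_lit 6) (nat_lit 114) (nat_lit 0) (nat_lit 62) (nat_lit 59) (nat_lit 29)) (PT.nd (nat_lit 94) (PT.lf (nat_lit 8988) (nat_lit 6) (nat_lit 107) (nat_lit 0) (nat_lit 63) (nat_lit 59) (nat_lit 28)) (PT.lf (nat_lit 8484) (nat_lit 6) (nat_lit 101) (nat_lit 0) (nat_lit 64) (nat_lit 59) (nat_lit 27))))))) (PT.nd (nat_lit 34216) (PT.nd (nat_lit 33746) (PT.nd (nat_lit 188) (PT.nd (nat_lit 94) (PT.lf (nat_lit 7980) (nat_lit 6) (nat_lit 95) (nat_lit 0) (nat_lit 65) (nat_lit 59) (nat_lit 26)) (PT.lf (nat_lit 7476) (nat_lit 6) (nat_lit 89) (nat_lit 0) (nat_lit 66) (nat_lit 59) (nat_lit 25))) (PT.nd (nat_lit 94) (PT.lf (nat_lit 6972) (nat_lit 6) (nat_lit 83) (nat_lit 0) (nat_lit 67) (nat_lit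 59) (nat_lit 24)) (PT.nd (nat_lit 33370) (PT.lf (nat_lit 6552) (nat_lit 6) (nat_lit 78) (nat_lit 0) (nat_lit 68) (nat_lit 59) (nat_lit 23)) (PT.lf (nat_lit 6132) (nat_lit 6) (nat_lit 73) (nat_lit 5) (nat_lit 22) (nat_lit 60) (nat_lit 68))))) (PT.nd (nat_lit 188) (PT.nd (nat_lit 94) (PT.lf (nat_lit 6636) (nat_lit 6) (nat_lit 79) (nat_lit 5) (nat_lit 23) (nat_lit 60) (nat_lit 67)) (PT.lf (nat_lit 7056) (nat_lit 6) (nat_lit 84) (nat_lit 5) (nat_lit 24) (nat_lit 60) (nat_lit 66))) (PT.nd (nat_lit 94) (PT.lf (nat_lit 7560) (nat_lit 6) (nat_lit 90) (nat_lit 5) (nat_lit 25) (nat_lit 60) (nat_lit 65)) (PT.nd (nat_lit 94) (PT.lf (nat_lit 8064) (nat_lit 6) (nat_lit 96) (nat_lit 5) (nat_lit 26) (nat_lit 60) (nat_lit 64)) (PT.lf (nat_lit 8568) (nat_lit 6) (nat_lit 102) (nat_lit 5) (nat_lit 27) (nat_lit 60) (nat_lit 63)))))) (PT.nd (nat_lit 470) (PT.nd (nat_lit 188) (PT.nd (nat_lit 94) (PT.lf (nat_lit 9072) (nat_lit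 6) (nat_lit 108) (nat_lit 5) (nat_lit 28) (nat_lit 60) (nat_lit 62)) (PT.lf (nat_lit 9660) (nat_lit 6) (nat_lit 115) (nat_lit 5) (nat_lit 29) (nat_lit 60) (nat_lit 61))) (PT.nd (nat_lit 94) (PT.lf (nat_lit 10248) (nat_lit 3) (nat_lit 122) (nat_lit 4) (nat_lit 30) (nat_lit 60) (nat_lit 60)) (PT.nd (nat_lit 94) (PT.lf (nat_lit 10752) (nat_lit 6) (nat_lit 128) (nat_lit 4) (nat_lit 31) (nat_lit 60) (nat_lit 59)) (PT.lf (nat_lit 11256) (nat_lit 6) (nat_lit 134) (nat_lit 4) (nat_lit 32) (nat_lit 60) (nat_lit 58))))) (PT.nd (nat_lit 188) (PT.nd (nat_lit 94) (PT.lf (nat_lit 11844) (nat_lit 6) (nat_lit 141) (nat_lit 4) (nat_lit 33) (nat_lit 60) (nat_lit 57)) (PT.lf (nat_lit 12432) (nat_lit 6) (nat_lit 148) (nat_lit 4) (nat_lit 34) (nat_lit 60) (nat_lit 56))) (PT.nd (nat_lit 94) (PT.lf (nat_lit 13104) (nat_lit 6) (nat_lit 156) (nat_lit 4) (nat_lit 35) (nat_lit 60) (nat_lit 55)) (PT.nd (nat_lit 94) (PT.lf (nat_lit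 14280) (nat_lit 6) (nat_lit 170) (nat_lit 4) (nat_lit 36) (nat_lit 60) (nat_lit 54)) (PT.lf (nat_lit 15372) (nat_lit 6) (nat_lit 183) (nat_lit 4) (nat_lit 37) (nat_lit 60) (nat_lit 53))))))))
noncomputable def pc23 : PT := (PT.nd (nat_lit 1880) (PT.nd (nat_lit 940) (PT.nd (nat_lit 470) (PT.nd (nat_lit 188) (PT.nd (nat_lit 94) (PT.lf (nat_lit 16380) (nat_lit 6) (nat_lit 195) (nat_lit 4) (nat_lit 38) (nat_lit 60) (nat_lit 52)) (PT.lf (nat_lit 17304) (nat_lit 6) (nat_lit 206) (nat_lit 4) (nat_lit 39) (nat_lit 60) (nat_lit 51))) (PT.nd (nat_lit 94) (PT.lf (nat_lit 18144) (nat_lit 6) (nat_lit 216) (nat_lit 4) (nat_lit 40) (nat_lit 60) (nat_lit 50)) (PT.nd (nat_lit 94) (PT.lf (nat_lit 18060) (nat_lit 6) (nat_lit 215) (nat_lit 4) (nat_lit 41) (nat_lit 60) (nat_lit 49)) (PT.lf (nat_lit 17976) (nat_lit 6) (nat_lit 214) (nat_lit 4) (nat_lit 42) (nat_lit 60) (nat_lit 48))))) (PT.nd (nat_lit 188) (PT.nd (nat_lit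 94) (PT.lf (nat_lit 17892) (nat_lit 6) (nat_lit 213) (nat_lit 4) (nat_lit 43) (nat_lit 60) (nat_lit 47)) (PT.lf (nat_lit 17808) (nat_lit 6) (nat_lit 212) (nat_lit 4) (nat_lit 44) (nat_lit 60) (nat_lit 46))) (PT.nd (nat_lit 94) (PT.lf (nat_lit 17724) (nat_lit 3) (nat_lit 211) (nat_lit 2) (nat_lit 45) (nat_lit 60) (nat_lit 45)) (PT.nd (nat_lit 94) (PT.lf (nat_lit 17808) (nat_lit 6) (nat_lit 212) (nat_lit 2) (nat_lit 46) (nat_lit 60) (nat_lit 44)) (PT.lf (nat_lit 17892) (nat_lit 6) (nat_lit 213) (nat_lit 2) (nat_lit 47) (nat_lit 60) (nat_lit 43)))))) (PT.nd (nat_lit 470) (PT.nd (nat_lit 188) (PT.nd (nat_lit 94) (PT.lf (nat_lit 17976) (nat_lit 6) (nat_lit 214) (nat_lit 2) (nat_lit 48) (nat_lit 60) (nat_lit 42)) (PT.lf (nat_lit 18060) (nat_lit 6) (nat_lit 215) (nat_lit 2) (nat_lit 49) (nat_lit 60) (nat_lit 41))) (PT.nd (nat_lit 94) (PT.lf (nat_lit 18144) (nat_lit 6) (nat_lit 216) (nat_lit 2) (nat_lit 50)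 (nat_lit 60) (nat_lit 40)) (PT.nd (nat_lit 94) (PT.lf (nat_lit 17304) (nat_lit 6) (nat_lit 206) (nat_lit 2) (nat_lit 51) (nat_lit 60) (nat_lit 39)) (PT.lf (nat_lit 16380) (nat_lit 6) (nat_lit 195) (nat_lit 2) (nat_lit 52) (nat_lit 60) (nat_lit 38))))) (PT.nd (nat_lit 188) (PT.nd (nat_lit 94) (PT.lf (nat_lit 15372) (nat_lit 6) (nat_lit 183) (nat_lit 2) (nat_lit 53) (nat_lit 60) (nat_lit 37)) (PT.lf (nat_lit 14280) (nat_lit 6) (nat_lit 170) (nat_lit 2) (nat_lit 54) (nat_lit 60) (nat_lit 36))) (PT.nd (nat_lit 94) (PT.lf (nat_lit 13104) (nat_lit 6) (nat_lit 156) (nat_lit 2) (nat_lit 55) (nat_lit 60) (nat_lit 35)) (PT.nd (nat_lit 94) (PT.lf (nat_lit 12432) (nat_lit 6) (nat_lit 148) (nat_lit 2) (nat_lit 56) (nat_lit 60) (nat_lit 34)) (PT.lf (nat_lit 11844) (nat_lit 6) (nat_lit 141) (nat_lit 2) (nat_lit 57) (nat_lit 60) (nat_lit 33))))))) (PT.nd (nat_lit 940) (PT.nd (nat_lit 470) (PT.nd (nat_lit 188) (PT.nd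 (nat_lit 94) (PT.lf (nat_lit 11256) (nat_lit 6) (nat_lit 134) (nat_lit 2) (nat_lit 58) (nat_lit 60) (nat_lit 32)) (PT.lf (nat_lit 10752) (nat_lit 6) (nat_lit 128) (nat_lit 2) (nat_lit 59) (nat_lit 60) (nat_lit 31))) (PT.nd (nat_lit 94) (PT.lf (nat_lit 10248) (nat_lit 3) (nat_lit 122) (nat_lit 0) (nat_lit 60) (nat_lit 60) (nat_lit 30)) (PT.nd (nat_lit 94) (PT.lf (nat_lit 9660) (nat_lit 6) (nat_lit 115) (nat_lit 0) (nat_lit 61) (nat_lit 60) (nat_lit 29)) (PT.lf (nat_lit 9072) (nat_lit 6) (nat_lit 108) (nat_lit 0) (nat_lit 62) (nat_lit 60) (nat_lit 28))))) (PT.nd (nat_lit 188) (PT.nd (nat_lit 94) (PT.lf (nat_lit 8568) (nat_lit 6) (nat_lit 102) (nat_lit 0) (nat_lit 63) (nat_lit 60) (nat_lit 27)) (PT.lf (nat_lit 8064) (nat_lit 6) (nat_lit 96) (nat_lit 0) (nat_lit 64) (nat_lit 60) (nat_lit 26))) (PT.nd (nat_lit 94) (PT.lf (nat_lit 7560) (nat_lit 6) (nat_lit 90) (nat_lit 0) (nat_lit 65) (nat_lit 60) (nat_lit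 25)) (PT.nd (nat_lit 94) (PT.lf (nat_lit 7056) (nat_lit 6) (nat_lit 84) (nat_lit 0) (nat_lit 66) (nat_lit 60) (nat_lit 24)) (PT.lf (nat_lit 6636) (nat_lit 6) (nat_lit 79) (nat_lit 0) (nat_lit 67) (nat_lit 60) (nat_lit 23)))))) (PT.nd (nat_lit 33558) (PT.nd (nat_lit 33276) (PT.nd (nat_lit 33182) (PT.lf (nat_lit 6132) (nat_lit 6) (nat_lit 73) (nat_lit 0) (nat_lit 68) (nat_lit 60) (nat_lit 22)) (PT.lf (nat_lit 5376) (nat_lit 6) (nat_lit 64) (nat_lit 5) (nat_lit 20) (nat_lit 61) (nat_lit 69))) (PT.nd (nat_lit 94) (PT.lf (nat_lit 5796) (nat_lit 6) (nat_lit 69) (nat_lit 5) (nat_lit 21) (nat_lit 61) (nat_lit 68)) (PT.nd (nat_lit 94) (PT.lf (nat_lit 6216) (nat_lit 6) (nat_lit 74) (nat_lit 5) (nat_lit 22) (nat_lit 61) (nat_lit 67)) (PT.lf (nat_lit 6720) (nat_lit 6) (nat_lit 80) (nat_lit 5) (nat_lit 23) (nat_lit 61) (nat_lit 66))))) (PT.nd (nat_lit 188) (PT.nd (nat_lit 94) (PT.lf (nat_lit 7140) (nat_lit 6) (nat_lit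 85) (nat_lit 5) (nat_lit 24) (nat_lit 61) (nat_lit 65)) (PT.lf (nat_lit 7644) (nat_lit 6) (nat_lit 91) (nat_lit 5) (nat_lit 25) (nat_lit 61) (nat_lit 64))) (PT.nd (nat_lit 94) (PT.lf (nat_lit 8148) (nat_lit 6) (nat_lit 97) (nat_lit 5) (nat_lit 26) (nat_lit 61) (nat_lit 63)) (PT.nd (nat_lit 94) (PT.lf (nat_lit 8652) (nat_lit 6) (nat_lit 103) (nat_lit 5) (nat_lit 27) (nat_lit 61) (nat_lit 62)) (PT.lf (nat_lit 9156) (nat_lit 3) (nat_lit 109) (nat_lit 4) (nat_lit 28) (nat_lit 61) (nat_lit 61))))))))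
noncomputable def pc24 : PT := (PT.nd (nat_lit 1786) (PT.nd (nat_lit 846) (PT.nd (nat_lit 376) (PT.nd (nat_lit 188) (PT.nd (nat_lit 94) (PT.lf (nat_lit 9660) (nat_lit 6) (nat_lit 115) (nat_lit 4) (nat_lit 29) (nat_lit 61) (nat_lit 60)) (PT.lf (nat_lit 10164) (nat_lit 6) (nat_lit 121) (nat_lit 4) (nat_lit 30) (nat_lit 61) (nat_lit 59))) (PT.nd (nat_lit 94) (PT.lf (nat_lit 10668) (nat_lit 6) (nat_lit 127) (nat_lit 4) (nat_lit 31) (nat_lit 61) (nat_lit 58)) (PT.lf (nat_lit 11172) (nat_lit 6) (nat_lit 133) (nat_lit 4) (nat_lit 32) (nat_lit 61) (nat_lit 57)))) (PT.nd (nat_lit 188) (PT.nd (nat_lit 94) (PT.lf (nat_lit 11760) (nat_lit 6) (nat_lit 140) (nat_lit 4) (nat_lit 33) (nat_lit 61) (nat_lit 56)) (PT.lf (nat_lit 12348) (nat_lit 6) (nat_lit 147) (nat_lit 4) (nat_lit 34) (nat_lit 61) (nat_lit 55))) (PT.nd (nat_lit 94) (PT.lf (nat_lit 13020) (nat_lit 6) (nat_lit 155) (nat_lit 4) (nat_lit 35) (nat_lit 61)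 (nat_lit 54)) (PT.nd (nat_lit 94) (PT.lf (nat_lit 14196) (nat_lit 6) (nat_lit 169) (nat_lit 4) (nat_lit 36) (nat_lit 61) (nat_lit 53)) (PT.lf (nat_lit 15288) (nat_lit 6) (nat_lit 182) (nat_lit 4) (nat_lit 37) (nat_lit 61) (nat_lit 52)))))) (PT.nd (nat_lit 470) (PT.nd (nat_lit 188) (PT.nd (nat_lit 94) (PT.lf (nat_lit 16296) (nat_lit 6) (nat_lit 194) (nat_lit 4) (nat_lit 38) (nat_lit 61) (nat_lit 51)) (PT.lf (nat_lit 17220) (nat_lit 6) (nat_lit 205) (nat_lit 4) (nat_lit 39) (nat_lit 61) (nat_lit 50))) (PT.nd (nat_lit 94) (PT.lf (nat_lit 17136) (nat_lit 6) (nat_lit 204) (nat_lit 4) (nat_lit 40) (nat_lit 61) (nat_lit 49)) (PT.nd (nat_lit 94) (PT.lf (nat_lit 17052) (nat_lit 6) (nat_lit 203) (nat_lit 4) (nat_lit 41) (nat_lit 61) (nat_lit 48)) (PT.lf (nat_lit 16968) (nat_lit 6) (nat_lit 202) (nat_lit 4) (nat_lit 42) (nat_lit 61) (nat_lit 47))))) (PT.nd (nat_lit 188) (PT.nd (nat_lit 94) (PT.lf (nat_lit 16884)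 (nat_lit 6) (nat_lit 201) (nat_lit 4) (nat_lit 43) (nat_lit 61) (nat_lit 46)) (PT.lf (nat_lit 16800) (nat_lit 6) (nat_lit 200) (nat_lit 4) (nat_lit 44) (nat_lit 61) (nat_lit 45))) (PT.nd (nat_lit 94) (PT.lf (nat_lit 16800) (nat_lit 6) (nat_lit 200) (nat_lit 2) (nat_lit 45) (nat_lit 61) (nat_lit 44)) (PT.nd (nat_lit 94) (PT.lf (nat_lit 16884) (nat_lit 6) (nat_lit 201) (nat_lit 2) (nat_lit 46) (nat_lit 61) (nat_lit 43)) (PT.lf (nat_lit 16968) (nat_lit 6) (nat_lit 202) (nat_lit 2) (nat_lit 47) (nat_lit 61) (nat_lit 42))))))) (PT.nd (nat_lit 940) (PT.nd (nat_lit 470) (PT.nd (nat_lit 188) (PT.nd (nat_lit 94) (PT.lf (nat_lit 17052) (nat_lit 6) (nat_lit 203) (nat_lit 2) (nat_lit 48) (nat_lit 61) (nat_lit 41)) (PT.lf (nat_lit 17136) (nat_lit 6) (nat_lit 204) (nat_lit 2) (nat_lit 49) (nat_lit 61) (nat_lit 40))) (PT.nd (nat_lit 94) (PT.lf (nat_lit 17220) (nat_lit 6) (nat_lit 205) (nat_lit 2) (nat_lit 50) (nat_lit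 61) (nat_lit 39)) (PT.nd (nat_lit 94) (PT.lf (nat_lit 16296) (nat_lit 6) (nat_lit 194) (nat_lit 2) (nat_lit 51) (nat_lit 61) (nat_lit 38)) (PT.lf (nat_lit 15288) (nat_lit 6) (nat_lit 182) (nat_lit 2) (nat_lit 52) (nat_lit 61) (nat_lit 37))))) (PT.nd (nat_lit 188) (PT.nd (nat_lit 94) (PT.lf (nat_lit 14196) (nat_lit 6) (nat_lit 169) (nat_lit 2) (nat_lit 53) (nat_lit 61) (nat_lit 36)) (PT.lf (nat_lit 13020) (nat_lit 6) (nat_lit 155) (nat_lit 2) (nat_lit 54) (nat_lit 61) (nat_lit 35))) (PT.nd (nat_lit 94) (PT.lf (nat_lit 12348) (nat_lit 6) (nat_lit 147) (nat_lit 2) (nat_lit 55) (nat_lit 61) (nat_lit 34)) (PT.nd (nat_lit 94) (PT.lf (nat_lit 11760) (nat_lit 6) (nat_lit 140) (nat_lit 2) (nat_lit 56) (nat_lit 61) (nat_lit 33)) (PT.lf (nat_lit 11172) (nat_lit 6) (nat_lit 133) (nat_lit 2) (nat_lit 57) (nat_lit 61) (nat_lit 32)))))) (PT.nd (nat_lit 470) (PT.nd (nat_lit 188) (PT.nd (nat_lit 94) (PT.lf (nat_lit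 10668) (nat_lit 6) (nat_lit 127) (nat_lit 2) (nat_lit 58) (nat_lit 61) (nat_lit 31)) (PT.lf (nat_lit 10164) (nat_lit 6) (nat_lit 121) (nat_lit 2) (nat_lit 59) (nat_lit 61) (nat_lit 30))) (PT.nd (nat_lit 94) (PT.lf (nat_lit 9660) (nat_lit 6) (nat_lit 115) (nat_lit 2) (nat_lit 60) (nat_lit 61) (nat_lit 29)) (PT.nd (nat_lit 94) (PT.lf (nat_lit 9156) (nat_lit 3) (nat_lit 109) (nat_lit 0) (nat_lit 61) (nat_lit 61) (nat_lit 28)) (PT.lf (nat_lit 8652) (nat_lit 6) (nat_lit 103) (nat_lit 0) (nat_lit 62) (nat_lit 61) (nat_lit 27))))) (PT.nd (nat_lit 188) (PT.nd (nat_lit 94) (PT.lf (nat_lit 8148) (nat_lit 6) (nat_lit 97) (nat_lit 0) (nat_lit 63) (nat_lit 61) (nat_lit 26)) (PT.lf (nat_lit 7644) (nat_lit 6) (nat_lit 91) (nat_lit 0) (nat_lit 64) (nat_lit 61) (nat_lit 25))) (PT.nd (nat_lit 94) (PT.lf (nat_lit 7140) (nat_lit 6) (nat_lit 85) (nat_lit 0) (nat_lit 65) (nat_lit 61) (nat_lit 24)) (PT.nd (nat_lit 94) (PT.lf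 (nat_lit 6720) (nat_lit 6) (nat_lit 80) (nat_lit 0) (nat_lit 66) (nat_lit 61) (nat_lit 23)) (PT.lf (nat_lit 6216) (nat_lit 6) (nat_lit 74) (nat_lit 0) (nat_lit 67) (nat_lit 61) (nat_lit 22))))))))
noncomputable def pc25 : PT := (PT.nd (nat_lit 34686) (PT.nd (nat_lit 33746) (PT.nd (nat_lit 33276) (PT.nd (nat_lit 33088) (PT.nd (nat_lit 94) (PT.lf (nat_lit 5796) (nat_lit 6) (nat_lit 69) (nat_lit 0) (nat_lit 68) (nat_lit 61) (nat_lit 21)) (PT.lf (nat_lit 5376) (nat_lit 6) (nat_lit 64) (nat_lit 0) (nat_lit 69) (nat_lit 61) (nat_lit 20))) (PT.nd (nat_lit 94) (PT.lf (nat_lit 5040) (nat_lit 6) (nat_lit 60) (nat_lit 5) (nat_lit 19) (nat_lit 62) (nat_lit 69)) (PT.lf (nat_lit 5460) (nat_lit 6) (nat_lit 65) (nat_lit 5) (nat_lit 20) (nat_lit 62) (nat_lit 68)))) (PT.nd (nat_lit 188) (PT.nd (nat_lit 94) (PT.lf (nat_lit 5880) (nat_lit 6) (nat_lit 70) (nat_lit 5) (nat_lit 21) (nat_lit 62) (nat_lit 67)) (PT.lf (nat_lit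 6300) (nat_lit 6) (nat_lit 75) (nat_lit 5) (nat_lit 22) (nat_lit 62) (nat_lit 66))) (PT.nd (nat_lit 94) (PT.lf (nat_lit 6804) (nat_lit 6) (nat_lit 81) (nat_lit 5) (nat_lit 23) (nat_lit 62) (nat_lit 65)) (PT.nd (nat_lit 94) (PT.lf (nat_lit 7224) (nat_lit 6) (nat_lit 86) (nat_lit 5) (nat_lit 24) (nat_lit 62) (nat_lit 64)) (PT.lf (nat_lit 7728) (nat_lit 6) (nat_lit 92) (nat_lit 5) (nat_lit 25) (nat_lit 62) (nat_lit 63)))))) (PT.nd (nat_lit 470) (PT.nd (nat_lit 188) (PT.nd (nat_lit 94) (PT.lf (nat_lit 8232) (nat_lit 3) (nat_lit 98) (nat_lit 4) (nat_lit 26) (nat_lit 62) (nat_lit 62)) (PT.lf (nat_lit 8652) (nat_lit 6) (nat_lit 103) (nat_lit 4) (nat_lit 27) (nat_lit 62) (nat_lit 61))) (PT.nd (nat_lit 94) (PT.lf (nat_lit 9072) (nat_lit 6) (nat_lit 108) (nat_lit 4) (nat_lit 28) (nat_lit 62) (nat_lit 60)) (PT.nd (nat_lit 94) (PT.lf (nat_lit 9576) (nat_lit 6) (nat_lit 114) (nat_lit 4) (nat_lit 29) (nat_lit 62)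 (nat_lit 59)) (PT.lf (nat_lit 10080) (nat_lit 6) (nat_lit 120) (nat_lit 4) (nat_lit 30) (nat_lit 62) (nat_lit 58))))) (PT.nd (nat_lit 188) (PT.nd (nat_lit 94) (PT.lf (nat_lit 10584) (nat_lit 6) (nat_lit 126) (nat_lit 4) (nat_lit 31) (nat_lit 62) (nat_lit 57)) (PT.lf (nat_lit 11088) (nat_lit 6) (nat_lit 132) (nat_lit 4) (nat_lit 32) (nat_lit 62) (nat_lit 56))) (PT.nd (nat_lit 94) (PT.lf (nat_lit 11676) (nat_lit 6) (nat_lit 139) (nat_lit 4) (nat_lit 33) (nat_lit 62) (nat_lit 55)) (PT.nd (nat_lit 94) (PT.lf (nat_lit 12264) (nat_lit 6) (nat_lit 146) (nat_lit 4) (nat_lit 34) (nat_lit 62) (nat_lit 54)) (PT.lf (nat_lit 12936) (nat_lit 6) (nat_lit 154) (nat_lit 4) (nat_lit 35) (nat_lit 62) (nat_lit 53))))))) (PT.nd (nat_lit 940) (PT.nd (nat_lit 470) (PT.nd (nat_lit 188) (PT.nd (nat_lit 94) (PT.lf (nat_lit 14112) (nat_lit 6) (nat_lit 168) (nat_lit 4) (nat_lit 36) (nat_lit 62) (nat_lit 52)) (PT.lf (nat_lit 15204)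 (nat_lit 6) (nat_lit 181) (nat_lit 4) (nat_lit 37) (nat_lit 62) (nat_lit 51))) (PT.nd (nat_lit 94) (PT.lf (nat_lit 16212) (nat_lit 6) (nat_lit 193) (nat_lit 4) (nat_lit 38) (nat_lit 62) (nat_lit 50)) (PT.nd (nat_lit 94) (PT.lf (nat_lit 16128) (nat_lit 6) (nat_lit 192) (nat_lit 4) (nat_lit 39) (nat_lit 62) (nat_lit 49)) (PT.lf (nat_lit 16044) (nat_lit 6) (nat_lit 191) (nat_lit 4) (nat_lit 40) (nat_lit 62) (nat_lit 48))))) (PT.nd (nat_lit 188) (PT.nd (nat_lit 94) (PT.lf (nat_lit 15960) (nat_lit 6) (nat_lit 190) (nat_lit 4) (nat_lit 41) (nat_lit 62) (nat_lit 47)) (PT.lf (nat_lit 15876) (nat_lit 6) (nat_lit 189) (nat_lit 4) (nat_lit 42) (nat_lit 62) (nat_lit 46))) (PT.nd (nat_lit 94) (PT.lf (nat_lit 15792) (nat_lit 6) (nat_lit 188) (nat_lit 4) (nat_lit 43) (nat_lit 62) (nat_lit 45)) (PT.nd (nat_lit 94) (PT.lf (nat_lit 15708) (nat_lit 3) (nat_lit 187) (nat_lit 2) (nat_lit 44) (nat_lit 62) (nat_lit 44)) (PT.lf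 (nat_lit 15792) (nat_lit 6) (nat_lit 188) (nat_lit 2) (nat_lit 45) (nat_lit 62) (nat_lit 43)))))) (PT.nd (nat_lit 470) (PT.nd (nat_lit 188) (PT.nd (nat_lit 94) (PT.lf (nat_lit 15876) (nat_lit 6) (nat_lit 189) (nat_lit 2) (nat_lit 46) (nat_lit 62) (nat_lit 42)) (PT.lf (nat_lit 15960) (nat_lit 6) (nat_lit 190) (nat_lit 2) (nat_lit 47) (nat_lit 62) (nat_lit 41))) (PT.nd (nat_lit 94) (PT.lf (nat_lit 16044) (nat_lit 6) (nat_lit 191) (nat_lit 2) (nat_lit 48) (nat_lit 62) (nat_lit 40)) (PT.nd (nat_lit 94) (PT.lf (nat_lit 16128) (nat_lit 6) (nat_lit 192) (nat_lit 2) (nat_lit 49) (nat_lit 62) (nat_lit 39)) (PT.lf (nat_lit 16212) (nat_lit 6) (nat_lit 193) (nat_lit 2) (nat_lit 50) (nat_lit 62) (nat_lit 38))))) (PT.nd (nat_lit 188) (PT.nd (nat_lit 94) (PT.lf (nat_lit 15204) (nat_lit 6) (nat_lit 181) (nat_lit 2) (nat_lit 51) (nat_lit 62) (nat_lit 37)) (PT.lf (nat_lit 14112) (nat_lit 6) (nat_lit 168) (nat_lit 2)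 (nat_lit 52) (nat_lit 62) (nat_lit 36))) (PT.nd (nat_lit 94) (PT.lf (nat_lit 12936) (nat_lit 6) (nat_lit 154) (nat_lit 2) (nat_lit 53) (nat_lit 62) (nat_lit 35)) (PT.nd (nat_lit 94) (PT.lf (nat_lit 12264) (nat_lit 6) (nat_lit 146) (nat_lit 2) (nat_lit 54) (nat_lit 62) (nat_lit 34)) (PT.lf (nat_lit 11676) (nat_lit 6) (nat_lit 139) (nat_lit 2) (nat_lit 55) (nat_lit 62) (nat_lit 33))))))))
noncomputable def pc26 : PT := (PT.nd (nat_lit 34592) (PT.nd (nat_lit 846) (PT.nd (nat_lit 376) (PT.nd (nat_lit 188) (PT.nd (nat_lit 94) (PT.lf (nat_lit 11088) (nat_lit 6) (nat_lit 132) (nat_lit 2) (nat_lit 56) (nat_lit 62) (nat_lit 32)) (PT.lf (nat_lit 10584) (nat_lit 6) (nat_lit 126) (nat_lit 2) (nat_lit 57) (nat_lit 62) (nat_lit 31))) (PT.nd (nat_lit 94) (PT.lf (nat_lit 10080) (nat_lit 6) (nat_lit 120) (nat_lit 2) (nat_lit 58) (nat_lit 62) (nat_lit 30)) (PT.lf (nat_lit 9576) (nat_lit 6) (nat_lit 114) (nat_lit 2) (nat_lit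 59) (nat_lit 62) (nat_lit 29)))) (PT.nd (nat_lit 188) (PT.nd (nat_lit 94) (PT.lf (nat_lit 9072) (nat_lit 6) (nat_lit 108) (nat_lit 2) (nat_lit 60) (nat_lit 62) (nat_lit 28)) (PT.lf (nat_lit 8652) (nat_lit 6) (nat_lit 103) (nat_lit 2) (nat_lit 61) (nat_lit 62) (nat_lit 27))) (PT.nd (nat_lit 94) (PT.lf (nat_lit 8232) (nat_lit 3) (nat_lit 98) (nat_lit 0) (nat_lit 62) (nat_lit 62) (nat_lit 26)) (PT.nd (nat_lit 94) (PT.lf (nat_lit 7728) (nat_lit 6) (nat_lit 92) (nat_lit 0) (nat_lit 63) (nat_lit 62) (nat_lit 25)) (PT.lf (nat_lit 7224) (nat_lit 6) (nat_lit 86) (nat_lit 0) (nat_lit 64) (nat_lit 62) (nat_lit 24)))))) (PT.nd (nat_lit 33276) (PT.nd (nat_lit 188) (PT.nd (nat_lit 94) (PT.lf (nat_lit 6804) (nat_lit 6) (nat_lit 81) (nat_lit 0) (nat_lit 65) (nat_lit 62) (nat_lit 23)) (PT.lf (nat_lit 6300) (nat_lit 6) (nat_lit 75) (nat_lit 0) (nat_lit 66) (nat_lit 62) (nat_lit 22))) (PT.nd (nat_lit 94) (PT.lf (nat_lit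 5880) (nat_lit 6) (nat_lit 70) (nat_lit 0) (nat_lit 67) (nat_lit 62) (nat_lit 21)) (PT.nd (nat_lit 94) (PT.lf (nat_lit 5460) (nat_lit 6) (nat_lit 65) (nat_lit 0) (nat_lit 68) (nat_lit 62) (nat_lit 20)) (PT.lf (nat_lit 5040) (nat_lit 6) (nat_lit 60) (nat_lit 0) (nat_lit 69) (nat_lit 62) (nat_lit 19))))) (PT.nd (nat_lit 188) (PT.nd (nat_lit 94) (PT.lf (nat_lit 4704) (nat_lit 6) (nat_lit 56) (nat_lit 5) (nat_lit 18) (nat_lit 63) (nat_lit 69)) (PT.lf (nat_lit 5124) (nat_lit 6) (nat_lit 61) (nat_lit 5) (nat_lit 19) (nat_lit 63) (nat_lit 68))) (PT.nd (nat_lit 94) (PT.lf (nat_lit 5544) (nat_lit 6) (nat_lit 66) (nat_lit 5) (nat_lit 20) (nat_lit 63) (nat_lit 67)) (PT.nd (nat_lit 94) (PT.lf (nat_lit 5964) (nat_lit 6) (nat_lit 71) (nat_lit 5) (nat_lit 21) (nat_lit 63) (nat_lit 66)) (PT.lf (nat_lit 6384) (nat_lit 6) (nat_lit 76) (nat_lit 5) (nat_lit 22) (nat_lit 63) (nat_lit 65))))))) (PT.nd (nat_lit 940) (PT.nd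 (nat_lit 470) (PT.nd (nat_lit 188) (PT.nd (nat_lit 94) (PT.lf (nat_lit 6888) (nat_lit 6) (nat_lit 82) (nat_lit 5) (nat_lit 23) (nat_lit 63) (nat_lit 64)) (PT.lf (nat_lit 7308) (nat_lit 3) (nat_lit 87) (nat_lit 4) (nat_lit 24) (nat_lit 63) (nat_lit 63))) (PT.nd (nat_lit 94) (PT.lf (nat_lit 7728) (nat_lit 6) (nat_lit 92) (nat_lit 4) (nat_lit 25) (nat_lit 63) (nat_lit 62)) (PT.nd (nat_lit 94) (PT.lf (nat_lit 8148) (nat_lit 6) (nat_lit 97) (nat_lit 4) (nat_lit 26) (nat_lit 63) (nat_lit 61)) (PT.lf (nat_lit 8568) (nat_lit 6) (nat_lit 102) (nat_lit 4) (nat_lit 27) (nat_lit 63) (nat_lit 60))))) (PT.nd (nat_lit 188) (PT.nd (nat_lit 94) (PT.lf (nat_lit 8988) (nat_lit 6) (nat_lit 107) (nat_lit 4) (nat_lit 28) (nat_lit 63) (nat_lit 59)) (PT.lf (nat_lit 9492) (nat_lit 6) (nat_lit 113) (nat_lit 4) (nat_lit 29) (nat_lit 63) (nat_lit 58))) (PT.nd (nat_lit 94) (PT.lf (nat_lit 9996) (nat_lit 6) (nat_lit 119) (nat_lit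 4) (nat_lit 30) (nat_lit 63) (nat_lit 57)) (PT.nd (nat_lit 94) (PT.lf (nat_lit 10500) (nat_lit 6) (nat_lit 125) (nat_lit 4) (nat_lit 31) (nat_lit 63) (nat_lit 56)) (PT.lf (nat_lit 11004) (nat_lit 6) (nat_lit 131) (nat_lit 4) (nat_lit 32) (nat_lit 63) (nat_lit 55)))))) (PT.nd (nat_lit 470) (PT.nd (nat_lit 188) (PT.nd (nat_lit 94) (PT.lf (nat_lit 11592) (nat_lit 6) (nat_lit 138) (nat_lit 4) (nat_lit 33) (nat_lit 63) (nat_lit 54)) (PT.lf (nat_lit 12180) (nat_lit 6) (nat_lit 145) (nat_lit 4) (nat_lit 34) (nat_lit 63) (nat_lit 53))) (PT.nd (nat_lit 94) (PT.lf (nat_lit 12852) (nat_lit 6) (nat_lit 153) (nat_lit 4) (nat_lit 35) (nat_lit 63) (nat_lit 52)) (PT.nd (nat_lit 94) (PT.lf (nat_lit 14028) (nat_lit 6) (nat_lit 167) (nat_lit 4) (nat_lit 36) (nat_lit 63) (nat_lit 51)) (PT.lf (nat_lit 15120) (nat_lit 6) (nat_lit 180) (nat_lit 4) (nat_lit 37) (nat_lit 63) (nat_lit 50))))) (PT.nd (nat_lit 188) (PT.nd (nat_lit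 94) (PT.lf (nat_lit 15036) (nat_lit 6) (nat_lit 179) (nat_lit 4) (nat_lit 38) (nat_lit 63) (nat_lit 49)) (PT.lf (nat_lit 14952) (nat_lit 6) (nat_lit 178) (nat_lit 4) (nat_lit 39) (nat_lit 63) (nat_lit 48))) (PT.nd (nat_lit 94) (PT.lf (nat_lit 14868) (nat_lit 6) (nat_lit 177) (nat_lit 4) (nat_lit 40) (nat_lit 63) (nat_lit 47)) (PT.nd (nat_lit 94) (PT.lf (nat_lit 14784) (nat_lit 6) (nat_lit 176) (nat_lit 4) (nat_lit 41) (nat_lit 63) (nat_lit 46)) (PT.lf (nat_lit 14700) (nat_lit 6) (nat_lit 175) (nat_lit 4) (nat_lit 42) (nat_lit 63) (nat_lit 45))))))))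
noncomputable def pc27 : PT := (PT.nd (nat_lit 1786) (PT.nd (nat_lit 846) (PT.nd (nat_lit 376) (PT.nd (nat_lit 188) (PT.nd (nat_lit 94) (PT.lf (nat_lit 14616) (nat_lit 6) (nat_lit 174) (nat_lit 4) (nat_lit 43) (nat_lit 63) (nat_lit 44)) (PT.lf (nat_lit 14616) (nat_lit 6) (nat_lit 174) (nat_lit 2) (nat_lit 44) (nat_lit 63) (nat_lit 43))) (PT.nd (nat_lit 94) (PT.lf (nat_lit 14700) (nat_lit 6) (nat_lit 175) (nat_lit 2) (nat_lit 45) (nat_lit 63) (nat_lit 42)) (PT.lf (nat_lit 14784) (nat_lit 6) (nat_lit 176) (nat_lit 2) (nat_lit 46) (nat_lit 63) (nat_lit 41)))) (PT.nd (nat_lit 188) (PT.nd (nat_lit 94) (PT.lf (nat_lit 14868) (nat_lit 6) (nat_lit 177) (nat_lit 2) (nat_lit 47) (nat_lit 63) (nat_lit 40)) (PT.lf (nat_lit 14952) (nat_lit 6) (nat_lit 178) (nat_lit 2) (nat_lit 48) (nat_lit 63) (nat_lit 39))) (PT.nd (nat_lit 94) (PT.lf (nat_lit 15036) (nat_lit 6) (nat_lit 179) (nat_lit 2) (nat_lit 49) (nat_lit 63)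 (nat_lit 38)) (PT.nd (nat_lit 94) (PT.lf (nat_lit 15120) (nat_lit 6) (nat_lit 180) (nat_lit 2) (nat_lit 50) (nat_lit 63) (nat_lit 37)) (PT.lf (nat_lit 14028) (nat_lit 6) (nat_lit 167) (nat_lit 2) (nat_lit 51) (nat_lit 63) (nat_lit 36)))))) (PT.nd (nat_lit 470) (PT.nd (nat_lit 188) (PT.nd (nat_lit 94) (PT.lf (nat_lit 12852) (nat_lit 6) (nat_lit 153) (nat_lit 2) (nat_lit 52) (nat_lit 63) (nat_lit 35)) (PT.lf (nat_lit 12180) (nat_lit 6) (nat_lit 145) (nat_lit 2) (nat_lit 53) (nat_lit 63) (nat_lit 34))) (PT.nd (nat_lit 94) (PT.lf (nat_lit 11592) (nat_lit 6) (nat_lit 138) (nat_lit 2) (nat_lit 54) (nat_lit 63) (nat_lit 33)) (PT.nd (nat_lit 94) (PT.lf (nat_lit 11004) (nat_lit 6) (nat_lit 131) (nat_lit 2) (nat_lit 55) (nat_lit 63) (nat_lit 32)) (PT.lf (nat_lit 10500) (nat_lit 6) (nat_lit 125) (nat_lit 2) (nat_lit 56) (nat_lit 63) (nat_lit 31))))) (PT.nd (nat_lit 188) (PT.nd (nat_lit 94) (PT.lf (nat_lit 9996)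 (nat_lit 6) (nat_lit 119) (nat_lit 2) (nat_lit 57) (nat_lit 63) (nat_lit 30)) (PT.lf (nat_lit 9492) (nat_lit 6) (nat_lit 113) (nat_lit 2) (nat_lit 58) (nat_lit 63) (nat_lit 29))) (PT.nd (nat_lit 94) (PT.lf (nat_lit 8988) (nat_lit 6) (nat_lit 107) (nat_lit 2) (nat_lit 59) (nat_lit 63) (nat_lit 28)) (PT.nd (nat_lit 94) (PT.lf (nat_lit 8568) (nat_lit 6) (nat_lit 102) (nat_lit 2) (nat_lit 60) (nat_lit 63) (nat_lit 27)) (PT.lf (nat_lit 8148) (nat_lit 6) (nat_lit 97) (nat_lit 2) (nat_lit 61) (nat_lit 63) (nat_lit 26))))))) (PT.nd (nat_lit 33746) (PT.nd (nat_lit 470) (PT.nd (nat_lit 188) (PT.nd (nat_lit 94) (PT.lf (nat_lit 7728) (nat_lit 6) (nat_lit 92) (nat_lit 2) (nat_lit 62) (nat_lit 63) (nat_lit 25)) (PT.lf (nat_lit 7308) (nat_lit 3) (nat_lit 87) (nat_lit 0) (nat_lit 63) (nat_lit 63) (nat_lit 24))) (PT.nd (nat_lit 94) (PT.lf (nat_lit 6888) (nat_lit 6) (nat_lit 82) (nat_lit 0) (nat_lit 64) (nat_lit 63)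 (nat_lit 23)) (PT.nd (nat_lit 94) (PT.lf (nat_lit 6384) (nat_lit 6) (nat_lit 76) (nat_lit 0) (nat_lit 65) (nat_lit 63) (nat_lit 22)) (PT.lf (nat_lit 5964) (nat_lit 6) (nat_lit 71) (nat_lit 0) (nat_lit 66) (nat_lit 63) (nat_lit 21))))) (PT.nd (nat_lit 188) (PT.nd (nat_lit 94) (PT.lf (nat_lit 5544) (nat_lit 6) (nat_lit 66) (nat_lit 0) (nat_lit 67) (nat_lit 63) (nat_lit 20)) (PT.lf (nat_lit 5124) (nat_lit 6) (nat_lit 61) (nat_lit 0) (nat_lit 68) (nat_lit 63) (nat_lit 19))) (PT.nd (nat_lit 32900) (PT.lf (nat_lit 4704) (nat_lit 6) (nat_lit 56) (nat_lit 0) (nat_lit 69) (nat_lit 63) (nat_lit 18)) (PT.nd (nat_lit 94) (PT.lf (nat_lit 4788) (nat_lit 6) (nat_lit 57) (nat_lit 5) (nat_lit 18) (nat_lit 64) (nat_lit 68)) (PT.lf (nat_lit 5208) (nat_lit 6) (nat_lit 62) (nat_lit 5) (nat_lit 19) (nat_lit 64) (nat_lit 67)))))) (PT.nd (nat_lit 470) (PT.nd (nat_lit 188) (PT.nd (nat_lit 94) (PT.lf (nat_lit 5628) (nat_lit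 6) (nat_lit 67) (nat_lit 5) (nat_lit 20) (nat_lit 64) (nat_lit 66)) (PT.lf (nat_lit 6048) (nat_lit 6) (nat_lit 72) (nat_lit 5) (nat_lit 21) (nat_lit 64) (nat_lit 65))) (PT.nd (nat_lit 94) (PT.lf (nat_lit 6468) (nat_lit 3) (nat_lit 77) (nat_lit 4) (nat_lit 22) (nat_lit 64) (nat_lit 64)) (PT.nd (nat_lit 94) (PT.lf (nat_lit 6888) (nat_lit 6) (nat_lit 82) (nat_lit 4) (nat_lit 23) (nat_lit 64) (nat_lit 63)) (PT.lf (nat_lit 7224) (nat_lit 6) (nat_lit 86) (nat_lit 4) (nat_lit 24) (nat_lit 64) (nat_lit 62))))) (PT.nd (nat_lit 188) (PT.nd (nat_lit 94) (PT.lf (nat_lit 7644) (nat_lit 6) (nat_lit 91) (nat_lit 4) (nat_lit 25) (nat_lit 64) (nat_lit 61)) (PT.lf (nat_lit 8064) (nat_lit 6) (nat_lit 96) (nat_lit 4) (nat_lit 26) (nat_lit 64) (nat_lit 60))) (PT.nd (nat_lit 94) (PT.lf (nat_lit 8484) (nat_lit 6) (nat_lit 101) (nat_lit 4) (nat_lit 27) (nat_lit 64) (nat_lit 59)) (PT.nd (nat_lit 94) (PT.lf (nat_lit 8904) (nat_lit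 6) (nat_lit 106) (nat_lit 4) (nat_lit 28) (nat_lit 64) (nat_lit 58)) (PT.lf (nat_lit 9408) (nat_lit 6) (nat_lit 112) (nat_lit 4) (nat_lit 29) (nat_lit 64) (nat_lit 57))))))))
noncomputable def pc28 : PT := (PT.nd (nat_lit 1786) (PT.nd (nat_lit 846) (PT.nd (nat_lit 376) (PT.nd (nat_lit 188) (PT.nd (nat_lit 94) (PT.lf (nat_lit 9912) (nat_lit 6) (nat_lit 118) (nat_lit 4) (nat_lit 30) (nat_lit 64) (nat_lit 56)) (PT.lf (nat_lit 10416) (nat_lit 6) (nat_lit 124) (nat_lit 4) (nat_lit 31) (nat_lit 64) (nat_lit 55))) (PT.nd (nat_lit 94) (PT.lf (nat_lit 10920) (nat_lit 6) (nat_lit 130) (nat_lit 4) (nat_lit 32) (nat_lit 64) (nat_lit 54)) (PT.lf (nat_lit 11508) (nat_lit 6) (nat_lit 137) (nat_lit 4) (nat_lit 33) (nat_lit 64) (nat_lit 53)))) (PT.nd (nat_lit 188) (PT.nd (nat_lit 94) (PT.lf (nat_lit 12096) (nat_lit 6) (nat_lit 144) (nat_lit 4) (nat_lit 34) (nat_lit 64) (nat_lit 52)) (PT.lf (nat_lit 12768) (nat_lit 6)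 (nat_lit 152) (nat_lit 4) (nat_lit 35) (nat_lit 64) (nat_lit 51))) (PT.nd (nat_lit 94) (PT.lf (nat_lit 13944) (nat_lit 6) (nat_lit 166) (nat_lit 4) (nat_lit 36) (nat_lit 64) (nat_lit 50)) (PT.nd (nat_lit 94) (PT.lf (nat_lit 13860) (nat_lit 6) (nat_lit 165) (nat_lit 4) (nat_lit 37) (nat_lit 64) (nat_lit 49)) (PT.lf (nat_lit 13776) (nat_lit 6) (nat_lit 164) (nat_lit 4) (nat_lit 38) (nat_lit 64) (nat_lit 48)))))) (PT.nd (nat_lit 470) (PT.nd (nat_lit 188) (PT.nd (nat_lit 94) (PT.lf (nat_lit 13692) (nat_lit 6) (nat_lit 163) (nat_lit 4) (nat_lit 39) (nat_lit 64) (nat_lit 47)) (PT.lf (nat_lit 13608) (nat_lit 6) (nat_lit 162) (nat_lit 4) (nat_lit 40) (nat_lit 64) (nat_lit 46))) (PT.nd (nat_lit 94) (PT.lf (nat_lit 13524) (nat_lit 6) (nat_lit 161) (nat_lit 4) (nat_lit 41) (nat_lit 64) (nat_lit 45)) (PT.nd (nat_lit 94) (PT.lf (nat_lit 13440) (nat_lit 6) (nat_lit 160) (nat_lit 4) (nat_lit 42) (nat_lit 64) (nat_lit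 44)) (PT.lf (nat_lit 13356) (nat_lit 3) (nat_lit 159) (nat_lit 2) (nat_lit 43) (nat_lit 64) (nat_lit 43))))) (PT.nd (nat_lit 188) (PT.nd (nat_lit 94) (PT.lf (nat_lit 13440) (nat_lit 6) (nat_lit 160) (nat_lit 2) (nat_lit 44) (nat_lit 64) (nat_lit 42)) (PT.lf (nat_lit 13524) (nat_lit 6) (nat_lit 161) (nat_lit 2) (nat_lit 45) (nat_lit 64) (nat_lit 41))) (PT.nd (nat_lit 94) (PT.lf (nat_lit 13608) (nat_lit 6) (nat_lit 162) (nat_lit 2) (nat_lit 46) (nat_lit 64) (nat_lit 40)) (PT.nd (nat_lit 94) (PT.lf (nat_lit 13692) (nat_lit 6) (nat_lit 163) (nat_lit 2) (nat_lit 47) (nat_lit 64) (nat_lit 39)) (PT.lf (nat_lit 13776) (nat_lit 6) (nat_lit 164) (nat_lit 2) (nat_lit 48) (nat_lit 64) (nat_lit 38))))))) (PT.nd (nat_lit 940) (PT.nd (nat_lit 470) (PT.nd (nat_lit 188) (PT.nd (nat_lit 94) (PT.lf (nat_lit 13860) (nat_lit 6) (nat_lit 165) (nat_lit 2) (nat_lit 49) (nat_lit 64) (nat_lit 37)) (PT.lf (nat_lit 13944) (nat_lit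 6) (nat_lit 166) (nat_lit 2) (nat_lit 50) (nat_lit 64) (nat_lit 36))) (PT.nd (nat_lit 94) (PT.lf (nat_lit 12768) (nat_lit 6) (nat_lit 152) (nat_lit 2) (nat_lit 51) (nat_lit 64) (nat_lit 35)) (PT.nd (nat_lit 94) (PT.lf (nat_lit 12096) (nat_lit 6) (nat_lit 144) (nat_lit 2) (nat_lit 52) (nat_lit 64) (nat_lit 34)) (PT.lf (nat_lit 11508) (nat_lit 6) (nat_lit 137) (nat_lit 2) (nat_lit 53) (nat_lit 64) (nat_lit 33))))) (PT.nd (nat_lit 188) (PT.nd (nat_lit 94) (PT.lf (nat_lit 10920) (nat_lit 6) (nat_lit 130) (nat_lit 2) (nat_lit 54) (nat_lit 64) (nat_lit 32)) (PT.lf (nat_lit 10416) (nat_lit 6) (nat_lit 124) (nat_lit 2) (nat_lit 55) (nat_lit 64) (nat_lit 31))) (PT.nd (nat_lit 94) (PT.lf (nat_lit 9912) (nat_lit 6) (nat_lit 118) (nat_lit 2) (nat_lit 56) (nat_lit 64) (nat_lit 30)) (PT.nd (nat_lit 94) (PT.lf (nat_lit 9408) (nat_lit 6) (nat_lit 112) (nat_lit 2) (nat_lit 57) (nat_lit 64) (nat_lit 29)) (PT.lf (nat_lit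 8904) (nat_lit 6) (nat_lit 106) (nat_lit 2) (nat_lit 58) (nat_lit 64) (nat_lit 28)))))) (PT.nd (nat_lit 470) (PT.nd (nat_lit 188) (PT.nd (nat_lit 94) (PT.lf (nat_lit 8484) (nat_lit 6) (nat_lit 101) (nat_lit 2) (nat_lit 59) (nat_lit 64) (nat_lit 27)) (PT.lf (nat_lit 8064) (nat_lit 6) (nat_lit 96) (nat_lit 2) (nat_lit 60) (nat_lit 64) (nat_lit 26))) (PT.nd (nat_lit 94) (PT.lf (nat_lit 7644) (nat_lit 6) (nat_lit 91) (nat_lit 2) (nat_lit 61) (nat_lit 64) (nat_lit 25)) (PT.nd (nat_lit 94) (PT.lf (nat_lit 7224) (nat_lit 6) (nat_lit 86) (nat_lit 2) (nat_lit 62) (nat_lit 64) (nat_lit 24)) (PT.lf (nat_lit 6888) (nat_lit 6) (nat_lit 82) (nat_lit 2) (nat_lit 63) (nat_lit 64) (nat_lit 23))))) (PT.nd (nat_lit 188) (PT.nd (nat_lit 94) (PT.lf (nat_lit 6468) (nat_lit 3) (nat_lit 77) (nat_lit 0) (nat_lit 64) (nat_lit 64) (nat_lit 22)) (PT.lf (nat_lit 6048) (nat_lit 6) (nat_lit 72) (nat_lit 0) (nat_lit 65) (nat_lit 64)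 (nat_lit 21))) (PT.nd (nat_lit 94) (PT.lf (nat_lit 5628) (nat_lit 6) (nat_lit 67) (nat_lit 0) (nat_lit 66) (nat_lit 64) (nat_lit 20)) (PT.nd (nat_lit 94) (PT.lf (nat_lit 5208) (nat_lit 6) (nat_lit 62) (nat_lit 0) (nat_lit 67) (nat_lit 64) (nat_lit 19)) (PT.lf (nat_lit 4788) (nat_lit 6) (nat_lit 57) (nat_lit 0) (nat_lit 68) (nat_lit 64) (nat_lit 18))))))))
noncomputable def pc29 : PT := (PT.nd (nat_lit 3102) (PT.nd (nat_lit 846) (PT.nd (nat_lit 376) (PT.nd (nat_lit 188) (PT.nd (nat_lit 94) (PT.lf (nat_lit 4536) (nat_lit 6) (nat_lit 54) (nat_lit 5) (nat_lit 17) (nat_lit 65) (nat_lit 68)) (PT.lf (nat_lit 4872) (nat_lit 6) (nat_lit 58) (nat_lit 5) (nat_lit 18) (nat_lit 65) (nat_lit 67))) (PT.nd (nat_lit 94) (PT.lf (nat_lit 5292) (nat_lit 6) (nat_lit 63) (nat_lit 5) (nat_lit 19) (nat_lit 65) (nat_lit 66)) (PT.lf (nat_lit 5712) (nat_lit 3) (nat_lit 68) (nat_lit 4) (nat_lit 20) (nat_lit 65) (nat_lit 65))))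 (PT.nd (nat_lit 188) (PT.nd (nat_lit 94) (PT.lf (nat_lit 6048) (nat_lit 6) (nat_lit 72) (nat_lit 4) (nat_lit 21) (nat_lit 65) (nat_lit 64)) (PT.lf (nat_lit 6384) (nat_lit 6) (nat_lit 76) (nat_lit 4) (nat_lit 22) (nat_lit 65) (nat_lit 63))) (PT.nd (nat_lit 94) (PT.lf (nat_lit 6804) (nat_lit 6) (nat_lit 81) (nat_lit 4) (nat_lit 23) (nat_lit 65) (nat_lit 62)) (PT.nd (nat_lit 94) (PT.lf (nat_lit 7140) (nat_lit 6) (nat_lit 85) (nat_lit 4) (nat_lit 24) (nat_lit 65) (nat_lit 61)) (PT.lf (nat_lit 7560) (nat_lit 6) (nat_lit 90) (nat_lit 4) (nat_lit 25) (nat_lit 65) (nat_lit 60)))))) (PT.nd (nat_lit 470) (PT.nd (nat_lit 188) (PT.nd (nat_lit 94) (PT.lf (nat_lit 7980) (nat_lit 6) (nat_lit 95) (nat_lit 4) (nat_lit 26) (nat_lit 65) (nat_lit 59)) (PT.lf (nat_lit 8400) (nat_lit 6) (nat_lit 100) (nat_lit 4) (nat_lit 27) (nat_lit 65) (nat_lit 58))) (PT.nd (nat_lit 94) (PT.lf (nat_lit 8820) (nat_lit 6) (nat_lit 105) (nat_lit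 4) (nat_lit 28) (nat_lit 65) (nat_lit 57)) (PT.nd (nat_lit 94) (PT.lf (nat_lit 9324) (nat_lit 6) (nat_lit 111) (nat_lit 4) (nat_lit 29) (nat_lit 65) (nat_lit 56)) (PT.lf (nat_lit 9828) (nat_lit 6) (nat_lit 117) (nat_lit 4) (nat_lit 30) (nat_lit 65) (nat_lit 55))))) (PT.nd (nat_lit 188) (PT.nd (nat_lit 94) (PT.lf (nat_lit 10332) (nat_lit 6) (nat_lit 123) (nat_lit 4) (nat_lit 31) (nat_lit 65) (nat_lit 54)) (PT.lf (nat_lit 10836) (nat_lit 6) (nat_lit 129) (nat_lit 4) (nat_lit 32) (nat_lit 65) (nat_lit 53))) (PT.nd (nat_lit 94) (PT.lf (nat_lit 11424) (nat_lit 6) (nat_lit 136) (nat_lit 4) (nat_lit 33) (nat_lit 65) (nat_lit 52)) (PT.nd (nat_lit 94) (PT.lf (nat_lit 12012) (nat_lit 6) (nat_lit 143) (nat_lit 4) (nat_lit 34) (nat_lit 65) (nat_lit 51)) (PT.lf (nat_lit 12684) (nat_lit 6) (nat_lit 151) (nat_lit 4) (nat_lit 35) (nat_lit 65) (nat_lit 50))))))) (PT.nd (nat_lit 940) (PT.nd (nat_lit 470) (PT.nd (nat_lit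 188) (PT.nd (nat_lit 94) (PT.lf (nat_lit 12684) (nat_lit 6) (nat_lit 151) (nat_lit 2) (nat_lit 50) (nat_lit 65) (nat_lit 35)) (PT.lf (nat_lit 12012) (nat_lit 6) (nat_lit 143) (nat_lit 2) (nat_lit 51) (nat_lit 65) (nat_lit 34))) (PT.nd (nat_lit 94) (PT.lf (nat_lit 11424) (nat_lit 6) (nat_lit 136) (nat_lit 2) (nat_lit 52) (nat_lit 65) (nat_lit 33)) (PT.nd (nat_lit 94) (PT.lf (nat_lit 10836) (nat_lit 6) (nat_lit 129) (nat_lit 2) (nat_lit 53) (nat_lit 65) (nat_lit 32)) (PT.lf (nat_lit 10332) (nat_lit 6) (nat_lit 123) (nat_lit 2) (nat_lit 54) (nat_lit 65) (nat_lit 31))))) (PT.nd (nat_lit 188) (PT.nd (nat_lit 94) (PT.lf (nat_lit 9828) (nat_lit 6) (nat_lit 117) (nat_lit 2) (nat_lit 55) (nat_lit 65) (nat_lit 30)) (PT.lf (nat_lit 9324) (nat_lit 6) (nat_lit 111) (nat_lit 2) (nat_lit 56) (nat_lit 65) (nat_lit 29))) (PT.nd (nat_lit 94) (PT.lf (nat_lit 8820) (nat_lit 6) (nat_lit 105) (nat_lit 2) (nat_lit 57) (nat_lit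 65) (nat_lit 28)) (PT.nd (nat_lit 94) (PT.lf (nat_lit 8400) (nat_lit 6) (nat_lit 100) (nat_lit 2) (nat_lit 58) (nat_lit 65) (nat_lit 27)) (PT.lf (nat_lit 7980) (nat_lit 6) (nat_lit 95) (nat_lit 2) (nat_lit 59) (nat_lit 65) (nat_lit 26)))))) (PT.nd (nat_lit 470) (PT.nd (nat_lit 188) (PT.nd (nat_lit 94) (PT.lf (nat_lit 7560) (nat_lit 6) (nat_lit 90) (nat_lit 2) (nat_lit 60) (nat_lit 65) (nat_lit 25)) (PT.lf (nat_lit 7140) (nat_lit 6) (nat_lit 85) (nat_lit 2) (nat_lit 61) (nat_lit 65) (nat_lit 24))) (PT.nd (nat_lit 94) (PT.lf (nat_lit 6804) (nat_lit 6) (nat_lit 81) (nat_lit 2) (nat_lit 62) (nat_lit 65) (nat_lit 23)) (PT.nd (nat_lit 94) (PT.lf (nat_lit 6384) (nat_lit 6) (nat_lit 76) (nat_lit 2) (nat_lit 63) (nat_lit 65) (nat_lit 22)) (PT.lf (nat_lit 6048) (nat_lit 6) (nat_lit 72) (nat_lit 2) (nat_lit 64) (nat_lit 65) (nat_lit 21))))) (PT.nd (nat_lit 188) (PT.nd (nat_lit 94) (PT.lf (nat_lit 5712) (nat_lit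 3) (nat_lit 68) (nat_lit 0) (nat_lit 65) (nat_lit 65) (nat_lit 20)) (PT.lf (nat_lit 5292) (nat_lit 6) (nat_lit 63) (nat_lit 0) (nat_lit 66) (nat_lit 65) (nat_lit 19))) (PT.nd (nat_lit 94) (PT.lf (nat_lit 4872) (nat_lit 6) (nat_lit 58) (nat_lit 0) (nat_lit 67) (nat_lit 65) (nat_lit 18)) (PT.nd (nat_lit 32806) (PT.lf (nat_lit 4536) (nat_lit 6) (nat_lit 54) (nat_lit 0) (nat_lit 68) (nat_lit 65) (nat_lit 17)) (PT.lf (nat_lit 4200) (nat_lit 6) (nat_lit 50) (nat_lit 5) (nat_lit 16) (nat_lit 66) (nat_lit 68))))))))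
noncomputable def pc30 : PT := (PT.nd (nat_lit 3948) (PT.nd (nat_lit 846) (PT.nd (nat_lit 376) (PT.nd (nat_lit 188) (PT.nd (nat_lit 94) (PT.lf (nat_lit 4620) (nat_lit 6) (nat_lit 55) (nat_lit 5) (nat_lit 17) (nat_lit 66) (nat_lit 67)) (PT.lf (nat_lit 4956) (nat_lit 3) (nat_lit 59) (nat_lit 4) (nat_lit 18) (nat_lit 66) (nat_lit 66))) (PT.nd (nat_lit 94) (PT.lf (nat_lit 5292) (nat_lit 6) (nat_lit 63) (nat_lit 4) (nat_lit 19) (nat_lit 66) (nat_lit 65)) (PT.lf (nat_lit 5628) (nat_lit 6) (nat_lit 67) (nat_lit 4) (nat_lit 20) (nat_lit 66) (nat_lit 64)))) (PT.nd (nat_lit 188) (PT.nd (nat_lit 94) (PT.lf (nat_lit 5964) (nat_lit 6) (nat_lit 71) (nat_lit 4) (nat_lit 21) (nat_lit 66) (nat_lit 63)) (PT.lf (nat_lit 6300) (nat_lit 6) (nat_lit 75) (nat_lit 4) (nat_lit 22) (nat_lit 66) (nat_lit 62))) (PT.nd (nat_lit 94) (PT.lf (nat_lit 6720) (nat_lit 6) (nat_lit 80) (nat_lit 4) (nat_lit 23) (nat_lit 66) (nat_lit 61))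 (PT.nd (nat_lit 94) (PT.lf (nat_lit 7056) (nat_lit 6) (nat_lit 84) (nat_lit 4) (nat_lit 24) (nat_lit 66) (nat_lit 60)) (PT.lf (nat_lit 7476) (nat_lit 6) (nat_lit 89) (nat_lit 4) (nat_lit 25) (nat_lit 66) (nat_lit 59)))))) (PT.nd (nat_lit 2632) (PT.nd (nat_lit 188) (PT.nd (nat_lit 94) (PT.lf (nat_lit 7896) (nat_lit 6) (nat_lit 94) (nat_lit 4) (nat_lit 26) (nat_lit 66) (nat_lit 58)) (PT.lf (nat_lit 8316) (nat_lit 6) (nat_lit 99) (nat_lit 4) (nat_lit 27) (nat_lit 66) (nat_lit 57))) (PT.nd (nat_lit 94) (PT.lf (nat_lit 8736) (nat_lit 6) (nat_lit 104) (nat_lit 4) (nat_lit 28) (nat_lit 66) (nat_lit 56)) (PT.nd (nat_lit 94) (PT.lf (nat_lit 9240) (nat_lit 6) (nat_lit 110) (nat_lit 4) (nat_lit 29) (nat_lit 66) (nat_lit 55)) (PT.lf (nat_lit 9744) (nat_lit 6) (nat_lit 116) (nat_lit 4) (nat_lit 30) (nat_lit 66) (nat_lit 54))))) (PT.nd (nat_lit 188) (PT.nd (nat_lit 94) (PT.lf (nat_lit 9744) (nat_lit 6) (nat_lit 116)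 (nat_lit 2) (nat_lit 54) (nat_lit 66) (nat_lit 30)) (PT.lf (nat_lit 9240) (nat_lit 6) (nat_lit 110) (nat_lit 2) (nat_lit 55) (nat_lit 66) (nat_lit 29))) (PT.nd (nat_lit 94) (PT.lf (nat_lit 8736) (nat_lit 6) (nat_lit 104) (nat_lit 2) (nat_lit 56) (nat_lit 66) (nat_lit 28)) (PT.nd (nat_lit 94) (PT.lf (nat_lit 8316) (nat_lit 6) (nat_lit 99) (nat_lit 2) (nat_lit 57) (nat_lit 66) (nat_lit 27)) (PT.lf (nat_lit 7896) (nat_lit 6) (nat_lit 94) (nat_lit 2) (nat_lit 58) (nat_lit 66) (nat_lit 26))))))) (PT.nd (nat_lit 33558) (PT.nd (nat_lit 470) (PT.nd (nat_lit 188) (PT.nd (nat_lit 94) (PT.lf (nat_lit 7476) (nat_lit 6) (nat_lit 89) (nat_lit 2) (nat_lit 59) (nat_lit 66) (nat_lit 25)) (PT.lf (nat_lit 7056) (nat_lit 6) (nat_lit 84) (nat_lit 2) (nat_lit 60) (nat_lit 66) (nat_lit 24))) (PT.nd (nat_lit 94) (PT.lf (nat_lit 6720) (nat_lit 6) (nat_lit 80) (nat_lit 2) (nat_lit 61) (nat_lit 66) (nat_lit 23)) (PT.nd (nat_lit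 94) (PT.lf (nat_lit 6300) (nat_lit 6) (nat_lit 75) (nat_lit 2) (nat_lit 62) (nat_lit 66) (nat_lit 22)) (PT.lf (nat_lit 5964) (nat_lit 6) (nat_lit 71) (nat_lit 2) (nat_lit 63) (nat_lit 66) (nat_lit 21))))) (PT.nd (nat_lit 188) (PT.nd (nat_lit 94) (PT.lf (nat_lit 5628) (nat_lit 6) (nat_lit 67) (nat_lit 2) (nat_lit 64) (nat_lit 66) (nat_lit 20)) (PT.lf (nat_lit 5292) (nat_lit 6) (nat_lit 63) (nat_lit 2) (nat_lit 65) (nat_lit 66) (nat_lit 19))) (PT.nd (nat_lit 94) (PT.lf (nat_lit 4956) (nat_lit 3) (nat_lit 59) (nat_lit 0) (nat_lit 66) (nat_lit 66) (nat_lit 18)) (PT.nd (nat_lit 94) (PT.lf (nat_lit 4620) (nat_lit 6) (nat_lit 55) (nat_lit 0) (nat_lit 67) (nat_lit 66) (nat_lit 17)) (PT.lf (nat_lit 4200) (nat_lit 6) (nat_lit 50) (nat_lit 0) (nat_lit 68) (nat_lit 66) (nat_lit 16)))))) (PT.nd (nat_lit 470) (PT.nd (nat_lit 188) (PT.nd (nat_lit 94) (PT.lf (nat_lit 3948) (nat_lit 6) (nat_lit 47) (nat_lit 5) (nat_lit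 15) (nat_lit 67) (nat_lit 68)) (PT.lf (nat_lit 4284) (nat_lit 3) (nat_lit 51) (nat_lit 4) (nat_lit 16) (nat_lit 67) (nat_lit 67))) (PT.nd (nat_lit 94) (PT.lf (nat_lit 4620) (nat_lit 6) (nat_lit 55) (nat_lit 4) (nat_lit 17) (nat_lit 67) (nat_lit 66)) (PT.nd (nat_lit 94) (PT.lf (nat_lit 4872) (nat_lit 6) (nat_lit 58) (nat_lit 4) (nat_lit 18) (nat_lit 67) (nat_lit 65)) (PT.lf (nat_lit 5208) (nat_lit 6) (nat_lit 62) (nat_lit 4) (nat_lit 19) (nat_lit 67) (nat_lit 64))))) (PT.nd (nat_lit 188) (PT.nd (nat_lit 94) (PT.lf (nat_lit 5544) (nat_lit 6) (nat_lit 66) (nat_lit 4) (nat_lit 20) (nat_lit 67) (nat_lit 63)) (PT.lf (nat_lit 5880) (nat_lit 6) (nat_lit 70) (nat_lit 4) (nat_lit 21) (nat_lit 67) (nat_lit 62))) (PT.nd (nat_lit 94) (PT.lf (nat_lit 6216) (nat_lit 6) (nat_lit 74) (nat_lit 4) (nat_lit 22) (nat_lit 67) (nat_lit 61)) (PT.nd (nat_lit 94) (PT.lf (nat_lit 6636) (nat_lit 6) (nat_lit 79) (nat_lit 4) (nat_lit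 23) (nat_lit 67) (nat_lit 60)) (PT.lf (nat_lit 6972) (nat_lit 6) (nat_lit 83) (nat_lit 4) (nat_lit 24) (nat_lit 67) (nat_lit 59))))))))
noncomputable def pc31 : PT := (PT.nd (nat_lit 37224) (PT.nd (nat_lit 3760) (PT.nd (nat_lit 3290) (PT.nd (nat_lit 3008) (PT.nd (nat_lit 94) (PT.lf (nat_lit 7392) (nat_lit 6) (nat_lit 88) (nat_lit 4) (nat_lit 25) (nat_lit 67) (nat_lit 58)) (PT.lf (nat_lit 7812) (nat_lit 6) (nat_lit 93) (nat_lit 4) (nat_lit 26) (nat_lit 67) (nat_lit 57))) (PT.nd (nat_lit 94) (PT.lf (nat_lit 7812) (nat_lit 6) (nat_lit 93) (nat_lit 2) (nat_lit 57) (nat_lit 67) (nat_lit 26)) (PT.nd (nat_lit 94) (PT.lf (nat_lit 7392) (nat_lit 6) (nat_lit 88) (nat_lit 2) (nat_lit 58) (nat_lit 67) (nat_lit 25)) (PT.lf (nat_lit 6972) (nat_lit 6) (nat_lit 83) (nat_lit 2) (nat_lit 59) (nat_lit 67) (nat_lit 24))))) (PT.nd (nat_lit 188) (PT.nd (nat_lit 94) (PT.lf (nat_lit 6636) (nat_lit 6) (nat_lit 79) (nat_lit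 2) (nat_lit 60) (nat_lit 67) (nat_lit 23)) (PT.lf (nat_lit 6216) (nat_lit 6) (nat_lit 74) (nat_lit 2) (nat_lit 61) (nat_lit 67) (nat_lit 22))) (PT.nd (nat_lit 94) (PT.lf (nat_lit 5880) (nat_lit 6) (nat_lit 70) (nat_lit 2) (nat_lit 62) (nat_lit 67) (nat_lit 21)) (PT.nd (nat_lit 94) (PT.lf (nat_lit 5544) (nat_lit 6) (nat_lit 66) (nat_lit 2) (nat_lit 63) (nat_lit 67) (nat_lit 20)) (PT.lf (nat_lit 5208) (nat_lit 6) (nat_lit 62) (nat_lit 2) (nat_lit 64) (nat_lit 67) (nat_lit 19)))))) (PT.nd (nat_lit 32994) (PT.nd (nat_lit 188) (PT.nd (nat_lit 94) (PT.lf (nat_lit 4872) (nat_lit 6) (nat_lit 58) (nat_lit 2) (nat_lit 65) (nat_lit 67) (nat_lit 18)) (PT.lf (nat_lit 4620) (nat_lit 6) (nat_lit 55) (nat_lit 2) (nat_lit 66) (nat_lit 67) (nat_lit 17))) (PT.nd (nat_lit 94) (PT.lf (nat_lit 4284) (nat_lit 3) (nat_lit 51) (nat_lit 0) (nat_lit 67) (nat_lit 67) (nat_lit 16)) (PT.nd (nat_lit 32618) (PT.lf (nat_lit 3948) (nat_lit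 6) (nat_lit 47) (nat_lit 0) (nat_lit 68) (nat_lit 67) (nat_lit 15)) (PT.lf (nat_lit 3696) (nat_lit 3) (nat_lit 44) (nat_lit 4) (nat_lit 14) (nat_lit 68) (nat_lit 68))))) (PT.nd (nat_lit 188) (PT.nd (nat_lit 94) (PT.lf (nat_lit 3948) (nat_lit 6) (nat_lit 47) (nat_lit 4) (nat_lit 15) (nat_lit 68) (nat_lit 67)) (PT.lf (nat_lit 4200) (nat_lit 6) (nat_lit 50) (nat_lit 4) (nat_lit 16) (nat_lit 68) (nat_lit 66))) (PT.nd (nat_lit 94) (PT.lf (nat_lit 4536) (nat_lit 6) (nat_lit 54) (nat_lit 4) (nat_lit 17) (nat_lit 68) (nat_lit 65)) (PT.nd (nat_lit 94) (PT.lf (nat_lit 4788) (nat_lit 6) (nat_lit 57) (nat_lit 4) (nat_lit 18) (nat_lit 68) (nat_lit 64)) (PT.lf (nat_lit 5124) (nat_lit 6) (nat_lit 61) (nat_lit 4) (nat_lit 19) (nat_lit 68) (nat_lit 63))))))) (PT.nd (nat_lit 4230) (PT.nd (nat_lit 3760) (PT.nd (nat_lit 188) (PT.nd (nat_lit 94) (PT.lf (nat_lit 5460) (nat_lit 6) (nat_lit 65) (nat_lit 4) (nat_lit 20) (nat_lit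 68) (nat_lit 62)) (PT.lf (nat_lit 5796) (nat_lit 6) (nat_lit 69) (nat_lit 4) (nat_lit 21) (nat_lit 68) (nat_lit 61))) (PT.nd (nat_lit 94) (PT.lf (nat_lit 6132) (nat_lit 6) (nat_lit 73) (nat_lit 4) (nat_lit 22) (nat_lit 68) (nat_lit 60)) (PT.nd (nat_lit 3384) (PT.lf (nat_lit 6552) (nat_lit 6) (nat_lit 78) (nat_lit 4) (nat_lit 23) (nat_lit 68) (nat_lit 59)) (PT.lf (nat_lit 6552) (nat_lit 6) (nat_lit 78) (nat_lit 2) (nat_lit 59) (nat_lit 68) (nat_lit 23))))) (PT.nd (nat_lit 188) (PT.nd (nat_lit 94) (PT.lf (nat_lit 6132) (nat_lit 6) (nat_lit 73) (nat_lit 2) (nat_lit 60) (nat_lit 68) (nat_lit 22)) (PT.lf (nat_lit 5796) (nat_lit 6) (nat_lit 69) (nat_lit 2) (nat_lit 61) (nat_lit 68) (nat_lit 21))) (PT.nd (nat_lit 94) (PT.lf (nat_lit 5460) (nat_lit 6) (nat_lit 65) (nat_lit 2) (nat_lit 62) (nat_lit 68) (nat_lit 20)) (PT.nd (nat_lit 94) (PT.lf (nat_lit 5124) (nat_lit 6) (nat_lit 61) (nat_lit 2) (nat_lit 63) (nat_lit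 68) (nat_lit 19)) (PT.lf (nat_lit 4788) (nat_lit 6) (nat_lit 57) (nat_lit 2) (nat_lit 64) (nat_lit 68) (nat_lit 18)))))) (PT.nd (nat_lit 33370) (PT.nd (nat_lit 188) (PT.nd (nat_lit 94) (PT.lf (nat_lit 4536) (nat_lit 6) (nat_lit 54) (nat_lit 2) (nat_lit 65) (nat_lit 68) (nat_lit 17)) (PT.lf (nat_lit 4200) (nat_lit 6) (nat_lit 50) (nat_lit 2) (nat_lit 66) (nat_lit 68) (nat_lit 16))) (PT.nd (nat_lit 94) (PT.lf (nat_lit 3948) (nat_lit 6) (nat_lit 47) (nat_lit 2) (nat_lit 67) (nat_lit 68) (nat_lit 15)) (PT.nd (nat_lit 32994) (PT.lf (nat_lit 3696) (nat_lit 3) (nat_lit 44) (nat_lit 0) (nat_lit 68) (nat_lit 68) (nat_lit 14)) (PT.lf (nat_lit 4704) (nat_lit 6) (nat_lit 56) (nat_lit 4) (nat_lit 18) (nat_lit 69) (nat_lit 63))))) (PT.nd (nat_lit 3948) (PT.nd (nat_lit 94) (PT.lf (nat_lit 5040) (nat_lit 6) (nat_lit 60) (nat_lit 4) (nat_lit 19) (nat_lit 69) (nat_lit 62)) (PT.lf (nat_lit 5376) (nat_lit 6) (nat_lit 64)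 (nat_lit 4) (nat_lit 20) (nat_lit 69) (nat_lit 61))) (PT.nd (nat_lit 94) (PT.lf (nat_lit 5376) (nat_lit 6) (nat_lit 64) (nat_lit 2) (nat_lit 61) (nat_lit 69) (nat_lit 20)) (PT.nd (nat_lit 94) (PT.lf (nat_lit 5040) (nat_lit 6) (nat_lit 60) (nat_lit 2) (nat_lit 62) (nat_lit 69) (nat_lit 19)) (PT.lf (nat_lit 4704) (nat_lit 6) (nat_lit 56) (nat_lit 2) (nat_lit 63) (nat_lit 69) (nat_lit 18))))))))
noncomputable def xc0 : XT := (XT.nd (nat_lit 150400) (nat_lit 0) (nat_lit 0) (XT.nd (nat_lit 112518) (nat_lit 0) (nat_lit 0) (XT.nd (nat_lit 75012) (nat_lit 0) (nat_lit 0) (XT.nd (nat_lit 37600) (nat_lit 84) (nat_lit 0) (XT.nd (nat_lit 94) (nat_lit 420) (nat_lit 0) (XT.lf (nat_lit 0) (nat_lit 504812673) (nat_lit 420) (nat_lit 3740804898) (nat_lit 0) (nat_lit 504812673) (nat_lit 29) (nat_lit 5) (nat_lit 34) (nat_lit 4) (nat_lit 29) (nat_lit 4) (nat_lit 246) (nat_lit 177) (nat_lit 177)) (XT.nd (nat_lit 37412) (nat_lit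 0) (nat_lit 1764) (XT.lf (nat_lit 0) (nat_lit 6339743963) (nat_lit 420) (nat_lit 2272961660) (nat_lit 420) (nat_lit 1025796683) (nat_lit 24) (nat_lit 4) (nat_lit 29) (nat_lit 5) (nat_lit 29) (nat_lit 4) (nat_lit 247) (nat_lit 177) (nat_lit 176)) (XT.lf (nat_lit 0) (nat_lit 1536851753) (nat_lit 420) (nat_lit 1540561606) (nat_lit 420) (nat_lit 1540561606) (nat_lit 45) (nat_lit 4) (nat_lit 50) (nat_lit 5) (nat_lit 50) (nat_lit 4) (nat_lit 244) (nat_lit 178) (nat_lit 178)))) (XT.nd (nat_lit 94) (nat_lit 1344) (nat_lit 0) (XT.lf (nat_lit 0) (nat_lit 4240506419) (nat_lit 504) (nat_lit 2205432459) (nat_lit 0) (nat_lit 2921292720) (nat_lit 39) (nat_lit 5) (nat_lit 45) (nat_lit 4) (nat_lit 39) (nat_lit 4) (nat_lit 245) (nat_lit 178) (nat_lit 177)) (XT.nd (nat_lit 94) (nat_lit 504) (nat_lit 0) (XT.lf (nat_lit 0) (nat_lit 1859447759) (nat_lit 336) (nat_lit 342957811) (nat_lit 420) (nat_lit 7300611702) (nat_lit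 29) (nat_lit 5) (nat_lit 33) (nat_lit 5) (nat_lit 34) (nat_lit 4) (nat_lit 246) (nat_lit 178) (nat_lit 176)) (XT.lf (nat_lit 0) (nat_lit 59921281) (nat_lit 504) (nat_lit 3621810214) (nat_lit 84) (nat_lit 5961157455) (nat_lit 23) (nat_lit 5) (nat_lit 29) (nat_lit 5) (nat_lit 24) (nat_lit 4) (nat_lit 247) (nat_lit 178) (nat_lit 175))))) (XT.nd (nat_lit 282) (nat_lit 1848) (nat_lit 0) (XT.nd (nat_lit 94) (nat_lit 1428) (nat_lit 0) (XT.lf (nat_lit 0) (nat_lit 1082033036) (nat_lit 504) (nat_lit 2327979241) (nat_lit 0) (nat_lit 1082033036) (nat_lit 62) (nat_lit 5) (nat_lit 68) (nat_lit 4) (nat_lit 62) (nat_lit 4) (nat_lit 242) (nat_lit 179) (nat_lit 179)) (XT.nd (nat_lit 94) (nat_lit 840) (nat_lit 0) (XT.lf (nat_lit 0) (nat_lit 252350759) (nat_lit 588) (nat_lit 915870780) (nat_lit 84) (nat_lit 7941037643) (nat_lit 55) (nat_lit 5) (nat_lit 62) (nat_lit 5) (nat_lit 56) (nat_lit 4) (nat_lit 243) (nat_lit 179)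 (nat_lit 178)) (XT.lf (nat_lit 0) (nat_lit 2922094908) (nat_lit 420) (nat_lit 4529839534) (nat_lit 420) (nat_lit 1786178461) (nat_lit 45) (nat_lit 4) (nat_lit 50) (nat_lit 5) (nat_lit 50) (nat_lit 4) (nat_lit 244) (nat_lit 179) (nat_lit 177)))) (XT.nd (nat_lit 94) (nat_lit 1344) (nat_lit 0) (XT.lf (nat_lit 0) (nat_lit 5408228721) (nat_lit 504) (nat_lit 2514325243) (nat_lit 0) (nat_lit 1449026239) (nat_lit 39) (nat_lit 5) (nat_lit 45) (nat_lit 4) (nat_lit 39) (nat_lit 4) (nat_lit 245) (nat_lit 179) (nat_lit 176)) (XT.nd (nat_lit 94) (nat_lit 504) (nat_lit 0) (XT.lf (nat_lit 0) (nat_lit 1376215070) (nat_lit 336) (nat_lit 1871518686) (nat_lit 420) (nat_lit 6261678171) (nat_lit 29) (nat_lit 5) (nat_lit 33) (nat_lit 5) (nat_lit 34) (nat_lit 4) (nat_lit 246) (nat_lit 179) (nat_lit 175)) (XT.lf (nat_lit 0) (nat_lit 973873445) (nat_lit 504) (nat_lit 4274035093) (nat_lit 84) (nat_lit 4403632638) (nat_lit 23)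 (nat_lit 5) (nat_lit 29) (nat_lit 5) (nat_lit 24) (nat_lit 4) (nat_lit 247) (nat_lit 179) (nat_lit 174)))))) (XT.nd (nat_lit 564) (nat_lit 1344) (nat_lit 0) (XT.nd (nat_lit 282) (nat_lit 1932) (nat_lit 0) (XT.nd (nat_lit 94) (nat_lit 1596) (nat_lit 0) (XT.lf (nat_lit 0) (nat_lit 2887788503) (nat_lit 504) (nat_lit 742322442) (nat_lit 504) (nat_lit 742322442) (nat_lit 81) (nat_lit 4) (nat_lit 87) (nat_lit 5) (nat_lit 87) (nat_lit 4) (nat_lit 240) (nat_lit 180) (nat_lit 180)) (XT.nd (nat_lit 94) (nat_lit 504) (nat_lit 0) (XT.lf (nat_lit 0) (nat_lit 542497969) (nat_lit 504) (nat_lit 4914732409) (nat_lit 504) (nat_lit 3406221209) (nat_lit 68) (nat_lit 4) (nat_lit 74) (nat_lit 5) (nat_lit 74) (nat_lit 4) (nat_lit 241) (nat_lit 180) (nat_lit 179)) (XT.lf (nat_lit 0) (nat_lit 3542706485) (nat_lit 504) (nat_lit 4802982784) (nat_lit 0) (nat_lit 640544112) (nat_lit 62) (nat_lit 5) (nat_lit 68) (nat_lit 4) (nat_lit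 62) (nat_lit 4) (nat_lit 242) (nat_lit 180) (nat_lit 178)))) (XT.nd (nat_lit 94) (nat_lit 1344) (nat_lit 0) (XT.lf (nat_lit 0) (nat_lit 1512128638) (nat_lit 588) (nat_lit 1222535866) (nat_lit 84) (nat_lit 6378653385) (nat_lit 55) (nat_lit 5) (nat_lit 62) (nat_lit 5) (nat_lit 56) (nat_lit 4) (nat_lit 243) (nat_lit 180) (nat_lit 177)) (XT.nd (nat_lit 94) (nat_lit 504) (nat_lit 0) (XT.lf (nat_lit 0) (nat_lit 2467089674) (nat_lit 420) (nat_lit 6134042091) (nat_lit 420) (nat_lit 643472617) (nat_lit 45) (nat_lit 4) (nat_lit 50) (nat_lit 5) (nat_lit 50) (nat_lit 4) (nat_lit 244) (nat_lit 180) (nat_lit 176)) (XT.lf (nat_lit 0) (nat_lit 6246491123) (nat_lit 420) (nat_lit 180637315) (nat_lit 504) (nat_lit 2953125815) (nat_lit 39) (nat_lit 5) (nat_lit 44) (nat_lit 5) (nat_lit 45) (nat_lit 4) (nat_lit 245) (nat_lit 180) (nat_lit 175))))) (XT.nd (nat_lit 37036) (nat_lit 0) (nat_lit 3780) (XT.nd (nat_lit 94) (nat_lit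 504) (nat_lit 0) (XT.lf (nat_lit 0) (nat_lit 576438115) (nat_lit 336) (nat_lit 3563112115) (nat_lit 420) (nat_lit 5380662325) (nat_lit 29) (nat_lit 5) (nat_lit 33) (nat_lit 5) (nat_lit 34) (nat_lit 4) (nat_lit 246) (nat_lit 180) (nat_lit 174)) (XT.nd (nat_lit 36848) (nat_lit 0) (nat_lit 6552) (XT.lf (nat_lit 0) (nat_lit 1731916276) (nat_lit 504) (nat_lit 5248897945) (nat_lit 84) (nat_lit 2683815756) (nat_lit 23) (nat_lit 5) (nat_lit 29) (nat_lit 5) (nat_lit 24) (nat_lit 4) (nat_lit 247) (nat_lit 180) (nat_lit 173)) (XT.lf (nat_lit 0) (nat_lit 1852795646) (nat_lit 588) (nat_lit 553366682) (nat_lit 0) (nat_lit 1852795646) (nat_lit 101) (nat_lit 5) (nat_lit 108) (nat_lit 4) (nat_lit 101) (nat_lit 4) (nat_lit 238) (nat_lit 181) (nat_lit 181)))) (XT.nd (nat_lit 94) (nat_lit 1596) (nat_lit 0) (XT.lf (nat_lit 0) (nat_lit 1910122954) (nat_lit 588) (nat_lit 6405881319) (nat_lit 0) (nat_lit 314465061) (nat_lit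 87) (nat_lit 5) (nat_lit 94) (nat_lit 4) (nat_lit 87) (nat_lit 4) (nat_lit 239) (nat_lit 181) (nat_lit 180)) (XT.nd (nat_lit 94) (nat_lit 1008) (nat_lit 0) (XT.lf (nat_lit 0) (nat_lit 13137245) (nat_lit 588) (nat_lit 3110792829) (nat_lit 84) (nat_lit 5623037393) (nat_lit 80) (nat_lit 5) (nat_lit 87) (nat_lit 5) (nat_lit 81) (nat_lit 4) (nat_lit 240) (nat_lit 181) (nat_lit 179)) (XT.lf (nat_lit 0) (nat_lit 254062640) (nat_lit 504) (nat_lit 6570487871) (nat_lit 504) (nat_lit 2043168833) (nat_lit 68) (nat_lit 4) (nat_lit 74) (nat_lit 5) (nat_lit 74) (nat_lit 4) (nat_lit 241) (nat_lit 181) (nat_lit 178))))))) (XT.nd (nat_lit 37694) (nat_lit 0) (nat_lit 0) (XT.nd (nat_lit 37130) (nat_lit 0) (nat_lit 4284) (XT.nd (nat_lit 282) (nat_lit 1764) (nat_lit 0) (XT.nd (nat_lit 94) (nat_lit 1512) (nat_lit 0) (XT.lf (nat_lit 0) (nat_lit 3740829045) (nat_lit 420) (nat_lit 1044709743) (nat_lit 504) (nat_lit 4206961676)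 (nat_lit 62) (nat_lit 5) (nat_lit 67) (nat_lit 5) (nat_lit 68) (nat_lit 4) (nat_lit 242) (nat_lit 181) (nat_lit 177)) (XT.nd (nat_lit 94) (nat_lit 924) (nat_lit 0) (XT.lf (nat_lit 0) (nat_lit 2627592145) (nat_lit 588) (nat_lit 1826070382) (nat_lit 84) (nat_lit 4668001068) (nat_lit 55) (nat_lit 5) (nat_lit 62) (nat_lit 5) (nat_lit 56) (nat_lit 4) (nat_lit 243) (nat_lit 181) (nat_lit 176)) (XT.lf (nat_lit 0) (nat_lit 343329495) (nat_lit 504) (nat_lit 7549764134) (nat_lit 84) (nat_lit 1362283830) (nat_lit 44) (nat_lit 5) (nat_lit 50) (nat_lit 5) (nat_lit 45) (nat_lit 4) (nat_lit 244) (nat_lit 181) (nat_lit 175)))) (XT.nd (nat_lit 94) (nat_lit 1344) (nat_lit 0) (XT.lf (nat_lit 0) (nat_lit 5318240741) (nat_lit 420) (nat_lit 1990487795) (nat_lit 504) (nat_lit 2084308502) (nat_lit 39) (nat_lit 5) (nat_lit 44) (nat_lit 5) (nat_lit 45) (nat_lit 4) (nat_lit 245) (nat_lit 181) (nat_lit 174)) (XT.nd (nat_lit 94)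 (nat_lit 840) (nat_lit 0) (XT.lf (nat_lit 0) (nat_lit 4882762983) (nat_lit 504) (nat_lit 533040031) (nat_lit 84) (nat_lit 4119544172) (nat_lit 33) (nat_lit 5) (nat_lit 39) (nat_lit 5) (nat_lit 34) (nat_lit 4) (nat_lit 246) (nat_lit 181) (nat_lit 173)) (XT.lf (nat_lit 0) (nat_lit 2334946976) (nat_lit 504) (nat_lit 6547552593) (nat_lit 84) (nat_lit 799671278) (nat_lit 23) (nat_lit 5) (nat_lit 29) (nat_lit 5) (nat_lit 24) (nat_lit 4) (nat_lit 247) (nat_lit 181) (nat_lit 172))))) (XT.nd (nat_lit 282) (nat_lit 2268) (nat_lit 0) (XT.nd (nat_lit 94) (nat_lit 1176) (nat_lit 0) (XT.lf (nat_lit 0) (nat_lit 244675012) (nat_lit 672) (nat_lit 3662426409) (nat_lit 0) (nat_lit 244675012) (nat_lit 115) (nat_lit 5) (nat_lit 123) (nat_lit 4) (nat_lit 115) (nat_lit 4) (nat_lit 236) (nat_lit 182) (nat_lit 182)) (XT.nd (nat_lit 94) (nat_lit 588) (nat_lit 0) (XT.lf (nat_lit 0) (nat_lit 4088531010) (nat_lit 588) (nat_lit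 3023014308) (nat_lit 588) (nat_lit 1298042800) (nat_lit 108) (nat_lit 4) (nat_lit 115) (nat_lit 5) (nat_lit 115) (nat_lit 4) (nat_lit 237) (nat_lit 182) (nat_lit 181)) (XT.lf (nat_lit 0) (nat_lit 5298506877) (nat_lit 588) (nat_lit 1241591928) (nat_lit 0) (nat_lit 1979905461) (nat_lit 101) (nat_lit 5) (nat_lit 108) (nat_lit 4) (nat_lit 101) (nat_lit 4) (nat_lit 238) (nat_lit 182) (nat_lit 180)))) (XT.nd (nat_lit 94) (nat_lit 1092) (nat_lit 0) (XT.lf (nat_lit 0) (nat_lit 1938932970) (nat_lit 504) (nat_lit 1440468710) (nat_lit 588) (nat_lit 5255076651) (nat_lit 87) (nat_lit 5) (nat_lit 93) (nat_lit 5) (nat_lit 94) (nat_lit 4) (nat_lit 239) (nat_lit 182) (nat_lit 179)) (XT.nd (nat_lit 94) (nat_lit 504) (nat_lit 0) (XT.lf (nat_lit 0) (nat_lit 1351911804) (nat_lit 588) (nat_lit 3544860307) (nat_lit 84) (nat_lit 3856293324) (nat_lit 80) (nat_lit 5) (nat_lit 87) (nat_lit 5) (nat_lit 81) (nat_lit 4) (nat_lit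 240) (nat_lit 182) (nat_lit 178)) (XT.lf (nat_lit 0) (nat_lit 8054599771) (nat_lit 588) (nat_lit 318495022) (nat_lit 0) (nat_lit 503114475) (nat_lit 74) (nat_lit 5) (nat_lit 81) (nat_lit 4) (nat_lit 74) (nat_lit 4) (nat_lit 241) (nat_lit 182) (nat_lit 177)))))) (XT.nd (nat_lit 36942) (nat_lit 0) (nat_lit 4788) (XT.nd (nat_lit 282) (nat_lit 1764) (nat_lit 0) (XT.nd (nat_lit 94) (nat_lit 1512) (nat_lit 0) (XT.lf (nat_lit 0) (nat_lit 3002128945) (nat_lit 420) (nat_lit 2890158351) (nat_lit 504) (nat_lit 3110650422) (nat_lit 62) (nat_lit 5) (nat_lit 67) (nat_lit 5) (nat_lit 68) (nat_lit 4) (nat_lit 242) (nat_lit 182) (nat_lit 176)) (XT.nd (nat_lit 94) (nat_lit 924) (nat_lit 0) (XT.lf (nat_lit 0) (nat_lit 3600061517) (nat_lit 588) (nat_lit 2727188655) (nat_lit 84) (nat_lit 2807056007) (nat_lit 55) (nat_lit 5) (nat_lit 62) (nat_lit 5) (nat_lit 56) (nat_lit 4) (nat_lit 243) (nat_lit 182) (nat_lit 175)) (XT.lf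 (nat_lit 0) (nat_lit 631738118) (nat_lit 420) (nat_lit 545454639) (nat_lit 504) (nat_lit 8093143928) (nat_lit 44) (nat_lit 5) (nat_lit 49) (nat_lit 5) (nat_lit 50) (nat_lit 5) (nat_lit 244) (nat_lit 182) (nat_lit 174)))) (XT.nd (nat_lit 94) (nat_lit 1344) (nat_lit 0) (XT.lf (nat_lit 0) (nat_lit 4082108154) (nat_lit 420) (nat_lit 3961491709) (nat_lit 504) (nat_lit 1366574223) (nat_lit 39) (nat_lit 5) (nat_lit 44) (nat_lit 5) (nat_lit 45) (nat_lit 4) (nat_lit 245) (nat_lit 182) (nat_lit 173)) (XT.nd (nat_lit 94) (nat_lit 840) (nat_lit 0) (XT.lf (nat_lit 0) (nat_lit 5480771730) (nat_lit 504) (nat_lit 1948436941) (nat_lit 84) (nat_lit 2125569619) (nat_lit 33) (nat_lit 5) (nat_lit 39) (nat_lit 5) (nat_lit 34) (nat_lit 4) (nat_lit 246) (nat_lit 182) (nat_lit 172)) (XT.lf (nat_lit 0) (nat_lit 1523407922) (nat_lit 420) (nat_lit 1269312969) (nat_lit 504) (nat_lit 6911264738) (nat_lit 23) (nat_lit 5) (nat_lit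 28) (nat_lit 5) (nat_lit 29) (nat_lit 5) (nat_lit 247) (nat_lit 182) (nat_lit 171))))) (XT.nd (nat_lit 282) (nat_lit 2940) (nat_lit 0) (XT.nd (nat_lit 94) (nat_lit 1932) (nat_lit 0) (XT.lf (nat_lit 0) (nat_lit 1629647307) (nat_lit 672) (nat_lit 1210368078) (nat_lit 672) (nat_lit 1210368078) (nat_lit 138) (nat_lit 4) (nat_lit 146) (nat_lit 5) (nat_lit 146) (nat_lit 4) (nat_lit 234) (nat_lit 183) (nat_lit 183)) (XT.nd (nat_lit 94) (nat_lit 1260) (nat_lit 0) (XT.lf (nat_lit 0) (nat_lit 3990328400) (nat_lit 672) (nat_lit 2044992568) (nat_lit 0) (nat_lit 2165705287) (nat_lit 130) (nat_lit 5) (nat_lit 138) (nat_lit 4) (nat_lit 130) (nat_lit 4) (nat_lit 235) (nat_lit 183) (nat_lit 182)) (XT.lf (nat_lit 0) (nat_lit 838594937) (nat_lit 588) (nat_lit 1350395631) (nat_lit 672) (nat_lit 6116447807) (nat_lit 115) (nat_lit 5) (nat_lit 122) (nat_lit 5) (nat_lit 123) (nat_lit 4) (nat_lit 236) (nat_lit 183) (nat_lit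 181)))) (XT.nd (nat_lit 188) (nat_lit 1764) (nat_lit 0) (XT.nd (nat_lit 94) (nat_lit 504) (nat_lit 0) (XT.lf (nat_lit 0) (nat_lit 289600047) (nat_lit 672) (nat_lit 4591384861) (nat_lit 84) (nat_lit 3532721892) (nat_lit 107) (nat_lit 5) (nat_lit 115) (nat_lit 5) (nat_lit 108) (nat_lit 4) (nat_lit 237) (nat_lit 183) (nat_lit 180)) (XT.lf (nat_lit 0) (nat_lit 6760537550) (nat_lit 588) (nat_lit 1646327230) (nat_lit 0) (nat_lit 119406906) (nat_lit 101) (nat_lit 5) (nat_lit 108) (nat_lit 4) (nat_lit 101) (nat_lit 4) (nat_lit 238) (nat_lit 183) (nat_lit 179))) (XT.nd (nat_lit 94) (nat_lit 588) (nat_lit 0) (XT.lf (nat_lit 0) (nat_lit 1374422610) (nat_lit 504) (nat_lit 3342633459) (nat_lit 588) (nat_lit 3925598655) (nat_lit 87) (nat_lit 5) (nat_lit 93) (nat_lit 5) (nat_lit 94) (nat_lit 4) (nat_lit 239) (nat_lit 183) (nat_lit 178)) (XT.lf (nat_lit 0) (nat_lit 2554646943) (nat_lit 588) (nat_lit 4261430478) (nat_lit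 84) (nat_lit 1947323134) (nat_lit 80) (nat_lit 5) (nat_lit 87) (nat_lit 5) (nat_lit 81) (nat_lit 4) (nat_lit 240) (nat_lit 183) (nat_lit 177))))))))
noncomputable def xc1 : XT := (XT.nd (nat_lit 74542) (nat_lit 0) (nat_lit 0) (XT.nd (nat_lit 37318) (nat_lit 0) (nat_lit 0) (XT.nd (nat_lit 564) (nat_lit 420) (nat_lit 0) (XT.nd (nat_lit 282) (nat_lit 1848) (nat_lit 0) (XT.nd (nat_lit 94) (nat_lit 1512) (nat_lit 0) (XT.lf (nat_lit 0) (nat_lit 268178447) (nat_lit 588) (nat_lit 1184987689) (nat_lit 84) (nat_lit 7435460120) (nat_lit 73) (nat_lit 5) (nat_lit 80) (nat_lit 5) (nat_lit 74) (nat_lit 5) (nat_lit 241) (nat_lit 183) (nat_lit 176)) (XT.nd (nat_lit 94) (nat_lit 588) (nat_lit 0) (XT.lf (nat_lit 0) (nat_lit 1971007264) (nat_lit 420) (nat_lit 4888625242) (nat_lit 504) (nat_lit 2158026841) (nat_lit 62) (nat_lit 5) (nat_lit 67) (nat_lit 5) (nat_lit 68) (nat_lit 4) (nat_lit 242) (nat_lit 183) (nat_lit 175))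 (XT.lf (nat_lit 0) (nat_lit 4430687742) (nat_lit 588) (nat_lit 3926957227) (nat_lit 84) (nat_lit 793615634) (nat_lit 55) (nat_lit 5) (nat_lit 62) (nat_lit 5) (nat_lit 56) (nat_lit 4) (nat_lit 243) (nat_lit 183) (nat_lit 174)))) (XT.nd (nat_lit 94) (nat_lit 1344) (nat_lit 0) (XT.lf (nat_lit 0) (nat_lit 1880875025) (nat_lit 504) (nat_lit 747456398) (nat_lit 84) (nat_lit 6660994117) (nat_lit 49) (nat_lit 5) (nat_lit 55) (nat_lit 5) (nat_lit 50) (nat_lit 5) (nat_lit 244) (nat_lit 183) (nat_lit 173)) (XT.nd (nat_lit 94) (nat_lit 504) (nat_lit 0) (XT.lf (nat_lit 0) (nat_lit 2536630305) (nat_lit 420) (nat_lit 6095981888) (nat_lit 504) (nat_lit 799073487) (nat_lit 39) (nat_lit 5) (nat_lit 44) (nat_lit 5) (nat_lit 45) (nat_lit 4) (nat_lit 245) (nat_lit 183) (nat_lit 172)) (XT.lf (nat_lit 0) (nat_lit 5898657702) (nat_lit 420) (nat_lit 31746591) (nat_lit 504) (nat_lit 3648209932) (nat_lit 33) (nat_lit 5) (nat_lit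 38) (nat_lit 5) (nat_lit 39) (nat_lit 5) (nat_lit 246) (nat_lit 183) (nat_lit 171))))) (XT.nd (nat_lit 36472) (nat_lit 0) (nat_lit 7308) (XT.nd (nat_lit 36284) (nat_lit 0) (nat_lit 9912) (XT.lf (nat_lit 0) (nat_lit 3106703757) (nat_lit 420) (nat_lit 411692957) (nat_lit 84) (nat_lit 6211683105) (nat_lit 28) (nat_lit 5) (nat_lit 33) (nat_lit 5) (nat_lit 29) (nat_lit 5) (nat_lit 247) (nat_lit 183) (nat_lit 170)) (XT.nd (nat_lit 94) (nat_lit 1428) (nat_lit 0) (XT.lf (nat_lit 0) (nat_lit 1438701774) (nat_lit 756) (nat_lit 1077730104) (nat_lit 0) (nat_lit 1438701774) (nat_lit 163) (nat_lit 5) (nat_lit 172) (nat_lit 4) (nat_lit 163) (nat_lit 4) (nat_lit 232) (nat_lit 184) (nat_lit 184)) (XT.lf (nat_lit 0) (nat_lit 442528620) (nat_lit 672) (nat_lit 751843735) (nat_lit 756) (nat_lit 6810399878) (nat_lit 146) (nat_lit 5) (nat_lit 154) (nat_lit 5) (nat_lit 155) (nat_lit 4) (nat_lit 233) (nat_lit 184) (nat_lit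 183)))) (XT.nd (nat_lit 94) (nat_lit 1932) (nat_lit 0) (XT.lf (nat_lit 0) (nat_lit 3134558549) (nat_lit 672) (nat_lit 4381536041) (nat_lit 672) (nat_lit 586739630) (nat_lit 138) (nat_lit 4) (nat_lit 146) (nat_lit 5) (nat_lit 146) (nat_lit 4) (nat_lit 234) (nat_lit 184) (nat_lit 182)) (XT.nd (nat_lit 94) (nat_lit 1260) (nat_lit 0) (XT.lf (nat_lit 0) (nat_lit 5690464449) (nat_lit 672) (nat_lit 2300269947) (nat_lit 0) (nat_lit 214435535) (nat_lit 130) (nat_lit 5) (nat_lit 138) (nat_lit 4) (nat_lit 130) (nat_lit 4) (nat_lit 235) (nat_lit 184) (nat_lit 181)) (XT.lf (nat_lit 0) (nat_lit 433194364) (nat_lit 588) (nat_lit 3331656515) (nat_lit 672) (nat_lit 4546570887) (nat_lit 115) (nat_lit 5) (nat_lit 122) (nat_lit 5) (nat_lit 123) (nat_lit 4) (nat_lit 236) (nat_lit 184) (nat_lit 180)))))) (XT.nd (nat_lit 564) (nat_lit 2856) (nat_lit 0) (XT.nd (nat_lit 282) (nat_lit 2100) (nat_lit 0) (XT.nd (nat_lit 94) (nat_lit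 1680) (nat_lit 0) (XT.lf (nat_lit 0) (nat_lit 1729224385) (nat_lit 672) (nat_lit 5138576414) (nat_lit 84) (nat_lit 1554011484) (nat_lit 107) (nat_lit 5) (nat_lit 115) (nat_lit 5) (nat_lit 108) (nat_lit 4) (nat_lit 237) (nat_lit 184) (nat_lit 179)) (XT.nd (nat_lit 94) (nat_lit 1176) (nat_lit 0) (XT.lf (nat_lit 0) (nat_lit 6201435002) (nat_lit 504) (nat_lit 1905552433) (nat_lit 588) (nat_lit 429439573) (nat_lit 101) (nat_lit 5) (nat_lit 107) (nat_lit 5) (nat_lit 108) (nat_lit 4) (nat_lit 238) (nat_lit 184) (nat_lit 178)) (XT.lf (nat_lit 0) (nat_lit 532711539) (nat_lit 504) (nat_lit 5389685052) (nat_lit 588) (nat_lit 2732661599) (nat_lit 87) (nat_lit 5) (nat_lit 93) (nat_lit 5) (nat_lit 94) (nat_lit 4) (nat_lit 239) (nat_lit 184) (nat_lit 177)))) (XT.nd (nat_lit 94) (nat_lit 1512) (nat_lit 0) (XT.lf (nat_lit 0) (nat_lit 3515849675) (nat_lit 504) (nat_lit 107683572) (nat_lit 588) (nat_lit 5154434939) (nat_lit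 80) (nat_lit 5) (nat_lit 86) (nat_lit 5) (nat_lit 87) (nat_lit 5) (nat_lit 240) (nat_lit 184) (nat_lit 176)) (XT.nd (nat_lit 94) (nat_lit 924) (nat_lit 0) (XT.lf (nat_lit 0) (nat_lit 1213856404) (nat_lit 588) (nat_lit 2347379288) (nat_lit 84) (nat_lit 5343848983) (nat_lit 73) (nat_lit 5) (nat_lit 80) (nat_lit 5) (nat_lit 74) (nat_lit 5) (nat_lit 241) (nat_lit 184) (nat_lit 175)) (XT.lf (nat_lit 0) (nat_lit 646243592) (nat_lit 420) (nat_lit 7042475749) (nat_lit 504) (nat_lit 1347963431) (nat_lit 62) (nat_lit 5) (nat_lit 67) (nat_lit 5) (nat_lit 68) (nat_lit 4) (nat_lit 242) (nat_lit 184) (nat_lit 174))))) (XT.nd (nat_lit 282) (nat_lit 924) (nat_lit 0) (XT.nd (nat_lit 94) (nat_lit 1344) (nat_lit 0) (XT.lf (nat_lit 0) (nat_lit 3735596808) (nat_lit 504) (nat_lit 1394792558) (nat_lit 588) (nat_lit 4041938991) (nat_lit 55) (nat_lit 5) (nat_lit 61) (nat_lit 5) (nat_lit 62) (nat_lit 5) (nat_lit 243) (nat_lit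 184) (nat_lit 173)) (XT.nd (nat_lit 94) (nat_lit 840) (nat_lit 0) (XT.lf (nat_lit 0) (nat_lit 2446647704) (nat_lit 504) (nat_lit 2420943623) (nat_lit 84) (nat_lit 4444963525) (nat_lit 49) (nat_lit 5) (nat_lit 55) (nat_lit 5) (nat_lit 50) (nat_lit 5) (nat_lit 244) (nat_lit 184) (nat_lit 172)) (XT.lf (nat_lit 0) (nat_lit 679978007) (nat_lit 420) (nat_lit 8396484659) (nat_lit 504) (nat_lit 381134614) (nat_lit 39) (nat_lit 5) (nat_lit 44) (nat_lit 5) (nat_lit 45) (nat_lit 4) (nat_lit 245) (nat_lit 184) (nat_lit 171)))) (XT.nd (nat_lit 36190) (nat_lit 0) (nat_lit 12096) (XT.nd (nat_lit 94) (nat_lit 420) (nat_lit 0) (XT.lf (nat_lit 0) (nat_lit 3860544288) (nat_lit 420) (nat_lit 2387980022) (nat_lit 504) (nat_lit 3357999602) (nat_lit 33) (nat_lit 5) (nat_lit 38) (nat_lit 5) (nat_lit 39) (nat_lit 5) (nat_lit 246) (nat_lit 184) (nat_lit 170)) (XT.lf (nat_lit 0) (nat_lit 3281684629) (nat_lit 420) (nat_lit 2646449898)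 (nat_lit 84) (nat_lit 3832252588) (nat_lit 28) (nat_lit 5) (nat_lit 33) (nat_lit 5) (nat_lit 29) (nat_lit 5) (nat_lit 247) (nat_lit 184) (nat_lit 169))) (XT.nd (nat_lit 94) (nat_lit 756) (nat_lit 0) (XT.lf (nat_lit 0) (nat_lit 188948913) (nat_lit 840) (nat_lit 3488079905) (nat_lit 0) (nat_lit 188948913) (nat_lit 181) (nat_lit 5) (nat_lit 191) (nat_lit 4) (nat_lit 181) (nat_lit 4) (nat_lit 230) (nat_lit 185) (nat_lit 185)) (XT.lf (nat_lit 0) (nat_lit 3154266371) (nat_lit 756) (nat_lit 3376089643) (nat_lit 756) (nat_lit 1289646479) (nat_lit 172) (nat_lit 4) (nat_lit 181) (nat_lit 5) (nat_lit 181) (nat_lit 4) (nat_lit 231) (nat_lit 185) (nat_lit 184))))))) (XT.nd (nat_lit 1128) (nat_lit 2268) (nat_lit 0) (XT.nd (nat_lit 564) (nat_lit 4368) (nat_lit 0) (XT.nd (nat_lit 282) (nat_lit 2520) (nat_lit 0) (XT.nd (nat_lit 94) (nat_lit 2184) (nat_lit 0) (XT.lf (nat_lit 0) (nat_lit 4825255207) (nat_lit 756) (nat_lit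 2275839603) (nat_lit 0) (nat_lit 811233408) (nat_lit 163) (nat_lit 5) (nat_lit 172) (nat_lit 4) (nat_lit 163) (nat_lit 4) (nat_lit 232) (nat_lit 185) (nat_lit 183)) (XT.nd (nat_lit 94) (nat_lit 756) (nat_lit 0) (XT.lf (nat_lit 0) (nat_lit 181341091) (nat_lit 672) (nat_lit 2836043941) (nat_lit 756) (nat_lit 4991227741) (nat_lit 146) (nat_lit 5) (nat_lit 154) (nat_lit 5) (nat_lit 155) (nat_lit 4) (nat_lit 233) (nat_lit 185) (nat_lit 182)) (XT.lf (nat_lit 0) (nat_lit 1106454850) (nat_lit 756) (nat_lit 5356832539) (nat_lit 84) (nat_lit 1645575223) (nat_lit 137) (nat_lit 5) (nat_lit 146) (nat_lit 5) (nat_lit 138) (nat_lit 4) (nat_lit 234) (nat_lit 185) (nat_lit 181)))) (XT.nd (nat_lit 94) (nat_lit 1932) (nat_lit 0) (XT.lf (nat_lit 0) (nat_lit 5388553992) (nat_lit 588) (nat_lit 1893056369) (nat_lit 672) (nat_lit 931555161) (nat_lit 130) (nat_lit 5) (nat_lit 137) (nat_lit 5) (nat_lit 138) (nat_lit 4) (nat_lit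 235) (nat_lit 185) (nat_lit 180)) (XT.nd (nat_lit 94) (nat_lit 1260) (nat_lit 0) (XT.lf (nat_lit 0) (nat_lit 5216928860) (nat_lit 672) (nat_lit 230991358) (nat_lit 84) (nat_lit 2873630981) (nat_lit 122) (nat_lit 5) (nat_lit 130) (nat_lit 5) (nat_lit 123) (nat_lit 4) (nat_lit 236) (nat_lit 185) (nat_lit 179)) (XT.lf (nat_lit 0) (nat_lit 2475939627) (nat_lit 588) (nat_lit 569346023) (nat_lit 672) (nat_lit 5388742705) (nat_lit 107) (nat_lit 5) (nat_lit 114) (nat_lit 5) (nat_lit 115) (nat_lit 5) (nat_lit 237) (nat_lit 185) (nat_lit 178))))) (XT.nd (nat_lit 282) (nat_lit 2100) (nat_lit 0) (XT.nd (nat_lit 94) (nat_lit 1680) (nat_lit 0) (XT.lf (nat_lit 0) (nat_lit 765799505) (nat_lit 588) (nat_lit 3302216597) (nat_lit 84) (nat_lit 4482602211) (nat_lit 100) (nat_lit 5) (nat_lit 107) (nat_lit 5) (nat_lit 101) (nat_lit 5) (nat_lit 238) (nat_lit 185) (nat_lit 177)) (XT.nd (nat_lit 94) (nat_lit 1092) (nat_lit 0)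 (XT.lf (nat_lit 0) (nat_lit 7001032596) (nat_lit 672) (nat_lit 578738971) (nat_lit 84) (nat_lit 1091839821) (nat_lit 93) (nat_lit 5) (nat_lit 101) (nat_lit 5) (nat_lit 94) (nat_lit 4) (nat_lit 239) (nat_lit 185) (nat_lit 176)) (XT.lf (nat_lit 0) (nat_lit 2233992881) (nat_lit 504) (nat_lit 2340210738) (nat_lit 588) (nat_lit 4222265856) (nat_lit 80) (nat_lit 5) (nat_lit 86) (nat_lit 5) (nat_lit 87) (nat_lit 5) (nat_lit 240) (nat_lit 185) (nat_lit 175)))) (XT.nd (nat_lit 94) (nat_lit 1512) (nat_lit 0) (XT.lf (nat_lit 0) (nat_lit 2024714798) (nat_lit 588) (nat_lit 3797530433) (nat_lit 84) (nat_lit 3103568111) (nat_lit 73) (nat_lit 5) (nat_lit 80) (nat_lit 5) (nat_lit 74) (nat_lit 5) (nat_lit 241) (nat_lit 185) (nat_lit 174)) (XT.nd (nat_lit 94) (nat_lit 1008) (nat_lit 0) (XT.lf (nat_lit 0) (nat_lit 8098050660) (nat_lit 504) (nat_lit 291490894) (nat_lit 588) (nat_lit 670290681) (nat_lit 67) (nat_lit 5) (nat_lit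 73) (nat_lit 5) (nat_lit 74) (nat_lit 5) (nat_lit 242) (nat_lit 185) (nat_lit 173)) (XT.lf (nat_lit 0) (nat_lit 1942377004) (nat_lit 504) (nat_lit 3754543968) (nat_lit 588) (nat_lit 3500681021) (nat_lit 55) (nat_lit 5) (nat_lit 61) (nat_lit 5) (nat_lit 62) (nat_lit 5) (nat_lit 243) (nat_lit 185) (nat_lit 172)))))) (XT.nd (nat_lit 36378) (nat_lit 0) (nat_lit 7896) (XT.nd (nat_lit 282) (nat_lit 420) (nat_lit 0) (XT.nd (nat_lit 94) (nat_lit 1344) (nat_lit 0) (XT.lf (nat_lit 0) (nat_lit 2870680408) (nat_lit 504) (nat_lit 4399803294) (nat_lit 84) (nat_lit 2069667412) (nat_lit 49) (nat_lit 5) (nat_lit 55) (nat_lit 5) (nat_lit 50) (nat_lit 5) (nat_lit 244) (nat_lit 185) (nat_lit 171)) (XT.nd (nat_lit 94) (nat_lit 924) (nat_lit 0) (XT.lf (nat_lit 0) (nat_lit 8009022860) (nat_lit 420) (nat_lit 1387148691) (nat_lit 504) (nat_lit 91317115) (nat_lit 44) (nat_lit 5) (nat_lit 49) (nat_lit 5) (nat_lit 50) (nat_lit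 5) (nat_lit 245) (nat_lit 185) (nat_lit 170)) (XT.lf (nat_lit 0) (nat_lit 1505289013) (nat_lit 420) (nat_lit 4914857086) (nat_lit 504) (nat_lit 3218732252) (nat_lit 33) (nat_lit 5) (nat_lit 38) (nat_lit 5) (nat_lit 39) (nat_lit 5) (nat_lit 246) (nat_lit 185) (nat_lit 169)))) (XT.nd (nat_lit 35908) (nat_lit 0) (nat_lit 14448) (XT.lf (nat_lit 0) (nat_lit 3307019019) (nat_lit 420) (nat_lit 5205449825) (nat_lit 84) (nat_lit 1282713282) (nat_lit 28) (nat_lit 5) (nat_lit 33) (nat_lit 5) (nat_lit 29) (nat_lit 5) (nat_lit 247) (nat_lit 185) (nat_lit 168)) (XT.nd (nat_lit 94) (nat_lit 840) (nat_lit 0) (XT.lf (nat_lit 0) (nat_lit 1947323348) (nat_lit 840) (nat_lit 917558741) (nat_lit 840) (nat_lit 917558741) (nat_lit 210) (nat_lit 4) (nat_lit 220) (nat_lit 5) (nat_lit 220) (nat_lit 4) (nat_lit 228) (nat_lit 186) (nat_lit 186)) (XT.lf (nat_lit 0) (nat_lit 4145382389) (nat_lit 840) (nat_lit 1563527318) (nat_lit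 0) (nat_lit 1938405404) (nat_lit 200) (nat_lit 5) (nat_lit 210) (nat_lit 4) (nat_lit 200) (nat_lit 4) (nat_lit 229) (nat_lit 186) (nat_lit 185))))) (XT.nd (nat_lit 282) (nat_lit 3444) (nat_lit 0) (XT.nd (nat_lit 94) (nat_lit 1512) (nat_lit 0) (XT.lf (nat_lit 0) (nat_lit 626795475) (nat_lit 756) (nat_lit 1829246747) (nat_lit 840) (nat_lit 5277702375) (nat_lit 181) (nat_lit 5) (nat_lit 190) (nat_lit 5) (nat_lit 191) (nat_lit 4) (nat_lit 230) (nat_lit 186) (nat_lit 184)) (XT.nd (nat_lit 94) (nat_lit 672) (nat_lit 0) (XT.lf (nat_lit 0) (nat_lit 668739713) (nat_lit 840) (nat_lit 4909607252) (nat_lit 84) (nat_lit 2245667412) (nat_lit 171) (nat_lit 5) (nat_lit 181) (nat_lit 5) (nat_lit 172) (nat_lit 4) (nat_lit 231) (nat_lit 186) (nat_lit 183)) (XT.lf (nat_lit 0) (nat_lit 5271231751) (nat_lit 672) (nat_lit 1395804709) (nat_lit 756) (nat_lit 1251258198) (nat_lit 163) (nat_lit 5) (nat_lit 171) (nat_lit 5) (nat_lit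 172) (nat_lit 4) (nat_lit 232) (nat_lit 186) (nat_lit 182)))) (XT.nd (nat_lit 188) (nat_lit 1260) (nat_lit 0) (XT.nd (nat_lit 94) (nat_lit 1428) (nat_lit 0) (XT.lf (nat_lit 0) (nat_lit 4723917409) (nat_lit 756) (nat_lit 322376145) (nat_lit 84) (nat_lit 2970260466) (nat_lit 154) (nat_lit 5) (nat_lit 163) (nat_lit 5) (nat_lit 155) (nat_lit 4) (nat_lit 233) (nat_lit 186) (nat_lit 181)) (XT.lf (nat_lit 0) (nat_lit 2111965704) (nat_lit 672) (nat_lit 562395225) (nat_lit 756) (nat_lit 5444513579) (nat_lit 137) (nat_lit 5) (nat_lit 145) (nat_lit 5) (nat_lit 146) (nat_lit 5) (nat_lit 234) (nat_lit 186) (nat_lit 180))) (XT.nd (nat_lit 94) (nat_lit 588) (nat_lit 0) (XT.lf (nat_lit 0) (nat_lit 521759000) (nat_lit 672) (nat_lit 3611407796) (nat_lit 84) (nat_lit 4092014760) (nat_lit 129) (nat_lit 5) (nat_lit 137) (nat_lit 5) (nat_lit 130) (nat_lit 5) (nat_lit 235) (nat_lit 186) (nat_lit 179)) (XT.lf (nat_lit 0) (nat_lit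 6550230534) (nat_lit 672) (nat_lit 1148101262) (nat_lit 84) (nat_lit 637434544) (nat_lit 122) (nat_lit 5) (nat_lit 130) (nat_lit 5) (nat_lit 123) (nat_lit 4) (nat_lit 236) (nat_lit 186) (nat_lit 178))))))))
noncomputable def xc2 : XT := (XT.nd (nat_lit 37882) (nat_lit 0) (nat_lit 336) (XT.nd (nat_lit 36754) (nat_lit 0) (nat_lit 6048) (XT.nd (nat_lit 564) (nat_lit 3276) (nat_lit 0) (XT.nd (nat_lit 282) (nat_lit 2184) (nat_lit 0) (XT.nd (nat_lit 94) (nat_lit 1176) (nat_lit 0) (XT.lf (nat_lit 0) (nat_lit 1391122651) (nat_lit 588) (nat_lit 2856394061) (nat_lit 672) (nat_lit 4202672912) (nat_lit 107) (nat_lit 5) (nat_lit 114) (nat_lit 5) (nat_lit 115) (nat_lit 5) (nat_lit 237) (nat_lit 186) (nat_lit 177)) (XT.nd (nat_lit 94) (nat_lit 588) (nat_lit 0) (XT.lf (nat_lit 0) (nat_lit 1827397459) (nat_lit 588) (nat_lit 4544879387) (nat_lit 84) (nat_lit 2196679414) (nat_lit 100) (nat_lit 5) (nat_lit 107) (nat_lit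 5) (nat_lit 101) (nat_lit 5) (nat_lit 238) (nat_lit 186) (nat_lit 176)) (XT.lf (nat_lit 0) (nat_lit 6725262794) (nat_lit 588) (nat_lit 1239404551) (nat_lit 672) (nat_lit 727437182) (nat_lit 93) (nat_lit 5) (nat_lit 100) (nat_lit 5) (nat_lit 101) (nat_lit 5) (nat_lit 239) (nat_lit 186) (nat_lit 175)))) (XT.nd (nat_lit 94) (nat_lit 1092) (nat_lit 0) (XT.lf (nat_lit 0) (nat_lit 669266102) (nat_lit 504) (nat_lit 4724443196) (nat_lit 588) (nat_lit 3425526651) (nat_lit 80) (nat_lit 5) (nat_lit 86) (nat_lit 5) (nat_lit 87) (nat_lit 5) (nat_lit 240) (nat_lit 186) (nat_lit 174)) (XT.nd (nat_lit 94) (nat_lit 504) (nat_lit 0) (XT.lf (nat_lit 0) (nat_lit 2701713342) (nat_lit 588) (nat_lit 5537157485) (nat_lit 84) (nat_lit 711965963) (nat_lit 73) (nat_lit 5) (nat_lit 80) (nat_lit 5) (nat_lit 74) (nat_lit 5) (nat_lit 241) (nat_lit 186) (nat_lit 173)) (XT.lf (nat_lit 0) (nat_lit 6218004448) (nat_lit 504) (nat_lit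 2758114880) (nat_lit 588) (nat_lit 110725612) (nat_lit 67) (nat_lit 5) (nat_lit 73) (nat_lit 5) (nat_lit 74) (nat_lit 5) (nat_lit 242) (nat_lit 186) (nat_lit 172))))) (XT.nd (nat_lit 282) (nat_lit 1260) (nat_lit 0) (XT.nd (nat_lit 94) (nat_lit 1512) (nat_lit 0) (XT.lf (nat_lit 0) (nat_lit 6126297369) (nat_lit 504) (nat_lit 149432771) (nat_lit 84) (nat_lit 2951483709) (nat_lit 61) (nat_lit 5) (nat_lit 67) (nat_lit 5) (nat_lit 62) (nat_lit 5) (nat_lit 243) (nat_lit 186) (nat_lit 171)) (XT.nd (nat_lit 94) (nat_lit 504) (nat_lit 0) (XT.lf (nat_lit 0) (nat_lit 2682314821) (nat_lit 420) (nat_lit 474540454) (nat_lit 504) (nat_lit 6215217347) (nat_lit 49) (nat_lit 5) (nat_lit 54) (nat_lit 5) (nat_lit 55) (nat_lit 5) (nat_lit 244) (nat_lit 186) (nat_lit 170)) (XT.lf (nat_lit 0) (nat_lit 65070982) (nat_lit 504) (nat_lit 3947801929) (nat_lit 84) (nat_lit 5508613136) (nat_lit 43) (nat_lit 5) (nat_lit 49) (nat_lit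 5) (nat_lit 44) (nat_lit 5) (nat_lit 245) (nat_lit 186) (nat_lit 169)))) (XT.nd (nat_lit 94) (nat_lit 840) (nat_lit 0) (XT.lf (nat_lit 0) (nat_lit 6453806233) (nat_lit 504) (nat_lit 1153045520) (nat_lit 84) (nat_lit 2068680748) (nat_lit 38) (nat_lit 5) (nat_lit 44) (nat_lit 5) (nat_lit 39) (nat_lit 5) (nat_lit 246) (nat_lit 186) (nat_lit 168)) (XT.nd (nat_lit 35720) (nat_lit 0) (nat_lit 17892) (XT.lf (nat_lit 0) (nat_lit 1732148557) (nat_lit 336) (nat_lit 1460995367) (nat_lit 420) (nat_lit 6641133153) (nat_lit 28) (nat_lit 5) (nat_lit 32) (nat_lit 5) (nat_lit 33) (nat_lit 5) (nat_lit 247) (nat_lit 186) (nat_lit 167)) (XT.lf (nat_lit 0) (nat_lit 1815328815) (nat_lit 924) (nat_lit 74266201) (nat_lit 0) (nat_lit 1815328815) (nat_lit 241) (nat_lit 5) (nat_lit 252) (nat_lit 4) (nat_lit 241) (nat_lit 4) (nat_lit 226) (nat_lit 187) (nat_lit 187)))))) (XT.nd (nat_lit 564) (nat_lit 5208) (nat_lit 0) (XT.nd (nat_lit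 282) (nat_lit 3192) (nat_lit 0) (XT.nd (nat_lit 94) (nat_lit 1680) (nat_lit 0) (XT.lf (nat_lit 0) (nat_lit 1782781694) (nat_lit 840) (nat_lit 278847469) (nat_lit 924) (nat_lit 5424851591) (nat_lit 220) (nat_lit 5) (nat_lit 230) (nat_lit 5) (nat_lit 231) (nat_lit 4) (nat_lit 227) (nat_lit 187) (nat_lit 186)) (XT.nd (nat_lit 94) (nat_lit 756) (nat_lit 0) (XT.lf (nat_lit 0) (nat_lit 397986024) (nat_lit 924) (nat_lit 3785276782) (nat_lit 84) (nat_lit 3383612521) (nat_lit 209) (nat_lit 5) (nat_lit 220) (nat_lit 5) (nat_lit 210) (nat_lit 4) (nat_lit 228) (nat_lit 187) (nat_lit 185)) (XT.lf (nat_lit 0) (nat_lit 5858830626) (nat_lit 756) (nat_lit 386516382) (nat_lit 840) (nat_lit 1406021747) (nat_lit 200) (nat_lit 5) (nat_lit 209) (nat_lit 5) (nat_lit 210) (nat_lit 4) (nat_lit 229) (nat_lit 187) (nat_lit 184)))) (XT.nd (nat_lit 94) (nat_lit 1596) (nat_lit 0) (XT.lf (nat_lit 0) (nat_lit 262626838) (nat_lit 756)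 (nat_lit 4161906568) (nat_lit 840) (nat_lit 3315075487) (nat_lit 181) (nat_lit 5) (nat_lit 190) (nat_lit 5) (nat_lit 191) (nat_lit 4) (nat_lit 230) (nat_lit 187) (nat_lit 183)) (XT.nd (nat_lit 94) (nat_lit 756) (nat_lit 0) (XT.lf (nat_lit 0) (nat_lit 2430336970) (nat_lit 756) (nat_lit 64387922) (nat_lit 840) (nat_lit 5337230435) (nat_lit 171) (nat_lit 5) (nat_lit 180) (nat_lit 5) (nat_lit 181) (nat_lit 5) (nat_lit 231) (nat_lit 187) (nat_lit 182)) (XT.lf (nat_lit 0) (nat_lit 466663591) (nat_lit 756) (nat_lit 3269742374) (nat_lit 84) (nat_lit 4191763917) (nat_lit 162) (nat_lit 5) (nat_lit 171) (nat_lit 5) (nat_lit 163) (nat_lit 5) (nat_lit 232) (nat_lit 187) (nat_lit 181))))) (XT.nd (nat_lit 282) (nat_lit 2436) (nat_lit 0) (XT.nd (nat_lit 94) (nat_lit 2100) (nat_lit 0) (XT.lf (nat_lit 0) (nat_lit 6316713791) (nat_lit 756) (nat_lit 1067754341) (nat_lit 84) (nat_lit 644121298) (nat_lit 154) (nat_lit 5)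 (nat_lit 163) (nat_lit 5) (nat_lit 155) (nat_lit 4) (nat_lit 233) (nat_lit 187) (nat_lit 180)) (XT.nd (nat_lit 94) (nat_lit 672) (nat_lit 0) (XT.lf (nat_lit 0) (nat_lit 1208856501) (nat_lit 672) (nat_lit 2927257341) (nat_lit 756) (nat_lit 3996665636) (nat_lit 137) (nat_lit 5) (nat_lit 145) (nat_lit 5) (nat_lit 146) (nat_lit 5) (nat_lit 234) (nat_lit 187) (nat_lit 179)) (XT.lf (nat_lit 0) (nat_lit 1841347834) (nat_lit 672) (nat_lit 4662030972) (nat_lit 84) (nat_lit 1737843747) (nat_lit 129) (nat_lit 5) (nat_lit 137) (nat_lit 5) (nat_lit 130) (nat_lit 5) (nat_lit 235) (nat_lit 187) (nat_lit 178)))) (XT.nd (nat_lit 94) (nat_lit 1848) (nat_lit 0) (XT.lf (nat_lit 0) (nat_lit 6015879695) (nat_lit 588) (nat_lit 1759904739) (nat_lit 672) (nat_lit 578091672) (nat_lit 122) (nat_lit 5) (nat_lit 129) (nat_lit 5) (nat_lit 130) (nat_lit 5) (nat_lit 236) (nat_lit 187) (nat_lit 177)) (XT.nd (nat_lit 94) (nat_lit 588)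 (nat_lit 0) (XT.lf (nat_lit 0) (nat_lit 38979426) (nat_lit 588) (nat_lit 5287129714) (nat_lit 672) (nat_lit 3144453163) (nat_lit 107) (nat_lit 5) (nat_lit 114) (nat_lit 5) (nat_lit 115) (nat_lit 5) (nat_lit 237) (nat_lit 187) (nat_lit 176)) (XT.lf (nat_lit 0) (nat_lit 2528419199) (nat_lit 504) (nat_lit 236058366) (nat_lit 588) (nat_lit 5827015295) (nat_lit 100) (nat_lit 5) (nat_lit 106) (nat_lit 5) (nat_lit 107) (nat_lit 5) (nat_lit 238) (nat_lit 187) (nat_lit 175))))))) (XT.nd (nat_lit 36566) (nat_lit 0) (nat_lit 5040) (XT.nd (nat_lit 564) (nat_lit 1428) (nat_lit 0) (XT.nd (nat_lit 282) (nat_lit 2016) (nat_lit 0) (XT.nd (nat_lit 94) (nat_lit 1596) (nat_lit 0) (XT.lf (nat_lit 0) (nat_lit 92758379) (nat_lit 672) (nat_lit 3641692902) (nat_lit 84) (nat_lit 4982176890) (nat_lit 92) (nat_lit 5) (nat_lit 100) (nat_lit 5) (nat_lit 93) (nat_lit 5) (nat_lit 239) (nat_lit 187) (nat_lit 174)) (XT.nd (nat_lit 94)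 (nat_lit 1092) (nat_lit 0) (XT.lf (nat_lit 0) (nat_lit 6091426952) (nat_lit 588) (nat_lit 1163184246) (nat_lit 84) (nat_lit 1591498409) (nat_lit 86) (nat_lit 5) (nat_lit 93) (nat_lit 5) (nat_lit 87) (nat_lit 5) (nat_lit 240) (nat_lit 187) (nat_lit 173)) (XT.lf (nat_lit 0) (nat_lit 1398320242) (nat_lit 504) (nat_lit 1860586467) (nat_lit 588) (nat_lit 5720986353) (nat_lit 73) (nat_lit 5) (nat_lit 79) (nat_lit 5) (nat_lit 80) (nat_lit 5) (nat_lit 241) (nat_lit 187) (nat_lit 172)))) (XT.nd (nat_lit 94) (nat_lit 1428) (nat_lit 0) (XT.lf (nat_lit 0) (nat_lit 307499865) (nat_lit 588) (nat_lit 5074341150) (nat_lit 84) (nat_lit 3736280575) (nat_lit 66) (nat_lit 5) (nat_lit 73) (nat_lit 5) (nat_lit 67) (nat_lit 5) (nat_lit 242) (nat_lit 187) (nat_lit 171)) (XT.nd (nat_lit 94) (nat_lit 1008) (nat_lit 0) (XT.lf (nat_lit 0) (nat_lit 6433941623) (nat_lit 504) (nat_lit 2512150473) (nat_lit 84) (nat_lit 314778753)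 (nat_lit 61) (nat_lit 5) (nat_lit 67) (nat_lit 5) (nat_lit 62) (nat_lit 5) (nat_lit 243) (nat_lit 187) (nat_lit 170)) (XT.lf (nat_lit 0) (nat_lit 101791809) (nat_lit 420) (nat_lit 3216486205) (nat_lit 504) (nat_lit 6089798270) (nat_lit 49) (nat_lit 5) (nat_lit 54) (nat_lit 5) (nat_lit 55) (nat_lit 5) (nat_lit 244) (nat_lit 187) (nat_lit 169))))) (XT.nd (nat_lit 35720) (nat_lit 0) (nat_lit 17556) (XT.nd (nat_lit 94) (nat_lit 924) (nat_lit 0) (XT.lf (nat_lit 0) (nat_lit 77188512) (nat_lit 504) (nat_lit 6732259286) (nat_lit 84) (nat_lit 2750475149) (nat_lit 43) (nat_lit 5) (nat_lit 49) (nat_lit 5) (nat_lit 44) (nat_lit 5) (nat_lit 245) (nat_lit 187) (nat_lit 168)) (XT.nd (nat_lit 94) (nat_lit 504) (nat_lit 0) (XT.lf (nat_lit 0) (nat_lit 5602775753) (nat_lit 420) (nat_lit 756840660) (nat_lit 504) (nat_lit 3356691750) (nat_lit 38) (nat_lit 5) (nat_lit 43) (nat_lit 5) (nat_lit 44) (nat_lit 5) (nat_lit 246)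 (nat_lit 187) (nat_lit 167)) (XT.lf (nat_lit 0) (nat_lit 2950466846) (nat_lit 504) (nat_lit 1441262610) (nat_lit 84) (nat_lit 5485756856) (nat_lit 32) (nat_lit 5) (nat_lit 38) (nat_lit 5) (nat_lit 33) (nat_lit 5) (nat_lit 247) (nat_lit 187) (nat_lit 166)))) (XT.nd (nat_lit 94) (nat_lit 1848) (nat_lit 0) (XT.lf (nat_lit 0) (nat_lit 913655491) (nat_lit 1008) (nat_lit 1805861898) (nat_lit 0) (nat_lit 913655491) (nat_lit 263) (nat_lit 5) (nat_lit 275) (nat_lit 4) (nat_lit 263) (nat_lit 4) (nat_lit 224) (nat_lit 188) (nat_lit 188)) (XT.nd (nat_lit 94) (nat_lit 840) (nat_lit 0) (XT.lf (nat_lit 0) (nat_lit 275349415) (nat_lit 1008) (nat_lit 1966905498) (nat_lit 84) (nat_lit 5094947624) (nat_lit 251) (nat_lit 5) (nat_lit 263) (nat_lit 5) (nat_lit 252) (nat_lit 4) (nat_lit 225) (nat_lit 188) (nat_lit 187)) (XT.lf (nat_lit 0) (nat_lit 6006376535) (nat_lit 924) (nat_lit 254323268) (nat_lit 0) (nat_lit 1151207449)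 (nat_lit 241) (nat_lit 5) (nat_lit 252) (nat_lit 4) (nat_lit 241) (nat_lit 4) (nat_lit 226) (nat_lit 188) (nat_lit 186)))))) (XT.nd (nat_lit 564) (nat_lit 5880) (nat_lit 0) (XT.nd (nat_lit 282) (nat_lit 3108) (nat_lit 0) (XT.nd (nat_lit 94) (nat_lit 1764) (nat_lit 0) (XT.lf (nat_lit 0) (nat_lit 1548035323) (nat_lit 840) (nat_lit 2758768118) (nat_lit 924) (nat_lit 3183439454) (nat_lit 220) (nat_lit 5) (nat_lit 230) (nat_lit 5) (nat_lit 231) (nat_lit 4) (nat_lit 227) (nat_lit 188) (nat_lit 185)) (XT.nd (nat_lit 94) (nat_lit 840) (nat_lit 0) (XT.lf (nat_lit 0) (nat_lit 2496719860) (nat_lit 924) (nat_lit 4137074104) (nat_lit 84) (nat_lit 938920935) (nat_lit 209) (nat_lit 5) (nat_lit 220) (nat_lit 5) (nat_lit 210) (nat_lit 4) (nat_lit 228) (nat_lit 188) (nat_lit 184)) (XT.lf (nat_lit 0) (nat_lit 585104262) (nat_lit 840) (nat_lit 2267144574) (nat_lit 84) (nat_lit 4806873103) (nat_lit 199) (nat_lit 5) (nat_lit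 209) (nat_lit 5) (nat_lit 200) (nat_lit 5) (nat_lit 229) (nat_lit 188) (nat_lit 183)))) (XT.nd (nat_lit 94) (nat_lit 2352) (nat_lit 0) (XT.lf (nat_lit 0) (nat_lit 6285351696) (nat_lit 840) (nat_lit 329534293) (nat_lit 84) (nat_lit 1134676991) (nat_lit 190) (nat_lit 5) (nat_lit 200) (nat_lit 5) (nat_lit 191) (nat_lit 4) (nat_lit 230) (nat_lit 188) (nat_lit 182)) (XT.nd (nat_lit 94) (nat_lit 756) (nat_lit 0) (XT.lf (nat_lit 0) (nat_lit 1693846519) (nat_lit 756) (nat_lit 2531857265) (nat_lit 840) (nat_lit 3617966573) (nat_lit 171) (nat_lit 5) (nat_lit 180) (nat_lit 5) (nat_lit 181) (nat_lit 5) (nat_lit 231) (nat_lit 188) (nat_lit 181)) (XT.lf (nat_lit 0) (nat_lit 2053195956) (nat_lit 756) (nat_lit 4143468876) (nat_lit 84) (nat_lit 1745325962) (nat_lit 162) (nat_lit 5) (nat_lit 171) (nat_lit 5) (nat_lit 163) (nat_lit 5) (nat_lit 232) (nat_lit 188) (nat_lit 180))))) (XT.nd (nat_lit 282) (nat_lit 3108) (nat_lit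 0) (XT.nd (nat_lit 94) (nat_lit 2100) (nat_lit 0) (XT.lf (nat_lit 0) (nat_lit 5973105597) (nat_lit 672) (nat_lit 1836342745) (nat_lit 756) (nat_lit 235025553) (nat_lit 154) (nat_lit 5) (nat_lit 162) (nat_lit 5) (nat_lit 163) (nat_lit 5) (nat_lit 233) (nat_lit 188) (nat_lit 179)) (XT.nd (nat_lit 94) (nat_lit 672) (nat_lit 0) (XT.lf (nat_lit 0) (nat_lit 53788333) (nat_lit 672) (nat_lit 5427762229) (nat_lit 756) (nat_lit 2669305065) (nat_lit 137) (nat_lit 5) (nat_lit 145) (nat_lit 5) (nat_lit 146) (nat_lit 5) (nat_lit 234) (nat_lit 188) (nat_lit 178)) (XT.lf (nat_lit 0) (nat_lit 2284811386) (nat_lit 588) (nat_lit 762812842) (nat_lit 672) (nat_lit 5213709713) (nat_lit 129) (nat_lit 5) (nat_lit 136) (nat_lit 5) (nat_lit 137) (nat_lit 5) (nat_lit 235) (nat_lit 188) (nat_lit 177)))) (XT.nd (nat_lit 188) (nat_lit 1848) (nat_lit 0) (XT.nd (nat_lit 94) (nat_lit 588) (nat_lit 0) (XT.lf (nat_lit 0) (nat_lit 504668990)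 (nat_lit 672) (nat_lit 3798790165) (nat_lit 84) (nat_lit 4072515263) (nat_lit 121) (nat_lit 5) (nat_lit 129) (nat_lit 5) (nat_lit 122) (nat_lit 5) (nat_lit 236) (nat_lit 188) (nat_lit 176)) (XT.lf (nat_lit 0) (nat_lit 6293609135) (nat_lit 672) (nat_lit 1559303271) (nat_lit 84) (nat_lit 642010170) (nat_lit 114) (nat_lit 5) (nat_lit 122) (nat_lit 5) (nat_lit 115) (nat_lit 5) (nat_lit 237) (nat_lit 188) (nat_lit 175))) (XT.nd (nat_lit 94) (nat_lit 672) (nat_lit 0) (XT.lf (nat_lit 0) (nat_lit 744073038) (nat_lit 504) (nat_lit 2849325821) (nat_lit 588) (nat_lit 5024520425) (nat_lit 100) (nat_lit 5) (nat_lit 106) (nat_lit 5) (nat_lit 107) (nat_lit 5) (nat_lit 238) (nat_lit 188) (nat_lit 174)) (XT.lf (nat_lit 0) (nat_lit 775647136) (nat_lit 672) (nat_lit 5600977580) (nat_lit 84) (nat_lit 2368681168) (nat_lit 92) (nat_lit 5) (nat_lit 100) (nat_lit 5) (nat_lit 93) (nat_lit 5) (nat_lit 239) (nat_lit 188) (nat_lit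 173))))))))
noncomputable def xc3 : XT := (XT.nd (nat_lit 37600) (nat_lit 0) (nat_lit 0) (XT.nd (nat_lit 36378) (nat_lit 0) (nat_lit 6216) (XT.nd (nat_lit 564) (nat_lit 1428) (nat_lit 0) (XT.nd (nat_lit 282) (nat_lit 1428) (nat_lit 0) (XT.nd (nat_lit 94) (nat_lit 1680) (nat_lit 0) (XT.lf (nat_lit 0) (nat_lit 5600567892) (nat_lit 504) (nat_lit 1073656802) (nat_lit 588) (nat_lit 2202764628) (nat_lit 86) (nat_lit 5) (nat_lit 92) (nat_lit 5) (nat_lit 93) (nat_lit 5) (nat_lit 240) (nat_lit 188) (nat_lit 172)) (XT.nd (nat_lit 94) (nat_lit 1092) (nat_lit 0) (XT.lf (nat_lit 0) (nat_lit 3696470585) (nat_lit 588) (nat_lit 899887639) (nat_lit 84) (nat_lit 4416668967) (nat_lit 79) (nat_lit 5) (nat_lit 86) (nat_lit 5) (nat_lit 80) (nat_lit 5) (nat_lit 241) (nat_lit 188) (nat_lit 171)) (XT.lf (nat_lit 0) (nat_lit 589748780) (nat_lit 588) (nat_lit 7578486390) (nat_lit 84) (nat_lit 985516996) (nat_lit 66) (nat_lit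 5) (nat_lit 73) (nat_lit 5) (nat_lit 67) (nat_lit 5) (nat_lit 242) (nat_lit 188) (nat_lit 170)))) (XT.nd (nat_lit 94) (nat_lit 1008) (nat_lit 0) (XT.lf (nat_lit 0) (nat_lit 4104020500) (nat_lit 420) (nat_lit 2520314136) (nat_lit 504) (nat_lit 2674187619) (nat_lit 61) (nat_lit 5) (nat_lit 66) (nat_lit 5) (nat_lit 67) (nat_lit 5) (nat_lit 243) (nat_lit 188) (nat_lit 169)) (XT.nd (nat_lit 94) (nat_lit 420) (nat_lit 0) (XT.lf (nat_lit 0) (nat_lit 3360048127) (nat_lit 588) (nat_lit 2748817897) (nat_lit 84) (nat_lit 3339230704) (nat_lit 54) (nat_lit 5) (nat_lit 61) (nat_lit 5) (nat_lit 55) (nat_lit 5) (nat_lit 244) (nat_lit 188) (nat_lit 168)) (XT.lf (nat_lit 0) (nat_lit 9372836484) (nat_lit 420) (nat_lit 178519803) (nat_lit 504) (nat_lit 51430020) (nat_lit 49) (nat_lit 5) (nat_lit 54) (nat_lit 5) (nat_lit 55) (nat_lit 5) (nat_lit 245) (nat_lit 188) (nat_lit 167))))) (XT.nd (nat_lit 35532) (nat_lit 0) (nat_lit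 18396) (XT.nd (nat_lit 94) (nat_lit 504) (nat_lit 0) (XT.lf (nat_lit 0) (nat_lit 2349088939) (nat_lit 420) (nat_lit 3788459941) (nat_lit 504) (nat_lit 3623702877) (nat_lit 38) (nat_lit 5) (nat_lit 43) (nat_lit 5) (nat_lit 44) (nat_lit 5) (nat_lit 246) (nat_lit 188) (nat_lit 166)) (XT.nd (nat_lit 35344) (nat_lit 0) (nat_lit 21504) (XT.lf (nat_lit 0) (nat_lit 2573698837) (nat_lit 504) (nat_lit 4916150953) (nat_lit 84) (nat_lit 2435121217) (nat_lit 32) (nat_lit 5) (nat_lit 38) (nat_lit 5) (nat_lit 33) (nat_lit 5) (nat_lit 247) (nat_lit 188) (nat_lit 165)) (XT.lf (nat_lit 0) (nat_lit 143565981) (nat_lit 1932) (nat_lit 3280254042) (nat_lit 0) (nat_lit 143565981) (nat_lit 288) (nat_lit 5) (nat_lit 311) (nat_lit 4) (nat_lit 288) (nat_lit 4) (nat_lit 222) (nat_lit 189) (nat_lit 189)))) (XT.nd (nat_lit 94) (nat_lit 2016) (nat_lit 0) (XT.lf (nat_lit 0) (nat_lit 2018627283) (nat_lit 1092) (nat_lit 3925153533)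 (nat_lit 1092) (nat_lit 1255699562) (nat_lit 275) (nat_lit 4) (nat_lit 288) (nat_lit 5) (nat_lit 288) (nat_lit 4) (nat_lit 223) (nat_lit 189) (nat_lit 188)) (XT.nd (nat_lit 94) (nat_lit 1008) (nat_lit 0) (XT.lf (nat_lit 0) (nat_lit 3547878084) (nat_lit 924) (nat_lit 802524802) (nat_lit 1008) (nat_lit 2917898637) (nat_lit 263) (nat_lit 5) (nat_lit 274) (nat_lit 5) (nat_lit 275) (nat_lit 4) (nat_lit 224) (nat_lit 189) (nat_lit 187)) (XT.lf (nat_lit 0) (nat_lit 2660860094) (nat_lit 1008) (nat_lit 2193713882) (nat_lit 84) (nat_lit 2486374120) (nat_lit 251) (nat_lit 5) (nat_lit 263) (nat_lit 5) (nat_lit 252) (nat_lit 4) (nat_lit 225) (nat_lit 189) (nat_lit 186)))))) (XT.nd (nat_lit 564) (nat_lit 5460) (nat_lit 0) (XT.nd (nat_lit 282) (nat_lit 3192) (nat_lit 0) (XT.nd (nat_lit 94) (nat_lit 2604) (nat_lit 0) (XT.lf (nat_lit 0) (nat_lit 861102396) (nat_lit 924) (nat_lit 588415110) (nat_lit 84) (nat_lit 5968205884)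 (nat_lit 240) (nat_lit 5) (nat_lit 251) (nat_lit 5) (nat_lit 241) (nat_lit 5) (nat_lit 226) (nat_lit 189) (nat_lit 185)) (XT.nd (nat_lit 94) (nat_lit 924) (nat_lit 0) (XT.lf (nat_lit 0) (nat_lit 1095507944) (nat_lit 840) (nat_lit 5352955318) (nat_lit 924) (nat_lit 1049679549) (nat_lit 220) (nat_lit 5) (nat_lit 230) (nat_lit 5) (nat_lit 231) (nat_lit 4) (nat_lit 227) (nat_lit 189) (nat_lit 184)) (XT.lf (nat_lit 0) (nat_lit 2857755637) (nat_lit 840) (nat_lit 1643954202) (nat_lit 924) (nat_lit 3080727407) (nat_lit 209) (nat_lit 5) (nat_lit 219) (nat_lit 5) (nat_lit 220) (nat_lit 5) (nat_lit 228) (nat_lit 189) (nat_lit 183)))) (XT.nd (nat_lit 94) (nat_lit 2352) (nat_lit 0) (XT.lf (nat_lit 0) (nat_lit 2449351908) (nat_lit 840) (nat_lit 2978909929) (nat_lit 84) (nat_lit 2242519967) (nat_lit 199) (nat_lit 5) (nat_lit 209) (nat_lit 5) (nat_lit 200) (nat_lit 5) (nat_lit 229) (nat_lit 189) (nat_lit 182)) (XT.nd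 (nat_lit 94) (nat_lit 1512) (nat_lit 0) (XT.lf (nat_lit 0) (nat_lit 284631584) (nat_lit 840) (nat_lit 1160429790) (nat_lit 84) (nat_lit 6318259932) (nat_lit 189) (nat_lit 5) (nat_lit 199) (nat_lit 5) (nat_lit 190) (nat_lit 5) (nat_lit 230) (nat_lit 189) (nat_lit 181)) (XT.lf (nat_lit 0) (nat_lit 720651330) (nat_lit 756) (nat_lit 5126843618) (nat_lit 840) (nat_lit 2012035450) (nat_lit 171) (nat_lit 5) (nat_lit 180) (nat_lit 5) (nat_lit 181) (nat_lit 5) (nat_lit 231) (nat_lit 189) (nat_lit 180))))) (XT.nd (nat_lit 282) (nat_lit 3276) (nat_lit 0) (XT.nd (nat_lit 94) (nat_lit 1428) (nat_lit 0) (XT.lf (nat_lit 0) (nat_lit 2693485755) (nat_lit 672) (nat_lit 840741822) (nat_lit 756) (nat_lit 4425610507) (nat_lit 162) (nat_lit 5) (nat_lit 170) (nat_lit 5) (nat_lit 171) (nat_lit 5) (nat_lit 232) (nat_lit 189) (nat_lit 179)) (XT.nd (nat_lit 94) (nat_lit 672) (nat_lit 0) (XT.lf (nat_lit 0) (nat_lit 1115696574)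 (nat_lit 756) (nat_lit 3334973665) (nat_lit 84) (nat_lit 3613543482) (nat_lit 153) (nat_lit 5) (nat_lit 162) (nat_lit 5) (nat_lit 154) (nat_lit 5) (nat_lit 233) (nat_lit 189) (nat_lit 178)) (XT.lf (nat_lit 0) (nat_lit 6721912693) (nat_lit 756) (nat_lit 1335095271) (nat_lit 84) (nat_lit 115904106) (nat_lit 145) (nat_lit 5) (nat_lit 154) (nat_lit 5) (nat_lit 146) (nat_lit 5) (nat_lit 234) (nat_lit 189) (nat_lit 177)))) (XT.nd (nat_lit 188) (nat_lit 1260) (nat_lit 0) (XT.nd (nat_lit 94) (nat_lit 672) (nat_lit 0) (XT.lf (nat_lit 0) (nat_lit 720802088) (nat_lit 588) (nat_lit 3429334250) (nat_lit 672) (nat_lit 4135224537) (nat_lit 129) (nat_lit 5) (nat_lit 136) (nat_lit 5) (nat_lit 137) (nat_lit 5) (nat_lit 235) (nat_lit 189) (nat_lit 176)) (XT.lf (nat_lit 0) (nat_lit 1460115683) (nat_lit 672) (nat_lit 5527210725) (nat_lit 84) (nat_lit 1414871041) (nat_lit 121) (nat_lit 5) (nat_lit 129) (nat_lit 5) (nat_lit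 122) (nat_lit 5) (nat_lit 236) (nat_lit 189) (nat_lit 175))) (XT.nd (nat_lit 94) (nat_lit 672) (nat_lit 0) (XT.lf (nat_lit 0) (nat_lit 5084443174) (nat_lit 588) (nat_lit 2072404871) (nat_lit 672) (nat_lit 1366326133) (nat_lit 114) (nat_lit 5) (nat_lit 121) (nat_lit 5) (nat_lit 122) (nat_lit 5) (nat_lit 237) (nat_lit 189) (nat_lit 174)) (XT.lf (nat_lit 0) (nat_lit 4308632274) (nat_lit 672) (nat_lit 1295910109) (nat_lit 84) (nat_lit 3043867655) (nat_lit 106) (nat_lit 5) (nat_lit 114) (nat_lit 5) (nat_lit 107) (nat_lit 5) (nat_lit 238) (nat_lit 189) (nat_lit 173))))))) (XT.nd (nat_lit 36190) (nat_lit 0) (nat_lit 8736) (XT.nd (nat_lit 564) (nat_lit 1848) (nat_lit 0) (XT.nd (nat_lit 282) (nat_lit 2100) (nat_lit 0) (XT.nd (nat_lit 94) (nat_lit 1092) (nat_lit 0) (XT.lf (nat_lit 0) (nat_lit 933527140) (nat_lit 588) (nat_lit 401850082) (nat_lit 672) (nat_lit 7442845410) (nat_lit 92) (nat_lit 5) (nat_lit 99)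 (nat_lit 5) (nat_lit 100) (nat_lit 5) (nat_lit 239) (nat_lit 189) (nat_lit 172)) (XT.nd (nat_lit 94) (nat_lit 588) (nat_lit 0) (XT.lf (nat_lit 0) (nat_lit 3224360703) (nat_lit 504) (nat_lit 3918624772) (nat_lit 588) (nat_lit 1768921920) (nat_lit 86) (nat_lit 5) (nat_lit 92) (nat_lit 5) (nat_lit 93) (nat_lit 5) (nat_lit 240) (nat_lit 189) (nat_lit 171)) (XT.lf (nat_lit 0) (nat_lit 4015316823) (nat_lit 588) (nat_lit 3467204591) (nat_lit 84) (nat_lit 1567748313) (nat_lit 79) (nat_lit 5) (nat_lit 86) (nat_lit 5) (nat_lit 80) (nat_lit 5) (nat_lit 241) (nat_lit 189) (nat_lit 170)))) (XT.nd (nat_lit 94) (nat_lit 1512) (nat_lit 0) (XT.lf (nat_lit 0) (nat_lit 760457055) (nat_lit 588) (nat_lit 1186553179) (nat_lit 84) (nat_lit 7246290805) (nat_lit 72) (nat_lit 5) (nat_lit 79) (nat_lit 5) (nat_lit 73) (nat_lit 5) (nat_lit 242) (nat_lit 189) (nat_lit 169)) (XT.nd (nat_lit 94) (nat_lit 588) (nat_lit 0) (XT.lf (nat_lit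 0) (nat_lit 1155373960) (nat_lit 420) (nat_lit 5527824164) (nat_lit 504) (nat_lit 2657333589) (nat_lit 61) (nat_lit 5) (nat_lit 66) (nat_lit 5) (nat_lit 67) (nat_lit 5) (nat_lit 243) (nat_lit 189) (nat_lit 168)) (XT.lf (nat_lit 0) (nat_lit 3265284410) (nat_lit 588) (nat_lit 5907121967) (nat_lit 84) (nat_lit 320147419) (nat_lit 54) (nat_lit 5) (nat_lit 61) (nat_lit 5) (nat_lit 55) (nat_lit 5) (nat_lit 244) (nat_lit 189) (nat_lit 167))))) (XT.nd (nat_lit 35344) (nat_lit 0) (nat_lit 21504) (XT.nd (nat_lit 94) (nat_lit 1428) (nat_lit 0) (XT.lf (nat_lit 0) (nat_lit 6067486059) (nat_lit 420) (nat_lit 3299687347) (nat_lit 504) (nat_lit 282037188) (nat_lit 49) (nat_lit 5) (nat_lit 54) (nat_lit 5) (nat_lit 55) (nat_lit 5) (nat_lit 245) (nat_lit 189) (nat_lit 166)) (XT.nd (nat_lit 94) (nat_lit 924) (nat_lit 0) (XT.lf (nat_lit 0) (nat_lit 5781130997) (nat_lit 504) (nat_lit 1209469688) (nat_lit 84) (nat_lit 2819952407)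 (nat_lit 43) (nat_lit 5) (nat_lit 49) (nat_lit 5) (nat_lit 44) (nat_lit 5) (nat_lit 246) (nat_lit 189) (nat_lit 165)) (XT.lf (nat_lit 0) (nat_lit 1249612109) (nat_lit 420) (nat_lit 806186007) (nat_lit 504) (nat_lit 7921134361) (nat_lit 32) (nat_lit 5) (nat_lit 37) (nat_lit 5) (nat_lit 38) (nat_lit 5) (nat_lit 247) (nat_lit 189) (nat_lit 164)))) (XT.nd (nat_lit 94) (nat_lit 5460) (nat_lit 0) (XT.lf (nat_lit 0) (nat_lit 2520290135) (nat_lit 1596) (nat_lit 493433911) (nat_lit 1596) (nat_lit 493433911) (nat_lit 353) (nat_lit 4) (nat_lit 372) (nat_lit 5) (nat_lit 372) (nat_lit 4) (nat_lit 220) (nat_lit 190) (nat_lit 190)) (XT.nd (nat_lit 94) (nat_lit 3696) (nat_lit 0) (XT.lf (nat_lit 0) (nat_lit 4548823669) (nat_lit 1764) (nat_lit 799481650) (nat_lit 0) (nat_lit 1725155342) (nat_lit 332) (nat_lit 5) (nat_lit 353) (nat_lit 4) (nat_lit 332) (nat_lit 4) (nat_lit 221) (nat_lit 190) (nat_lit 189)) (XT.lf (nat_lit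 0) (nat_lit 457971913) (nat_lit 1848) (nat_lit 2514244802) (nat_lit 1932) (nat_lit 4164266896) (nat_lit 288) (nat_lit 5) (nat_lit 310) (nat_lit 5) (nat_lit 311) (nat_lit 4) (nat_lit 222) (nat_lit 190) (nat_lit 188)))))) (XT.nd (nat_lit 564) (nat_lit 6132) (nat_lit 0) (XT.nd (nat_lit 282) (nat_lit 3528) (nat_lit 0) (XT.nd (nat_lit 94) (nat_lit 1932) (nat_lit 0) (XT.lf (nat_lit 0) (nat_lit 1294491582) (nat_lit 1176) (nat_lit 5394059433) (nat_lit 84) (nat_lit 514894851) (nat_lit 274) (nat_lit 5) (nat_lit 288) (nat_lit 5) (nat_lit 275) (nat_lit 4) (nat_lit 223) (nat_lit 190) (nat_lit 187)) (XT.nd (nat_lit 94) (nat_lit 1008) (nat_lit 0) (XT.lf (nat_lit 0) (nat_lit 3224946384) (nat_lit 924) (nat_lit 3564584596) (nat_lit 1008) (nat_lit 484584741) (nat_lit 263) (nat_lit 5) (nat_lit 274) (nat_lit 5) (nat_lit 275) (nat_lit 4) (nat_lit 224) (nat_lit 190) (nat_lit 186)) (XT.lf (nat_lit 0) (nat_lit 4717531303) (nat_lit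 924) (nat_lit 231509423) (nat_lit 1008) (nat_lit 2399762129) (nat_lit 251) (nat_lit 5) (nat_lit 262) (nat_lit 5) (nat_lit 263) (nat_lit 5) (nat_lit 225) (nat_lit 190) (nat_lit 185)))) (XT.nd (nat_lit 94) (nat_lit 2604) (nat_lit 0) (XT.lf (nat_lit 0) (nat_lit 3015789210) (nat_lit 924) (nat_lit 1153052032) (nat_lit 84) (nat_lit 3258421047) (nat_lit 240) (nat_lit 5) (nat_lit 251) (nat_lit 5) (nat_lit 241) (nat_lit 5) (nat_lit 226) (nat_lit 190) (nat_lit 184)) (XT.nd (nat_lit 94) (nat_lit 840) (nat_lit 0) (XT.lf (nat_lit 0) (nat_lit 413494568) (nat_lit 840) (nat_lit 555314607) (nat_lit 924) (nat_lit 6541140244) (nat_lit 219) (nat_lit 5) (nat_lit 229) (nat_lit 5) (nat_lit 230) (nat_lit 5) (nat_lit 227) (nat_lit 190) (nat_lit 183)) (XT.lf (nat_lit 0) (nat_lit 2051437833) (nat_lit 840) (nat_lit 4359802404) (nat_lit 924) (nat_lit 1184903590) (nat_lit 209) (nat_lit 5) (nat_lit 219) (nat_lit 5) (nat_lit 220)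 (nat_lit 5) (nat_lit 228) (nat_lit 190) (nat_lit 182))))) (XT.nd (nat_lit 282) (nat_lit 3696) (nat_lit 0) (XT.nd (nat_lit 94) (nat_lit 1596) (nat_lit 0) (XT.lf (nat_lit 0) (nat_lit 3764662018) (nat_lit 756) (nat_lit 447705953) (nat_lit 840) (nat_lit 3474144359) (nat_lit 199) (nat_lit 5) (nat_lit 208) (nat_lit 5) (nat_lit 209) (nat_lit 5) (nat_lit 229) (nat_lit 190) (nat_lit 181)) (XT.nd (nat_lit 94) (nat_lit 756) (nat_lit 0) (XT.lf (nat_lit 0) (nat_lit 1914852483) (nat_lit 840) (nat_lit 2241259245) (nat_lit 84) (nat_lit 3624688043) (nat_lit 189) (nat_lit 5) (nat_lit 199) (nat_lit 5) (nat_lit 190) (nat_lit 5) (nat_lit 230) (nat_lit 190) (nat_lit 180)) (XT.lf (nat_lit 0) (nat_lit 7365511131) (nat_lit 840) (nat_lit 483337119) (nat_lit 84) (nat_lit 30629118) (nat_lit 180) (nat_lit 5) (nat_lit 190) (nat_lit 5) (nat_lit 181) (nat_lit 5) (nat_lit 231) (nat_lit 190) (nat_lit 179)))) (XT.nd (nat_lit 188) (nat_lit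 1428) (nat_lit 0) (XT.nd (nat_lit 94) (nat_lit 756) (nat_lit 0) (XT.lf (nat_lit 0) (nat_lit 1334282953) (nat_lit 672) (nat_lit 3584790225) (nat_lit 756) (nat_lit 3062493338) (nat_lit 162) (nat_lit 5) (nat_lit 170) (nat_lit 5) (nat_lit 171) (nat_lit 5) (nat_lit 232) (nat_lit 190) (nat_lit 178)) (XT.lf (nat_lit 0) (nat_lit 2351697357) (nat_lit 756) (nat_lit 4848207158) (nat_lit 84) (nat_lit 888188651) (nat_lit 153) (nat_lit 5) (nat_lit 162) (nat_lit 5) (nat_lit 154) (nat_lit 5) (nat_lit 233) (nat_lit 190) (nat_lit 177))) (XT.nd (nat_lit 94) (nat_lit 756) (nat_lit 0) (XT.lf (nat_lit 0) (nat_lit 5205213709) (nat_lit 672) (nat_lit 2664976768) (nat_lit 756) (nat_lit 328530944) (nat_lit 145) (nat_lit 5) (nat_lit 153) (nat_lit 5) (nat_lit 154) (nat_lit 5) (nat_lit 234) (nat_lit 190) (nat_lit 176)) (XT.lf (nat_lit 0) (nat_lit 5145477843) (nat_lit 756) (nat_lit 1085980973) (nat_lit 84) (nat_lit 2081976624) (nat_lit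 136) (nat_lit 5) (nat_lit 145) (nat_lit 5) (nat_lit 137) (nat_lit 5) (nat_lit 235) (nat_lit 190) (nat_lit 175))))))))
noncomputable def xc4 : XT := (XT.nd (nat_lit 37130) (nat_lit 0) (nat_lit 0) (XT.nd (nat_lit 36002) (nat_lit 0) (nat_lit 13608) (XT.nd (nat_lit 564) (nat_lit 3528) (nat_lit 0) (XT.nd (nat_lit 282) (nat_lit 2268) (nat_lit 0) (XT.nd (nat_lit 94) (nat_lit 1260) (nat_lit 0) (XT.lf (nat_lit 0) (nat_lit 901241788) (nat_lit 588) (nat_lit 1406482525) (nat_lit 672) (nat_lit 6124722102) (nat_lit 121) (nat_lit 5) (nat_lit 128) (nat_lit 5) (nat_lit 129) (nat_lit 5) (nat_lit 236) (nat_lit 190) (nat_lit 174)) (XT.nd (nat_lit 94) (nat_lit 672) (nat_lit 0) (XT.lf (nat_lit 0) (nat_lit 2962546938) (nat_lit 588) (nat_lit 4944942818) (nat_lit 672) (nat_lit 648066662) (nat_lit 114) (nat_lit 5) (nat_lit 121) (nat_lit 5) (nat_lit 122) (nat_lit 5) (nat_lit 237) (nat_lit 190) (nat_lit 173)) (XT.lf (nat_lit 0)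 (nat_lit 4908920710) (nat_lit 672) (nat_lit 3598198256) (nat_lit 84) (nat_lit 175928520) (nat_lit 106) (nat_lit 5) (nat_lit 114) (nat_lit 5) (nat_lit 107) (nat_lit 5) (nat_lit 238) (nat_lit 190) (nat_lit 172)))) (XT.nd (nat_lit 94) (nat_lit 1680) (nat_lit 0) (XT.lf (nat_lit 0) (nat_lit 1799206019) (nat_lit 588) (nat_lit 1553096730) (nat_lit 84) (nat_lit 5462529538) (nat_lit 99) (nat_lit 5) (nat_lit 106) (nat_lit 5) (nat_lit 100) (nat_lit 5) (nat_lit 239) (nat_lit 190) (nat_lit 171)) (XT.nd (nat_lit 94) (nat_lit 588) (nat_lit 0) (XT.lf (nat_lit 0) (nat_lit 563246714) (nat_lit 504) (nat_lit 6923515106) (nat_lit 588) (nat_lit 1464396384) (nat_lit 86) (nat_lit 5) (nat_lit 92) (nat_lit 5) (nat_lit 93) (nat_lit 5) (nat_lit 240) (nat_lit 190) (nat_lit 170)) (XT.lf (nat_lit 0) (nat_lit 2754432256) (nat_lit 504) (nat_lit 1461843034) (nat_lit 588) (nat_lit 4875379504) (nat_lit 79) (nat_lit 5) (nat_lit 85) (nat_lit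 5) (nat_lit 86) (nat_lit 5) (nat_lit 241) (nat_lit 190) (nat_lit 169))))) (XT.nd (nat_lit 282) (nat_lit 1428) (nat_lit 0) (XT.nd (nat_lit 94) (nat_lit 1512) (nat_lit 0) (XT.lf (nat_lit 0) (nat_lit 819030286) (nat_lit 588) (nat_lit 4229427282) (nat_lit 84) (nat_lit 4188374971) (nat_lit 72) (nat_lit 5) (nat_lit 79) (nat_lit 5) (nat_lit 73) (nat_lit 5) (nat_lit 242) (nat_lit 190) (nat_lit 168)) (XT.nd (nat_lit 94) (nat_lit 1008) (nat_lit 0) (XT.lf (nat_lit 0) (nat_lit 6623274031) (nat_lit 588) (nat_lit 2068160715) (nat_lit 84) (nat_lit 695235407) (nat_lit 66) (nat_lit 5) (nat_lit 73) (nat_lit 5) (nat_lit 67) (nat_lit 5) (nat_lit 243) (nat_lit 190) (nat_lit 167)) (XT.lf (nat_lit 0) (nat_lit 141992973) (nat_lit 504) (nat_lit 2911898784) (nat_lit 588) (nat_lit 6487167971) (nat_lit 54) (nat_lit 5) (nat_lit 60) (nat_lit 5) (nat_lit 61) (nat_lit 5) (nat_lit 244) (nat_lit 190) (nat_lit 166)))) (XT.nd (nat_lit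 94) (nat_lit 1008) (nat_lit 0) (XT.lf (nat_lit 0) (nat_lit 2448076267) (nat_lit 420) (nat_lit 6597533699) (nat_lit 504) (nat_lit 654530319) (nat_lit 49) (nat_lit 5) (nat_lit 54) (nat_lit 5) (nat_lit 55) (nat_lit 5) (nat_lit 245) (nat_lit 190) (nat_lit 165)) (XT.nd (nat_lit 94) (nat_lit 504) (nat_lit 0) (XT.lf (nat_lit 0) (nat_lit 4804139510) (nat_lit 420) (nat_lit 499669928) (nat_lit 504) (nat_lit 4560155976) (nat_lit 43) (nat_lit 5) (nat_lit 48) (nat_lit 5) (nat_lit 49) (nat_lit 5) (nat_lit 246) (nat_lit 190) (nat_lit 164)) (XT.lf (nat_lit 0) (nat_lit 1429690989) (nat_lit 504) (nat_lit 2818127773) (nat_lit 84) (nat_lit 5784875593) (nat_lit 37) (nat_lit 5) (nat_lit 43) (nat_lit 5) (nat_lit 38) (nat_lit 5) (nat_lit 247) (nat_lit 190) (nat_lit 163)))))) (XT.nd (nat_lit 564) (nat_lit 6300) (nat_lit 0) (XT.nd (nat_lit 282) (nat_lit 6552) (nat_lit 0) (XT.nd (nat_lit 94) (nat_lit 3276) (nat_lit 0) (XT.lf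 (nat_lit 0) (nat_lit 1447568610) (nat_lit 1428) (nat_lit 1002572416) (nat_lit 1428) (nat_lit 1002572416) (nat_lit 391) (nat_lit 4) (nat_lit 408) (nat_lit 5) (nat_lit 408) (nat_lit 4) (nat_lit 218) (nat_lit 191) (nat_lit 191)) (XT.nd (nat_lit 94) (nat_lit 1680) (nat_lit 0) (XT.lf (nat_lit 0) (nat_lit 3432980353) (nat_lit 1596) (nat_lit 3079738641) (nat_lit 0) (nat_lit 446188706) (nat_lit 372) (nat_lit 5) (nat_lit 391) (nat_lit 4) (nat_lit 372) (nat_lit 4) (nat_lit 219) (nat_lit 191) (nat_lit 190)) (XT.lf (nat_lit 0) (nat_lit 1874873770) (nat_lit 1680) (nat_lit 2081585913) (nat_lit 84) (nat_lit 3059660205) (nat_lit 352) (nat_lit 5) (nat_lit 372) (nat_lit 5) (nat_lit 353) (nat_lit 4) (nat_lit 220) (nat_lit 191) (nat_lit 189)))) (XT.nd (nat_lit 94) (nat_lit 4788) (nat_lit 0) (XT.lf (nat_lit 0) (nat_lit 208893499) (nat_lit 1764) (nat_lit 1000570271) (nat_lit 84) (nat_lit 5867965728) (nat_lit 331) (nat_lit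 5) (nat_lit 352) (nat_lit 5) (nat_lit 332) (nat_lit 5) (nat_lit 221) (nat_lit 191) (nat_lit 188)) (XT.nd (nat_lit 94) (nat_lit 1176) (nat_lit 0) (XT.lf (nat_lit 0) (nat_lit 142718240) (nat_lit 1848) (nat_lit 5422558635) (nat_lit 1932) (nat_lit 1577070300) (nat_lit 288) (nat_lit 5) (nat_lit 310) (nat_lit 5) (nat_lit 311) (nat_lit 4) (nat_lit 222) (nat_lit 191) (nat_lit 187)) (XT.lf (nat_lit 0) (nat_lit 1374521022) (nat_lit 1092) (nat_lit 2373076288) (nat_lit 1176) (nat_lit 3463436872) (nat_lit 274) (nat_lit 5) (nat_lit 287) (nat_lit 5) (nat_lit 288) (nat_lit 5) (nat_lit 223) (nat_lit 191) (nat_lit 186))))) (XT.nd (nat_lit 282) (nat_lit 3444) (nat_lit 0) (XT.nd (nat_lit 94) (nat_lit 1848) (nat_lit 0) (XT.lf (nat_lit 0) (nat_lit 1823639726) (nat_lit 1008) (nat_lit 4598324054) (nat_lit 84) (nat_lit 861832041) (nat_lit 262) (nat_lit 5) (nat_lit 274) (nat_lit 5) (nat_lit 263) (nat_lit 5) (nat_lit 224) (nat_lit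 191) (nat_lit 185)) (XT.nd (nat_lit 94) (nat_lit 924) (nat_lit 0) (XT.lf (nat_lit 0) (nat_lit 4063195399) (nat_lit 924) (nat_lit 3096512092) (nat_lit 1008) (nat_lit 200692242) (nat_lit 251) (nat_lit 5) (nat_lit 262) (nat_lit 5) (nat_lit 263) (nat_lit 5) (nat_lit 225) (nat_lit 191) (nat_lit 184)) (XT.lf (nat_lit 0) (nat_lit 5072943342) (nat_lit 924) (nat_lit 1930509667) (nat_lit 84) (nat_lit 437486868) (nat_lit 240) (nat_lit 5) (nat_lit 251) (nat_lit 5) (nat_lit 241) (nat_lit 5) (nat_lit 226) (nat_lit 191) (nat_lit 183)))) (XT.nd (nat_lit 94) (nat_lit 2520) (nat_lit 0) (XT.lf (nat_lit 0) (nat_lit 2890870647) (nat_lit 924) (nat_lit 503815496) (nat_lit 84) (nat_lit 4130644242) (nat_lit 229) (nat_lit 5) (nat_lit 240) (nat_lit 5) (nat_lit 230) (nat_lit 5) (nat_lit 227) (nat_lit 191) (nat_lit 182)) (XT.nd (nat_lit 94) (nat_lit 756) (nat_lit 0) (XT.lf (nat_lit 0) (nat_lit 598045439) (nat_lit 924) (nat_lit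 6595654202) (nat_lit 84) (nat_lit 420205427) (nat_lit 208) (nat_lit 5) (nat_lit 219) (nat_lit 5) (nat_lit 209) (nat_lit 5) (nat_lit 228) (nat_lit 191) (nat_lit 181)) (XT.lf (nat_lit 0) (nat_lit 2595043931) (nat_lit 756) (nat_lit 3295095806) (nat_lit 840) (nat_lit 1815886584) (nat_lit 199) (nat_lit 5) (nat_lit 208) (nat_lit 5) (nat_lit 209) (nat_lit 5) (nat_lit 229) (nat_lit 191) (nat_lit 180))))))) (XT.nd (nat_lit 1128) (nat_lit 4032) (nat_lit 0) (XT.nd (nat_lit 564) (nat_lit 4284) (nat_lit 0) (XT.nd (nat_lit 282) (nat_lit 2856) (nat_lit 0) (XT.nd (nat_lit 94) (nat_lit 1596) (nat_lit 0) (XT.lf (nat_lit 0) (nat_lit 3441209815) (nat_lit 840) (nat_lit 3554611591) (nat_lit 84) (nat_lit 806608847) (nat_lit 189) (nat_lit 5) (nat_lit 199) (nat_lit 5) (nat_lit 190) (nat_lit 5) (nat_lit 230) (nat_lit 191) (nat_lit 179)) (XT.nd (nat_lit 94) (nat_lit 756) (nat_lit 0) (XT.lf (nat_lit 0) (nat_lit 889074534) (nat_lit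 840) (nat_lit 1939409691) (nat_lit 84) (nat_lit 5074391511) (nat_lit 179) (nat_lit 5) (nat_lit 189) (nat_lit 5) (nat_lit 180) (nat_lit 5) (nat_lit 231) (nat_lit 191) (nat_lit 178)) (XT.lf (nat_lit 0) (nat_lit 6198665407) (nat_lit 840) (nat_lit 263946418) (nat_lit 84) (nat_lit 1544825525) (nat_lit 170) (nat_lit 5) (nat_lit 180) (nat_lit 5) (nat_lit 171) (nat_lit 5) (nat_lit 232) (nat_lit 191) (nat_lit 177)))) (XT.nd (nat_lit 94) (nat_lit 1428) (nat_lit 0) (XT.lf (nat_lit 0) (nat_lit 1490419662) (nat_lit 672) (nat_lit 2001663471) (nat_lit 756) (nat_lit 4623780510) (nat_lit 153) (nat_lit 5) (nat_lit 161) (nat_lit 5) (nat_lit 162) (nat_lit 5) (nat_lit 233) (nat_lit 191) (nat_lit 176)) (XT.nd (nat_lit 94) (nat_lit 672) (nat_lit 0) (XT.lf (nat_lit 0) (nat_lit 671679961) (nat_lit 756) (nat_lit 4911877117) (nat_lit 84) (nat_lit 2645036390) (nat_lit 144) (nat_lit 5) (nat_lit 153) (nat_lit 5) (nat_lit 145) (nat_lit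 5) (nat_lit 234) (nat_lit 191) (nat_lit 175)) (XT.lf (nat_lit 0) (nat_lit 5200068666) (nat_lit 672) (nat_lit 839874918) (nat_lit 756) (nat_lit 2305534710) (nat_lit 136) (nat_lit 5) (nat_lit 144) (nat_lit 5) (nat_lit 145) (nat_lit 5) (nat_lit 235) (nat_lit 191) (nat_lit 174))))) (XT.nd (nat_lit 282) (nat_lit 1764) (nat_lit 0) (XT.nd (nat_lit 94) (nat_lit 1848) (nat_lit 0) (XT.lf (nat_lit 0) (nat_lit 3059353777) (nat_lit 672) (nat_lit 1328259429) (nat_lit 84) (nat_lit 4078905091) (nat_lit 128) (nat_lit 5) (nat_lit 136) (nat_lit 5) (nat_lit 129) (nat_lit 5) (nat_lit 236) (nat_lit 191) (nat_lit 173)) (XT.nd (nat_lit 94) (nat_lit 672) (nat_lit 0) (XT.lf (nat_lit 0) (nat_lit 572161275) (nat_lit 588) (nat_lit 7969621411) (nat_lit 672) (nat_lit 50427018) (nat_lit 114) (nat_lit 5) (nat_lit 121) (nat_lit 5) (nat_lit 122) (nat_lit 5) (nat_lit 237) (nat_lit 191) (nat_lit 172)) (XT.lf (nat_lit 0) (nat_lit 2524749746)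 (nat_lit 588) (nat_lit 2885478645) (nat_lit 672) (nat_lit 3311308654) (nat_lit 106) (nat_lit 5) (nat_lit 113) (nat_lit 5) (nat_lit 114) (nat_lit 5) (nat_lit 238) (nat_lit 191) (nat_lit 171)))) (XT.nd (nat_lit 94) (nat_lit 1176) (nat_lit 0) (XT.lf (nat_lit 0) (nat_lit 2147997910) (nat_lit 588) (nat_lit 4306177676) (nat_lit 84) (nat_lit 2401435656) (nat_lit 99) (nat_lit 5) (nat_lit 106) (nat_lit 5) (nat_lit 100) (nat_lit 5) (nat_lit 239) (nat_lit 191) (nat_lit 170)) (XT.nd (nat_lit 94) (nat_lit 588) (nat_lit 0) (XT.lf (nat_lit 0) (nat_lit 6634877515) (nat_lit 588) (nat_lit 1095884843) (nat_lit 672) (nat_lit 1263480208) (nat_lit 92) (nat_lit 5) (nat_lit 99) (nat_lit 5) (nat_lit 100) (nat_lit 5) (nat_lit 240) (nat_lit 191) (nat_lit 169)) (XT.lf (nat_lit 0) (nat_lit 4304362701) (nat_lit 588) (nat_lit 372789616) (nat_lit 84) (nat_lit 4459973923) (nat_lit 85) (nat_lit 5) (nat_lit 92) (nat_lit 5) (nat_lit 86)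 (nat_lit 5) (nat_lit 241) (nat_lit 191) (nat_lit 168)))))) (XT.nd (nat_lit 35250) (nat_lit 0) (nat_lit 22848) (XT.nd (nat_lit 282) (nat_lit 1932) (nat_lit 0) (XT.nd (nat_lit 94) (nat_lit 1008) (nat_lit 0) (XT.lf (nat_lit 0) (nat_lit 747142295) (nat_lit 588) (nat_lit 7572472330) (nat_lit 84) (nat_lit 965188264) (nat_lit 72) (nat_lit 5) (nat_lit 79) (nat_lit 5) (nat_lit 73) (nat_lit 5) (nat_lit 242) (nat_lit 191) (nat_lit 167)) (XT.nd (nat_lit 94) (nat_lit 504) (nat_lit 0) (XT.lf (nat_lit 0) (nat_lit 3838450333) (nat_lit 504) (nat_lit 2620171033) (nat_lit 588) (nat_lit 2978059961) (nat_lit 66) (nat_lit 5) (nat_lit 72) (nat_lit 5) (nat_lit 73) (nat_lit 5) (nat_lit 243) (nat_lit 191) (nat_lit 166)) (XT.lf (nat_lit 0) (nat_lit 2734199045) (nat_lit 504) (nat_lit 3565441405) (nat_lit 84) (nat_lit 3293842747) (nat_lit 60) (nat_lit 5) (nat_lit 66) (nat_lit 5) (nat_lit 61) (nat_lit 5) (nat_lit 244) (nat_lit 191)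 (nat_lit 165)))) (XT.nd (nat_lit 94) (nat_lit 1428) (nat_lit 0) (XT.lf (nat_lit 0) (nat_lit 8284893899) (nat_lit 504) (nat_lit 314241205) (nat_lit 588) (nat_lit 1156217857) (nat_lit 54) (nat_lit 5) (nat_lit 60) (nat_lit 5) (nat_lit 61) (nat_lit 5) (nat_lit 245) (nat_lit 191) (nat_lit 164)) (XT.nd (nat_lit 94) (nat_lit 504) (nat_lit 0) (XT.lf (nat_lit 0) (nat_lit 663030273) (nat_lit 420) (nat_lit 4043375776) (nat_lit 504) (nat_lit 5215115380) (nat_lit 43) (nat_lit 5) (nat_lit 48) (nat_lit 5) (nat_lit 49) (nat_lit 5) (nat_lit 246) (nat_lit 191) (nat_lit 163)) (XT.lf (nat_lit 0) (nat_lit 667944230) (nat_lit 504) (nat_lit 7199612988) (nat_lit 84) (nat_lit 2225352651) (nat_lit 37) (nat_lit 5) (nat_lit 43) (nat_lit 5) (nat_lit 38) (nat_lit 5) (nat_lit 247) (nat_lit 191) (nat_lit 162))))) (XT.nd (nat_lit 282) (nat_lit 6804) (nat_lit 0) (XT.nd (nat_lit 94) (nat_lit 2940) (nat_lit 0) (XT.lf (nat_lit 0) (nat_lit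 631492315) (nat_lit 1260) (nat_lit 1386292976) (nat_lit 1260) (nat_lit 1386292976) (nat_lit 425) (nat_lit 4) (nat_lit 440) (nat_lit 5) (nat_lit 440) (nat_lit 4) (nat_lit 216) (nat_lit 192) (nat_lit 192)) (XT.nd (nat_lit 94) (nat_lit 1512) (nat_lit 0) (XT.lf (nat_lit 0) (nat_lit 1994226964) (nat_lit 1344) (nat_lit 588894209) (nat_lit 1428) (nat_lit 4272781253) (nat_lit 408) (nat_lit 5) (nat_lit 424) (nat_lit 5) (nat_lit 425) (nat_lit 4) (nat_lit 217) (nat_lit 192) (nat_lit 191)) (XT.lf (nat_lit 0) (nat_lit 1039964534) (nat_lit 1512) (nat_lit 4109031373) (nat_lit 84) (nat_lit 1758397417) (nat_lit 390) (nat_lit 5) (nat_lit 408) (nat_lit 5) (nat_lit 391) (nat_lit 4) (nat_lit 218) (nat_lit 192) (nat_lit 190)))) (XT.nd (nat_lit 188) (nat_lit 3612) (nat_lit 0) (XT.nd (nat_lit 94) (nat_lit 1680) (nat_lit 0) (XT.lf (nat_lit 0) (nat_lit 3679051083) (nat_lit 1512) (nat_lit 2671179943) (nat_lit 1596) (nat_lit 612506406)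 (nat_lit 372) (nat_lit 5) (nat_lit 390) (nat_lit 5) (nat_lit 391) (nat_lit 4) (nat_lit 219) (nat_lit 192) (nat_lit 189)) (XT.lf (nat_lit 0) (nat_lit 4632829873) (nat_lit 1680) (nat_lit 2384529989) (nat_lit 84) (nat_lit 4630242) (nat_lit 352) (nat_lit 5) (nat_lit 372) (nat_lit 5) (nat_lit 353) (nat_lit 4) (nat_lit 220) (nat_lit 192) (nat_lit 188))) (XT.nd (nat_lit 94) (nat_lit 1848) (nat_lit 0) (XT.lf (nat_lit 0) (nat_lit 2827999439) (nat_lit 1764) (nat_lit 1423437105) (nat_lit 84) (nat_lit 2833485394) (nat_lit 331) (nat_lit 5) (nat_lit 352) (nat_lit 5) (nat_lit 332) (nat_lit 5) (nat_lit 221) (nat_lit 192) (nat_lit 187)) (XT.lf (nat_lit 0) (nat_lit 913699610) (nat_lit 1848) (nat_lit 380292898) (nat_lit 84) (nat_lit 5858015725) (nat_lit 309) (nat_lit 5) (nat_lit 331) (nat_lit 5) (nat_lit 310) (nat_lit 5) (nat_lit 222) (nat_lit 192) (nat_lit 186))))))))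
noncomputable def xc5 : XT := (XT.nd (nat_lit 36942) (nat_lit 0) (nat_lit 4788) (XT.nd (nat_lit 1128) (nat_lit 8064) (nat_lit 0) (XT.nd (nat_lit 564) (nat_lit 6216) (nat_lit 0) (XT.nd (nat_lit 282) (nat_lit 2688) (nat_lit 0) (XT.nd (nat_lit 94) (nat_lit 2016) (nat_lit 0) (XT.lf (nat_lit 0) (nat_lit 735362926) (nat_lit 1092) (nat_lit 5376812552) (nat_lit 1176) (nat_lit 1110549108) (nat_lit 274) (nat_lit 5) (nat_lit 287) (nat_lit 5) (nat_lit 288) (nat_lit 5) (nat_lit 223) (nat_lit 192) (nat_lit 185)) (XT.nd (nat_lit 94) (nat_lit 1008) (nat_lit 0) (XT.lf (nat_lit 0) (nat_lit 1924024762) (nat_lit 924) (nat_lit 2121675233) (nat_lit 1008) (nat_lit 3251550153) (nat_lit 262) (nat_lit 5) (nat_lit 273) (nat_lit 5) (nat_lit 274) (nat_lit 5) (nat_lit 224) (nat_lit 192) (nat_lit 184)) (XT.lf (nat_lit 0) (nat_lit 1873973605) (nat_lit 1008) (nat_lit 4187874391) (nat_lit 84) (nat_lit 1314001836) (nat_lit 250) (nat_lit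 5) (nat_lit 262) (nat_lit 5) (nat_lit 251) (nat_lit 5) (nat_lit 225) (nat_lit 192) (nat_lit 183)))) (XT.nd (nat_lit 94) (nat_lit 1848) (nat_lit 0) (XT.lf (nat_lit 0) (nat_lit 4518613563) (nat_lit 840) (nat_lit 2534439435) (nat_lit 924) (nat_lit 405322169) (nat_lit 240) (nat_lit 5) (nat_lit 250) (nat_lit 5) (nat_lit 251) (nat_lit 5) (nat_lit 226) (nat_lit 192) (nat_lit 182)) (XT.nd (nat_lit 94) (nat_lit 924) (nat_lit 0) (XT.lf (nat_lit 0) (nat_lit 4719317829) (nat_lit 924) (nat_lit 1632318826) (nat_lit 84) (nat_lit 1193152533) (nat_lit 229) (nat_lit 5) (nat_lit 240) (nat_lit 5) (nat_lit 230) (nat_lit 5) (nat_lit 227) (nat_lit 192) (nat_lit 181)) (XT.lf (nat_lit 0) (nat_lit 2283410400) (nat_lit 924) (nat_lit 261210408) (nat_lit 84) (nat_lit 5090606074) (nat_lit 218) (nat_lit 5) (nat_lit 229) (nat_lit 5) (nat_lit 219) (nat_lit 5) (nat_lit 228) (nat_lit 192) (nat_lit 180))))) (XT.nd (nat_lit 282) (nat_lit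 2940) (nat_lit 0) (XT.nd (nat_lit 94) (nat_lit 1680) (nat_lit 0) (XT.lf (nat_lit 0) (nat_lit 1198197287) (nat_lit 756) (nat_lit 6270248251) (nat_lit 840) (nat_lit 261257900) (nat_lit 199) (nat_lit 5) (nat_lit 208) (nat_lit 5) (nat_lit 209) (nat_lit 5) (nat_lit 229) (nat_lit 192) (nat_lit 179)) (XT.nd (nat_lit 94) (nat_lit 840) (nat_lit 0) (XT.lf (nat_lit 0) (nat_lit 2710395392) (nat_lit 756) (nat_lit 2170576271) (nat_lit 840) (nat_lit 2946926535) (nat_lit 189) (nat_lit 5) (nat_lit 198) (nat_lit 5) (nat_lit 199) (nat_lit 5) (nat_lit 230) (nat_lit 192) (nat_lit 178)) (XT.lf (nat_lit 0) (nat_lit 2181152187) (nat_lit 840) (nat_lit 3637100254) (nat_lit 84) (nat_lit 2112110214) (nat_lit 179) (nat_lit 5) (nat_lit 189) (nat_lit 5) (nat_lit 180) (nat_lit 5) (nat_lit 231) (nat_lit 192) (nat_lit 177)))) (XT.nd (nat_lit 94) (nat_lit 2184) (nat_lit 0) (XT.lf (nat_lit 0) (nat_lit 5942495204) (nat_lit 756) (nat_lit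 1451702520) (nat_lit 840) (nat_lit 642850541) (nat_lit 170) (nat_lit 5) (nat_lit 179) (nat_lit 5) (nat_lit 180) (nat_lit 5) (nat_lit 232) (nat_lit 192) (nat_lit 176)) (XT.nd (nat_lit 94) (nat_lit 1428) (nat_lit 0) (XT.lf (nat_lit 0) (nat_lit 4535015623) (nat_lit 756) (nat_lit 506821389) (nat_lit 84) (nat_lit 3105791145) (nat_lit 161) (nat_lit 5) (nat_lit 170) (nat_lit 5) (nat_lit 162) (nat_lit 5) (nat_lit 233) (nat_lit 192) (nat_lit 175)) (XT.lf (nat_lit 0) (nat_lit 1171513144) (nat_lit 672) (nat_lit 387921232) (nat_lit 756) (nat_lit 6703159833) (nat_lit 144) (nat_lit 5) (nat_lit 152) (nat_lit 5) (nat_lit 153) (nat_lit 5) (nat_lit 234) (nat_lit 192) (nat_lit 174)))))) (XT.nd (nat_lit 564) (nat_lit 3696) (nat_lit 0) (XT.nd (nat_lit 282) (nat_lit 2352) (nat_lit 0) (XT.nd (nat_lit 94) (nat_lit 1344) (nat_lit 0) (XT.lf (nat_lit 0) (nat_lit 2901014699) (nat_lit 672) (nat_lit 3938543299) (nat_lit 756) (nat_lit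 1541860118) (nat_lit 136) (nat_lit 5) (nat_lit 144) (nat_lit 5) (nat_lit 145) (nat_lit 5) (nat_lit 235) (nat_lit 192) (nat_lit 173)) (XT.nd (nat_lit 94) (nat_lit 672) (nat_lit 0) (XT.lf (nat_lit 0) (nat_lit 3704381159) (nat_lit 672) (nat_lit 3808306872) (nat_lit 84) (nat_lit 992018666) (nat_lit 128) (nat_lit 5) (nat_lit 136) (nat_lit 5) (nat_lit 129) (nat_lit 5) (nat_lit 236) (nat_lit 192) (nat_lit 172)) (XT.lf (nat_lit 0) (nat_lit 454352462) (nat_lit 672) (nat_lit 2080813187) (nat_lit 84) (nat_lit 6097214257) (nat_lit 120) (nat_lit 5) (nat_lit 128) (nat_lit 5) (nat_lit 121) (nat_lit 5) (nat_lit 237) (nat_lit 192) (nat_lit 171)))) (XT.nd (nat_lit 94) (nat_lit 1764) (nat_lit 0) (XT.lf (nat_lit 0) (nat_lit 5797189795) (nat_lit 672) (nat_lit 307748180) (nat_lit 84) (nat_lit 2659337387) (nat_lit 113) (nat_lit 5) (nat_lit 121) (nat_lit 5) (nat_lit 114) (nat_lit 5) (nat_lit 238) (nat_lit 192) (nat_lit 170))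 (XT.nd (nat_lit 94) (nat_lit 588) (nat_lit 0) (XT.lf (nat_lit 0) (nat_lit 1552298139) (nat_lit 504) (nat_lit 829123886) (nat_lit 588) (nat_lit 6519202094) (nat_lit 99) (nat_lit 5) (nat_lit 105) (nat_lit 5) (nat_lit 106) (nat_lit 5) (nat_lit 239) (nat_lit 192) (nat_lit 169)) (XT.lf (nat_lit 0) (nat_lit 3464277390) (nat_lit 588) (nat_lit 4408043332) (nat_lit 672) (nat_lit 1168955769) (nat_lit 92) (nat_lit 5) (nat_lit 99) (nat_lit 5) (nat_lit 100) (nat_lit 5) (nat_lit 240) (nat_lit 192) (nat_lit 168))))) (XT.nd (nat_lit 282) (nat_lit 1512) (nat_lit 0) (XT.nd (nat_lit 94) (nat_lit 1596) (nat_lit 0) (XT.lf (nat_lit 0) (nat_lit 4287385333) (nat_lit 588) (nat_lit 3752237835) (nat_lit 84) (nat_lit 1146945270) (nat_lit 85) (nat_lit 5) (nat_lit 92) (nat_lit 5) (nat_lit 86) (nat_lit 5) (nat_lit 241) (nat_lit 192) (nat_lit 167)) (XT.nd (nat_lit 94) (nat_lit 1008) (nat_lit 0) (XT.lf (nat_lit 0) (nat_lit 575785654)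 (nat_lit 588) (nat_lit 1872933034) (nat_lit 84) (nat_lit 6887866470) (nat_lit 78) (nat_lit 5) (nat_lit 85) (nat_lit 5) (nat_lit 79) (nat_lit 5) (nat_lit 242) (nat_lit 192) (nat_lit 166)) (XT.lf (nat_lit 0) (nat_lit 47838785) (nat_lit 504) (nat_lit 6120560280) (nat_lit 588) (nat_lit 3322679576) (nat_lit 66) (nat_lit 5) (nat_lit 72) (nat_lit 5) (nat_lit 73) (nat_lit 5) (nat_lit 243) (nat_lit 192) (nat_lit 165)))) (XT.nd (nat_lit 188) (nat_lit 504) (nat_lit 0) (XT.nd (nat_lit 94) (nat_lit 504) (nat_lit 0) (XT.lf (nat_lit 0) (nat_lit 2064412176) (nat_lit 420) (nat_lit 218134551) (nat_lit 504) (nat_lit 7367851709) (nat_lit 60) (nat_lit 5) (nat_lit 65) (nat_lit 5) (nat_lit 66) (nat_lit 5) (nat_lit 244) (nat_lit 192) (nat_lit 164)) (XT.lf (nat_lit 0) (nat_lit 4118575760) (nat_lit 504) (nat_lit 3939101057) (nat_lit 588) (nat_lit 1756567115) (nat_lit 54) (nat_lit 5) (nat_lit 60) (nat_lit 5) (nat_lit 61) (nat_lit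 5) (nat_lit 245) (nat_lit 192) (nat_lit 163))) (XT.nd (nat_lit 34686) (nat_lit 0) (nat_lit 34188) (XT.lf (nat_lit 0) (nat_lit 3994946316) (nat_lit 504) (nat_lit 3751493436) (nat_lit 84) (nat_lit 2236701391) (nat_lit 48) (nat_lit 5) (nat_lit 54) (nat_lit 5) (nat_lit 49) (nat_lit 5) (nat_lit 246) (nat_lit 192) (nat_lit 162)) (XT.lf (nat_lit 0) (nat_lit 69861846) (nat_lit 1092) (nat_lit 1645670326) (nat_lit 1092) (nat_lit 1645670326) (nat_lit 455) (nat_lit 4) (nat_lit 468) (nat_lit 5) (nat_lit 468) (nat_lit 4) (nat_lit 214) (nat_lit 193) (nat_lit 193))))))) (XT.nd (nat_lit 1128) (nat_lit 11256) (nat_lit 0) (XT.nd (nat_lit 564) (nat_lit 9408) (nat_lit 0) (XT.nd (nat_lit 282) (nat_lit 4788) (nat_lit 0) (XT.nd (nat_lit 94) (nat_lit 2688) (nat_lit 0) (XT.lf (nat_lit 0) (nat_lit 616932066) (nat_lit 1176) (nat_lit 1377284766) (nat_lit 1260) (nat_lit 4770175008) (nat_lit 440) (nat_lit 5) (nat_lit 454) (nat_lit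 5) (nat_lit 455) (nat_lit 4) (nat_lit 215) (nat_lit 193) (nat_lit 192)) (XT.nd (nat_lit 94) (nat_lit 1344) (nat_lit 0) (XT.lf (nat_lit 0) (nat_lit 461986100) (nat_lit 1344) (nat_lit 5636561746) (nat_lit 84) (nat_lit 711699289) (nat_lit 424) (nat_lit 5) (nat_lit 440) (nat_lit 5) (nat_lit 425) (nat_lit 4) (nat_lit 216) (nat_lit 193) (nat_lit 191)) (XT.lf (nat_lit 0) (nat_lit 1795848596) (nat_lit 1344) (nat_lit 3884765806) (nat_lit 1428) (nat_lit 1179081313) (nat_lit 408) (nat_lit 5) (nat_lit 424) (nat_lit 5) (nat_lit 425) (nat_lit 4) (nat_lit 217) (nat_lit 193) (nat_lit 190)))) (XT.nd (nat_lit 94) (nat_lit 3276) (nat_lit 0) (XT.lf (nat_lit 0) (nat_lit 2498546279) (nat_lit 1428) (nat_lit 1481861135) (nat_lit 1512) (nat_lit 2932685736) (nat_lit 390) (nat_lit 5) (nat_lit 407) (nat_lit 5) (nat_lit 408) (nat_lit 5) (nat_lit 218) (nat_lit 193) (nat_lit 189)) (XT.nd (nat_lit 94) (nat_lit 1680) (nat_lit 0) (XT.lf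 (nat_lit 0) (nat_lit 2183615315) (nat_lit 1596) (nat_lit 3692471656) (nat_lit 84) (nat_lit 1094300189) (nat_lit 371) (nat_lit 5) (nat_lit 390) (nat_lit 5) (nat_lit 372) (nat_lit 5) (nat_lit 219) (nat_lit 193) (nat_lit 188)) (XT.lf (nat_lit 0) (nat_lit 291386682) (nat_lit 1680) (nat_lit 2900756404) (nat_lit 84) (nat_lit 3839398164) (nat_lit 351) (nat_lit 5) (nat_lit 371) (nat_lit 5) (nat_lit 352) (nat_lit 5) (nat_lit 220) (nat_lit 193) (nat_lit 187))))) (XT.nd (nat_lit 282) (nat_lit 3948) (nat_lit 0) (XT.nd (nat_lit 94) (nat_lit 3780) (nat_lit 0) (XT.lf (nat_lit 0) (nat_lit 5056355434) (nat_lit 1680) (nat_lit 305404537) (nat_lit 1764) (nat_lit 1734810952) (nat_lit 331) (nat_lit 5) (nat_lit 351) (nat_lit 5) (nat_lit 352) (nat_lit 5) (nat_lit 221) (nat_lit 193) (nat_lit 186)) (XT.nd (nat_lit 94) (nat_lit 1932) (nat_lit 0) (XT.lf (nat_lit 0) (nat_lit 3306512047) (nat_lit 1848) (nat_lit 1120084402) (nat_lit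 84) (nat_lit 2738710924) (nat_lit 309) (nat_lit 5) (nat_lit 331) (nat_lit 5) (nat_lit 310) (nat_lit 5) (nat_lit 222) (nat_lit 193) (nat_lit 185)) (XT.lf (nat_lit 0) (nat_lit 1142021171) (nat_lit 1932) (nat_lit 120837728) (nat_lit 84) (nat_lit 5975356617) (nat_lit 286) (nat_lit 5) (nat_lit 309) (nat_lit 5) (nat_lit 287) (nat_lit 5) (nat_lit 223) (nat_lit 193) (nat_lit 184)))) (XT.nd (nat_lit 94) (nat_lit 1932) (nat_lit 0) (XT.lf (nat_lit 0) (nat_lit 951501355) (nat_lit 924) (nat_lit 5231612791) (nat_lit 1008) (nat_lit 1131634430) (nat_lit 262) (nat_lit 5) (nat_lit 273) (nat_lit 5) (nat_lit 274) (nat_lit 5) (nat_lit 224) (nat_lit 193) (nat_lit 183)) (XT.nd (nat_lit 94) (nat_lit 924) (nat_lit 0) (XT.lf (nat_lit 0) (nat_lit 2091004689) (nat_lit 924) (nat_lit 1774213359) (nat_lit 1008) (nat_lit 3529957029) (nat_lit 250) (nat_lit 5) (nat_lit 261) (nat_lit 5) (nat_lit 262) (nat_lit 5) (nat_lit 225) (nat_lit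 193) (nat_lit 182)) (XT.lf (nat_lit 0) (nat_lit 1443409792) (nat_lit 924) (nat_lit 4178374012) (nat_lit 84) (nat_lit 1857884817) (nat_lit 239) (nat_lit 5) (nat_lit 250) (nat_lit 5) (nat_lit 240) (nat_lit 5) (nat_lit 226) (nat_lit 193) (nat_lit 181)))))) (XT.nd (nat_lit 564) (nat_lit 5376) (nat_lit 0) (XT.nd (nat_lit 282) (nat_lit 3192) (nat_lit 0) (XT.nd (nat_lit 94) (nat_lit 1848) (nat_lit 0) (XT.lf (nat_lit 0) (nat_lit 4575336865) (nat_lit 840) (nat_lit 1891506184) (nat_lit 924) (nat_lit 1101274187) (nat_lit 229) (nat_lit 5) (nat_lit 239) (nat_lit 5) (nat_lit 240) (nat_lit 5) (nat_lit 227) (nat_lit 193) (nat_lit 180)) (XT.nd (nat_lit 94) (nat_lit 924) (nat_lit 0) (XT.lf (nat_lit 0) (nat_lit 3883028311) (nat_lit 924) (nat_lit 1751172145) (nat_lit 84) (nat_lit 2026278672) (nat_lit 218) (nat_lit 5) (nat_lit 229) (nat_lit 5) (nat_lit 219) (nat_lit 5) (nat_lit 228) (nat_lit 193) (nat_lit 179)) (XT.lf (nat_lit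 0) (nat_lit 1189251603) (nat_lit 924) (nat_lit 441648352) (nat_lit 84) (nat_lit 6126158700) (nat_lit 207) (nat_lit 5) (nat_lit 218) (nat_lit 5) (nat_lit 208) (nat_lit 5) (nat_lit 229) (nat_lit 193) (nat_lit 178)))) (XT.nd (nat_lit 94) (nat_lit 1680) (nat_lit 0) (XT.lf (nat_lit 0) (nat_lit 934343517) (nat_lit 756) (nat_lit 5292797542) (nat_lit 840) (nat_lit 1630284111) (nat_lit 189) (nat_lit 5) (nat_lit 198) (nat_lit 5) (nat_lit 199) (nat_lit 5) (nat_lit 230) (nat_lit 193) (nat_lit 177)) (XT.nd (nat_lit 94) (nat_lit 840) (nat_lit 0) (XT.lf (nat_lit 0) (nat_lit 2380257920) (nat_lit 756) (nat_lit 997825590) (nat_lit 840) (nat_lit 4583816226) (nat_lit 179) (nat_lit 5) (nat_lit 188) (nat_lit 5) (nat_lit 189) (nat_lit 5) (nat_lit 231) (nat_lit 193) (nat_lit 176)) (XT.lf (nat_lit 0) (nat_lit 422601005) (nat_lit 840) (nat_lit 4183775682) (nat_lit 84) (nat_lit 3464159930) (nat_lit 169) (nat_lit 5) (nat_lit 179)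 (nat_lit 5) (nat_lit 170) (nat_lit 5) (nat_lit 232) (nat_lit 193) (nat_lit 175))))) (XT.nd (nat_lit 282) (nat_lit 2604) (nat_lit 0) (XT.nd (nat_lit 94) (nat_lit 2100) (nat_lit 0) (XT.lf (nat_lit 0) (nat_lit 5453172967) (nat_lit 672) (nat_lit 31095708) (nat_lit 756) (nat_lit 2699099760) (nat_lit 161) (nat_lit 5) (nat_lit 169) (nat_lit 5) (nat_lit 170) (nat_lit 5) (nat_lit 233) (nat_lit 193) (nat_lit 174)) (XT.nd (nat_lit 94) (nat_lit 1344) (nat_lit 0) (XT.lf (nat_lit 0) (nat_lit 2366802002) (nat_lit 756) (nat_lit 1230341126) (nat_lit 84) (nat_lit 4703093929) (nat_lit 152) (nat_lit 5) (nat_lit 161) (nat_lit 5) (nat_lit 153) (nat_lit 5) (nat_lit 234) (nat_lit 193) (nat_lit 173)) (XT.lf (nat_lit 0) (nat_lit 342949636) (nat_lit 672) (nat_lit 7187270714) (nat_lit 756) (nat_lit 891408129) (nat_lit 136) (nat_lit 5) (nat_lit 144) (nat_lit 5) (nat_lit 145) (nat_lit 5) (nat_lit 235) (nat_lit 193) (nat_lit 172))))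 (XT.nd (nat_lit 188) (nat_lit 1260) (nat_lit 0) (XT.nd (nat_lit 94) (nat_lit 672) (nat_lit 0) (XT.lf (nat_lit 0) (nat_lit 1975800825) (nat_lit 588) (nat_lit 2277573003) (nat_lit 672) (nat_lit 4293467296) (nat_lit 128) (nat_lit 5) (nat_lit 135) (nat_lit 5) (nat_lit 136) (nat_lit 5) (nat_lit 236) (nat_lit 193) (nat_lit 171)) (XT.lf (nat_lit 0) (nat_lit 852469997) (nat_lit 672) (nat_lit 5001233188) (nat_lit 84) (nat_lit 2822963404) (nat_lit 120) (nat_lit 5) (nat_lit 128) (nat_lit 5) (nat_lit 121) (nat_lit 5) (nat_lit 237) (nat_lit 193) (nat_lit 170))) (XT.nd (nat_lit 94) (nat_lit 672) (nat_lit 0) (XT.lf (nat_lit 0) (nat_lit 5427297547) (nat_lit 588) (nat_lit 664169525) (nat_lit 672) (nat_lit 2719379460) (nat_lit 113) (nat_lit 5) (nat_lit 120) (nat_lit 5) (nat_lit 121) (nat_lit 5) (nat_lit 238) (nat_lit 193) (nat_lit 169)) (XT.lf (nat_lit 0) (nat_lit 2524801501) (nat_lit 672) (nat_lit 1720954938) (nat_lit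 84) (nat_lit 4703616725) (nat_lit 105) (nat_lit 5) (nat_lit 113) (nat_lit 5) (nat_lit 106) (nat_lit 5) (nat_lit 239) (nat_lit 193) (nat_lit 168))))))))
noncomputable def xc6 : XT := (XT.nd (nat_lit 36660) (nat_lit 0) (nat_lit 420) (XT.nd (nat_lit 35532) (nat_lit 0) (nat_lit 14280) (XT.nd (nat_lit 564) (nat_lit 1008) (nat_lit 0) (XT.nd (nat_lit 282) (nat_lit 1512) (nat_lit 0) (XT.nd (nat_lit 94) (nat_lit 1176) (nat_lit 0) (XT.lf (nat_lit 0) (nat_lit 5774836) (nat_lit 588) (nat_lit 7887192025) (nat_lit 672) (nat_lit 1199758810) (nat_lit 92) (nat_lit 5) (nat_lit 99) (nat_lit 5) (nat_lit 100) (nat_lit 5) (nat_lit 240) (nat_lit 193) (nat_lit 167)) (XT.nd (nat_lit 94) (nat_lit 588) (nat_lit 0) (XT.lf (nat_lit 0) (nat_lit 1795655781) (nat_lit 504) (nat_lit 2366906877) (nat_lit 588) (nat_lit 5077537981) (nat_lit 85) (nat_lit 5) (nat_lit 91) (nat_lit 5) (nat_lit 92) (nat_lit 5) (nat_lit 241) (nat_lit 193) (nat_lit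 166)) (XT.lf (nat_lit 0) (nat_lit 296291786) (nat_lit 588) (nat_lit 5741330035) (nat_lit 84) (nat_lit 3354805061) (nat_lit 78) (nat_lit 5) (nat_lit 85) (nat_lit 5) (nat_lit 79) (nat_lit 5) (nat_lit 242) (nat_lit 193) (nat_lit 165)))) (XT.nd (nat_lit 94) (nat_lit 1008) (nat_lit 0) (XT.lf (nat_lit 0) (nat_lit 5553464473) (nat_lit 504) (nat_lit 224239943) (nat_lit 588) (nat_lit 3771662366) (nat_lit 72) (nat_lit 5) (nat_lit 78) (nat_lit 5) (nat_lit 79) (nat_lit 5) (nat_lit 243) (nat_lit 193) (nat_lit 164)) (XT.nd (nat_lit 94) (nat_lit 420) (nat_lit 0) (XT.lf (nat_lit 0) (nat_lit 1736876363) (nat_lit 588) (nat_lit 2206366530) (nat_lit 84) (nat_lit 5767783440) (nat_lit 65) (nat_lit 5) (nat_lit 72) (nat_lit 5) (nat_lit 66) (nat_lit 5) (nat_lit 244) (nat_lit 193) (nat_lit 163)) (XT.lf (nat_lit 0) (nat_lit 7383478109) (nat_lit 504) (nat_lit 362460504) (nat_lit 84) (nat_lit 2131760839) (nat_lit 60) (nat_lit 5)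 (nat_lit 66) (nat_lit 5) (nat_lit 61) (nat_lit 5) (nat_lit 245) (nat_lit 193) (nat_lit 162))))) (XT.nd (nat_lit 34686) (nat_lit 0) (nat_lit 31584) (XT.nd (nat_lit 34498) (nat_lit 0) (nat_lit 36288) (XT.lf (nat_lit 0) (nat_lit 1552444757) (nat_lit 420) (nat_lit 1607547690) (nat_lit 504) (nat_lit 6889094147) (nat_lit 48) (nat_lit 5) (nat_lit 53) (nat_lit 5) (nat_lit 54) (nat_lit 5) (nat_lit 246) (nat_lit 193) (nat_lit 161)) (XT.nd (nat_lit 94) (nat_lit 1008) (nat_lit 0) (XT.lf (nat_lit 0) (nat_lit 1544304133) (nat_lit 924) (nat_lit 235405106) (nat_lit 0) (nat_lit 1544304133) (nat_lit 492) (nat_lit 5) (nat_lit 503) (nat_lit 4) (nat_lit 492) (nat_lit 4) (nat_lit 212) (nat_lit 194) (nat_lit 194)) (XT.lf (nat_lit 0) (nat_lit 1663295702) (nat_lit 1008) (nat_lit 249496636) (nat_lit 84) (nat_lit 4771529595) (nat_lit 480) (nat_lit 5) (nat_lit 492) (nat_lit 5) (nat_lit 481) (nat_lit 4) (nat_lit 213) (nat_lit 194)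 (nat_lit 193)))) (XT.nd (nat_lit 94) (nat_lit 2520) (nat_lit 0) (XT.lf (nat_lit 0) (nat_lit 55508643) (nat_lit 1092) (nat_lit 84474199) (nat_lit 1176) (nat_lit 6584585761) (nat_lit 454) (nat_lit 5) (nat_lit 467) (nat_lit 5) (nat_lit 468) (nat_lit 5) (nat_lit 214) (nat_lit 194) (nat_lit 192)) (XT.nd (nat_lit 94) (nat_lit 1344) (nat_lit 0) (XT.lf (nat_lit 0) (nat_lit 423727473) (nat_lit 1176) (nat_lit 4855151327) (nat_lit 1260) (nat_lit 1489344484) (nat_lit 440) (nat_lit 5) (nat_lit 454) (nat_lit 5) (nat_lit 455) (nat_lit 4) (nat_lit 215) (nat_lit 194) (nat_lit 191)) (XT.lf (nat_lit 0) (nat_lit 873139155) (nat_lit 1260) (nat_lit 2719857512) (nat_lit 1344) (nat_lit 3222824209) (nat_lit 424) (nat_lit 5) (nat_lit 439) (nat_lit 5) (nat_lit 440) (nat_lit 5) (nat_lit 216) (nat_lit 194) (nat_lit 190)))))) (XT.nd (nat_lit 564) (nat_lit 7644) (nat_lit 0) (XT.nd (nat_lit 282) (nat_lit 5208) (nat_lit 0) (XT.nd (nat_lit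 94) (nat_lit 3024) (nat_lit 0) (XT.lf (nat_lit 0) (nat_lit 1405964923) (nat_lit 1344) (nat_lit 399841077) (nat_lit 1428) (nat_lit 5061633789) (nat_lit 407) (nat_lit 5) (nat_lit 423) (nat_lit 5) (nat_lit 424) (nat_lit 5) (nat_lit 217) (nat_lit 194) (nat_lit 189)) (XT.nd (nat_lit 94) (nat_lit 1596) (nat_lit 0) (XT.lf (nat_lit 0) (nat_lit 2007042611) (nat_lit 1428) (nat_lit 4844329770) (nat_lit 1512) (nat_lit 71412745) (nat_lit 390) (nat_lit 5) (nat_lit 407) (nat_lit 5) (nat_lit 408) (nat_lit 5) (nat_lit 218) (nat_lit 194) (nat_lit 188)) (XT.lf (nat_lit 0) (nat_lit 2674673735) (nat_lit 1512) (nat_lit 2228003877) (nat_lit 1596) (nat_lit 2079175113) (nat_lit 371) (nat_lit 5) (nat_lit 389) (nat_lit 5) (nat_lit 390) (nat_lit 5) (nat_lit 219) (nat_lit 194) (nat_lit 187)))) (XT.nd (nat_lit 94) (nat_lit 3528) (nat_lit 0) (XT.lf (nat_lit 0) (nat_lit 2852169294) (nat_lit 1680) (nat_lit 3623156640) (nat_lit 84)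 (nat_lit 569628524) (nat_lit 351) (nat_lit 5) (nat_lit 371) (nat_lit 5) (nat_lit 352) (nat_lit 5) (nat_lit 220) (nat_lit 194) (nat_lit 186)) (XT.nd (nat_lit 94) (nat_lit 1764) (nat_lit 0) (XT.lf (nat_lit 0) (nat_lit 709879038) (nat_lit 1764) (nat_lit 2875816081) (nat_lit 84) (nat_lit 3526163147) (nat_lit 330) (nat_lit 5) (nat_lit 351) (nat_lit 5) (nat_lit 331) (nat_lit 5) (nat_lit 221) (nat_lit 194) (nat_lit 185)) (XT.lf (nat_lit 0) (nat_lit 5123378880) (nat_lit 1764) (nat_lit 493513866) (nat_lit 1848) (nat_lit 1565835201) (nat_lit 309) (nat_lit 5) (nat_lit 330) (nat_lit 5) (nat_lit 331) (nat_lit 5) (nat_lit 222) (nat_lit 194) (nat_lit 184))))) (XT.nd (nat_lit 282) (nat_lit 2688) (nat_lit 0) (XT.nd (nat_lit 94) (nat_lit 3024) (nat_lit 0) (XT.lf (nat_lit 0) (nat_lit 3309859217) (nat_lit 1932) (nat_lit 1187285410) (nat_lit 84) (nat_lit 2760158246) (nat_lit 286) (nat_lit 5) (nat_lit 309) (nat_lit 5) (nat_lit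 287) (nat_lit 5) (nat_lit 223) (nat_lit 194) (nat_lit 183)) (XT.nd (nat_lit 94) (nat_lit 1848) (nat_lit 0) (XT.lf (nat_lit 0) (nat_lit 892621692) (nat_lit 1176) (nat_lit 238169007) (nat_lit 84) (nat_lit 6205302427) (nat_lit 272) (nat_lit 5) (nat_lit 286) (nat_lit 5) (nat_lit 273) (nat_lit 5) (nat_lit 224) (nat_lit 194) (nat_lit 182)) (XT.lf (nat_lit 0) (nat_lit 774801304) (nat_lit 924) (nat_lit 5001182400) (nat_lit 1008) (nat_lit 1642496793) (nat_lit 250) (nat_lit 5) (nat_lit 261) (nat_lit 5) (nat_lit 262) (nat_lit 5) (nat_lit 225) (nat_lit 194) (nat_lit 181)))) (XT.nd (nat_lit 94) (nat_lit 1764) (nat_lit 0) (XT.lf (nat_lit 0) (nat_lit 1858882970) (nat_lit 840) (nat_lit 1344482667) (nat_lit 924) (nat_lit 4301519634) (nat_lit 239) (nat_lit 5) (nat_lit 249) (nat_lit 5) (nat_lit 250) (nat_lit 5) (nat_lit 226) (nat_lit 194) (nat_lit 180)) (XT.nd (nat_lit 94) (nat_lit 840) (nat_lit 0) (XT.lf (nat_lit 0)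 (nat_lit 528389962) (nat_lit 924) (nat_lit 4586655790) (nat_lit 84) (nat_lit 2480299790) (nat_lit 228) (nat_lit 5) (nat_lit 239) (nat_lit 5) (nat_lit 229) (nat_lit 5) (nat_lit 227) (nat_lit 194) (nat_lit 179)) (XT.lf (nat_lit 0) (nat_lit 4216319267) (nat_lit 840) (nat_lit 1180570336) (nat_lit 924) (nat_lit 2292843949) (nat_lit 218) (nat_lit 5) (nat_lit 228) (nat_lit 5) (nat_lit 229) (nat_lit 5) (nat_lit 228) (nat_lit 194) (nat_lit 178))))))) (XT.nd (nat_lit 1128) (nat_lit 3864) (nat_lit 0) (XT.nd (nat_lit 564) (nat_lit 4452) (nat_lit 0) (XT.nd (nat_lit 282) (nat_lit 2268) (nat_lit 0) (XT.nd (nat_lit 94) (nat_lit 2352) (nat_lit 0) (XT.lf (nat_lit 0) (nat_lit 2559125594) (nat_lit 924) (nat_lit 2304442492) (nat_lit 84) (nat_lit 2924566036) (nat_lit 207) (nat_lit 5) (nat_lit 218) (nat_lit 5) (nat_lit 208) (nat_lit 5) (nat_lit 229) (nat_lit 194) (nat_lit 177)) (XT.nd (nat_lit 94) (nat_lit 1596) (nat_lit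 0) (XT.lf (nat_lit 0) (nat_lit 6825205095) (nat_lit 756) (nat_lit 662664918) (nat_lit 840) (nat_lit 403031814) (nat_lit 198) (nat_lit 5) (nat_lit 207) (nat_lit 5) (nat_lit 208) (nat_lit 5) (nat_lit 230) (nat_lit 194) (nat_lit 176)) (XT.lf (nat_lit 0) (nat_lit 212848847) (nat_lit 756) (nat_lit 4277574834) (nat_lit 840) (nat_lit 3506899575) (nat_lit 179) (nat_lit 5) (nat_lit 188) (nat_lit 5) (nat_lit 189) (nat_lit 5) (nat_lit 231) (nat_lit 194) (nat_lit 175)))) (XT.nd (nat_lit 94) (nat_lit 1428) (nat_lit 0) (XT.lf (nat_lit 0) (nat_lit 1375861322) (nat_lit 840) (nat_lit 6523699422) (nat_lit 84) (nat_lit 208609825) (nat_lit 169) (nat_lit 5) (nat_lit 179) (nat_lit 5) (nat_lit 170) (nat_lit 5) (nat_lit 232) (nat_lit 194) (nat_lit 174)) (XT.nd (nat_lit 94) (nat_lit 756) (nat_lit 0) (XT.lf (nat_lit 0) (nat_lit 2995794174) (nat_lit 672) (nat_lit 3357808712) (nat_lit 756) (nat_lit 1869245874) (nat_lit 161) (nat_lit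 5) (nat_lit 169) (nat_lit 5) (nat_lit 170) (nat_lit 5) (nat_lit 233) (nat_lit 194) (nat_lit 173)) (XT.lf (nat_lit 0) (nat_lit 3076901709) (nat_lit 756) (nat_lit 3869564257) (nat_lit 84) (nat_lit 1395493005) (nat_lit 152) (nat_lit 5) (nat_lit 161) (nat_lit 5) (nat_lit 153) (nat_lit 5) (nat_lit 234) (nat_lit 194) (nat_lit 172))))) (XT.nd (nat_lit 282) (nat_lit 1764) (nat_lit 0) (XT.nd (nat_lit 94) (nat_lit 2016) (nat_lit 0) (XT.lf (nat_lit 0) (nat_lit 6008737146) (nat_lit 672) (nat_lit 2136877784) (nat_lit 756) (nat_lit 319818977) (nat_lit 144) (nat_lit 5) (nat_lit 152) (nat_lit 5) (nat_lit 153) (nat_lit 5) (nat_lit 235) (nat_lit 194) (nat_lit 171)) (XT.nd (nat_lit 94) (nat_lit 1260) (nat_lit 0) (XT.lf (nat_lit 0) (nat_lit 4706275265) (nat_lit 756) (nat_lit 1003949443) (nat_lit 84) (nat_lit 2882762279) (nat_lit 135) (nat_lit 5) (nat_lit 144) (nat_lit 5) (nat_lit 136) (nat_lit 5) (nat_lit 236) (nat_lit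 194) (nat_lit 170)) (XT.lf (nat_lit 0) (nat_lit 524930616) (nat_lit 588) (nat_lit 615972148) (nat_lit 672) (nat_lit 7584320159) (nat_lit 120) (nat_lit 5) (nat_lit 127) (nat_lit 5) (nat_lit 128) (nat_lit 5) (nat_lit 237) (nat_lit 194) (nat_lit 169)))) (XT.nd (nat_lit 94) (nat_lit 1176) (nat_lit 0) (XT.lf (nat_lit 0) (nat_lit 2103066518) (nat_lit 588) (nat_lit 4187990958) (nat_lit 672) (nat_lit 2570299921) (nat_lit 113) (nat_lit 5) (nat_lit 120) (nat_lit 5) (nat_lit 121) (nat_lit 5) (nat_lit 238) (nat_lit 194) (nat_lit 168)) (XT.nd (nat_lit 94) (nat_lit 504) (nat_lit 0) (XT.lf (nat_lit 0) (nat_lit 2561602270) (nat_lit 672) (nat_lit 5255143243) (nat_lit 84) (nat_lit 1185538049) (nat_lit 105) (nat_lit 5) (nat_lit 113) (nat_lit 5) (nat_lit 106) (nat_lit 5) (nat_lit 239) (nat_lit 194) (nat_lit 167)) (XT.lf (nat_lit 0) (nat_lit 5439829128) (nat_lit 504) (nat_lit 2396642484) (nat_lit 588) (nat_lit 1311216968)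 (nat_lit 99) (nat_lit 5) (nat_lit 105) (nat_lit 5) (nat_lit 106) (nat_lit 5) (nat_lit 240) (nat_lit 194) (nat_lit 166)))))) (XT.nd (nat_lit 34780) (nat_lit 0) (nat_lit 31164) (XT.nd (nat_lit 282) (nat_lit 1596) (nat_lit 0) (XT.nd (nat_lit 94) (nat_lit 1596) (nat_lit 0) (XT.lf (nat_lit 0) (nat_lit 3937695206) (nat_lit 672) (nat_lit 2117531916) (nat_lit 84) (nat_lit 3242384214) (nat_lit 91) (nat_lit 5) (nat_lit 99) (nat_lit 5) (nat_lit 92) (nat_lit 5) (nat_lit 241) (nat_lit 194) (nat_lit 165)) (XT.nd (nat_lit 94) (nat_lit 1092) (nat_lit 0) (XT.lf (nat_lit 0) (nat_lit 8993754164) (nat_lit 504) (nat_lit 352339155) (nat_lit 588) (nat_lit 106578340) (nat_lit 85) (nat_lit 5) (nat_lit 91) (nat_lit 5) (nat_lit 92) (nat_lit 5) (nat_lit 242) (nat_lit 194) (nat_lit 164)) (XT.lf (nat_lit 0) (nat_lit 1236854577) (nat_lit 504) (nat_lit 4046934375) (nat_lit 588) (nat_lit 4327876077) (nat_lit 72) (nat_lit 5) (nat_lit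 78) (nat_lit 5) (nat_lit 79) (nat_lit 5) (nat_lit 243) (nat_lit 194) (nat_lit 163)))) (XT.nd (nat_lit 94) (nat_lit 1008) (nat_lit 0) (XT.lf (nat_lit 0) (nat_lit 1073757234) (nat_lit 588) (nat_lit 6762955589) (nat_lit 84) (nat_lit 1939227089) (nat_lit 65) (nat_lit 5) (nat_lit 72) (nat_lit 5) (nat_lit 66) (nat_lit 5) (nat_lit 244) (nat_lit 194) (nat_lit 162)) (XT.nd (nat_lit 94) (nat_lit 588) (nat_lit 0) (XT.lf (nat_lit 0) (nat_lit 4827307862) (nat_lit 420) (nat_lit 1790217524) (nat_lit 504) (nat_lit 3327349985) (nat_lit 60) (nat_lit 5) (nat_lit 65) (nat_lit 5) (nat_lit 66) (nat_lit 5) (nat_lit 245) (nat_lit 194) (nat_lit 161)) (XT.lf (nat_lit 0) (nat_lit 2226647238) (nat_lit 588) (nat_lit 3424200614) (nat_lit 84) (nat_lit 4468013981) (nat_lit 53) (nat_lit 5) (nat_lit 60) (nat_lit 5) (nat_lit 54) (nat_lit 5) (nat_lit 246) (nat_lit 194) (nat_lit 160))))) (XT.nd (nat_lit 282) (nat_lit 5628) (nat_lit 0)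 (XT.nd (nat_lit 94) (nat_lit 1764) (nat_lit 0) (XT.lf (nat_lit 0) (nat_lit 1500669738) (nat_lit 756) (nat_lit 291216704) (nat_lit 0) (nat_lit 1500669738) (nat_lit 512) (nat_lit 5) (nat_lit 521) (nat_lit 4) (nat_lit 512) (nat_lit 4) (nat_lit 210) (nat_lit 195) (nat_lit 195)) (XT.nd (nat_lit 94) (nat_lit 924) (nat_lit 0) (XT.lf (nat_lit 0) (nat_lit 1588490072) (nat_lit 840) (nat_lit 609458176) (nat_lit 84) (nat_lit 4417710503) (nat_lit 502) (nat_lit 5) (nat_lit 512) (nat_lit 5) (nat_lit 503) (nat_lit 4) (nat_lit 211) (nat_lit 195) (nat_lit 194)) (XT.lf (nat_lit 0) (nat_lit 79824044) (nat_lit 924) (nat_lit 553903538) (nat_lit 84) (nat_lit 6016411459) (nat_lit 491) (nat_lit 5) (nat_lit 502) (nat_lit 5) (nat_lit 492) (nat_lit 5) (nat_lit 212) (nat_lit 195) (nat_lit 193)))) (XT.nd (nat_lit 188) (nat_lit 3612) (nat_lit 0) (XT.nd (nat_lit 94) (nat_lit 1092) (nat_lit 0) (XT.lf (nat_lit 0) (nat_lit 5147202782)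 (nat_lit 1008) (nat_lit 434673492) (nat_lit 84) (nat_lit 1106289659) (nat_lit 480) (nat_lit 5) (nat_lit 492) (nat_lit 5) (nat_lit 481) (nat_lit 4) (nat_lit 213) (nat_lit 195) (nat_lit 192)) (XT.lf (nat_lit 0) (nat_lit 3471331218) (nat_lit 1092) (nat_lit 239615299) (nat_lit 84) (nat_lit 3019089719) (nat_lit 467) (nat_lit 5) (nat_lit 480) (nat_lit 5) (nat_lit 468) (nat_lit 5) (nat_lit 214) (nat_lit 195) (nat_lit 191))) (XT.nd (nat_lit 94) (nat_lit 1260) (nat_lit 0) (XT.lf (nat_lit 0) (nat_lit 37245510) (nat_lit 1176) (nat_lit 1659613770) (nat_lit 1260) (nat_lit 5079034781) (nat_lit 439) (nat_lit 5) (nat_lit 453) (nat_lit 5) (nat_lit 454) (nat_lit 5) (nat_lit 215) (nat_lit 195) (nat_lit 190)) (XT.lf (nat_lit 0) (nat_lit 395059916) (nat_lit 1260) (nat_lit 6255439162) (nat_lit 1344) (nat_lit 175118679) (nat_lit 424) (nat_lit 5) (nat_lit 439) (nat_lit 5) (nat_lit 440) (nat_lit 5) (nat_lit 216) (nat_lit 195)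 (nat_lit 189))))))))
noncomputable def xc7 : XT := (XT.nd (nat_lit 2350) (nat_lit 3192) (nat_lit 0) (XT.nd (nat_lit 1128) (nat_lit 10668) (nat_lit 0) (XT.nd (nat_lit 564) (nat_lit 7560) (nat_lit 0) (XT.nd (nat_lit 282) (nat_lit 5208) (nat_lit 0) (XT.nd (nat_lit 94) (nat_lit 3108) (nat_lit 0) (XT.lf (nat_lit 0) (nat_lit 809763107) (nat_lit 1344) (nat_lit 3905496312) (nat_lit 1428) (nat_lit 2163575462) (nat_lit 407) (nat_lit 5) (nat_lit 423) (nat_lit 5) (nat_lit 424) (nat_lit 5) (nat_lit 217) (nat_lit 195) (nat_lit 188)) (XT.nd (nat_lit 94) (nat_lit 1596) (nat_lit 0) (XT.lf (nat_lit 0) (nat_lit 1306571264) (nat_lit 1428) (nat_lit 1370996901) (nat_lit 1512) (nat_lit 4258553109) (nat_lit 389) (nat_lit 5) (nat_lit 406) (nat_lit 5) (nat_lit 407) (nat_lit 5) (nat_lit 218) (nat_lit 195) (nat_lit 187)) (XT.lf (nat_lit 0) (nat_lit 544117027) (nat_lit 1596) (nat_lit 5120856386) (nat_lit 84) (nat_lit 1332343233)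 (nat_lit 370) (nat_lit 5) (nat_lit 389) (nat_lit 5) (nat_lit 371) (nat_lit 5) (nat_lit 219) (nat_lit 195) (nat_lit 186)))) (XT.nd (nat_lit 94) (nat_lit 3612) (nat_lit 0) (XT.lf (nat_lit 0) (nat_lit 2506379652) (nat_lit 1596) (nat_lit 2844478526) (nat_lit 1680) (nat_lit 1711316816) (nat_lit 351) (nat_lit 5) (nat_lit 370) (nat_lit 5) (nat_lit 371) (nat_lit 5) (nat_lit 220) (nat_lit 195) (nat_lit 185)) (XT.nd (nat_lit 94) (nat_lit 1848) (nat_lit 0) (XT.lf (nat_lit 0) (nat_lit 3045736584) (nat_lit 1764) (nat_lit 3917364218) (nat_lit 84) (nat_lit 168006261) (nat_lit 330) (nat_lit 5) (nat_lit 351) (nat_lit 5) (nat_lit 331) (nat_lit 5) (nat_lit 221) (nat_lit 195) (nat_lit 184)) (XT.lf (nat_lit 0) (nat_lit 651210846) (nat_lit 1848) (nat_lit 3220971426) (nat_lit 84) (nat_lit 3331629299) (nat_lit 308) (nat_lit 5) (nat_lit 330) (nat_lit 5) (nat_lit 309) (nat_lit 5) (nat_lit 222) (nat_lit 195) (nat_lit 183)))))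 (XT.nd (nat_lit 282) (nat_lit 3528) (nat_lit 0) (XT.nd (nat_lit 94) (nat_lit 2184) (nat_lit 0) (XT.lf (nat_lit 0) (nat_lit 4821922966) (nat_lit 1848) (nat_lit 575023023) (nat_lit 1932) (nat_lit 1883558061) (nat_lit 286) (nat_lit 5) (nat_lit 308) (nat_lit 5) (nat_lit 309) (nat_lit 5) (nat_lit 223) (nat_lit 195) (nat_lit 182)) (XT.nd (nat_lit 94) (nat_lit 1008) (nat_lit 0) (XT.lf (nat_lit 0) (nat_lit 2836001480) (nat_lit 1176) (nat_lit 1641842378) (nat_lit 84) (nat_lit 2883124156) (nat_lit 272) (nat_lit 5) (nat_lit 286) (nat_lit 5) (nat_lit 273) (nat_lit 5) (nat_lit 224) (nat_lit 195) (nat_lit 181)) (XT.lf (nat_lit 0) (nat_lit 162780891) (nat_lit 1008) (nat_lit 749330899) (nat_lit 84) (nat_lit 6533603882) (nat_lit 260) (nat_lit 5) (nat_lit 272) (nat_lit 5) (nat_lit 261) (nat_lit 5) (nat_lit 225) (nat_lit 195) (nat_lit 180)))) (XT.nd (nat_lit 94) (nat_lit 1764) (nat_lit 0) (XT.lf (nat_lit 0) (nat_lit 187785562)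 (nat_lit 840) (nat_lit 4699413266) (nat_lit 924) (nat_lit 2646815540) (nat_lit 239) (nat_lit 5) (nat_lit 249) (nat_lit 5) (nat_lit 250) (nat_lit 5) (nat_lit 226) (nat_lit 195) (nat_lit 179)) (XT.nd (nat_lit 94) (nat_lit 840) (nat_lit 0) (XT.lf (nat_lit 0) (nat_lit 1209901411) (nat_lit 840) (nat_lit 845979981) (nat_lit 924) (nat_lit 5570608289) (nat_lit 228) (nat_lit 5) (nat_lit 238) (nat_lit 5) (nat_lit 239) (nat_lit 5) (nat_lit 227) (nat_lit 195) (nat_lit 178)) (XT.lf (nat_lit 0) (nat_lit 2285732439) (nat_lit 840) (nat_lit 4548213207) (nat_lit 924) (nat_lit 888921624) (nat_lit 218) (nat_lit 5) (nat_lit 228) (nat_lit 5) (nat_lit 229) (nat_lit 5) (nat_lit 228) (nat_lit 195) (nat_lit 177)))))) (XT.nd (nat_lit 564) (nat_lit 5124) (nat_lit 0) (XT.nd (nat_lit 282) (nat_lit 3024) (nat_lit 0) (XT.nd (nat_lit 94) (nat_lit 1596) (nat_lit 0) (XT.lf (nat_lit 0) (nat_lit 3423251091) (nat_lit 840) (nat_lit 414288549)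 (nat_lit 924) (nat_lit 3985824510) (nat_lit 207) (nat_lit 5) (nat_lit 217) (nat_lit 5) (nat_lit 218) (nat_lit 5) (nat_lit 229) (nat_lit 195) (nat_lit 176)) (XT.nd (nat_lit 94) (nat_lit 756) (nat_lit 0) (XT.lf (nat_lit 0) (nat_lit 741193977) (nat_lit 840) (nat_lit 3310835256) (nat_lit 84) (nat_lit 3875881823) (nat_lit 197) (nat_lit 5) (nat_lit 207) (nat_lit 5) (nat_lit 198) (nat_lit 5) (nat_lit 230) (nat_lit 195) (nat_lit 175)) (XT.lf (nat_lit 0) (nat_lit 5519866439) (nat_lit 840) (nat_lit 2164300983) (nat_lit 84) (nat_lit 352499421) (nat_lit 188) (nat_lit 5) (nat_lit 198) (nat_lit 5) (nat_lit 189) (nat_lit 5) (nat_lit 231) (nat_lit 195) (nat_lit 174)))) (XT.nd (nat_lit 94) (nat_lit 2184) (nat_lit 0) (XT.lf (nat_lit 0) (nat_lit 2257394414) (nat_lit 840) (nat_lit 971778390) (nat_lit 84) (nat_lit 4920260914) (nat_lit 178) (nat_lit 5) (nat_lit 188) (nat_lit 5) (nat_lit 179) (nat_lit 5) (nat_lit 232) (nat_lit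 195) (nat_lit 173)) (XT.nd (nat_lit 94) (nat_lit 756) (nat_lit 0) (XT.lf (nat_lit 0) (nat_lit 288702310) (nat_lit 672) (nat_lit 6832898284) (nat_lit 756) (nat_lit 1145009095) (nat_lit 161) (nat_lit 5) (nat_lit 169) (nat_lit 5) (nat_lit 170) (nat_lit 5) (nat_lit 233) (nat_lit 195) (nat_lit 172)) (XT.lf (nat_lit 0) (nat_lit 1606620714) (nat_lit 672) (nat_lit 2090499395) (nat_lit 756) (nat_lit 4690545209) (nat_lit 152) (nat_lit 5) (nat_lit 160) (nat_lit 5) (nat_lit 161) (nat_lit 5) (nat_lit 234) (nat_lit 195) (nat_lit 171))))) (XT.nd (nat_lit 282) (nat_lit 3024) (nat_lit 0) (XT.nd (nat_lit 94) (nat_lit 1344) (nat_lit 0) (XT.lf (nat_lit 0) (nat_lit 152375629) (nat_lit 756) (nat_lit 5524058786) (nat_lit 84) (nat_lit 2836836205) (nat_lit 143) (nat_lit 5) (nat_lit 152) (nat_lit 5) (nat_lit 144) (nat_lit 5) (nat_lit 235) (nat_lit 195) (nat_lit 170)) (XT.nd (nat_lit 94) (nat_lit 672) (nat_lit 0) (XT.lf (nat_lit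 0) (nat_lit 4417020192) (nat_lit 672) (nat_lit 652815011) (nat_lit 756) (nat_lit 3573226999) (nat_lit 135) (nat_lit 5) (nat_lit 143) (nat_lit 5) (nat_lit 144) (nat_lit 5) (nat_lit 236) (nat_lit 195) (nat_lit 169)) (XT.lf (nat_lit 0) (nat_lit 1357965674) (nat_lit 672) (nat_lit 2879138397) (nat_lit 84) (nat_lit 4540166887) (nat_lit 127) (nat_lit 5) (nat_lit 135) (nat_lit 5) (nat_lit 128) (nat_lit 5) (nat_lit 237) (nat_lit 195) (nat_lit 168)))) (XT.nd (nat_lit 188) (nat_lit 1764) (nat_lit 0) (XT.nd (nat_lit 94) (nat_lit 672) (nat_lit 0) (XT.lf (nat_lit 0) (nat_lit 6387665434) (nat_lit 672) (nat_lit 1478846261) (nat_lit 84) (nat_lit 1049543746) (nat_lit 120) (nat_lit 5) (nat_lit 128) (nat_lit 5) (nat_lit 121) (nat_lit 5) (nat_lit 238) (nat_lit 195) (nat_lit 167)) (XT.lf (nat_lit 0) (nat_lit 2499117637) (nat_lit 672) (nat_lit 35084617) (nat_lit 84) (nat_lit 6525056185) (nat_lit 112) (nat_lit 5) (nat_lit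 120) (nat_lit 5) (nat_lit 113) (nat_lit 5) (nat_lit 239) (nat_lit 195) (nat_lit 166))) (XT.nd (nat_lit 94) (nat_lit 672) (nat_lit 0) (XT.lf (nat_lit 0) (nat_lit 1483419896) (nat_lit 504) (nat_lit 6187635032) (nat_lit 588) (nat_lit 1535873034) (nat_lit 99) (nat_lit 5) (nat_lit 105) (nat_lit 5) (nat_lit 106) (nat_lit 5) (nat_lit 240) (nat_lit 195) (nat_lit 165)) (XT.lf (nat_lit 0) (nat_lit 3053155725) (nat_lit 588) (nat_lit 554639996) (nat_lit 672) (nat_lit 5751476745) (nat_lit 91) (nat_lit 5) (nat_lit 98) (nat_lit 5) (nat_lit 99) (nat_lit 5) (nat_lit 241) (nat_lit 195) (nat_lit 164))))))) (XT.nd (nat_lit 35156) (nat_lit 0) (nat_lit 15540) (XT.nd (nat_lit 34592) (nat_lit 0) (nat_lit 34776) (XT.nd (nat_lit 282) (nat_lit 1512) (nat_lit 0) (XT.nd (nat_lit 94) (nat_lit 1176) (nat_lit 0) (XT.lf (nat_lit 0) (nat_lit 4670288258) (nat_lit 504) (nat_lit 4256865726) (nat_lit 588) (nat_lit 589137682) (nat_lit 85)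 (nat_lit 5) (nat_lit 91) (nat_lit 5) (nat_lit 92) (nat_lit 5) (nat_lit 242) (nat_lit 195) (nat_lit 163)) (XT.nd (nat_lit 94) (nat_lit 588) (nat_lit 0) (XT.lf (nat_lit 0) (nat_lit 4685530590) (nat_lit 588) (nat_lit 3342956713) (nat_lit 84) (nat_lit 1649571643) (nat_lit 78) (nat_lit 5) (nat_lit 85) (nat_lit 5) (nat_lit 79) (nat_lit 5) (nat_lit 243) (nat_lit 195) (nat_lit 162)) (XT.lf (nat_lit 0) (nat_lit 305573717) (nat_lit 588) (nat_lit 1784178485) (nat_lit 84) (nat_lit 7755174080) (nat_lit 71) (nat_lit 5) (nat_lit 78) (nat_lit 5) (nat_lit 72) (nat_lit 5) (nat_lit 244) (nat_lit 195) (nat_lit 161)))) (XT.nd (nat_lit 94) (nat_lit 1008) (nat_lit 0) (XT.lf (nat_lit 0) (nat_lit 5734983470) (nat_lit 588) (nat_lit 196404327) (nat_lit 84) (nat_lit 4084989829) (nat_lit 65) (nat_lit 5) (nat_lit 72) (nat_lit 5) (nat_lit 66) (nat_lit 5) (nat_lit 245) (nat_lit 195) (nat_lit 160)) (XT.nd (nat_lit 34122) (nat_lit 0)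 (nat_lit 39900) (XT.lf (nat_lit 0) (nat_lit 1166321816) (nat_lit 588) (nat_lit 8710544231) (nat_lit 84) (nat_lit 316288045) (nat_lit 53) (nat_lit 5) (nat_lit 60) (nat_lit 5) (nat_lit 54) (nat_lit 5) (nat_lit 246) (nat_lit 195) (nat_lit 159)) (XT.lf (nat_lit 0) (nat_lit 1584049103) (nat_lit 588) (nat_lit 98737660) (nat_lit 0) (nat_lit 1584049103) (nat_lit 528) (nat_lit 5) (nat_lit 535) (nat_lit 4) (nat_lit 528) (nat_lit 4) (nat_lit 208) (nat_lit 196) (nat_lit 196))))) (XT.nd (nat_lit 282) (nat_lit 2940) (nat_lit 0) (XT.nd (nat_lit 94) (nat_lit 1512) (nat_lit 0) (XT.lf (nat_lit 0) (nat_lit 1765240676) (nat_lit 672) (nat_lit 472829873) (nat_lit 84) (nat_lit 4320401557) (nat_lit 520) (nat_lit 5) (nat_lit 528) (nat_lit 5) (nat_lit 521) (nat_lit 4) (nat_lit 209) (nat_lit 196) (nat_lit 195)) (XT.nd (nat_lit 94) (nat_lit 756) (nat_lit 0) (XT.lf (nat_lit 0) (nat_lit 268994079) (nat_lit 756) (nat_lit 665541298)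 (nat_lit 84) (nat_lit 5652653180) (nat_lit 511) (nat_lit 5) (nat_lit 520) (nat_lit 5) (nat_lit 512) (nat_lit 5) (nat_lit 210) (nat_lit 196) (nat_lit 194)) (XT.lf (nat_lit 0) (nat_lit 5281623955) (nat_lit 840) (nat_lit 789234565) (nat_lit 84) (nat_lit 548691147) (nat_lit 502) (nat_lit 5) (nat_lit 512) (nat_lit 5) (nat_lit 503) (nat_lit 4) (nat_lit 211) (nat_lit 196) (nat_lit 193)))) (XT.nd (nat_lit 94) (nat_lit 2016) (nat_lit 0) (XT.lf (nat_lit 0) (nat_lit 3616042443) (nat_lit 924) (nat_lit 840967539) (nat_lit 84) (nat_lit 2198639360) (nat_lit 491) (nat_lit 5) (nat_lit 502) (nat_lit 5) (nat_lit 492) (nat_lit 5) (nat_lit 212) (nat_lit 196) (nat_lit 192)) (XT.nd (nat_lit 94) (nat_lit 1008) (nat_lit 0) (XT.lf (nat_lit 0) (nat_lit 1854480174) (nat_lit 1008) (nat_lit 812006934) (nat_lit 84) (nat_lit 4029222646) (nat_lit 479) (nat_lit 5) (nat_lit 491) (nat_lit 5) (nat_lit 480) (nat_lit 5) (nat_lit 213) (nat_lit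 196) (nat_lit 191)) (XT.lf (nat_lit 0) (nat_lit 6037616673) (nat_lit 1008) (nat_lit 696612034) (nat_lit 1092) (nat_lit 5537586) (nat_lit 467) (nat_lit 5) (nat_lit 479) (nat_lit 5) (nat_lit 480) (nat_lit 5) (nat_lit 214) (nat_lit 196) (nat_lit 190)))))) (XT.nd (nat_lit 564) (nat_lit 9408) (nat_lit 0) (XT.nd (nat_lit 282) (nat_lit 4704) (nat_lit 0) (XT.nd (nat_lit 94) (nat_lit 3948) (nat_lit 0) (XT.lf (nat_lit 0) (nat_lit 4802981338) (nat_lit 1176) (nat_lit 535590885) (nat_lit 84) (nat_lit 1448746254) (nat_lit 453) (nat_lit 5) (nat_lit 467) (nat_lit 5) (nat_lit 454) (nat_lit 5) (nat_lit 215) (nat_lit 196) (nat_lit 189)) (XT.nd (nat_lit 94) (nat_lit 2688) (nat_lit 0) (XT.lf (nat_lit 0) (nat_lit 2776994445) (nat_lit 1260) (nat_lit 294269817) (nat_lit 84) (nat_lit 3767532113) (nat_lit 438) (nat_lit 5) (nat_lit 453) (nat_lit 5) (nat_lit 439) (nat_lit 5) (nat_lit 216) (nat_lit 196) (nat_lit 188)) (XT.lf (nat_lit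 0) (nat_lit 27753315) (nat_lit 1344) (nat_lit 620968407) (nat_lit 1428) (nat_lit 6245629455) (nat_lit 406) (nat_lit 5) (nat_lit 422) (nat_lit 5) (nat_lit 423) (nat_lit 5) (nat_lit 217) (nat_lit 196) (nat_lit 187)))) (XT.nd (nat_lit 94) (nat_lit 3276) (nat_lit 0) (XT.lf (nat_lit 0) (nat_lit 409991918) (nat_lit 1428) (nat_lit 4952641252) (nat_lit 1512) (nat_lit 1590778879) (nat_lit 389) (nat_lit 5) (nat_lit 406) (nat_lit 5) (nat_lit 407) (nat_lit 5) (nat_lit 218) (nat_lit 196) (nat_lit 186)) (XT.nd (nat_lit 94) (nat_lit 1680) (nat_lit 0) (XT.lf (nat_lit 0) (nat_lit 863809577) (nat_lit 1512) (nat_lit 2209239437) (nat_lit 1596) (nat_lit 3943349530) (nat_lit 370) (nat_lit 5) (nat_lit 388) (nat_lit 5) (nat_lit 389) (nat_lit 5) (nat_lit 219) (nat_lit 196) (nat_lit 185)) (XT.lf (nat_lit 0) (nat_lit 681496618) (nat_lit 1680) (nat_lit 5689308713) (nat_lit 84) (nat_lit 712648195) (nat_lit 350) (nat_lit 5) (nat_lit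 370) (nat_lit 5) (nat_lit 351) (nat_lit 5) (nat_lit 220) (nat_lit 196) (nat_lit 184))))) (XT.nd (nat_lit 282) (nat_lit 3948) (nat_lit 0) (XT.nd (nat_lit 94) (nat_lit 3780) (nat_lit 0) (XT.lf (nat_lit 0) (nat_lit 1976504561) (nat_lit 1680) (nat_lit 3347856153) (nat_lit 1764) (nat_lit 1829726598) (nat_lit 330) (nat_lit 5) (nat_lit 350) (nat_lit 5) (nat_lit 351) (nat_lit 5) (nat_lit 221) (nat_lit 196) (nat_lit 183)) (XT.nd (nat_lit 94) (nat_lit 1932) (nat_lit 0) (XT.lf (nat_lit 0) (nat_lit 2635580201) (nat_lit 1764) (nat_lit 128255790) (nat_lit 1848) (nat_lit 4465034012) (nat_lit 308) (nat_lit 5) (nat_lit 329) (nat_lit 5) (nat_lit 330) (nat_lit 5) (nat_lit 222) (nat_lit 196) (nat_lit 182)) (XT.lf (nat_lit 0) (nat_lit 113299974) (nat_lit 1932) (nat_lit 3953731750) (nat_lit 84) (nat_lit 3240429735) (nat_lit 285) (nat_lit 5) (nat_lit 308) (nat_lit 5) (nat_lit 286) (nat_lit 5) (nat_lit 223) (nat_lit 196) (nat_lit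 181)))) (XT.nd (nat_lit 188) (nat_lit 1848) (nat_lit 0) (XT.nd (nat_lit 94) (nat_lit 1008) (nat_lit 0) (XT.lf (nat_lit 0) (nat_lit 4134291632) (nat_lit 1092) (nat_lit 564893557) (nat_lit 1176) (nat_lit 2690789050) (nat_lit 272) (nat_lit 5) (nat_lit 285) (nat_lit 5) (nat_lit 286) (nat_lit 5) (nat_lit 224) (nat_lit 196) (nat_lit 180)) (XT.lf (nat_lit 0) (nat_lit 1881418799) (nat_lit 1008) (nat_lit 2501683684) (nat_lit 84) (nat_lit 3093292653) (nat_lit 260) (nat_lit 5) (nat_lit 272) (nat_lit 5) (nat_lit 261) (nat_lit 5) (nat_lit 225) (nat_lit 196) (nat_lit 179))) (XT.nd (nat_lit 94) (nat_lit 924) (nat_lit 0) (XT.lf (nat_lit 0) (nat_lit 5886892824) (nat_lit 924) (nat_lit 613060204) (nat_lit 1008) (nat_lit 1067070245) (nat_lit 249) (nat_lit 5) (nat_lit 260) (nat_lit 5) (nat_lit 261) (nat_lit 5) (nat_lit 226) (nat_lit 196) (nat_lit 178)) (XT.lf (nat_lit 0) (nat_lit 3517598698) (nat_lit 924) (nat_lit 816321736)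 (nat_lit 84) (nat_lit 3327426631) (nat_lit 238) (nat_lit 5) (nat_lit 249) (nat_lit 5) (nat_lit 239) (nat_lit 5) (nat_lit 227) (nat_lit 196) (nat_lit 177))))))))
noncomputable def xc8 : XT := (XT.nd (nat_lit 36096) (nat_lit 0) (nat_lit 7728) (XT.nd (nat_lit 1128) (nat_lit 4452) (nat_lit 0) (XT.nd (nat_lit 564) (nat_lit 4788) (nat_lit 0) (XT.nd (nat_lit 282) (nat_lit 2352) (nat_lit 0) (XT.nd (nat_lit 94) (nat_lit 1680) (nat_lit 0) (XT.lf (nat_lit 0) (nat_lit 125037670) (nat_lit 840) (nat_lit 291989373) (nat_lit 924) (nat_lit 7343102900) (nat_lit 217) (nat_lit 5) (nat_lit 227) (nat_lit 5) (nat_lit 228) (nat_lit 5) (nat_lit 228) (nat_lit 196) (nat_lit 176)) (XT.nd (nat_lit 94) (nat_lit 840) (nat_lit 0) (XT.lf (nat_lit 0) (nat_lit 1112068823) (nat_lit 840) (nat_lit 3933097683) (nat_lit 924) (nat_lit 2817202421) (nat_lit 207) (nat_lit 5) (nat_lit 217) (nat_lit 5) (nat_lit 218) (nat_lit 5) (nat_lit 229) (nat_lit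 196) (nat_lit 175)) (XT.lf (nat_lit 0) (nat_lit 1784481225) (nat_lit 840) (nat_lit 5795519683) (nat_lit 84) (nat_lit 389118854) (nat_lit 197) (nat_lit 5) (nat_lit 207) (nat_lit 5) (nat_lit 198) (nat_lit 5) (nat_lit 230) (nat_lit 196) (nat_lit 174)))) (XT.nd (nat_lit 94) (nat_lit 1596) (nat_lit 0) (XT.lf (nat_lit 0) (nat_lit 3277865343) (nat_lit 756) (nat_lit 3200155498) (nat_lit 840) (nat_lit 1601727631) (nat_lit 188) (nat_lit 5) (nat_lit 197) (nat_lit 5) (nat_lit 198) (nat_lit 5) (nat_lit 231) (nat_lit 196) (nat_lit 173)) (XT.nd (nat_lit 94) (nat_lit 756) (nat_lit 0) (XT.lf (nat_lit 0) (nat_lit 3053769272) (nat_lit 840) (nat_lit 3751842527) (nat_lit 84) (nat_lit 1389081540) (nat_lit 178) (nat_lit 5) (nat_lit 188) (nat_lit 5) (nat_lit 179) (nat_lit 5) (nat_lit 232) (nat_lit 196) (nat_lit 172)) (XT.lf (nat_lit 0) (nat_lit 5665744180) (nat_lit 756) (nat_lit 2157825649) (nat_lit 840) (nat_lit 490376404)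 (nat_lit 169) (nat_lit 5) (nat_lit 178) (nat_lit 5) (nat_lit 179) (nat_lit 5) (nat_lit 233) (nat_lit 196) (nat_lit 171))))) (XT.nd (nat_lit 282) (nat_lit 1932) (nat_lit 0) (XT.nd (nat_lit 94) (nat_lit 2100) (nat_lit 0) (XT.lf (nat_lit 0) (nat_lit 4235346752) (nat_lit 756) (nat_lit 1505020372) (nat_lit 84) (nat_lit 2696885651) (nat_lit 160) (nat_lit 5) (nat_lit 169) (nat_lit 5) (nat_lit 161) (nat_lit 5) (nat_lit 234) (nat_lit 196) (nat_lit 170)) (XT.nd (nat_lit 94) (nat_lit 1344) (nat_lit 0) (XT.lf (nat_lit 0) (nat_lit 521288219) (nat_lit 756) (nat_lit 295416204) (nat_lit 84) (nat_lit 7748556229) (nat_lit 151) (nat_lit 5) (nat_lit 160) (nat_lit 5) (nat_lit 152) (nat_lit 5) (nat_lit 235) (nat_lit 196) (nat_lit 169)) (XT.lf (nat_lit 0) (nat_lit 956985998) (nat_lit 672) (nat_lit 4390744188) (nat_lit 756) (nat_lit 3349324435) (nat_lit 135) (nat_lit 5) (nat_lit 143) (nat_lit 5) (nat_lit 144) (nat_lit 5) (nat_lit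 236) (nat_lit 196) (nat_lit 168)))) (XT.nd (nat_lit 94) (nat_lit 1260) (nat_lit 0) (XT.lf (nat_lit 0) (nat_lit 1468405673) (nat_lit 672) (nat_lit 6550498560) (nat_lit 84) (nat_lit 814749284) (nat_lit 127) (nat_lit 5) (nat_lit 135) (nat_lit 5) (nat_lit 128) (nat_lit 5) (nat_lit 237) (nat_lit 196) (nat_lit 167)) (XT.nd (nat_lit 94) (nat_lit 672) (nat_lit 0) (XT.lf (nat_lit 0) (nat_lit 3644813237) (nat_lit 588) (nat_lit 2762570217) (nat_lit 672) (nat_lit 2567050430) (nat_lit 120) (nat_lit 5) (nat_lit 127) (nat_lit 5) (nat_lit 128) (nat_lit 5) (nat_lit 238) (nat_lit 196) (nat_lit 166)) (XT.lf (nat_lit 0) (nat_lit 2357550900) (nat_lit 672) (nat_lit 4056529338) (nat_lit 84) (nat_lit 2705838891) (nat_lit 112) (nat_lit 5) (nat_lit 120) (nat_lit 5) (nat_lit 113) (nat_lit 5) (nat_lit 239) (nat_lit 196) (nat_lit 165)))))) (XT.nd (nat_lit 564) (nat_lit 504) (nat_lit 0) (XT.nd (nat_lit 282) (nat_lit 1680) (nat_lit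 0) (XT.nd (nat_lit 94) (nat_lit 1680) (nat_lit 0) (XT.lf (nat_lit 0) (nat_lit 6537151270) (nat_lit 588) (nat_lit 876567178) (nat_lit 672) (nat_lit 1856417139) (nat_lit 105) (nat_lit 5) (nat_lit 112) (nat_lit 5) (nat_lit 113) (nat_lit 5) (nat_lit 240) (nat_lit 196) (nat_lit 164)) (XT.nd (nat_lit 94) (nat_lit 1092) (nat_lit 0) (XT.lf (nat_lit 0) (nat_lit 3190378462) (nat_lit 588) (nat_lit 1376567368) (nat_lit 84) (nat_lit 4857817273) (nat_lit 98) (nat_lit 5) (nat_lit 105) (nat_lit 5) (nat_lit 99) (nat_lit 5) (nat_lit 241) (nat_lit 196) (nat_lit 163)) (XT.lf (nat_lit 0) (nat_lit 42769738) (nat_lit 504) (nat_lit 8342946150) (nat_lit 588) (nat_lit 1198794873) (nat_lit 85) (nat_lit 5) (nat_lit 91) (nat_lit 5) (nat_lit 92) (nat_lit 5) (nat_lit 242) (nat_lit 196) (nat_lit 162)))) (XT.nd (nat_lit 94) (nat_lit 1092) (nat_lit 0) (XT.lf (nat_lit 0) (nat_lit 1512994557) (nat_lit 504) (nat_lit 2473730664) (nat_lit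 588) (nat_lit 5761802803) (nat_lit 78) (nat_lit 5) (nat_lit 84) (nat_lit 5) (nat_lit 85) (nat_lit 5) (nat_lit 243) (nat_lit 196) (nat_lit 161)) (XT.nd (nat_lit 94) (nat_lit 588) (nat_lit 0) (XT.lf (nat_lit 0) (nat_lit 3042965388) (nat_lit 504) (nat_lit 6309371402) (nat_lit 588) (nat_lit 565392341) (nat_lit 72) (nat_lit 5) (nat_lit 78) (nat_lit 5) (nat_lit 79) (nat_lit 5) (nat_lit 244) (nat_lit 196) (nat_lit 160)) (XT.lf (nat_lit 0) (nat_lit 4616130866) (nat_lit 504) (nat_lit 139571597) (nat_lit 588) (nat_lit 5336128698) (nat_lit 65) (nat_lit 5) (nat_lit 71) (nat_lit 5) (nat_lit 72) (nat_lit 5) (nat_lit 245) (nat_lit 196) (nat_lit 159))))) (XT.nd (nat_lit 34122) (nat_lit 0) (nat_lit 37968) (XT.nd (nat_lit 33934) (nat_lit 0) (nat_lit 39396) (XT.lf (nat_lit 0) (nat_lit 24979189) (nat_lit 504) (nat_lit 4033724975) (nat_lit 84) (nat_lit 6212308345) (nat_lit 59) (nat_lit 5) (nat_lit 65) (nat_lit 5) (nat_lit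 60) (nat_lit 5) (nat_lit 246) (nat_lit 196) (nat_lit 158)) (XT.nd (nat_lit 94) (nat_lit 588) (nat_lit 0) (XT.lf (nat_lit 0) (nat_lit 347557927) (nat_lit 420) (nat_lit 1449624492) (nat_lit 420) (nat_lit 1449624492) (nat_lit 535) (nat_lit 4) (nat_lit 540) (nat_lit 5) (nat_lit 540) (nat_lit 4) (nat_lit 206) (nat_lit 197) (nat_lit 197)) (XT.lf (nat_lit 0) (nat_lit 163096762) (nat_lit 504) (nat_lit 2032134734) (nat_lit 588) (nat_lit 4317507840) (nat_lit 528) (nat_lit 5) (nat_lit 534) (nat_lit 5) (nat_lit 535) (nat_lit 4) (nat_lit 207) (nat_lit 197) (nat_lit 196)))) (XT.nd (nat_lit 94) (nat_lit 1344) (nat_lit 0) (XT.lf (nat_lit 0) (nat_lit 707617388) (nat_lit 588) (nat_lit 280523137) (nat_lit 84) (nat_lit 5547573271) (nat_lit 527) (nat_lit 5) (nat_lit 534) (nat_lit 5) (nat_lit 528) (nat_lit 5) (nat_lit 208) (nat_lit 197) (nat_lit 195)) (XT.nd (nat_lit 94) (nat_lit 756) (nat_lit 0) (XT.lf (nat_lit 0) (nat_lit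 5679616102) (nat_lit 672) (nat_lit 647039983) (nat_lit 84) (nat_lit 235758152) (nat_lit 520) (nat_lit 5) (nat_lit 528) (nat_lit 5) (nat_lit 521) (nat_lit 4) (nat_lit 209) (nat_lit 197) (nat_lit 194)) (XT.lf (nat_lit 0) (nat_lit 4021390639) (nat_lit 756) (nat_lit 945145739) (nat_lit 84) (nat_lit 1626219211) (nat_lit 511) (nat_lit 5) (nat_lit 520) (nat_lit 5) (nat_lit 512) (nat_lit 5) (nat_lit 210) (nat_lit 197) (nat_lit 193))))))) (XT.nd (nat_lit 1128) (nat_lit 13188) (nat_lit 0) (XT.nd (nat_lit 564) (nat_lit 10920) (nat_lit 0) (XT.nd (nat_lit 282) (nat_lit 3444) (nat_lit 0) (XT.nd (nat_lit 94) (nat_lit 1848) (nat_lit 0) (XT.lf (nat_lit 0) (nat_lit 2269922753) (nat_lit 840) (nat_lit 1162756195) (nat_lit 84) (nat_lit 3194354523) (nat_lit 501) (nat_lit 5) (nat_lit 511) (nat_lit 5) (nat_lit 502) (nat_lit 5) (nat_lit 211) (nat_lit 197) (nat_lit 192)) (XT.nd (nat_lit 94) (nat_lit 924) (nat_lit 0) (XT.lf (nat_lit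 0) (nat_lit 422971164) (nat_lit 924) (nat_lit 1299853792) (nat_lit 84) (nat_lit 4942453954) (nat_lit 490) (nat_lit 5) (nat_lit 501) (nat_lit 5) (nat_lit 491) (nat_lit 5) (nat_lit 212) (nat_lit 197) (nat_lit 191)) (XT.lf (nat_lit 0) (nat_lit 5164464919) (nat_lit 1008) (nat_lit 1368554773) (nat_lit 84) (nat_lit 174237183) (nat_lit 479) (nat_lit 5) (nat_lit 491) (nat_lit 5) (nat_lit 480) (nat_lit 5) (nat_lit 213) (nat_lit 197) (nat_lit 190)))) (XT.nd (nat_lit 94) (nat_lit 2352) (nat_lit 0) (XT.lf (nat_lit 0) (nat_lit 3150210055) (nat_lit 1092) (nat_lit 1373707291) (nat_lit 84) (nat_lit 2228975791) (nat_lit 466) (nat_lit 5) (nat_lit 479) (nat_lit 5) (nat_lit 467) (nat_lit 5) (nat_lit 214) (nat_lit 197) (nat_lit 189)) (XT.nd (nat_lit 94) (nat_lit 1176) (nat_lit 0) (XT.lf (nat_lit 0) (nat_lit 1036814568) (nat_lit 1176) (nat_lit 1299607564) (nat_lit 84) (nat_lit 4466144402) (nat_lit 452) (nat_lit 5) (nat_lit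 466) (nat_lit 5) (nat_lit 453) (nat_lit 5) (nat_lit 215) (nat_lit 197) (nat_lit 188)) (XT.lf (nat_lit 0) (nat_lit 5660723552) (nat_lit 1260) (nat_lit 1154590707) (nat_lit 84) (nat_lit 40813725) (nat_lit 438) (nat_lit 5) (nat_lit 453) (nat_lit 5) (nat_lit 439) (nat_lit 5) (nat_lit 216) (nat_lit 197) (nat_lit 187))))) (XT.nd (nat_lit 282) (nat_lit 6720) (nat_lit 0) (XT.nd (nat_lit 94) (nat_lit 2856) (nat_lit 0) (XT.lf (nat_lit 0) (nat_lit 3382547945) (nat_lit 1344) (nat_lit 955513857) (nat_lit 84) (nat_lit 2575180081) (nat_lit 422) (nat_lit 5) (nat_lit 438) (nat_lit 5) (nat_lit 423) (nat_lit 5) (nat_lit 217) (nat_lit 197) (nat_lit 186)) (XT.nd (nat_lit 94) (nat_lit 1428) (nat_lit 0) (XT.lf (nat_lit 0) (nat_lit 1000462375) (nat_lit 1428) (nat_lit 677504456) (nat_lit 84) (nat_lit 5296524818) (nat_lit 405) (nat_lit 5) (nat_lit 422) (nat_lit 5) (nat_lit 406) (nat_lit 5) (nat_lit 218) (nat_lit 197) (nat_lit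 185)) (XT.lf (nat_lit 0) (nat_lit 5537658899) (nat_lit 1512) (nat_lit 338918660) (nat_lit 84) (nat_lit 1162933112) (nat_lit 388) (nat_lit 5) (nat_lit 406) (nat_lit 5) (nat_lit 389) (nat_lit 5) (nat_lit 219) (nat_lit 197) (nat_lit 184)))) (XT.nd (nat_lit 94) (nat_lit 3528) (nat_lit 0) (XT.lf (nat_lit 0) (nat_lit 59805010) (nat_lit 1596) (nat_lit 2931834539) (nat_lit 1680) (nat_lit 4116659664) (nat_lit 350) (nat_lit 5) (nat_lit 369) (nat_lit 5) (nat_lit 370) (nat_lit 5) (nat_lit 220) (nat_lit 197) (nat_lit 183)) (XT.nd (nat_lit 94) (nat_lit 1764) (nat_lit 0) (XT.lf (nat_lit 0) (nat_lit 340327606) (nat_lit 1764) (nat_lit 6638582302) (nat_lit 84) (nat_lit 202342688) (nat_lit 329) (nat_lit 5) (nat_lit 350) (nat_lit 5) (nat_lit 330) (nat_lit 5) (nat_lit 221) (nat_lit 197) (nat_lit 182)) (XT.lf (nat_lit 0) (nat_lit 1066875339) (nat_lit 1764) (nat_lit 3754218671) (nat_lit 1848) (nat_lit 2436556268) (nat_lit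 308) (nat_lit 5) (nat_lit 329) (nat_lit 5) (nat_lit 330) (nat_lit 5) (nat_lit 222) (nat_lit 197) (nat_lit 181)))))) (XT.nd (nat_lit 564) (nat_lit 6384) (nat_lit 0) (XT.nd (nat_lit 282) (nat_lit 2772) (nat_lit 0) (XT.nd (nat_lit 94) (nat_lit 2100) (nat_lit 0) (XT.lf (nat_lit 0) (nat_lit 1669389968) (nat_lit 1848) (nat_lit 333823966) (nat_lit 1932) (nat_lit 5335115554) (nat_lit 285) (nat_lit 5) (nat_lit 307) (nat_lit 5) (nat_lit 308) (nat_lit 5) (nat_lit 223) (nat_lit 197) (nat_lit 180)) (XT.nd (nat_lit 94) (nat_lit 1008) (nat_lit 0) (XT.lf (nat_lit 0) (nat_lit 2323468411) (nat_lit 1092) (nat_lit 4178598395) (nat_lit 1176) (nat_lit 920690174) (nat_lit 272) (nat_lit 5) (nat_lit 285) (nat_lit 5) (nat_lit 286) (nat_lit 5) (nat_lit 224) (nat_lit 197) (nat_lit 179)) (XT.lf (nat_lit 0) (nat_lit 3041650216) (nat_lit 924) (nat_lit 477744222) (nat_lit 1008) (nat_lit 3991851865) (nat_lit 260) (nat_lit 5) (nat_lit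 271) (nat_lit 5) (nat_lit 272) (nat_lit 5) (nat_lit 225) (nat_lit 197) (nat_lit 178)))) (XT.nd (nat_lit 94) (nat_lit 1764) (nat_lit 0) (XT.lf (nat_lit 0) (nat_lit 441112060) (nat_lit 1008) (nat_lit 3785947920) (nat_lit 84) (nat_lit 3376649323) (nat_lit 248) (nat_lit 5) (nat_lit 260) (nat_lit 5) (nat_lit 249) (nat_lit 5) (nat_lit 226) (nat_lit 197) (nat_lit 177)) (XT.nd (nat_lit 94) (nat_lit 924) (nat_lit 0) (XT.lf (nat_lit 0) (nat_lit 4653079877) (nat_lit 840) (nat_lit 250352756) (nat_lit 924) (nat_lit 2796786780) (nat_lit 238) (nat_lit 5) (nat_lit 248) (nat_lit 5) (nat_lit 249) (nat_lit 5) (nat_lit 227) (nat_lit 197) (nat_lit 176)) (XT.lf (nat_lit 0) (nat_lit 1659279666) (nat_lit 924) (nat_lit 2260297272) (nat_lit 84) (nat_lit 3881091056) (nat_lit 227) (nat_lit 5) (nat_lit 238) (nat_lit 5) (nat_lit 228) (nat_lit 5) (nat_lit 228) (nat_lit 197) (nat_lit 175))))) (XT.nd (nat_lit 282) (nat_lit 3108) (nat_lit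 0) (XT.nd (nat_lit 94) (nat_lit 2436) (nat_lit 0) (XT.lf (nat_lit 0) (nat_lit 6172491969) (nat_lit 924) (nat_lit 1410378014) (nat_lit 84) (nat_lit 322565391) (nat_lit 217) (nat_lit 5) (nat_lit 228) (nat_lit 5) (nat_lit 218) (nat_lit 5) (nat_lit 229) (nat_lit 197) (nat_lit 174)) (XT.nd (nat_lit 94) (nat_lit 1512) (nat_lit 0) (XT.lf (nat_lit 0) (nat_lit 2761048306) (nat_lit 924) (nat_lit 521483963) (nat_lit 84) (nat_lit 4731509679) (nat_lit 206) (nat_lit 5) (nat_lit 217) (nat_lit 5) (nat_lit 207) (nat_lit 5) (nat_lit 230) (nat_lit 197) (nat_lit 173)) (XT.lf (nat_lit 0) (nat_lit 440217407) (nat_lit 756) (nat_lit 6905060361) (nat_lit 840) (nat_lit 781797712) (nat_lit 188) (nat_lit 5) (nat_lit 197) (nat_lit 5) (nat_lit 198) (nat_lit 5) (nat_lit 231) (nat_lit 197) (nat_lit 172)))) (XT.nd (nat_lit 188) (nat_lit 1428) (nat_lit 0) (XT.nd (nat_lit 94) (nat_lit 840) (nat_lit 0) (XT.lf (nat_lit 0) (nat_lit 1447061831)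 (nat_lit 756) (nat_lit 2322605872) (nat_lit 840) (nat_lit 4474253034) (nat_lit 178) (nat_lit 5) (nat_lit 187) (nat_lit 5) (nat_lit 188) (nat_lit 5) (nat_lit 232) (nat_lit 197) (nat_lit 171)) (XT.lf (nat_lit 0) (nat_lit 74791868) (nat_lit 840) (nat_lit 5845651215) (nat_lit 84) (nat_lit 2444880119) (nat_lit 168) (nat_lit 5) (nat_lit 178) (nat_lit 5) (nat_lit 169) (nat_lit 5) (nat_lit 233) (nat_lit 197) (nat_lit 170))) (XT.nd (nat_lit 94) (nat_lit 756) (nat_lit 0) (XT.lf (nat_lit 0) (nat_lit 3632212606) (nat_lit 672) (nat_lit 1059885395) (nat_lit 756) (nat_lit 3798684684) (nat_lit 160) (nat_lit 5) (nat_lit 168) (nat_lit 5) (nat_lit 169) (nat_lit 5) (nat_lit 234) (nat_lit 197) (nat_lit 169)) (XT.lf (nat_lit 0) (nat_lit 828972913) (nat_lit 756) (nat_lit 3819996858) (nat_lit 84) (nat_lit 3971731638) (nat_lit 151) (nat_lit 5) (nat_lit 160) (nat_lit 5) (nat_lit 152) (nat_lit 5) (nat_lit 235) (nat_lit 197) (nat_lit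 168))))))))
noncomputable def xc9 : XT := (XT.nd (nat_lit 36002) (nat_lit 0) (nat_lit 3192) (XT.nd (nat_lit 34780) (nat_lit 0) (nat_lit 30408) (XT.nd (nat_lit 564) (nat_lit 3192) (nat_lit 0) (XT.nd (nat_lit 282) (nat_lit 2436) (nat_lit 0) (XT.nd (nat_lit 94) (nat_lit 1344) (nat_lit 0) (XT.lf (nat_lit 0) (nat_lit 5539213352) (nat_lit 756) (nat_lit 2733914685) (nat_lit 84) (nat_lit 481923776) (nat_lit 143) (nat_lit 5) (nat_lit 152) (nat_lit 5) (nat_lit 144) (nat_lit 5) (nat_lit 236) (nat_lit 197) (nat_lit 167)) (XT.nd (nat_lit 94) (nat_lit 588) (nat_lit 0) (XT.lf (nat_lit 0) (nat_lit 1502444939) (nat_lit 756) (nat_lit 1605783975) (nat_lit 84) (nat_lit 5785546406) (nat_lit 134) (nat_lit 5) (nat_lit 143) (nat_lit 5) (nat_lit 135) (nat_lit 5) (nat_lit 237) (nat_lit 197) (nat_lit 166)) (XT.lf (nat_lit 0) (nat_lit 6327457956) (nat_lit 672) (nat_lit 429790582) (nat_lit 84) (nat_lit 2279814374) (nat_lit 127)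 (nat_lit 5) (nat_lit 135) (nat_lit 5) (nat_lit 128) (nat_lit 5) (nat_lit 238) (nat_lit 197) (nat_lit 165)))) (XT.nd (nat_lit 94) (nat_lit 1176) (nat_lit 0) (XT.lf (nat_lit 0) (nat_lit 808339874) (nat_lit 588) (nat_lit 1302349151) (nat_lit 672) (nat_lit 7074221404) (nat_lit 112) (nat_lit 5) (nat_lit 119) (nat_lit 5) (nat_lit 120) (nat_lit 5) (nat_lit 239) (nat_lit 197) (nat_lit 164)) (XT.nd (nat_lit 94) (nat_lit 588) (nat_lit 0) (XT.lf (nat_lit 0) (nat_lit 2091822058) (nat_lit 588) (nat_lit 4982048035) (nat_lit 672) (nat_lit 2263302496) (nat_lit 105) (nat_lit 5) (nat_lit 112) (nat_lit 5) (nat_lit 113) (nat_lit 5) (nat_lit 240) (nat_lit 197) (nat_lit 163)) (XT.lf (nat_lit 0) (nat_lit 2675470385) (nat_lit 588) (nat_lit 6062166853) (nat_lit 84) (nat_lit 756732063) (nat_lit 98) (nat_lit 5) (nat_lit 105) (nat_lit 5) (nat_lit 99) (nat_lit 5) (nat_lit 241) (nat_lit 197) (nat_lit 162))))) (XT.nd (nat_lit 282)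 (nat_lit 1512) (nat_lit 0) (XT.nd (nat_lit 94) (nat_lit 1092) (nat_lit 0) (XT.lf (nat_lit 0) (nat_lit 4811266165) (nat_lit 588) (nat_lit 2965861668) (nat_lit 672) (nat_lit 1879050085) (nat_lit 91) (nat_lit 5) (nat_lit 98) (nat_lit 5) (nat_lit 99) (nat_lit 5) (nat_lit 242) (nat_lit 197) (nat_lit 161)) (XT.nd (nat_lit 94) (nat_lit 504) (nat_lit 0) (XT.lf (nat_lit 0) (nat_lit 3199265781) (nat_lit 588) (nat_lit 3584281465) (nat_lit 84) (nat_lit 3039328583) (nat_lit 84) (nat_lit 5) (nat_lit 91) (nat_lit 5) (nat_lit 85) (nat_lit 5) (nat_lit 243) (nat_lit 197) (nat_lit 160)) (XT.lf (nat_lit 0) (nat_lit 7724784035) (nat_lit 504) (nat_lit 717953862) (nat_lit 588) (nat_lit 1552026107) (nat_lit 78) (nat_lit 5) (nat_lit 84) (nat_lit 5) (nat_lit 85) (nat_lit 5) (nat_lit 244) (nat_lit 197) (nat_lit 159)))) (XT.nd (nat_lit 94) (nat_lit 924) (nat_lit 0) (XT.lf (nat_lit 0) (nat_lit 3680785442) (nat_lit 588) (nat_lit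 931242409) (nat_lit 84) (nat_lit 5559247667) (nat_lit 71) (nat_lit 5) (nat_lit 78) (nat_lit 5) (nat_lit 72) (nat_lit 5) (nat_lit 245) (nat_lit 197) (nat_lit 158)) (XT.nd (nat_lit 33746) (nat_lit 0) (nat_lit 40740) (XT.lf (nat_lit 0) (nat_lit 476691018) (nat_lit 420) (nat_lit 8618090257) (nat_lit 504) (nat_lit 1258466135) (nat_lit 60) (nat_lit 5) (nat_lit 65) (nat_lit 5) (nat_lit 66) (nat_lit 5) (nat_lit 246) (nat_lit 197) (nat_lit 157)) (XT.lf (nat_lit 0) (nat_lit 1048966500) (nat_lit 252) (nat_lit 1091762944) (nat_lit 252) (nat_lit 1091762944) (nat_lit 545) (nat_lit 4) (nat_lit 548) (nat_lit 5) (nat_lit 548) (nat_lit 4) (nat_lit 204) (nat_lit 198) (nat_lit 198)))))) (XT.nd (nat_lit 564) (nat_lit 7392) (nat_lit 0) (XT.nd (nat_lit 282) (nat_lit 2016) (nat_lit 0) (XT.nd (nat_lit 94) (nat_lit 504) (nat_lit 0) (XT.lf (nat_lit 0) (nat_lit 1311893075) (nat_lit 336) (nat_lit 1573645675) (nat_lit 420) (nat_lit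 3592825731) (nat_lit 540) (nat_lit 5) (nat_lit 544) (nat_lit 5) (nat_lit 545) (nat_lit 4) (nat_lit 205) (nat_lit 198) (nat_lit 197)) (XT.nd (nat_lit 94) (nat_lit 0) (nat_lit 0) (XT.lf (nat_lit 0) (nat_lit 610989215) (nat_lit 420) (nat_lit 790264349) (nat_lit 504) (nat_lit 5094383298) (nat_lit 534) (nat_lit 5) (nat_lit 539) (nat_lit 5) (nat_lit 540) (nat_lit 5) (nat_lit 206) (nat_lit 198) (nat_lit 196)) (XT.lf (nat_lit 0) (nat_lit 6342396180) (nat_lit 504) (nat_lit 7719461) (nat_lit 84) (nat_lit 166647136) (nat_lit 534) (nat_lit 5) (nat_lit 540) (nat_lit 5) (nat_lit 535) (nat_lit 4) (nat_lit 207) (nat_lit 198) (nat_lit 195)))) (XT.nd (nat_lit 94) (nat_lit 1428) (nat_lit 0) (XT.lf (nat_lit 0) (nat_lit 4688572753) (nat_lit 588) (nat_lit 552455393) (nat_lit 84) (nat_lit 1300315067) (nat_lit 527) (nat_lit 5) (nat_lit 534) (nat_lit 5) (nat_lit 528) (nat_lit 5) (nat_lit 208) (nat_lit 198) (nat_lit 194)) (XT.nd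 (nat_lit 94) (nat_lit 756) (nat_lit 0) (XT.lf (nat_lit 0) (nat_lit 2944103831) (nat_lit 672) (nat_lit 1016518599) (nat_lit 84) (nat_lit 2609221989) (nat_lit 519) (nat_lit 5) (nat_lit 527) (nat_lit 5) (nat_lit 520) (nat_lit 5) (nat_lit 209) (nat_lit 198) (nat_lit 193)) (XT.lf (nat_lit 0) (nat_lit 1106898434) (nat_lit 756) (nat_lit 1400116231) (nat_lit 84) (nat_lit 4095277533) (nat_lit 510) (nat_lit 5) (nat_lit 519) (nat_lit 5) (nat_lit 511) (nat_lit 5) (nat_lit 210) (nat_lit 198) (nat_lit 192))))) (XT.nd (nat_lit 282) (nat_lit 4704) (nat_lit 0) (XT.nd (nat_lit 94) (nat_lit 1932) (nat_lit 0) (XT.lf (nat_lit 0) (nat_lit 4929288318) (nat_lit 756) (nat_lit 871970424) (nat_lit 840) (nat_lit 837325992) (nat_lit 501) (nat_lit 5) (nat_lit 510) (nat_lit 5) (nat_lit 511) (nat_lit 5) (nat_lit 211) (nat_lit 198) (nat_lit 191)) (XT.nd (nat_lit 94) (nat_lit 1008) (nat_lit 0) (XT.lf (nat_lit 0) (nat_lit 3788996727)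 (nat_lit 924) (nat_lit 1953522378) (nat_lit 84) (nat_lit 936026865) (nat_lit 490) (nat_lit 5) (nat_lit 501) (nat_lit 5) (nat_lit 491) (nat_lit 5) (nat_lit 212) (nat_lit 198) (nat_lit 190)) (XT.lf (nat_lit 0) (nat_lit 1687001502) (nat_lit 1008) (nat_lit 2125383148) (nat_lit 84) (nat_lit 2909987350) (nat_lit 478) (nat_lit 5) (nat_lit 490) (nat_lit 5) (nat_lit 479) (nat_lit 5) (nat_lit 213) (nat_lit 198) (nat_lit 189)))) (XT.nd (nat_lit 188) (nat_lit 2520) (nat_lit 0) (XT.nd (nat_lit 94) (nat_lit 1176) (nat_lit 0) (XT.lf (nat_lit 0) (nat_lit 4548029960) (nat_lit 1008) (nat_lit 1701077730) (nat_lit 1092) (nat_lit 521049643) (nat_lit 466) (nat_lit 5) (nat_lit 478) (nat_lit 5) (nat_lit 479) (nat_lit 5) (nat_lit 214) (nat_lit 198) (nat_lit 188)) (XT.lf (nat_lit 0) (nat_lit 3969515543) (nat_lit 1176) (nat_lit 2256894142) (nat_lit 84) (nat_lit 595238155) (nat_lit 452) (nat_lit 5) (nat_lit 466) (nat_lit 5) (nat_lit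 453) (nat_lit 5) (nat_lit 215) (nat_lit 198) (nat_lit 187))) (XT.nd (nat_lit 94) (nat_lit 1260) (nat_lit 0) (XT.lf (nat_lit 0) (nat_lit 1601770648) (nat_lit 1260) (nat_lit 2226140768) (nat_lit 84) (nat_lit 3049045941) (nat_lit 437) (nat_lit 5) (nat_lit 452) (nat_lit 5) (nat_lit 438) (nat_lit 5) (nat_lit 216) (nat_lit 198) (nat_lit 186)) (XT.lf (nat_lit 0) (nat_lit 4812812063) (nat_lit 1260) (nat_lit 1241512220) (nat_lit 1344) (nat_lit 881939624) (nat_lit 422) (nat_lit 5) (nat_lit 437) (nat_lit 5) (nat_lit 438) (nat_lit 5) (nat_lit 217) (nat_lit 198) (nat_lit 185))))))) (XT.nd (nat_lit 1128) (nat_lit 9996) (nat_lit 0) (XT.nd (nat_lit 564) (nat_lit 7560) (nat_lit 0) (XT.nd (nat_lit 282) (nat_lit 5208) (nat_lit 0) (XT.nd (nat_lit 94) (nat_lit 3024) (nat_lit 0) (XT.lf (nat_lit 0) (nat_lit 3513468140) (nat_lit 1428) (nat_lit 1965174381) (nat_lit 84) (nat_lit 1520603220) (nat_lit 405) (nat_lit 5) (nat_lit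 422) (nat_lit 5) (nat_lit 406) (nat_lit 5) (nat_lit 218) (nat_lit 198) (nat_lit 184)) (XT.nd (nat_lit 94) (nat_lit 1512) (nat_lit 0) (XT.lf (nat_lit 0) (nat_lit 875760954) (nat_lit 1512) (nat_lit 1738130895) (nat_lit 84) (nat_lit 4452339829) (nat_lit 387) (nat_lit 5) (nat_lit 405) (nat_lit 5) (nat_lit 388) (nat_lit 5) (nat_lit 219) (nat_lit 198) (nat_lit 183)) (XT.lf (nat_lit 0) (nat_lit 5242032436) (nat_lit 1596) (nat_lit 1449315470) (nat_lit 84) (nat_lit 445759902) (nat_lit 369) (nat_lit 5) (nat_lit 388) (nat_lit 5) (nat_lit 370) (nat_lit 5) (nat_lit 220) (nat_lit 198) (nat_lit 182)))) (XT.nd (nat_lit 94) (nat_lit 3528) (nat_lit 0) (XT.lf (nat_lit 0) (nat_lit 2439222762) (nat_lit 1680) (nat_lit 1108132709) (nat_lit 84) (nat_lit 3664352781) (nat_lit 349) (nat_lit 5) (nat_lit 369) (nat_lit 5) (nat_lit 350) (nat_lit 5) (nat_lit 221) (nat_lit 198) (nat_lit 181)) (XT.nd (nat_lit 94) (nat_lit 1848) (nat_lit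 0) (XT.lf (nat_lit 0) (nat_lit 6598650827) (nat_lit 1680) (nat_lit 209170157) (nat_lit 1764) (nat_lit 482752650) (nat_lit 329) (nat_lit 5) (nat_lit 349) (nat_lit 5) (nat_lit 350) (nat_lit 5) (nat_lit 222) (nat_lit 198) (nat_lit 180)) (XT.lf (nat_lit 0) (nat_lit 3839193103) (nat_lit 1848) (nat_lit 238298381) (nat_lit 84) (nat_lit 3295428214) (nat_lit 307) (nat_lit 5) (nat_lit 329) (nat_lit 5) (nat_lit 308) (nat_lit 5) (nat_lit 223) (nat_lit 198) (nat_lit 179))))) (XT.nd (nat_lit 282) (nat_lit 2604) (nat_lit 0) (XT.nd (nat_lit 94) (nat_lit 1932) (nat_lit 0) (XT.lf (nat_lit 0) (nat_lit 296871292) (nat_lit 1092) (nat_lit 461510878) (nat_lit 1176) (nat_lit 6701238903) (nat_lit 271) (nat_lit 5) (nat_lit 284) (nat_lit 5) (nat_lit 285) (nat_lit 5) (nat_lit 224) (nat_lit 198) (nat_lit 178)) (XT.nd (nat_lit 94) (nat_lit 1008) (nat_lit 0) (XT.lf (nat_lit 0) (nat_lit 874601201) (nat_lit 924) (nat_lit 4223919969)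 (nat_lit 1008) (nat_lit 2451352006) (nat_lit 260) (nat_lit 5) (nat_lit 271) (nat_lit 5) (nat_lit 272) (nat_lit 5) (nat_lit 225) (nat_lit 198) (nat_lit 177)) (XT.lf (nat_lit 0) (nat_lit 1523938560) (nat_lit 924) (nat_lit 327937205) (nat_lit 1008) (nat_lit 5792585055) (nat_lit 248) (nat_lit 5) (nat_lit 259) (nat_lit 5) (nat_lit 260) (nat_lit 5) (nat_lit 226) (nat_lit 198) (nat_lit 176)))) (XT.nd (nat_lit 94) (nat_lit 1764) (nat_lit 0) (XT.lf (nat_lit 0) (nat_lit 2216981487) (nat_lit 840) (nat_lit 4012654545) (nat_lit 924) (nat_lit 1513195225) (nat_lit 238) (nat_lit 5) (nat_lit 248) (nat_lit 5) (nat_lit 249) (nat_lit 5) (nat_lit 227) (nat_lit 198) (nat_lit 175)) (XT.nd (nat_lit 94) (nat_lit 840) (nat_lit 0) (XT.lf (nat_lit 0) (nat_lit 2815389788) (nat_lit 924) (nat_lit 4871169171) (nat_lit 84) (nat_lit 158917587) (nat_lit 227) (nat_lit 5) (nat_lit 238) (nat_lit 5) (nat_lit 228) (nat_lit 5) (nat_lit 228)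 (nat_lit 198) (nat_lit 174)) (XT.lf (nat_lit 0) (nat_lit 3779087074) (nat_lit 840) (nat_lit 3465840564) (nat_lit 924) (nat_lit 707157126) (nat_lit 217) (nat_lit 5) (nat_lit 227) (nat_lit 5) (nat_lit 228) (nat_lit 5) (nat_lit 229) (nat_lit 198) (nat_lit 173)))))) (XT.nd (nat_lit 564) (nat_lit 4452) (nat_lit 0) (XT.nd (nat_lit 282) (nat_lit 3024) (nat_lit 0) (XT.nd (nat_lit 94) (nat_lit 1596) (nat_lit 0) (XT.lf (nat_lit 0) (nat_lit 3665915495) (nat_lit 924) (nat_lit 3424194849) (nat_lit 84) (nat_lit 972755420) (nat_lit 206) (nat_lit 5) (nat_lit 217) (nat_lit 5) (nat_lit 207) (nat_lit 5) (nat_lit 230) (nat_lit 198) (nat_lit 172)) (XT.nd (nat_lit 94) (nat_lit 840) (nat_lit 0) (XT.lf (nat_lit 0) (nat_lit 5556119142) (nat_lit 756) (nat_lit 2601341722) (nat_lit 840) (nat_lit 20477483) (nat_lit 197) (nat_lit 5) (nat_lit 206) (nat_lit 5) (nat_lit 207) (nat_lit 5) (nat_lit 231) (nat_lit 198) (nat_lit 171)) (XT.lf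 (nat_lit 0) (nat_lit 4413383340) (nat_lit 840) (nat_lit 1781670728) (nat_lit 84) (nat_lit 2101956290) (nat_lit 187) (nat_lit 5) (nat_lit 197) (nat_lit 5) (nat_lit 188) (nat_lit 5) (nat_lit 232) (nat_lit 198) (nat_lit 170)))) (XT.nd (nat_lit 94) (nat_lit 2184) (nat_lit 0) (XT.lf (nat_lit 0) (nat_lit 550562643) (nat_lit 840) (nat_lit 880053899) (nat_lit 84) (nat_lit 6990043387) (nat_lit 177) (nat_lit 5) (nat_lit 187) (nat_lit 5) (nat_lit 178) (nat_lit 5) (nat_lit 233) (nat_lit 198) (nat_lit 169)) (XT.nd (nat_lit 94) (nat_lit 756) (nat_lit 0) (XT.lf (nat_lit 0) (nat_lit 54076714) (nat_lit 672) (nat_lit 5015461345) (nat_lit 756) (nat_lit 3478744629) (nat_lit 160) (nat_lit 5) (nat_lit 168) (nat_lit 5) (nat_lit 169) (nat_lit 5) (nat_lit 234) (nat_lit 198) (nat_lit 168)) (XT.lf (nat_lit 0) (nat_lit 1033849002) (nat_lit 756) (nat_lit 7611103880) (nat_lit 84) (nat_lit 35628419) (nat_lit 151) (nat_lit 5) (nat_lit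 160) (nat_lit 5) (nat_lit 152) (nat_lit 5) (nat_lit 235) (nat_lit 198) (nat_lit 167))))) (XT.nd (nat_lit 282) (nat_lit 2436) (nat_lit 0) (XT.nd (nat_lit 94) (nat_lit 1344) (nat_lit 0) (XT.lf (nat_lit 0) (nat_lit 2109221636) (nat_lit 672) (nat_lit 3549569219) (nat_lit 756) (nat_lit 3158017419) (nat_lit 143) (nat_lit 5) (nat_lit 151) (nat_lit 5) (nat_lit 152) (nat_lit 5) (nat_lit 236) (nat_lit 198) (nat_lit 166)) (XT.nd (nat_lit 94) (nat_lit 588) (nat_lit 0) (XT.lf (nat_lit 0) (nat_lit 1451668417) (nat_lit 756) (nat_lit 5744294793) (nat_lit 84) (nat_lit 1761930334) (nat_lit 134) (nat_lit 5) (nat_lit 143) (nat_lit 5) (nat_lit 135) (nat_lit 5) (nat_lit 237) (nat_lit 198) (nat_lit 165)) (XT.lf (nat_lit 0) (nat_lit 4357028072) (nat_lit 588) (nat_lit 1821039667) (nat_lit 672) (nat_lit 2925282899) (nat_lit 127) (nat_lit 5) (nat_lit 134) (nat_lit 5) (nat_lit 135) (nat_lit 5) (nat_lit 238) (nat_lit 198) (nat_lit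 164)))) (XT.nd (nat_lit 188) (nat_lit 1176) (nat_lit 0) (XT.nd (nat_lit 94) (nat_lit 588) (nat_lit 0) (XT.lf (nat_lit 0) (nat_lit 1796539907) (nat_lit 672) (nat_lit 3703673943) (nat_lit 84) (nat_lit 3753252812) (nat_lit 119) (nat_lit 5) (nat_lit 127) (nat_lit 5) (nat_lit 120) (nat_lit 5) (nat_lit 239) (nat_lit 198) (nat_lit 163)) (XT.lf (nat_lit 0) (nat_lit 6637671046) (nat_lit 672) (nat_lit 2611645483) (nat_lit 84) (nat_lit 159097391) (nat_lit 112) (nat_lit 5) (nat_lit 120) (nat_lit 5) (nat_lit 113) (nat_lit 5) (nat_lit 240) (nat_lit 198) (nat_lit 162))) (XT.nd (nat_lit 94) (nat_lit 504) (nat_lit 0) (XT.lf (nat_lit 0) (nat_lit 2076951690) (nat_lit 672) (nat_lit 1488793502) (nat_lit 84) (nat_lit 6002109476) (nat_lit 104) (nat_lit 5) (nat_lit 112) (nat_lit 5) (nat_lit 105) (nat_lit 5) (nat_lit 241) (nat_lit 198) (nat_lit 161)) (XT.lf (nat_lit 0) (nat_lit 7059753723) (nat_lit 588) (nat_lit 316163132)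 (nat_lit 84) (nat_lit 2356361249) (nat_lit 98) (nat_lit 5) (nat_lit 105) (nat_lit 5) (nat_lit 99) (nat_lit 5) (nat_lit 242) (nat_lit 198) (nat_lit 160))))))))
noncomputable def xc10 : XT := (XT.nd (nat_lit 35720) (nat_lit 0) (nat_lit 504) (XT.nd (nat_lit 34592) (nat_lit 0) (nat_lit 23856) (XT.nd (nat_lit 34028) (nat_lit 0) (nat_lit 38052) (XT.nd (nat_lit 282) (nat_lit 504) (nat_lit 0) (XT.nd (nat_lit 94) (nat_lit 1092) (nat_lit 0) (XT.lf (nat_lit 0) (nat_lit 915005482) (nat_lit 504) (nat_lit 1392342540) (nat_lit 588) (nat_lit 7594169524) (nat_lit 84) (nat_lit 5) (nat_lit 90) (nat_lit 5) (nat_lit 91) (nat_lit 5) (nat_lit 243) (nat_lit 198) (nat_lit 159)) (XT.nd (nat_lit 94) (nat_lit 588) (nat_lit 0) (XT.lf (nat_lit 0) (nat_lit 2186620804) (nat_lit 504) (nat_lit 5268317280) (nat_lit 588) (nat_lit 2620577043) (nat_lit 78) (nat_lit 5) (nat_lit 84) (nat_lit 5) (nat_lit 85) (nat_lit 5) (nat_lit 244) (nat_lit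 198) (nat_lit 158)) (XT.lf (nat_lit 0) (nat_lit 2507955948) (nat_lit 588) (nat_lit 6740872997) (nat_lit 84) (nat_lit 1005997870) (nat_lit 71) (nat_lit 5) (nat_lit 78) (nat_lit 5) (nat_lit 72) (nat_lit 5) (nat_lit 245) (nat_lit 198) (nat_lit 157)))) (XT.nd (nat_lit 33558) (nat_lit 0) (nat_lit 40572) (XT.lf (nat_lit 0) (nat_lit 4875453989) (nat_lit 504) (nat_lit 2943345275) (nat_lit 588) (nat_lit 2620268797) (nat_lit 65) (nat_lit 5) (nat_lit 71) (nat_lit 5) (nat_lit 72) (nat_lit 5) (nat_lit 246) (nat_lit 198) (nat_lit 156)) (XT.nd (nat_lit 94) (nat_lit 252) (nat_lit 0) (XT.lf (nat_lit 0) (nat_lit 2005973871) (nat_lit 84) (nat_lit 608986598) (nat_lit 84) (nat_lit 608986598) (nat_lit 551) (nat_lit 4) (nat_lit 552) (nat_lit 5) (nat_lit 552) (nat_lit 4) (nat_lit 202) (nat_lit 199) (nat_lit 199)) (XT.lf (nat_lit 0) (nat_lit 2969798454) (nat_lit 168) (nat_lit 864889559) (nat_lit 252) (nat_lit 2620797579) (nat_lit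 548) (nat_lit 5) (nat_lit 550) (nat_lit 5) (nat_lit 551) (nat_lit 4) (nat_lit 203) (nat_lit 199) (nat_lit 198))))) (XT.nd (nat_lit 282) (nat_lit 1344) (nat_lit 0) (XT.nd (nat_lit 94) (nat_lit 840) (nat_lit 0) (XT.lf (nat_lit 0) (nat_lit 2014013369) (nat_lit 252) (nat_lit 339083085) (nat_lit 336) (nat_lit 4113881006) (nat_lit 544) (nat_lit 5) (nat_lit 547) (nat_lit 5) (nat_lit 548) (nat_lit 5) (nat_lit 204) (nat_lit 199) (nat_lit 197)) (XT.nd (nat_lit 94) (nat_lit 420) (nat_lit 0) (XT.lf (nat_lit 0) (nat_lit 786148655) (nat_lit 420) (nat_lit 5341148539) (nat_lit 84) (nat_lit 355026547) (nat_lit 539) (nat_lit 5) (nat_lit 544) (nat_lit 5) (nat_lit 540) (nat_lit 5) (nat_lit 205) (nat_lit 199) (nat_lit 196)) (XT.lf (nat_lit 0) (nat_lit 343097540) (nat_lit 420) (nat_lit 5278858790) (nat_lit 504) (nat_lit 879420273) (nat_lit 534) (nat_lit 5) (nat_lit 539) (nat_lit 5) (nat_lit 540) (nat_lit 5) (nat_lit 206)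 (nat_lit 199) (nat_lit 195)))) (XT.nd (nat_lit 94) (nat_lit 1260) (nat_lit 0) (XT.lf (nat_lit 0) (nat_lit 3878923932) (nat_lit 504) (nat_lit 372921796) (nat_lit 84) (nat_lit 2272300035) (nat_lit 533) (nat_lit 5) (nat_lit 539) (nat_lit 5) (nat_lit 534) (nat_lit 5) (nat_lit 207) (nat_lit 199) (nat_lit 194)) (XT.nd (nat_lit 94) (nat_lit 672) (nat_lit 0) (XT.lf (nat_lit 0) (nat_lit 2048206670) (nat_lit 588) (nat_lit 1003203329) (nat_lit 84) (nat_lit 3499385242) (nat_lit 526) (nat_lit 5) (nat_lit 533) (nat_lit 5) (nat_lit 527) (nat_lit 5) (nat_lit 208) (nat_lit 199) (nat_lit 193)) (XT.lf (nat_lit 0) (nat_lit 125287607) (nat_lit 672) (nat_lit 1552997856) (nat_lit 84) (nat_lit 4903117494) (nat_lit 518) (nat_lit 5) (nat_lit 526) (nat_lit 5) (nat_lit 519) (nat_lit 5) (nat_lit 209) (nat_lit 199) (nat_lit 192)))))) (XT.nd (nat_lit 564) (nat_lit 8568) (nat_lit 0) (XT.nd (nat_lit 282) (nat_lit 3192) (nat_lit 0)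 (XT.nd (nat_lit 94) (nat_lit 1764) (nat_lit 0) (XT.lf (nat_lit 0) (nat_lit 4579530500) (nat_lit 672) (nat_lit 116478503) (nat_lit 756) (nat_lit 1919686840) (nat_lit 510) (nat_lit 5) (nat_lit 518) (nat_lit 5) (nat_lit 519) (nat_lit 5) (nat_lit 210) (nat_lit 199) (nat_lit 191)) (XT.nd (nat_lit 94) (nat_lit 924) (nat_lit 0) (XT.lf (nat_lit 0) (nat_lit 2600889939) (nat_lit 840) (nat_lit 2452265351) (nat_lit 84) (nat_lit 1600561043) (nat_lit 500) (nat_lit 5) (nat_lit 510) (nat_lit 5) (nat_lit 501) (nat_lit 5) (nat_lit 211) (nat_lit 199) (nat_lit 190)) (XT.lf (nat_lit 0) (nat_lit 411256694) (nat_lit 924) (nat_lit 2790892741) (nat_lit 84) (nat_lit 3493577582) (nat_lit 489) (nat_lit 5) (nat_lit 500) (nat_lit 5) (nat_lit 490) (nat_lit 5) (nat_lit 212) (nat_lit 199) (nat_lit 189)))) (XT.nd (nat_lit 94) (nat_lit 2268) (nat_lit 0) (XT.lf (nat_lit 0) (nat_lit 3676857463) (nat_lit 924) (nat_lit 1160899150) (nat_lit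 1008) (nat_lit 1903729116) (nat_lit 478) (nat_lit 5) (nat_lit 489) (nat_lit 5) (nat_lit 490) (nat_lit 5) (nat_lit 213) (nat_lit 199) (nat_lit 188)) (XT.nd (nat_lit 94) (nat_lit 1176) (nat_lit 0) (XT.lf (nat_lit 0) (nat_lit 2471972985) (nat_lit 1092) (nat_lit 3270912473) (nat_lit 84) (nat_lit 1048198889) (nat_lit 465) (nat_lit 5) (nat_lit 478) (nat_lit 5) (nat_lit 466) (nat_lit 5) (nat_lit 214) (nat_lit 199) (nat_lit 187)) (XT.lf (nat_lit 0) (nat_lit 14847694) (nat_lit 1176) (nat_lit 3408394596) (nat_lit 84) (nat_lit 3421346848) (nat_lit 451) (nat_lit 5) (nat_lit 465) (nat_lit 5) (nat_lit 452) (nat_lit 5) (nat_lit 215) (nat_lit 199) (nat_lit 186))))) (XT.nd (nat_lit 282) (nat_lit 4704) (nat_lit 0) (XT.nd (nat_lit 94) (nat_lit 2688) (nat_lit 0) (XT.lf (nat_lit 0) (nat_lit 3415106432) (nat_lit 1176) (nat_lit 904665590) (nat_lit 1260) (nat_lit 2582053446) (nat_lit 437) (nat_lit 5) (nat_lit 451) (nat_lit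 5) (nat_lit 452) (nat_lit 5) (nat_lit 216) (nat_lit 199) (nat_lit 185)) (XT.nd (nat_lit 94) (nat_lit 1344) (nat_lit 0) (XT.lf (nat_lit 0) (nat_lit 1689624922) (nat_lit 1344) (nat_lit 3500572887) (nat_lit 84) (nat_lit 1772750974) (nat_lit 421) (nat_lit 5) (nat_lit 437) (nat_lit 5) (nat_lit 422) (nat_lit 5) (nat_lit 217) (nat_lit 199) (nat_lit 184)) (XT.lf (nat_lit 0) (nat_lit 3576334698) (nat_lit 1344) (nat_lit 2397381464) (nat_lit 1428) (nat_lit 1054245748) (nat_lit 405) (nat_lit 5) (nat_lit 421) (nat_lit 5) (nat_lit 422) (nat_lit 5) (nat_lit 218) (nat_lit 199) (nat_lit 183)))) (XT.nd (nat_lit 94) (nat_lit 3192) (nat_lit 0) (XT.lf (nat_lit 0) (nat_lit 3168438891) (nat_lit 1512) (nat_lit 3342354627) (nat_lit 84) (nat_lit 586057589) (nat_lit 387) (nat_lit 5) (nat_lit 405) (nat_lit 5) (nat_lit 388) (nat_lit 5) (nat_lit 219) (nat_lit 199) (nat_lit 182)) (XT.nd (nat_lit 94) (nat_lit 1596) (nat_lit 0) (XT.lf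 (nat_lit 0) (nat_lit 272402862) (nat_lit 1596) (nat_lit 3173841189) (nat_lit 84) (nat_lit 3723390156) (nat_lit 368) (nat_lit 5) (nat_lit 387) (nat_lit 5) (nat_lit 369) (nat_lit 5) (nat_lit 220) (nat_lit 199) (nat_lit 181)) (XT.lf (nat_lit 0) (nat_lit 4298539913) (nat_lit 1596) (nat_lit 172721263) (nat_lit 1680) (nat_lit 2775055677) (nat_lit 349) (nat_lit 5) (nat_lit 368) (nat_lit 5) (nat_lit 369) (nat_lit 5) (nat_lit 221) (nat_lit 199) (nat_lit 180))))))) (XT.nd (nat_lit 1128) (nat_lit 8904) (nat_lit 0) (XT.nd (nat_lit 564) (nat_lit 5964) (nat_lit 0) (XT.nd (nat_lit 282) (nat_lit 3024) (nat_lit 0) (XT.nd (nat_lit 94) (nat_lit 3696) (nat_lit 0) (XT.lf (nat_lit 0) (nat_lit 1407430167) (nat_lit 1764) (nat_lit 2669554938) (nat_lit 84) (nat_lit 3249839242) (nat_lit 328) (nat_lit 5) (nat_lit 349) (nat_lit 5) (nat_lit 329) (nat_lit 5) (nat_lit 222) (nat_lit 199) (nat_lit 179)) (XT.nd (nat_lit 94) (nat_lit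 1932) (nat_lit 0) (XT.lf (nat_lit 0) (nat_lit 5083514866) (nat_lit 1764) (nat_lit 531893318) (nat_lit 1848) (nat_lit 1796040893) (nat_lit 307) (nat_lit 5) (nat_lit 328) (nat_lit 5) (nat_lit 329) (nat_lit 5) (nat_lit 223) (nat_lit 199) (nat_lit 178)) (XT.lf (nat_lit 0) (nat_lit 2382441891) (nat_lit 1932) (nat_lit 1941551571) (nat_lit 84) (nat_lit 3175833827) (nat_lit 284) (nat_lit 5) (nat_lit 307) (nat_lit 5) (nat_lit 285) (nat_lit 5) (nat_lit 224) (nat_lit 199) (nat_lit 177)))) (XT.nd (nat_lit 94) (nat_lit 1932) (nat_lit 0) (XT.lf (nat_lit 0) (nat_lit 6104418331) (nat_lit 1092) (nat_lit 508242436) (nat_lit 1176) (nat_lit 979836868) (nat_lit 271) (nat_lit 5) (nat_lit 284) (nat_lit 5) (nat_lit 285) (nat_lit 5) (nat_lit 225) (nat_lit 199) (nat_lit 176)) (XT.nd (nat_lit 94) (nat_lit 924) (nat_lit 0) (XT.lf (nat_lit 0) (nat_lit 3212513856) (nat_lit 1008) (nat_lit 998475500) (nat_lit 84) (nat_lit 3477838338)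 (nat_lit 259) (nat_lit 5) (nat_lit 271) (nat_lit 5) (nat_lit 260) (nat_lit 5) (nat_lit 226) (nat_lit 199) (nat_lit 175)) (XT.lf (nat_lit 0) (nat_lit 7353573259) (nat_lit 924) (nat_lit 124186940) (nat_lit 1008) (nat_lit 311913237) (nat_lit 248) (nat_lit 5) (nat_lit 259) (nat_lit 5) (nat_lit 260) (nat_lit 5) (nat_lit 227) (nat_lit 199) (nat_lit 174))))) (XT.nd (nat_lit 282) (nat_lit 2436) (nat_lit 0) (XT.nd (nat_lit 94) (nat_lit 1764) (nat_lit 0) (XT.lf (nat_lit 0) (nat_lit 154802514) (nat_lit 840) (nat_lit 3757800264) (nat_lit 924) (nat_lit 3981436560) (nat_lit 227) (nat_lit 5) (nat_lit 237) (nat_lit 5) (nat_lit 238) (nat_lit 5) (nat_lit 228) (nat_lit 199) (nat_lit 173)) (XT.nd (nat_lit 94) (nat_lit 840) (nat_lit 0) (XT.lf (nat_lit 0) (nat_lit 228127086) (nat_lit 924) (nat_lit 7175381775) (nat_lit 84) (nat_lit 599471023) (nat_lit 216) (nat_lit 5) (nat_lit 227) (nat_lit 5) (nat_lit 217) (nat_lit 5) (nat_lit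 229) (nat_lit 199) (nat_lit 172)) (XT.lf (nat_lit 0) (nat_lit 1527951381) (nat_lit 840) (nat_lit 2975078746) (nat_lit 924) (nat_lit 3612555591) (nat_lit 206) (nat_lit 5) (nat_lit 216) (nat_lit 5) (nat_lit 217) (nat_lit 5) (nat_lit 230) (nat_lit 199) (nat_lit 171)))) (XT.nd (nat_lit 94) (nat_lit 1596) (nat_lit 0) (XT.lf (nat_lit 0) (nat_lit 650532815) (nat_lit 840) (nat_lit 5936093334) (nat_lit 84) (nat_lit 1646164831) (nat_lit 196) (nat_lit 5) (nat_lit 206) (nat_lit 5) (nat_lit 197) (nat_lit 5) (nat_lit 231) (nat_lit 199) (nat_lit 170)) (XT.nd (nat_lit 94) (nat_lit 840) (nat_lit 0) (XT.lf (nat_lit 0) (nat_lit 3102035835) (nat_lit 756) (nat_lit 1886254036) (nat_lit 840) (nat_lit 3365677706) (nat_lit 187) (nat_lit 5) (nat_lit 196) (nat_lit 5) (nat_lit 197) (nat_lit 5) (nat_lit 232) (nat_lit 199) (nat_lit 169)) (XT.lf (nat_lit 0) (nat_lit 966670103) (nat_lit 840) (nat_lit 4515252777) (nat_lit 84) (nat_lit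 2997689496) (nat_lit 177) (nat_lit 5) (nat_lit 187) (nat_lit 5) (nat_lit 178) (nat_lit 5) (nat_lit 233) (nat_lit 199) (nat_lit 168)))))) (XT.nd (nat_lit 564) (nat_lit 4032) (nat_lit 0) (XT.nd (nat_lit 282) (nat_lit 2688) (nat_lit 0) (XT.nd (nat_lit 94) (nat_lit 1428) (nat_lit 0) (XT.lf (nat_lit 0) (nat_lit 4874026017) (nat_lit 756) (nat_lit 505166830) (nat_lit 840) (nat_lit 3230384248) (nat_lit 168) (nat_lit 5) (nat_lit 177) (nat_lit 5) (nat_lit 178) (nat_lit 5) (nat_lit 234) (nat_lit 199) (nat_lit 167)) (XT.nd (nat_lit 94) (nat_lit 672) (nat_lit 0) (XT.lf (nat_lit 0) (nat_lit 1186606314) (nat_lit 756) (nat_lit 2915665668) (nat_lit 84) (nat_lit 4641589376) (nat_lit 159) (nat_lit 5) (nat_lit 168) (nat_lit 5) (nat_lit 160) (nat_lit 5) (nat_lit 235) (nat_lit 199) (nat_lit 166)) (XT.lf (nat_lit 0) (nat_lit 5693975173) (nat_lit 756) (nat_lit 2048952536) (nat_lit 84) (nat_lit 1139747227) (nat_lit 151) (nat_lit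 5) (nat_lit 160) (nat_lit 5) (nat_lit 152) (nat_lit 5) (nat_lit 236) (nat_lit 199) (nat_lit 165)))) (XT.nd (nat_lit 94) (nat_lit 1932) (nat_lit 0) (XT.lf (nat_lit 0) (nat_lit 1319626051) (nat_lit 756) (nat_lit 1138971890) (nat_lit 84) (nat_lit 6567406716) (nat_lit 142) (nat_lit 5) (nat_lit 151) (nat_lit 5) (nat_lit 143) (nat_lit 5) (nat_lit 237) (nat_lit 199) (nat_lit 164)) (XT.nd (nat_lit 94) (nat_lit 1260) (nat_lit 0) (XT.lf (nat_lit 0) (nat_lit 5939192838) (nat_lit 756) (nat_lit 190505097) (nat_lit 84) (nat_lit 3044114130) (nat_lit 134) (nat_lit 5) (nat_lit 143) (nat_lit 5) (nat_lit 135) (nat_lit 5) (nat_lit 238) (nat_lit 199) (nat_lit 163)) (XT.lf (nat_lit 0) (nat_lit 826201866) (nat_lit 588) (nat_lit 553990781) (nat_lit 672) (nat_lit 7946236180) (nat_lit 119) (nat_lit 5) (nat_lit 126) (nat_lit 5) (nat_lit 127) (nat_lit 5) (nat_lit 239) (nat_lit 199) (nat_lit 162))))) (XT.nd (nat_lit 282) (nat_lit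 2268) (nat_lit 0) (XT.nd (nat_lit 94) (nat_lit 1176) (nat_lit 0) (XT.lf (nat_lit 0) (nat_lit 1870400424) (nat_lit 588) (nat_lit 4262722575) (nat_lit 672) (nat_lit 3350193504) (nat_lit 112) (nat_lit 5) (nat_lit 119) (nat_lit 5) (nat_lit 120) (nat_lit 5) (nat_lit 240) (nat_lit 199) (nat_lit 161)) (XT.nd (nat_lit 94) (nat_lit 504) (nat_lit 0) (XT.lf (nat_lit 0) (nat_lit 1391327666) (nat_lit 672) (nat_lit 6669342464) (nat_lit 84) (nat_lit 1584697352) (nat_lit 104) (nat_lit 5) (nat_lit 112) (nat_lit 5) (nat_lit 105) (nat_lit 5) (nat_lit 241) (nat_lit 199) (nat_lit 160)) (XT.lf (nat_lit 0) (nat_lit 4113300511) (nat_lit 504) (nat_lit 2159770437) (nat_lit 588) (nat_lit 3538943264) (nat_lit 98) (nat_lit 5) (nat_lit 104) (nat_lit 5) (nat_lit 105) (nat_lit 5) (nat_lit 242) (nat_lit 199) (nat_lit 159)))) (XT.nd (nat_lit 188) (nat_lit 1092) (nat_lit 0) (XT.nd (nat_lit 94) (nat_lit 504) (nat_lit 0) (XT.lf (nat_lit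 0) (nat_lit 1346405317) (nat_lit 672) (nat_lit 4682393410) (nat_lit 84) (nat_lit 3954944770) (nat_lit 90) (nat_lit 5) (nat_lit 98) (nat_lit 5) (nat_lit 91) (nat_lit 5) (nat_lit 243) (nat_lit 199) (nat_lit 158)) (XT.lf (nat_lit 0) (nat_lit 6366363940) (nat_lit 588) (nat_lit 3624245576) (nat_lit 84) (nat_lit 169939452) (nat_lit 84) (nat_lit 5) (nat_lit 91) (nat_lit 5) (nat_lit 85) (nat_lit 5) (nat_lit 244) (nat_lit 199) (nat_lit 157))) (XT.nd (nat_lit 94) (nat_lit 504) (nat_lit 0) (XT.lf (nat_lit 0) (nat_lit 1248326083) (nat_lit 588) (nat_lit 2533460953) (nat_lit 84) (nat_lit 6560521901) (nat_lit 77) (nat_lit 5) (nat_lit 84) (nat_lit 5) (nat_lit 78) (nat_lit 5) (nat_lit 245) (nat_lit 199) (nat_lit 156)) (XT.lf (nat_lit 0) (nat_lit 6435789791) (nat_lit 588) (nat_lit 1402824975) (nat_lit 84) (nat_lit 2690649769) (nat_lit 71) (nat_lit 5) (nat_lit 78) (nat_lit 5) (nat_lit 72) (nat_lit 5) (nat_lit 246) (nat_lit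 199) (nat_lit 155))))))))
noncomputable def xc11 : XT := (XT.nd (nat_lit 2350) (nat_lit 17892) (nat_lit 0) (XT.nd (nat_lit 1128) (nat_lit 18144) (nat_lit 0) (XT.nd (nat_lit 564) (nat_lit 3276) (nat_lit 0) (XT.nd (nat_lit 282) (nat_lit 924) (nat_lit 0) (XT.nd (nat_lit 94) (nat_lit 252) (nat_lit 0) (XT.lf (nat_lit 0) (nat_lit 1073741823) (nat_lit 0) (nat_lit 0) (nat_lit 0) (nat_lit 0) (nat_lit 553) (nat_lit 0) (nat_lit 1) (nat_lit 0) (nat_lit 1) (nat_lit 0) (nat_lit 200) (nat_lit 200) (nat_lit 200)) (XT.nd (nat_lit 94) (nat_lit 168) (nat_lit 0) (XT.lf (nat_lit 0) (nat_lit 5046031561) (nat_lit 84) (nat_lit 1303496653) (nat_lit 0) (nat_lit 94652926) (nat_lit 552) (nat_lit 5) (nat_lit 553) (nat_lit 0) (nat_lit 552) (nat_lit 4) (nat_lit 201) (nat_lit 200) (nat_lit 199)) (XT.lf (nat_lit 0) (nat_lit 3566355164) (nat_lit 168) (nat_lit 2524149202) (nat_lit 84) (nat_lit 359296805) (nat_lit 550) (nat_lit 5) (nat_lit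 552) (nat_lit 5) (nat_lit 551) (nat_lit 4) (nat_lit 202) (nat_lit 200) (nat_lit 198)))) (XT.nd (nat_lit 94) (nat_lit 672) (nat_lit 0) (XT.lf (nat_lit 0) (nat_lit 2002005487) (nat_lit 252) (nat_lit 3662995007) (nat_lit 84) (nat_lit 794315639) (nat_lit 547) (nat_lit 5) (nat_lit 550) (nat_lit 5) (nat_lit 548) (nat_lit 5) (nat_lit 203) (nat_lit 200) (nat_lit 197)) (XT.nd (nat_lit 94) (nat_lit 336) (nat_lit 0) (XT.lf (nat_lit 0) (nat_lit 351441762) (nat_lit 336) (nat_lit 4720948816) (nat_lit 84) (nat_lit 1400344072) (nat_lit 543) (nat_lit 5) (nat_lit 547) (nat_lit 5) (nat_lit 544) (nat_lit 5) (nat_lit 204) (nat_lit 200) (nat_lit 196)) (XT.lf (nat_lit 0) (nat_lit 781020973) (nat_lit 336) (nat_lit 4301555848) (nat_lit 420) (nat_lit 1407271535) (nat_lit 539) (nat_lit 5) (nat_lit 543) (nat_lit 5) (nat_lit 544) (nat_lit 5) (nat_lit 205) (nat_lit 200) (nat_lit 195))))) (XT.nd (nat_lit 282) (nat_lit 2184) (nat_lit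 0) (XT.nd (nat_lit 94) (nat_lit 1008) (nat_lit 0) (XT.lf (nat_lit 0) (nat_lit 3249499717) (nat_lit 420) (nat_lit 108062145) (nat_lit 84) (nat_lit 3153244327) (nat_lit 538) (nat_lit 5) (nat_lit 543) (nat_lit 5) (nat_lit 539) (nat_lit 5) (nat_lit 206) (nat_lit 200) (nat_lit 194)) (XT.nd (nat_lit 94) (nat_lit 504) (nat_lit 0) (XT.lf (nat_lit 0) (nat_lit 1332403627) (nat_lit 504) (nat_lit 904923861) (nat_lit 84) (nat_lit 4298263192) (nat_lit 532) (nat_lit 5) (nat_lit 538) (nat_lit 5) (nat_lit 533) (nat_lit 5) (nat_lit 207) (nat_lit 200) (nat_lit 193)) (XT.lf (nat_lit 0) (nat_lit 4938125902) (nat_lit 504) (nat_lit 939899323) (nat_lit 588) (nat_lit 686213957) (nat_lit 526) (nat_lit 5) (nat_lit 532) (nat_lit 5) (nat_lit 533) (nat_lit 5) (nat_lit 208) (nat_lit 200) (nat_lit 192)))) (XT.nd (nat_lit 94) (nat_lit 1512) (nat_lit 0) (XT.lf (nat_lit 0) (nat_lit 3781022638) (nat_lit 672) (nat_lit 2281200362) (nat_lit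 84) (nat_lit 534350607) (nat_lit 518) (nat_lit 5) (nat_lit 526) (nat_lit 5) (nat_lit 519) (nat_lit 5) (nat_lit 209) (nat_lit 200) (nat_lit 191)) (XT.nd (nat_lit 94) (nat_lit 756) (nat_lit 0) (XT.lf (nat_lit 0) (nat_lit 1598440360) (nat_lit 756) (nat_lit 2864830052) (nat_lit 84) (nat_lit 2169474722) (nat_lit 509) (nat_lit 5) (nat_lit 518) (nat_lit 5) (nat_lit 510) (nat_lit 5) (nat_lit 210) (nat_lit 200) (nat_lit 190)) (XT.lf (nat_lit 0) (nat_lit 3297537747) (nat_lit 756) (nat_lit 2686512154) (nat_lit 840) (nat_lit 688775876) (nat_lit 500) (nat_lit 5) (nat_lit 509) (nat_lit 5) (nat_lit 510) (nat_lit 5) (nat_lit 211) (nat_lit 200) (nat_lit 189)))))) (XT.nd (nat_lit 564) (nat_lit 11508) (nat_lit 0) (XT.nd (nat_lit 282) (nat_lit 3696) (nat_lit 0) (XT.nd (nat_lit 94) (nat_lit 2016) (nat_lit 0) (XT.lf (nat_lit 0) (nat_lit 2896814822) (nat_lit 840) (nat_lit 721817336) (nat_lit 924) (nat_lit 3098058003) (nat_lit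 489) (nat_lit 5) (nat_lit 499) (nat_lit 5) (nat_lit 500) (nat_lit 5) (nat_lit 212) (nat_lit 200) (nat_lit 188)) (XT.nd (nat_lit 94) (nat_lit 1008) (nat_lit 0) (XT.lf (nat_lit 0) (nat_lit 1165966866) (nat_lit 1008) (nat_lit 4197015790) (nat_lit 84) (nat_lit 1401426521) (nat_lit 477) (nat_lit 5) (nat_lit 489) (nat_lit 5) (nat_lit 478) (nat_lit 5) (nat_lit 213) (nat_lit 200) (nat_lit 187)) (XT.lf (nat_lit 0) (nat_lit 2303166371) (nat_lit 1008) (nat_lit 3112068975) (nat_lit 1092) (nat_lit 1400652419) (nat_lit 465) (nat_lit 5) (nat_lit 477) (nat_lit 5) (nat_lit 478) (nat_lit 5) (nat_lit 214) (nat_lit 200) (nat_lit 186)))) (XT.nd (nat_lit 94) (nat_lit 2520) (nat_lit 0) (XT.lf (nat_lit 0) (nat_lit 2110643627) (nat_lit 1092) (nat_lit 672980417) (nat_lit 1176) (nat_lit 4087679401) (nat_lit 451) (nat_lit 5) (nat_lit 464) (nat_lit 5) (nat_lit 465) (nat_lit 5) (nat_lit 215) (nat_lit 200) (nat_lit 185)) (XT.nd (nat_lit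 94) (nat_lit 1260) (nat_lit 0) (XT.lf (nat_lit 0) (nat_lit 63558522) (nat_lit 1260) (nat_lit 4945810788) (nat_lit 84) (nat_lit 1921216591) (nat_lit 436) (nat_lit 5) (nat_lit 451) (nat_lit 5) (nat_lit 437) (nat_lit 5) (nat_lit 216) (nat_lit 200) (nat_lit 184)) (XT.lf (nat_lit 0) (nat_lit 1913791275) (nat_lit 1260) (nat_lit 2283500786) (nat_lit 1344) (nat_lit 2796229127) (nat_lit 421) (nat_lit 5) (nat_lit 436) (nat_lit 5) (nat_lit 437) (nat_lit 5) (nat_lit 217) (nat_lit 200) (nat_lit 183))))) (XT.nd (nat_lit 282) (nat_lit 7056) (nat_lit 0) (XT.nd (nat_lit 94) (nat_lit 3024) (nat_lit 0) (XT.lf (nat_lit 0) (nat_lit 1299046791) (nat_lit 1428) (nat_lit 5142713900) (nat_lit 84) (nat_lit 618823439) (nat_lit 404) (nat_lit 5) (nat_lit 421) (nat_lit 5) (nat_lit 405) (nat_lit 5) (nat_lit 218) (nat_lit 200) (nat_lit 182)) (XT.nd (nat_lit 94) (nat_lit 1596) (nat_lit 0) (XT.lf (nat_lit 0) (nat_lit 1972429027) (nat_lit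 1428) (nat_lit 3444165523) (nat_lit 1512) (nat_lit 1714692517) (nat_lit 387) (nat_lit 5) (nat_lit 404) (nat_lit 5) (nat_lit 405) (nat_lit 5) (nat_lit 219) (nat_lit 200) (nat_lit 181)) (XT.lf (nat_lit 0) (nat_lit 2097121410) (nat_lit 1512) (nat_lit 249278738) (nat_lit 1596) (nat_lit 4859695535) (nat_lit 368) (nat_lit 5) (nat_lit 386) (nat_lit 5) (nat_lit 387) (nat_lit 5) (nat_lit 220) (nat_lit 200) (nat_lit 180)))) (XT.nd (nat_lit 188) (nat_lit 3696) (nat_lit 0) (XT.nd (nat_lit 94) (nat_lit 1764) (nat_lit 0) (XT.lf (nat_lit 0) (nat_lit 2273754635) (nat_lit 1596) (nat_lit 4185879219) (nat_lit 1680) (nat_lit 825028218) (nat_lit 349) (nat_lit 5) (nat_lit 368) (nat_lit 5) (nat_lit 369) (nat_lit 5) (nat_lit 221) (nat_lit 200) (nat_lit 179)) (XT.lf (nat_lit 0) (nat_lit 2510961513) (nat_lit 1680) (nat_lit 711457736) (nat_lit 1764) (nat_lit 4144797664) (nat_lit 328) (nat_lit 5) (nat_lit 348) (nat_lit 5) (nat_lit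 349) (nat_lit 5) (nat_lit 222) (nat_lit 200) (nat_lit 178))) (XT.nd (nat_lit 94) (nat_lit 1932) (nat_lit 0) (XT.lf (nat_lit 0) (nat_lit 2806787124) (nat_lit 1764) (nat_lit 4536224590) (nat_lit 1848) (nat_lit 110752413) (nat_lit 307) (nat_lit 5) (nat_lit 328) (nat_lit 5) (nat_lit 329) (nat_lit 5) (nat_lit 223) (nat_lit 200) (nat_lit 177)) (XT.lf (nat_lit 0) (nat_lit 3153692114) (nat_lit 1848) (nat_lit 784748527) (nat_lit 1932) (nat_lit 3605747951) (nat_lit 284) (nat_lit 5) (nat_lit 306) (nat_lit 5) (nat_lit 307) (nat_lit 5) (nat_lit 224) (nat_lit 200) (nat_lit 176))))))) (XT.nd (nat_lit 1128) (nat_lit 6720) (nat_lit 0) (XT.nd (nat_lit 564) (nat_lit 5460) (nat_lit 0) (XT.nd (nat_lit 282) (nat_lit 2604) (nat_lit 0) (XT.nd (nat_lit 94) (nat_lit 1932) (nat_lit 0) (XT.lf (nat_lit 0) (nat_lit 436816356) (nat_lit 1176) (nat_lit 4079677903) (nat_lit 84) (nat_lit 3122202480) (nat_lit 270) (nat_lit 5) (nat_lit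 284) (nat_lit 5) (nat_lit 271) (nat_lit 5) (nat_lit 225) (nat_lit 200) (nat_lit 175)) (XT.nd (nat_lit 94) (nat_lit 1008) (nat_lit 0) (XT.lf (nat_lit 0) (nat_lit 4016703612) (nat_lit 924) (nat_lit 492241816) (nat_lit 1008) (nat_lit 3228262214) (nat_lit 259) (nat_lit 5) (nat_lit 270) (nat_lit 5) (nat_lit 271) (nat_lit 5) (nat_lit 226) (nat_lit 200) (nat_lit 174)) (XT.lf (nat_lit 0) (nat_lit 838350214) (nat_lit 1008) (nat_lit 3313514812) (nat_lit 84) (nat_lit 3687896360) (nat_lit 247) (nat_lit 5) (nat_lit 259) (nat_lit 5) (nat_lit 248) (nat_lit 5) (nat_lit 227) (nat_lit 200) (nat_lit 173)))) (XT.nd (nat_lit 94) (nat_lit 1764) (nat_lit 0) (XT.lf (nat_lit 0) (nat_lit 4948245634) (nat_lit 924) (nat_lit 2854620299) (nat_lit 84) (nat_lit 143635292) (nat_lit 237) (nat_lit 5) (nat_lit 248) (nat_lit 5) (nat_lit 238) (nat_lit 5) (nat_lit 228) (nat_lit 200) (nat_lit 172)) (XT.nd (nat_lit 94) (nat_lit 840) (nat_lit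 0) (XT.lf (nat_lit 0) (nat_lit 1107860299) (nat_lit 924) (nat_lit 2354263727) (nat_lit 84) (nat_lit 4595127979) (nat_lit 226) (nat_lit 5) (nat_lit 237) (nat_lit 5) (nat_lit 227) (nat_lit 5) (nat_lit 229) (nat_lit 200) (nat_lit 171)) (XT.lf (nat_lit 0) (nat_lit 5273321192) (nat_lit 924) (nat_lit 1803541318) (nat_lit 84) (nat_lit 1095403056) (nat_lit 216) (nat_lit 5) (nat_lit 227) (nat_lit 5) (nat_lit 217) (nat_lit 5) (nat_lit 230) (nat_lit 200) (nat_lit 170))))) (XT.nd (nat_lit 282) (nat_lit 2184) (nat_lit 0) (XT.nd (nat_lit 94) (nat_lit 2352) (nat_lit 0) (XT.lf (nat_lit 0) (nat_lit 1256708890) (nat_lit 924) (nat_lit 1207125905) (nat_lit 84) (nat_lit 5827661654) (nat_lit 205) (nat_lit 5) (nat_lit 216) (nat_lit 5) (nat_lit 206) (nat_lit 5) (nat_lit 231) (nat_lit 200) (nat_lit 169)) (XT.nd (nat_lit 94) (nat_lit 1596) (nat_lit 0) (XT.lf (nat_lit 0) (nat_lit 5491738440) (nat_lit 840) (nat_lit 568215487)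 (nat_lit 84) (nat_lit 2354979124) (nat_lit 196) (nat_lit 5) (nat_lit 206) (nat_lit 5) (nat_lit 197) (nat_lit 5) (nat_lit 232) (nat_lit 200) (nat_lit 168)) (XT.lf (nat_lit 0) (nat_lit 125796422) (nat_lit 756) (nat_lit 1170400545) (nat_lit 840) (nat_lit 7246656370) (nat_lit 177) (nat_lit 5) (nat_lit 186) (nat_lit 5) (nat_lit 187) (nat_lit 5) (nat_lit 233) (nat_lit 200) (nat_lit 167)))) (XT.nd (nat_lit 94) (nat_lit 1428) (nat_lit 0) (XT.lf (nat_lit 0) (nat_lit 860538118) (nat_lit 756) (nat_lit 4759275616) (nat_lit 840) (nat_lit 3054960252) (nat_lit 168) (nat_lit 5) (nat_lit 177) (nat_lit 5) (nat_lit 178) (nat_lit 5) (nat_lit 234) (nat_lit 200) (nat_lit 166)) (XT.nd (nat_lit 94) (nat_lit 672) (nat_lit 0) (XT.lf (nat_lit 0) (nat_lit 1247956963) (nat_lit 756) (nat_lit 7154221422) (nat_lit 84) (nat_lit 409306399) (nat_lit 159) (nat_lit 5) (nat_lit 168) (nat_lit 5) (nat_lit 160) (nat_lit 5) (nat_lit 235) (nat_lit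 200) (nat_lit 165)) (XT.lf (nat_lit 0) (nat_lit 2479209789) (nat_lit 672) (nat_lit 3186992732) (nat_lit 756) (nat_lit 3286056554) (nat_lit 151) (nat_lit 5) (nat_lit 159) (nat_lit 5) (nat_lit 160) (nat_lit 5) (nat_lit 236) (nat_lit 200) (nat_lit 164)))))) (XT.nd (nat_lit 564) (nat_lit 2772) (nat_lit 0) (XT.nd (nat_lit 282) (nat_lit 1848) (nat_lit 0) (XT.nd (nat_lit 94) (nat_lit 1344) (nat_lit 0) (XT.lf (nat_lit 0) (nat_lit 1119325228) (nat_lit 756) (nat_lit 5737306498) (nat_lit 84) (nat_lit 2241267945) (nat_lit 142) (nat_lit 5) (nat_lit 151) (nat_lit 5) (nat_lit 143) (nat_lit 5) (nat_lit 237) (nat_lit 200) (nat_lit 163)) (XT.nd (nat_lit 94) (nat_lit 672) (nat_lit 0) (XT.lf (nat_lit 0) (nat_lit 4278572150) (nat_lit 672) (nat_lit 1356880347) (nat_lit 756) (nat_lit 3612530254) (nat_lit 134) (nat_lit 5) (nat_lit 142) (nat_lit 5) (nat_lit 143) (nat_lit 5) (nat_lit 238) (nat_lit 200) (nat_lit 162)) (XT.lf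 (nat_lit 0) (nat_lit 909935879) (nat_lit 672) (nat_lit 4158873034) (nat_lit 84) (nat_lit 4334001176) (nat_lit 126) (nat_lit 5) (nat_lit 134) (nat_lit 5) (nat_lit 127) (nat_lit 5) (nat_lit 239) (nat_lit 200) (nat_lit 161)))) (XT.nd (nat_lit 94) (nat_lit 1260) (nat_lit 0) (XT.lf (nat_lit 0) (nat_lit 5540725107) (nat_lit 672) (nat_lit 3308855183) (nat_lit 84) (nat_lit 712804580) (nat_lit 119) (nat_lit 5) (nat_lit 127) (nat_lit 5) (nat_lit 120) (nat_lit 5) (nat_lit 240) (nat_lit 200) (nat_lit 160)) (XT.nd (nat_lit 94) (nat_lit 588) (nat_lit 0) (XT.lf (nat_lit 0) (nat_lit 627135116) (nat_lit 672) (nat_lit 2418799905) (nat_lit 84) (nat_lit 6680858800) (nat_lit 111) (nat_lit 5) (nat_lit 119) (nat_lit 5) (nat_lit 112) (nat_lit 5) (nat_lit 241) (nat_lit 200) (nat_lit 159)) (XT.lf (nat_lit 0) (nat_lit 5395701370) (nat_lit 672) (nat_lit 1497013734) (nat_lit 84) (nat_lit 3003215341) (nat_lit 104) (nat_lit 5) (nat_lit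 112) (nat_lit 5) (nat_lit 105) (nat_lit 5) (nat_lit 242) (nat_lit 200) (nat_lit 158))))) (XT.nd (nat_lit 282) (nat_lit 588) (nat_lit 0) (XT.nd (nat_lit 94) (nat_lit 1596) (nat_lit 0) (XT.lf (nat_lit 0) (nat_lit 277706284) (nat_lit 588) (nat_lit 515984406) (nat_lit 84) (nat_lit 9276787378) (nat_lit 97) (nat_lit 5) (nat_lit 104) (nat_lit 5) (nat_lit 98) (nat_lit 5) (nat_lit 243) (nat_lit 200) (nat_lit 157)) (XT.nd (nat_lit 94) (nat_lit 504) (nat_lit 0) (XT.lf (nat_lit 0) (nat_lit 484377221) (nat_lit 504) (nat_lit 4716668198) (nat_lit 588) (nat_lit 5048363750) (nat_lit 84) (nat_lit 5) (nat_lit 90) (nat_lit 5) (nat_lit 91) (nat_lit 5) (nat_lit 244) (nat_lit 200) (nat_lit 156)) (XT.lf (nat_lit 0) (nat_lit 1561157193) (nat_lit 504) (nat_lit 8762479669) (nat_lit 588) (nat_lit 110373417) (nat_lit 78) (nat_lit 5) (nat_lit 84) (nat_lit 5) (nat_lit 85) (nat_lit 5) (nat_lit 245) (nat_lit 200) (nat_lit 155)))) (XT.nd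 (nat_lit 33558) (nat_lit 0) (nat_lit 39564) (XT.nd (nat_lit 33464) (nat_lit 0) (nat_lit 40152) (XT.lf (nat_lit 0) (nat_lit 2655182464) (nat_lit 504) (nat_lit 2316564513) (nat_lit 588) (nat_lit 5651588724) (nat_lit 71) (nat_lit 5) (nat_lit 77) (nat_lit 5) (nat_lit 78) (nat_lit 5) (nat_lit 246) (nat_lit 200) (nat_lit 154)) (XT.lf (nat_lit 0) (nat_lit 1739503460) (nat_lit 252) (nat_lit 742213713) (nat_lit 252) (nat_lit 742213713) (nat_lit 549) (nat_lit 3) (nat_lit 552) (nat_lit 3) (nat_lit 552) (nat_lit 5) (nat_lit 201) (nat_lit 201) (nat_lit 198))) (XT.nd (nat_lit 94) (nat_lit 336) (nat_lit 0) (XT.lf (nat_lit 0) (nat_lit 1827794587) (nat_lit 252) (nat_lit 2791765511) (nat_lit 336) (nat_lit 1835900559) (nat_lit 546) (nat_lit 5) (nat_lit 549) (nat_lit 3) (nat_lit 550) (nat_lit 5) (nat_lit 202) (nat_lit 201) (nat_lit 197)) (XT.lf (nat_lit 0) (nat_lit 90870616) (nat_lit 336) (nat_lit 4017686854) (nat_lit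 420) (nat_lit 2358427218) (nat_lit 542) (nat_lit 5) (nat_lit 546) (nat_lit 5) (nat_lit 547) (nat_lit 5) (nat_lit 203) (nat_lit 201) (nat_lit 196))))))))
noncomputable def xc12 : XT := (XT.nd (nat_lit 2256) (nat_lit 14280) (nat_lit 0) (XT.nd (nat_lit 1128) (nat_lit 17136) (nat_lit 0) (XT.nd (nat_lit 564) (nat_lit 5544) (nat_lit 0) (XT.nd (nat_lit 282) (nat_lit 1176) (nat_lit 0) (XT.nd (nat_lit 94) (nat_lit 924) (nat_lit 0) (XT.lf (nat_lit 84) (nat_lit 1306552418) (nat_lit 0) (nat_lit 3416870374) (nat_lit 420) (nat_lit 1758745920) (nat_lit 543) (nat_lit 5) (nat_lit 542) (nat_lit 5) (nat_lit 547) (nat_lit 5) (nat_lit 204) (nat_lit 201) (nat_lit 195)) (XT.nd (nat_lit 94) (nat_lit 504) (nat_lit 0) (XT.lf (nat_lit 84) (nat_lit 246172606) (nat_lit 0) (nat_lit 2554971092) (nat_lit 504) (nat_lit 3700130056) (nat_lit 538) (nat_lit 5) (nat_lit 537) (nat_lit 5) (nat_lit 543) (nat_lit 5) (nat_lit 205) (nat_lit 201)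 (nat_lit 194)) (XT.lf (nat_lit 0) (nat_lit 795658900) (nat_lit 504) (nat_lit 721278122) (nat_lit 588) (nat_lit 5007279870) (nat_lit 531) (nat_lit 5) (nat_lit 537) (nat_lit 5) (nat_lit 538) (nat_lit 5) (nat_lit 206) (nat_lit 201) (nat_lit 193)))) (XT.nd (nat_lit 94) (nat_lit 1176) (nat_lit 0) (XT.lf (nat_lit 84) (nat_lit 4937015520) (nat_lit 0) (nat_lit 295784747) (nat_lit 588) (nat_lit 1318101136) (nat_lit 532) (nat_lit 5) (nat_lit 531) (nat_lit 5) (nat_lit 538) (nat_lit 5) (nat_lit 207) (nat_lit 201) (nat_lit 192)) (XT.nd (nat_lit 94) (nat_lit 672) (nat_lit 0) (XT.lf (nat_lit 0) (nat_lit 3051266376) (nat_lit 588) (nat_lit 2440497450) (nat_lit 84) (nat_lit 1089518474) (nat_lit 525) (nat_lit 5) (nat_lit 532) (nat_lit 5) (nat_lit 526) (nat_lit 5) (nat_lit 208) (nat_lit 201) (nat_lit 191)) (XT.lf (nat_lit 0) (nat_lit 780209546) (nat_lit 672) (nat_lit 3191134700) (nat_lit 84) (nat_lit 2644268848) (nat_lit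 517) (nat_lit 5) (nat_lit 525) (nat_lit 5) (nat_lit 518) (nat_lit 5) (nat_lit 209) (nat_lit 201) (nat_lit 190))))) (XT.nd (nat_lit 282) (nat_lit 3108) (nat_lit 0) (XT.nd (nat_lit 94) (nat_lit 1764) (nat_lit 0) (XT.lf (nat_lit 0) (nat_lit 2778396842) (nat_lit 672) (nat_lit 2267261430) (nat_lit 756) (nat_lit 1608060895) (nat_lit 509) (nat_lit 5) (nat_lit 517) (nat_lit 5) (nat_lit 518) (nat_lit 5) (nat_lit 210) (nat_lit 201) (nat_lit 189)) (XT.nd (nat_lit 94) (nat_lit 924) (nat_lit 0) (XT.lf (nat_lit 0) (nat_lit 2207750523) (nat_lit 756) (nat_lit 382244879) (nat_lit 840) (nat_lit 4105752391) (nat_lit 499) (nat_lit 5) (nat_lit 508) (nat_lit 5) (nat_lit 509) (nat_lit 5) (nat_lit 211) (nat_lit 201) (nat_lit 188)) (XT.lf (nat_lit 0) (nat_lit 49640629) (nat_lit 924) (nat_lit 5035443408) (nat_lit 84) (nat_lit 1656513556) (nat_lit 488) (nat_lit 5) (nat_lit 499) (nat_lit 5) (nat_lit 489) (nat_lit 5) (nat_lit 212)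 (nat_lit 201) (nat_lit 187)))) (XT.nd (nat_lit 94) (nat_lit 2184) (nat_lit 0) (XT.lf (nat_lit 0) (nat_lit 1262855133) (nat_lit 924) (nat_lit 2904232138) (nat_lit 1008) (nat_lit 2623986878) (nat_lit 477) (nat_lit 5) (nat_lit 488) (nat_lit 5) (nat_lit 489) (nat_lit 5) (nat_lit 213) (nat_lit 201) (nat_lit 186)) (XT.nd (nat_lit 94) (nat_lit 1092) (nat_lit 0) (XT.lf (nat_lit 0) (nat_lit 898943636) (nat_lit 1008) (nat_lit 544764580) (nat_lit 1092) (nat_lit 5400961283) (nat_lit 464) (nat_lit 5) (nat_lit 476) (nat_lit 5) (nat_lit 477) (nat_lit 5) (nat_lit 214) (nat_lit 201) (nat_lit 185)) (XT.lf (nat_lit 0) (nat_lit 590578779) (nat_lit 1092) (nat_lit 4924331616) (nat_lit 1176) (nat_lit 1386999097) (nat_lit 451) (nat_lit 5) (nat_lit 464) (nat_lit 5) (nat_lit 465) (nat_lit 5) (nat_lit 215) (nat_lit 201) (nat_lit 184)))))) (XT.nd (nat_lit 564) (nat_lit 8484) (nat_lit 0) (XT.nd (nat_lit 282) (nat_lit 4704) (nat_lit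 0) (XT.nd (nat_lit 94) (nat_lit 2688) (nat_lit 0) (XT.lf (nat_lit 0) (nat_lit 346228139) (nat_lit 1176) (nat_lit 2276940727) (nat_lit 1260) (nat_lit 4339847628) (nat_lit 436) (nat_lit 5) (nat_lit 450) (nat_lit 5) (nat_lit 451) (nat_lit 5) (nat_lit 216) (nat_lit 201) (nat_lit 183)) (XT.nd (nat_lit 94) (nat_lit 1428) (nat_lit 0) (XT.lf (nat_lit 0) (nat_lit 174364854) (nat_lit 1260) (nat_lit 6479707178) (nat_lit 1344) (nat_lit 374142019) (nat_lit 421) (nat_lit 5) (nat_lit 436) (nat_lit 5) (nat_lit 437) (nat_lit 5) (nat_lit 217) (nat_lit 201) (nat_lit 182)) (XT.lf (nat_lit 0) (nat_lit 44518371) (nat_lit 1344) (nat_lit 3551228107) (nat_lit 1428) (nat_lit 3501141983) (nat_lit 404) (nat_lit 5) (nat_lit 420) (nat_lit 5) (nat_lit 421) (nat_lit 5) (nat_lit 218) (nat_lit 201) (nat_lit 181)))) (XT.nd (nat_lit 94) (nat_lit 4620) (nat_lit 0) (XT.lf (nat_lit 0) (nat_lit 430330825) (nat_lit 1428) (nat_lit 6556176)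 (nat_lit 84) (nat_lit 6732984146) (nat_lit 403) (nat_lit 5) (nat_lit 420) (nat_lit 5) (nat_lit 404) (nat_lit 5) (nat_lit 219) (nat_lit 201) (nat_lit 180)) (XT.nd (nat_lit 94) (nat_lit 3192) (nat_lit 0) (XT.lf (nat_lit 0) (nat_lit 4379571869) (nat_lit 1512) (nat_lit 19650794) (nat_lit 84) (nat_lit 2847105790) (nat_lit 386) (nat_lit 5) (nat_lit 404) (nat_lit 5) (nat_lit 387) (nat_lit 5) (nat_lit 220) (nat_lit 201) (nat_lit 179)) (XT.lf (nat_lit 0) (nat_lit 38901565) (nat_lit 1596) (nat_lit 1005938497) (nat_lit 1680) (nat_lit 6282209233) (nat_lit 348) (nat_lit 5) (nat_lit 367) (nat_lit 5) (nat_lit 368) (nat_lit 5) (nat_lit 221) (nat_lit 201) (nat_lit 178))))) (XT.nd (nat_lit 282) (nat_lit 3108) (nat_lit 0) (XT.nd (nat_lit 94) (nat_lit 3696) (nat_lit 0) (XT.lf (nat_lit 0) (nat_lit 140939842) (nat_lit 1680) (nat_lit 4849712105) (nat_lit 1764) (nat_lit 2420797454) (nat_lit 328) (nat_lit 5) (nat_lit 348) (nat_lit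 5) (nat_lit 349) (nat_lit 5) (nat_lit 222) (nat_lit 201) (nat_lit 177)) (XT.nd (nat_lit 94) (nat_lit 1848) (nat_lit 0) (XT.lf (nat_lit 0) (nat_lit 306575649) (nat_lit 1764) (nat_lit 1180020509) (nat_lit 1848) (nat_lit 6013422789) (nat_lit 306) (nat_lit 5) (nat_lit 327) (nat_lit 5) (nat_lit 328) (nat_lit 5) (nat_lit 223) (nat_lit 201) (nat_lit 176)) (XT.lf (nat_lit 0) (nat_lit 516939864) (nat_lit 1848) (nat_lit 4927488713) (nat_lit 1932) (nat_lit 2147972318) (nat_lit 284) (nat_lit 5) (nat_lit 306) (nat_lit 5) (nat_lit 307) (nat_lit 5) (nat_lit 224) (nat_lit 201) (nat_lit 175)))) (XT.nd (nat_lit 94) (nat_lit 1932) (nat_lit 0) (XT.lf (nat_lit 0) (nat_lit 786830543) (nat_lit 1092) (nat_lit 982965240) (nat_lit 1176) (nat_lit 5919168403) (nat_lit 270) (nat_lit 5) (nat_lit 283) (nat_lit 5) (nat_lit 284) (nat_lit 5) (nat_lit 225) (nat_lit 201) (nat_lit 174)) (XT.nd (nat_lit 94) (nat_lit 1008) (nat_lit 0) (XT.lf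 (nat_lit 0) (nat_lit 1099444700) (nat_lit 924) (nat_lit 4655040570) (nat_lit 1008) (nat_lit 2034913488) (nat_lit 259) (nat_lit 5) (nat_lit 270) (nat_lit 5) (nat_lit 271) (nat_lit 5) (nat_lit 226) (nat_lit 201) (nat_lit 173)) (XT.lf (nat_lit 0) (nat_lit 1471684076) (nat_lit 924) (nat_lit 435740670) (nat_lit 1008) (nat_lit 5986696641) (nat_lit 247) (nat_lit 5) (nat_lit 258) (nat_lit 5) (nat_lit 259) (nat_lit 5) (nat_lit 227) (nat_lit 201) (nat_lit 172))))))) (XT.nd (nat_lit 1128) (nat_lit 4116) (nat_lit 0) (XT.nd (nat_lit 564) (nat_lit 5040) (nat_lit 0) (XT.nd (nat_lit 282) (nat_lit 2520) (nat_lit 0) (XT.nd (nat_lit 94) (nat_lit 1764) (nat_lit 0) (XT.lf (nat_lit 0) (nat_lit 1881330456) (nat_lit 840) (nat_lit 4052043105) (nat_lit 924) (nat_lit 2069334490) (nat_lit 237) (nat_lit 5) (nat_lit 247) (nat_lit 5) (nat_lit 248) (nat_lit 5) (nat_lit 228) (nat_lit 201) (nat_lit 171)) (XT.nd (nat_lit 94) (nat_lit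 840) (nat_lit 0) (XT.lf (nat_lit 0) (nat_lit 1914480131) (nat_lit 924) (nat_lit 5764321690) (nat_lit 84) (nat_lit 436907719) (nat_lit 226) (nat_lit 5) (nat_lit 237) (nat_lit 5) (nat_lit 227) (nat_lit 5) (nat_lit 229) (nat_lit 201) (nat_lit 170)) (XT.lf (nat_lit 0) (nat_lit 2856876626) (nat_lit 840) (nat_lit 3135700898) (nat_lit 924) (nat_lit 2240067574) (nat_lit 216) (nat_lit 5) (nat_lit 226) (nat_lit 5) (nat_lit 227) (nat_lit 5) (nat_lit 230) (nat_lit 201) (nat_lit 169)))) (XT.nd (nat_lit 94) (nat_lit 1596) (nat_lit 0) (XT.lf (nat_lit 0) (nat_lit 1803953545) (nat_lit 924) (nat_lit 4935468899) (nat_lit 84) (nat_lit 1614597412) (nat_lit 205) (nat_lit 5) (nat_lit 216) (nat_lit 5) (nat_lit 206) (nat_lit 5) (nat_lit 231) (nat_lit 201) (nat_lit 168)) (XT.nd (nat_lit 94) (nat_lit 840) (nat_lit 0) (XT.lf (nat_lit 0) (nat_lit 4021686028) (nat_lit 756) (nat_lit 1920925411) (nat_lit 840) (nat_lit 2536965196)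 (nat_lit 196) (nat_lit 5) (nat_lit 205) (nat_lit 5) (nat_lit 206) (nat_lit 5) (nat_lit 232) (nat_lit 201) (nat_lit 167)) (XT.lf (nat_lit 0) (nat_lit 1582488818) (nat_lit 840) (nat_lit 3936915185) (nat_lit 84) (nat_lit 3090108632) (nat_lit 186) (nat_lit 5) (nat_lit 196) (nat_lit 5) (nat_lit 187) (nat_lit 5) (nat_lit 233) (nat_lit 201) (nat_lit 166))))) (XT.nd (nat_lit 282) (nat_lit 2772) (nat_lit 0) (XT.nd (nat_lit 94) (nat_lit 1512) (nat_lit 0) (XT.lf (nat_lit 0) (nat_lit 5372614065) (nat_lit 756) (nat_lit 420495340) (nat_lit 840) (nat_lit 2950809796) (nat_lit 177) (nat_lit 5) (nat_lit 186) (nat_lit 5) (nat_lit 187) (nat_lit 5) (nat_lit 234) (nat_lit 201) (nat_lit 165)) (XT.nd (nat_lit 94) (nat_lit 672) (nat_lit 0) (XT.lf (nat_lit 0) (nat_lit 1258984447) (nat_lit 840) (nat_lit 2771634056) (nat_lit 84) (nat_lit 4852010878) (nat_lit 167) (nat_lit 5) (nat_lit 177) (nat_lit 5) (nat_lit 168) (nat_lit 5)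 (nat_lit 235) (nat_lit 201) (nat_lit 164)) (XT.lf (nat_lit 0) (nat_lit 5562558154) (nat_lit 756) (nat_lit 2128082704) (nat_lit 84) (nat_lit 1335285596) (nat_lit 159) (nat_lit 5) (nat_lit 168) (nat_lit 5) (nat_lit 160) (nat_lit 5) (nat_lit 236) (nat_lit 201) (nat_lit 163)))) (XT.nd (nat_lit 94) (nat_lit 2016) (nat_lit 0) (XT.lf (nat_lit 0) (nat_lit 841567623) (nat_lit 756) (nat_lit 1441489957) (nat_lit 84) (nat_lit 6890803250) (nat_lit 150) (nat_lit 5) (nat_lit 159) (nat_lit 5) (nat_lit 151) (nat_lit 5) (nat_lit 237) (nat_lit 201) (nat_lit 162)) (XT.nd (nat_lit 94) (nat_lit 1344) (nat_lit 0) (XT.lf (nat_lit 0) (nat_lit 5254310553) (nat_lit 756) (nat_lit 724795319) (nat_lit 84) (nat_lit 3347112492) (nat_lit 142) (nat_lit 5) (nat_lit 151) (nat_lit 5) (nat_lit 143) (nat_lit 5) (nat_lit 238) (nat_lit 201) (nat_lit 161)) (XT.lf (nat_lit 0) (nat_lit 53481994) (nat_lit 588) (nat_lit 284564740) (nat_lit 672)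 (nat_lit 9145691776) (nat_lit 126) (nat_lit 5) (nat_lit 133) (nat_lit 5) (nat_lit 134) (nat_lit 5) (nat_lit 239) (nat_lit 201) (nat_lit 160)))))) (XT.nd (nat_lit 564) (nat_lit 588) (nat_lit 0) (XT.nd (nat_lit 282) (nat_lit 1680) (nat_lit 0) (XT.nd (nat_lit 94) (nat_lit 1260) (nat_lit 0) (XT.lf (nat_lit 0) (nat_lit 853605625) (nat_lit 588) (nat_lit 4025255917) (nat_lit 672) (nat_lit 4766431186) (nat_lit 119) (nat_lit 5) (nat_lit 126) (nat_lit 5) (nat_lit 127) (nat_lit 5) (nat_lit 240) (nat_lit 201) (nat_lit 159)) (XT.nd (nat_lit 94) (nat_lit 672) (nat_lit 0) (XT.lf (nat_lit 0) (nat_lit 1720226819) (nat_lit 588) (nat_lit 7869296717) (nat_lit 672) (nat_lit 222737597) (nat_lit 112) (nat_lit 5) (nat_lit 119) (nat_lit 5) (nat_lit 120) (nat_lit 5) (nat_lit 241) (nat_lit 201) (nat_lit 158)) (XT.lf (nat_lit 0) (nat_lit 2608555260) (nat_lit 588) (nat_lit 1834828527) (nat_lit 672) (nat_lit 5540373241) (nat_lit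 104) (nat_lit 5) (nat_lit 111) (nat_lit 5) (nat_lit 112) (nat_lit 5) (nat_lit 242) (nat_lit 201) (nat_lit 157)))) (XT.nd (nat_lit 94) (nat_lit 1176) (nat_lit 0) (XT.lf (nat_lit 0) (nat_lit 3548024433) (nat_lit 504) (nat_lit 5754466925) (nat_lit 588) (nat_lit 858001962) (nat_lit 98) (nat_lit 5) (nat_lit 104) (nat_lit 5) (nat_lit 105) (nat_lit 5) (nat_lit 243) (nat_lit 201) (nat_lit 156)) (XT.nd (nat_lit 94) (nat_lit 504) (nat_lit 0) (XT.lf (nat_lit 0) (nat_lit 3953112354) (nat_lit 672) (nat_lit 5815348218) (nat_lit 84) (nat_lit 573839129) (nat_lit 90) (nat_lit 5) (nat_lit 98) (nat_lit 5) (nat_lit 91) (nat_lit 5) (nat_lit 244) (nat_lit 201) (nat_lit 155)) (XT.lf (nat_lit 0) (nat_lit 5543666327) (nat_lit 504) (nat_lit 3426469356) (nat_lit 588) (nat_lit 1559087626) (nat_lit 84) (nat_lit 5) (nat_lit 90) (nat_lit 5) (nat_lit 91) (nat_lit 5) (nat_lit 245) (nat_lit 201) (nat_lit 154))))) (XT.nd (nat_lit 33746)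 (nat_lit 0) (nat_lit 37548) (XT.nd (nat_lit 33558) (nat_lit 0) (nat_lit 38976) (XT.lf (nat_lit 0) (nat_lit 3424429163) (nat_lit 588) (nat_lit 4120684406) (nat_lit 84) (nat_lit 3176290525) (nat_lit 77) (nat_lit 5) (nat_lit 84) (nat_lit 5) (nat_lit 78) (nat_lit 5) (nat_lit 246) (nat_lit 201) (nat_lit 153)) (XT.nd (nat_lit 94) (nat_lit 0) (nat_lit 0) (XT.lf (nat_lit 0) (nat_lit 2027858) (nat_lit 420) (nat_lit 1615253225) (nat_lit 420) (nat_lit 1615253225) (nat_lit 541) (nat_lit 3) (nat_lit 546) (nat_lit 3) (nat_lit 546) (nat_lit 5) (nat_lit 202) (nat_lit 202) (nat_lit 196)) (XT.lf (nat_lit 84) (nat_lit 1920434929) (nat_lit 0) (nat_lit 2623540478) (nat_lit 420) (nat_lit 1934355239) (nat_lit 542) (nat_lit 5) (nat_lit 541) (nat_lit 3) (nat_lit 546) (nat_lit 5) (nat_lit 203) (nat_lit 202) (nat_lit 195)))) (XT.nd (nat_lit 188) (nat_lit 504) (nat_lit 0) (XT.nd (nat_lit 94) (nat_lit 504) (nat_lit 0) (XT.lf (nat_lit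 84) (nat_lit 689709174) (nat_lit 0) (nat_lit 1843147913) (nat_lit 504) (nat_lit 3962690387) (nat_lit 537) (nat_lit 5) (nat_lit 536) (nat_lit 5) (nat_lit 542) (nat_lit 5) (nat_lit 204) (nat_lit 202) (nat_lit 194)) (XT.lf (nat_lit 0) (nat_lit 437195123) (nat_lit 504) (nat_lit 451738128) (nat_lit 588) (nat_lit 5627730289) (nat_lit 530) (nat_lit 5) (nat_lit 536) (nat_lit 5) (nat_lit 537) (nat_lit 5) (nat_lit 205) (nat_lit 202) (nat_lit 193))) (XT.nd (nat_lit 94) (nat_lit 588) (nat_lit 0) (XT.lf (nat_lit 0) (nat_lit 4773750897) (nat_lit 504) (nat_lit 1516802229) (nat_lit 588) (nat_lit 250804371) (nat_lit 531) (nat_lit 5) (nat_lit 537) (nat_lit 5) (nat_lit 538) (nat_lit 5) (nat_lit 206) (nat_lit 202) (nat_lit 192)) (XT.lf (nat_lit 0) (nat_lit 2504863560) (nat_lit 588) (nat_lit 2512916989) (nat_lit 672) (nat_lit 1552045561) (nat_lit 524) (nat_lit 5) (nat_lit 531) (nat_lit 5) (nat_lit 532) (nat_lit 5) (nat_lit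 207) (nat_lit 202) (nat_lit 191))))))))
noncomputable def xc13 : XT := (XT.nd (nat_lit 2350) (nat_lit 10248) (nat_lit 0) (XT.nd (nat_lit 1128) (nat_lit 16632) (nat_lit 0) (XT.nd (nat_lit 564) (nat_lit 7056) (nat_lit 0) (XT.nd (nat_lit 282) (nat_lit 1680) (nat_lit 0) (XT.nd (nat_lit 94) (nat_lit 756) (nat_lit 0) (XT.lf (nat_lit 0) (nat_lit 145023015) (nat_lit 672) (nat_lit 3430969761) (nat_lit 756) (nat_lit 3026311693) (nat_lit 516) (nat_lit 5) (nat_lit 524) (nat_lit 5) (nat_lit 525) (nat_lit 5) (nat_lit 208) (nat_lit 202) (nat_lit 190)) (XT.nd (nat_lit 94) (nat_lit 756) (nat_lit 0) (XT.lf (nat_lit 84) (nat_lit 2350532093) (nat_lit 0) (nat_lit 1946014100) (nat_lit 756) (nat_lit 2341908770) (nat_lit 517) (nat_lit 5) (nat_lit 516) (nat_lit 5) (nat_lit 525) (nat_lit 5) (nat_lit 209) (nat_lit 202) (nat_lit 189)) (XT.lf (nat_lit 84) (nat_lit 1609645850) (nat_lit 0) (nat_lit 140732733) (nat_lit 840) (nat_lit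 4928260763) (nat_lit 508) (nat_lit 5) (nat_lit 507) (nat_lit 5) (nat_lit 517) (nat_lit 5) (nat_lit 210) (nat_lit 202) (nat_lit 188)))) (XT.nd (nat_lit 94) (nat_lit 1008) (nat_lit 0) (XT.lf (nat_lit 0) (nat_lit 929834300) (nat_lit 756) (nat_lit 4901222860) (nat_lit 840) (nat_lit 891431575) (nat_lit 499) (nat_lit 5) (nat_lit 508) (nat_lit 5) (nat_lit 509) (nat_lit 5) (nat_lit 211) (nat_lit 202) (nat_lit 187)) (XT.nd (nat_lit 94) (nat_lit 84) (nat_lit 0) (XT.lf (nat_lit 0) (nat_lit 315126907) (nat_lit 840) (nat_lit 2798322128) (nat_lit 924) (nat_lit 3656678532) (nat_lit 488) (nat_lit 5) (nat_lit 498) (nat_lit 5) (nat_lit 499) (nat_lit 5) (nat_lit 212) (nat_lit 202) (nat_lit 186)) (XT.lf (nat_lit 0) (nat_lit 299699808) (nat_lit 924) (nat_lit 217164485) (nat_lit 84) (nat_lit 6305000067) (nat_lit 487) (nat_lit 5) (nat_lit 498) (nat_lit 5) (nat_lit 488) (nat_lit 5) (nat_lit 213) (nat_lit 202) (nat_lit 185)))))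 (XT.nd (nat_lit 282) (nat_lit 3948) (nat_lit 0) (XT.nd (nat_lit 94) (nat_lit 2184) (nat_lit 0) (XT.lf (nat_lit 0) (nat_lit 4239999678) (nat_lit 1008) (nat_lit 699391985) (nat_lit 84) (nat_lit 1937628072) (nat_lit 476) (nat_lit 5) (nat_lit 488) (nat_lit 5) (nat_lit 477) (nat_lit 5) (nat_lit 214) (nat_lit 202) (nat_lit 184)) (XT.nd (nat_lit 94) (nat_lit 1092) (nat_lit 0) (XT.lf (nat_lit 0) (nat_lit 1257170175) (nat_lit 1092) (nat_lit 1110695796) (nat_lit 84) (nat_lit 4568376645) (nat_lit 463) (nat_lit 5) (nat_lit 476) (nat_lit 5) (nat_lit 464) (nat_lit 5) (nat_lit 215) (nat_lit 202) (nat_lit 183)) (XT.lf (nat_lit 0) (nat_lit 5146015955) (nat_lit 1176) (nat_lit 1460757464) (nat_lit 84) (nat_lit 392588431) (nat_lit 450) (nat_lit 5) (nat_lit 464) (nat_lit 5) (nat_lit 451) (nat_lit 5) (nat_lit 216) (nat_lit 202) (nat_lit 182)))) (XT.nd (nat_lit 94) (nat_lit 2688) (nat_lit 0) (XT.lf (nat_lit 0) (nat_lit 1993718396)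 (nat_lit 1260) (nat_lit 1760996209) (nat_lit 84) (nat_lit 3311454537) (nat_lit 435) (nat_lit 5) (nat_lit 450) (nat_lit 5) (nat_lit 436) (nat_lit 5) (nat_lit 217) (nat_lit 202) (nat_lit 181)) (XT.nd (nat_lit 94) (nat_lit 1428) (nat_lit 0) (XT.lf (nat_lit 0) (nat_lit 5143267970) (nat_lit 1260) (nat_lit 709928799) (nat_lit 1344) (nat_lit 1283898619) (nat_lit 420) (nat_lit 5) (nat_lit 435) (nat_lit 5) (nat_lit 436) (nat_lit 5) (nat_lit 218) (nat_lit 202) (nat_lit 180)) (XT.lf (nat_lit 0) (nat_lit 2527347042) (nat_lit 1428) (nat_lit 2182557063) (nat_lit 84) (nat_lit 2501768921) (nat_lit 403) (nat_lit 5) (nat_lit 420) (nat_lit 5) (nat_lit 404) (nat_lit 5) (nat_lit 219) (nat_lit 202) (nat_lit 179)))))) (XT.nd (nat_lit 564) (nat_lit 6552) (nat_lit 0) (XT.nd (nat_lit 282) (nat_lit 5460) (nat_lit 0) (XT.nd (nat_lit 94) (nat_lit 3192) (nat_lit 0) (XT.lf (nat_lit 0) (nat_lit 4983674983) (nat_lit 1428) (nat_lit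 1389812908) (nat_lit 1512) (nat_lit 916910645) (nat_lit 386) (nat_lit 5) (nat_lit 403) (nat_lit 5) (nat_lit 404) (nat_lit 5) (nat_lit 220) (nat_lit 202) (nat_lit 178)) (XT.nd (nat_lit 94) (nat_lit 1596) (nat_lit 0) (XT.lf (nat_lit 0) (nat_lit 2874434480) (nat_lit 1596) (nat_lit 2388050391) (nat_lit 84) (nat_lit 2110356631) (nat_lit 367) (nat_lit 5) (nat_lit 386) (nat_lit 5) (nat_lit 368) (nat_lit 5) (nat_lit 221) (nat_lit 202) (nat_lit 177)) (XT.lf (nat_lit 0) (nat_lit 5050986346) (nat_lit 1596) (nat_lit 1668956287) (nat_lit 1680) (nat_lit 739505658) (nat_lit 348) (nat_lit 5) (nat_lit 367) (nat_lit 5) (nat_lit 368) (nat_lit 5) (nat_lit 222) (nat_lit 202) (nat_lit 176)))) (XT.nd (nat_lit 94) (nat_lit 3696) (nat_lit 0) (XT.lf (nat_lit 0) (nat_lit 3049876390) (nat_lit 1764) (nat_lit 2388456903) (nat_lit 84) (nat_lit 2111484570) (nat_lit 327) (nat_lit 5) (nat_lit 348) (nat_lit 5) (nat_lit 328) (nat_lit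 5) (nat_lit 223) (nat_lit 202) (nat_lit 175)) (XT.nd (nat_lit 94) (nat_lit 1932) (nat_lit 0) (XT.lf (nat_lit 0) (nat_lit 5335156640) (nat_lit 1764) (nat_lit 1571884458) (nat_lit 1848) (nat_lit 737373402) (nat_lit 306) (nat_lit 5) (nat_lit 327) (nat_lit 5) (nat_lit 328) (nat_lit 5) (nat_lit 224) (nat_lit 202) (nat_lit 174)) (XT.lf (nat_lit 0) (nat_lit 3067215180) (nat_lit 1932) (nat_lit 2193181131) (nat_lit 84) (nat_lit 2482403395) (nat_lit 283) (nat_lit 5) (nat_lit 306) (nat_lit 5) (nat_lit 284) (nat_lit 5) (nat_lit 225) (nat_lit 202) (nat_lit 173))))) (XT.nd (nat_lit 282) (nat_lit 3528) (nat_lit 0) (XT.nd (nat_lit 94) (nat_lit 1932) (nat_lit 0) (XT.lf (nat_lit 0) (nat_lit 5827722788) (nat_lit 1092) (nat_lit 1120254753) (nat_lit 1176) (nat_lit 897543135) (nat_lit 270) (nat_lit 5) (nat_lit 283) (nat_lit 5) (nat_lit 284) (nat_lit 5) (nat_lit 226) (nat_lit 202) (nat_lit 172)) (XT.nd (nat_lit 94) (nat_lit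 924) (nat_lit 0) (XT.lf (nat_lit 0) (nat_lit 2938758368) (nat_lit 1008) (nat_lit 1810154742) (nat_lit 84) (nat_lit 3203124367) (nat_lit 258) (nat_lit 5) (nat_lit 270) (nat_lit 5) (nat_lit 259) (nat_lit 5) (nat_lit 227) (nat_lit 202) (nat_lit 171)) (XT.lf (nat_lit 0) (nat_lit 6521704606) (nat_lit 924) (nat_lit 333069907) (nat_lit 1008) (nat_lit 1208268146) (nat_lit 247) (nat_lit 5) (nat_lit 258) (nat_lit 5) (nat_lit 259) (nat_lit 5) (nat_lit 228) (nat_lit 202) (nat_lit 170)))) (XT.nd (nat_lit 188) (nat_lit 1764) (nat_lit 0) (XT.nd (nat_lit 94) (nat_lit 840) (nat_lit 0) (XT.lf (nat_lit 0) (nat_lit 2675686874) (nat_lit 924) (nat_lit 1245928948) (nat_lit 84) (nat_lit 4256217451) (nat_lit 236) (nat_lit 5) (nat_lit 247) (nat_lit 5) (nat_lit 237) (nat_lit 5) (nat_lit 229) (nat_lit 202) (nat_lit 169)) (XT.lf (nat_lit 0) (nat_lit 6643894577) (nat_lit 924) (nat_lit 891298584) (nat_lit 84) (nat_lit 761993244)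 (nat_lit 226) (nat_lit 5) (nat_lit 237) (nat_lit 5) (nat_lit 227) (nat_lit 5) (nat_lit 230) (nat_lit 202) (nat_lit 168))) (XT.nd (nat_lit 94) (nat_lit 840) (nat_lit 0) (XT.lf (nat_lit 0) (nat_lit 2288154142) (nat_lit 924) (nat_lit 505756859) (nat_lit 84) (nat_lit 5626628930) (nat_lit 215) (nat_lit 5) (nat_lit 226) (nat_lit 5) (nat_lit 216) (nat_lit 5) (nat_lit 231) (nat_lit 202) (nat_lit 167)) (XT.lf (nat_lit 0) (nat_lit 6324357929) (nat_lit 924) (nat_lit 71363682) (nat_lit 84) (nat_lit 2152629089) (nat_lit 205) (nat_lit 5) (nat_lit 216) (nat_lit 5) (nat_lit 206) (nat_lit 5) (nat_lit 232) (nat_lit 202) (nat_lit 166))))))) (XT.nd (nat_lit 1128) (nat_lit 1176) (nat_lit 0) (XT.nd (nat_lit 564) (nat_lit 3780) (nat_lit 0) (XT.nd (nat_lit 282) (nat_lit 2100) (nat_lit 0) (XT.nd (nat_lit 94) (nat_lit 1596) (nat_lit 0) (XT.lf (nat_lit 0) (nat_lit 412271490) (nat_lit 756) (nat_lit 1376042092) (nat_lit 840) (nat_lit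 6892182149) (nat_lit 186) (nat_lit 5) (nat_lit 195) (nat_lit 5) (nat_lit 196) (nat_lit 5) (nat_lit 233) (nat_lit 202) (nat_lit 165)) (XT.nd (nat_lit 94) (nat_lit 840) (nat_lit 0) (XT.lf (nat_lit 0) (nat_lit 930881414) (nat_lit 756) (nat_lit 4978555438) (nat_lit 840) (nat_lit 2907434386) (nat_lit 177) (nat_lit 5) (nat_lit 186) (nat_lit 5) (nat_lit 187) (nat_lit 5) (nat_lit 234) (nat_lit 202) (nat_lit 164)) (XT.lf (nat_lit 0) (nat_lit 1188767598) (nat_lit 840) (nat_lit 7451197406) (nat_lit 84) (nat_lit 318094902) (nat_lit 167) (nat_lit 5) (nat_lit 177) (nat_lit 5) (nat_lit 168) (nat_lit 5) (nat_lit 235) (nat_lit 202) (nat_lit 163)))) (XT.nd (nat_lit 94) (nat_lit 1428) (nat_lit 0) (XT.lf (nat_lit 0) (nat_lit 2103263419) (nat_lit 672) (nat_lit 3299182206) (nat_lit 756) (nat_lit 3700889057) (nat_lit 159) (nat_lit 5) (nat_lit 167) (nat_lit 5) (nat_lit 168) (nat_lit 5) (nat_lit 236) (nat_lit 202) (nat_lit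 162)) (XT.nd (nat_lit 94) (nat_lit 672) (nat_lit 0) (XT.lf (nat_lit 0) (nat_lit 502844394) (nat_lit 756) (nat_lit 6494389497) (nat_lit 84) (nat_lit 2256374108) (nat_lit 150) (nat_lit 5) (nat_lit 159) (nat_lit 5) (nat_lit 151) (nat_lit 5) (nat_lit 237) (nat_lit 202) (nat_lit 161)) (XT.lf (nat_lit 0) (nat_lit 3443547740) (nat_lit 672) (nat_lit 1366821049) (nat_lit 756) (nat_lit 4597911550) (nat_lit 142) (nat_lit 5) (nat_lit 150) (nat_lit 5) (nat_lit 151) (nat_lit 5) (nat_lit 238) (nat_lit 202) (nat_lit 160))))) (XT.nd (nat_lit 282) (nat_lit 1848) (nat_lit 0) (XT.nd (nat_lit 94) (nat_lit 1260) (nat_lit 0) (XT.lf (nat_lit 0) (nat_lit 4176681469) (nat_lit 672) (nat_lit 5114762914) (nat_lit 756) (nat_lit 276420498) (nat_lit 134) (nat_lit 5) (nat_lit 142) (nat_lit 5) (nat_lit 143) (nat_lit 5) (nat_lit 239) (nat_lit 202) (nat_lit 159)) (XT.nd (nat_lit 94) (nat_lit 588) (nat_lit 0) (XT.lf (nat_lit 0) (nat_lit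 4145845594) (nat_lit 672) (nat_lit 4786483635) (nat_lit 84) (nat_lit 799828850) (nat_lit 126) (nat_lit 5) (nat_lit 134) (nat_lit 5) (nat_lit 127) (nat_lit 5) (nat_lit 240) (nat_lit 202) (nat_lit 158)) (XT.lf (nat_lit 0) (nat_lit 5757287765) (nat_lit 588) (nat_lit 2996679404) (nat_lit 672) (nat_lit 1147415204) (nat_lit 119) (nat_lit 5) (nat_lit 126) (nat_lit 5) (nat_lit 127) (nat_lit 5) (nat_lit 241) (nat_lit 202) (nat_lit 157)))) (XT.nd (nat_lit 94) (nat_lit 1176) (nat_lit 0) (XT.lf (nat_lit 0) (nat_lit 3420823318) (nat_lit 672) (nat_lit 3470771184) (nat_lit 84) (nat_lit 3183875099) (nat_lit 111) (nat_lit 5) (nat_lit 119) (nat_lit 5) (nat_lit 112) (nat_lit 5) (nat_lit 242) (nat_lit 202) (nat_lit 156)) (XT.nd (nat_lit 94) (nat_lit 588) (nat_lit 0) (XT.lf (nat_lit 0) (nat_lit 7506125888) (nat_lit 588) (nat_lit 651685304) (nat_lit 672) (nat_lit 2097081334) (nat_lit 104) (nat_lit 5) (nat_lit 111) (nat_lit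 5) (nat_lit 112) (nat_lit 5) (nat_lit 243) (nat_lit 202) (nat_lit 155)) (XT.lf (nat_lit 0) (nat_lit 2631292068) (nat_lit 588) (nat_lit 2006690407) (nat_lit 84) (nat_lit 5801123537) (nat_lit 97) (nat_lit 5) (nat_lit 104) (nat_lit 5) (nat_lit 98) (nat_lit 5) (nat_lit 244) (nat_lit 202) (nat_lit 154)))))) (XT.nd (nat_lit 34122) (nat_lit 0) (nat_lit 33936) (XT.nd (nat_lit 33840) (nat_lit 0) (nat_lit 36960) (XT.nd (nat_lit 94) (nat_lit 588) (nat_lit 0) (XT.lf (nat_lit 0) (nat_lit 7522520491) (nat_lit 672) (nat_lit 1217233022) (nat_lit 84) (nat_lit 1889043595) (nat_lit 90) (nat_lit 5) (nat_lit 98) (nat_lit 5) (nat_lit 91) (nat_lit 5) (nat_lit 245) (nat_lit 202) (nat_lit 153)) (XT.nd (nat_lit 33652) (nat_lit 0) (nat_lit 38052) (XT.lf (nat_lit 0) (nat_lit 1782516361) (nat_lit 588) (nat_lit 392191629) (nat_lit 84) (nat_lit 8649086547) (nat_lit 83) (nat_lit 5) (nat_lit 90) (nat_lit 5) (nat_lit 84) (nat_lit 5)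 (nat_lit 246) (nat_lit 202) (nat_lit 152)) (XT.lf (nat_lit 0) (nat_lit 610867816) (nat_lit 0) (nat_lit 610867816) (nat_lit 420) (nat_lit 2025084014) (nat_lit 536) (nat_lit 5) (nat_lit 536) (nat_lit 3) (nat_lit 541) (nat_lit 3) (nat_lit 203) (nat_lit 203) (nat_lit 194)))) (XT.nd (nat_lit 94) (nat_lit 504) (nat_lit 0) (XT.lf (nat_lit 0) (nat_lit 256492405) (nat_lit 588) (nat_lit 95649917) (nat_lit 588) (nat_lit 6160781467) (nat_lit 529) (nat_lit 3) (nat_lit 536) (nat_lit 3) (nat_lit 536) (nat_lit 5) (nat_lit 204) (nat_lit 203) (nat_lit 193)) (XT.nd (nat_lit 94) (nat_lit 588) (nat_lit 0) (XT.lf (nat_lit 0) (nat_lit 4499847389) (nat_lit 504) (nat_lit 1333948645) (nat_lit 588) (nat_lit 701810838) (nat_lit 530) (nat_lit 5) (nat_lit 536) (nat_lit 5) (nat_lit 537) (nat_lit 5) (nat_lit 205) (nat_lit 203) (nat_lit 192)) (XT.lf (nat_lit 0) (nat_lit 2141030111) (nat_lit 588) (nat_lit 2498021164) (nat_lit 672) (nat_lit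 1923143222) (nat_lit 523) (nat_lit 5) (nat_lit 530) (nat_lit 5) (nat_lit 531) (nat_lit 5) (nat_lit 206) (nat_lit 203) (nat_lit 191))))) (XT.nd (nat_lit 282) (nat_lit 1680) (nat_lit 0) (XT.nd (nat_lit 94) (nat_lit 1344) (nat_lit 0) (XT.lf (nat_lit 84) (nat_lit 3006533633) (nat_lit 0) (nat_lit 3273691747) (nat_lit 672) (nat_lit 312532672) (nat_lit 524) (nat_lit 5) (nat_lit 523) (nat_lit 5) (nat_lit 531) (nat_lit 5) (nat_lit 207) (nat_lit 203) (nat_lit 190)) (XT.nd (nat_lit 94) (nat_lit 672) (nat_lit 0) (XT.lf (nat_lit 84) (nat_lit 2014158995) (nat_lit 0) (nat_lit 1721486261) (nat_lit 756) (nat_lit 2891373843) (nat_lit 516) (nat_lit 5) (nat_lit 515) (nat_lit 5) (nat_lit 524) (nat_lit 5) (nat_lit 208) (nat_lit 203) (nat_lit 189)) (XT.lf (nat_lit 0) (nat_lit 1098611991) (nat_lit 756) (nat_lit 5562763352) (nat_lit 840) (nat_lit 3973098) (nat_lit 507) (nat_lit 5) (nat_lit 516) (nat_lit 5) (nat_lit 517) (nat_lit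 5) (nat_lit 209) (nat_lit 203) (nat_lit 188)))) (XT.nd (nat_lit 188) (nat_lit 840) (nat_lit 0) (XT.nd (nat_lit 94) (nat_lit 840) (nat_lit 0) (XT.lf (nat_lit 84) (nat_lit 245938936) (nat_lit 0) (nat_lit 4817563078) (nat_lit 840) (nat_lit 1643724468) (nat_lit 508) (nat_lit 5) (nat_lit 507) (nat_lit 5) (nat_lit 517) (nat_lit 5) (nat_lit 210) (nat_lit 203) (nat_lit 187)) (XT.lf (nat_lit 0) (nat_lit 2256680756) (nat_lit 840) (nat_lit 532347460) (nat_lit 924) (nat_lit 3963915653) (nat_lit 497) (nat_lit 5) (nat_lit 507) (nat_lit 5) (nat_lit 508) (nat_lit 5) (nat_lit 211) (nat_lit 203) (nat_lit 186))) (XT.nd (nat_lit 94) (nat_lit 840) (nat_lit 0) (XT.lf (nat_lit 84) (nat_lit 5568560034) (nat_lit 0) (nat_lit 578831263) (nat_lit 924) (nat_lit 655280979) (nat_lit 498) (nat_lit 5) (nat_lit 497) (nat_lit 5) (nat_lit 508) (nat_lit 5) (nat_lit 212) (nat_lit 203) (nat_lit 185)) (XT.lf (nat_lit 0) (nat_lit 3167044751)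 (nat_lit 924) (nat_lit 1888071710) (nat_lit 84) (nat_lit 1800820360) (nat_lit 487) (nat_lit 5) (nat_lit 498) (nat_lit 5) (nat_lit 488) (nat_lit 5) (nat_lit 213) (nat_lit 203) (nat_lit 184))))))))
noncomputable def xc14 : XT := (XT.nd (nat_lit 2256) (nat_lit 6300) (nat_lit 0) (XT.nd (nat_lit 1128) (nat_lit 10500) (nat_lit 0) (XT.nd (nat_lit 564) (nat_lit 10080) (nat_lit 0) (XT.nd (nat_lit 282) (nat_lit 3864) (nat_lit 0) (XT.nd (nat_lit 94) (nat_lit 2184) (nat_lit 0) (XT.lf (nat_lit 0) (nat_lit 91144020) (nat_lit 1008) (nat_lit 2470013366) (nat_lit 84) (nat_lit 4352154253) (nat_lit 475) (nat_lit 5) (nat_lit 487) (nat_lit 5) (nat_lit 476) (nat_lit 5) (nat_lit 214) (nat_lit 203) (nat_lit 183)) (XT.nd (nat_lit 94) (nat_lit 1176) (nat_lit 0) (XT.lf (nat_lit 0) (nat_lit 3842552759) (nat_lit 1092) (nat_lit 2998682478) (nat_lit 84) (nat_lit 133191633) (nat_lit 463) (nat_lit 5) (nat_lit 476) (nat_lit 5) (nat_lit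 464) (nat_lit 5) (nat_lit 215) (nat_lit 203) (nat_lit 182)) (XT.lf (nat_lit 0) (nat_lit 595179882) (nat_lit 1176) (nat_lit 3471253906) (nat_lit 84) (nat_lit 2972954518) (nat_lit 449) (nat_lit 5) (nat_lit 463) (nat_lit 5) (nat_lit 450) (nat_lit 5) (nat_lit 216) (nat_lit 203) (nat_lit 181)))) (XT.nd (nat_lit 94) (nat_lit 2688) (nat_lit 0) (XT.lf (nat_lit 0) (nat_lit 3220083446) (nat_lit 1176) (nat_lit 1089725839) (nat_lit 1260) (nat_lit 2798422170) (nat_lit 435) (nat_lit 5) (nat_lit 449) (nat_lit 5) (nat_lit 450) (nat_lit 5) (nat_lit 217) (nat_lit 203) (nat_lit 180)) (XT.nd (nat_lit 94) (nat_lit 1344) (nat_lit 0) (XT.lf (nat_lit 0) (nat_lit 884205313) (nat_lit 1344) (nat_lit 4248595894) (nat_lit 84) (nat_lit 2048217928) (nat_lit 419) (nat_lit 5) (nat_lit 435) (nat_lit 5) (nat_lit 420) (nat_lit 5) (nat_lit 218) (nat_lit 203) (nat_lit 179)) (XT.lf (nat_lit 0) (nat_lit 2696727158) (nat_lit 1344) (nat_lit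 1879302569) (nat_lit 1428) (nat_lit 2681586285) (nat_lit 403) (nat_lit 5) (nat_lit 419) (nat_lit 5) (nat_lit 420) (nat_lit 5) (nat_lit 219) (nat_lit 203) (nat_lit 178))))) (XT.nd (nat_lit 282) (nat_lit 5376) (nat_lit 0) (XT.nd (nat_lit 94) (nat_lit 3192) (nat_lit 0) (XT.lf (nat_lit 0) (nat_lit 974481271) (nat_lit 1512) (nat_lit 4815635943) (nat_lit 84) (nat_lit 1548159731) (nat_lit 385) (nat_lit 5) (nat_lit 403) (nat_lit 5) (nat_lit 386) (nat_lit 5) (nat_lit 220) (nat_lit 203) (nat_lit 177)) (XT.nd (nat_lit 94) (nat_lit 1680) (nat_lit 0) (XT.lf (nat_lit 0) (nat_lit 2393983611) (nat_lit 1512) (nat_lit 2262008916) (nat_lit 1596) (nat_lit 2766709497) (nat_lit 367) (nat_lit 5) (nat_lit 385) (nat_lit 5) (nat_lit 386) (nat_lit 5) (nat_lit 221) (nat_lit 203) (nat_lit 176)) (XT.lf (nat_lit 0) (nat_lit 880732709) (nat_lit 1680) (nat_lit 5184269701) (nat_lit 84) (nat_lit 1446288621) (nat_lit 347) (nat_lit 5)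 (nat_lit 367) (nat_lit 5) (nat_lit 348) (nat_lit 5) (nat_lit 222) (nat_lit 203) (nat_lit 175)))) (XT.nd (nat_lit 94) (nat_lit 3696) (nat_lit 0) (XT.lf (nat_lit 0) (nat_lit 2300878577) (nat_lit 1680) (nat_lit 2263096796) (nat_lit 1764) (nat_lit 3039670079) (nat_lit 327) (nat_lit 5) (nat_lit 347) (nat_lit 5) (nat_lit 348) (nat_lit 5) (nat_lit 223) (nat_lit 203) (nat_lit 174)) (XT.nd (nat_lit 94) (nat_lit 1848) (nat_lit 0) (XT.lf (nat_lit 0) (nat_lit 616279779) (nat_lit 1848) (nat_lit 5364810974) (nat_lit 84) (nat_lit 1719154588) (nat_lit 305) (nat_lit 5) (nat_lit 327) (nat_lit 5) (nat_lit 306) (nat_lit 5) (nat_lit 224) (nat_lit 203) (nat_lit 173)) (XT.lf (nat_lit 0) (nat_lit 2408024237) (nat_lit 1848) (nat_lit 1904894691) (nat_lit 1932) (nat_lit 3487737300) (nat_lit 283) (nat_lit 5) (nat_lit 305) (nat_lit 5) (nat_lit 306) (nat_lit 5) (nat_lit 225) (nat_lit 203) (nat_lit 172)))))) (XT.nd (nat_lit 564)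 (nat_lit 4788) (nat_lit 0) (XT.nd (nat_lit 282) (nat_lit 2688) (nat_lit 0) (XT.nd (nat_lit 94) (nat_lit 1848) (nat_lit 0) (XT.lf (nat_lit 0) (nat_lit 193157687) (nat_lit 1176) (nat_lit 5366098823) (nat_lit 84) (nat_lit 2346120425) (nat_lit 269) (nat_lit 5) (nat_lit 283) (nat_lit 5) (nat_lit 270) (nat_lit 5) (nat_lit 226) (nat_lit 203) (nat_lit 171)) (XT.nd (nat_lit 94) (nat_lit 924) (nat_lit 0) (XT.lf (nat_lit 0) (nat_lit 2707515958) (nat_lit 924) (nat_lit 1207026366) (nat_lit 1008) (nat_lit 4099454524) (nat_lit 258) (nat_lit 5) (nat_lit 269) (nat_lit 5) (nat_lit 270) (nat_lit 5) (nat_lit 227) (nat_lit 203) (nat_lit 170)) (XT.lf (nat_lit 0) (nat_lit 2928590783) (nat_lit 924) (nat_lit 4815029443) (nat_lit 1008) (nat_lit 383294445) (nat_lit 247) (nat_lit 5) (nat_lit 258) (nat_lit 5) (nat_lit 259) (nat_lit 5) (nat_lit 228) (nat_lit 203) (nat_lit 169)))) (XT.nd (nat_lit 94) (nat_lit 1764) (nat_lit 0) (XT.lf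 (nat_lit 0) (nat_lit 3192840023) (nat_lit 840) (nat_lit 186608744) (nat_lit 924) (nat_lit 4864532487) (nat_lit 236) (nat_lit 5) (nat_lit 246) (nat_lit 5) (nat_lit 247) (nat_lit 5) (nat_lit 229) (nat_lit 203) (nat_lit 168)) (XT.nd (nat_lit 94) (nat_lit 924) (nat_lit 0) (XT.lf (nat_lit 0) (nat_lit 3497888863) (nat_lit 840) (nat_lit 3764705557) (nat_lit 924) (nat_lit 1102611331) (nat_lit 226) (nat_lit 5) (nat_lit 236) (nat_lit 5) (nat_lit 237) (nat_lit 5) (nat_lit 230) (nat_lit 203) (nat_lit 167)) (XT.lf (nat_lit 0) (nat_lit 2725353777) (nat_lit 924) (nat_lit 4640314179) (nat_lit 84) (nat_lit 1125127107) (nat_lit 215) (nat_lit 5) (nat_lit 226) (nat_lit 5) (nat_lit 216) (nat_lit 5) (nat_lit 231) (nat_lit 203) (nat_lit 166))))) (XT.nd (nat_lit 282) (nat_lit 2352) (nat_lit 0) (XT.nd (nat_lit 94) (nat_lit 1596) (nat_lit 0) (XT.lf (nat_lit 0) (nat_lit 4244103066) (nat_lit 840) (nat_lit 2423528044) (nat_lit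 924) (nat_lit 1953041103) (nat_lit 205) (nat_lit 5) (nat_lit 215) (nat_lit 5) (nat_lit 216) (nat_lit 5) (nat_lit 232) (nat_lit 203) (nat_lit 165)) (XT.nd (nat_lit 94) (nat_lit 756) (nat_lit 0) (XT.lf (nat_lit 0) (nat_lit 1956210123) (nat_lit 840) (nat_lit 4073683204) (nat_lit 84) (nat_lit 2725062813) (nat_lit 195) (nat_lit 5) (nat_lit 205) (nat_lit 5) (nat_lit 196) (nat_lit 5) (nat_lit 233) (nat_lit 203) (nat_lit 164)) (XT.lf (nat_lit 0) (nat_lit 5163929190) (nat_lit 756) (nat_lit 803257573) (nat_lit 840) (nat_lit 2926568110) (nat_lit 186) (nat_lit 5) (nat_lit 195) (nat_lit 5) (nat_lit 196) (nat_lit 5) (nat_lit 234) (nat_lit 203) (nat_lit 163)))) (XT.nd (nat_lit 94) (nat_lit 1512) (nat_lit 0) (XT.lf (nat_lit 0) (nat_lit 1078415695) (nat_lit 840) (nat_lit 3353104917) (nat_lit 84) (nat_lit 4605438790) (nat_lit 176) (nat_lit 5) (nat_lit 186) (nat_lit 5) (nat_lit 177) (nat_lit 5) (nat_lit 235) (nat_lit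 203) (nat_lit 162)) (XT.nd (nat_lit 94) (nat_lit 756) (nat_lit 0) (XT.lf (nat_lit 0) (nat_lit 5176668842) (nat_lit 840) (nat_lit 2937485952) (nat_lit 84) (nat_lit 1070618732) (nat_lit 167) (nat_lit 5) (nat_lit 177) (nat_lit 5) (nat_lit 168) (nat_lit 5) (nat_lit 236) (nat_lit 203) (nat_lit 161)) (XT.lf (nat_lit 0) (nat_lit 98934921) (nat_lit 756) (nat_lit 2480712474) (nat_lit 84) (nat_lit 6757672204) (nat_lit 158) (nat_lit 5) (nat_lit 167) (nat_lit 5) (nat_lit 159) (nat_lit 5) (nat_lit 237) (nat_lit 203) (nat_lit 160))))))) (XT.nd (nat_lit 34780) (nat_lit 0) (nat_lit 26880) (XT.nd (nat_lit 564) (nat_lit 1764) (nat_lit 0) (XT.nd (nat_lit 282) (nat_lit 2436) (nat_lit 0) (XT.nd (nat_lit 94) (nat_lit 1428) (nat_lit 0) (XT.lf (nat_lit 0) (nat_lit 4302875927) (nat_lit 756) (nat_lit 2001024725) (nat_lit 84) (nat_lit 3190370124) (nat_lit 150) (nat_lit 5) (nat_lit 159) (nat_lit 5) (nat_lit 151) (nat_lit 5) (nat_lit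 238) (nat_lit 203) (nat_lit 159)) (XT.nd (nat_lit 94) (nat_lit 756) (nat_lit 0) (XT.lf (nat_lit 0) (nat_lit 8191757589) (nat_lit 672) (nat_lit 474461855) (nat_lit 756) (nat_lit 990225977) (nat_lit 142) (nat_lit 5) (nat_lit 150) (nat_lit 5) (nat_lit 151) (nat_lit 5) (nat_lit 239) (nat_lit 203) (nat_lit 158)) (XT.lf (nat_lit 0) (nat_lit 3346343924) (nat_lit 756) (nat_lit 915317961) (nat_lit 84) (nat_lit 5561300095) (nat_lit 133) (nat_lit 5) (nat_lit 142) (nat_lit 5) (nat_lit 134) (nat_lit 5) (nat_lit 240) (nat_lit 203) (nat_lit 157)))) (XT.nd (nat_lit 94) (nat_lit 1848) (nat_lit 0) (XT.lf (nat_lit 0) (nat_lit 7836484686) (nat_lit 672) (nat_lit 312843775) (nat_lit 84) (nat_lit 1845453392) (nat_lit 126) (nat_lit 5) (nat_lit 134) (nat_lit 5) (nat_lit 127) (nat_lit 5) (nat_lit 241) (nat_lit 203) (nat_lit 156)) (XT.nd (nat_lit 94) (nat_lit 588) (nat_lit 0) (XT.lf (nat_lit 0) (nat_lit 324650071) (nat_lit 588)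 (nat_lit 1990413136) (nat_lit 672) (nat_lit 7856371927) (nat_lit 111) (nat_lit 5) (nat_lit 118) (nat_lit 5) (nat_lit 119) (nat_lit 5) (nat_lit 242) (nat_lit 203) (nat_lit 155)) (XT.lf (nat_lit 0) (nat_lit 998996192) (nat_lit 588) (nat_lit 5954152964) (nat_lit 672) (nat_lit 3399884747) (nat_lit 104) (nat_lit 5) (nat_lit 111) (nat_lit 5) (nat_lit 112) (nat_lit 5) (nat_lit 243) (nat_lit 203) (nat_lit 154))))) (XT.nd (nat_lit 33934) (nat_lit 0) (nat_lit 36876) (XT.nd (nat_lit 94) (nat_lit 1176) (nat_lit 0) (XT.lf (nat_lit 0) (nat_lit 1223221969) (nat_lit 588) (nat_lit 8812874155) (nat_lit 84) (nat_lit 504084114) (nat_lit 97) (nat_lit 5) (nat_lit 104) (nat_lit 5) (nat_lit 98) (nat_lit 5) (nat_lit 244) (nat_lit 203) (nat_lit 153)) (XT.nd (nat_lit 94) (nat_lit 588) (nat_lit 0) (XT.lf (nat_lit 0) (nat_lit 2468313791) (nat_lit 588) (nat_lit 3546042527) (nat_lit 672) (nat_lit 4717717085) (nat_lit 90) (nat_lit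 5) (nat_lit 97) (nat_lit 5) (nat_lit 98) (nat_lit 5) (nat_lit 245) (nat_lit 203) (nat_lit 152)) (XT.lf (nat_lit 0) (nat_lit 81008171) (nat_lit 588) (nat_lit 7660762740) (nat_lit 84) (nat_lit 3188044558) (nat_lit 83) (nat_lit 5) (nat_lit 90) (nat_lit 5) (nat_lit 84) (nat_lit 5) (nat_lit 246) (nat_lit 203) (nat_lit 151)))) (XT.nd (nat_lit 94) (nat_lit 588) (nat_lit 0) (XT.lf (nat_lit 0) (nat_lit 2204294930) (nat_lit 588) (nat_lit 531275181) (nat_lit 588) (nat_lit 531275181) (nat_lit 529) (nat_lit 3) (nat_lit 536) (nat_lit 3) (nat_lit 536) (nat_lit 5) (nat_lit 204) (nat_lit 204) (nat_lit 192)) (XT.nd (nat_lit 94) (nat_lit 0) (nat_lit 0) (XT.lf (nat_lit 0) (nat_lit 1959243851) (nat_lit 588) (nat_lit 2395244236) (nat_lit 672) (nat_lit 2203892358) (nat_lit 522) (nat_lit 5) (nat_lit 529) (nat_lit 3) (nat_lit 530) (nat_lit 5) (nat_lit 205) (nat_lit 204) (nat_lit 191)) (XT.lf (nat_lit 84) (nat_lit 2933075481)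 (nat_lit 0) (nat_lit 3065870555) (nat_lit 672) (nat_lit 588073861) (nat_lit 523) (nat_lit 5) (nat_lit 522) (nat_lit 5) (nat_lit 530) (nat_lit 5) (nat_lit 206) (nat_lit 204) (nat_lit 190)))))) (XT.nd (nat_lit 564) (nat_lit 6972) (nat_lit 0) (XT.nd (nat_lit 282) (nat_lit 1680) (nat_lit 0) (XT.nd (nat_lit 94) (nat_lit 672) (nat_lit 0) (XT.lf (nat_lit 84) (nat_lit 1769625500) (nat_lit 0) (nat_lit 1592529812) (nat_lit 756) (nat_lit 3257245726) (nat_lit 515) (nat_lit 5) (nat_lit 514) (nat_lit 5) (nat_lit 523) (nat_lit 5) (nat_lit 207) (nat_lit 204) (nat_lit 189)) (XT.nd (nat_lit 94) (nat_lit 0) (nat_lit 0) (XT.lf (nat_lit 0) (nat_lit 634058027) (nat_lit 756) (nat_lit 5969341876) (nat_lit 840) (nat_lit 52456500) (nat_lit 506) (nat_lit 5) (nat_lit 515) (nat_lit 5) (nat_lit 516) (nat_lit 5) (nat_lit 208) (nat_lit 204) (nat_lit 188)) (XT.lf (nat_lit 0) (nat_lit 4490682605) (nat_lit 756) (nat_lit 340067934) (nat_lit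 840) (nat_lit 1864999854) (nat_lit 506) (nat_lit 5) (nat_lit 515) (nat_lit 5) (nat_lit 516) (nat_lit 5) (nat_lit 209) (nat_lit 204) (nat_lit 187)))) (XT.nd (nat_lit 94) (nat_lit 840) (nat_lit 0) (XT.lf (nat_lit 0) (nat_lit 1593307210) (nat_lit 840) (nat_lit 1284115273) (nat_lit 924) (nat_lit 3862134378) (nat_lit 496) (nat_lit 5) (nat_lit 506) (nat_lit 5) (nat_lit 507) (nat_lit 5) (nat_lit 210) (nat_lit 204) (nat_lit 186)) (XT.nd (nat_lit 94) (nat_lit 840) (nat_lit 0) (XT.lf (nat_lit 84) (nat_lit 4626260123) (nat_lit 0) (nat_lit 739905057) (nat_lit 924) (nat_lit 1421136671) (nat_lit 497) (nat_lit 5) (nat_lit 496) (nat_lit 5) (nat_lit 507) (nat_lit 5) (nat_lit 211) (nat_lit 204) (nat_lit 185)) (XT.lf (nat_lit 0) (nat_lit 2290332220) (nat_lit 924) (nat_lit 2984160379) (nat_lit 1008) (nat_lit 1564240958) (nat_lit 486) (nat_lit 5) (nat_lit 497) (nat_lit 5) (nat_lit 498) (nat_lit 5) (nat_lit 212) (nat_lit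 204) (nat_lit 184))))) (XT.nd (nat_lit 282) (nat_lit 5040) (nat_lit 0) (XT.nd (nat_lit 94) (nat_lit 1932) (nat_lit 0) (XT.lf (nat_lit 84) (nat_lit 3150758700) (nat_lit 0) (nat_lit 2851496996) (nat_lit 1008) (nat_lit 891860927) (nat_lit 487) (nat_lit 5) (nat_lit 486) (nat_lit 5) (nat_lit 498) (nat_lit 5) (nat_lit 213) (nat_lit 204) (nat_lit 183)) (XT.nd (nat_lit 94) (nat_lit 924) (nat_lit 0) (XT.lf (nat_lit 84) (nat_lit 2509379976) (nat_lit 0) (nat_lit 232908477) (nat_lit 1092) (nat_lit 4211087874) (nat_lit 475) (nat_lit 5) (nat_lit 474) (nat_lit 5) (nat_lit 487) (nat_lit 5) (nat_lit 214) (nat_lit 204) (nat_lit 182)) (XT.lf (nat_lit 0) (nat_lit 1924668394) (nat_lit 1008) (nat_lit 4480831983) (nat_lit 1092) (nat_lit 610931511) (nat_lit 463) (nat_lit 5) (nat_lit 475) (nat_lit 5) (nat_lit 476) (nat_lit 5) (nat_lit 215) (nat_lit 204) (nat_lit 181)))) (XT.nd (nat_lit 188) (nat_lit 2688) (nat_lit 0) (XT.nd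 (nat_lit 94) (nat_lit 1176) (nat_lit 0) (XT.lf (nat_lit 0) (nat_lit 1396282219) (nat_lit 1092) (nat_lit 1577976387) (nat_lit 1176) (nat_lit 4109061850) (nat_lit 449) (nat_lit 5) (nat_lit 462) (nat_lit 5) (nat_lit 463) (nat_lit 5) (nat_lit 216) (nat_lit 204) (nat_lit 180)) (XT.lf (nat_lit 0) (nat_lit 931750676) (nat_lit 1176) (nat_lit 5662312611) (nat_lit 1260) (nat_lit 560186463) (nat_lit 435) (nat_lit 5) (nat_lit 449) (nat_lit 5) (nat_lit 450) (nat_lit 5) (nat_lit 217) (nat_lit 204) (nat_lit 179))) (XT.nd (nat_lit 94) (nat_lit 1344) (nat_lit 0) (XT.lf (nat_lit 0) (nat_lit 511378430) (nat_lit 1260) (nat_lit 2480828713) (nat_lit 1344) (nat_lit 4236635447) (nat_lit 419) (nat_lit 5) (nat_lit 434) (nat_lit 5) (nat_lit 435) (nat_lit 5) (nat_lit 218) (nat_lit 204) (nat_lit 178)) (XT.lf (nat_lit 0) (nat_lit 157661493) (nat_lit 1344) (nat_lit 6426745390) (nat_lit 1428) (nat_lit 723224326) (nat_lit 403) (nat_lit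 5) (nat_lit 419) (nat_lit 5) (nat_lit 420) (nat_lit 5) (nat_lit 219) (nat_lit 204) (nat_lit 177))))))))
noncomputable def xc15 : XT := (XT.nd (nat_lit 2350) (nat_lit 1176) (nat_lit 0) (XT.nd (nat_lit 1128) (nat_lit 10164) (nat_lit 0) (XT.nd (nat_lit 564) (nat_lit 6720) (nat_lit 0) (XT.nd (nat_lit 282) (nat_lit 5124) (nat_lit 0) (XT.nd (nat_lit 94) (nat_lit 3024) (nat_lit 0) (XT.lf (nat_lit 0) (nat_lit 2812879616) (nat_lit 1428) (nat_lit 156654756) (nat_lit 84) (nat_lit 4420469527) (nat_lit 402) (nat_lit 5) (nat_lit 419) (nat_lit 5) (nat_lit 403) (nat_lit 5) (nat_lit 220) (nat_lit 204) (nat_lit 176)) (XT.nd (nat_lit 94) (nat_lit 1596) (nat_lit 0) (XT.lf (nat_lit 0) (nat_lit 6394359593) (nat_lit 1512) (nat_lit 404278334) (nat_lit 84) (nat_lit 677991738) (nat_lit 385) (nat_lit 5) (nat_lit 403) (nat_lit 5) (nat_lit 386) (nat_lit 5) (nat_lit 221) (nat_lit 204) (nat_lit 175)) (XT.lf (nat_lit 0) (nat_lit 2451439990)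 (nat_lit 1596) (nat_lit 617562427) (nat_lit 84) (nat_lit 4497920643) (nat_lit 366) (nat_lit 5) (nat_lit 385) (nat_lit 5) (nat_lit 367) (nat_lit 5) (nat_lit 222) (nat_lit 204) (nat_lit 174)))) (XT.nd (nat_lit 94) (nat_lit 3528) (nat_lit 0) (XT.lf (nat_lit 0) (nat_lit 6034215361) (nat_lit 1680) (nat_lit 771473078) (nat_lit 84) (nat_lit 855799324) (nat_lit 347) (nat_lit 5) (nat_lit 367) (nat_lit 5) (nat_lit 348) (nat_lit 5) (nat_lit 223) (nat_lit 204) (nat_lit 173)) (XT.nd (nat_lit 94) (nat_lit 1764) (nat_lit 0) (XT.lf (nat_lit 0) (nat_lit 1917028198) (nat_lit 1764) (nat_lit 888872063) (nat_lit 84) (nat_lit 4953974788) (nat_lit 326) (nat_lit 5) (nat_lit 347) (nat_lit 5) (nat_lit 327) (nat_lit 5) (nat_lit 224) (nat_lit 204) (nat_lit 172)) (XT.lf (nat_lit 0) (nat_lit 5515101004) (nat_lit 1848) (nat_lit 955490867) (nat_lit 84) (nat_lit 1391862524) (nat_lit 305) (nat_lit 5) (nat_lit 327) (nat_lit 5) (nat_lit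 306) (nat_lit 5) (nat_lit 225) (nat_lit 204) (nat_lit 171))))) (XT.nd (nat_lit 282) (nat_lit 2688) (nat_lit 0) (XT.nd (nat_lit 94) (nat_lit 2100) (nat_lit 0) (XT.lf (nat_lit 0) (nat_lit 1221145129) (nat_lit 1932) (nat_lit 979282552) (nat_lit 84) (nat_lit 5768680081) (nat_lit 282) (nat_lit 5) (nat_lit 305) (nat_lit 5) (nat_lit 283) (nat_lit 5) (nat_lit 226) (nat_lit 204) (nat_lit 170)) (XT.nd (nat_lit 94) (nat_lit 1008) (nat_lit 0) (XT.lf (nat_lit 0) (nat_lit 4848066280) (nat_lit 1176) (nat_lit 964228469) (nat_lit 84) (nat_lit 2267511122) (nat_lit 269) (nat_lit 5) (nat_lit 283) (nat_lit 5) (nat_lit 270) (nat_lit 5) (nat_lit 227) (nat_lit 204) (nat_lit 169)) (XT.lf (nat_lit 0) (nat_lit 374117405) (nat_lit 1008) (nat_lit 896124207) (nat_lit 84) (nat_lit 6924679337) (nat_lit 257) (nat_lit 5) (nat_lit 269) (nat_lit 5) (nat_lit 258) (nat_lit 5) (nat_lit 228) (nat_lit 204) (nat_lit 168)))) (XT.nd (nat_lit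 94) (nat_lit 1764) (nat_lit 0) (XT.lf (nat_lit 0) (nat_lit 4043063009) (nat_lit 1008) (nat_lit 804270446) (nat_lit 84) (nat_lit 3466536103) (nat_lit 246) (nat_lit 5) (nat_lit 258) (nat_lit 5) (nat_lit 247) (nat_lit 5) (nat_lit 229) (nat_lit 204) (nat_lit 167)) (XT.nd (nat_lit 94) (nat_lit 924) (nat_lit 0) (XT.lf (nat_lit 0) (nat_lit 7787680908) (nat_lit 840) (nat_lit 26097542) (nat_lit 924) (nat_lit 623789071) (nat_lit 236) (nat_lit 5) (nat_lit 246) (nat_lit 5) (nat_lit 247) (nat_lit 5) (nat_lit 230) (nat_lit 204) (nat_lit 166)) (XT.lf (nat_lit 0) (nat_lit 3109038464) (nat_lit 924) (nat_lit 480967879) (nat_lit 84) (nat_lit 4975016755) (nat_lit 225) (nat_lit 5) (nat_lit 236) (nat_lit 5) (nat_lit 226) (nat_lit 5) (nat_lit 231) (nat_lit 204) (nat_lit 165)))))) (XT.nd (nat_lit 564) (nat_lit 4620) (nat_lit 0) (XT.nd (nat_lit 282) (nat_lit 2268) (nat_lit 0) (XT.nd (nat_lit 94) (nat_lit 2436) (nat_lit 0) (XT.lf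 (nat_lit 0) (nat_lit 6945533263) (nat_lit 924) (nat_lit 255447084) (nat_lit 84) (nat_lit 1496247117) (nat_lit 215) (nat_lit 5) (nat_lit 226) (nat_lit 5) (nat_lit 216) (nat_lit 5) (nat_lit 232) (nat_lit 204) (nat_lit 164)) (XT.nd (nat_lit 94) (nat_lit 756) (nat_lit 0) (XT.lf (nat_lit 0) (nat_lit 1513578) (nat_lit 756) (nat_lit 2052517905) (nat_lit 840) (nat_lit 6779662116) (nat_lit 195) (nat_lit 5) (nat_lit 204) (nat_lit 5) (nat_lit 205) (nat_lit 5) (nat_lit 233) (nat_lit 204) (nat_lit 163)) (XT.lf (nat_lit 0) (nat_lit 299154910) (nat_lit 756) (nat_lit 5672134495) (nat_lit 840) (nat_lit 3003264738) (nat_lit 186) (nat_lit 5) (nat_lit 195) (nat_lit 5) (nat_lit 196) (nat_lit 5) (nat_lit 234) (nat_lit 204) (nat_lit 162)))) (XT.nd (nat_lit 94) (nat_lit 1428) (nat_lit 0) (XT.lf (nat_lit 0) (nat_lit 649376160) (nat_lit 756) (nat_lit 240446078) (nat_lit 840) (nat_lit 8230434487) (nat_lit 176) (nat_lit 5) (nat_lit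 185) (nat_lit 5) (nat_lit 186) (nat_lit 5) (nat_lit 235) (nat_lit 204) (nat_lit 161)) (XT.nd (nat_lit 94) (nat_lit 672) (nat_lit 0) (XT.lf (nat_lit 0) (nat_lit 1013275329) (nat_lit 756) (nat_lit 3885470453) (nat_lit 840) (nat_lit 4371290318) (nat_lit 167) (nat_lit 5) (nat_lit 176) (nat_lit 5) (nat_lit 177) (nat_lit 5) (nat_lit 236) (nat_lit 204) (nat_lit 160)) (XT.lf (nat_lit 0) (nat_lit 1437455958) (nat_lit 672) (nat_lit 7614543659) (nat_lit 756) (nat_lit 372969741) (nat_lit 159) (nat_lit 5) (nat_lit 167) (nat_lit 5) (nat_lit 168) (nat_lit 5) (nat_lit 237) (nat_lit 204) (nat_lit 159))))) (XT.nd (nat_lit 282) (nat_lit 2436) (nat_lit 0) (XT.nd (nat_lit 94) (nat_lit 1428) (nat_lit 0) (XT.lf (nat_lit 0) (nat_lit 1881676125) (nat_lit 672) (nat_lit 1850718156) (nat_lit 756) (nat_lit 5851871577) (nat_lit 150) (nat_lit 5) (nat_lit 158) (nat_lit 5) (nat_lit 159) (nat_lit 5) (nat_lit 238) (nat_lit 204) (nat_lit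 158)) (XT.nd (nat_lit 94) (nat_lit 756) (nat_lit 0) (XT.lf (nat_lit 0) (nat_lit 2369867513) (nat_lit 672) (nat_lit 5631430922) (nat_lit 756) (nat_lit 1747219737) (nat_lit 142) (nat_lit 5) (nat_lit 150) (nat_lit 5) (nat_lit 151) (nat_lit 5) (nat_lit 239) (nat_lit 204) (nat_lit 157)) (XT.lf (nat_lit 0) (nat_lit 2480965359) (nat_lit 756) (nat_lit 7017040105) (nat_lit 84) (nat_lit 419772230) (nat_lit 133) (nat_lit 5) (nat_lit 142) (nat_lit 5) (nat_lit 134) (nat_lit 5) (nat_lit 240) (nat_lit 204) (nat_lit 156)))) (XT.nd (nat_lit 188) (nat_lit 1176) (nat_lit 0) (XT.nd (nat_lit 94) (nat_lit 672) (nat_lit 0) (XT.lf (nat_lit 0) (nat_lit 3454919068) (nat_lit 588) (nat_lit 3420231202) (nat_lit 672) (nat_lit 3216558325) (nat_lit 126) (nat_lit 5) (nat_lit 133) (nat_lit 5) (nat_lit 134) (nat_lit 5) (nat_lit 241) (nat_lit 204) (nat_lit 155)) (XT.lf (nat_lit 0) (nat_lit 1161410068) (nat_lit 672) (nat_lit 6212171632)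 (nat_lit 84) (nat_lit 2897379974) (nat_lit 118) (nat_lit 5) (nat_lit 126) (nat_lit 5) (nat_lit 119) (nat_lit 5) (nat_lit 242) (nat_lit 204) (nat_lit 154))) (XT.nd (nat_lit 94) (nat_lit 588) (nat_lit 0) (XT.lf (nat_lit 0) (nat_lit 4693533441) (nat_lit 588) (nat_lit 985220262) (nat_lit 672) (nat_lit 4776463069) (nat_lit 111) (nat_lit 5) (nat_lit 118) (nat_lit 5) (nat_lit 119) (nat_lit 5) (nat_lit 243) (nat_lit 204) (nat_lit 153)) (XT.lf (nat_lit 0) (nat_lit 5368942304) (nat_lit 588) (nat_lit 5037499061) (nat_lit 672) (nat_lit 238330221) (nat_lit 104) (nat_lit 5) (nat_lit 111) (nat_lit 5) (nat_lit 112) (nat_lit 5) (nat_lit 244) (nat_lit 204) (nat_lit 152))))))) (XT.nd (nat_lit 34874) (nat_lit 0) (nat_lit 15036) (XT.nd (nat_lit 34310) (nat_lit 0) (nat_lit 32172) (XT.nd (nat_lit 34028) (nat_lit 0) (nat_lit 34860) (XT.nd (nat_lit 94) (nat_lit 588) (nat_lit 0) (XT.lf (nat_lit 0) (nat_lit 4428727151) (nat_lit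 588) (nat_lit 4764139448) (nat_lit 84) (nat_lit 1646640715) (nat_lit 97) (nat_lit 5) (nat_lit 104) (nat_lit 5) (nat_lit 98) (nat_lit 5) (nat_lit 245) (nat_lit 204) (nat_lit 151)) (XT.nd (nat_lit 33840) (nat_lit 0) (nat_lit 36288) (XT.lf (nat_lit 0) (nat_lit 6826066855) (nat_lit 588) (nat_lit 2484959316) (nat_lit 672) (nat_lit 1728774120) (nat_lit 90) (nat_lit 5) (nat_lit 97) (nat_lit 5) (nat_lit 98) (nat_lit 5) (nat_lit 246) (nat_lit 204) (nat_lit 150)) (XT.lf (nat_lit 0) (nat_lit 1476307698) (nat_lit 0) (nat_lit 1476307698) (nat_lit 588) (nat_lit 339938485) (nat_lit 522) (nat_lit 5) (nat_lit 522) (nat_lit 3) (nat_lit 529) (nat_lit 3) (nat_lit 205) (nat_lit 205) (nat_lit 190)))) (XT.nd (nat_lit 94) (nat_lit 672) (nat_lit 0) (XT.lf (nat_lit 84) (nat_lit 1617412000) (nat_lit 0) (nat_lit 1558131478) (nat_lit 756) (nat_lit 3440050282) (nat_lit 514) (nat_lit 5) (nat_lit 513) (nat_lit 3) (nat_lit 522) (nat_lit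 5) (nat_lit 206) (nat_lit 205) (nat_lit 189)) (XT.nd (nat_lit 94) (nat_lit 0) (nat_lit 0) (XT.lf (nat_lit 0) (nat_lit 355057768) (nat_lit 756) (nat_lit 6287347621) (nat_lit 840) (nat_lit 7771011) (nat_lit 505) (nat_lit 5) (nat_lit 514) (nat_lit 5) (nat_lit 515) (nat_lit 5) (nat_lit 207) (nat_lit 205) (nat_lit 188)) (XT.lf (nat_lit 0) (nat_lit 4110420667) (nat_lit 756) (nat_lit 830693610) (nat_lit 840) (nat_lit 1746965618) (nat_lit 505) (nat_lit 5) (nat_lit 514) (nat_lit 5) (nat_lit 515) (nat_lit 5) (nat_lit 208) (nat_lit 205) (nat_lit 187))))) (XT.nd (nat_lit 282) (nat_lit 1008) (nat_lit 0) (XT.nd (nat_lit 94) (nat_lit 840) (nat_lit 0) (XT.lf (nat_lit 0) (nat_lit 1120141177) (nat_lit 840) (nat_lit 1944557871) (nat_lit 924) (nat_lit 3665304500) (nat_lit 495) (nat_lit 5) (nat_lit 505) (nat_lit 5) (nat_lit 506) (nat_lit 5) (nat_lit 209) (nat_lit 205) (nat_lit 186)) (XT.nd (nat_lit 94) (nat_lit 840) (nat_lit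 0) (XT.lf (nat_lit 84) (nat_lit 3780049126) (nat_lit 0) (nat_lit 1001160390) (nat_lit 924) (nat_lit 1994576967) (nat_lit 496) (nat_lit 5) (nat_lit 495) (nat_lit 5) (nat_lit 506) (nat_lit 5) (nat_lit 210) (nat_lit 205) (nat_lit 185)) (XT.lf (nat_lit 0) (nat_lit 1608632680) (nat_lit 924) (nat_lit 3987717252) (nat_lit 1008) (nat_lit 1229043863) (nat_lit 485) (nat_lit 5) (nat_lit 496) (nat_lit 5) (nat_lit 497) (nat_lit 5) (nat_lit 211) (nat_lit 205) (nat_lit 184)))) (XT.nd (nat_lit 94) (nat_lit 1008) (nat_lit 0) (XT.lf (nat_lit 84) (nat_lit 1955007055) (nat_lit 0) (nat_lit 3244937811) (nat_lit 1008) (nat_lit 1678851060) (nat_lit 486) (nat_lit 5) (nat_lit 485) (nat_lit 5) (nat_lit 497) (nat_lit 5) (nat_lit 212) (nat_lit 205) (nat_lit 183)) (XT.nd (nat_lit 94) (nat_lit 0) (nat_lit 84) (XT.lf (nat_lit 84) (nat_lit 1139170072) (nat_lit 0) (nat_lit 704566974) (nat_lit 1092) (nat_lit 5092452301) (nat_lit 474)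 (nat_lit 5) (nat_lit 473) (nat_lit 5) (nat_lit 486) (nat_lit 5) (nat_lit 213) (nat_lit 205) (nat_lit 182)) (XT.lf (nat_lit 84) (nat_lit 375899863) (nat_lit 0) (nat_lit 4998150716) (nat_lit 1092) (nat_lit 1623260492) (nat_lit 475) (nat_lit 5) (nat_lit 474) (nat_lit 5) (nat_lit 487) (nat_lit 5) (nat_lit 214) (nat_lit 205) (nat_lit 181)))))) (XT.nd (nat_lit 564) (nat_lit 11172) (nat_lit 0) (XT.nd (nat_lit 282) (nat_lit 3864) (nat_lit 0) (XT.nd (nat_lit 94) (nat_lit 1092) (nat_lit 0) (XT.lf (nat_lit 0) (nat_lit 1847038861) (nat_lit 1092) (nat_lit 323917230) (nat_lit 1176) (nat_lit 4891331174) (nat_lit 461) (nat_lit 5) (nat_lit 474) (nat_lit 5) (nat_lit 475) (nat_lit 5) (nat_lit 215) (nat_lit 205) (nat_lit 180)) (XT.nd (nat_lit 94) (nat_lit 1176) (nat_lit 0) (XT.lf (nat_lit 0) (nat_lit 5328598112) (nat_lit 1092) (nat_lit 960433204) (nat_lit 84) (nat_lit 842135071) (nat_lit 462) (nat_lit 5) (nat_lit 475)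 (nat_lit 5) (nat_lit 463) (nat_lit 5) (nat_lit 216) (nat_lit 205) (nat_lit 179)) (XT.lf (nat_lit 0) (nat_lit 1631056329) (nat_lit 1176) (nat_lit 1550457795) (nat_lit 84) (nat_lit 4022290054) (nat_lit 448) (nat_lit 5) (nat_lit 462) (nat_lit 5) (nat_lit 449) (nat_lit 5) (nat_lit 217) (nat_lit 205) (nat_lit 178)))) (XT.nd (nat_lit 94) (nat_lit 2688) (nat_lit 0) (XT.lf (nat_lit 0) (nat_lit 5074175765) (nat_lit 1260) (nat_lit 2080973315) (nat_lit 84) (nat_lit 125386677) (nat_lit 434) (nat_lit 5) (nat_lit 449) (nat_lit 5) (nat_lit 435) (nat_lit 5) (nat_lit 218) (nat_lit 205) (nat_lit 177)) (XT.nd (nat_lit 94) (nat_lit 1344) (nat_lit 0) (XT.lf (nat_lit 0) (nat_lit 1203285647) (nat_lit 1344) (nat_lit 2571199979) (nat_lit 84) (nat_lit 3586502597) (nat_lit 418) (nat_lit 5) (nat_lit 434) (nat_lit 5) (nat_lit 419) (nat_lit 5) (nat_lit 219) (nat_lit 205) (nat_lit 176)) (XT.lf (nat_lit 0) (nat_lit 4439779979) (nat_lit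 1344) (nat_lit 184499383) (nat_lit 1428) (nat_lit 2821271468) (nat_lit 402) (nat_lit 5) (nat_lit 418) (nat_lit 5) (nat_lit 419) (nat_lit 5) (nat_lit 220) (nat_lit 205) (nat_lit 175))))) (XT.nd (nat_lit 282) (nat_lit 6552) (nat_lit 0) (XT.nd (nat_lit 94) (nat_lit 3108) (nat_lit 0) (XT.lf (nat_lit 0) (nat_lit 577756430) (nat_lit 1512) (nat_lit 3398788392) (nat_lit 84) (nat_lit 3557420959) (nat_lit 384) (nat_lit 5) (nat_lit 402) (nat_lit 5) (nat_lit 385) (nat_lit 5) (nat_lit 221) (nat_lit 205) (nat_lit 174)) (XT.nd (nat_lit 94) (nat_lit 1596) (nat_lit 0) (XT.lf (nat_lit 0) (nat_lit 3883095611) (nat_lit 1512) (nat_lit 105998628) (nat_lit 1596) (nat_lit 3637344584) (nat_lit 366) (nat_lit 5) (nat_lit 384) (nat_lit 5) (nat_lit 385) (nat_lit 5) (nat_lit 222) (nat_lit 205) (nat_lit 173)) (XT.lf (nat_lit 0) (nat_lit 3676904544) (nat_lit 1596) (nat_lit 3809620182) (nat_lit 1680) (nat_lit 236356387) (nat_lit 347)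 (nat_lit 5) (nat_lit 366) (nat_lit 5) (nat_lit 367) (nat_lit 5) (nat_lit 223) (nat_lit 205) (nat_lit 172)))) (XT.nd (nat_lit 188) (nat_lit 3024) (nat_lit 0) (XT.nd (nat_lit 94) (nat_lit 1764) (nat_lit 0) (XT.lf (nat_lit 0) (nat_lit 3182308752) (nat_lit 1764) (nat_lit 4305569913) (nat_lit 84) (nat_lit 335495003) (nat_lit 326) (nat_lit 5) (nat_lit 347) (nat_lit 5) (nat_lit 327) (nat_lit 5) (nat_lit 224) (nat_lit 205) (nat_lit 171)) (XT.lf (nat_lit 0) (nat_lit 3401768296) (nat_lit 1764) (nat_lit 3290732718) (nat_lit 1848) (nat_lit 1235385373) (nat_lit 305) (nat_lit 5) (nat_lit 326) (nat_lit 5) (nat_lit 327) (nat_lit 5) (nat_lit 225) (nat_lit 205) (nat_lit 170))) (XT.nd (nat_lit 94) (nat_lit 1092) (nat_lit 0) (XT.lf (nat_lit 0) (nat_lit 2215635694) (nat_lit 1932) (nat_lit 4702203218) (nat_lit 84) (nat_lit 1118758736) (nat_lit 282) (nat_lit 5) (nat_lit 305) (nat_lit 5) (nat_lit 283) (nat_lit 5) (nat_lit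 226) (nat_lit 205) (nat_lit 169)) (XT.lf (nat_lit 0) (nat_lit 3306159654) (nat_lit 1092) (nat_lit 2442486880) (nat_lit 1176) (nat_lit 2400715250) (nat_lit 269) (nat_lit 5) (nat_lit 282) (nat_lit 5) (nat_lit 283) (nat_lit 5) (nat_lit 227) (nat_lit 205) (nat_lit 168))))))))
noncomputable def xc16 : XT := (XT.nd (nat_lit 36096) (nat_lit 0) (nat_lit 8148) (XT.nd (nat_lit 1128) (nat_lit 4452) (nat_lit 0) (XT.nd (nat_lit 564) (nat_lit 4536) (nat_lit 0) (XT.nd (nat_lit 282) (nat_lit 2688) (nat_lit 0) (XT.nd (nat_lit 94) (nat_lit 1764) (nat_lit 0) (XT.lf (nat_lit 0) (nat_lit 1097936222) (nat_lit 1008) (nat_lit 4939980633) (nat_lit 84) (nat_lit 2228524972) (nat_lit 257) (nat_lit 5) (nat_lit 269) (nat_lit 5) (nat_lit 258) (nat_lit 5) (nat_lit 228) (nat_lit 205) (nat_lit 167)) (XT.nd (nat_lit 94) (nat_lit 840) (nat_lit 0) (XT.lf (nat_lit 0) (nat_lit 3383524207) (nat_lit 924) (nat_lit 1280808680) (nat_lit 1008)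 (nat_lit 3723313625) (nat_lit 246) (nat_lit 5) (nat_lit 257) (nat_lit 5) (nat_lit 258) (nat_lit 5) (nat_lit 229) (nat_lit 205) (nat_lit 166)) (XT.lf (nat_lit 0) (nat_lit 3486904737) (nat_lit 840) (nat_lit 4861744930) (nat_lit 924) (nat_lit 164595578) (nat_lit 236) (nat_lit 5) (nat_lit 246) (nat_lit 5) (nat_lit 247) (nat_lit 5) (nat_lit 230) (nat_lit 205) (nat_lit 165)))) (XT.nd (nat_lit 94) (nat_lit 1764) (nat_lit 0) (XT.lf (nat_lit 0) (nat_lit 3449220299) (nat_lit 924) (nat_lit 5015865434) (nat_lit 84) (nat_lit 178015882) (nat_lit 225) (nat_lit 5) (nat_lit 236) (nat_lit 5) (nat_lit 226) (nat_lit 5) (nat_lit 231) (nat_lit 205) (nat_lit 164)) (XT.nd (nat_lit 94) (nat_lit 924) (nat_lit 0) (XT.lf (nat_lit 0) (nat_lit 3803119682) (nat_lit 840) (nat_lit 3394127208) (nat_lit 924) (nat_lit 1580005391) (nat_lit 215) (nat_lit 5) (nat_lit 225) (nat_lit 5) (nat_lit 226) (nat_lit 5) (nat_lit 232) (nat_lit 205)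 (nat_lit 163)) (XT.lf (nat_lit 0) (nat_lit 2120656953) (nat_lit 924) (nat_lit 4892897002) (nat_lit 84) (nat_lit 1902394545) (nat_lit 204) (nat_lit 5) (nat_lit 215) (nat_lit 5) (nat_lit 205) (nat_lit 5) (nat_lit 233) (nat_lit 205) (nat_lit 162))))) (XT.nd (nat_lit 282) (nat_lit 2184) (nat_lit 0) (XT.nd (nat_lit 94) (nat_lit 1596) (nat_lit 0) (XT.lf (nat_lit 0) (nat_lit 4279705670) (nat_lit 756) (nat_lit 1653958897) (nat_lit 840) (nat_lit 3125437985) (nat_lit 195) (nat_lit 5) (nat_lit 204) (nat_lit 5) (nat_lit 205) (nat_lit 5) (nat_lit 234) (nat_lit 205) (nat_lit 161)) (XT.nd (nat_lit 94) (nat_lit 756) (nat_lit 0) (XT.lf (nat_lit 0) (nat_lit 676070157) (nat_lit 840) (nat_lit 4629537656) (nat_lit 84) (nat_lit 3901269913) (nat_lit 185) (nat_lit 5) (nat_lit 195) (nat_lit 5) (nat_lit 186) (nat_lit 5) (nat_lit 235) (nat_lit 205) (nat_lit 160)) (XT.lf (nat_lit 0) (nat_lit 4566891614) (nat_lit 840) (nat_lit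 4447574647) (nat_lit 84) (nat_lit 344789086) (nat_lit 176) (nat_lit 5) (nat_lit 186) (nat_lit 5) (nat_lit 177) (nat_lit 5) (nat_lit 236) (nat_lit 205) (nat_lit 159)))) (XT.nd (nat_lit 94) (nat_lit 1428) (nat_lit 0) (XT.lf (nat_lit 0) (nat_lit 5281702336) (nat_lit 756) (nat_lit 3342998119) (nat_lit 840) (nat_lit 891587940) (nat_lit 167) (nat_lit 5) (nat_lit 176) (nat_lit 5) (nat_lit 177) (nat_lit 5) (nat_lit 237) (nat_lit 205) (nat_lit 158)) (XT.nd (nat_lit 94) (nat_lit 672) (nat_lit 0) (XT.lf (nat_lit 0) (nat_lit 3113829056) (nat_lit 756) (nat_lit 3991755219) (nat_lit 84) (nat_lit 2572445063) (nat_lit 158) (nat_lit 5) (nat_lit 167) (nat_lit 5) (nat_lit 159) (nat_lit 5) (nat_lit 238) (nat_lit 205) (nat_lit 157)) (XT.lf (nat_lit 0) (nat_lit 6135949616) (nat_lit 672) (nat_lit 1133041812) (nat_lit 756) (nat_lit 2575792543) (nat_lit 150) (nat_lit 5) (nat_lit 158) (nat_lit 5) (nat_lit 159) (nat_lit 5) (nat_lit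 239) (nat_lit 205) (nat_lit 156)))))) (XT.nd (nat_lit 564) (nat_lit 504) (nat_lit 0) (XT.nd (nat_lit 282) (nat_lit 1932) (nat_lit 0) (XT.nd (nat_lit 94) (nat_lit 1260) (nat_lit 0) (XT.lf (nat_lit 0) (nat_lit 1567788961) (nat_lit 756) (nat_lit 3401157164) (nat_lit 84) (nat_lit 5047351043) (nat_lit 141) (nat_lit 5) (nat_lit 150) (nat_lit 5) (nat_lit 142) (nat_lit 5) (nat_lit 240) (nat_lit 205) (nat_lit 155)) (XT.nd (nat_lit 94) (nat_lit 588) (nat_lit 0) (XT.lf (nat_lit 0) (nat_lit 5840334515) (nat_lit 756) (nat_lit 3057311554) (nat_lit 84) (nat_lit 1295258066) (nat_lit 133) (nat_lit 5) (nat_lit 142) (nat_lit 5) (nat_lit 134) (nat_lit 5) (nat_lit 241) (nat_lit 205) (nat_lit 154)) (XT.lf (nat_lit 0) (nat_lit 7698334153) (nat_lit 588) (nat_lit 2608681787) (nat_lit 672) (nat_lit 67695277) (nat_lit 126) (nat_lit 5) (nat_lit 133) (nat_lit 5) (nat_lit 134) (nat_lit 5) (nat_lit 242) (nat_lit 205) (nat_lit 153))))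 (XT.nd (nat_lit 94) (nat_lit 1260) (nat_lit 0) (XT.lf (nat_lit 0) (nat_lit 4343724769) (nat_lit 672) (nat_lit 2280072565) (nat_lit 84) (nat_lit 3937531360) (nat_lit 118) (nat_lit 5) (nat_lit 126) (nat_lit 5) (nat_lit 119) (nat_lit 5) (nat_lit 243) (nat_lit 205) (nat_lit 152)) (XT.nd (nat_lit 94) (nat_lit 672) (nat_lit 0) (XT.lf (nat_lit 0) (nat_lit 8925599235) (nat_lit 588) (nat_lit 16312148) (nat_lit 672) (nat_lit 1811821147) (nat_lit 111) (nat_lit 5) (nat_lit 118) (nat_lit 5) (nat_lit 119) (nat_lit 5) (nat_lit 244) (nat_lit 205) (nat_lit 151)) (XT.lf (nat_lit 0) (nat_lit 2775201342) (nat_lit 672) (nat_lit 1367866102) (nat_lit 84) (nat_lit 6807906757) (nat_lit 103) (nat_lit 5) (nat_lit 111) (nat_lit 5) (nat_lit 104) (nat_lit 5) (nat_lit 245) (nat_lit 205) (nat_lit 150))))) (XT.nd (nat_lit 34122) (nat_lit 0) (nat_lit 32508) (XT.nd (nat_lit 33934) (nat_lit 0) (nat_lit 34188) (XT.lf (nat_lit 0) (nat_lit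 7536139811) (nat_lit 588) (nat_lit 863405225) (nat_lit 84) (nat_lit 2754392075) (nat_lit 97) (nat_lit 5) (nat_lit 104) (nat_lit 5) (nat_lit 98) (nat_lit 5) (nat_lit 246) (nat_lit 205) (nat_lit 149)) (XT.nd (nat_lit 94) (nat_lit 0) (nat_lit 0) (XT.lf (nat_lit 0) (nat_lit 65538343) (nat_lit 0) (nat_lit 65538343) (nat_lit 756) (nat_lit 3193064570) (nat_lit 504) (nat_lit 5) (nat_lit 504) (nat_lit 3) (nat_lit 513) (nat_lit 3) (nat_lit 206) (nat_lit 206) (nat_lit 188)) (XT.lf (nat_lit 0) (nat_lit 3920424555) (nat_lit 756) (nat_lit 1229089548) (nat_lit 840) (nat_lit 1534732316) (nat_lit 504) (nat_lit 5) (nat_lit 513) (nat_lit 3) (nat_lit 514) (nat_lit 5) (nat_lit 207) (nat_lit 206) (nat_lit 187)))) (XT.nd (nat_lit 94) (nat_lit 840) (nat_lit 0) (XT.lf (nat_lit 0) (nat_lit 836510277) (nat_lit 840) (nat_lit 2513385751) (nat_lit 924) (nat_lit 3374379063) (nat_lit 494) (nat_lit 5) (nat_lit 504) (nat_lit 5) (nat_lit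 505) (nat_lit 5) (nat_lit 208) (nat_lit 206) (nat_lit 186)) (XT.nd (nat_lit 94) (nat_lit 840) (nat_lit 0) (XT.lf (nat_lit 84) (nat_lit 3030099454) (nat_lit 0) (nat_lit 1361598291) (nat_lit 924) (nat_lit 2376417751) (nat_lit 495) (nat_lit 5) (nat_lit 494) (nat_lit 5) (nat_lit 505) (nat_lit 5) (nat_lit 209) (nat_lit 206) (nat_lit 185)) (XT.lf (nat_lit 0) (nat_lit 1120992365) (nat_lit 924) (nat_lit 4898667441) (nat_lit 1008) (nat_lit 796245178) (nat_lit 484) (nat_lit 5) (nat_lit 495) (nat_lit 5) (nat_lit 496) (nat_lit 5) (nat_lit 210) (nat_lit 206) (nat_lit 184))))))) (XT.nd (nat_lit 1128) (nat_lit 14448) (nat_lit 0) (XT.nd (nat_lit 564) (nat_lit 6804) (nat_lit 0) (XT.nd (nat_lit 282) (nat_lit 2100) (nat_lit 0) (XT.nd (nat_lit 94) (nat_lit 1008) (nat_lit 0) (XT.lf (nat_lit 84) (nat_lit 856668728) (nat_lit 0) (nat_lit 3741083296) (nat_lit 1008) (nat_lit 2269597579) (nat_lit 485) (nat_lit 5) (nat_lit 484)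 (nat_lit 5) (nat_lit 496) (nat_lit 5) (nat_lit 211) (nat_lit 206) (nat_lit 183)) (XT.nd (nat_lit 94) (nat_lit 0) (nat_lit 84) (XT.lf (nat_lit 0) (nat_lit 1145636863) (nat_lit 1008) (nat_lit 132121070) (nat_lit 1092) (nat_lit 5645092014) (nat_lit 472) (nat_lit 5) (nat_lit 484) (nat_lit 5) (nat_lit 485) (nat_lit 5) (nat_lit 212) (nat_lit 206) (nat_lit 182)) (XT.lf (nat_lit 0) (nat_lit 4555242031) (nat_lit 1008) (nat_lit 1058576031) (nat_lit 1092) (nat_lit 1368115858) (nat_lit 473) (nat_lit 5) (nat_lit 485) (nat_lit 5) (nat_lit 486) (nat_lit 5) (nat_lit 213) (nat_lit 206) (nat_lit 181)))) (XT.nd (nat_lit 94) (nat_lit 1092) (nat_lit 0) (XT.lf (nat_lit 0) (nat_lit 933495348) (nat_lit 1092) (nat_lit 1926929578) (nat_lit 1176) (nat_lit 4184535110) (nat_lit 460) (nat_lit 5) (nat_lit 473) (nat_lit 5) (nat_lit 474) (nat_lit 5) (nat_lit 214) (nat_lit 206) (nat_lit 180)) (XT.nd (nat_lit 94) (nat_lit 1176) (nat_lit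 0) (XT.lf (nat_lit 0) (nat_lit 4279137228) (nat_lit 1092) (nat_lit 2740156760) (nat_lit 1176) (nat_lit 92615961) (nat_lit 461) (nat_lit 5) (nat_lit 474) (nat_lit 5) (nat_lit 475) (nat_lit 5) (nat_lit 215) (nat_lit 206) (nat_lit 179)) (XT.lf (nat_lit 0) (nat_lit 482426207) (nat_lit 1176) (nat_lit 3506117611) (nat_lit 1260) (nat_lit 3194115207) (nat_lit 447) (nat_lit 5) (nat_lit 461) (nat_lit 5) (nat_lit 462) (nat_lit 5) (nat_lit 216) (nat_lit 206) (nat_lit 178))))) (XT.nd (nat_lit 282) (nat_lit 4368) (nat_lit 0) (XT.nd (nat_lit 94) (nat_lit 2436) (nat_lit 0) (XT.lf (nat_lit 84) (nat_lit 3035578301) (nat_lit 0) (nat_lit 749515420) (nat_lit 1260) (nat_lit 3472230488) (nat_lit 448) (nat_lit 5) (nat_lit 447) (nat_lit 5) (nat_lit 462) (nat_lit 5) (nat_lit 217) (nat_lit 206) (nat_lit 177)) (XT.nd (nat_lit 94) (nat_lit 1344) (nat_lit 0) (XT.lf (nat_lit 0) (nat_lit 2449632665) (nat_lit 1176) (nat_lit 4691494359)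 (nat_lit 1260) (nat_lit 194844659) (nat_lit 434) (nat_lit 5) (nat_lit 448) (nat_lit 5) (nat_lit 449) (nat_lit 5) (nat_lit 218) (nat_lit 206) (nat_lit 176)) (XT.lf (nat_lit 0) (nat_lit 1908521951) (nat_lit 1260) (nat_lit 1171661975) (nat_lit 1344) (nat_lit 4338249181) (nat_lit 418) (nat_lit 5) (nat_lit 433) (nat_lit 5) (nat_lit 434) (nat_lit 5) (nat_lit 219) (nat_lit 206) (nat_lit 175)))) (XT.nd (nat_lit 94) (nat_lit 3024) (nat_lit 0) (XT.lf (nat_lit 0) (nat_lit 1420165750) (nat_lit 1344) (nat_lit 4993041158) (nat_lit 1428) (nat_lit 1091724165) (nat_lit 402) (nat_lit 5) (nat_lit 418) (nat_lit 5) (nat_lit 419) (nat_lit 5) (nat_lit 220) (nat_lit 206) (nat_lit 174)) (XT.nd (nat_lit 94) (nat_lit 1512) (nat_lit 0) (XT.lf (nat_lit 0) (nat_lit 978609171) (nat_lit 1428) (nat_lit 1198520112) (nat_lit 1512) (nat_lit 5418261496) (nat_lit 384) (nat_lit 5) (nat_lit 401) (nat_lit 5) (nat_lit 402) (nat_lit 5) (nat_lit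 221) (nat_lit 206) (nat_lit 173)) (XT.lf (nat_lit 0) (nat_lit 579986572) (nat_lit 1512) (nat_lit 4921212894) (nat_lit 1596) (nat_lit 2188584243) (nat_lit 366) (nat_lit 5) (nat_lit 384) (nat_lit 5) (nat_lit 385) (nat_lit 5) (nat_lit 222) (nat_lit 206) (nat_lit 172)))))) (XT.nd (nat_lit 564) (nat_lit 6216) (nat_lit 0) (XT.nd (nat_lit 282) (nat_lit 4872) (nat_lit 0) (XT.nd (nat_lit 94) (nat_lit 1680) (nat_lit 0) (XT.lf (nat_lit 0) (nat_lit 234764831) (nat_lit 1596) (nat_lit 853122021) (nat_lit 1680) (nat_lit 6700504351) (nat_lit 346) (nat_lit 5) (nat_lit 365) (nat_lit 5) (nat_lit 366) (nat_lit 5) (nat_lit 223) (nat_lit 206) (nat_lit 171)) (XT.nd (nat_lit 94) (nat_lit 1680) (nat_lit 0) (XT.lf (nat_lit 0) (nat_lit 4417083132) (nat_lit 1680) (nat_lit 79941914) (nat_lit 84) (nat_lit 3393715093) (nat_lit 346) (nat_lit 5) (nat_lit 366) (nat_lit 5) (nat_lit 347) (nat_lit 5) (nat_lit 224) (nat_lit 206) (nat_lit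 170)) (XT.lf (nat_lit 0) (nat_lit 7668519288) (nat_lit 1680) (nat_lit 151997165) (nat_lit 1764) (nat_lit 177085101) (nat_lit 326) (nat_lit 5) (nat_lit 346) (nat_lit 5) (nat_lit 347) (nat_lit 5) (nat_lit 225) (nat_lit 206) (nat_lit 169)))) (XT.nd (nat_lit 94) (nat_lit 3024) (nat_lit 0) (XT.lf (nat_lit 0) (nat_lit 3173362358) (nat_lit 1848) (nat_lit 563682465) (nat_lit 84) (nat_lit 4370979422) (nat_lit 304) (nat_lit 5) (nat_lit 326) (nat_lit 5) (nat_lit 305) (nat_lit 5) (nat_lit 226) (nat_lit 206) (nat_lit 168)) (XT.nd (nat_lit 94) (nat_lit 1176) (nat_lit 0) (XT.lf (nat_lit 0) (nat_lit 6603531515) (nat_lit 1932) (nat_lit 739149535) (nat_lit 84) (nat_lit 880369848) (nat_lit 282) (nat_lit 5) (nat_lit 305) (nat_lit 5) (nat_lit 283) (nat_lit 5) (nat_lit 227) (nat_lit 206) (nat_lit 167)) (XT.lf (nat_lit 0) (nat_lit 1774986642) (nat_lit 1176) (nat_lit 886958487) (nat_lit 84) (nat_lit 5680107052) (nat_lit 268)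 (nat_lit 5) (nat_lit 282) (nat_lit 5) (nat_lit 269) (nat_lit 5) (nat_lit 228) (nat_lit 206) (nat_lit 166))))) (XT.nd (nat_lit 282) (nat_lit 3444) (nat_lit 0) (XT.nd (nat_lit 94) (nat_lit 1848) (nat_lit 0) (XT.lf (nat_lit 0) (nat_lit 5245561799) (nat_lit 1008) (nat_lit 994735757) (nat_lit 84) (nat_lit 2225067383) (nat_lit 257) (nat_lit 5) (nat_lit 269) (nat_lit 5) (nat_lit 258) (nat_lit 5) (nat_lit 229) (nat_lit 206) (nat_lit 165)) (XT.nd (nat_lit 94) (nat_lit 840) (nat_lit 0) (XT.lf (nat_lit 0) (nat_lit 229983550) (nat_lit 1008) (nat_lit 1055921484) (nat_lit 84) (nat_lit 7307294623) (nat_lit 245) (nat_lit 5) (nat_lit 257) (nat_lit 5) (nat_lit 246) (nat_lit 5) (nat_lit 230) (nat_lit 206) (nat_lit 164)) (XT.lf (nat_lit 0) (nat_lit 3753265730) (nat_lit 924) (nat_lit 1100254627) (nat_lit 84) (nat_lit 3871449462) (nat_lit 235) (nat_lit 5) (nat_lit 246) (nat_lit 5) (nat_lit 236) (nat_lit 5) (nat_lit 231)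 (nat_lit 206) (nat_lit 163)))) (XT.nd (nat_lit 188) (nat_lit 1680) (nat_lit 0) (XT.nd (nat_lit 94) (nat_lit 924) (nat_lit 0) (XT.lf (nat_lit 0) (nat_lit 7388591861) (nat_lit 924) (nat_lit 1088865739) (nat_lit 84) (nat_lit 384142295) (nat_lit 225) (nat_lit 5) (nat_lit 236) (nat_lit 5) (nat_lit 226) (nat_lit 5) (nat_lit 232) (nat_lit 206) (nat_lit 162)) (XT.lf (nat_lit 0) (nat_lit 2133479712) (nat_lit 924) (nat_lit 1060099806) (nat_lit 84) (nat_lit 5808737767) (nat_lit 214) (nat_lit 5) (nat_lit 225) (nat_lit 5) (nat_lit 215) (nat_lit 5) (nat_lit 233) (nat_lit 206) (nat_lit 161))) (XT.nd (nat_lit 94) (nat_lit 840) (nat_lit 0) (XT.lf (nat_lit 0) (nat_lit 5844414041) (nat_lit 924) (nat_lit 990215743) (nat_lit 84) (nat_lit 2313087163) (nat_lit 204) (nat_lit 5) (nat_lit 215) (nat_lit 5) (nat_lit 205) (nat_lit 5) (nat_lit 234) (nat_lit 206) (nat_lit 160)) (XT.lf (nat_lit 0) (nat_lit 392208459) (nat_lit 840)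 (nat_lit 877621257) (nat_lit 84) (nat_lit 8028078569) (nat_lit 194) (nat_lit 5) (nat_lit 204) (nat_lit 5) (nat_lit 195) (nat_lit 5) (nat_lit 235) (nat_lit 206) (nat_lit 159))))))))
noncomputable def xc17 : XT := (XT.nd (nat_lit 36284) (nat_lit 0) (nat_lit 1176) (XT.nd (nat_lit 35062) (nat_lit 0) (nat_lit 26880) (XT.nd (nat_lit 564) (nat_lit 3024) (nat_lit 0) (XT.nd (nat_lit 282) (nat_lit 2772) (nat_lit 0) (XT.nd (nat_lit 94) (nat_lit 1596) (nat_lit 0) (XT.lf (nat_lit 0) (nat_lit 4190762611) (nat_lit 840) (nat_lit 751935699) (nat_lit 84) (nat_lit 4509617477) (nat_lit 185) (nat_lit 5) (nat_lit 195) (nat_lit 5) (nat_lit 186) (nat_lit 5) (nat_lit 236) (nat_lit 206) (nat_lit 158)) (XT.nd (nat_lit 94) (nat_lit 840) (nat_lit 0) (XT.lf (nat_lit 0) (nat_lit 8131898213) (nat_lit 840) (nat_lit 572327452) (nat_lit 84) (nat_lit 907689981) (nat_lit 176) (nat_lit 5) (nat_lit 186) (nat_lit 5) (nat_lit 177) (nat_lit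 5) (nat_lit 237) (nat_lit 206) (nat_lit 157)) (XT.lf (nat_lit 0) (nat_lit 2432816142) (nat_lit 840) (nat_lit 375864102) (nat_lit 84) (nat_lit 6967291850) (nat_lit 166) (nat_lit 5) (nat_lit 176) (nat_lit 5) (nat_lit 167) (nat_lit 5) (nat_lit 238) (nat_lit 206) (nat_lit 156)))) (XT.nd (nat_lit 94) (nat_lit 2100) (nat_lit 0) (XT.lf (nat_lit 0) (nat_lit 6484772764) (nat_lit 756) (nat_lit 142975520) (nat_lit 84) (nat_lit 3317248968) (nat_lit 158) (nat_lit 5) (nat_lit 167) (nat_lit 5) (nat_lit 159) (nat_lit 5) (nat_lit 239) (nat_lit 206) (nat_lit 155)) (XT.nd (nat_lit 94) (nat_lit 672) (nat_lit 0) (XT.lf (nat_lit 0) (nat_lit 139082340) (nat_lit 672) (nat_lit 437011034) (nat_lit 756) (nat_lit 9543195726) (nat_lit 141) (nat_lit 5) (nat_lit 149) (nat_lit 5) (nat_lit 150) (nat_lit 5) (nat_lit 240) (nat_lit 206) (nat_lit 154)) (XT.lf (nat_lit 0) (nat_lit 428057202) (nat_lit 672) (nat_lit 4325021791) (nat_lit 756)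 (nat_lit 5544919393) (nat_lit 133) (nat_lit 5) (nat_lit 141) (nat_lit 5) (nat_lit 142) (nat_lit 5) (nat_lit 241) (nat_lit 206) (nat_lit 153))))) (XT.nd (nat_lit 282) (nat_lit 1176) (nat_lit 0) (XT.nd (nat_lit 94) (nat_lit 1260) (nat_lit 0) (XT.lf (nat_lit 0) (nat_lit 772525206) (nat_lit 588) (nat_lit 8332670679) (nat_lit 672) (nat_lit 1377130003) (nat_lit 126) (nat_lit 5) (nat_lit 133) (nat_lit 5) (nat_lit 134) (nat_lit 5) (nat_lit 242) (nat_lit 206) (nat_lit 152)) (XT.nd (nat_lit 94) (nat_lit 588) (nat_lit 0) (XT.lf (nat_lit 0) (nat_lit 1139098528) (nat_lit 588) (nat_lit 1800699825) (nat_lit 672) (nat_lit 7731843951) (nat_lit 118) (nat_lit 5) (nat_lit 125) (nat_lit 5) (nat_lit 126) (nat_lit 5) (nat_lit 243) (nat_lit 206) (nat_lit 151)) (XT.lf (nat_lit 0) (nat_lit 1535872403) (nat_lit 588) (nat_lit 5903601334) (nat_lit 672) (nat_lit 3426739651) (nat_lit 111) (nat_lit 5) (nat_lit 118) (nat_lit 5) (nat_lit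 119) (nat_lit 5) (nat_lit 244) (nat_lit 206) (nat_lit 150)))) (XT.nd (nat_lit 94) (nat_lit 504) (nat_lit 0) (XT.lf (nat_lit 0) (nat_lit 1054131144) (nat_lit 672) (nat_lit 9084083366) (nat_lit 84) (nat_lit 928340682) (nat_lit 103) (nat_lit 5) (nat_lit 111) (nat_lit 5) (nat_lit 104) (nat_lit 5) (nat_lit 245) (nat_lit 206) (nat_lit 149)) (XT.nd (nat_lit 34028) (nat_lit 0) (nat_lit 33264) (XT.lf (nat_lit 0) (nat_lit 2438238661) (nat_lit 504) (nat_lit 3269097139) (nat_lit 588) (nat_lit 5564552446) (nat_lit 97) (nat_lit 5) (nat_lit 103) (nat_lit 5) (nat_lit 104) (nat_lit 5) (nat_lit 246) (nat_lit 206) (nat_lit 148)) (XT.lf (nat_lit 0) (nat_lit 371005706) (nat_lit 924) (nat_lit 1495088694) (nat_lit 924) (nat_lit 1495088694) (nat_lit 493) (nat_lit 3) (nat_lit 504) (nat_lit 3) (nat_lit 504) (nat_lit 5) (nat_lit 207) (nat_lit 207) (nat_lit 186)))))) (XT.nd (nat_lit 564) (nat_lit 3528) (nat_lit 0) (XT.nd (nat_lit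 282) (nat_lit 2016) (nat_lit 0) (XT.nd (nat_lit 94) (nat_lit 840) (nat_lit 0) (XT.lf (nat_lit 84) (nat_lit 2376720530) (nat_lit 0) (nat_lit 1820358863) (nat_lit 924) (nat_lit 2567202386) (nat_lit 494) (nat_lit 5) (nat_lit 493) (nat_lit 3) (nat_lit 504) (nat_lit 5) (nat_lit 208) (nat_lit 207) (nat_lit 185)) (XT.nd (nat_lit 94) (nat_lit 0) (nat_lit 0) (XT.lf (nat_lit 0) (nat_lit 826731966) (nat_lit 924) (nat_lit 5716802090) (nat_lit 1008) (nat_lit 266724080) (nat_lit 483) (nat_lit 5) (nat_lit 494) (nat_lit 5) (nat_lit 495) (nat_lit 5) (nat_lit 209) (nat_lit 207) (nat_lit 184)) (XT.lf (nat_lit 0) (nat_lit 4195868008) (nat_lit 924) (nat_lit 142088552) (nat_lit 1008) (nat_lit 2521787667) (nat_lit 483) (nat_lit 5) (nat_lit 494) (nat_lit 5) (nat_lit 495) (nat_lit 5) (nat_lit 210) (nat_lit 207) (nat_lit 183)))) (XT.nd (nat_lit 94) (nat_lit 1008) (nat_lit 0) (XT.lf (nat_lit 0) (nat_lit 653483872) (nat_lit 1008)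 (nat_lit 1291424907) (nat_lit 1092) (nat_lit 4968294472) (nat_lit 471) (nat_lit 5) (nat_lit 483) (nat_lit 5) (nat_lit 484) (nat_lit 5) (nat_lit 211) (nat_lit 207) (nat_lit 182)) (XT.nd (nat_lit 94) (nat_lit 1092) (nat_lit 0) (XT.lf (nat_lit 0) (nat_lit 3942266110) (nat_lit 1008) (nat_lit 2390365536) (nat_lit 1092) (nat_lit 637779059) (nat_lit 472) (nat_lit 5) (nat_lit 484) (nat_lit 5) (nat_lit 485) (nat_lit 5) (nat_lit 212) (nat_lit 207) (nat_lit 181)) (XT.lf (nat_lit 0) (nat_lit 222412510) (nat_lit 1092) (nat_lit 3433094514) (nat_lit 1176) (nat_lit 3376034193) (nat_lit 459) (nat_lit 5) (nat_lit 472) (nat_lit 5) (nat_lit 473) (nat_lit 5) (nat_lit 213) (nat_lit 207) (nat_lit 180))))) (XT.nd (nat_lit 282) (nat_lit 2436) (nat_lit 0) (XT.nd (nat_lit 94) (nat_lit 1092) (nat_lit 0) (XT.lf (nat_lit 84) (nat_lit 2669790463) (nat_lit 0) (nat_lit 773323960) (nat_lit 1176) (nat_lit 3653372351) (nat_lit 460) (nat_lit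 5) (nat_lit 459) (nat_lit 5) (nat_lit 473) (nat_lit 5) (nat_lit 214) (nat_lit 207) (nat_lit 179)) (XT.nd (nat_lit 94) (nat_lit 1176) (nat_lit 0) (XT.lf (nat_lit 84) (nat_lit 1798661710) (nat_lit 0) (nat_lit 4901122761) (nat_lit 1176) (nat_lit 465609598) (nat_lit 461) (nat_lit 5) (nat_lit 460) (nat_lit 5) (nat_lit 474) (nat_lit 5) (nat_lit 215) (nat_lit 207) (nat_lit 178)) (XT.lf (nat_lit 84) (nat_lit 974228893) (nat_lit 0) (nat_lit 1736405362) (nat_lit 1260) (nat_lit 4527444855) (nat_lit 447) (nat_lit 5) (nat_lit 446) (nat_lit 5) (nat_lit 461) (nat_lit 5) (nat_lit 216) (nat_lit 207) (nat_lit 177)))) (XT.nd (nat_lit 188) (nat_lit 1260) (nat_lit 0) (XT.nd (nat_lit 94) (nat_lit 1260) (nat_lit 0) (XT.lf (nat_lit 84) (nat_lit 206284235) (nat_lit 0) (nat_lit 5713436015) (nat_lit 1260) (nat_lit 1395082840) (nat_lit 448) (nat_lit 5) (nat_lit 447) (nat_lit 5) (nat_lit 462) (nat_lit 5) (nat_lit 217) (nat_lit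 207) (nat_lit 176)) (XT.lf (nat_lit 0) (nat_lit 1758763509) (nat_lit 1260) (nat_lit 509780997) (nat_lit 1344) (nat_lit 5126732503) (nat_lit 432) (nat_lit 5) (nat_lit 447) (nat_lit 5) (nat_lit 448) (nat_lit 5) (nat_lit 218) (nat_lit 207) (nat_lit 175))) (XT.nd (nat_lit 94) (nat_lit 1344) (nat_lit 0) (XT.lf (nat_lit 0) (nat_lit 4939622573) (nat_lit 1260) (nat_lit 1174156954) (nat_lit 84) (nat_lit 1365938359) (nat_lit 433) (nat_lit 5) (nat_lit 448) (nat_lit 5) (nat_lit 434) (nat_lit 5) (nat_lit 219) (nat_lit 207) (nat_lit 174)) (XT.lf (nat_lit 0) (nat_lit 602649742) (nat_lit 1344) (nat_lit 1791987128) (nat_lit 84) (nat_lit 5173527589) (nat_lit 417) (nat_lit 5) (nat_lit 433) (nat_lit 5) (nat_lit 418) (nat_lit 5) (nat_lit 220) (nat_lit 207) (nat_lit 173))))))) (XT.nd (nat_lit 1128) (nat_lit 9576) (nat_lit 0) (XT.nd (nat_lit 564) (nat_lit 6636) (nat_lit 0) (XT.nd (nat_lit 282) (nat_lit 5124) (nat_lit 0) (XT.nd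 (nat_lit 94) (nat_lit 3024) (nat_lit 0) (XT.lf (nat_lit 0) (nat_lit 3763747742) (nat_lit 1428) (nat_lit 2372111383) (nat_lit 84) (nat_lit 1524618641) (nat_lit 401) (nat_lit 5) (nat_lit 418) (nat_lit 5) (nat_lit 402) (nat_lit 5) (nat_lit 221) (nat_lit 207) (nat_lit 172)) (XT.nd (nat_lit 94) (nat_lit 1596) (nat_lit 0) (XT.lf (nat_lit 0) (nat_lit 4853268245) (nat_lit 1428) (nat_lit 2139887804) (nat_lit 1512) (nat_lit 763797208) (nat_lit 384) (nat_lit 5) (nat_lit 401) (nat_lit 5) (nat_lit 402) (nat_lit 5) (nat_lit 222) (nat_lit 207) (nat_lit 171)) (XT.lf (nat_lit 0) (nat_lit 2401879095) (nat_lit 1596) (nat_lit 3401512134) (nat_lit 84) (nat_lit 2053932255) (nat_lit 365) (nat_lit 5) (nat_lit 384) (nat_lit 5) (nat_lit 366) (nat_lit 5) (nat_lit 223) (nat_lit 207) (nat_lit 170)))) (XT.nd (nat_lit 94) (nat_lit 3528) (nat_lit 0) (XT.lf (nat_lit 0) (nat_lit 4106348563) (nat_lit 1596) (nat_lit 1524851798) (nat_lit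 1680) (nat_lit 2330669309) (nat_lit 346) (nat_lit 5) (nat_lit 365) (nat_lit 5) (nat_lit 366) (nat_lit 5) (nat_lit 224) (nat_lit 207) (nat_lit 169)) (XT.nd (nat_lit 94) (nat_lit 1764) (nat_lit 0) (XT.lf (nat_lit 0) (nat_lit 863974299) (nat_lit 1764) (nat_lit 4271931146) (nat_lit 84) (nat_lit 2934610630) (nat_lit 325) (nat_lit 5) (nat_lit 346) (nat_lit 5) (nat_lit 326) (nat_lit 5) (nat_lit 225) (nat_lit 207) (nat_lit 168)) (XT.lf (nat_lit 0) (nat_lit 3531211526) (nat_lit 1764) (nat_lit 572263946) (nat_lit 1848) (nat_lit 4079820248) (nat_lit 304) (nat_lit 5) (nat_lit 325) (nat_lit 5) (nat_lit 326) (nat_lit 5) (nat_lit 226) (nat_lit 207) (nat_lit 167))))) (XT.nd (nat_lit 282) (nat_lit 2688) (nat_lit 0) (XT.nd (nat_lit 94) (nat_lit 2100) (nat_lit 0) (XT.lf (nat_lit 0) (nat_lit 3302510293) (nat_lit 1848) (nat_lit 4144229312) (nat_lit 1932) (nat_lit 853494679) (nat_lit 282) (nat_lit 5) (nat_lit 304) (nat_lit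 5) (nat_lit 305) (nat_lit 5) (nat_lit 227) (nat_lit 207) (nat_lit 166)) (XT.nd (nat_lit 94) (nat_lit 924) (nat_lit 0) (XT.lf (nat_lit 0) (nat_lit 2423471035) (nat_lit 1176) (nat_lit 5306062047) (nat_lit 84) (nat_lit 691925597) (nat_lit 268) (nat_lit 5) (nat_lit 282) (nat_lit 5) (nat_lit 269) (nat_lit 5) (nat_lit 228) (nat_lit 207) (nat_lit 165)) (XT.lf (nat_lit 0) (nat_lit 2959539290) (nat_lit 924) (nat_lit 2841745408) (nat_lit 1008) (nat_lit 2745527491) (nat_lit 257) (nat_lit 5) (nat_lit 268) (nat_lit 5) (nat_lit 269) (nat_lit 5) (nat_lit 229) (nat_lit 207) (nat_lit 164)))) (XT.nd (nat_lit 94) (nat_lit 1680) (nat_lit 0) (XT.lf (nat_lit 0) (nat_lit 599899609) (nat_lit 1008) (nat_lit 5825234848) (nat_lit 84) (nat_lit 2251583754) (nat_lit 245) (nat_lit 5) (nat_lit 257) (nat_lit 5) (nat_lit 246) (nat_lit 5) (nat_lit 230) (nat_lit 207) (nat_lit 163)) (XT.nd (nat_lit 94) (nat_lit 840) (nat_lit 0) (XT.lf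 (nat_lit 0) (nat_lit 2770588165) (nat_lit 840) (nat_lit 1247462863) (nat_lit 924) (nat_lit 4792750221) (nat_lit 235) (nat_lit 5) (nat_lit 245) (nat_lit 5) (nat_lit 246) (nat_lit 5) (nat_lit 231) (nat_lit 207) (nat_lit 162)) (XT.lf (nat_lit 0) (nat_lit 2728673411) (nat_lit 840) (nat_lit 4835846336) (nat_lit 924) (nat_lit 1384866442) (nat_lit 225) (nat_lit 5) (nat_lit 235) (nat_lit 5) (nat_lit 236) (nat_lit 5) (nat_lit 232) (nat_lit 207) (nat_lit 161)))))) (XT.nd (nat_lit 564) (nat_lit 4620) (nat_lit 0) (XT.nd (nat_lit 282) (nat_lit 2352) (nat_lit 0) (XT.nd (nat_lit 94) (nat_lit 1680) (nat_lit 0) (XT.lf (nat_lit 0) (nat_lit 2107772261) (nat_lit 924) (nat_lit 6365834428) (nat_lit 84) (nat_lit 618959824) (nat_lit 214) (nat_lit 5) (nat_lit 225) (nat_lit 5) (nat_lit 215) (nat_lit 5) (nat_lit 233) (nat_lit 207) (nat_lit 160)) (XT.nd (nat_lit 94) (nat_lit 840) (nat_lit 0) (XT.lf (nat_lit 0) (nat_lit 2747810466)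 (nat_lit 840) (nat_lit 2976128193) (nat_lit 924) (nat_lit 3516112413) (nat_lit 204) (nat_lit 5) (nat_lit 214) (nat_lit 5) (nat_lit 215) (nat_lit 5) (nat_lit 234) (nat_lit 207) (nat_lit 159)) (XT.lf (nat_lit 0) (nat_lit 82230877) (nat_lit 840) (nat_lit 6574302356) (nat_lit 84) (nat_lit 2735947657) (nat_lit 194) (nat_lit 5) (nat_lit 204) (nat_lit 5) (nat_lit 195) (nat_lit 5) (nat_lit 235) (nat_lit 207) (nat_lit 158)))) (XT.nd (nat_lit 94) (nat_lit 1596) (nat_lit 0) (XT.lf (nat_lit 0) (nat_lit 2910579164) (nat_lit 756) (nat_lit 858473006) (nat_lit 840) (nat_lit 5780294344) (nat_lit 185) (nat_lit 5) (nat_lit 194) (nat_lit 5) (nat_lit 195) (nat_lit 5) (nat_lit 236) (nat_lit 207) (nat_lit 157)) (XT.nd (nat_lit 94) (nat_lit 840) (nat_lit 0) (XT.lf (nat_lit 0) (nat_lit 3036525403) (nat_lit 756) (nat_lit 4581457645) (nat_lit 840) (nat_lit 2092991830) (nat_lit 176) (nat_lit 5) (nat_lit 185) (nat_lit 5) (nat_lit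 186) (nat_lit 5) (nat_lit 237) (nat_lit 207) (nat_lit 156)) (XT.lf (nat_lit 0) (nat_lit 1715225904) (nat_lit 840) (nat_lit 6673418314) (nat_lit 84) (nat_lit 1488978949) (nat_lit 166) (nat_lit 5) (nat_lit 176) (nat_lit 5) (nat_lit 167) (nat_lit 5) (nat_lit 238) (nat_lit 207) (nat_lit 155))))) (XT.nd (nat_lit 282) (nat_lit 2520) (nat_lit 0) (XT.nd (nat_lit 94) (nat_lit 1428) (nat_lit 0) (XT.lf (nat_lit 0) (nat_lit 3394246723) (nat_lit 672) (nat_lit 2267986085) (nat_lit 756) (nat_lit 4386724411) (nat_lit 158) (nat_lit 5) (nat_lit 166) (nat_lit 5) (nat_lit 167) (nat_lit 5) (nat_lit 239) (nat_lit 207) (nat_lit 154)) (XT.nd (nat_lit 94) (nat_lit 756) (nat_lit 0) (XT.lf (nat_lit 0) (nat_lit 3627568011) (nat_lit 672) (nat_lit 6155086097) (nat_lit 756) (nat_lit 442857934) (nat_lit 150) (nat_lit 5) (nat_lit 158) (nat_lit 5) (nat_lit 159) (nat_lit 5) (nat_lit 240) (nat_lit 207) (nat_lit 153)) (XT.lf (nat_lit 0)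 (nat_lit 3614646609) (nat_lit 756) (nat_lit 6517510004) (nat_lit 84) (nat_lit 274903026) (nat_lit 141) (nat_lit 5) (nat_lit 150) (nat_lit 5) (nat_lit 142) (nat_lit 5) (nat_lit 241) (nat_lit 207) (nat_lit 152)))) (XT.nd (nat_lit 188) (nat_lit 1176) (nat_lit 0) (XT.nd (nat_lit 94) (nat_lit 672) (nat_lit 0) (XT.lf (nat_lit 0) (nat_lit 4176799956) (nat_lit 672) (nat_lit 3688665001) (nat_lit 756) (nat_lit 2728150752) (nat_lit 133) (nat_lit 5) (nat_lit 141) (nat_lit 5) (nat_lit 142) (nat_lit 5) (nat_lit 242) (nat_lit 207) (nat_lit 151)) (XT.lf (nat_lit 0) (nat_lit 1494465184) (nat_lit 672) (nat_lit 6278869434) (nat_lit 84) (nat_lit 3012312201) (nat_lit 125) (nat_lit 5) (nat_lit 133) (nat_lit 5) (nat_lit 126) (nat_lit 5) (nat_lit 243) (nat_lit 207) (nat_lit 150))) (XT.nd (nat_lit 94) (nat_lit 588) (nat_lit 0) (XT.lf (nat_lit 0) (nat_lit 4865515555) (nat_lit 588) (nat_lit 1004658558) (nat_lit 672) (nat_lit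 5112771050) (nat_lit 118) (nat_lit 5) (nat_lit 125) (nat_lit 5) (nat_lit 126) (nat_lit 5) (nat_lit 244) (nat_lit 207) (nat_lit 149)) (XT.lf (nat_lit 0) (nat_lit 5258543372) (nat_lit 588) (nat_lit 5205226348) (nat_lit 672) (nat_lit 721955022) (nat_lit 111) (nat_lit 5) (nat_lit 118) (nat_lit 5) (nat_lit 119) (nat_lit 5) (nat_lit 245) (nat_lit 207) (nat_lit 148))))))))
noncomputable def xc18 : XT := (XT.nd (nat_lit 36284) (nat_lit 0) (nat_lit 588) (XT.nd (nat_lit 35156) (nat_lit 0) (nat_lit 12852) (XT.nd (nat_lit 34592) (nat_lit 0) (nat_lit 27552) (XT.nd (nat_lit 34310) (nat_lit 0) (nat_lit 30828) (XT.nd (nat_lit 34122) (nat_lit 0) (nat_lit 31836) (XT.lf (nat_lit 0) (nat_lit 3813377678) (nat_lit 672) (nat_lit 5712304854) (nat_lit 84) (nat_lit 1868310349) (nat_lit 103) (nat_lit 5) (nat_lit 111) (nat_lit 5) (nat_lit 104) (nat_lit 5) (nat_lit 246) (nat_lit 207) (nat_lit 147)) (XT.nd (nat_lit 94) (nat_lit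 0) (nat_lit 0) (XT.lf (nat_lit 0) (nat_lit 182009698) (nat_lit 0) (nat_lit 182009698) (nat_lit 924) (nat_lit 3040175997) (nat_lit 482) (nat_lit 5) (nat_lit 482) (nat_lit 3) (nat_lit 493) (nat_lit 3) (nat_lit 208) (nat_lit 208) (nat_lit 184)) (XT.lf (nat_lit 0) (nat_lit 3998116354) (nat_lit 924) (nat_lit 1032179872) (nat_lit 1008) (nat_lit 1825579989) (nat_lit 482) (nat_lit 5) (nat_lit 493) (nat_lit 3) (nat_lit 494) (nat_lit 5) (nat_lit 209) (nat_lit 208) (nat_lit 183)))) (XT.nd (nat_lit 94) (nat_lit 0) (nat_lit 0) (XT.lf (nat_lit 0) (nat_lit 358469456) (nat_lit 1008) (nat_lit 2355024022) (nat_lit 1092) (nat_lit 4193925339) (nat_lit 470) (nat_lit 5) (nat_lit 482) (nat_lit 5) (nat_lit 483) (nat_lit 5) (nat_lit 210) (nat_lit 208) (nat_lit 182)) (XT.nd (nat_lit 94) (nat_lit 0) (nat_lit 84) (XT.lf (nat_lit 84) (nat_lit 3336487732) (nat_lit 0) (nat_lit 196510515) (nat_lit 1092) (nat_lit 3429760321) (nat_lit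 471) (nat_lit 5) (nat_lit 470) (nat_lit 5) (nat_lit 483) (nat_lit 5) (nat_lit 211) (nat_lit 208) (nat_lit 181)) (XT.lf (nat_lit 84) (nat_lit 2177394681) (nat_lit 0) (nat_lit 4553185965) (nat_lit 1092) (nat_lit 291391772) (nat_lit 472) (nat_lit 5) (nat_lit 471) (nat_lit 5) (nat_lit 484) (nat_lit 5) (nat_lit 212) (nat_lit 208) (nat_lit 180))))) (XT.nd (nat_lit 282) (nat_lit 1176) (nat_lit 0) (XT.nd (nat_lit 94) (nat_lit 1092) (nat_lit 0) (XT.lf (nat_lit 84) (nat_lit 1068798993) (nat_lit 0) (nat_lit 1746498696) (nat_lit 1176) (nat_lit 4269674255) (nat_lit 459) (nat_lit 5) (nat_lit 458) (nat_lit 5) (nat_lit 472) (nat_lit 5) (nat_lit 213) (nat_lit 208) (nat_lit 179)) (XT.nd (nat_lit 94) (nat_lit 1176) (nat_lit 0) (XT.lf (nat_lit 84) (nat_lit 20730659) (nat_lit 0) (nat_lit 5919619732) (nat_lit 1176) (nat_lit 1211671392) (nat_lit 460) (nat_lit 5) (nat_lit 459) (nat_lit 5) (nat_lit 473) (nat_lit 5) (nat_lit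 214) (nat_lit 208) (nat_lit 178)) (XT.lf (nat_lit 0) (nat_lit 1855434606) (nat_lit 1176) (nat_lit 969825182) (nat_lit 1260) (nat_lit 4397387898) (nat_lit 445) (nat_lit 5) (nat_lit 459) (nat_lit 5) (nat_lit 460) (nat_lit 5) (nat_lit 215) (nat_lit 208) (nat_lit 177)))) (XT.nd (nat_lit 94) (nat_lit 1260) (nat_lit 0) (XT.lf (nat_lit 0) (nat_lit 4929946371) (nat_lit 1176) (nat_lit 1904104778) (nat_lit 1260) (nat_lit 463299182) (nat_lit 446) (nat_lit 5) (nat_lit 460) (nat_lit 5) (nat_lit 461) (nat_lit 5) (nat_lit 216) (nat_lit 208) (nat_lit 176)) (XT.nd (nat_lit 94) (nat_lit 0) (nat_lit 84) (XT.lf (nat_lit 0) (nat_lit 667392308) (nat_lit 1260) (nat_lit 2797266025) (nat_lit 1344) (nat_lit 3911200153) (nat_lit 431) (nat_lit 5) (nat_lit 446) (nat_lit 5) (nat_lit 447) (nat_lit 5) (nat_lit 217) (nat_lit 208) (nat_lit 175)) (XT.lf (nat_lit 0) (nat_lit 3698393903) (nat_lit 1260) (nat_lit 3642561332) (nat_lit 1344)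 (nat_lit 117419070) (nat_lit 432) (nat_lit 5) (nat_lit 447) (nat_lit 5) (nat_lit 448) (nat_lit 5) (nat_lit 218) (nat_lit 208) (nat_lit 174)))))) (XT.nd (nat_lit 564) (nat_lit 7560) (nat_lit 0) (XT.nd (nat_lit 282) (nat_lit 4620) (nat_lit 0) (XT.nd (nat_lit 94) (nat_lit 2604) (nat_lit 0) (XT.lf (nat_lit 84) (nat_lit 3096169789) (nat_lit 0) (nat_lit 3694521840) (nat_lit 1344) (nat_lit 754071904) (nat_lit 433) (nat_lit 5) (nat_lit 432) (nat_lit 5) (nat_lit 448) (nat_lit 5) (nat_lit 219) (nat_lit 208) (nat_lit 173)) (XT.nd (nat_lit 94) (nat_lit 1344) (nat_lit 0) (XT.lf (nat_lit 0) (nat_lit 2258055192) (nat_lit 1344) (nat_lit 5208301810) (nat_lit 84) (nat_lit 168880871) (nat_lit 417) (nat_lit 5) (nat_lit 433) (nat_lit 5) (nat_lit 418) (nat_lit 5) (nat_lit 220) (nat_lit 208) (nat_lit 172)) (XT.lf (nat_lit 0) (nat_lit 1791992858) (nat_lit 1344) (nat_lit 3538267908) (nat_lit 1428) (nat_lit 2399246047) (nat_lit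 401) (nat_lit 5) (nat_lit 417) (nat_lit 5) (nat_lit 418) (nat_lit 5) (nat_lit 221) (nat_lit 208) (nat_lit 171)))) (XT.nd (nat_lit 94) (nat_lit 3108) (nat_lit 0) (XT.lf (nat_lit 0) (nat_lit 619982930) (nat_lit 1512) (nat_lit 6613190647) (nat_lit 84) (nat_lit 594962750) (nat_lit 383) (nat_lit 5) (nat_lit 401) (nat_lit 5) (nat_lit 384) (nat_lit 5) (nat_lit 222) (nat_lit 208) (nat_lit 170)) (XT.nd (nat_lit 94) (nat_lit 1596) (nat_lit 0) (XT.lf (nat_lit 0) (nat_lit 660016733) (nat_lit 1512) (nat_lit 3022431640) (nat_lit 1596) (nat_lit 4247967102) (nat_lit 365) (nat_lit 5) (nat_lit 383) (nat_lit 5) (nat_lit 384) (nat_lit 5) (nat_lit 223) (nat_lit 208) (nat_lit 169)) (XT.lf (nat_lit 0) (nat_lit 160708281) (nat_lit 1596) (nat_lit 6652678732) (nat_lit 1680) (nat_lit 1223739065) (nat_lit 346) (nat_lit 5) (nat_lit 365) (nat_lit 5) (nat_lit 366) (nat_lit 5) (nat_lit 224) (nat_lit 208) (nat_lit 168))))) (XT.nd (nat_lit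 282) (nat_lit 4032) (nat_lit 0) (XT.nd (nat_lit 94) (nat_lit 3444) (nat_lit 0) (XT.lf (nat_lit 0) (nat_lit 1858805804) (nat_lit 1680) (nat_lit 304879032) (nat_lit 84) (nat_lit 5984029597) (nat_lit 345) (nat_lit 5) (nat_lit 365) (nat_lit 5) (nat_lit 346) (nat_lit 5) (nat_lit 225) (nat_lit 208) (nat_lit 167)) (XT.nd (nat_lit 94) (nat_lit 1764) (nat_lit 0) (XT.lf (nat_lit 0) (nat_lit 5009155467) (nat_lit 1764) (nat_lit 730970071) (nat_lit 84) (nat_lit 2522329874) (nat_lit 325) (nat_lit 5) (nat_lit 346) (nat_lit 5) (nat_lit 326) (nat_lit 5) (nat_lit 226) (nat_lit 208) (nat_lit 166)) (XT.lf (nat_lit 0) (nat_lit 7272591456) (nat_lit 1764) (nat_lit 976065449) (nat_lit 1848) (nat_lit 133019850) (nat_lit 304) (nat_lit 5) (nat_lit 325) (nat_lit 5) (nat_lit 326) (nat_lit 5) (nat_lit 227) (nat_lit 208) (nat_lit 165)))) (XT.nd (nat_lit 94) (nat_lit 2100) (nat_lit 0) (XT.lf (nat_lit 0) (nat_lit 3047168304) (nat_lit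 1932) (nat_lit 1473589960) (nat_lit 84) (nat_lit 3983930789) (nat_lit 281) (nat_lit 5) (nat_lit 304) (nat_lit 5) (nat_lit 282) (nat_lit 5) (nat_lit 228) (nat_lit 208) (nat_lit 164)) (XT.nd (nat_lit 94) (nat_lit 1008) (nat_lit 0) (XT.lf (nat_lit 0) (nat_lit 6318043273) (nat_lit 1176) (nat_lit 1786542779) (nat_lit 84) (nat_lit 527809163) (nat_lit 268) (nat_lit 5) (nat_lit 282) (nat_lit 5) (nat_lit 269) (nat_lit 5) (nat_lit 229) (nat_lit 208) (nat_lit 163)) (XT.lf (nat_lit 0) (nat_lit 933084653) (nat_lit 1008) (nat_lit 2075772027) (nat_lit 84) (nat_lit 5755396151) (nat_lit 256) (nat_lit 5) (nat_lit 268) (nat_lit 5) (nat_lit 257) (nat_lit 5) (nat_lit 230) (nat_lit 208) (nat_lit 162))))))) (XT.nd (nat_lit 1128) (nat_lit 2604) (nat_lit 0) (XT.nd (nat_lit 564) (nat_lit 4452) (nat_lit 0) (XT.nd (nat_lit 282) (nat_lit 2520) (nat_lit 0) (XT.nd (nat_lit 94) (nat_lit 1764) (nat_lit 0) (XT.lf (nat_lit 0) (nat_lit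 4254019285) (nat_lit 1008) (nat_lit 2334855639) (nat_lit 84) (nat_lit 2311599715) (nat_lit 245) (nat_lit 5) (nat_lit 257) (nat_lit 5) (nat_lit 246) (nat_lit 5) (nat_lit 231) (nat_lit 208) (nat_lit 161)) (XT.nd (nat_lit 94) (nat_lit 924) (nat_lit 0) (XT.lf (nat_lit 0) (nat_lit 6489055512) (nat_lit 840) (nat_lit 1205688029) (nat_lit 924) (nat_lit 1346642416) (nat_lit 235) (nat_lit 5) (nat_lit 245) (nat_lit 5) (nat_lit 246) (nat_lit 5) (nat_lit 232) (nat_lit 208) (nat_lit 160)) (XT.lf (nat_lit 0) (nat_lit 2055271398) (nat_lit 924) (nat_lit 2751719263) (nat_lit 84) (nat_lit 4379553466) (nat_lit 224) (nat_lit 5) (nat_lit 235) (nat_lit 5) (nat_lit 225) (nat_lit 5) (nat_lit 233) (nat_lit 208) (nat_lit 159)))) (XT.nd (nat_lit 94) (nat_lit 1680) (nat_lit 0) (XT.lf (nat_lit 0) (nat_lit 5559528692) (nat_lit 924) (nat_lit 2911888344) (nat_lit 84) (nat_lit 865073649) (nat_lit 214) (nat_lit 5) (nat_lit 225) (nat_lit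 5) (nat_lit 215) (nat_lit 5) (nat_lit 234) (nat_lit 208) (nat_lit 158)) (XT.nd (nat_lit 94) (nat_lit 840) (nat_lit 0) (XT.lf (nat_lit 0) (nat_lit 6448313388) (nat_lit 840) (nat_lit 2765390658) (nat_lit 924) (nat_lit 277381407) (nat_lit 204) (nat_lit 5) (nat_lit 214) (nat_lit 5) (nat_lit 215) (nat_lit 5) (nat_lit 235) (nat_lit 208) (nat_lit 157)) (XT.lf (nat_lit 0) (nat_lit 3314465164) (nat_lit 840) (nat_lit 3155131864) (nat_lit 84) (nat_lit 3180574856) (nat_lit 194) (nat_lit 5) (nat_lit 204) (nat_lit 5) (nat_lit 195) (nat_lit 5) (nat_lit 236) (nat_lit 208) (nat_lit 156))))) (XT.nd (nat_lit 282) (nat_lit 2100) (nat_lit 0) (XT.nd (nat_lit 94) (nat_lit 1596) (nat_lit 0) (XT.lf (nat_lit 0) (nat_lit 6589841033) (nat_lit 756) (nat_lit 456761491) (nat_lit 840) (nat_lit 2767767181) (nat_lit 185) (nat_lit 5) (nat_lit 194) (nat_lit 5) (nat_lit 195) (nat_lit 5) (nat_lit 237) (nat_lit 208) (nat_lit 155)) (XT.nd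 (nat_lit 94) (nat_lit 756) (nat_lit 0) (XT.lf (nat_lit 0) (nat_lit 954960204) (nat_lit 840) (nat_lit 3275714384) (nat_lit 84) (nat_lit 5752543755) (nat_lit 175) (nat_lit 5) (nat_lit 185) (nat_lit 5) (nat_lit 176) (nat_lit 5) (nat_lit 238) (nat_lit 208) (nat_lit 154)) (XT.lf (nat_lit 0) (nat_lit 4789838599) (nat_lit 840) (nat_lit 3298893160) (nat_lit 84) (nat_lit 2068287464) (nat_lit 166) (nat_lit 5) (nat_lit 176) (nat_lit 5) (nat_lit 167) (nat_lit 5) (nat_lit 239) (nat_lit 208) (nat_lit 153)))) (XT.nd (nat_lit 94) (nat_lit 1428) (nat_lit 0) (XT.lf (nat_lit 0) (nat_lit 7050071724) (nat_lit 672) (nat_lit 1748171782) (nat_lit 756) (nat_lit 1537794900) (nat_lit 158) (nat_lit 5) (nat_lit 166) (nat_lit 5) (nat_lit 167) (nat_lit 5) (nat_lit 240) (nat_lit 208) (nat_lit 152)) (XT.nd (nat_lit 94) (nat_lit 672) (nat_lit 0) (XT.lf (nat_lit 0) (nat_lit 2436850516) (nat_lit 756) (nat_lit 3256861052) (nat_lit 84)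 (nat_lit 4826215878) (nat_lit 149) (nat_lit 5) (nat_lit 158) (nat_lit 5) (nat_lit 150) (nat_lit 5) (nat_lit 241) (nat_lit 208) (nat_lit 151)) (XT.lf (nat_lit 0) (nat_lit 6561866237) (nat_lit 756) (nat_lit 3190084001) (nat_lit 84) (nat_lit 957300935) (nat_lit 141) (nat_lit 5) (nat_lit 150) (nat_lit 5) (nat_lit 142) (nat_lit 5) (nat_lit 242) (nat_lit 208) (nat_lit 150)))))) (XT.nd (nat_lit 34686) (nat_lit 0) (nat_lit 26880) (XT.nd (nat_lit 282) (nat_lit 672) (nat_lit 0) (XT.nd (nat_lit 94) (nat_lit 1260) (nat_lit 0) (XT.lf (nat_lit 0) (nat_lit 7808493569) (nat_lit 672) (nat_lit 3082411509) (nat_lit 756) (nat_lit 12983906) (nat_lit 133) (nat_lit 5) (nat_lit 141) (nat_lit 5) (nat_lit 142) (nat_lit 5) (nat_lit 243) (nat_lit 208) (nat_lit 149)) (XT.nd (nat_lit 94) (nat_lit 588) (nat_lit 0) (XT.lf (nat_lit 0) (nat_lit 4253266791) (nat_lit 672) (nat_lit 2988049627) (nat_lit 84) (nat_lit 3862285141) (nat_lit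 125) (nat_lit 5) (nat_lit 133) (nat_lit 5) (nat_lit 126) (nat_lit 5) (nat_lit 244) (nat_lit 208) (nat_lit 148)) (XT.lf (nat_lit 0) (nat_lit 8477241145) (nat_lit 588) (nat_lit 237874528) (nat_lit 672) (nat_lit 2594163892) (nat_lit 118) (nat_lit 5) (nat_lit 125) (nat_lit 5) (nat_lit 126) (nat_lit 5) (nat_lit 245) (nat_lit 208) (nat_lit 147)))) (XT.nd (nat_lit 34216) (nat_lit 0) (nat_lit 30156) (XT.lf (nat_lit 0) (nat_lit 1862465925) (nat_lit 672) (nat_lit 2666358401) (nat_lit 84) (nat_lit 6991341486) (nat_lit 110) (nat_lit 5) (nat_lit 118) (nat_lit 5) (nat_lit 111) (nat_lit 5) (nat_lit 246) (nat_lit 208) (nat_lit 146)) (XT.nd (nat_lit 94) (nat_lit 0) (nat_lit 0) (XT.lf (nat_lit 0) (nat_lit 130088765) (nat_lit 1092) (nat_lit 1661328435) (nat_lit 1092) (nat_lit 1661328435) (nat_lit 469) (nat_lit 3) (nat_lit 482) (nat_lit 3) (nat_lit 482) (nat_lit 5) (nat_lit 209) (nat_lit 209) (nat_lit 182)) (XT.lf (nat_lit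 84) (nat_lit 2188806992) (nat_lit 0) (nat_lit 1142003955) (nat_lit 1092) (nat_lit 3628072652) (nat_lit 470) (nat_lit 5) (nat_lit 469) (nat_lit 3) (nat_lit 482) (nat_lit 5) (nat_lit 210) (nat_lit 209) (nat_lit 181))))) (XT.nd (nat_lit 282) (nat_lit 2268) (nat_lit 0) (XT.nd (nat_lit 94) (nat_lit 1092) (nat_lit 0) (XT.lf (nat_lit 84) (nat_lit 856875205) (nat_lit 0) (nat_lit 5554672799) (nat_lit 1092) (nat_lit 604738765) (nat_lit 471) (nat_lit 5) (nat_lit 470) (nat_lit 5) (nat_lit 483) (nat_lit 5) (nat_lit 211) (nat_lit 209) (nat_lit 180)) (XT.nd (nat_lit 94) (nat_lit 0) (nat_lit 84) (XT.lf (nat_lit 0) (nat_lit 2397221564) (nat_lit 1092) (nat_lit 424405290) (nat_lit 1176) (nat_lit 4255674867) (nat_lit 457) (nat_lit 5) (nat_lit 470) (nat_lit 5) (nat_lit 471) (nat_lit 5) (nat_lit 212) (nat_lit 209) (nat_lit 179)) (XT.lf (nat_lit 0) (nat_lit 5404664585) (nat_lit 1092) (nat_lit 1630054809) (nat_lit 1176) (nat_lit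 107627276) (nat_lit 458) (nat_lit 5) (nat_lit 471) (nat_lit 5) (nat_lit 472) (nat_lit 5) (nat_lit 213) (nat_lit 209) (nat_lit 178)))) (XT.nd (nat_lit 188) (nat_lit 1176) (nat_lit 0) (XT.nd (nat_lit 94) (nat_lit 0) (nat_lit 0) (XT.lf (nat_lit 0) (nat_lit 1217523030) (nat_lit 1176) (nat_lit 2798497777) (nat_lit 1260) (nat_lit 3195011974) (nat_lit 444) (nat_lit 5) (nat_lit 458) (nat_lit 5) (nat_lit 459) (nat_lit 5) (nat_lit 214) (nat_lit 209) (nat_lit 177)) (XT.lf (nat_lit 84) (nat_lit 3369798428) (nat_lit 0) (nat_lit 793277728) (nat_lit 1260) (nat_lit 3120682866) (nat_lit 445) (nat_lit 5) (nat_lit 444) (nat_lit 5) (nat_lit 459) (nat_lit 5) (nat_lit 215) (nat_lit 209) (nat_lit 176))) (XT.nd (nat_lit 94) (nat_lit 1260) (nat_lit 0) (XT.lf (nat_lit 84) (nat_lit 2376982330) (nat_lit 0) (nat_lit 4771379947) (nat_lit 1260) (nat_lit 212062355) (nat_lit 446) (nat_lit 5) (nat_lit 445) (nat_lit 5) (nat_lit 460)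 (nat_lit 5) (nat_lit 216) (nat_lit 209) (nat_lit 175)) (XT.lf (nat_lit 84) (nat_lit 1425788299) (nat_lit 0) (nat_lit 1260933899) (nat_lit 1344) (nat_lit 4754182117) (nat_lit 431) (nat_lit 5) (nat_lit 430) (nat_lit 5) (nat_lit 446) (nat_lit 5) (nat_lit 217) (nat_lit 209) (nat_lit 174))))))))
noncomputable def xc19 : XT := (XT.nd (nat_lit 2350) (nat_lit 3192) (nat_lit 0) (XT.nd (nat_lit 1128) (nat_lit 9996) (nat_lit 0) (XT.nd (nat_lit 564) (nat_lit 9660) (nat_lit 0) (XT.nd (nat_lit 282) (nat_lit 2688) (nat_lit 0) (XT.nd (nat_lit 94) (nat_lit 1344) (nat_lit 0) (XT.lf (nat_lit 84) (nat_lit 521939203) (nat_lit 0) (nat_lit 5106885989) (nat_lit 1344) (nat_lit 1896550711) (nat_lit 432) (nat_lit 5) (nat_lit 431) (nat_lit 5) (nat_lit 447) (nat_lit 5) (nat_lit 218) (nat_lit 209) (nat_lit 173)) (XT.nd (nat_lit 94) (nat_lit 0) (nat_lit 84) (XT.lf (nat_lit 0) (nat_lit 989770036) (nat_lit 1344) (nat_lit 328483960)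 (nat_lit 1428) (nat_lit 6295616694) (nat_lit 415) (nat_lit 5) (nat_lit 431) (nat_lit 5) (nat_lit 432) (nat_lit 5) (nat_lit 219) (nat_lit 209) (nat_lit 172)) (XT.lf (nat_lit 0) (nat_lit 3908035504) (nat_lit 1344) (nat_lit 1140335696) (nat_lit 1428) (nat_lit 2657681672) (nat_lit 416) (nat_lit 5) (nat_lit 432) (nat_lit 5) (nat_lit 433) (nat_lit 5) (nat_lit 220) (nat_lit 209) (nat_lit 171)))) (XT.nd (nat_lit 94) (nat_lit 2772) (nat_lit 0) (XT.lf (nat_lit 84) (nat_lit 5903449405) (nat_lit 0) (nat_lit 975614784) (nat_lit 1428) (nat_lit 923483514) (nat_lit 417) (nat_lit 5) (nat_lit 416) (nat_lit 5) (nat_lit 433) (nat_lit 5) (nat_lit 221) (nat_lit 209) (nat_lit 170)) (XT.nd (nat_lit 94) (nat_lit 1428) (nat_lit 0) (XT.lf (nat_lit 0) (nat_lit 1990721270) (nat_lit 1428) (nat_lit 2633245409) (nat_lit 84) (nat_lit 3278822178) (nat_lit 400) (nat_lit 5) (nat_lit 417) (nat_lit 5) (nat_lit 401) (nat_lit 5) (nat_lit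 222) (nat_lit 209) (nat_lit 169)) (XT.lf (nat_lit 0) (nat_lit 4687581308) (nat_lit 1428) (nat_lit 262143094) (nat_lit 1512) (nat_lit 3057619772) (nat_lit 383) (nat_lit 5) (nat_lit 400) (nat_lit 5) (nat_lit 401) (nat_lit 5) (nat_lit 223) (nat_lit 209) (nat_lit 168))))) (XT.nd (nat_lit 282) (nat_lit 4788) (nat_lit 0) (XT.nd (nat_lit 94) (nat_lit 3360) (nat_lit 0) (XT.lf (nat_lit 0) (nat_lit 4140407760) (nat_lit 1512) (nat_lit 3856108727) (nat_lit 1596) (nat_lit 119389516) (nat_lit 365) (nat_lit 5) (nat_lit 383) (nat_lit 5) (nat_lit 384) (nat_lit 5) (nat_lit 224) (nat_lit 209) (nat_lit 167)) (XT.nd (nat_lit 94) (nat_lit 1680) (nat_lit 0) (XT.lf (nat_lit 0) (nat_lit 2844720596) (nat_lit 1680) (nat_lit 4598720257) (nat_lit 84) (nat_lit 785136070) (nat_lit 345) (nat_lit 5) (nat_lit 365) (nat_lit 5) (nat_lit 346) (nat_lit 5) (nat_lit 225) (nat_lit 209) (nat_lit 166)) (XT.lf (nat_lit 0) (nat_lit 3154376095)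 (nat_lit 1680) (nat_lit 2746592921) (nat_lit 1764) (nat_lit 2444419114) (nat_lit 325) (nat_lit 5) (nat_lit 345) (nat_lit 5) (nat_lit 346) (nat_lit 5) (nat_lit 226) (nat_lit 209) (nat_lit 165)))) (XT.nd (nat_lit 94) (nat_lit 2940) (nat_lit 0) (XT.lf (nat_lit 0) (nat_lit 570212159) (nat_lit 1848) (nat_lit 5742988616) (nat_lit 84) (nat_lit 2153412896) (nat_lit 303) (nat_lit 5) (nat_lit 325) (nat_lit 5) (nat_lit 304) (nat_lit 5) (nat_lit 227) (nat_lit 209) (nat_lit 164)) (XT.nd (nat_lit 94) (nat_lit 1092) (nat_lit 0) (XT.lf (nat_lit 0) (nat_lit 2318704239) (nat_lit 1848) (nat_lit 1324812976) (nat_lit 1932) (nat_lit 4948397186) (nat_lit 281) (nat_lit 5) (nat_lit 303) (nat_lit 5) (nat_lit 304) (nat_lit 5) (nat_lit 228) (nat_lit 209) (nat_lit 163)) (XT.lf (nat_lit 0) (nat_lit 1950155623) (nat_lit 1092) (nat_lit 4874874415) (nat_lit 1176) (nat_lit 1896556493) (nat_lit 268) (nat_lit 5) (nat_lit 281) (nat_lit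 5) (nat_lit 282) (nat_lit 5) (nat_lit 229) (nat_lit 209) (nat_lit 162)))))) (XT.nd (nat_lit 564) (nat_lit 4620) (nat_lit 0) (XT.nd (nat_lit 282) (nat_lit 2604) (nat_lit 0) (XT.nd (nat_lit 94) (nat_lit 1764) (nat_lit 0) (XT.lf (nat_lit 0) (nat_lit 1233199543) (nat_lit 1008) (nat_lit 7231617564) (nat_lit 84) (nat_lit 391018152) (nat_lit 256) (nat_lit 5) (nat_lit 268) (nat_lit 5) (nat_lit 257) (nat_lit 5) (nat_lit 230) (nat_lit 209) (nat_lit 161)) (XT.nd (nat_lit 94) (nat_lit 840) (nat_lit 0) (XT.lf (nat_lit 0) (nat_lit 1312155381) (nat_lit 924) (nat_lit 3148455016) (nat_lit 1008) (nat_lit 4533504192) (nat_lit 245) (nat_lit 5) (nat_lit 256) (nat_lit 5) (nat_lit 257) (nat_lit 5) (nat_lit 231) (nat_lit 209) (nat_lit 160)) (XT.lf (nat_lit 0) (nat_lit 1047140070) (nat_lit 840) (nat_lit 6754788287) (nat_lit 924) (nat_lit 1335284489) (nat_lit 235) (nat_lit 5) (nat_lit 245) (nat_lit 5) (nat_lit 246) (nat_lit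 5) (nat_lit 232) (nat_lit 209) (nat_lit 159)))) (XT.nd (nat_lit 94) (nat_lit 1680) (nat_lit 0) (XT.lf (nat_lit 0) (nat_lit 809217629) (nat_lit 840) (nat_lit 1147827782) (nat_lit 924) (nat_lit 7327731073) (nat_lit 224) (nat_lit 5) (nat_lit 234) (nat_lit 5) (nat_lit 235) (nat_lit 5) (nat_lit 233) (nat_lit 209) (nat_lit 158)) (XT.nd (nat_lit 94) (nat_lit 840) (nat_lit 0) (XT.lf (nat_lit 0) (nat_lit 592565383) (nat_lit 840) (nat_lit 4776242582) (nat_lit 924) (nat_lit 4067949961) (nat_lit 214) (nat_lit 5) (nat_lit 224) (nat_lit 5) (nat_lit 225) (nat_lit 5) (nat_lit 234) (nat_lit 209) (nat_lit 157)) (XT.lf (nat_lit 0) (nat_lit 424596846) (nat_lit 840) (nat_lit 8485924437) (nat_lit 924) (nat_lit 683305576) (nat_lit 204) (nat_lit 5) (nat_lit 214) (nat_lit 5) (nat_lit 215) (nat_lit 5) (nat_lit 235) (nat_lit 209) (nat_lit 156))))) (XT.nd (nat_lit 282) (nat_lit 2184) (nat_lit 0) (XT.nd (nat_lit 94) (nat_lit 1596)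 (nat_lit 0) (XT.lf (nat_lit 0) (nat_lit 266495611) (nat_lit 756) (nat_lit 2545518398) (nat_lit 840) (nat_lit 6943215113) (nat_lit 194) (nat_lit 5) (nat_lit 203) (nat_lit 5) (nat_lit 204) (nat_lit 5) (nat_lit 236) (nat_lit 209) (nat_lit 155)) (XT.nd (nat_lit 94) (nat_lit 840) (nat_lit 0) (XT.lf (nat_lit 0) (nat_lit 143133697) (nat_lit 756) (nat_lit 6302995896) (nat_lit 840) (nat_lit 3475453828) (nat_lit 185) (nat_lit 5) (nat_lit 194) (nat_lit 5) (nat_lit 195) (nat_lit 5) (nat_lit 237) (nat_lit 209) (nat_lit 154)) (XT.lf (nat_lit 0) (nat_lit 66738078) (nat_lit 756) (nat_lit 68218194) (nat_lit 840) (nat_lit 9958281914) (nat_lit 175) (nat_lit 5) (nat_lit 184) (nat_lit 5) (nat_lit 185) (nat_lit 5) (nat_lit 238) (nat_lit 209) (nat_lit 153)))) (XT.nd (nat_lit 188) (nat_lit 1428) (nat_lit 0) (XT.nd (nat_lit 94) (nat_lit 756) (nat_lit 0) (XT.lf (nat_lit 0) (nat_lit 3872937387) (nat_lit 840) (nat_lit 13940072)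 (nat_lit 84) (nat_lit 6382293348) (nat_lit 175) (nat_lit 5) (nat_lit 185) (nat_lit 5) (nat_lit 176) (nat_lit 5) (nat_lit 239) (nat_lit 209) (nat_lit 152)) (XT.lf (nat_lit 0) (nat_lit 7771625440) (nat_lit 840) (nat_lit 46159321) (nat_lit 84) (nat_lit 2632819000) (nat_lit 166) (nat_lit 5) (nat_lit 176) (nat_lit 5) (nat_lit 167) (nat_lit 5) (nat_lit 240) (nat_lit 209) (nat_lit 151))) (XT.nd (nat_lit 94) (nat_lit 672) (nat_lit 0) (XT.lf (nat_lit 0) (nat_lit 1193770001) (nat_lit 756) (nat_lit 47416371) (nat_lit 84) (nat_lit 9396088608) (nat_lit 157) (nat_lit 5) (nat_lit 166) (nat_lit 5) (nat_lit 158) (nat_lit 5) (nat_lit 241) (nat_lit 209) (nat_lit 150)) (XT.lf (nat_lit 0) (nat_lit 5218685516) (nat_lit 756) (nat_lit 39388584) (nat_lit 84) (nat_lit 5570726812) (nat_lit 149) (nat_lit 5) (nat_lit 158) (nat_lit 5) (nat_lit 150) (nat_lit 5) (nat_lit 242) (nat_lit 209) (nat_lit 149))))))) (XT.nd (nat_lit 35344)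 (nat_lit 0) (nat_lit 13104) (XT.nd (nat_lit 34780) (nat_lit 0) (nat_lit 26712) (XT.nd (nat_lit 282) (nat_lit 588) (nat_lit 0) (XT.nd (nat_lit 94) (nat_lit 1260) (nat_lit 0) (XT.lf (nat_lit 0) (nat_lit 17650851) (nat_lit 672) (nat_lit 9407166598) (nat_lit 756) (nat_lit 1601325226) (nat_lit 133) (nat_lit 5) (nat_lit 141) (nat_lit 5) (nat_lit 142) (nat_lit 5) (nat_lit 243) (nat_lit 209) (nat_lit 148)) (XT.nd (nat_lit 94) (nat_lit 588) (nat_lit 0) (XT.lf (nat_lit 0) (nat_lit 89193622) (nat_lit 588) (nat_lit 2484180073) (nat_lit 672) (nat_lit 8655247904) (nat_lit 125) (nat_lit 5) (nat_lit 132) (nat_lit 5) (nat_lit 133) (nat_lit 5) (nat_lit 244) (nat_lit 209) (nat_lit 147)) (XT.lf (nat_lit 0) (nat_lit 187229551) (nat_lit 588) (nat_lit 6742777605) (nat_lit 672) (nat_lit 4506607186) (nat_lit 118) (nat_lit 5) (nat_lit 125) (nat_lit 5) (nat_lit 126) (nat_lit 5) (nat_lit 245) (nat_lit 209) (nat_lit 146)))) (XT.nd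 (nat_lit 34310) (nat_lit 0) (nat_lit 28980) (XT.lf (nat_lit 0) (nat_lit 336936128) (nat_lit 588) (nat_lit 11153175494) (nat_lit 672) (nat_lit 160653456) (nat_lit 111) (nat_lit 5) (nat_lit 118) (nat_lit 5) (nat_lit 119) (nat_lit 5) (nat_lit 246) (nat_lit 209) (nat_lit 145)) (XT.nd (nat_lit 94) (nat_lit 1092) (nat_lit 0) (XT.lf (nat_lit 0) (nat_lit 3151141789) (nat_lit 1092) (nat_lit 178043472) (nat_lit 1092) (nat_lit 178043472) (nat_lit 469) (nat_lit 3) (nat_lit 482) (nat_lit 3) (nat_lit 482) (nat_lit 5) (nat_lit 210) (nat_lit 210) (nat_lit 180)) (XT.lf (nat_lit 0) (nat_lit 2192133738) (nat_lit 1092) (nat_lit 1802021340) (nat_lit 1176) (nat_lit 3079229614) (nat_lit 456) (nat_lit 5) (nat_lit 469) (nat_lit 3) (nat_lit 470) (nat_lit 5) (nat_lit 211) (nat_lit 210) (nat_lit 179))))) (XT.nd (nat_lit 282) (nat_lit 1176) (nat_lit 0) (XT.nd (nat_lit 94) (nat_lit 1092) (nat_lit 0) (XT.lf (nat_lit 84) (nat_lit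 3949599882) (nat_lit 0) (nat_lit 1138134673) (nat_lit 1176) (nat_lit 2048718606) (nat_lit 457) (nat_lit 5) (nat_lit 456) (nat_lit 5) (nat_lit 470) (nat_lit 5) (nat_lit 212) (nat_lit 210) (nat_lit 178)) (XT.nd (nat_lit 94) (nat_lit 0) (nat_lit 0) (XT.lf (nat_lit 0) (nat_lit 789085941) (nat_lit 1176) (nat_lit 4525965061) (nat_lit 1260) (nat_lit 1888324936) (nat_lit 443) (nat_lit 5) (nat_lit 457) (nat_lit 5) (nat_lit 458) (nat_lit 5) (nat_lit 213) (nat_lit 210) (nat_lit 177)) (XT.lf (nat_lit 84) (nat_lit 1449090744) (nat_lit 0) (nat_lit 2165987336) (nat_lit 1260) (nat_lit 3659003721) (nat_lit 444) (nat_lit 5) (nat_lit 443) (nat_lit 5) (nat_lit 458) (nat_lit 5) (nat_lit 214) (nat_lit 210) (nat_lit 176)))) (XT.nd (nat_lit 94) (nat_lit 1260) (nat_lit 0) (XT.lf (nat_lit 84) (nat_lit 278480264) (nat_lit 0) (nat_lit 6186082371) (nat_lit 1260) (nat_lit 884358914) (nat_lit 445) (nat_lit 5) (nat_lit 444) (nat_lit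 5) (nat_lit 459) (nat_lit 5) (nat_lit 215) (nat_lit 210) (nat_lit 175)) (XT.nd (nat_lit 94) (nat_lit 0) (nat_lit 84) (XT.lf (nat_lit 0) (nat_lit 1902025007) (nat_lit 1260) (nat_lit 845168183) (nat_lit 1344) (nat_lit 4680124521) (nat_lit 429) (nat_lit 5) (nat_lit 444) (nat_lit 5) (nat_lit 445) (nat_lit 5) (nat_lit 216) (nat_lit 210) (nat_lit 174)) (XT.lf (nat_lit 0) (nat_lit 4706409420) (nat_lit 1260) (nat_lit 1914699137) (nat_lit 1344) (nat_lit 888665213) (nat_lit 430) (nat_lit 5) (nat_lit 445) (nat_lit 5) (nat_lit 446) (nat_lit 5) (nat_lit 217) (nat_lit 210) (nat_lit 173)))))) (XT.nd (nat_lit 564) (nat_lit 9744) (nat_lit 0) (XT.nd (nat_lit 282) (nat_lit 2688) (nat_lit 0) (XT.nd (nat_lit 94) (nat_lit 1260) (nat_lit 0) (XT.lf (nat_lit 84) (nat_lit 4653441487) (nat_lit 0) (nat_lit 2906215316) (nat_lit 1344) (nat_lit 36543377) (nat_lit 431) (nat_lit 5) (nat_lit 430) (nat_lit 5) (nat_lit 446) (nat_lit 5)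 (nat_lit 218) (nat_lit 210) (nat_lit 172)) (XT.nd (nat_lit 94) (nat_lit 0) (nat_lit 0) (XT.lf (nat_lit 0) (nat_lit 2728321527) (nat_lit 1344) (nat_lit 3937027078) (nat_lit 1428) (nat_lit 1021137528) (nat_lit 415) (nat_lit 5) (nat_lit 431) (nat_lit 5) (nat_lit 432) (nat_lit 5) (nat_lit 219) (nat_lit 210) (nat_lit 171)) (XT.lf (nat_lit 84) (nat_lit 2887646629) (nat_lit 0) (nat_lit 2662628537) (nat_lit 1428) (nat_lit 2230512008) (nat_lit 416) (nat_lit 5) (nat_lit 415) (nat_lit 5) (nat_lit 432) (nat_lit 5) (nat_lit 220) (nat_lit 210) (nat_lit 170)))) (XT.nd (nat_lit 94) (nat_lit 1344) (nat_lit 0) (XT.lf (nat_lit 0) (nat_lit 538638330) (nat_lit 1428) (nat_lit 5805136821) (nat_lit 1512) (nat_lit 1535520295) (nat_lit 399) (nat_lit 5) (nat_lit 416) (nat_lit 5) (nat_lit 417) (nat_lit 5) (nat_lit 221) (nat_lit 210) (nat_lit 169)) (XT.nd (nat_lit 94) (nat_lit 1344) (nat_lit 0) (XT.lf (nat_lit 84) (nat_lit 1287071971)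 (nat_lit 0) (nat_lit 2052096269) (nat_lit 1512) (nat_lit 4642431863) (nat_lit 400) (nat_lit 5) (nat_lit 399) (nat_lit 5) (nat_lit 417) (nat_lit 5) (nat_lit 222) (nat_lit 210) (nat_lit 168)) (XT.lf (nat_lit 0) (nat_lit 544486574) (nat_lit 1428) (nat_lit 5662871985) (nat_lit 1512) (nat_lit 1880794743) (nat_lit 383) (nat_lit 5) (nat_lit 400) (nat_lit 5) (nat_lit 401) (nat_lit 5) (nat_lit 223) (nat_lit 210) (nat_lit 167))))) (XT.nd (nat_lit 282) (nat_lit 6552) (nat_lit 0) (XT.nd (nat_lit 94) (nat_lit 3108) (nat_lit 0) (XT.lf (nat_lit 0) (nat_lit 936009631) (nat_lit 1512) (nat_lit 156351980) (nat_lit 84) (nat_lit 7106524107) (nat_lit 382) (nat_lit 5) (nat_lit 400) (nat_lit 5) (nat_lit 383) (nat_lit 5) (nat_lit 224) (nat_lit 210) (nat_lit 166)) (XT.nd (nat_lit 94) (nat_lit 1596) (nat_lit 0) (XT.lf (nat_lit 0) (nat_lit 3813566315) (nat_lit 1596) (nat_lit 828832896) (nat_lit 84) (nat_lit 3671005063) (nat_lit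 364) (nat_lit 5) (nat_lit 383) (nat_lit 5) (nat_lit 365) (nat_lit 5) (nat_lit 225) (nat_lit 210) (nat_lit 165)) (XT.lf (nat_lit 0) (nat_lit 6765189820) (nat_lit 1680) (nat_lit 1450986734) (nat_lit 84) (nat_lit 216340674) (nat_lit 345) (nat_lit 5) (nat_lit 365) (nat_lit 5) (nat_lit 346) (nat_lit 5) (nat_lit 226) (nat_lit 210) (nat_lit 164)))) (XT.nd (nat_lit 188) (nat_lit 3024) (nat_lit 0) (XT.nd (nat_lit 94) (nat_lit 1764) (nat_lit 0) (XT.lf (nat_lit 0) (nat_lit 1248308462) (nat_lit 1764) (nat_lit 2056476132) (nat_lit 84) (nat_lit 5250768058) (nat_lit 324) (nat_lit 5) (nat_lit 345) (nat_lit 5) (nat_lit 325) (nat_lit 5) (nat_lit 227) (nat_lit 210) (nat_lit 163)) (XT.lf (nat_lit 0) (nat_lit 4225621872) (nat_lit 1848) (nat_lit 2627828861) (nat_lit 84) (nat_lit 1829514465) (nat_lit 303) (nat_lit 5) (nat_lit 325) (nat_lit 5) (nat_lit 304) (nat_lit 5) (nat_lit 228) (nat_lit 210) (nat_lit 162))) (XT.nd (nat_lit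 94) (nat_lit 1176) (nat_lit 0) (XT.lf (nat_lit 0) (nat_lit 5650704950) (nat_lit 1848) (nat_lit 1656006198) (nat_lit 1932) (nat_lit 1508135498) (nat_lit 281) (nat_lit 5) (nat_lit 303) (nat_lit 5) (nat_lit 304) (nat_lit 5) (nat_lit 229) (nat_lit 210) (nat_lit 161)) (XT.lf (nat_lit 0) (nat_lit 1527765260) (nat_lit 1176) (nat_lit 3678793869) (nat_lit 84) (nat_lit 3744417114) (nat_lit 267) (nat_lit 5) (nat_lit 281) (nat_lit 5) (nat_lit 268) (nat_lit 5) (nat_lit 230) (nat_lit 210) (nat_lit 160))))))))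
noncomputable def xc20 : XT := (XT.nd (nat_lit 36566) (nat_lit 0) (nat_lit 2604) (XT.nd (nat_lit 1128) (nat_lit 2604) (nat_lit 0) (XT.nd (nat_lit 564) (nat_lit 4536) (nat_lit 0) (XT.nd (nat_lit 282) (nat_lit 2604) (nat_lit 0) (XT.nd (nat_lit 94) (nat_lit 1848) (nat_lit 0) (XT.lf (nat_lit 0) (nat_lit 4644014656) (nat_lit 1008) (nat_lit 4159429285) (nat_lit 84) (nat_lit 288257183) (nat_lit 256) (nat_lit 5) (nat_lit 268) (nat_lit 5) (nat_lit 257) (nat_lit 5) (nat_lit 231) (nat_lit 210) (nat_lit 159)) (XT.nd (nat_lit 94) (nat_lit 924) (nat_lit 0) (XT.lf (nat_lit 0) (nat_lit 4617877576) (nat_lit 924) (nat_lit 3275845626) (nat_lit 1008) (nat_lit 1343091586) (nat_lit 245) (nat_lit 5) (nat_lit 256) (nat_lit 5) (nat_lit 257) (nat_lit 5) (nat_lit 232) (nat_lit 210) (nat_lit 158)) (XT.lf (nat_lit 0) (nat_lit 1850428322) (nat_lit 924) (nat_lit 5050051265) (nat_lit 84) (nat_lit 2486076356) (nat_lit 234) (nat_lit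 5) (nat_lit 245) (nat_lit 5) (nat_lit 235) (nat_lit 5) (nat_lit 233) (nat_lit 210) (nat_lit 157)))) (XT.nd (nat_lit 94) (nat_lit 1764) (nat_lit 0) (XT.lf (nat_lit 0) (nat_lit 4085607396) (nat_lit 840) (nat_lit 1066976947) (nat_lit 924) (nat_lit 4388364387) (nat_lit 224) (nat_lit 5) (nat_lit 234) (nat_lit 5) (nat_lit 235) (nat_lit 5) (nat_lit 234) (nat_lit 210) (nat_lit 156)) (XT.nd (nat_lit 94) (nat_lit 924) (nat_lit 0) (XT.lf (nat_lit 0) (nat_lit 3863990109) (nat_lit 840) (nat_lit 4738011415) (nat_lit 924) (nat_lit 1098046653) (nat_lit 214) (nat_lit 5) (nat_lit 224) (nat_lit 5) (nat_lit 225) (nat_lit 5) (nat_lit 235) (nat_lit 210) (nat_lit 155)) (XT.lf (nat_lit 0) (nat_lit 2291438830) (nat_lit 924) (nat_lit 6190544049) (nat_lit 84) (nat_lit 1381992325) (nat_lit 203) (nat_lit 5) (nat_lit 214) (nat_lit 5) (nat_lit 204) (nat_lit 5) (nat_lit 236) (nat_lit 210) (nat_lit 154))))) (XT.nd (nat_lit 282) (nat_lit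 2184) (nat_lit 0) (XT.nd (nat_lit 94) (nat_lit 1596) (nat_lit 0) (XT.lf (nat_lit 0) (nat_lit 3505501293) (nat_lit 756) (nat_lit 2315353329) (nat_lit 840) (nat_lit 4211778277) (nat_lit 194) (nat_lit 5) (nat_lit 203) (nat_lit 5) (nat_lit 204) (nat_lit 5) (nat_lit 237) (nat_lit 210) (nat_lit 153)) (XT.nd (nat_lit 94) (nat_lit 840) (nat_lit 0) (XT.lf (nat_lit 0) (nat_lit 3374745633) (nat_lit 756) (nat_lit 6134179711) (nat_lit 840) (nat_lit 697495511) (nat_lit 185) (nat_lit 5) (nat_lit 194) (nat_lit 5) (nat_lit 195) (nat_lit 5) (nat_lit 238) (nat_lit 210) (nat_lit 152)) (XT.lf (nat_lit 0) (nat_lit 2926185086) (nat_lit 840) (nat_lit 7114678955) (nat_lit 84) (nat_lit 344334364) (nat_lit 175) (nat_lit 5) (nat_lit 185) (nat_lit 5) (nat_lit 176) (nat_lit 5) (nat_lit 239) (nat_lit 210) (nat_lit 151)))) (XT.nd (nat_lit 94) (nat_lit 1428) (nat_lit 0) (XT.lf (nat_lit 0) (nat_lit 3183350634) (nat_lit 756) (nat_lit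 3540576947) (nat_lit 840) (nat_lit 3844924581) (nat_lit 166) (nat_lit 5) (nat_lit 175) (nat_lit 5) (nat_lit 176) (nat_lit 5) (nat_lit 240) (nat_lit 210) (nat_lit 150)) (XT.nd (nat_lit 94) (nat_lit 756) (nat_lit 0) (XT.lf (nat_lit 0) (nat_lit 3141722065) (nat_lit 672) (nat_lit 7551321618) (nat_lit 756) (nat_lit 65044159) (nat_lit 158) (nat_lit 5) (nat_lit 166) (nat_lit 5) (nat_lit 167) (nat_lit 5) (nat_lit 241) (nat_lit 210) (nat_lit 149)) (XT.lf (nat_lit 0) (nat_lit 3115801209) (nat_lit 672) (nat_lit 720734437) (nat_lit 756) (nat_lit 7115822317) (nat_lit 149) (nat_lit 5) (nat_lit 157) (nat_lit 5) (nat_lit 158) (nat_lit 5) (nat_lit 242) (nat_lit 210) (nat_lit 148)))))) (XT.nd (nat_lit 34874) (nat_lit 0) (nat_lit 24780) (XT.nd (nat_lit 282) (nat_lit 588) (nat_lit 0) (XT.nd (nat_lit 94) (nat_lit 1344) (nat_lit 0) (XT.lf (nat_lit 0) (nat_lit 3114040905) (nat_lit 672) (nat_lit 4826734479) (nat_lit 756) (nat_lit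 3211165971) (nat_lit 141) (nat_lit 5) (nat_lit 149) (nat_lit 5) (nat_lit 150) (nat_lit 5) (nat_lit 243) (nat_lit 210) (nat_lit 147)) (XT.nd (nat_lit 94) (nat_lit 588) (nat_lit 0) (XT.lf (nat_lit 0) (nat_lit 865034248) (nat_lit 756) (nat_lit 8201744077) (nat_lit 84) (nat_lit 2290571315) (nat_lit 132) (nat_lit 5) (nat_lit 141) (nat_lit 5) (nat_lit 133) (nat_lit 5) (nat_lit 244) (nat_lit 210) (nat_lit 146)) (XT.lf (nat_lit 0) (nat_lit 3209913530) (nat_lit 588) (nat_lit 1889778560) (nat_lit 672) (nat_lit 6468333758) (nat_lit 125) (nat_lit 5) (nat_lit 132) (nat_lit 5) (nat_lit 133) (nat_lit 5) (nat_lit 245) (nat_lit 210) (nat_lit 145)))) (XT.nd (nat_lit 34404) (nat_lit 0) (nat_lit 27216) (XT.lf (nat_lit 0) (nat_lit 3297757567) (nat_lit 588) (nat_lit 6255464501) (nat_lit 672) (nat_lit 2231299153) (nat_lit 118) (nat_lit 5) (nat_lit 125) (nat_lit 5) (nat_lit 126) (nat_lit 5) (nat_lit 246) (nat_lit 210) (nat_lit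 144)) (XT.nd (nat_lit 94) (nat_lit 1176) (nat_lit 0) (XT.lf (nat_lit 0) (nat_lit 1245599865) (nat_lit 0) (nat_lit 1245599865) (nat_lit 1092) (nat_lit 1076042054) (nat_lit 456) (nat_lit 5) (nat_lit 456) (nat_lit 3) (nat_lit 469) (nat_lit 3) (nat_lit 211) (nat_lit 211) (nat_lit 178)) (XT.lf (nat_lit 0) (nat_lit 569541997) (nat_lit 1176) (nat_lit 6152227764) (nat_lit 1260) (nat_lit 477899965) (nat_lit 442) (nat_lit 5) (nat_lit 456) (nat_lit 5) (nat_lit 457) (nat_lit 5) (nat_lit 212) (nat_lit 211) (nat_lit 177))))) (XT.nd (nat_lit 282) (nat_lit 1260) (nat_lit 0) (XT.nd (nat_lit 94) (nat_lit 1176) (nat_lit 0) (XT.lf (nat_lit 0) (nat_lit 3284463241) (nat_lit 1176) (nat_lit 360308698) (nat_lit 1260) (nat_lit 3623553761) (nat_lit 442) (nat_lit 5) (nat_lit 456) (nat_lit 5) (nat_lit 457) (nat_lit 5) (nat_lit 213) (nat_lit 211) (nat_lit 176)) (XT.nd (nat_lit 94) (nat_lit 1176) (nat_lit 0) (XT.lf (nat_lit 84) (nat_lit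 5650962629) (nat_lit 0) (nat_lit 364632042) (nat_lit 1260) (nat_lit 1325523828) (nat_lit 443) (nat_lit 5) (nat_lit 442) (nat_lit 5) (nat_lit 457) (nat_lit 5) (nat_lit 214) (nat_lit 211) (nat_lit 175)) (XT.lf (nat_lit 0) (nat_lit 1345678695) (nat_lit 1260) (nat_lit 2989891181) (nat_lit 1344) (nat_lit 3081977826) (nat_lit 428) (nat_lit 5) (nat_lit 443) (nat_lit 5) (nat_lit 444) (nat_lit 5) (nat_lit 215) (nat_lit 211) (nat_lit 174)))) (XT.nd (nat_lit 94) (nat_lit 1260) (nat_lit 0) (XT.lf (nat_lit 84) (nat_lit 3256403295) (nat_lit 0) (nat_lit 760325021) (nat_lit 1344) (nat_lit 3481334086) (nat_lit 429) (nat_lit 5) (nat_lit 428) (nat_lit 5) (nat_lit 444) (nat_lit 5) (nat_lit 216) (nat_lit 211) (nat_lit 173)) (XT.nd (nat_lit 94) (nat_lit 1344) (nat_lit 0) (XT.lf (nat_lit 84) (nat_lit 2127040334) (nat_lit 0) (nat_lit 4603992389) (nat_lit 1344) (nat_lit 851467498) (nat_lit 430) (nat_lit 5) (nat_lit 429) (nat_lit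 5) (nat_lit 445) (nat_lit 5) (nat_lit 217) (nat_lit 211) (nat_lit 172)) (XT.lf (nat_lit 84) (nat_lit 1041098550) (nat_lit 0) (nat_lit 740968943) (nat_lit 1428) (nat_lit 5888884355) (nat_lit 414) (nat_lit 5) (nat_lit 413) (nat_lit 5) (nat_lit 430) (nat_lit 5) (nat_lit 218) (nat_lit 211) (nat_lit 171))))))) (XT.nd (nat_lit 1128) (nat_lit 11004) (nat_lit 0) (XT.nd (nat_lit 564) (nat_lit 8568) (nat_lit 0) (XT.nd (nat_lit 282) (nat_lit 1344) (nat_lit 0) (XT.nd (nat_lit 94) (nat_lit 1344) (nat_lit 0) (XT.lf (nat_lit 0) (nat_lit 4456352988) (nat_lit 1344) (nat_lit 13353226) (nat_lit 1428) (nat_lit 3293507027) (nat_lit 414) (nat_lit 5) (nat_lit 430) (nat_lit 5) (nat_lit 431) (nat_lit 5) (nat_lit 219) (nat_lit 211) (nat_lit 170)) (XT.nd (nat_lit 94) (nat_lit 1344) (nat_lit 0) (XT.lf (nat_lit 84) (nat_lit 6860905439) (nat_lit 0) (nat_lit 318114204) (nat_lit 1428) (nat_lit 680678953) (nat_lit 415) (nat_lit 5)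 (nat_lit 414) (nat_lit 5) (nat_lit 431) (nat_lit 5) (nat_lit 220) (nat_lit 211) (nat_lit 169)) (XT.lf (nat_lit 0) (nat_lit 1982680507) (nat_lit 1428) (nat_lit 1968067917) (nat_lit 1512) (nat_lit 4009051872) (nat_lit 398) (nat_lit 5) (nat_lit 415) (nat_lit 5) (nat_lit 416) (nat_lit 5) (nat_lit 221) (nat_lit 211) (nat_lit 168)))) (XT.nd (nat_lit 94) (nat_lit 1428) (nat_lit 0) (XT.lf (nat_lit 0) (nat_lit 4685064508) (nat_lit 1428) (nat_lit 2890159750) (nat_lit 1512) (nat_lit 489039905) (nat_lit 399) (nat_lit 5) (nat_lit 416) (nat_lit 5) (nat_lit 417) (nat_lit 5) (nat_lit 222) (nat_lit 211) (nat_lit 167)) (XT.nd (nat_lit 94) (nat_lit 1428) (nat_lit 0) (XT.lf (nat_lit 84) (nat_lit 4388858199) (nat_lit 0) (nat_lit 3076948845) (nat_lit 1512) (nat_lit 706934168) (nat_lit 400) (nat_lit 5) (nat_lit 399) (nat_lit 5) (nat_lit 417) (nat_lit 5) (nat_lit 223) (nat_lit 211) (nat_lit 166)) (XT.lf (nat_lit 0) (nat_lit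 1999352448) (nat_lit 1512) (nat_lit 4646910808) (nat_lit 84) (nat_lit 1639085846) (nat_lit 382) (nat_lit 5) (nat_lit 400) (nat_lit 5) (nat_lit 383) (nat_lit 5) (nat_lit 224) (nat_lit 211) (nat_lit 165))))) (XT.nd (nat_lit 282) (nat_lit 3696) (nat_lit 0) (XT.nd (nat_lit 94) (nat_lit 3360) (nat_lit 0) (XT.lf (nat_lit 0) (nat_lit 2920744200) (nat_lit 1512) (nat_lit 1854277727) (nat_lit 1596) (nat_lit 3627087249) (nat_lit 364) (nat_lit 5) (nat_lit 382) (nat_lit 5) (nat_lit 383) (nat_lit 5) (nat_lit 225) (nat_lit 211) (nat_lit 164)) (XT.nd (nat_lit 94) (nat_lit 1764) (nat_lit 0) (XT.lf (nat_lit 0) (nat_lit 2240949809) (nat_lit 1596) (nat_lit 5395749854) (nat_lit 1680) (nat_lit 886501273) (nat_lit 345) (nat_lit 5) (nat_lit 364) (nat_lit 5) (nat_lit 365) (nat_lit 5) (nat_lit 226) (nat_lit 211) (nat_lit 163)) (XT.lf (nat_lit 0) (nat_lit 1593784414) (nat_lit 1680) (nat_lit 311983406) (nat_lit 1764) (nat_lit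 6742812826) (nat_lit 324) (nat_lit 5) (nat_lit 344) (nat_lit 5) (nat_lit 345) (nat_lit 5) (nat_lit 227) (nat_lit 211) (nat_lit 162)))) (XT.nd (nat_lit 94) (nat_lit 1932) (nat_lit 0) (XT.lf (nat_lit 0) (nat_lit 964341525) (nat_lit 1764) (nat_lit 3827577044) (nat_lit 1848) (nat_lit 3986080201) (nat_lit 303) (nat_lit 5) (nat_lit 324) (nat_lit 5) (nat_lit 325) (nat_lit 5) (nat_lit 228) (nat_lit 211) (nat_lit 161)) (XT.nd (nat_lit 94) (nat_lit 84) (nat_lit 0) (XT.lf (nat_lit 0) (nat_lit 381364906) (nat_lit 1848) (nat_lit 7388603894) (nat_lit 1932) (nat_lit 1142178277) (nat_lit 281) (nat_lit 5) (nat_lit 303) (nat_lit 5) (nat_lit 304) (nat_lit 5) (nat_lit 229) (nat_lit 211) (nat_lit 160)) (XT.lf (nat_lit 0) (nat_lit 1786176627) (nat_lit 1932) (nat_lit 180483460) (nat_lit 84) (nat_lit 7083809284) (nat_lit 280) (nat_lit 5) (nat_lit 303) (nat_lit 5) (nat_lit 281) (nat_lit 5) (nat_lit 230) (nat_lit 211) (nat_lit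 159)))))) (XT.nd (nat_lit 564) (nat_lit 5376) (nat_lit 0) (XT.nd (nat_lit 282) (nat_lit 2604) (nat_lit 0) (XT.nd (nat_lit 94) (nat_lit 1932) (nat_lit 0) (XT.lf (nat_lit 0) (nat_lit 4813451289) (nat_lit 1176) (nat_lit 712352545) (nat_lit 84) (nat_lit 3667347863) (nat_lit 267) (nat_lit 5) (nat_lit 281) (nat_lit 5) (nat_lit 268) (nat_lit 5) (nat_lit 231) (nat_lit 211) (nat_lit 158)) (XT.nd (nat_lit 94) (nat_lit 1008) (nat_lit 0) (XT.lf (nat_lit 0) (nat_lit 7950295401) (nat_lit 1008) (nat_lit 1200810945) (nat_lit 84) (nat_lit 189642033) (nat_lit 256) (nat_lit 5) (nat_lit 268) (nat_lit 5) (nat_lit 257) (nat_lit 5) (nat_lit 232) (nat_lit 211) (nat_lit 157)) (XT.lf (nat_lit 0) (nat_lit 1711298778) (nat_lit 1008) (nat_lit 1682612641) (nat_lit 84) (nat_lit 6098619443) (nat_lit 244) (nat_lit 5) (nat_lit 256) (nat_lit 5) (nat_lit 245) (nat_lit 5) (nat_lit 233) (nat_lit 211) (nat_lit 156)))) (XT.nd (nat_lit 94)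 (nat_lit 1764) (nat_lit 0) (XT.lf (nat_lit 0) (nat_lit 4914135917) (nat_lit 924) (nat_lit 2133774417) (nat_lit 84) (nat_lit 2601198330) (nat_lit 234) (nat_lit 5) (nat_lit 245) (nat_lit 5) (nat_lit 235) (nat_lit 5) (nat_lit 234) (nat_lit 211) (nat_lit 155)) (XT.nd (nat_lit 94) (nat_lit 924) (nat_lit 0) (XT.lf (nat_lit 0) (nat_lit 7260709095) (nat_lit 840) (nat_lit 991343187) (nat_lit 924) (nat_lit 1558608848) (nat_lit 224) (nat_lit 5) (nat_lit 234) (nat_lit 5) (nat_lit 235) (nat_lit 5) (nat_lit 235) (nat_lit 211) (nat_lit 154)) (XT.lf (nat_lit 0) (nat_lit 1743392493) (nat_lit 924) (nat_lit 2955829265) (nat_lit 84) (nat_lit 5277509164) (nat_lit 213) (nat_lit 5) (nat_lit 224) (nat_lit 5) (nat_lit 214) (nat_lit 5) (nat_lit 236) (nat_lit 211) (nat_lit 153))))) (XT.nd (nat_lit 282) (nat_lit 2940) (nat_lit 0) (XT.nd (nat_lit 94) (nat_lit 1596) (nat_lit 0) (XT.lf (nat_lit 0) (nat_lit 5161411519) (nat_lit 924)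 (nat_lit 3331695518) (nat_lit 84) (nat_lit 1654732308) (nat_lit 203) (nat_lit 5) (nat_lit 214) (nat_lit 5) (nat_lit 204) (nat_lit 5) (nat_lit 237) (nat_lit 211) (nat_lit 152)) (XT.nd (nat_lit 94) (nat_lit 840) (nat_lit 0) (XT.lf (nat_lit 0) (nat_lit 6643133123) (nat_lit 756) (nat_lit 2098359737) (nat_lit 840) (nat_lit 1582510206) (nat_lit 194) (nat_lit 5) (nat_lit 203) (nat_lit 5) (nat_lit 204) (nat_lit 5) (nat_lit 238) (nat_lit 211) (nat_lit 151)) (XT.lf (nat_lit 0) (nat_lit 1956310163) (nat_lit 840) (nat_lit 4014587167) (nat_lit 84) (nat_lit 4534169339) (nat_lit 184) (nat_lit 5) (nat_lit 194) (nat_lit 5) (nat_lit 185) (nat_lit 5) (nat_lit 239) (nat_lit 211) (nat_lit 150)))) (XT.nd (nat_lit 188) (nat_lit 1428) (nat_lit 0) (XT.nd (nat_lit 94) (nat_lit 756) (nat_lit 0) (XT.lf (nat_lit 0) (nat_lit 5630303621) (nat_lit 840) (nat_lit 4318351436) (nat_lit 84) (nat_lit 742787848) (nat_lit 175) (nat_lit 5)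 (nat_lit 185) (nat_lit 5) (nat_lit 176) (nat_lit 5) (nat_lit 240) (nat_lit 211) (nat_lit 149)) (XT.lf (nat_lit 0) (nat_lit 6280125282) (nat_lit 756) (nat_lit 3214126963) (nat_lit 840) (nat_lit 1388740025) (nat_lit 166) (nat_lit 5) (nat_lit 175) (nat_lit 5) (nat_lit 176) (nat_lit 5) (nat_lit 241) (nat_lit 211) (nat_lit 148))) (XT.nd (nat_lit 94) (nat_lit 672) (nat_lit 0) (XT.lf (nat_lit 0) (nat_lit 2425232606) (nat_lit 756) (nat_lit 4867966576) (nat_lit 84) (nat_lit 3786617443) (nat_lit 157) (nat_lit 5) (nat_lit 166) (nat_lit 5) (nat_lit 158) (nat_lit 5) (nat_lit 242) (nat_lit 211) (nat_lit 147)) (XT.lf (nat_lit 0) (nat_lit 6179970434) (nat_lit 672) (nat_lit 219221176) (nat_lit 756) (nat_lit 4883074583) (nat_lit 149) (nat_lit 5) (nat_lit 157) (nat_lit 5) (nat_lit 158) (nat_lit 5) (nat_lit 243) (nat_lit 211) (nat_lit 146))))))))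
noncomputable def xc21 : XT := (XT.nd (nat_lit 36754) (nat_lit 0) (nat_lit 588) (XT.nd (nat_lit 35532) (nat_lit 0) (nat_lit 9996) (XT.nd (nat_lit 34968) (nat_lit 0) (nat_lit 22848) (XT.nd (nat_lit 34686) (nat_lit 0) (nat_lit 25368) (XT.nd (nat_lit 94) (nat_lit 1344) (nat_lit 0) (XT.lf (nat_lit 0) (nat_lit 6168635593) (nat_lit 672) (nat_lit 4420932540) (nat_lit 756) (nat_lit 900532126) (nat_lit 141) (nat_lit 5) (nat_lit 149) (nat_lit 5) (nat_lit 150) (nat_lit 5) (nat_lit 244) (nat_lit 211) (nat_lit 145)) (XT.nd (nat_lit 94) (nat_lit 588) (nat_lit 0) (XT.lf (nat_lit 0) (nat_lit 3227719074) (nat_lit 756) (nat_lit 5520017878) (nat_lit 84) (nat_lit 2955806936) (nat_lit 132) (nat_lit 5) (nat_lit 141) (nat_lit 5) (nat_lit 133) (nat_lit 5) (nat_lit 245) (nat_lit 211) (nat_lit 144)) (XT.lf (nat_lit 0) (nat_lit 6232571718) (nat_lit 588) (nat_lit 1319875333) (nat_lit 672) (nat_lit 4370425854) (nat_lit 125) (nat_lit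 5) (nat_lit 132) (nat_lit 5) (nat_lit 133) (nat_lit 5) (nat_lit 246) (nat_lit 211) (nat_lit 143)))) (XT.nd (nat_lit 94) (nat_lit 1176) (nat_lit 0) (XT.lf (nat_lit 0) (nat_lit 1588874276) (nat_lit 1260) (nat_lit 1022145843) (nat_lit 1260) (nat_lit 1022145843) (nat_lit 441) (nat_lit 3) (nat_lit 456) (nat_lit 3) (nat_lit 456) (nat_lit 5) (nat_lit 212) (nat_lit 212) (nat_lit 176)) (XT.nd (nat_lit 94) (nat_lit 1176) (nat_lit 0) (XT.lf (nat_lit 84) (nat_lit 3779315923) (nat_lit 0) (nat_lit 2017133535) (nat_lit 1260) (nat_lit 1540655291) (nat_lit 442) (nat_lit 5) (nat_lit 441) (nat_lit 3) (nat_lit 456) (nat_lit 5) (nat_lit 213) (nat_lit 212) (nat_lit 175)) (XT.lf (nat_lit 0) (nat_lit 1006773636) (nat_lit 1260) (nat_lit 5029105241) (nat_lit 1344) (nat_lit 1375929371) (nat_lit 427) (nat_lit 5) (nat_lit 442) (nat_lit 5) (nat_lit 443) (nat_lit 5) (nat_lit 214) (nat_lit 212) (nat_lit 174))))) (XT.nd (nat_lit 282)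 (nat_lit 1260) (nat_lit 0) (XT.nd (nat_lit 94) (nat_lit 1260) (nat_lit 0) (XT.lf (nat_lit 84) (nat_lit 1021698159) (nat_lit 0) (nat_lit 2535255788) (nat_lit 1344) (nat_lit 3933318249) (nat_lit 428) (nat_lit 5) (nat_lit 427) (nat_lit 5) (nat_lit 443) (nat_lit 5) (nat_lit 215) (nat_lit 212) (nat_lit 173)) (XT.nd (nat_lit 94) (nat_lit 1344) (nat_lit 0) (XT.lf (nat_lit 0) (nat_lit 6133333075) (nat_lit 1260) (nat_lit 282804658) (nat_lit 1344) (nat_lit 1156731915) (nat_lit 428) (nat_lit 5) (nat_lit 443) (nat_lit 5) (nat_lit 444) (nat_lit 5) (nat_lit 216) (nat_lit 212) (nat_lit 172)) (XT.lf (nat_lit 0) (nat_lit 1082084497) (nat_lit 1344) (nat_lit 1540390195) (nat_lit 1428) (nat_lit 5036650458) (nat_lit 412) (nat_lit 5) (nat_lit 428) (nat_lit 5) (nat_lit 429) (nat_lit 5) (nat_lit 217) (nat_lit 212) (nat_lit 171)))) (XT.nd (nat_lit 94) (nat_lit 1344) (nat_lit 0) (XT.lf (nat_lit 0) (nat_lit 3615519765) (nat_lit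 1344) (nat_lit 2760458554) (nat_lit 1428) (nat_lit 1373397412) (nat_lit 413) (nat_lit 5) (nat_lit 429) (nat_lit 5) (nat_lit 430) (nat_lit 5) (nat_lit 218) (nat_lit 212) (nat_lit 170)) (XT.nd (nat_lit 94) (nat_lit 1344) (nat_lit 0) (XT.lf (nat_lit 84) (nat_lit 3900481353) (nat_lit 0) (nat_lit 2296526470) (nat_lit 1428) (nat_lit 1646670845) (nat_lit 414) (nat_lit 5) (nat_lit 413) (nat_lit 5) (nat_lit 430) (nat_lit 5) (nat_lit 219) (nat_lit 212) (nat_lit 169)) (XT.lf (nat_lit 0) (nat_lit 872592029) (nat_lit 1428) (nat_lit 5090627541) (nat_lit 1512) (nat_lit 1978832781) (nat_lit 397) (nat_lit 5) (nat_lit 414) (nat_lit 5) (nat_lit 415) (nat_lit 5) (nat_lit 220) (nat_lit 212) (nat_lit 168)))))) (XT.nd (nat_lit 564) (nat_lit 10080) (nat_lit 0) (XT.nd (nat_lit 282) (nat_lit 1344) (nat_lit 0) (XT.nd (nat_lit 94) (nat_lit 1428) (nat_lit 0) (XT.lf (nat_lit 84) (nat_lit 1832386383) (nat_lit 0) (nat_lit 1588722739)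 (nat_lit 1512) (nat_lit 4623249103) (nat_lit 398) (nat_lit 5) (nat_lit 397) (nat_lit 5) (nat_lit 415) (nat_lit 5) (nat_lit 221) (nat_lit 212) (nat_lit 167)) (XT.nd (nat_lit 94) (nat_lit 1512) (nat_lit 0) (XT.lf (nat_lit 84) (nat_lit 850406661) (nat_lit 0) (nat_lit 5182622775) (nat_lit 1512) (nat_lit 2117782858) (nat_lit 399) (nat_lit 5) (nat_lit 398) (nat_lit 5) (nat_lit 416) (nat_lit 5) (nat_lit 222) (nat_lit 212) (nat_lit 166)) (XT.lf (nat_lit 0) (nat_lit 437880265) (nat_lit 1512) (nat_lit 87412073) (nat_lit 1596) (nat_lit 7736299666) (nat_lit 380) (nat_lit 5) (nat_lit 398) (nat_lit 5) (nat_lit 399) (nat_lit 5) (nat_lit 223) (nat_lit 212) (nat_lit 165)))) (XT.nd (nat_lit 94) (nat_lit 1428) (nat_lit 0) (XT.lf (nat_lit 0) (nat_lit 3049272882) (nat_lit 1512) (nat_lit 1002509188) (nat_lit 1596) (nat_lit 4324170700) (nat_lit 381) (nat_lit 5) (nat_lit 399) (nat_lit 5) (nat_lit 400) (nat_lit 5) (nat_lit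 224) (nat_lit 212) (nat_lit 164)) (XT.nd (nat_lit 94) (nat_lit 1512) (nat_lit 0) (XT.lf (nat_lit 0) (nat_lit 5726766314) (nat_lit 1512) (nat_lit 1871871056) (nat_lit 84) (nat_lit 896235347) (nat_lit 382) (nat_lit 5) (nat_lit 400) (nat_lit 5) (nat_lit 383) (nat_lit 5) (nat_lit 225) (nat_lit 212) (nat_lit 163)) (XT.lf (nat_lit 0) (nat_lit 5902788536) (nat_lit 1512) (nat_lit 2593627885) (nat_lit 1596) (nat_lit 121572664) (nat_lit 364) (nat_lit 5) (nat_lit 382) (nat_lit 5) (nat_lit 383) (nat_lit 5) (nat_lit 226) (nat_lit 212) (nat_lit 162))))) (XT.nd (nat_lit 282) (nat_lit 4956) (nat_lit 0) (XT.nd (nat_lit 94) (nat_lit 3444) (nat_lit 0) (XT.lf (nat_lit 0) (nat_lit 2570926630) (nat_lit 1680) (nat_lit 3540350094) (nat_lit 84) (nat_lit 2633924749) (nat_lit 344) (nat_lit 5) (nat_lit 364) (nat_lit 5) (nat_lit 345) (nat_lit 5) (nat_lit 227) (nat_lit 212) (nat_lit 161)) (XT.nd (nat_lit 94) (nat_lit 1764) (nat_lit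 0) (XT.lf (nat_lit 0) (nat_lit 4546601650) (nat_lit 1680) (nat_lit 804224222) (nat_lit 1764) (nat_lit 3526131260) (nat_lit 324) (nat_lit 5) (nat_lit 344) (nat_lit 5) (nat_lit 345) (nat_lit 5) (nat_lit 228) (nat_lit 212) (nat_lit 160)) (XT.lf (nat_lit 0) (nat_lit 3914286455) (nat_lit 1764) (nat_lit 4326921621) (nat_lit 1848) (nat_lit 771826060) (nat_lit 303) (nat_lit 5) (nat_lit 324) (nat_lit 5) (nat_lit 325) (nat_lit 5) (nat_lit 229) (nat_lit 212) (nat_lit 159)))) (XT.nd (nat_lit 188) (nat_lit 1932) (nat_lit 0) (XT.nd (nat_lit 94) (nat_lit 1092) (nat_lit 0) (XT.lf (nat_lit 0) (nat_lit 2047060337) (nat_lit 1932) (nat_lit 5841920044) (nat_lit 84) (nat_lit 1264608963) (nat_lit 280) (nat_lit 5) (nat_lit 303) (nat_lit 5) (nat_lit 281) (nat_lit 5) (nat_lit 230) (nat_lit 212) (nat_lit 158)) (XT.lf (nat_lit 0) (nat_lit 2730810962) (nat_lit 1092) (nat_lit 2240897407) (nat_lit 1176) (nat_lit 4326821088) (nat_lit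 267) (nat_lit 5) (nat_lit 280) (nat_lit 5) (nat_lit 281) (nat_lit 5) (nat_lit 231) (nat_lit 212) (nat_lit 157))) (XT.nd (nat_lit 94) (nat_lit 1008) (nat_lit 0) (XT.lf (nat_lit 0) (nat_lit 2183566916) (nat_lit 924) (nat_lit 5831215813) (nat_lit 1008) (nat_lit 1433406343) (nat_lit 256) (nat_lit 5) (nat_lit 267) (nat_lit 5) (nat_lit 268) (nat_lit 5) (nat_lit 232) (nat_lit 212) (nat_lit 156)) (XT.lf (nat_lit 0) (nat_lit 1549736818) (nat_lit 1008) (nat_lit 7934900022) (nat_lit 84) (nat_lit 117964448) (nat_lit 244) (nat_lit 5) (nat_lit 256) (nat_lit 5) (nat_lit 245) (nat_lit 5) (nat_lit 233) (nat_lit 212) (nat_lit 155))))))) (XT.nd (nat_lit 1128) (nat_lit 672) (nat_lit 0) (XT.nd (nat_lit 564) (nat_lit 4452) (nat_lit 0) (XT.nd (nat_lit 282) (nat_lit 1680) (nat_lit 0) (XT.nd (nat_lit 94) (nat_lit 1764) (nat_lit 0) (XT.lf (nat_lit 0) (nat_lit 1157934590) (nat_lit 840) (nat_lit 3498006015) (nat_lit 924) (nat_lit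 5105364417) (nat_lit 234) (nat_lit 5) (nat_lit 244) (nat_lit 5) (nat_lit 245) (nat_lit 5) (nat_lit 234) (nat_lit 212) (nat_lit 154)) (XT.nd (nat_lit 94) (nat_lit 924) (nat_lit 0) (XT.lf (nat_lit 0) (nat_lit 688840305) (nat_lit 840) (nat_lit 7201742150) (nat_lit 924) (nat_lit 2034547073) (nat_lit 224) (nat_lit 5) (nat_lit 234) (nat_lit 5) (nat_lit 235) (nat_lit 5) (nat_lit 235) (nat_lit 212) (nat_lit 153)) (XT.lf (nat_lit 0) (nat_lit 246455870) (nat_lit 840) (nat_lit 910249044) (nat_lit 924) (nat_lit 8937156287) (nat_lit 213) (nat_lit 5) (nat_lit 223) (nat_lit 5) (nat_lit 224) (nat_lit 5) (nat_lit 236) (nat_lit 212) (nat_lit 152)))) (XT.nd (nat_lit 94) (nat_lit 1680) (nat_lit 0) (XT.lf (nat_lit 0) (nat_lit 4477520871) (nat_lit 924) (nat_lit 187435233) (nat_lit 84) (nat_lit 5602151987) (nat_lit 213) (nat_lit 5) (nat_lit 224) (nat_lit 5) (nat_lit 214) (nat_lit 5) (nat_lit 237) (nat_lit 212) (nat_lit 151))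 (XT.nd (nat_lit 94) (nat_lit 840) (nat_lit 0) (XT.lf (nat_lit 0) (nat_lit 7946343245) (nat_lit 924) (nat_lit 577276298) (nat_lit 84) (nat_lit 1922099968) (nat_lit 203) (nat_lit 5) (nat_lit 214) (nat_lit 5) (nat_lit 204) (nat_lit 5) (nat_lit 238) (nat_lit 212) (nat_lit 150)) (XT.lf (nat_lit 0) (nat_lit 940419736) (nat_lit 840) (nat_lit 946221249) (nat_lit 84) (nat_lit 8742754875) (nat_lit 193) (nat_lit 5) (nat_lit 203) (nat_lit 5) (nat_lit 194) (nat_lit 5) (nat_lit 239) (nat_lit 212) (nat_lit 149))))) (XT.nd (nat_lit 282) (nat_lit 2100) (nat_lit 0) (XT.nd (nat_lit 94) (nat_lit 1596) (nat_lit 0) (XT.lf (nat_lit 0) (nat_lit 4515219767) (nat_lit 840) (nat_lit 1306905819) (nat_lit 84) (nat_lit 4995828766) (nat_lit 184) (nat_lit 5) (nat_lit 194) (nat_lit 5) (nat_lit 185) (nat_lit 5) (nat_lit 240) (nat_lit 212) (nat_lit 148)) (XT.nd (nat_lit 94) (nat_lit 840) (nat_lit 0) (XT.lf (nat_lit 0) (nat_lit 8256080956)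 (nat_lit 840) (nat_lit 1626635063) (nat_lit 84) (nat_lit 1129495620) (nat_lit 175) (nat_lit 5) (nat_lit 185) (nat_lit 5) (nat_lit 176) (nat_lit 5) (nat_lit 241) (nat_lit 212) (nat_lit 147)) (XT.lf (nat_lit 0) (nat_lit 967021645) (nat_lit 840) (nat_lit 1932031636) (nat_lit 84) (nat_lit 8312628331) (nat_lit 165) (nat_lit 5) (nat_lit 175) (nat_lit 5) (nat_lit 166) (nat_lit 5) (nat_lit 242) (nat_lit 212) (nat_lit 146)))) (XT.nd (nat_lit 94) (nat_lit 1428) (nat_lit 0) (XT.lf (nat_lit 0) (nat_lit 4836035773) (nat_lit 756) (nat_lit 2224284436) (nat_lit 84) (nat_lit 4356119758) (nat_lit 157) (nat_lit 5) (nat_lit 166) (nat_lit 5) (nat_lit 158) (nat_lit 5) (nat_lit 243) (nat_lit 212) (nat_lit 145)) (XT.nd (nat_lit 94) (nat_lit 756) (nat_lit 0) (XT.lf (nat_lit 0) (nat_lit 8891965826) (nat_lit 756) (nat_lit 2474257773) (nat_lit 84) (nat_lit 261008256) (nat_lit 149) (nat_lit 5) (nat_lit 158) (nat_lit 5) (nat_lit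 150) (nat_lit 5) (nat_lit 244) (nat_lit 212) (nat_lit 144)) (XT.lf (nat_lit 0) (nat_lit 1310714348) (nat_lit 756) (nat_lit 2718745714) (nat_lit 84) (nat_lit 7813894275) (nat_lit 140) (nat_lit 5) (nat_lit 149) (nat_lit 5) (nat_lit 141) (nat_lit 5) (nat_lit 245) (nat_lit 212) (nat_lit 143)))))) (XT.nd (nat_lit 35062) (nat_lit 0) (nat_lit 20832) (XT.nd (nat_lit 34780) (nat_lit 0) (nat_lit 23436) (XT.nd (nat_lit 34592) (nat_lit 0) (nat_lit 24696) (XT.lf (nat_lit 0) (nat_lit 5518017653) (nat_lit 756) (nat_lit 2941823846) (nat_lit 84) (nat_lit 3605425199) (nat_lit 132) (nat_lit 5) (nat_lit 141) (nat_lit 5) (nat_lit 133) (nat_lit 5) (nat_lit 246) (nat_lit 212) (nat_lit 142)) (XT.nd (nat_lit 94) (nat_lit 0) (nat_lit 0) (XT.lf (nat_lit 0) (nat_lit 222005369) (nat_lit 0) (nat_lit 222005369) (nat_lit 1260) (nat_lit 3261001299) (nat_lit 426) (nat_lit 5) (nat_lit 426) (nat_lit 3) (nat_lit 441) (nat_lit 3) (nat_lit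 213) (nat_lit 213) (nat_lit 174)) (XT.lf (nat_lit 0) (nat_lit 3327901797) (nat_lit 1260) (nat_lit 1086752954) (nat_lit 1344) (nat_lit 3071709266) (nat_lit 426) (nat_lit 5) (nat_lit 441) (nat_lit 3) (nat_lit 442) (nat_lit 5) (nat_lit 214) (nat_lit 213) (nat_lit 173)))) (XT.nd (nat_lit 94) (nat_lit 1260) (nat_lit 0) (XT.lf (nat_lit 84) (nat_lit 5009915485) (nat_lit 0) (nat_lit 773677172) (nat_lit 1344) (nat_lit 1783314076) (nat_lit 427) (nat_lit 5) (nat_lit 426) (nat_lit 5) (nat_lit 442) (nat_lit 5) (nat_lit 215) (nat_lit 213) (nat_lit 172)) (XT.nd (nat_lit 94) (nat_lit 0) (nat_lit 0) (XT.lf (nat_lit 0) (nat_lit 615542136) (nat_lit 1344) (nat_lit 3996969991) (nat_lit 1428) (nat_lit 3038743954) (nat_lit 411) (nat_lit 5) (nat_lit 427) (nat_lit 5) (nat_lit 428) (nat_lit 5) (nat_lit 216) (nat_lit 213) (nat_lit 171)) (XT.lf (nat_lit 84) (nat_lit 2339065226) (nat_lit 0) (nat_lit 671812697) (nat_lit 1428) (nat_lit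 4728730199) (nat_lit 412) (nat_lit 5) (nat_lit 411) (nat_lit 5) (nat_lit 428) (nat_lit 5) (nat_lit 217) (nat_lit 213) (nat_lit 170))))) (XT.nd (nat_lit 282) (nat_lit 1260) (nat_lit 0) (XT.nd (nat_lit 94) (nat_lit 1428) (nat_lit 0) (XT.lf (nat_lit 84) (nat_lit 1057214256) (nat_lit 0) (nat_lit 4395572596) (nat_lit 1428) (nat_lit 2379085431) (nat_lit 413) (nat_lit 5) (nat_lit 412) (nat_lit 5) (nat_lit 429) (nat_lit 5) (nat_lit 218) (nat_lit 213) (nat_lit 169)) (XT.nd (nat_lit 94) (nat_lit 0) (nat_lit 84) (XT.lf (nat_lit 0) (nat_lit 734143) (nat_lit 1428) (nat_lit 170098793) (nat_lit 1512) (nat_lit 7757653132) (nat_lit 395) (nat_lit 5) (nat_lit 412) (nat_lit 5) (nat_lit 413) (nat_lit 5) (nat_lit 219) (nat_lit 213) (nat_lit 168)) (XT.lf (nat_lit 0) (nat_lit 2412991507) (nat_lit 1428) (nat_lit 1374010239) (nat_lit 1512) (nat_lit 4241432293) (nat_lit 396) (nat_lit 5) (nat_lit 413) (nat_lit 5) (nat_lit 414)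 (nat_lit 5) (nat_lit 220) (nat_lit 213) (nat_lit 167)))) (XT.nd (nat_lit 188) (nat_lit 1428) (nat_lit 0) (XT.nd (nat_lit 94) (nat_lit 0) (nat_lit 0) (XT.lf (nat_lit 0) (nat_lit 4866816072) (nat_lit 1428) (nat_lit 2529933063) (nat_lit 1512) (nat_lit 736074015) (nat_lit 397) (nat_lit 5) (nat_lit 414) (nat_lit 5) (nat_lit 415) (nat_lit 5) (nat_lit 221) (nat_lit 213) (nat_lit 166)) (XT.lf (nat_lit 84) (nat_lit 4581439058) (nat_lit 0) (nat_lit 2808179918) (nat_lit 1512) (nat_lit 851618825) (nat_lit 398) (nat_lit 5) (nat_lit 397) (nat_lit 5) (nat_lit 415) (nat_lit 5) (nat_lit 222) (nat_lit 213) (nat_lit 165))) (XT.nd (nat_lit 94) (nat_lit 0) (nat_lit 0) (XT.lf (nat_lit 0) (nat_lit 1596826483) (nat_lit 1512) (nat_lit 4762233753) (nat_lit 1596) (nat_lit 1994716435) (nat_lit 380) (nat_lit 5) (nat_lit 398) (nat_lit 5) (nat_lit 399) (nat_lit 5) (nat_lit 223) (nat_lit 213) (nat_lit 164)) (XT.lf (nat_lit 84) (nat_lit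 2631559471) (nat_lit 0) (nat_lit 1470499386) (nat_lit 1596) (nat_lit 4368414105) (nat_lit 381) (nat_lit 5) (nat_lit 380) (nat_lit 5) (nat_lit 399) (nat_lit 5) (nat_lit 224) (nat_lit 213) (nat_lit 163))))))))
noncomputable def xc22 : XT := (XT.nd (nat_lit 36848) (nat_lit 0) (nat_lit 4452) (XT.nd (nat_lit 1128) (nat_lit 6972) (nat_lit 0) (XT.nd (nat_lit 564) (nat_lit 6636) (nat_lit 0) (XT.nd (nat_lit 282) (nat_lit 5124) (nat_lit 0) (XT.nd (nat_lit 94) (nat_lit 1512) (nat_lit 0) (XT.lf (nat_lit 84) (nat_lit 1702126218) (nat_lit 0) (nat_lit 4985715127) (nat_lit 1596) (nat_lit 1903569205) (nat_lit 382) (nat_lit 5) (nat_lit 381) (nat_lit 5) (nat_lit 400) (nat_lit 5) (nat_lit 225) (nat_lit 213) (nat_lit 162)) (XT.nd (nat_lit 94) (nat_lit 0) (nat_lit 0) (XT.lf (nat_lit 0) (nat_lit 621246733) (nat_lit 1596) (nat_lit 7904707327) (nat_lit 84) (nat_lit 190898796) (nat_lit 363) (nat_lit 5) (nat_lit 382) (nat_lit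 5) (nat_lit 364) (nat_lit 5) (nat_lit 226) (nat_lit 213) (nat_lit 161)) (XT.lf (nat_lit 0) (nat_lit 3218086984) (nat_lit 1596) (nat_lit 72154712) (nat_lit 84) (nat_lit 5555870473) (nat_lit 363) (nat_lit 5) (nat_lit 382) (nat_lit 5) (nat_lit 364) (nat_lit 5) (nat_lit 227) (nat_lit 213) (nat_lit 160)))) (XT.nd (nat_lit 94) (nat_lit 3528) (nat_lit 0) (XT.lf (nat_lit 0) (nat_lit 5905082894) (nat_lit 1680) (nat_lit 905510406) (nat_lit 84) (nat_lit 2169318401) (nat_lit 344) (nat_lit 5) (nat_lit 364) (nat_lit 5) (nat_lit 345) (nat_lit 5) (nat_lit 228) (nat_lit 213) (nat_lit 159)) (XT.nd (nat_lit 94) (nat_lit 1848) (nat_lit 0) (XT.lf (nat_lit 0) (nat_lit 7410145676) (nat_lit 1680) (nat_lit 1281690744) (nat_lit 1764) (nat_lit 426432116) (nat_lit 324) (nat_lit 5) (nat_lit 344) (nat_lit 5) (nat_lit 345) (nat_lit 5) (nat_lit 229) (nat_lit 213) (nat_lit 158)) (XT.lf (nat_lit 0) (nat_lit 2298350039) (nat_lit 1848)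 (nat_lit 2504123018) (nat_lit 84) (nat_lit 4458257408) (nat_lit 302) (nat_lit 5) (nat_lit 324) (nat_lit 5) (nat_lit 303) (nat_lit 5) (nat_lit 230) (nat_lit 213) (nat_lit 157))))) (XT.nd (nat_lit 282) (nat_lit 2688) (nat_lit 0) (XT.nd (nat_lit 94) (nat_lit 2100) (nat_lit 0) (XT.lf (nat_lit 0) (nat_lit 5117319381) (nat_lit 1932) (nat_lit 3265441377) (nat_lit 84) (nat_lit 1025234751) (nat_lit 280) (nat_lit 5) (nat_lit 303) (nat_lit 5) (nat_lit 281) (nat_lit 5) (nat_lit 231) (nat_lit 213) (nat_lit 156)) (XT.nd (nat_lit 94) (nat_lit 1008) (nat_lit 0) (XT.lf (nat_lit 0) (nat_lit 5552559087) (nat_lit 1092) (nat_lit 2509787820) (nat_lit 1176) (nat_lit 1497465248) (nat_lit 267) (nat_lit 5) (nat_lit 280) (nat_lit 5) (nat_lit 281) (nat_lit 5) (nat_lit 232) (nat_lit 213) (nat_lit 155)) (XT.lf (nat_lit 0) (nat_lit 1394622074) (nat_lit 1008) (nat_lit 4729862860) (nat_lit 84) (nat_lit 3591773002) (nat_lit 255) (nat_lit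 5) (nat_lit 267) (nat_lit 5) (nat_lit 256) (nat_lit 5) (nat_lit 233) (nat_lit 213) (nat_lit 154)))) (XT.nd (nat_lit 94) (nat_lit 1764) (nat_lit 0) (XT.lf (nat_lit 0) (nat_lit 4383202853) (nat_lit 1008) (nat_lit 5427345453) (nat_lit 84) (nat_lit 67001071) (nat_lit 244) (nat_lit 5) (nat_lit 256) (nat_lit 5) (nat_lit 245) (nat_lit 5) (nat_lit 234) (nat_lit 213) (nat_lit 153)) (XT.nd (nat_lit 94) (nat_lit 924) (nat_lit 0) (XT.lf (nat_lit 0) (nat_lit 3928876952) (nat_lit 840) (nat_lit 3594712746) (nat_lit 924) (nat_lit 2519857795) (nat_lit 234) (nat_lit 5) (nat_lit 244) (nat_lit 5) (nat_lit 245) (nat_lit 5) (nat_lit 235) (nat_lit 213) (nat_lit 152)) (XT.lf (nat_lit 0) (nat_lit 576626383) (nat_lit 924) (nat_lit 6771017946) (nat_lit 84) (nat_lit 2866849561) (nat_lit 223) (nat_lit 5) (nat_lit 234) (nat_lit 5) (nat_lit 224) (nat_lit 5) (nat_lit 236) (nat_lit 213) (nat_lit 151)))))) (XT.nd (nat_lit 564) (nat_lit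 2184) (nat_lit 0) (XT.nd (nat_lit 282) (nat_lit 2352) (nat_lit 0) (XT.nd (nat_lit 94) (nat_lit 1596) (nat_lit 0) (XT.lf (nat_lit 0) (nat_lit 2973993143) (nat_lit 840) (nat_lit 804933950) (nat_lit 924) (nat_lit 6611421024) (nat_lit 213) (nat_lit 5) (nat_lit 223) (nat_lit 5) (nat_lit 224) (nat_lit 5) (nat_lit 237) (nat_lit 213) (nat_lit 150)) (XT.nd (nat_lit 94) (nat_lit 756) (nat_lit 0) (XT.lf (nat_lit 0) (nat_lit 2523248228) (nat_lit 840) (nat_lit 4624336018) (nat_lit 924) (nat_lit 3423578926) (nat_lit 203) (nat_lit 5) (nat_lit 213) (nat_lit 5) (nat_lit 214) (nat_lit 5) (nat_lit 238) (nat_lit 213) (nat_lit 149)) (XT.lf (nat_lit 0) (nat_lit 2113090139) (nat_lit 756) (nat_lit 8557552572) (nat_lit 840) (nat_lit 86861078) (nat_lit 194) (nat_lit 5) (nat_lit 203) (nat_lit 5) (nat_lit 204) (nat_lit 5) (nat_lit 239) (nat_lit 213) (nat_lit 148)))) (XT.nd (nat_lit 94) (nat_lit 1512) (nat_lit 0) (XT.lf (nat_lit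 0) (nat_lit 1707450758) (nat_lit 756) (nat_lit 1662911099) (nat_lit 840) (nat_lit 7578328255) (nat_lit 184) (nat_lit 5) (nat_lit 193) (nat_lit 5) (nat_lit 194) (nat_lit 5) (nat_lit 240) (nat_lit 213) (nat_lit 147)) (XT.nd (nat_lit 94) (nat_lit 756) (nat_lit 0) (XT.lf (nat_lit 0) (nat_lit 1325258025) (nat_lit 756) (nat_lit 5682285778) (nat_lit 840) (nat_lit 4137684541) (nat_lit 175) (nat_lit 5) (nat_lit 184) (nat_lit 5) (nat_lit 185) (nat_lit 5) (nat_lit 241) (nat_lit 213) (nat_lit 146)) (XT.lf (nat_lit 0) (nat_lit 984450927) (nat_lit 756) (nat_lit 9834838374) (nat_lit 840) (nat_lit 528316344) (nat_lit 166) (nat_lit 5) (nat_lit 175) (nat_lit 5) (nat_lit 176) (nat_lit 5) (nat_lit 242) (nat_lit 213) (nat_lit 145))))) (XT.nd (nat_lit 282) (nat_lit 84) (nat_lit 0) (XT.nd (nat_lit 94) (nat_lit 1344) (nat_lit 0) (XT.lf (nat_lit 0) (nat_lit 643703105) (nat_lit 672) (nat_lit 2586926532) (nat_lit 756) (nat_lit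 8324406063) (nat_lit 157) (nat_lit 5) (nat_lit 165) (nat_lit 5) (nat_lit 166) (nat_lit 5) (nat_lit 243) (nat_lit 213) (nat_lit 144)) (XT.nd (nat_lit 94) (nat_lit 672) (nat_lit 0) (XT.lf (nat_lit 0) (nat_lit 329568469) (nat_lit 672) (nat_lit 6849347382) (nat_lit 756) (nat_lit 4589279901) (nat_lit 149) (nat_lit 5) (nat_lit 157) (nat_lit 5) (nat_lit 158) (nat_lit 5) (nat_lit 244) (nat_lit 213) (nat_lit 143)) (XT.lf (nat_lit 0) (nat_lit 58485068) (nat_lit 672) (nat_lit 11264576341) (nat_lit 756) (nat_lit 664486272) (nat_lit 141) (nat_lit 5) (nat_lit 149) (nat_lit 5) (nat_lit 150) (nat_lit 5) (nat_lit 245) (nat_lit 213) (nat_lit 142)))) (XT.nd (nat_lit 34686) (nat_lit 0) (nat_lit 22680) (XT.lf (nat_lit 0) (nat_lit 3437702657) (nat_lit 756) (nat_lit 216566055) (nat_lit 84) (nat_lit 8557818534) (nat_lit 140) (nat_lit 5) (nat_lit 149) (nat_lit 5) (nat_lit 141) (nat_lit 5) (nat_lit 246) (nat_lit 213) (nat_lit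 141)) (XT.nd (nat_lit 94) (nat_lit 1344) (nat_lit 0) (XT.lf (nat_lit 0) (nat_lit 1417462897) (nat_lit 0) (nat_lit 1417462897) (nat_lit 1260) (nat_lit 947503421) (nat_lit 426) (nat_lit 5) (nat_lit 426) (nat_lit 3) (nat_lit 441) (nat_lit 3) (nat_lit 214) (nat_lit 214) (nat_lit 172)) (XT.lf (nat_lit 0) (nat_lit 374401076) (nat_lit 1344) (nat_lit 6343860131) (nat_lit 1428) (nat_lit 929238840) (nat_lit 410) (nat_lit 5) (nat_lit 426) (nat_lit 5) (nat_lit 427) (nat_lit 5) (nat_lit 215) (nat_lit 214) (nat_lit 171))))))) (XT.nd (nat_lit 1128) (nat_lit 14196) (nat_lit 0) (XT.nd (nat_lit 564) (nat_lit 2772) (nat_lit 0) (XT.nd (nat_lit 282) (nat_lit 1260) (nat_lit 0) (XT.nd (nat_lit 94) (nat_lit 0) (nat_lit 84) (XT.lf (nat_lit 0) (nat_lit 2649073121) (nat_lit 1344) (nat_lit 203179505) (nat_lit 1428) (nat_lit 4881484276) (nat_lit 410) (nat_lit 5) (nat_lit 426) (nat_lit 5) (nat_lit 427) (nat_lit 5) (nat_lit 216)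 (nat_lit 214) (nat_lit 170)) (XT.nd (nat_lit 94) (nat_lit 0) (nat_lit 0) (XT.lf (nat_lit 0) (nat_lit 4957272246) (nat_lit 1344) (nat_lit 1645318695) (nat_lit 1428) (nat_lit 1221415009) (nat_lit 411) (nat_lit 5) (nat_lit 427) (nat_lit 5) (nat_lit 428) (nat_lit 5) (nat_lit 217) (nat_lit 214) (nat_lit 169)) (XT.lf (nat_lit 84) (nat_lit 4863401935) (nat_lit 0) (nat_lit 2444347885) (nat_lit 1428) (nat_lit 610531780) (nat_lit 412) (nat_lit 5) (nat_lit 411) (nat_lit 5) (nat_lit 428) (nat_lit 5) (nat_lit 218) (nat_lit 214) (nat_lit 168)))) (XT.nd (nat_lit 94) (nat_lit 0) (nat_lit 0) (XT.lf (nat_lit 0) (nat_lit 1658135166) (nat_lit 1428) (nat_lit 4437563931) (nat_lit 1512) (nat_lit 1920804092) (nat_lit 395) (nat_lit 5) (nat_lit 412) (nat_lit 5) (nat_lit 413) (nat_lit 5) (nat_lit 219) (nat_lit 214) (nat_lit 167)) (XT.nd (nat_lit 94) (nat_lit 0) (nat_lit 84) (XT.lf (nat_lit 84) (nat_lit 2327683660) (nat_lit 0)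 (nat_lit 1636538808) (nat_lit 1512) (nat_lit 4154564433) (nat_lit 396) (nat_lit 5) (nat_lit 395) (nat_lit 5) (nat_lit 413) (nat_lit 5) (nat_lit 220) (nat_lit 214) (nat_lit 166)) (XT.lf (nat_lit 84) (nat_lit 1109749575) (nat_lit 0) (nat_lit 5216226092) (nat_lit 1512) (nat_lit 1899225916) (nat_lit 397) (nat_lit 5) (nat_lit 396) (nat_lit 5) (nat_lit 414) (nat_lit 5) (nat_lit 221) (nat_lit 214) (nat_lit 165))))) (XT.nd (nat_lit 282) (nat_lit 1344) (nat_lit 0) (XT.nd (nat_lit 94) (nat_lit 0) (nat_lit 84) (XT.lf (nat_lit 0) (nat_lit 398817848) (nat_lit 1512) (nat_lit 67947845) (nat_lit 1596) (nat_lit 7869166148) (nat_lit 378) (nat_lit 5) (nat_lit 396) (nat_lit 5) (nat_lit 397) (nat_lit 5) (nat_lit 222) (nat_lit 214) (nat_lit 164)) (XT.nd (nat_lit 94) (nat_lit 0) (nat_lit 84) (XT.lf (nat_lit 0) (nat_lit 2750294687) (nat_lit 1512) (nat_lit 1222325119) (nat_lit 1596) (nat_lit 4477580901) (nat_lit 379) (nat_lit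 5) (nat_lit 397) (nat_lit 5) (nat_lit 398) (nat_lit 5) (nat_lit 223) (nat_lit 214) (nat_lit 163)) (XT.lf (nat_lit 0) (nat_lit 5160065714) (nat_lit 1512) (nat_lit 2335551417) (nat_lit 1596) (nat_lit 1073380017) (nat_lit 380) (nat_lit 5) (nat_lit 398) (nat_lit 5) (nat_lit 399) (nat_lit 5) (nat_lit 224) (nat_lit 214) (nat_lit 162)))) (XT.nd (nat_lit 94) (nat_lit 1512) (nat_lit 0) (XT.lf (nat_lit 84) (nat_lit 5265943301) (nat_lit 0) (nat_lit 2386541126) (nat_lit 1596) (nat_lit 1039504312) (nat_lit 381) (nat_lit 5) (nat_lit 380) (nat_lit 5) (nat_lit 399) (nat_lit 5) (nat_lit 225) (nat_lit 214) (nat_lit 161)) (XT.nd (nat_lit 94) (nat_lit 0) (nat_lit 0) (XT.lf (nat_lit 0) (nat_lit 1386250525) (nat_lit 1596) (nat_lit 4496023996) (nat_lit 1680) (nat_lit 2936926663) (nat_lit 362) (nat_lit 5) (nat_lit 381) (nat_lit 5) (nat_lit 382) (nat_lit 5) (nat_lit 226) (nat_lit 214) (nat_lit 160)) (XT.lf (nat_lit 84) (nat_lit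 3410768246) (nat_lit 0) (nat_lit 464616111) (nat_lit 1680) (nat_lit 5075445681) (nat_lit 363) (nat_lit 5) (nat_lit 362) (nat_lit 5) (nat_lit 382) (nat_lit 5) (nat_lit 227) (nat_lit 214) (nat_lit 159)))))) (XT.nd (nat_lit 564) (nat_lit 6132) (nat_lit 0) (XT.nd (nat_lit 282) (nat_lit 3024) (nat_lit 0) (XT.nd (nat_lit 94) (nat_lit 3528) (nat_lit 0) (XT.lf (nat_lit 0) (nat_lit 2516757462) (nat_lit 1596) (nat_lit 3951778350) (nat_lit 1680) (nat_lit 2618158336) (nat_lit 344) (nat_lit 5) (nat_lit 363) (nat_lit 5) (nat_lit 364) (nat_lit 5) (nat_lit 228) (nat_lit 214) (nat_lit 158)) (XT.nd (nat_lit 94) (nat_lit 1848) (nat_lit 0) (XT.lf (nat_lit 0) (nat_lit 1662060143) (nat_lit 1680) (nat_lit 7490010885) (nat_lit 1764) (nat_lit 75250757) (nat_lit 324) (nat_lit 5) (nat_lit 344) (nat_lit 5) (nat_lit 345) (nat_lit 5) (nat_lit 229) (nat_lit 214) (nat_lit 157)) (XT.lf (nat_lit 0) (nat_lit 814908914) (nat_lit 1764)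 (nat_lit 1721370288) (nat_lit 1848) (nat_lit 6835829749) (nat_lit 302) (nat_lit 5) (nat_lit 323) (nat_lit 5) (nat_lit 324) (nat_lit 5) (nat_lit 230) (nat_lit 214) (nat_lit 156)))) (XT.nd (nat_lit 94) (nat_lit 3024) (nat_lit 0) (XT.lf (nat_lit 0) (nat_lit 5259311485) (nat_lit 1848) (nat_lit 8378674) (nat_lit 84) (nat_lit 4253794451) (nat_lit 302) (nat_lit 5) (nat_lit 324) (nat_lit 5) (nat_lit 303) (nat_lit 5) (nat_lit 231) (nat_lit 214) (nat_lit 155)) (XT.nd (nat_lit 94) (nat_lit 1176) (nat_lit 0) (XT.lf (nat_lit 0) (nat_lit 8095661884) (nat_lit 1932) (nat_lit 783689100) (nat_lit 84) (nat_lit 796341169) (nat_lit 280) (nat_lit 5) (nat_lit 303) (nat_lit 5) (nat_lit 281) (nat_lit 5) (nat_lit 232) (nat_lit 214) (nat_lit 154)) (XT.lf (nat_lit 0) (nat_lit 1214971908) (nat_lit 1176) (nat_lit 1551479815) (nat_lit 84) (nat_lit 7067861184) (nat_lit 266) (nat_lit 5) (nat_lit 280) (nat_lit 5) (nat_lit 267) (nat_lit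 5) (nat_lit 233) (nat_lit 214) (nat_lit 153))))) (XT.nd (nat_lit 282) (nat_lit 3444) (nat_lit 0) (XT.nd (nat_lit 94) (nat_lit 1764) (nat_lit 0) (XT.lf (nat_lit 0) (nat_lit 4110314688) (nat_lit 1008) (nat_lit 2301692255) (nat_lit 84) (nat_lit 3585648642) (nat_lit 255) (nat_lit 5) (nat_lit 267) (nat_lit 5) (nat_lit 256) (nat_lit 5) (nat_lit 234) (nat_lit 214) (nat_lit 152)) (XT.nd (nat_lit 94) (nat_lit 840) (nat_lit 0) (XT.lf (nat_lit 0) (nat_lit 7131051458) (nat_lit 1008) (nat_lit 3017217530) (nat_lit 84) (nat_lit 17917013) (nat_lit 244) (nat_lit 5) (nat_lit 256) (nat_lit 5) (nat_lit 245) (nat_lit 5) (nat_lit 235) (nat_lit 214) (nat_lit 151)) (XT.lf (nat_lit 0) (nat_lit 6615258939) (nat_lit 840) (nat_lit 3696514548) (nat_lit 924) (nat_lit 27647789) (nat_lit 234) (nat_lit 5) (nat_lit 244) (nat_lit 5) (nat_lit 245) (nat_lit 5) (nat_lit 236) (nat_lit 214) (nat_lit 150)))) (XT.nd (nat_lit 188) (nat_lit 1680)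 (nat_lit 0) (XT.nd (nat_lit 94) (nat_lit 840) (nat_lit 0) (XT.lf (nat_lit 0) (nat_lit 3072528172) (nat_lit 924) (nat_lit 4418872811) (nat_lit 84) (nat_lit 3026134357) (nat_lit 223) (nat_lit 5) (nat_lit 234) (nat_lit 5) (nat_lit 224) (nat_lit 5) (nat_lit 237) (nat_lit 214) (nat_lit 149)) (XT.lf (nat_lit 0) (nat_lit 5616215711) (nat_lit 840) (nat_lit 705053419) (nat_lit 924) (nat_lit 4379719421) (nat_lit 213) (nat_lit 5) (nat_lit 223) (nat_lit 5) (nat_lit 224) (nat_lit 5) (nat_lit 238) (nat_lit 214) (nat_lit 148))) (XT.nd (nat_lit 94) (nat_lit 840) (nat_lit 0) (XT.lf (nat_lit 0) (nat_lit 5150784471) (nat_lit 840) (nat_lit 4594513326) (nat_lit 924) (nat_lit 1144210028) (nat_lit 203) (nat_lit 5) (nat_lit 213) (nat_lit 5) (nat_lit 214) (nat_lit 5) (nat_lit 239) (nat_lit 214) (nat_lit 147)) (XT.lf (nat_lit 0) (nat_lit 2215610899) (nat_lit 840) (nat_lit 6374156702) (nat_lit 84) (nat_lit 2493570131) (nat_lit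 193) (nat_lit 5) (nat_lit 203) (nat_lit 5) (nat_lit 194) (nat_lit 5) (nat_lit 240) (nat_lit 214) (nat_lit 146))))))))
noncomputable def xc23 : XT := (XT.nd (nat_lit 37036) (nat_lit 0) (nat_lit 756) (XT.nd (nat_lit 35814) (nat_lit 0) (nat_lit 10584) (XT.nd (nat_lit 35250) (nat_lit 0) (nat_lit 21252) (XT.nd (nat_lit 282) (nat_lit 2100) (nat_lit 0) (XT.nd (nat_lit 94) (nat_lit 1596) (nat_lit 0) (XT.lf (nat_lit 0) (nat_lit 4288718673) (nat_lit 756) (nat_lit 1443864002) (nat_lit 840) (nat_lit 5549937913) (nat_lit 184) (nat_lit 5) (nat_lit 193) (nat_lit 5) (nat_lit 194) (nat_lit 5) (nat_lit 241) (nat_lit 214) (nat_lit 145)) (XT.nd (nat_lit 94) (nat_lit 840) (nat_lit 0) (XT.lf (nat_lit 0) (nat_lit 3889948376) (nat_lit 756) (nat_lit 5551071439) (nat_lit 840) (nat_lit 2046150857) (nat_lit 175) (nat_lit 5) (nat_lit 184) (nat_lit 5) (nat_lit 185) (nat_lit 5) (nat_lit 242) (nat_lit 214) (nat_lit 144)) (XT.lf (nat_lit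 0) (nat_lit 1610997804) (nat_lit 840) (nat_lit 8176960940) (nat_lit 84) (nat_lit 1909600341) (nat_lit 165) (nat_lit 5) (nat_lit 175) (nat_lit 5) (nat_lit 166) (nat_lit 5) (nat_lit 243) (nat_lit 214) (nat_lit 143)))) (XT.nd (nat_lit 94) (nat_lit 1428) (nat_lit 0) (XT.lf (nat_lit 0) (nat_lit 3161112974) (nat_lit 672) (nat_lit 2277586847) (nat_lit 756) (nat_lit 6474672170) (nat_lit 157) (nat_lit 5) (nat_lit 165) (nat_lit 5) (nat_lit 166) (nat_lit 5) (nat_lit 244) (nat_lit 214) (nat_lit 142)) (XT.nd (nat_lit 94) (nat_lit 756) (nat_lit 0) (XT.lf (nat_lit 0) (nat_lit 2829231897) (nat_lit 672) (nat_lit 6645574464) (nat_lit 756) (nat_lit 2660294417) (nat_lit 149) (nat_lit 5) (nat_lit 157) (nat_lit 5) (nat_lit 158) (nat_lit 5) (nat_lit 245) (nat_lit 214) (nat_lit 141)) (XT.lf (nat_lit 0) (nat_lit 1332899895) (nat_lit 756) (nat_lit 9832177698) (nat_lit 84) (nat_lit 1197905809) (nat_lit 140) (nat_lit 5) (nat_lit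 149) (nat_lit 5) (nat_lit 141) (nat_lit 5) (nat_lit 246) (nat_lit 214) (nat_lit 140))))) (XT.nd (nat_lit 282) (nat_lit 1344) (nat_lit 0) (XT.nd (nat_lit 94) (nat_lit 0) (nat_lit 0) (XT.lf (nat_lit 0) (nat_lit 1267039181) (nat_lit 1428) (nat_lit 1299394983) (nat_lit 1428) (nat_lit 1299394983) (nat_lit 409) (nat_lit 3) (nat_lit 426) (nat_lit 3) (nat_lit 426) (nat_lit 5) (nat_lit 215) (nat_lit 215) (nat_lit 170)) (XT.nd (nat_lit 94) (nat_lit 0) (nat_lit 84) (XT.lf (nat_lit 84) (nat_lit 3594127905) (nat_lit 0) (nat_lit 1118463907) (nat_lit 1428) (nat_lit 3107418829) (nat_lit 410) (nat_lit 5) (nat_lit 409) (nat_lit 3) (nat_lit 426) (nat_lit 5) (nat_lit 216) (nat_lit 215) (nat_lit 169)) (XT.lf (nat_lit 84) (nat_lit 2088367658) (nat_lit 0) (nat_lit 4839429021) (nat_lit 1428) (nat_lit 984528882) (nat_lit 411) (nat_lit 5) (nat_lit 410) (nat_lit 5) (nat_lit 427) (nat_lit 5) (nat_lit 217) (nat_lit 215) (nat_lit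 168)))) (XT.nd (nat_lit 94) (nat_lit 0) (nat_lit 84) (XT.lf (nat_lit 84) (nat_lit 619811971) (nat_lit 0) (nat_lit 526438663) (nat_lit 1512) (nat_lit 6862507631) (nat_lit 394) (nat_lit 5) (nat_lit 393) (nat_lit 5) (nat_lit 411) (nat_lit 5) (nat_lit 218) (nat_lit 215) (nat_lit 167)) (XT.nd (nat_lit 94) (nat_lit 0) (nat_lit 84) (XT.lf (nat_lit 0) (nat_lit 3318487831) (nat_lit 1428) (nat_lit 819631283) (nat_lit 1512) (nat_lit 3970693058) (nat_lit 394) (nat_lit 5) (nat_lit 411) (nat_lit 5) (nat_lit 412) (nat_lit 5) (nat_lit 219) (nat_lit 215) (nat_lit 166)) (XT.lf (nat_lit 0) (nat_lit 5529582449) (nat_lit 1428) (nat_lit 2206202477) (nat_lit 1512) (nat_lit 477400798) (nat_lit 395) (nat_lit 5) (nat_lit 412) (nat_lit 5) (nat_lit 413) (nat_lit 5) (nat_lit 220) (nat_lit 215) (nat_lit 165)))))) (XT.nd (nat_lit 564) (nat_lit 7980) (nat_lit 0) (XT.nd (nat_lit 282) (nat_lit 1428) (nat_lit 0) (XT.nd (nat_lit 94) (nat_lit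 1428) (nat_lit 0) (XT.lf (nat_lit 84) (nat_lit 4748818560) (nat_lit 0) (nat_lit 3055274260) (nat_lit 1512) (nat_lit 517426927) (nat_lit 396) (nat_lit 5) (nat_lit 395) (nat_lit 5) (nat_lit 413) (nat_lit 5) (nat_lit 221) (nat_lit 215) (nat_lit 164)) (XT.nd (nat_lit 94) (nat_lit 0) (nat_lit 0) (XT.lf (nat_lit 0) (nat_lit 1672269511) (nat_lit 1512) (nat_lit 4914830840) (nat_lit 1596) (nat_lit 1846878901) (nat_lit 378) (nat_lit 5) (nat_lit 396) (nat_lit 5) (nat_lit 397) (nat_lit 5) (nat_lit 222) (nat_lit 215) (nat_lit 163)) (XT.lf (nat_lit 84) (nat_lit 2316331063) (nat_lit 0) (nat_lit 1600535536) (nat_lit 1596) (nat_lit 4633732875) (nat_lit 379) (nat_lit 5) (nat_lit 378) (nat_lit 5) (nat_lit 397) (nat_lit 5) (nat_lit 223) (nat_lit 215) (nat_lit 162)))) (XT.nd (nat_lit 94) (nat_lit 1512) (nat_lit 0) (XT.lf (nat_lit 84) (nat_lit 1140442211) (nat_lit 0) (nat_lit 5092634840) (nat_lit 1596) (nat_lit 2438377195)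 (nat_lit 380) (nat_lit 5) (nat_lit 379) (nat_lit 5) (nat_lit 398) (nat_lit 5) (nat_lit 224) (nat_lit 215) (nat_lit 161)) (XT.nd (nat_lit 94) (nat_lit 1596) (nat_lit 0) (XT.lf (nat_lit 84) (nat_lit 3687182) (nat_lit 0) (nat_lit 8611156135) (nat_lit 1596) (nat_lit 182036874) (nat_lit 381) (nat_lit 5) (nat_lit 380) (nat_lit 5) (nat_lit 399) (nat_lit 5) (nat_lit 225) (nat_lit 215) (nat_lit 160)) (XT.lf (nat_lit 0) (nat_lit 2143096103) (nat_lit 1596) (nat_lit 1118233662) (nat_lit 1680) (nat_lit 5664570471) (nat_lit 361) (nat_lit 5) (nat_lit 380) (nat_lit 5) (nat_lit 381) (nat_lit 5) (nat_lit 226) (nat_lit 215) (nat_lit 159))))) (XT.nd (nat_lit 282) (nat_lit 6468) (nat_lit 0) (XT.nd (nat_lit 94) (nat_lit 1596) (nat_lit 0) (XT.lf (nat_lit 0) (nat_lit 4541555997) (nat_lit 1596) (nat_lit 2207259017) (nat_lit 1680) (nat_lit 2310708904) (nat_lit 362) (nat_lit 5) (nat_lit 381) (nat_lit 5) (nat_lit 382) (nat_lit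 5) (nat_lit 227) (nat_lit 215) (nat_lit 158)) (XT.nd (nat_lit 94) (nat_lit 1596) (nat_lit 0) (XT.lf (nat_lit 84) (nat_lit 5928089759) (nat_lit 0) (nat_lit 1101740460) (nat_lit 1680) (nat_lit 2167865108) (nat_lit 363) (nat_lit 5) (nat_lit 362) (nat_lit 5) (nat_lit 382) (nat_lit 5) (nat_lit 228) (nat_lit 215) (nat_lit 157)) (XT.lf (nat_lit 0) (nat_lit 280252217) (nat_lit 1680) (nat_lit 4317303293) (nat_lit 84) (nat_lit 4742675226) (nat_lit 343) (nat_lit 5) (nat_lit 363) (nat_lit 5) (nat_lit 344) (nat_lit 5) (nat_lit 229) (nat_lit 215) (nat_lit 156)))) (XT.nd (nat_lit 188) (nat_lit 3024) (nat_lit 0) (XT.nd (nat_lit 94) (nat_lit 1764) (nat_lit 0) (XT.lf (nat_lit 0) (nat_lit 2788430203) (nat_lit 1764) (nat_lit 5348394488) (nat_lit 84) (nat_lit 1350431318) (nat_lit 323) (nat_lit 5) (nat_lit 344) (nat_lit 5) (nat_lit 324) (nat_lit 5) (nat_lit 230) (nat_lit 215) (nat_lit 155)) (XT.lf (nat_lit 0) (nat_lit 3275657237)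 (nat_lit 1764) (nat_lit 2135019429) (nat_lit 1848) (nat_lit 4228172289) (nat_lit 302) (nat_lit 5) (nat_lit 323) (nat_lit 5) (nat_lit 324) (nat_lit 5) (nat_lit 231) (nat_lit 215) (nat_lit 154))) (XT.nd (nat_lit 94) (nat_lit 1176) (nat_lit 0) (XT.lf (nat_lit 0) (nat_lit 2438064914) (nat_lit 1848) (nat_lit 5711684875) (nat_lit 1932) (nat_lit 1645446810) (nat_lit 280) (nat_lit 5) (nat_lit 302) (nat_lit 5) (nat_lit 303) (nat_lit 5) (nat_lit 232) (nat_lit 215) (nat_lit 153)) (XT.lf (nat_lit 0) (nat_lit 1032100633) (nat_lit 1176) (nat_lit 8328178495) (nat_lit 84) (nat_lit 596153210) (nat_lit 266) (nat_lit 5) (nat_lit 280) (nat_lit 5) (nat_lit 267) (nat_lit 5) (nat_lit 233) (nat_lit 215) (nat_lit 152))))))) (XT.nd (nat_lit 1128) (nat_lit 672) (nat_lit 0) (XT.nd (nat_lit 564) (nat_lit 4704) (nat_lit 0) (XT.nd (nat_lit 282) (nat_lit 2604) (nat_lit 0) (XT.nd (nat_lit 94) (nat_lit 924) (nat_lit 0) (XT.lf (nat_lit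 0) (nat_lit 819129463) (nat_lit 924) (nat_lit 3004378014) (nat_lit 1008) (nat_lit 6298554128) (nat_lit 255) (nat_lit 5) (nat_lit 266) (nat_lit 5) (nat_lit 267) (nat_lit 5) (nat_lit 234) (nat_lit 215) (nat_lit 151)) (XT.nd (nat_lit 94) (nat_lit 0) (nat_lit 0) (XT.lf (nat_lit 0) (nat_lit 39580052) (nat_lit 924) (nat_lit 6704439390) (nat_lit 1008) (nat_lit 3548777526) (nat_lit 244) (nat_lit 5) (nat_lit 255) (nat_lit 5) (nat_lit 256) (nat_lit 5) (nat_lit 235) (nat_lit 215) (nat_lit 150)) (XT.lf (nat_lit 0) (nat_lit 9772889356) (nat_lit 924) (nat_lit 29896100) (nat_lit 1008) (nat_lit 665929818) (nat_lit 244) (nat_lit 5) (nat_lit 255) (nat_lit 5) (nat_lit 256) (nat_lit 5) (nat_lit 236) (nat_lit 215) (nat_lit 149)))) (XT.nd (nat_lit 94) (nat_lit 1680) (nat_lit 0) (XT.lf (nat_lit 0) (nat_lit 2345937496) (nat_lit 924) (nat_lit 1440210657) (nat_lit 84) (nat_lit 6862926254) (nat_lit 233) (nat_lit 5) (nat_lit 244)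 (nat_lit 5) (nat_lit 234) (nat_lit 5) (nat_lit 237) (nat_lit 215) (nat_lit 148)) (XT.nd (nat_lit 94) (nat_lit 840) (nat_lit 0) (XT.lf (nat_lit 0) (nat_lit 5491177644) (nat_lit 924) (nat_lit 2156552087) (nat_lit 84) (nat_lit 3187074904) (nat_lit 223) (nat_lit 5) (nat_lit 234) (nat_lit 5) (nat_lit 224) (nat_lit 5) (nat_lit 238) (nat_lit 215) (nat_lit 147)) (XT.lf (nat_lit 0) (nat_lit 8182157396) (nat_lit 840) (nat_lit 610191238) (nat_lit 924) (nat_lit 2233678144) (nat_lit 213) (nat_lit 5) (nat_lit 223) (nat_lit 5) (nat_lit 224) (nat_lit 5) (nat_lit 239) (nat_lit 215) (nat_lit 146))))) (XT.nd (nat_lit 282) (nat_lit 2268) (nat_lit 0) (XT.nd (nat_lit 94) (nat_lit 1512) (nat_lit 0) (XT.lf (nat_lit 0) (nat_lit 1040214690) (nat_lit 924) (nat_lit 3528493076) (nat_lit 84) (nat_lit 6653555289) (nat_lit 202) (nat_lit 5) (nat_lit 213) (nat_lit 5) (nat_lit 203) (nat_lit 5) (nat_lit 240) (nat_lit 215) (nat_lit 145))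 (XT.nd (nat_lit 94) (nat_lit 756) (nat_lit 0) (XT.lf (nat_lit 0) (nat_lit 4444168741) (nat_lit 840) (nat_lit 4196102998) (nat_lit 84) (nat_lit 2783660561) (nat_lit 193) (nat_lit 5) (nat_lit 203) (nat_lit 5) (nat_lit 194) (nat_lit 5) (nat_lit 241) (nat_lit 215) (nat_lit 144)) (XT.lf (nat_lit 0) (nat_lit 6792677721) (nat_lit 756) (nat_lit 1235584346) (nat_lit 840) (nat_lit 3603055882) (nat_lit 184) (nat_lit 5) (nat_lit 193) (nat_lit 5) (nat_lit 194) (nat_lit 5) (nat_lit 242) (nat_lit 215) (nat_lit 143)))) (XT.nd (nat_lit 94) (nat_lit 1512) (nat_lit 0) (XT.lf (nat_lit 0) (nat_lit 6376962466) (nat_lit 756) (nat_lit 5437212341) (nat_lit 840) (nat_lit 30107014) (nat_lit 175) (nat_lit 5) (nat_lit 184) (nat_lit 5) (nat_lit 185) (nat_lit 5) (nat_lit 243) (nat_lit 215) (nat_lit 142)) (XT.nd (nat_lit 94) (nat_lit 672) (nat_lit 0) (XT.lf (nat_lit 0) (nat_lit 3674364878) (nat_lit 840) (nat_lit 6087361294) (nat_lit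 84) (nat_lit 2301093874) (nat_lit 165) (nat_lit 5) (nat_lit 175) (nat_lit 5) (nat_lit 166) (nat_lit 5) (nat_lit 244) (nat_lit 215) (nat_lit 141)) (XT.lf (nat_lit 0) (nat_lit 5600749347) (nat_lit 672) (nat_lit 1984008154) (nat_lit 756) (nat_lit 4702557039) (nat_lit 157) (nat_lit 5) (nat_lit 165) (nat_lit 5) (nat_lit 166) (nat_lit 5) (nat_lit 245) (nat_lit 215) (nat_lit 140)))))) (XT.nd (nat_lit 35344) (nat_lit 0) (nat_lit 17724) (XT.nd (nat_lit 35062) (nat_lit 0) (nat_lit 20496) (XT.nd (nat_lit 34874) (nat_lit 0) (nat_lit 20412) (XT.lf (nat_lit 0) (nat_lit 5250949620) (nat_lit 672) (nat_lit 6464157504) (nat_lit 756) (nat_lit 802731164) (nat_lit 149) (nat_lit 5) (nat_lit 157) (nat_lit 5) (nat_lit 158) (nat_lit 5) (nat_lit 246) (nat_lit 215) (nat_lit 139)) (XT.nd (nat_lit 94) (nat_lit 1428) (nat_lit 0) (XT.lf (nat_lit 0) (nat_lit 3396456860) (nat_lit 1428) (nat_lit 279402370) (nat_lit 1428) (nat_lit 279402370)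 (nat_lit 409) (nat_lit 3) (nat_lit 426) (nat_lit 3) (nat_lit 426) (nat_lit 5) (nat_lit 216) (nat_lit 216) (nat_lit 168)) (XT.lf (nat_lit 0) (nat_lit 903588372) (nat_lit 1428) (nat_lit 2202381268) (nat_lit 1512) (nat_lit 4898629624) (nat_lit 392) (nat_lit 5) (nat_lit 409) (nat_lit 3) (nat_lit 410) (nat_lit 5) (nat_lit 217) (nat_lit 216) (nat_lit 167)))) (XT.nd (nat_lit 94) (nat_lit 0) (nat_lit 0) (XT.lf (nat_lit 0) (nat_lit 2933247491) (nat_lit 1428) (nat_lit 3814304735) (nat_lit 1512) (nat_lit 1355238137) (nat_lit 393) (nat_lit 5) (nat_lit 410) (nat_lit 5) (nat_lit 411) (nat_lit 5) (nat_lit 218) (nat_lit 216) (nat_lit 166)) (XT.nd (nat_lit 94) (nat_lit 0) (nat_lit 84) (XT.lf (nat_lit 84) (nat_lit 2804282554) (nat_lit 0) (nat_lit 2201896905) (nat_lit 1512) (nat_lit 3198849525) (nat_lit 394) (nat_lit 5) (nat_lit 393) (nat_lit 5) (nat_lit 411) (nat_lit 5) (nat_lit 219) (nat_lit 216) (nat_lit 165)) (XT.lf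 (nat_lit 84) (nat_lit 1353413166) (nat_lit 0) (nat_lit 5770095865) (nat_lit 1512) (nat_lit 1187956336) (nat_lit 395) (nat_lit 5) (nat_lit 394) (nat_lit 5) (nat_lit 412) (nat_lit 5) (nat_lit 220) (nat_lit 216) (nat_lit 164))))) (XT.nd (nat_lit 282) (nat_lit 1344) (nat_lit 0) (XT.nd (nat_lit 94) (nat_lit 0) (nat_lit 84) (XT.lf (nat_lit 0) (nat_lit 854921918) (nat_lit 1512) (nat_lit 68231426) (nat_lit 1596) (nat_lit 7498895338) (nat_lit 376) (nat_lit 5) (nat_lit 394) (nat_lit 5) (nat_lit 395) (nat_lit 5) (nat_lit 221) (nat_lit 216) (nat_lit 163)) (XT.nd (nat_lit 94) (nat_lit 0) (nat_lit 84) (XT.lf (nat_lit 0) (nat_lit 2952366573) (nat_lit 1512) (nat_lit 1458969419) (nat_lit 1596) (nat_lit 4124956691) (nat_lit 377) (nat_lit 5) (nat_lit 395) (nat_lit 5) (nat_lit 396) (nat_lit 5) (nat_lit 222) (nat_lit 216) (nat_lit 162)) (XT.lf (nat_lit 0) (nat_lit 5100451460) (nat_lit 1512) (nat_lit 2813135385) (nat_lit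 1596) (nat_lit 741449327) (nat_lit 378) (nat_lit 5) (nat_lit 396) (nat_lit 5) (nat_lit 397) (nat_lit 5) (nat_lit 223) (nat_lit 216) (nat_lit 161)))) (XT.nd (nat_lit 188) (nat_lit 0) (nat_lit 0) (XT.nd (nat_lit 94) (nat_lit 1512) (nat_lit 0) (XT.lf (nat_lit 84) (nat_lit 4626331964) (nat_lit 0) (nat_lit 2699205068) (nat_lit 1596) (nat_lit 1452358660) (nat_lit 379) (nat_lit 5) (nat_lit 378) (nat_lit 5) (nat_lit 397) (nat_lit 5) (nat_lit 224) (nat_lit 216) (nat_lit 160)) (XT.lf (nat_lit 0) (nat_lit 705595822) (nat_lit 1596) (nat_lit 5467095391) (nat_lit 1680) (nat_lit 2732414162) (nat_lit 360) (nat_lit 5) (nat_lit 379) (nat_lit 5) (nat_lit 380) (nat_lit 5) (nat_lit 225) (nat_lit 216) (nat_lit 159))) (XT.nd (nat_lit 94) (nat_lit 0) (nat_lit 84) (XT.lf (nat_lit 84) (nat_lit 2270632189) (nat_lit 0) (nat_lit 643412900) (nat_lit 1680) (nat_lit 6122561164) (nat_lit 361) (nat_lit 5) (nat_lit 360) (nat_lit 5) (nat_lit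 380) (nat_lit 5) (nat_lit 226) (nat_lit 216) (nat_lit 158)) (XT.lf (nat_lit 84) (nat_lit 1117880702) (nat_lit 0) (nat_lit 4098675965) (nat_lit 1680) (nat_lit 3955784130) (nat_lit 362) (nat_lit 5) (nat_lit 361) (nat_lit 5) (nat_lit 381) (nat_lit 5) (nat_lit 227) (nat_lit 216) (nat_lit 157))))))))
noncomputable def xc24 : XT := (XT.nd (nat_lit 37130) (nat_lit 0) (nat_lit 672) (XT.nd (nat_lit 1128) (nat_lit 4704) (nat_lit 0) (XT.nd (nat_lit 564) (nat_lit 5544) (nat_lit 0) (XT.nd (nat_lit 282) (nat_lit 5292) (nat_lit 0) (XT.nd (nat_lit 94) (nat_lit 1680) (nat_lit 0) (XT.lf (nat_lit 0) (nat_lit 7600729089) (nat_lit 1596) (nat_lit 1028455) (nat_lit 1680) (nat_lit 1711044901) (nat_lit 362) (nat_lit 5) (nat_lit 381) (nat_lit 5) (nat_lit 382) (nat_lit 5) (nat_lit 228) (nat_lit 216) (nat_lit 156)) (XT.nd (nat_lit 94) (nat_lit 0) (nat_lit 84) (XT.lf (nat_lit 0) (nat_lit 627181173) (nat_lit 1680) (nat_lit 1088069686)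 (nat_lit 1764) (nat_lit 7742266122) (nat_lit 342) (nat_lit 5) (nat_lit 362) (nat_lit 5) (nat_lit 363) (nat_lit 5) (nat_lit 229) (nat_lit 216) (nat_lit 155)) (XT.lf (nat_lit 0) (nat_lit 3044866467) (nat_lit 1680) (nat_lit 2168911907) (nat_lit 84) (nat_lit 4392754720) (nat_lit 343) (nat_lit 5) (nat_lit 363) (nat_lit 5) (nat_lit 344) (nat_lit 5) (nat_lit 230) (nat_lit 216) (nat_lit 154)))) (XT.nd (nat_lit 94) (nat_lit 3696) (nat_lit 0) (XT.lf (nat_lit 0) (nat_lit 5560713540) (nat_lit 1764) (nat_lit 3219458142) (nat_lit 84) (nat_lit 980295145) (nat_lit 323) (nat_lit 5) (nat_lit 344) (nat_lit 5) (nat_lit 324) (nat_lit 5) (nat_lit 231) (nat_lit 216) (nat_lit 153)) (XT.nd (nat_lit 94) (nat_lit 1932) (nat_lit 0) (XT.lf (nat_lit 0) (nat_lit 5660814715) (nat_lit 1764) (nat_lit 2539648893) (nat_lit 1848) (nat_lit 1718535969) (nat_lit 302) (nat_lit 5) (nat_lit 323) (nat_lit 5) (nat_lit 324) (nat_lit 5) (nat_lit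 232) (nat_lit 216) (nat_lit 152)) (XT.lf (nat_lit 0) (nat_lit 866361097) (nat_lit 1932) (nat_lit 5281136959) (nat_lit 84) (nat_lit 3934810183) (nat_lit 279) (nat_lit 5) (nat_lit 302) (nat_lit 5) (nat_lit 280) (nat_lit 5) (nat_lit 233) (nat_lit 216) (nat_lit 151))))) (XT.nd (nat_lit 282) (nat_lit 2604) (nat_lit 0) (XT.nd (nat_lit 94) (nat_lit 1848) (nat_lit 0) (XT.lf (nat_lit 0) (nat_lit 3541824831) (nat_lit 1176) (nat_lit 6288154596) (nat_lit 84) (nat_lit 420508827) (nat_lit 266) (nat_lit 5) (nat_lit 280) (nat_lit 5) (nat_lit 267) (nat_lit 5) (nat_lit 234) (nat_lit 216) (nat_lit 150)) (XT.nd (nat_lit 94) (nat_lit 924) (nat_lit 0) (XT.lf (nat_lit 0) (nat_lit 3133385522) (nat_lit 924) (nat_lit 3230177832) (nat_lit 1008) (nat_lit 4059833278) (nat_lit 255) (nat_lit 5) (nat_lit 266) (nat_lit 5) (nat_lit 267) (nat_lit 5) (nat_lit 235) (nat_lit 216) (nat_lit 149)) (XT.lf (nat_lit 0) (nat_lit 2334269715) (nat_lit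 924) (nat_lit 6986158737) (nat_lit 1008) (nat_lit 1281128307) (nat_lit 244) (nat_lit 5) (nat_lit 255) (nat_lit 5) (nat_lit 256) (nat_lit 5) (nat_lit 236) (nat_lit 216) (nat_lit 148)))) (XT.nd (nat_lit 94) (nat_lit 1680) (nat_lit 0) (XT.lf (nat_lit 0) (nat_lit 1556182114) (nat_lit 840) (nat_lit 53279827) (nat_lit 924) (nat_lit 9175413393) (nat_lit 233) (nat_lit 5) (nat_lit 243) (nat_lit 5) (nat_lit 244) (nat_lit 5) (nat_lit 237) (nat_lit 216) (nat_lit 147)) (XT.nd (nat_lit 94) (nat_lit 840) (nat_lit 0) (XT.lf (nat_lit 0) (nat_lit 774113812) (nat_lit 840) (nat_lit 3875731536) (nat_lit 924) (nat_lit 6323067063) (nat_lit 223) (nat_lit 5) (nat_lit 233) (nat_lit 5) (nat_lit 234) (nat_lit 5) (nat_lit 238) (nat_lit 216) (nat_lit 146)) (XT.lf (nat_lit 0) (nat_lit 24600799) (nat_lit 840) (nat_lit 7816390134) (nat_lit 924) (nat_lit 3325564179) (nat_lit 213) (nat_lit 5) (nat_lit 223) (nat_lit 5) (nat_lit 224) (nat_lit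 5) (nat_lit 239) (nat_lit 216) (nat_lit 145)))))) (XT.nd (nat_lit 564) (nat_lit 672) (nat_lit 0) (XT.nd (nat_lit 282) (nat_lit 2352) (nat_lit 0) (XT.nd (nat_lit 94) (nat_lit 1680) (nat_lit 0) (XT.lf (nat_lit 0) (nat_lit 10680369013) (nat_lit 840) (nat_lit 519956949) (nat_lit 924) (nat_lit 165406360) (nat_lit 213) (nat_lit 5) (nat_lit 223) (nat_lit 5) (nat_lit 224) (nat_lit 5) (nat_lit 240) (nat_lit 216) (nat_lit 144)) (XT.nd (nat_lit 94) (nat_lit 756) (nat_lit 0) (XT.lf (nat_lit 0) (nat_lit 3137267721) (nat_lit 924) (nat_lit 1409090989) (nat_lit 84) (nat_lit 7023349350) (nat_lit 202) (nat_lit 5) (nat_lit 213) (nat_lit 5) (nat_lit 203) (nat_lit 5) (nat_lit 241) (nat_lit 216) (nat_lit 143)) (XT.lf (nat_lit 0) (nat_lit 6607706863) (nat_lit 840) (nat_lit 2101468142) (nat_lit 84) (nat_lit 3070419097) (nat_lit 193) (nat_lit 5) (nat_lit 203) (nat_lit 5) (nat_lit 194) (nat_lit 5) (nat_lit 242) (nat_lit 216)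 (nat_lit 142)))) (XT.nd (nat_lit 94) (nat_lit 1596) (nat_lit 0) (XT.lf (nat_lit 0) (nat_lit 9227769239) (nat_lit 756) (nat_lit 1037223324) (nat_lit 840) (nat_lit 1730395205) (nat_lit 184) (nat_lit 5) (nat_lit 193) (nat_lit 5) (nat_lit 194) (nat_lit 5) (nat_lit 243) (nat_lit 216) (nat_lit 141)) (XT.nd (nat_lit 94) (nat_lit 756) (nat_lit 0) (XT.lf (nat_lit 0) (nat_lit 1890070509) (nat_lit 840) (nat_lit 3435825424) (nat_lit 84) (nat_lit 6890683421) (nat_lit 174) (nat_lit 5) (nat_lit 184) (nat_lit 5) (nat_lit 175) (nat_lit 5) (nat_lit 244) (nat_lit 216) (nat_lit 140)) (XT.lf (nat_lit 0) (nat_lit 5676506962) (nat_lit 840) (nat_lit 4082590492) (nat_lit 84) (nat_lit 2684703430) (nat_lit 165) (nat_lit 5) (nat_lit 175) (nat_lit 5) (nat_lit 166) (nat_lit 5) (nat_lit 245) (nat_lit 216) (nat_lit 139))))) (XT.nd (nat_lit 35156) (nat_lit 0) (nat_lit 18312) (XT.nd (nat_lit 34968) (nat_lit 0) (nat_lit 19740) (XT.lf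 (nat_lit 0) (nat_lit 7970919586) (nat_lit 672) (nat_lit 1704974279) (nat_lit 756) (nat_lit 3001311947) (nat_lit 157) (nat_lit 5) (nat_lit 165) (nat_lit 5) (nat_lit 166) (nat_lit 5) (nat_lit 246) (nat_lit 216) (nat_lit 138)) (XT.nd (nat_lit 94) (nat_lit 0) (nat_lit 0) (XT.lf (nat_lit 0) (nat_lit 700349031) (nat_lit 0) (nat_lit 700349031) (nat_lit 1428) (nat_lit 2649732255) (nat_lit 392) (nat_lit 5) (nat_lit 392) (nat_lit 3) (nat_lit 409) (nat_lit 3) (nat_lit 217) (nat_lit 217) (nat_lit 166)) (XT.lf (nat_lit 0) (nat_lit 4737817204) (nat_lit 1428) (nat_lit 273818959) (nat_lit 1512) (nat_lit 3189466805) (nat_lit 392) (nat_lit 5) (nat_lit 409) (nat_lit 3) (nat_lit 410) (nat_lit 5) (nat_lit 218) (nat_lit 217) (nat_lit 165)))) (XT.nd (nat_lit 94) (nat_lit 1428) (nat_lit 0) (XT.lf (nat_lit 84) (nat_lit 6415083795) (nat_lit 0) (nat_lit 298707859) (nat_lit 1512) (nat_lit 1591683001) (nat_lit 393) (nat_lit 5)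 (nat_lit 392) (nat_lit 5) (nat_lit 410) (nat_lit 5) (nat_lit 219) (nat_lit 217) (nat_lit 164)) (XT.nd (nat_lit 94) (nat_lit 0) (nat_lit 84) (XT.lf (nat_lit 0) (nat_lit 328669569) (nat_lit 1512) (nat_lit 3494723997) (nat_lit 1596) (nat_lit 4590310835) (nat_lit 375) (nat_lit 5) (nat_lit 393) (nat_lit 5) (nat_lit 394) (nat_lit 5) (nat_lit 220) (nat_lit 217) (nat_lit 163)) (XT.lf (nat_lit 0) (nat_lit 2262612221) (nat_lit 1512) (nat_lit 5075138760) (nat_lit 1596) (nat_lit 1188370724) (nat_lit 376) (nat_lit 5) (nat_lit 394) (nat_lit 5) (nat_lit 395) (nat_lit 5) (nat_lit 221) (nat_lit 217) (nat_lit 162))))))) (XT.nd (nat_lit 1128) (nat_lit 11424) (nat_lit 0) (XT.nd (nat_lit 564) (nat_lit 4872) (nat_lit 0) (XT.nd (nat_lit 282) (nat_lit 1428) (nat_lit 0) (XT.nd (nat_lit 94) (nat_lit 0) (nat_lit 84) (XT.lf (nat_lit 84) (nat_lit 2004323509) (nat_lit 0) (nat_lit 2251742693) (nat_lit 1596) (nat_lit 4386587299) (nat_lit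 377) (nat_lit 5) (nat_lit 376) (nat_lit 5) (nat_lit 395) (nat_lit 5) (nat_lit 222) (nat_lit 217) (nat_lit 161)) (XT.nd (nat_lit 94) (nat_lit 0) (nat_lit 0) (XT.lf (nat_lit 84) (nat_lit 584749430) (nat_lit 0) (nat_lit 5723909892) (nat_lit 1596) (nat_lit 2454838486) (nat_lit 378) (nat_lit 5) (nat_lit 377) (nat_lit 5) (nat_lit 396) (nat_lit 5) (nat_lit 223) (nat_lit 217) (nat_lit 160)) (XT.lf (nat_lit 84) (nat_lit 8097301194) (nat_lit 0) (nat_lit 329620712) (nat_lit 1596) (nat_lit 461785529) (nat_lit 378) (nat_lit 5) (nat_lit 377) (nat_lit 5) (nat_lit 396) (nat_lit 5) (nat_lit 224) (nat_lit 217) (nat_lit 159)))) (XT.nd (nat_lit 94) (nat_lit 0) (nat_lit 84) (XT.lf (nat_lit 0) (nat_lit 1594747916) (nat_lit 1596) (nat_lit 2160475657) (nat_lit 1680) (nat_lit 5262455691) (nat_lit 359) (nat_lit 5) (nat_lit 378) (nat_lit 5) (nat_lit 379) (nat_lit 5) (nat_lit 225) (nat_lit 217) (nat_lit 158)) (XT.nd (nat_lit 94)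 (nat_lit 0) (nat_lit 0) (XT.lf (nat_lit 0) (nat_lit 3710960176) (nat_lit 1596) (nat_lit 3502477419) (nat_lit 1680) (nat_lit 1937771761) (nat_lit 360) (nat_lit 5) (nat_lit 379) (nat_lit 5) (nat_lit 380) (nat_lit 5) (nat_lit 226) (nat_lit 217) (nat_lit 157)) (XT.lf (nat_lit 84) (nat_lit 4463604685) (nat_lit 0) (nat_lit 1447359891) (nat_lit 1680) (nat_lit 3378234482) (nat_lit 361) (nat_lit 5) (nat_lit 360) (nat_lit 5) (nat_lit 380) (nat_lit 5) (nat_lit 227) (nat_lit 217) (nat_lit 156))))) (XT.nd (nat_lit 282) (nat_lit 3444) (nat_lit 0) (XT.nd (nat_lit 94) (nat_lit 1596) (nat_lit 0) (XT.lf (nat_lit 84) (nat_lit 3296768005) (nat_lit 0) (nat_lit 4909263905) (nat_lit 1680) (nat_lit 1225589107) (nat_lit 362) (nat_lit 5) (nat_lit 361) (nat_lit 5) (nat_lit 381) (nat_lit 5) (nat_lit 228) (nat_lit 217) (nat_lit 155)) (XT.nd (nat_lit 94) (nat_lit 0) (nat_lit 0) (XT.lf (nat_lit 0) (nat_lit 996131807) (nat_lit 1680)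 (nat_lit 7424320013) (nat_lit 1764) (nat_lit 1158239085) (nat_lit 342) (nat_lit 5) (nat_lit 362) (nat_lit 5) (nat_lit 363) (nat_lit 5) (nat_lit 229) (nat_lit 217) (nat_lit 154)) (XT.lf (nat_lit 84) (nat_lit 1016888796) (nat_lit 0) (nat_lit 2289354985) (nat_lit 1764) (nat_lit 6423829847) (nat_lit 343) (nat_lit 5) (nat_lit 342) (nat_lit 5) (nat_lit 363) (nat_lit 5) (nat_lit 230) (nat_lit 217) (nat_lit 153)))) (XT.nd (nat_lit 94) (nat_lit 3528) (nat_lit 0) (XT.lf (nat_lit 0) (nat_lit 5723077132) (nat_lit 1680) (nat_lit 98218766) (nat_lit 84) (nat_lit 4064889765) (nat_lit 343) (nat_lit 5) (nat_lit 363) (nat_lit 5) (nat_lit 344) (nat_lit 5) (nat_lit 231) (nat_lit 217) (nat_lit 152)) (XT.nd (nat_lit 94) (nat_lit 1848) (nat_lit 0) (XT.lf (nat_lit 0) (nat_lit 8252188643) (nat_lit 1764) (nat_lit 1170006895) (nat_lit 84) (nat_lit 624956924) (nat_lit 323) (nat_lit 5) (nat_lit 344) (nat_lit 5) (nat_lit 324) (nat_lit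 5) (nat_lit 232) (nat_lit 217) (nat_lit 151)) (XT.lf (nat_lit 0) (nat_lit 692119765) (nat_lit 1848) (nat_lit 2239273323) (nat_lit 84) (nat_lit 7281256127) (nat_lit 301) (nat_lit 5) (nat_lit 323) (nat_lit 5) (nat_lit 302) (nat_lit 5) (nat_lit 233) (nat_lit 217) (nat_lit 150)))))) (XT.nd (nat_lit 564) (nat_lit 4872) (nat_lit 0) (XT.nd (nat_lit 282) (nat_lit 2688) (nat_lit 0) (XT.nd (nat_lit 94) (nat_lit 2016) (nat_lit 0) (XT.lf (nat_lit 0) (nat_lit 3272346538) (nat_lit 1932) (nat_lit 3298959367) (nat_lit 84) (nat_lit 3811618539) (nat_lit 279) (nat_lit 5) (nat_lit 302) (nat_lit 5) (nat_lit 280) (nat_lit 5) (nat_lit 234) (nat_lit 217) (nat_lit 149)) (XT.nd (nat_lit 94) (nat_lit 924) (nat_lit 0) (XT.lf (nat_lit 0) (nat_lit 5974921400) (nat_lit 1176) (nat_lit 4331750338) (nat_lit 84) (nat_lit 251782685) (nat_lit 266) (nat_lit 5) (nat_lit 280) (nat_lit 5) (nat_lit 267) (nat_lit 5) (nat_lit 235) (nat_lit 217)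 (nat_lit 148)) (XT.lf (nat_lit 0) (nat_lit 5376673496) (nat_lit 924) (nat_lit 3455858937) (nat_lit 1008) (nat_lit 1906265705) (nat_lit 255) (nat_lit 5) (nat_lit 266) (nat_lit 5) (nat_lit 267) (nat_lit 5) (nat_lit 236) (nat_lit 217) (nat_lit 147)))) (XT.nd (nat_lit 94) (nat_lit 1680) (nat_lit 0) (XT.lf (nat_lit 0) (nat_lit 893794166) (nat_lit 1008) (nat_lit 6374212982) (nat_lit 84) (nat_lit 3656397287) (nat_lit 243) (nat_lit 5) (nat_lit 255) (nat_lit 5) (nat_lit 244) (nat_lit 5) (nat_lit 237) (nat_lit 217) (nat_lit 146)) (XT.nd (nat_lit 94) (nat_lit 840) (nat_lit 0) (XT.lf (nat_lit 0) (nat_lit 3740831279) (nat_lit 840) (nat_lit 66380849) (nat_lit 924) (nat_lit 7308022624) (nat_lit 233) (nat_lit 5) (nat_lit 243) (nat_lit 5) (nat_lit 244) (nat_lit 5) (nat_lit 238) (nat_lit 217) (nat_lit 145)) (XT.lf (nat_lit 0) (nat_lit 2935694235) (nat_lit 840) (nat_lit 3961026702) (nat_lit 924) (nat_lit 4414392526) (nat_lit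 223) (nat_lit 5) (nat_lit 233) (nat_lit 5) (nat_lit 234) (nat_lit 5) (nat_lit 239) (nat_lit 217) (nat_lit 144))))) (XT.nd (nat_lit 282) (nat_lit 2352) (nat_lit 0) (XT.nd (nat_lit 94) (nat_lit 1680) (nat_lit 0) (XT.lf (nat_lit 0) (nat_lit 2162501546) (nat_lit 840) (nat_lit 7982146414) (nat_lit 924) (nat_lit 1368093690) (nat_lit 213) (nat_lit 5) (nat_lit 223) (nat_lit 5) (nat_lit 224) (nat_lit 5) (nat_lit 240) (nat_lit 217) (nat_lit 143)) (XT.nd (nat_lit 94) (nat_lit 756) (nat_lit 0) (XT.lf (nat_lit 0) (nat_lit 1405748523) (nat_lit 840) (nat_lit 410409504) (nat_lit 924) (nat_lit 9903734222) (nat_lit 202) (nat_lit 5) (nat_lit 212) (nat_lit 5) (nat_lit 213) (nat_lit 5) (nat_lit 241) (nat_lit 217) (nat_lit 142)) (XT.lf (nat_lit 0) (nat_lit 644646323) (nat_lit 756) (nat_lit 4530652376) (nat_lit 840) (nat_lit 6756928158) (nat_lit 193) (nat_lit 5) (nat_lit 202) (nat_lit 5) (nat_lit 203) (nat_lit 5) (nat_lit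 242) (nat_lit 217) (nat_lit 141)))) (XT.nd (nat_lit 188) (nat_lit 1512) (nat_lit 0) (XT.nd (nat_lit 94) (nat_lit 840) (nat_lit 0) (XT.lf (nat_lit 0) (nat_lit 8713458822) (nat_lit 840) (nat_lit 82556730) (nat_lit 84) (nat_lit 3354625735) (nat_lit 193) (nat_lit 5) (nat_lit 203) (nat_lit 5) (nat_lit 194) (nat_lit 5) (nat_lit 243) (nat_lit 217) (nat_lit 140)) (XT.lf (nat_lit 0) (nat_lit 73832964) (nat_lit 840) (nat_lit 773605592) (nat_lit 84) (nat_lit 11527610525) (nat_lit 183) (nat_lit 5) (nat_lit 193) (nat_lit 5) (nat_lit 184) (nat_lit 5) (nat_lit 244) (nat_lit 217) (nat_lit 139))) (XT.nd (nat_lit 94) (nat_lit 756) (nat_lit 0) (XT.lf (nat_lit 0) (nat_lit 3749293952) (nat_lit 840) (nat_lit 1481232159) (nat_lit 84) (nat_lit 7374185959) (nat_lit 174) (nat_lit 5) (nat_lit 184) (nat_lit 5) (nat_lit 175) (nat_lit 5) (nat_lit 245) (nat_lit 217) (nat_lit 138)) (XT.lf (nat_lit 0) (nat_lit 7624153702) (nat_lit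 840) (nat_lit 2155114571) (nat_lit 84) (nat_lit 3061588323) (nat_lit 165) (nat_lit 5) (nat_lit 175) (nat_lit 5) (nat_lit 166) (nat_lit 5) (nat_lit 246) (nat_lit 217) (nat_lit 137))))))))
noncomputable def xc25 : XT := (XT.nd (nat_lit 2350) (nat_lit 2352) (nat_lit 0) (XT.nd (nat_lit 1128) (nat_lit 11676) (nat_lit 0) (XT.nd (nat_lit 564) (nat_lit 2772) (nat_lit 0) (XT.nd (nat_lit 282) (nat_lit 0) (nat_lit 84) (XT.nd (nat_lit 94) (nat_lit 1512) (nat_lit 0) (XT.lf (nat_lit 0) (nat_lit 1646647495) (nat_lit 0) (nat_lit 1646647495) (nat_lit 1428) (nat_lit 858341792) (nat_lit 392) (nat_lit 5) (nat_lit 392) (nat_lit 3) (nat_lit 409) (nat_lit 3) (nat_lit 218) (nat_lit 218) (nat_lit 164)) (XT.nd (nat_lit 94) (nat_lit 0) (nat_lit 0) (XT.lf (nat_lit 0) (nat_lit 54307438) (nat_lit 1512) (nat_lit 6798077926) (nat_lit 1596) (nat_lit 1557399979) (nat_lit 374) (nat_lit 5) (nat_lit 392) (nat_lit 5) (nat_lit 393) (nat_lit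 5) (nat_lit 219) (nat_lit 218) (nat_lit 163)) (XT.lf (nat_lit 0) (nat_lit 1844203549) (nat_lit 1512) (nat_lit 58728256) (nat_lit 1596) (nat_lit 6617199536) (nat_lit 374) (nat_lit 5) (nat_lit 392) (nat_lit 5) (nat_lit 393) (nat_lit 5) (nat_lit 220) (nat_lit 218) (nat_lit 162)))) (XT.nd (nat_lit 94) (nat_lit 0) (nat_lit 0) (XT.lf (nat_lit 0) (nat_lit 3693149864) (nat_lit 1512) (nat_lit 1683304703) (nat_lit 1596) (nat_lit 3257963998) (nat_lit 375) (nat_lit 5) (nat_lit 393) (nat_lit 5) (nat_lit 394) (nat_lit 5) (nat_lit 221) (nat_lit 218) (nat_lit 161)) (XT.nd (nat_lit 94) (nat_lit 0) (nat_lit 84) (XT.lf (nat_lit 84) (nat_lit 5476498249) (nat_lit 0) (nat_lit 109510345) (nat_lit 1596) (nat_lit 3167154862) (nat_lit 376) (nat_lit 5) (nat_lit 375) (nat_lit 5) (nat_lit 394) (nat_lit 5) (nat_lit 222) (nat_lit 218) (nat_lit 160)) (XT.lf (nat_lit 84) (nat_lit 4012419752) (nat_lit 0) (nat_lit 3540157049) (nat_lit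 1596) (nat_lit 1323323511) (nat_lit 377) (nat_lit 5) (nat_lit 376) (nat_lit 5) (nat_lit 395) (nat_lit 5) (nat_lit 223) (nat_lit 218) (nat_lit 159))))) (XT.nd (nat_lit 282) (nat_lit 1428) (nat_lit 0) (XT.nd (nat_lit 94) (nat_lit 0) (nat_lit 0) (XT.lf (nat_lit 0) (nat_lit 564878925) (nat_lit 1596) (nat_lit 6425954168) (nat_lit 1680) (nat_lit 2012266386) (nat_lit 358) (nat_lit 5) (nat_lit 377) (nat_lit 5) (nat_lit 378) (nat_lit 5) (nat_lit 224) (nat_lit 218) (nat_lit 158)) (XT.nd (nat_lit 94) (nat_lit 0) (nat_lit 84) (XT.lf (nat_lit 84) (nat_lit 1153524110) (nat_lit 0) (nat_lit 1348886402) (nat_lit 1680) (nat_lit 6632060143) (nat_lit 359) (nat_lit 5) (nat_lit 358) (nat_lit 5) (nat_lit 378) (nat_lit 5) (nat_lit 225) (nat_lit 218) (nat_lit 157)) (XT.lf (nat_lit 0) (nat_lit 4522312225) (nat_lit 1596) (nat_lit 251742409) (nat_lit 1680) (nat_lit 4496064945) (nat_lit 359) (nat_lit 5) (nat_lit 378) (nat_lit 5)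 (nat_lit 379) (nat_lit 5) (nat_lit 226) (nat_lit 218) (nat_lit 156)))) (XT.nd (nat_lit 94) (nat_lit 1596) (nat_lit 0) (XT.lf (nat_lit 0) (nat_lit 6623329721) (nat_lit 1596) (nat_lit 1612446508) (nat_lit 1680) (nat_lit 1174510764) (nat_lit 360) (nat_lit 5) (nat_lit 379) (nat_lit 5) (nat_lit 380) (nat_lit 5) (nat_lit 227) (nat_lit 218) (nat_lit 155)) (XT.nd (nat_lit 94) (nat_lit 1596) (nat_lit 0) (XT.lf (nat_lit 84) (nat_lit 6592806059) (nat_lit 0) (nat_lit 2227488456) (nat_lit 1680) (nat_lit 734572694) (nat_lit 361) (nat_lit 5) (nat_lit 360) (nat_lit 5) (nat_lit 380) (nat_lit 5) (nat_lit 228) (nat_lit 218) (nat_lit 154)) (XT.lf (nat_lit 0) (nat_lit 1389128124) (nat_lit 1680) (nat_lit 4304476444) (nat_lit 1764) (nat_lit 4010256433) (nat_lit 341) (nat_lit 5) (nat_lit 361) (nat_lit 5) (nat_lit 362) (nat_lit 5) (nat_lit 229) (nat_lit 218) (nat_lit 153)))))) (XT.nd (nat_lit 564) (nat_lit 6468) (nat_lit 0)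 (XT.nd (nat_lit 282) (nat_lit 3696) (nat_lit 0) (XT.nd (nat_lit 94) (nat_lit 1596) (nat_lit 0) (XT.lf (nat_lit 0) (nat_lit 3591255095) (nat_lit 1680) (nat_lit 5627751419) (nat_lit 1764) (nat_lit 638612882) (nat_lit 342) (nat_lit 5) (nat_lit 362) (nat_lit 5) (nat_lit 363) (nat_lit 5) (nat_lit 230) (nat_lit 218) (nat_lit 152)) (XT.nd (nat_lit 94) (nat_lit 1596) (nat_lit 0) (XT.lf (nat_lit 84) (nat_lit 3068394520) (nat_lit 0) (nat_lit 2841607509) (nat_lit 1764) (nat_lit 4105887304) (nat_lit 343) (nat_lit 5) (nat_lit 342) (nat_lit 5) (nat_lit 363) (nat_lit 5) (nat_lit 231) (nat_lit 218) (nat_lit 151)) (XT.lf (nat_lit 0) (nat_lit 1930020809) (nat_lit 1680) (nat_lit 6407765790) (nat_lit 1764) (nat_lit 1841298724) (nat_lit 323) (nat_lit 5) (nat_lit 343) (nat_lit 5) (nat_lit 344) (nat_lit 5) (nat_lit 232) (nat_lit 218) (nat_lit 150)))) (XT.nd (nat_lit 94) (nat_lit 1848) (nat_lit 0) (XT.lf (nat_lit 0) (nat_lit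 522653126) (nat_lit 1848) (nat_lit 9531957611) (nat_lit 84) (nat_lit 292702181) (nat_lit 301) (nat_lit 5) (nat_lit 323) (nat_lit 5) (nat_lit 302) (nat_lit 5) (nat_lit 233) (nat_lit 218) (nat_lit 149)) (XT.nd (nat_lit 94) (nat_lit 1848) (nat_lit 0) (XT.lf (nat_lit 0) (nat_lit 2998951040) (nat_lit 1848) (nat_lit 305672797) (nat_lit 84) (nat_lit 7215250745) (nat_lit 301) (nat_lit 5) (nat_lit 323) (nat_lit 5) (nat_lit 302) (nat_lit 5) (nat_lit 234) (nat_lit 218) (nat_lit 148)) (XT.lf (nat_lit 0) (nat_lit 5604585314) (nat_lit 1932) (nat_lit 1391489029) (nat_lit 84) (nat_lit 3701462911) (nat_lit 279) (nat_lit 5) (nat_lit 302) (nat_lit 5) (nat_lit 280) (nat_lit 5) (nat_lit 235) (nat_lit 218) (nat_lit 147))))) (XT.nd (nat_lit 282) (nat_lit 3444) (nat_lit 0) (XT.nd (nat_lit 94) (nat_lit 1932) (nat_lit 0) (XT.lf (nat_lit 0) (nat_lit 8339643733) (nat_lit 1176) (nat_lit 2451585204) (nat_lit 84) (nat_lit 89348189)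 (nat_lit 266) (nat_lit 5) (nat_lit 280) (nat_lit 5) (nat_lit 267) (nat_lit 5) (nat_lit 236) (nat_lit 218) (nat_lit 146)) (XT.nd (nat_lit 94) (nat_lit 924) (nat_lit 0) (XT.lf (nat_lit 0) (nat_lit 167590676) (nat_lit 1008) (nat_lit 3513121974) (nat_lit 84) (nat_lit 7387785128) (nat_lit 254) (nat_lit 5) (nat_lit 266) (nat_lit 5) (nat_lit 255) (nat_lit 5) (nat_lit 237) (nat_lit 218) (nat_lit 145)) (XT.lf (nat_lit 0) (nat_lit 2979420174) (nat_lit 1008) (nat_lit 4568806689) (nat_lit 84) (nat_lit 3713336177) (nat_lit 243) (nat_lit 5) (nat_lit 255) (nat_lit 5) (nat_lit 244) (nat_lit 5) (nat_lit 238) (nat_lit 218) (nat_lit 144)))) (XT.nd (nat_lit 188) (nat_lit 1764) (nat_lit 0) (XT.nd (nat_lit 94) (nat_lit 840) (nat_lit 0) (XT.lf (nat_lit 0) (nat_lit 5860308803) (nat_lit 840) (nat_lit 79193318) (nat_lit 924) (nat_lit 5520787021) (nat_lit 233) (nat_lit 5) (nat_lit 243) (nat_lit 5) (nat_lit 244) (nat_lit 5) (nat_lit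 239) (nat_lit 218) (nat_lit 143)) (XT.lf (nat_lit 0) (nat_lit 5031009465) (nat_lit 840) (nat_lit 4052655296) (nat_lit 924) (nat_lit 2580535384) (nat_lit 223) (nat_lit 5) (nat_lit 233) (nat_lit 5) (nat_lit 234) (nat_lit 5) (nat_lit 240) (nat_lit 218) (nat_lit 142))) (XT.nd (nat_lit 94) (nat_lit 840) (nat_lit 0) (XT.lf (nat_lit 0) (nat_lit 512508786) (nat_lit 924) (nat_lit 7644578518) (nat_lit 84) (nat_lit 3716844197) (nat_lit 212) (nat_lit 5) (nat_lit 223) (nat_lit 5) (nat_lit 213) (nat_lit 5) (nat_lit 241) (nat_lit 218) (nat_lit 141)) (XT.lf (nat_lit 0) (nat_lit 3437939738) (nat_lit 840) (nat_lit 299475484) (nat_lit 924) (nat_lit 8351804040) (nat_lit 202) (nat_lit 5) (nat_lit 212) (nat_lit 5) (nat_lit 213) (nat_lit 5) (nat_lit 242) (nat_lit 218) (nat_lit 140))))))) (XT.nd (nat_lit 36284) (nat_lit 0) (nat_lit 4956) (XT.nd (nat_lit 35720) (nat_lit 0) (nat_lit 15372) (XT.nd (nat_lit 35438) (nat_lit 0)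 (nat_lit 16716) (XT.nd (nat_lit 94) (nat_lit 1596) (nat_lit 0) (XT.lf (nat_lit 0) (nat_lit 2650329393) (nat_lit 756) (nat_lit 4515964515) (nat_lit 840) (nat_lit 5143743974) (nat_lit 193) (nat_lit 5) (nat_lit 202) (nat_lit 5) (nat_lit 203) (nat_lit 5) (nat_lit 243) (nat_lit 218) (nat_lit 139)) (XT.nd (nat_lit 94) (nat_lit 840) (nat_lit 0) (XT.lf (nat_lit 0) (nat_lit 1895186920) (nat_lit 756) (nat_lit 8886592034) (nat_lit 840) (nat_lit 1755341099) (nat_lit 184) (nat_lit 5) (nat_lit 193) (nat_lit 5) (nat_lit 194) (nat_lit 5) (nat_lit 244) (nat_lit 218) (nat_lit 138)) (XT.lf (nat_lit 0) (nat_lit 1155916362) (nat_lit 756) (nat_lit 645457523) (nat_lit 840) (nat_lit 10968852865) (nat_lit 174) (nat_lit 5) (nat_lit 183) (nat_lit 5) (nat_lit 184) (nat_lit 5) (nat_lit 245) (nat_lit 218) (nat_lit 137)))) (XT.nd (nat_lit 94) (nat_lit 0) (nat_lit 84) (XT.lf (nat_lit 0) (nat_lit 857935200) (nat_lit 1596) (nat_lit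 1700505287) (nat_lit 1596) (nat_lit 1700505287) (nat_lit 373) (nat_lit 3) (nat_lit 392) (nat_lit 3) (nat_lit 392) (nat_lit 5) (nat_lit 219) (nat_lit 219) (nat_lit 162)) (XT.nd (nat_lit 94) (nat_lit 0) (nat_lit 0) (XT.lf (nat_lit 0) (nat_lit 3406805077) (nat_lit 1512) (nat_lit 5213700003) (nat_lit 1596) (nat_lit 9909619) (nat_lit 374) (nat_lit 5) (nat_lit 392) (nat_lit 5) (nat_lit 393) (nat_lit 5) (nat_lit 220) (nat_lit 219) (nat_lit 161)) (XT.lf (nat_lit 84) (nat_lit 1724744686) (nat_lit 0) (nat_lit 3433583420) (nat_lit 1596) (nat_lit 3588517129) (nat_lit 375) (nat_lit 5) (nat_lit 374) (nat_lit 5) (nat_lit 393) (nat_lit 5) (nat_lit 221) (nat_lit 219) (nat_lit 160))))) (XT.nd (nat_lit 282) (nat_lit 0) (nat_lit 84) (XT.nd (nat_lit 94) (nat_lit 1512) (nat_lit 0) (XT.lf (nat_lit 84) (nat_lit 63861412) (nat_lit 0) (nat_lit 6889043374) (nat_lit 1596) (nat_lit 1914847546) (nat_lit 376) (nat_lit 5) (nat_lit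 375) (nat_lit 5) (nat_lit 394) (nat_lit 5) (nat_lit 222) (nat_lit 219) (nat_lit 159)) (XT.nd (nat_lit 94) (nat_lit 1512) (nat_lit 0) (XT.lf (nat_lit 84) (nat_lit 7437781491) (nat_lit 0) (nat_lit 1380535744) (nat_lit 1596) (nat_lit 174397378) (nat_lit 376) (nat_lit 5) (nat_lit 375) (nat_lit 5) (nat_lit 394) (nat_lit 5) (nat_lit 223) (nat_lit 219) (nat_lit 158)) (XT.lf (nat_lit 0) (nat_lit 1609747790) (nat_lit 1596) (nat_lit 3171602303) (nat_lit 1680) (nat_lit 4340308837) (nat_lit 357) (nat_lit 5) (nat_lit 376) (nat_lit 5) (nat_lit 377) (nat_lit 5) (nat_lit 224) (nat_lit 219) (nat_lit 157)))) (XT.nd (nat_lit 94) (nat_lit 0) (nat_lit 0) (XT.lf (nat_lit 0) (nat_lit 3449633009) (nat_lit 1596) (nat_lit 4764282258) (nat_lit 1680) (nat_lit 1041263059) (nat_lit 358) (nat_lit 5) (nat_lit 377) (nat_lit 5) (nat_lit 378) (nat_lit 5) (nat_lit 225) (nat_lit 219) (nat_lit 156)) (XT.nd (nat_lit 94) (nat_lit 0) (nat_lit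 84) (XT.lf (nat_lit 84) (nat_lit 3043317899) (nat_lit 0) (nat_lit 2327950667) (nat_lit 1680) (nat_lit 4021720541) (nat_lit 359) (nat_lit 5) (nat_lit 358) (nat_lit 5) (nat_lit 378) (nat_lit 5) (nat_lit 226) (nat_lit 219) (nat_lit 155)) (XT.lf (nat_lit 84) (nat_lit 1615121355) (nat_lit 0) (nat_lit 5757784297) (nat_lit 1680) (nat_lit 2162437238) (nat_lit 360) (nat_lit 5) (nat_lit 359) (nat_lit 5) (nat_lit 379) (nat_lit 5) (nat_lit 227) (nat_lit 219) (nat_lit 154)))))) (XT.nd (nat_lit 564) (nat_lit 7476) (nat_lit 0) (XT.nd (nat_lit 282) (nat_lit 1512) (nat_lit 0) (XT.nd (nat_lit 94) (nat_lit 1680) (nat_lit 0) (XT.lf (nat_lit 84) (nat_lit 212985618) (nat_lit 0) (nat_lit 9241158187) (nat_lit 1680) (nat_lit 228325287) (nat_lit 361) (nat_lit 5) (nat_lit 360) (nat_lit 5) (nat_lit 380) (nat_lit 5) (nat_lit 228) (nat_lit 219) (nat_lit 153)) (XT.nd (nat_lit 94) (nat_lit 0) (nat_lit 84) (XT.lf (nat_lit 0) (nat_lit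 1791795754) (nat_lit 1680) (nat_lit 1181388951) (nat_lit 1764) (nat_lit 6860317185) (nat_lit 340) (nat_lit 5) (nat_lit 360) (nat_lit 5) (nat_lit 361) (nat_lit 5) (nat_lit 229) (nat_lit 219) (nat_lit 152)) (XT.lf (nat_lit 0) (nat_lit 3901602200) (nat_lit 1680) (nat_lit 2554448662) (nat_lit 1764) (nat_lit 3533240474) (nat_lit 341) (nat_lit 5) (nat_lit 361) (nat_lit 5) (nat_lit 362) (nat_lit 5) (nat_lit 230) (nat_lit 219) (nat_lit 151)))) (XT.nd (nat_lit 94) (nat_lit 1680) (nat_lit 0) (XT.lf (nat_lit 0) (nat_lit 6106977892) (nat_lit 1680) (nat_lit 3905032836) (nat_lit 1764) (nat_lit 138044711) (nat_lit 342) (nat_lit 5) (nat_lit 362) (nat_lit 5) (nat_lit 363) (nat_lit 5) (nat_lit 231) (nat_lit 219) (nat_lit 150)) (XT.nd (nat_lit 94) (nat_lit 1680) (nat_lit 0) (XT.lf (nat_lit 84) (nat_lit 5057666193) (nat_lit 0) (nat_lit 3381797603) (nat_lit 1764) (nat_lit 1875884205) (nat_lit 343) (nat_lit 5) (nat_lit 342)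 (nat_lit 5) (nat_lit 363) (nat_lit 5) (nat_lit 232) (nat_lit 219) (nat_lit 149)) (XT.lf (nat_lit 0) (nat_lit 392673388) (nat_lit 1764) (nat_lit 6593040293) (nat_lit 84) (nat_lit 3499976967) (nat_lit 322) (nat_lit 5) (nat_lit 343) (nat_lit 5) (nat_lit 323) (nat_lit 5) (nat_lit 233) (nat_lit 219) (nat_lit 148))))) (XT.nd (nat_lit 282) (nat_lit 2772) (nat_lit 0) (XT.nd (nat_lit 94) (nat_lit 2940) (nat_lit 0) (XT.lf (nat_lit 0) (nat_lit 2739258753) (nat_lit 1764) (nat_lit 7155675) (nat_lit 1848) (nat_lit 7914534136) (nat_lit 301) (nat_lit 5) (nat_lit 322) (nat_lit 5) (nat_lit 323) (nat_lit 5) (nat_lit 234) (nat_lit 219) (nat_lit 147)) (XT.nd (nat_lit 94) (nat_lit 1092) (nat_lit 0) (XT.lf (nat_lit 0) (nat_lit 1584652978) (nat_lit 1848) (nat_lit 3661387341) (nat_lit 1932) (nat_lit 5594903101) (nat_lit 279) (nat_lit 5) (nat_lit 301) (nat_lit 5) (nat_lit 302) (nat_lit 5) (nat_lit 235) (nat_lit 219) (nat_lit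 146)) (XT.lf (nat_lit 0) (nat_lit 454789731) (nat_lit 1092) (nat_lit 7419448528) (nat_lit 1176) (nat_lit 3152095965) (nat_lit 266) (nat_lit 5) (nat_lit 279) (nat_lit 5) (nat_lit 280) (nat_lit 5) (nat_lit 236) (nat_lit 219) (nat_lit 145)))) (XT.nd (nat_lit 188) (nat_lit 1764) (nat_lit 0) (XT.nd (nat_lit 94) (nat_lit 1008) (nat_lit 0) (XT.lf (nat_lit 0) (nat_lit 10575923848) (nat_lit 1092) (nat_lit 68370176) (nat_lit 1176) (nat_lit 572822522) (nat_lit 266) (nat_lit 5) (nat_lit 279) (nat_lit 5) (nat_lit 280) (nat_lit 5) (nat_lit 237) (nat_lit 219) (nat_lit 144)) (XT.lf (nat_lit 0) (nat_lit 2145178834) (nat_lit 1008) (nat_lit 1747941035) (nat_lit 84) (nat_lit 7519397436) (nat_lit 254) (nat_lit 5) (nat_lit 266) (nat_lit 5) (nat_lit 255) (nat_lit 5) (nat_lit 238) (nat_lit 219) (nat_lit 143))) (XT.nd (nat_lit 94) (nat_lit 840) (nat_lit 0) (XT.lf (nat_lit 0) (nat_lit 5001451251) (nat_lit 1008) (nat_lit 2835084969)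 (nat_lit 84) (nat_lit 3776990997) (nat_lit 243) (nat_lit 5) (nat_lit 255) (nat_lit 5) (nat_lit 244) (nat_lit 5) (nat_lit 239) (nat_lit 219) (nat_lit 142)) (XT.lf (nat_lit 0) (nat_lit 7921750848) (nat_lit 840) (nat_lit 91756808) (nat_lit 924) (nat_lit 3806836901) (nat_lit 233) (nat_lit 5) (nat_lit 243) (nat_lit 5) (nat_lit 244) (nat_lit 5) (nat_lit 240) (nat_lit 219) (nat_lit 141))))))))
noncomputable def xc26 : XT := (XT.nd (nat_lit 37506) (nat_lit 0) (nat_lit 756) (XT.nd (nat_lit 36378) (nat_lit 0) (nat_lit 5880) (XT.nd (nat_lit 35814) (nat_lit 0) (nat_lit 14448) (XT.nd (nat_lit 282) (nat_lit 1512) (nat_lit 0) (XT.nd (nat_lit 94) (nat_lit 1764) (nat_lit 0) (XT.lf (nat_lit 0) (nat_lit 7067176415) (nat_lit 840) (nat_lit 4150616376) (nat_lit 924) (nat_lit 814697965) (nat_lit 223) (nat_lit 5) (nat_lit 233) (nat_lit 5) (nat_lit 234) (nat_lit 5) (nat_lit 241) (nat_lit 219) (nat_lit 140)) (XT.nd (nat_lit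 94) (nat_lit 840) (nat_lit 0) (XT.lf (nat_lit 0) (nat_lit 2311670128) (nat_lit 924) (nat_lit 6023801907) (nat_lit 84) (nat_lit 3914860151) (nat_lit 212) (nat_lit 5) (nat_lit 223) (nat_lit 5) (nat_lit 213) (nat_lit 5) (nat_lit 242) (nat_lit 219) (nat_lit 139)) (XT.lf (nat_lit 0) (nat_lit 5409410029) (nat_lit 840) (nat_lit 192989772) (nat_lit 924) (nat_lit 6871790284) (nat_lit 202) (nat_lit 5) (nat_lit 212) (nat_lit 5) (nat_lit 213) (nat_lit 5) (nat_lit 243) (nat_lit 219) (nat_lit 138)))) (XT.nd (nat_lit 94) (nat_lit 756) (nat_lit 0) (XT.lf (nat_lit 0) (nat_lit 4594355081) (nat_lit 756) (nat_lit 4512282562) (nat_lit 840) (nat_lit 3597082050) (nat_lit 193) (nat_lit 5) (nat_lit 202) (nat_lit 5) (nat_lit 203) (nat_lit 5) (nat_lit 244) (nat_lit 219) (nat_lit 137)) (XT.nd (nat_lit 35344) (nat_lit 0) (nat_lit 15876) (XT.lf (nat_lit 0) (nat_lit 3811626346) (nat_lit 756) (nat_lit 8994196587) (nat_lit 840) (nat_lit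 133869324) (nat_lit 184) (nat_lit 5) (nat_lit 193) (nat_lit 5) (nat_lit 194) (nat_lit 5) (nat_lit 245) (nat_lit 219) (nat_lit 136)) (XT.lf (nat_lit 0) (nat_lit 2506225578) (nat_lit 1596) (nat_lit 933090760) (nat_lit 1596) (nat_lit 933090760) (nat_lit 373) (nat_lit 3) (nat_lit 392) (nat_lit 3) (nat_lit 392) (nat_lit 5) (nat_lit 220) (nat_lit 220) (nat_lit 160))))) (XT.nd (nat_lit 282) (nat_lit 0) (nat_lit 0) (XT.nd (nat_lit 94) (nat_lit 1428) (nat_lit 0) (XT.lf (nat_lit 84) (nat_lit 5157663822) (nat_lit 0) (nat_lit 1506931700) (nat_lit 1596) (nat_lit 2198835541) (nat_lit 374) (nat_lit 5) (nat_lit 373) (nat_lit 3) (nat_lit 392) (nat_lit 5) (nat_lit 221) (nat_lit 220) (nat_lit 159)) (XT.nd (nat_lit 94) (nat_lit 1512) (nat_lit 0) (XT.lf (nat_lit 84) (nat_lit 3452749860) (nat_lit 0) (nat_lit 4920045130) (nat_lit 1596) (nat_lit 613443469) (nat_lit 375) (nat_lit 5) (nat_lit 374) (nat_lit 5) (nat_lit 393) (nat_lit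 5) (nat_lit 222) (nat_lit 220) (nat_lit 158)) (XT.lf (nat_lit 0) (nat_lit 1002142788) (nat_lit 1596) (nat_lit 7344955557) (nat_lit 1680) (nat_lit 766315673) (nat_lit 356) (nat_lit 5) (nat_lit 375) (nat_lit 5) (nat_lit 376) (nat_lit 5) (nat_lit 223) (nat_lit 220) (nat_lit 157)))) (XT.nd (nat_lit 94) (nat_lit 0) (nat_lit 84) (XT.lf (nat_lit 84) (nat_lit 86856574) (nat_lit 0) (nat_lit 2591382181) (nat_lit 1680) (nat_lit 6566414072) (nat_lit 357) (nat_lit 5) (nat_lit 356) (nat_lit 5) (nat_lit 376) (nat_lit 5) (nat_lit 224) (nat_lit 220) (nat_lit 156)) (XT.nd (nat_lit 94) (nat_lit 0) (nat_lit 84) (XT.lf (nat_lit 0) (nat_lit 4428963663) (nat_lit 1596) (nat_lit 1553425617) (nat_lit 1680) (nat_lit 3397744469) (nat_lit 357) (nat_lit 5) (nat_lit 376) (nat_lit 5) (nat_lit 377) (nat_lit 5) (nat_lit 225) (nat_lit 220) (nat_lit 155)) (XT.lf (nat_lit 0) (nat_lit 6244862752) (nat_lit 1596) (nat_lit 3169889235) (nat_lit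 1680) (nat_lit 105518744) (nat_lit 358) (nat_lit 5) (nat_lit 377) (nat_lit 5) (nat_lit 378) (nat_lit 5) (nat_lit 226) (nat_lit 220) (nat_lit 154)))))) (XT.nd (nat_lit 564) (nat_lit 7140) (nat_lit 0) (XT.nd (nat_lit 282) (nat_lit 0) (nat_lit 84) (XT.nd (nat_lit 94) (nat_lit 1596) (nat_lit 0) (XT.lf (nat_lit 84) (nat_lit 4876287799) (nat_lit 0) (nat_lit 3279323913) (nat_lit 1680) (nat_lit 1509012341) (nat_lit 359) (nat_lit 5) (nat_lit 358) (nat_lit 5) (nat_lit 378) (nat_lit 5) (nat_lit 227) (nat_lit 220) (nat_lit 153)) (XT.nd (nat_lit 94) (nat_lit 0) (nat_lit 0) (XT.lf (nat_lit 0) (nat_lit 327483480) (nat_lit 1680) (nat_lit 6389947870) (nat_lit 1764) (nat_lit 3096265141) (nat_lit 339) (nat_lit 5) (nat_lit 359) (nat_lit 5) (nat_lit 360) (nat_lit 5) (nat_lit 228) (nat_lit 220) (nat_lit 152)) (XT.lf (nat_lit 84) (nat_lit 1981772723) (nat_lit 0) (nat_lit 242235957) (nat_lit 1764) (nat_lit 7743331587) (nat_lit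 340) (nat_lit 5) (nat_lit 339) (nat_lit 5) (nat_lit 360) (nat_lit 5) (nat_lit 229) (nat_lit 220) (nat_lit 151)))) (XT.nd (nat_lit 94) (nat_lit 0) (nat_lit 84) (XT.lf (nat_lit 84) (nat_lit 539026142) (nat_lit 0) (nat_lit 3691492255) (nat_lit 1764) (nat_lit 5894883844) (nat_lit 341) (nat_lit 5) (nat_lit 340) (nat_lit 5) (nat_lit 361) (nat_lit 5) (nat_lit 230) (nat_lit 220) (nat_lit 150)) (XT.nd (nat_lit 94) (nat_lit 0) (nat_lit 0) (XT.lf (nat_lit 0) (nat_lit 6338192901) (nat_lit 1680) (nat_lit 869545085) (nat_lit 1764) (nat_lit 3080577784) (nat_lit 341) (nat_lit 5) (nat_lit 361) (nat_lit 5) (nat_lit 362) (nat_lit 5) (nat_lit 231) (nat_lit 220) (nat_lit 149)) (XT.lf (nat_lit 84) (nat_lit 8204014542) (nat_lit 0) (nat_lit 350320515) (nat_lit 1764) (nat_lit 1901832838) (nat_lit 342) (nat_lit 5) (nat_lit 341) (nat_lit 5) (nat_lit 362) (nat_lit 5) (nat_lit 232) (nat_lit 220) (nat_lit 148))))) (XT.nd (nat_lit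 282) (nat_lit 3948) (nat_lit 0) (XT.nd (nat_lit 94) (nat_lit 1680) (nat_lit 0) (XT.lf (nat_lit 0) (nat_lit 270391333) (nat_lit 1764) (nat_lit 3639201734) (nat_lit 1848) (nat_lit 6719049099) (nat_lit 321) (nat_lit 5) (nat_lit 342) (nat_lit 5) (nat_lit 343) (nat_lit 5) (nat_lit 233) (nat_lit 220) (nat_lit 147)) (XT.nd (nat_lit 94) (nat_lit 1764) (nat_lit 0) (XT.lf (nat_lit 0) (nat_lit 2526390618) (nat_lit 1764) (nat_lit 5021032191) (nat_lit 84) (nat_lit 3258627591) (nat_lit 322) (nat_lit 5) (nat_lit 343) (nat_lit 5) (nat_lit 323) (nat_lit 5) (nat_lit 234) (nat_lit 220) (nat_lit 146)) (XT.lf (nat_lit 0) (nat_lit 4602388375) (nat_lit 1764) (nat_lit 301022867) (nat_lit 1848) (nat_lit 6085331330) (nat_lit 301) (nat_lit 5) (nat_lit 322) (nat_lit 5) (nat_lit 323) (nat_lit 5) (nat_lit 235) (nat_lit 220) (nat_lit 145)))) (XT.nd (nat_lit 94) (nat_lit 2100) (nat_lit 0) (XT.lf (nat_lit 0) (nat_lit 3419058323) (nat_lit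 1848) (nat_lit 4012425436) (nat_lit 1932) (nat_lit 3744852376) (nat_lit 279) (nat_lit 5) (nat_lit 301) (nat_lit 5) (nat_lit 302) (nat_lit 5) (nat_lit 236) (nat_lit 220) (nat_lit 144)) (XT.nd (nat_lit 94) (nat_lit 1008) (nat_lit 0) (XT.lf (nat_lit 0) (nat_lit 2259339405) (nat_lit 1092) (nat_lit 7835841262) (nat_lit 1176) (nat_lit 1274277685) (nat_lit 266) (nat_lit 5) (nat_lit 279) (nat_lit 5) (nat_lit 280) (nat_lit 5) (nat_lit 237) (nat_lit 220) (nat_lit 143)) (XT.lf (nat_lit 0) (nat_lit 1112425291) (nat_lit 924) (nat_lit 204409280) (nat_lit 1008) (nat_lit 10251148297) (nat_lit 254) (nat_lit 5) (nat_lit 265) (nat_lit 5) (nat_lit 266) (nat_lit 5) (nat_lit 238) (nat_lit 220) (nat_lit 142))))))) (XT.nd (nat_lit 36472) (nat_lit 0) (nat_lit 6048) (XT.nd (nat_lit 564) (nat_lit 756) (nat_lit 0) (XT.nd (nat_lit 282) (nat_lit 2604) (nat_lit 0) (XT.nd (nat_lit 94) (nat_lit 1764) (nat_lit 0) (XT.lf (nat_lit 0)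 (nat_lit 4060884130) (nat_lit 1008) (nat_lit 46519884) (nat_lit 84) (nat_lit 7664057668) (nat_lit 254) (nat_lit 5) (nat_lit 266) (nat_lit 5) (nat_lit 255) (nat_lit 5) (nat_lit 239) (nat_lit 220) (nat_lit 141)) (XT.nd (nat_lit 94) (nat_lit 840) (nat_lit 0) (XT.lf (nat_lit 0) (nat_lit 6966743470) (nat_lit 1008) (nat_lit 1166589119) (nat_lit 84) (nat_lit 3847282770) (nat_lit 243) (nat_lit 5) (nat_lit 255) (nat_lit 5) (nat_lit 244) (nat_lit 5) (nat_lit 240) (nat_lit 220) (nat_lit 140)) (XT.lf (nat_lit 0) (nat_lit 9931917201) (nat_lit 840) (nat_lit 104108974) (nat_lit 924) (nat_lit 2159705434) (nat_lit 233) (nat_lit 5) (nat_lit 243) (nat_lit 5) (nat_lit 244) (nat_lit 5) (nat_lit 241) (nat_lit 220) (nat_lit 139)))) (XT.nd (nat_lit 94) (nat_lit 1680) (nat_lit 0) (XT.lf (nat_lit 0) (nat_lit 876717188) (nat_lit 924) (nat_lit 3371730854) (nat_lit 84) (nat_lit 8167740769) (nat_lit 222) (nat_lit 5) (nat_lit 233)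 (nat_lit 5) (nat_lit 223) (nat_lit 5) (nat_lit 242) (nat_lit 220) (nat_lit 138)) (XT.nd (nat_lit 94) (nat_lit 840) (nat_lit 0) (XT.lf (nat_lit 0) (nat_lit 4055369811) (nat_lit 924) (nat_lit 4471852310) (nat_lit 84) (nat_lit 4115290284) (nat_lit 212) (nat_lit 5) (nat_lit 223) (nat_lit 5) (nat_lit 213) (nat_lit 5) (nat_lit 243) (nat_lit 220) (nat_lit 137)) (XT.lf (nat_lit 0) (nat_lit 7326800618) (nat_lit 840) (nat_lit 90554138) (nat_lit 924) (nat_lit 5457816821) (nat_lit 202) (nat_lit 5) (nat_lit 212) (nat_lit 5) (nat_lit 213) (nat_lit 5) (nat_lit 244) (nat_lit 220) (nat_lit 136))))) (XT.nd (nat_lit 35626) (nat_lit 0) (nat_lit 13608) (XT.nd (nat_lit 35438) (nat_lit 0) (nat_lit 13524) (XT.lf (nat_lit 0) (nat_lit 6483332410) (nat_lit 756) (nat_lit 4519225767) (nat_lit 840) (nat_lit 2111093564) (nat_lit 193) (nat_lit 5) (nat_lit 202) (nat_lit 5) (nat_lit 203) (nat_lit 5) (nat_lit 245) (nat_lit 220) (nat_lit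 135)) (XT.nd (nat_lit 94) (nat_lit 1596) (nat_lit 0) (XT.lf (nat_lit 0) (nat_lit 4104608969) (nat_lit 1596) (nat_lit 193798869) (nat_lit 1596) (nat_lit 193798869) (nat_lit 373) (nat_lit 3) (nat_lit 392) (nat_lit 3) (nat_lit 392) (nat_lit 5) (nat_lit 221) (nat_lit 221) (nat_lit 158)) (XT.lf (nat_lit 0) (nat_lit 708255044) (nat_lit 1596) (nat_lit 2262639154) (nat_lit 1680) (nat_lit 6138185630) (nat_lit 354) (nat_lit 5) (nat_lit 373) (nat_lit 3) (nat_lit 374) (nat_lit 5) (nat_lit 222) (nat_lit 221) (nat_lit 157)))) (XT.nd (nat_lit 94) (nat_lit 0) (nat_lit 0) (XT.lf (nat_lit 0) (nat_lit 2227050896) (nat_lit 1596) (nat_lit 4124188945) (nat_lit 1680) (nat_lit 2886854420) (nat_lit 355) (nat_lit 5) (nat_lit 374) (nat_lit 5) (nat_lit 375) (nat_lit 5) (nat_lit 223) (nat_lit 221) (nat_lit 156)) (XT.nd (nat_lit 94) (nat_lit 0) (nat_lit 84) (XT.lf (nat_lit 84) (nat_lit 3403177437) (nat_lit 0) (nat_lit 395817871)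 (nat_lit 1680) (nat_lit 5572629095) (nat_lit 356) (nat_lit 5) (nat_lit 355) (nat_lit 5) (nat_lit 375) (nat_lit 5) (nat_lit 224) (nat_lit 221) (nat_lit 155)) (XT.lf (nat_lit 84) (nat_lit 1694065988) (nat_lit 0) (nat_lit 3754997922) (nat_lit 1680) (nat_lit 4060255856) (nat_lit 357) (nat_lit 5) (nat_lit 356) (nat_lit 5) (nat_lit 376) (nat_lit 5) (nat_lit 225) (nat_lit 221) (nat_lit 154)))))) (XT.nd (nat_lit 564) (nat_lit 6132) (nat_lit 0) (XT.nd (nat_lit 282) (nat_lit 0) (nat_lit 84) (XT.nd (nat_lit 94) (nat_lit 1596) (nat_lit 0) (XT.lf (nat_lit 84) (nat_lit 6508849) (nat_lit 0) (nat_lit 7156688003) (nat_lit 1680) (nat_lit 2488498751) (nat_lit 358) (nat_lit 5) (nat_lit 357) (nat_lit 5) (nat_lit 377) (nat_lit 5) (nat_lit 226) (nat_lit 221) (nat_lit 153)) (XT.nd (nat_lit 94) (nat_lit 1596) (nat_lit 0) (XT.lf (nat_lit 84) (nat_lit 8155867129) (nat_lit 0) (nat_lit 810003111) (nat_lit 1680) (nat_lit 832556347)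 (nat_lit 358) (nat_lit 5) (nat_lit 357) (nat_lit 5) (nat_lit 377) (nat_lit 5) (nat_lit 227) (nat_lit 221) (nat_lit 152)) (XT.lf (nat_lit 0) (nat_lit 902031403) (nat_lit 1680) (nat_lit 3297462407) (nat_lit 1764) (nat_lit 5749926836) (nat_lit 338) (nat_lit 5) (nat_lit 358) (nat_lit 5) (nat_lit 359) (nat_lit 5) (nat_lit 228) (nat_lit 221) (nat_lit 151)))) (XT.nd (nat_lit 94) (nat_lit 0) (nat_lit 0) (XT.lf (nat_lit 0) (nat_lit 2703873343) (nat_lit 1680) (nat_lit 4941175458) (nat_lit 1764) (nat_lit 2460098653) (nat_lit 339) (nat_lit 5) (nat_lit 359) (nat_lit 5) (nat_lit 360) (nat_lit 5) (nat_lit 229) (nat_lit 221) (nat_lit 150)) (XT.nd (nat_lit 94) (nat_lit 0) (nat_lit 84) (XT.lf (nat_lit 84) (nat_lit 3690613787) (nat_lit 0) (nat_lit 907868125) (nat_lit 1764) (nat_lit 5667189340) (nat_lit 340) (nat_lit 5) (nat_lit 339) (nat_lit 5) (nat_lit 360) (nat_lit 5) (nat_lit 230) (nat_lit 221) (nat_lit 149)) (XT.lf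 (nat_lit 84) (nat_lit 2219197932) (nat_lit 0) (nat_lit 4385668729) (nat_lit 1764) (nat_lit 3825946495) (nat_lit 341) (nat_lit 5) (nat_lit 340) (nat_lit 5) (nat_lit 361) (nat_lit 5) (nat_lit 231) (nat_lit 221) (nat_lit 148))))) (XT.nd (nat_lit 282) (nat_lit 4620) (nat_lit 0) (XT.nd (nat_lit 94) (nat_lit 1764) (nat_lit 0) (XT.lf (nat_lit 84) (nat_lit 767410691) (nat_lit 0) (nat_lit 7945192342) (nat_lit 1764) (nat_lit 1888447176) (nat_lit 342) (nat_lit 5) (nat_lit 341) (nat_lit 5) (nat_lit 362) (nat_lit 5) (nat_lit 232) (nat_lit 221) (nat_lit 147)) (XT.nd (nat_lit 94) (nat_lit 0) (nat_lit 84) (XT.lf (nat_lit 0) (nat_lit 161206175) (nat_lit 1764) (nat_lit 662538438) (nat_lit 1848) (nat_lit 9952470085) (nat_lit 320) (nat_lit 5) (nat_lit 341) (nat_lit 5) (nat_lit 342) (nat_lit 5) (nat_lit 233) (nat_lit 221) (nat_lit 146)) (XT.lf (nat_lit 0) (nat_lit 2318611712) (nat_lit 1764) (nat_lit 2096832246) (nat_lit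 1848) (nat_lit 6540348036) (nat_lit 321) (nat_lit 5) (nat_lit 342) (nat_lit 5) (nat_lit 343) (nat_lit 5) (nat_lit 234) (nat_lit 221) (nat_lit 145)))) (XT.nd (nat_lit 188) (nat_lit 3024) (nat_lit 0) (XT.nd (nat_lit 94) (nat_lit 1764) (nat_lit 0) (XT.lf (nat_lit 0) (nat_lit 4593832388) (nat_lit 1764) (nat_lit 3513868355) (nat_lit 84) (nat_lit 3033023023) (nat_lit 322) (nat_lit 5) (nat_lit 343) (nat_lit 5) (nat_lit 323) (nat_lit 5) (nat_lit 235) (nat_lit 221) (nat_lit 144)) (XT.lf (nat_lit 0) (nat_lit 6413223950) (nat_lit 1764) (nat_lit 585653039) (nat_lit 1848) (nat_lit 4332146954) (nat_lit 301) (nat_lit 5) (nat_lit 322) (nat_lit 5) (nat_lit 323) (nat_lit 5) (nat_lit 236) (nat_lit 221) (nat_lit 143))) (XT.nd (nat_lit 94) (nat_lit 1176) (nat_lit 0) (XT.lf (nat_lit 0) (nat_lit 5199387215) (nat_lit 1848) (nat_lit 4360930094) (nat_lit 1932) (nat_lit 1966078495) (nat_lit 279) (nat_lit 5) (nat_lit 301) (nat_lit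 5) (nat_lit 302) (nat_lit 5) (nat_lit 237) (nat_lit 221) (nat_lit 142)) (XT.lf (nat_lit 0) (nat_lit 529338512) (nat_lit 1176) (nat_lit 7723139685) (nat_lit 84) (nat_lit 3474875043) (nat_lit 265) (nat_lit 5) (nat_lit 279) (nat_lit 5) (nat_lit 266) (nat_lit 5) (nat_lit 238) (nat_lit 221) (nat_lit 141))))))))
noncomputable def xc27 : XT := (XT.nd (nat_lit 37788) (nat_lit 0) (nat_lit 840) (XT.nd (nat_lit 36566) (nat_lit 0) (nat_lit 5292) (XT.nd (nat_lit 564) (nat_lit 840) (nat_lit 0) (XT.nd (nat_lit 282) (nat_lit 1764) (nat_lit 0) (XT.nd (nat_lit 94) (nat_lit 1764) (nat_lit 0) (XT.lf (nat_lit 0) (nat_lit 2814384273) (nat_lit 924) (nat_lit 327747827) (nat_lit 1008) (nat_lit 8791587585) (nat_lit 254) (nat_lit 5) (nat_lit 265) (nat_lit 5) (nat_lit 266) (nat_lit 5) (nat_lit 239) (nat_lit 221) (nat_lit 140)) (XT.nd (nat_lit 94) (nat_lit 840) (nat_lit 0) (XT.lf (nat_lit 0) (nat_lit 1620598809) (nat_lit 924) (nat_lit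 4312202407) (nat_lit 1008) (nat_lit 6212606330) (nat_lit 243) (nat_lit 5) (nat_lit 254) (nat_lit 5) (nat_lit 255) (nat_lit 5) (nat_lit 240) (nat_lit 221) (nat_lit 139)) (XT.lf (nat_lit 0) (nat_lit 449239851) (nat_lit 840) (nat_lit 8435749208) (nat_lit 924) (nat_lit 3478110826) (nat_lit 233) (nat_lit 5) (nat_lit 243) (nat_lit 5) (nat_lit 244) (nat_lit 5) (nat_lit 241) (nat_lit 221) (nat_lit 138)))) (XT.nd (nat_lit 94) (nat_lit 1764) (nat_lit 0) (XT.lf (nat_lit 0) (nat_lit 11897219731) (nat_lit 840) (nat_lit 116285710) (nat_lit 924) (nat_lit 573299971) (nat_lit 233) (nat_lit 5) (nat_lit 243) (nat_lit 5) (nat_lit 244) (nat_lit 5) (nat_lit 242) (nat_lit 221) (nat_lit 137)) (XT.nd (nat_lit 94) (nat_lit 840) (nat_lit 0) (XT.lf (nat_lit 0) (nat_lit 2501637525) (nat_lit 924) (nat_lit 1845490143) (nat_lit 84) (nat_lit 8468554576) (nat_lit 222) (nat_lit 5) (nat_lit 233) (nat_lit 5) (nat_lit 223) (nat_lit 5) (nat_lit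 243) (nat_lit 221) (nat_lit 136)) (XT.lf (nat_lit 0) (nat_lit 5749541160) (nat_lit 924) (nat_lit 2982790662) (nat_lit 84) (nat_lit 4318519383) (nat_lit 212) (nat_lit 5) (nat_lit 223) (nat_lit 5) (nat_lit 213) (nat_lit 5) (nat_lit 244) (nat_lit 221) (nat_lit 135))))) (XT.nd (nat_lit 35720) (nat_lit 0) (nat_lit 12852) (XT.nd (nat_lit 35532) (nat_lit 0) (nat_lit 12768) (XT.lf (nat_lit 0) (nat_lit 9188253997) (nat_lit 924) (nat_lit 4096211611) (nat_lit 84) (nat_lit 8088554) (nat_lit 202) (nat_lit 5) (nat_lit 213) (nat_lit 5) (nat_lit 203) (nat_lit 5) (nat_lit 245) (nat_lit 221) (nat_lit 134)) (XT.nd (nat_lit 94) (nat_lit 0) (nat_lit 0) (XT.lf (nat_lit 0) (nat_lit 516283304) (nat_lit 0) (nat_lit 516283304) (nat_lit 1596) (nat_lit 3585515251) (nat_lit 354) (nat_lit 5) (nat_lit 354) (nat_lit 3) (nat_lit 373) (nat_lit 3) (nat_lit 222) (nat_lit 222) (nat_lit 156)) (XT.lf (nat_lit 0) (nat_lit 3488087161) (nat_lit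 1596) (nat_lit 888711108) (nat_lit 1680) (nat_lit 4990488402) (nat_lit 354) (nat_lit 5) (nat_lit 373) (nat_lit 3) (nat_lit 374) (nat_lit 5) (nat_lit 223) (nat_lit 222) (nat_lit 155)))) (XT.nd (nat_lit 94) (nat_lit 0) (nat_lit 0) (XT.lf (nat_lit 0) (nat_lit 4968135771) (nat_lit 1596) (nat_lit 2776366206) (nat_lit 1680) (nat_lit 1758336545) (nat_lit 355) (nat_lit 5) (nat_lit 374) (nat_lit 5) (nat_lit 375) (nat_lit 5) (nat_lit 224) (nat_lit 222) (nat_lit 154)) (XT.nd (nat_lit 94) (nat_lit 0) (nat_lit 84) (XT.lf (nat_lit 84) (nat_lit 4985066828) (nat_lit 0) (nat_lit 1530393315) (nat_lit 1680) (nat_lit 3127334115) (nat_lit 356) (nat_lit 5) (nat_lit 355) (nat_lit 5) (nat_lit 375) (nat_lit 5) (nat_lit 225) (nat_lit 222) (nat_lit 153)) (XT.lf (nat_lit 84) (nat_lit 3250867629) (nat_lit 0) (nat_lit 4888002689) (nat_lit 1680) (nat_lit 1648295677) (nat_lit 357) (nat_lit 5) (nat_lit 356) (nat_lit 5) (nat_lit 376)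 (nat_lit 5) (nat_lit 226) (nat_lit 222) (nat_lit 152)))))) (XT.nd (nat_lit 564) (nat_lit 6048) (nat_lit 0) (XT.nd (nat_lit 282) (nat_lit 0) (nat_lit 168) (XT.nd (nat_lit 94) (nat_lit 1680) (nat_lit 0) (XT.lf (nat_lit 84) (nat_lit 1535640625) (nat_lit 0) (nat_lit 8296844544) (nat_lit 1680) (nat_lit 103811098) (nat_lit 358) (nat_lit 5) (nat_lit 357) (nat_lit 5) (nat_lit 377) (nat_lit 5) (nat_lit 227) (nat_lit 222) (nat_lit 151)) (XT.nd (nat_lit 94) (nat_lit 0) (nat_lit 84) (XT.lf (nat_lit 0) (nat_lit 1504515860) (nat_lit 1680) (nat_lit 182311422) (nat_lit 1764) (nat_lit 8402895661) (nat_lit 337) (nat_lit 5) (nat_lit 357) (nat_lit 5) (nat_lit 358) (nat_lit 5) (nat_lit 228) (nat_lit 222) (nat_lit 150)) (XT.lf (nat_lit 0) (nat_lit 3212641813) (nat_lit 1680) (nat_lit 1875063748) (nat_lit 1764) (nat_lit 5159805943) (nat_lit 338) (nat_lit 5) (nat_lit 358) (nat_lit 5) (nat_lit 359) (nat_lit 5) (nat_lit 229)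 (nat_lit 222) (nat_lit 149)))) (XT.nd (nat_lit 94) (nat_lit 0) (nat_lit 0) (XT.lf (nat_lit 0) (nat_lit 5006194448) (nat_lit 1680) (nat_lit 3552894084) (nat_lit 1764) (nat_lit 1851170000) (nat_lit 339) (nat_lit 5) (nat_lit 359) (nat_lit 5) (nat_lit 360) (nat_lit 5) (nat_lit 230) (nat_lit 222) (nat_lit 148)) (XT.nd (nat_lit 94) (nat_lit 0) (nat_lit 84) (XT.lf (nat_lit 84) (nat_lit 5350256477) (nat_lit 0) (nat_lit 1553103716) (nat_lit 1764) (nat_lit 3674443063) (nat_lit 340) (nat_lit 5) (nat_lit 339) (nat_lit 5) (nat_lit 360) (nat_lit 5) (nat_lit 231) (nat_lit 222) (nat_lit 147)) (XT.lf (nat_lit 84) (nat_lit 3847716671) (nat_lit 0) (nat_lit 5066576638) (nat_lit 1764) (nat_lit 1835876669) (nat_lit 341) (nat_lit 5) (nat_lit 340) (nat_lit 5) (nat_lit 361) (nat_lit 5) (nat_lit 232) (nat_lit 222) (nat_lit 146))))) (XT.nd (nat_lit 282) (nat_lit 4620) (nat_lit 0) (XT.nd (nat_lit 94) (nat_lit 0) (nat_lit 0) (XT.lf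 (nat_lit 0) (nat_lit 103803962) (nat_lit 1764) (nat_lit 8565421838) (nat_lit 1848) (nat_lit 2258503171) (nat_lit 320) (nat_lit 5) (nat_lit 341) (nat_lit 5) (nat_lit 342) (nat_lit 5) (nat_lit 233) (nat_lit 222) (nat_lit 145)) (XT.nd (nat_lit 94) (nat_lit 0) (nat_lit 84) (XT.lf (nat_lit 84) (nat_lit 871239104) (nat_lit 0) (nat_lit 1263356539) (nat_lit 1848) (nat_lit 8975496131) (nat_lit 321) (nat_lit 5) (nat_lit 320) (nat_lit 5) (nat_lit 342) (nat_lit 5) (nat_lit 234) (nat_lit 222) (nat_lit 144)) (XT.lf (nat_lit 0) (nat_lit 4302964302) (nat_lit 1764) (nat_lit 611499773) (nat_lit 1848) (nat_lit 6382910214) (nat_lit 321) (nat_lit 5) (nat_lit 342) (nat_lit 5) (nat_lit 343) (nat_lit 5) (nat_lit 235) (nat_lit 222) (nat_lit 143)))) (XT.nd (nat_lit 188) (nat_lit 3024) (nat_lit 0) (XT.nd (nat_lit 94) (nat_lit 1764) (nat_lit 0) (XT.lf (nat_lit 0) (nat_lit 6602051092) (nat_lit 1764) (nat_lit 2065848625) (nat_lit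 84) (nat_lit 2822105820) (nat_lit 322) (nat_lit 5) (nat_lit 343) (nat_lit 5) (nat_lit 323) (nat_lit 5) (nat_lit 236) (nat_lit 222) (nat_lit 142)) (XT.lf (nat_lit 0) (nat_lit 8177747916) (nat_lit 1764) (nat_lit 862020924) (nat_lit 1848) (nat_lit 2648330455) (nat_lit 301) (nat_lit 5) (nat_lit 322) (nat_lit 5) (nat_lit 323) (nat_lit 5) (nat_lit 237) (nat_lit 222) (nat_lit 141))) (XT.nd (nat_lit 94) (nat_lit 1176) (nat_lit 0) (XT.lf (nat_lit 0) (nat_lit 6931611375) (nat_lit 1848) (nat_lit 4707798003) (nat_lit 1932) (nat_lit 252031699) (nat_lit 279) (nat_lit 5) (nat_lit 301) (nat_lit 5) (nat_lit 302) (nat_lit 5) (nat_lit 238) (nat_lit 222) (nat_lit 140)) (XT.lf (nat_lit 0) (nat_lit 2255461695) (nat_lit 1176) (nat_lit 6409805848) (nat_lit 84) (nat_lit 3434975941) (nat_lit 265) (nat_lit 5) (nat_lit 279) (nat_lit 5) (nat_lit 266) (nat_lit 5) (nat_lit 239) (nat_lit 222) (nat_lit 139))))))) (XT.nd (nat_lit 36660)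 (nat_lit 0) (nat_lit 3528) (XT.nd (nat_lit 36096) (nat_lit 0) (nat_lit 10416) (XT.nd (nat_lit 282) (nat_lit 1764) (nat_lit 0) (XT.nd (nat_lit 94) (nat_lit 1764) (nat_lit 0) (XT.lf (nat_lit 0) (nat_lit 4465338512) (nat_lit 924) (nat_lit 447678217) (nat_lit 1008) (nat_lit 7401843125) (nat_lit 254) (nat_lit 5) (nat_lit 265) (nat_lit 5) (nat_lit 266) (nat_lit 5) (nat_lit 240) (nat_lit 222) (nat_lit 138)) (XT.nd (nat_lit 94) (nat_lit 840) (nat_lit 0) (XT.lf (nat_lit 0) (nat_lit 3235769682) (nat_lit 924) (nat_lit 4519778294) (nat_lit 1008) (nat_lit 4779416662) (nat_lit 243) (nat_lit 5) (nat_lit 254) (nat_lit 5) (nat_lit 255) (nat_lit 5) (nat_lit 241) (nat_lit 222) (nat_lit 137)) (XT.lf (nat_lit 0) (nat_lit 2027944336) (nat_lit 840) (nat_lit 8739244799) (nat_lit 924) (nat_lit 1994052286) (nat_lit 233) (nat_lit 5) (nat_lit 243) (nat_lit 5) (nat_lit 244) (nat_lit 5) (nat_lit 242) (nat_lit 222) (nat_lit 136))))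 (XT.nd (nat_lit 94) (nat_lit 840) (nat_lit 0) (XT.lf (nat_lit 0) (nat_lit 835005290) (nat_lit 840) (nat_lit 115267391) (nat_lit 924) (nat_lit 12043391888) (nat_lit 222) (nat_lit 5) (nat_lit 232) (nat_lit 5) (nat_lit 233) (nat_lit 5) (nat_lit 243) (nat_lit 222) (nat_lit 135)) (XT.nd (nat_lit 94) (nat_lit 840) (nat_lit 0) (XT.lf (nat_lit 0) (nat_lit 4077430490) (nat_lit 924) (nat_lit 375156124) (nat_lit 84) (nat_lit 8778903325) (nat_lit 222) (nat_lit 5) (nat_lit 233) (nat_lit 5) (nat_lit 223) (nat_lit 5) (nat_lit 244) (nat_lit 222) (nat_lit 134)) (XT.lf (nat_lit 0) (nat_lit 7399801593) (nat_lit 924) (nat_lit 1551025083) (nat_lit 84) (nat_lit 4524925737) (nat_lit 212) (nat_lit 5) (nat_lit 223) (nat_lit 5) (nat_lit 213) (nat_lit 5) (nat_lit 245) (nat_lit 222) (nat_lit 133))))) (XT.nd (nat_lit 282) (nat_lit 1512) (nat_lit 0) (XT.nd (nat_lit 94) (nat_lit 0) (nat_lit 0) (XT.lf (nat_lit 0) (nat_lit 1202201208)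 (nat_lit 0) (nat_lit 1202201208) (nat_lit 1596) (nat_lit 2345926995) (nat_lit 354) (nat_lit 5) (nat_lit 354) (nat_lit 3) (nat_lit 373) (nat_lit 3) (nat_lit 223) (nat_lit 223) (nat_lit 154)) (XT.nd (nat_lit 94) (nat_lit 0) (nat_lit 84) (XT.lf (nat_lit 84) (nat_lit 443069064) (nat_lit 0) (nat_lit 5742119531) (nat_lit 1680) (nat_lit 3453302706) (nat_lit 355) (nat_lit 5) (nat_lit 354) (nat_lit 5) (nat_lit 374) (nat_lit 5) (nat_lit 224) (nat_lit 223) (nat_lit 153)) (XT.lf (nat_lit 0) (nat_lit 7628088431) (nat_lit 1596) (nat_lit 1480582966) (nat_lit 1680) (nat_lit 672072979) (nat_lit 355) (nat_lit 5) (nat_lit 374) (nat_lit 5) (nat_lit 375) (nat_lit 5) (nat_lit 225) (nat_lit 223) (nat_lit 152)))) (XT.nd (nat_lit 94) (nat_lit 1596) (nat_lit 0) (XT.lf (nat_lit 84) (nat_lit 6525063250) (nat_lit 0) (nat_lit 2630162890) (nat_lit 1680) (nat_lit 772007969) (nat_lit 356) (nat_lit 5) (nat_lit 355) (nat_lit 5) (nat_lit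 375) (nat_lit 5) (nat_lit 226) (nat_lit 223) (nat_lit 151)) (XT.nd (nat_lit 94) (nat_lit 0) (nat_lit 84) (XT.lf (nat_lit 0) (nat_lit 668495667) (nat_lit 1680) (nat_lit 5320634882) (nat_lit 1764) (nat_lit 4089155582) (nat_lit 336) (nat_lit 5) (nat_lit 356) (nat_lit 5) (nat_lit 357) (nat_lit 5) (nat_lit 227) (nat_lit 223) (nat_lit 150)) (XT.lf (nat_lit 0) (nat_lit 2168306454) (nat_lit 1680) (nat_lit 7233430577) (nat_lit 1764) (nat_lit 832313969) (nat_lit 337) (nat_lit 5) (nat_lit 357) (nat_lit 5) (nat_lit 358) (nat_lit 5) (nat_lit 228) (nat_lit 223) (nat_lit 149)))))) (XT.nd (nat_lit 564) (nat_lit 5460) (nat_lit 0) (XT.nd (nat_lit 282) (nat_lit 1512) (nat_lit 0) (XT.nd (nat_lit 94) (nat_lit 0) (nat_lit 84) (XT.lf (nat_lit 84) (nat_lit 1240265811) (nat_lit 0) (nat_lit 2523040780) (nat_lit 1764) (nat_lit 6631021737) (nat_lit 338) (nat_lit 5) (nat_lit 337) (nat_lit 5) (nat_lit 358) (nat_lit 5) (nat_lit 229)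 (nat_lit 223) (nat_lit 148)) (XT.nd (nat_lit 94) (nat_lit 0) (nat_lit 84) (XT.lf (nat_lit 0) (nat_lit 5452591859) (nat_lit 1680) (nat_lit 505129036) (nat_lit 1764) (nat_lit 4601648344) (nat_lit 338) (nat_lit 5) (nat_lit 358) (nat_lit 5) (nat_lit 359) (nat_lit 5) (nat_lit 230) (nat_lit 223) (nat_lit 147)) (XT.lf (nat_lit 0) (nat_lit 7242309327) (nat_lit 1680) (nat_lit 2219827454) (nat_lit 1764) (nat_lit 1267141042) (nat_lit 339) (nat_lit 5) (nat_lit 359) (nat_lit 5) (nat_lit 360) (nat_lit 5) (nat_lit 231) (nat_lit 223) (nat_lit 146)))) (XT.nd (nat_lit 94) (nat_lit 1680) (nat_lit 0) (XT.lf (nat_lit 84) (nat_lit 6966226702) (nat_lit 0) (nat_lit 2180134013) (nat_lit 1764) (nat_lit 1757635231) (nat_lit 340) (nat_lit 5) (nat_lit 339) (nat_lit 5) (nat_lit 360) (nat_lit 5) (nat_lit 232) (nat_lit 223) (nat_lit 145)) (XT.nd (nat_lit 94) (nat_lit 0) (nat_lit 84) (XT.lf (nat_lit 0) (nat_lit 81433748) (nat_lit 1764)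 (nat_lit 5654213990) (nat_lit 1848) (nat_lit 5348083602) (nat_lit 319) (nat_lit 5) (nat_lit 340) (nat_lit 5) (nat_lit 341) (nat_lit 5) (nat_lit 233) (nat_lit 223) (nat_lit 144)) (XT.lf (nat_lit 0) (nat_lit 2002645999) (nat_lit 1764) (nat_lit 7373020519) (nat_lit 1848) (nat_lit 1892838372) (nat_lit 320) (nat_lit 5) (nat_lit 341) (nat_lit 5) (nat_lit 342) (nat_lit 5) (nat_lit 234) (nat_lit 223) (nat_lit 143))))) (XT.nd (nat_lit 282) (nat_lit 5544) (nat_lit 0) (XT.nd (nat_lit 94) (nat_lit 0) (nat_lit 84) (XT.lf (nat_lit 84) (nat_lit 2364531957) (nat_lit 0) (nat_lit 1686314107) (nat_lit 1848) (nat_lit 7407585050) (nat_lit 321) (nat_lit 5) (nat_lit 320) (nat_lit 5) (nat_lit 342) (nat_lit 5) (nat_lit 235) (nat_lit 223) (nat_lit 142)) (XT.nd (nat_lit 94) (nat_lit 0) (nat_lit 84) (XT.lf (nat_lit 84) (nat_lit 834196108) (nat_lit 0) (nat_lit 5401972785) (nat_lit 1848) (nat_lit 5417396277) (nat_lit 322) (nat_lit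 5) (nat_lit 321) (nat_lit 5) (nat_lit 343) (nat_lit 5) (nat_lit 236) (nat_lit 223) (nat_lit 141)) (XT.lf (nat_lit 0) (nat_lit 8557722821) (nat_lit 1764) (nat_lit 671603234) (nat_lit 84) (nat_lit 2624888477) (nat_lit 322) (nat_lit 5) (nat_lit 343) (nat_lit 5) (nat_lit 323) (nat_lit 5) (nat_lit 237) (nat_lit 223) (nat_lit 140)))) (XT.nd (nat_lit 188) (nat_lit 2016) (nat_lit 0) (XT.nd (nat_lit 94) (nat_lit 1932) (nat_lit 0) (XT.lf (nat_lit 0) (nat_lit 9901632635) (nat_lit 1764) (nat_lit 1131049067) (nat_lit 1848) (nat_lit 1027617608) (nat_lit 301) (nat_lit 5) (nat_lit 322) (nat_lit 5) (nat_lit 323) (nat_lit 5) (nat_lit 238) (nat_lit 223) (nat_lit 139)) (XT.lf (nat_lit 0) (nat_lit 1383251279) (nat_lit 1932) (nat_lit 3660423280) (nat_lit 84) (nat_lit 7227920200) (nat_lit 278) (nat_lit 5) (nat_lit 301) (nat_lit 5) (nat_lit 279) (nat_lit 5) (nat_lit 239) (nat_lit 223) (nat_lit 138))) (XT.nd (nat_lit 94) (nat_lit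 924) (nat_lit 0) (XT.lf (nat_lit 0) (nat_lit 3928462305) (nat_lit 1176) (nat_lit 5155800689) (nat_lit 84) (nat_lit 3404419704) (nat_lit 265) (nat_lit 5) (nat_lit 279) (nat_lit 5) (nat_lit 266) (nat_lit 5) (nat_lit 240) (nat_lit 223) (nat_lit 137)) (XT.lf (nat_lit 0) (nat_lit 6070854784) (nat_lit 924) (nat_lit 564594792) (nat_lit 1008) (nat_lit 6076319873) (nat_lit 254) (nat_lit 5) (nat_lit 265) (nat_lit 5) (nat_lit 266) (nat_lit 5) (nat_lit 241) (nat_lit 223) (nat_lit 136))))))))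
noncomputable def xc28 : XT := (XT.nd (nat_lit 37882) (nat_lit 0) (nat_lit 840) (XT.nd (nat_lit 36754) (nat_lit 0) (nat_lit 2604) (XT.nd (nat_lit 36190) (nat_lit 0) (nat_lit 10248) (XT.nd (nat_lit 282) (nat_lit 840) (nat_lit 0) (XT.nd (nat_lit 94) (nat_lit 1764) (nat_lit 0) (XT.lf (nat_lit 0) (nat_lit 4803851292) (nat_lit 924) (nat_lit 4730852798) (nat_lit 1008) (nat_lit 3405814647) (nat_lit 243) (nat_lit 5) (nat_lit 254) (nat_lit 5) (nat_lit 255) (nat_lit 5) (nat_lit 242) (nat_lit 223) (nat_lit 135)) (XT.nd (nat_lit 94) (nat_lit 924) (nat_lit 0) (XT.lf (nat_lit 0) (nat_lit 3557981960) (nat_lit 840) (nat_lit 9052814573) (nat_lit 924) (nat_lit 564819711) (nat_lit 233) (nat_lit 5) (nat_lit 243) (nat_lit 5) (nat_lit 244) (nat_lit 5) (nat_lit 243) (nat_lit 223) (nat_lit 134)) (XT.lf (nat_lit 0) (nat_lit 2315716489) (nat_lit 840) (nat_lit 105627171) (nat_lit 924) (nat_lit 10995467318) (nat_lit 222) (nat_lit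 5) (nat_lit 232) (nat_lit 5) (nat_lit 233) (nat_lit 5) (nat_lit 244) (nat_lit 223) (nat_lit 133)))) (XT.nd (nat_lit 35720) (nat_lit 0) (nat_lit 11928) (XT.lf (nat_lit 0) (nat_lit 1059848612) (nat_lit 840) (nat_lit 4557125401) (nat_lit 924) (nat_lit 8046887737) (nat_lit 212) (nat_lit 5) (nat_lit 222) (nat_lit 5) (nat_lit 223) (nat_lit 5) (nat_lit 245) (nat_lit 223) (nat_lit 132)) (XT.nd (nat_lit 94) (nat_lit 0) (nat_lit 0) (XT.lf (nat_lit 0) (nat_lit 1867721495) (nat_lit 0) (nat_lit 1867721495) (nat_lit 1596) (nat_lit 1153716449) (nat_lit 354) (nat_lit 5) (nat_lit 354) (nat_lit 3) (nat_lit 373) (nat_lit 3) (nat_lit 224) (nat_lit 224) (nat_lit 152)) (XT.lf (nat_lit 84) (nat_lit 1743392413) (nat_lit 0) (nat_lit 7068290805) (nat_lit 1680) (nat_lit 1111134992) (nat_lit 355) (nat_lit 5) (nat_lit 354) (nat_lit 5) (nat_lit 374) (nat_lit 5) (nat_lit 225) (nat_lit 224) (nat_lit 151))))) (XT.nd (nat_lit 282) (nat_lit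 0) (nat_lit 252) (XT.nd (nat_lit 94) (nat_lit 0) (nat_lit 84) (XT.lf (nat_lit 0) (nat_lit 144493935) (nat_lit 1680) (nat_lit 235824996) (nat_lit 1764) (nat_lit 9691611795) (nat_lit 334) (nat_lit 5) (nat_lit 354) (nat_lit 5) (nat_lit 355) (nat_lit 5) (nat_lit 226) (nat_lit 224) (nat_lit 150)) (XT.nd (nat_lit 94) (nat_lit 0) (nat_lit 84) (XT.lf (nat_lit 0) (nat_lit 1480241156) (nat_lit 1680) (nat_lit 2207688196) (nat_lit 1764) (nat_lit 6536992428) (nat_lit 335) (nat_lit 5) (nat_lit 355) (nat_lit 5) (nat_lit 356) (nat_lit 5) (nat_lit 227) (nat_lit 224) (nat_lit 149)) (XT.lf (nat_lit 0) (nat_lit 2885559206) (nat_lit 1680) (nat_lit 4169806729) (nat_lit 1764) (nat_lit 3327399554) (nat_lit 336) (nat_lit 5) (nat_lit 356) (nat_lit 5) (nat_lit 357) (nat_lit 5) (nat_lit 228) (nat_lit 224) (nat_lit 148)))) (XT.nd (nat_lit 94) (nat_lit 0) (nat_lit 0) (XT.lf (nat_lit 0) (nat_lit 4367190387) (nat_lit 1680) (nat_lit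 6123224455) (nat_lit 1764) (nat_lit 55122092) (nat_lit 337) (nat_lit 5) (nat_lit 357) (nat_lit 5) (nat_lit 358) (nat_lit 5) (nat_lit 229) (nat_lit 224) (nat_lit 147)) (XT.nd (nat_lit 94) (nat_lit 0) (nat_lit 84) (XT.lf (nat_lit 84) (nat_lit 2620196966) (nat_lit 0) (nat_lit 3335546882) (nat_lit 1764) (nat_lit 4757050097) (nat_lit 338) (nat_lit 5) (nat_lit 337) (nat_lit 5) (nat_lit 358) (nat_lit 5) (nat_lit 230) (nat_lit 224) (nat_lit 146)) (XT.lf (nat_lit 84) (nat_lit 829247689) (nat_lit 0) (nat_lit 6806142906) (nat_lit 1764) (nat_lit 3249733492) (nat_lit 339) (nat_lit 5) (nat_lit 338) (nat_lit 5) (nat_lit 359) (nat_lit 5) (nat_lit 231) (nat_lit 224) (nat_lit 145)))))) (XT.nd (nat_lit 564) (nat_lit 6300) (nat_lit 0) (XT.nd (nat_lit 282) (nat_lit 0) (nat_lit 168) (XT.nd (nat_lit 94) (nat_lit 1764) (nat_lit 0) (XT.lf (nat_lit 0) (nat_lit 9419660558) (nat_lit 1680) (nat_lit 937006189) (nat_lit 1764) (nat_lit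 705810652) (nat_lit 339) (nat_lit 5) (nat_lit 359) (nat_lit 5) (nat_lit 360) (nat_lit 5) (nat_lit 232) (nat_lit 224) (nat_lit 144)) (XT.nd (nat_lit 94) (nat_lit 0) (nat_lit 84) (XT.lf (nat_lit 0) (nat_lit 88962703) (nat_lit 1764) (nat_lit 2701414020) (nat_lit 1848) (nat_lit 8454142063) (nat_lit 318) (nat_lit 5) (nat_lit 339) (nat_lit 5) (nat_lit 340) (nat_lit 5) (nat_lit 233) (nat_lit 224) (nat_lit 143)) (XT.lf (nat_lit 0) (nat_lit 1908548811) (nat_lit 1764) (nat_lit 4473978882) (nat_lit 1848) (nat_lit 5049000417) (nat_lit 319) (nat_lit 5) (nat_lit 340) (nat_lit 5) (nat_lit 341) (nat_lit 5) (nat_lit 234) (nat_lit 224) (nat_lit 142)))) (XT.nd (nat_lit 94) (nat_lit 0) (nat_lit 0) (XT.lf (nat_lit 0) (nat_lit 3841936395) (nat_lit 1764) (nat_lit 6238099893) (nat_lit 1848) (nat_lit 1543943921) (nat_lit 320) (nat_lit 5) (nat_lit 341) (nat_lit 5) (nat_lit 342) (nat_lit 5) (nat_lit 235) (nat_lit 224) (nat_lit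 141)) (XT.nd (nat_lit 94) (nat_lit 0) (nat_lit 84) (XT.lf (nat_lit 84) (nat_lit 3812829546) (nat_lit 0) (nat_lit 2098893028) (nat_lit 1848) (nat_lit 5909933498) (nat_lit 321) (nat_lit 5) (nat_lit 320) (nat_lit 5) (nat_lit 342) (nat_lit 5) (nat_lit 236) (nat_lit 224) (nat_lit 140)) (XT.lf (nat_lit 84) (nat_lit 2241579064) (nat_lit 0) (nat_lit 5881202761) (nat_lit 1848) (nat_lit 3901954492) (nat_lit 322) (nat_lit 5) (nat_lit 321) (nat_lit 5) (nat_lit 343) (nat_lit 5) (nat_lit 237) (nat_lit 224) (nat_lit 139))))) (XT.nd (nat_lit 282) (nat_lit 2940) (nat_lit 0) (XT.nd (nat_lit 94) (nat_lit 1932) (nat_lit 0) (XT.lf (nat_lit 0) (nat_lit 683779456) (nat_lit 1764) (nat_lit 9788266883) (nat_lit 1848) (nat_lit 1761540031) (nat_lit 301) (nat_lit 5) (nat_lit 322) (nat_lit 5) (nat_lit 323) (nat_lit 5) (nat_lit 238) (nat_lit 224) (nat_lit 138)) (XT.nd (nat_lit 94) (nat_lit 1848) (nat_lit 0) (XT.lf (nat_lit 0) (nat_lit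 528178504) (nat_lit 1848) (nat_lit 861531925) (nat_lit 84) (nat_lit 11058184271) (nat_lit 300) (nat_lit 5) (nat_lit 322) (nat_lit 5) (nat_lit 301) (nat_lit 5) (nat_lit 239) (nat_lit 224) (nat_lit 137)) (XT.lf (nat_lit 0) (nat_lit 2962946530) (nat_lit 1932) (nat_lit 2415210974) (nat_lit 84) (nat_lit 7289254880) (nat_lit 278) (nat_lit 5) (nat_lit 301) (nat_lit 5) (nat_lit 279) (nat_lit 5) (nat_lit 240) (nat_lit 224) (nat_lit 136)))) (XT.nd (nat_lit 94) (nat_lit 1848) (nat_lit 0) (XT.lf (nat_lit 0) (nat_lit 5554030040) (nat_lit 1176) (nat_lit 3956199696) (nat_lit 84) (nat_lit 3382819282) (nat_lit 265) (nat_lit 5) (nat_lit 279) (nat_lit 5) (nat_lit 266) (nat_lit 5) (nat_lit 241) (nat_lit 224) (nat_lit 135)) (XT.nd (nat_lit 94) (nat_lit 924) (nat_lit 0) (XT.lf (nat_lit 0) (nat_lit 7636205876) (nat_lit 924) (nat_lit 678871550) (nat_lit 1008) (nat_lit 4809761438) (nat_lit 254) (nat_lit 5) (nat_lit 265) (nat_lit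 5) (nat_lit 266) (nat_lit 5) (nat_lit 242) (nat_lit 224) (nat_lit 134)) (XT.lf (nat_lit 0) (nat_lit 6330085153) (nat_lit 924) (nat_lit 4945798805) (nat_lit 1008) (nat_lit 2086588701) (nat_lit 243) (nat_lit 5) (nat_lit 254) (nat_lit 5) (nat_lit 255) (nat_lit 5) (nat_lit 243) (nat_lit 224) (nat_lit 133))))))) (XT.nd (nat_lit 36848) (nat_lit 0) (nat_lit 840) (XT.nd (nat_lit 36284) (nat_lit 0) (nat_lit 8064) (XT.nd (nat_lit 36002) (nat_lit 0) (nat_lit 9408) (XT.nd (nat_lit 94) (nat_lit 840) (nat_lit 0) (XT.lf (nat_lit 0) (nat_lit 803031684) (nat_lit 924) (nat_lit 8567884429) (nat_lit 84) (nat_lit 4235595907) (nat_lit 232) (nat_lit 5) (nat_lit 243) (nat_lit 5) (nat_lit 233) (nat_lit 5) (nat_lit 244) (nat_lit 224) (nat_lit 132)) (XT.nd (nat_lit 35814) (nat_lit 0) (nat_lit 11088) (XT.lf (nat_lit 0) (nat_lit 3751744291) (nat_lit 840) (nat_lit 96558756) (nat_lit 924) (nat_lit 10008567643) (nat_lit 222) (nat_lit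 5) (nat_lit 232) (nat_lit 5) (nat_lit 233) (nat_lit 5) (nat_lit 245) (nat_lit 224) (nat_lit 131)) (XT.lf (nat_lit 0) (nat_lit 2515082687) (nat_lit 0) (nat_lit 2515082687) (nat_lit 1596) (nat_lit 4507044) (nat_lit 354) (nat_lit 5) (nat_lit 354) (nat_lit 3) (nat_lit 373) (nat_lit 3) (nat_lit 225) (nat_lit 225) (nat_lit 150)))) (XT.nd (nat_lit 94) (nat_lit 0) (nat_lit 0) (XT.lf (nat_lit 0) (nat_lit 1132690471) (nat_lit 1680) (nat_lit 7225007606) (nat_lit 1764) (nat_lit 1862743666) (nat_lit 334) (nat_lit 5) (nat_lit 354) (nat_lit 5) (nat_lit 355) (nat_lit 5) (nat_lit 226) (nat_lit 225) (nat_lit 149)) (XT.nd (nat_lit 94) (nat_lit 0) (nat_lit 84) (XT.lf (nat_lit 84) (nat_lit 960583837) (nat_lit 0) (nat_lit 1385327892) (nat_lit 1764) (nat_lit 8030216641) (nat_lit 335) (nat_lit 5) (nat_lit 334) (nat_lit 5) (nat_lit 355) (nat_lit 5) (nat_lit 227) (nat_lit 225) (nat_lit 148)) (XT.lf (nat_lit 0) (nat_lit 3649028621)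 (nat_lit 1680) (nat_lit 1064049466) (nat_lit 1764) (nat_lit 5823142417) (nat_lit 335) (nat_lit 5) (nat_lit 355) (nat_lit 5) (nat_lit 356) (nat_lit 5) (nat_lit 228) (nat_lit 225) (nat_lit 147))))) (XT.nd (nat_lit 282) (nat_lit 1512) (nat_lit 0) (XT.nd (nat_lit 94) (nat_lit 0) (nat_lit 0) (XT.lf (nat_lit 0) (nat_lit 5034364640) (nat_lit 1680) (nat_lit 3067599134) (nat_lit 1764) (nat_lit 2599146669) (nat_lit 336) (nat_lit 5) (nat_lit 356) (nat_lit 5) (nat_lit 357) (nat_lit 5) (nat_lit 229) (nat_lit 225) (nat_lit 146)) (XT.nd (nat_lit 94) (nat_lit 0) (nat_lit 84) (XT.lf (nat_lit 84) (nat_lit 5801080894) (nat_lit 0) (nat_lit 705825795) (nat_lit 1764) (nat_lit 4364013015) (nat_lit 337) (nat_lit 5) (nat_lit 336) (nat_lit 5) (nat_lit 357) (nat_lit 5) (nat_lit 230) (nat_lit 225) (nat_lit 145)) (XT.lf (nat_lit 84) (nat_lit 3959561310) (nat_lit 0) (nat_lit 4128339169) (nat_lit 1764) (nat_lit 2957519731) (nat_lit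 338) (nat_lit 5) (nat_lit 337) (nat_lit 5) (nat_lit 358) (nat_lit 5) (nat_lit 231) (nat_lit 225) (nat_lit 144)))) (XT.nd (nat_lit 94) (nat_lit 1680) (nat_lit 0) (XT.lf (nat_lit 84) (nat_lit 2127562488) (nat_lit 0) (nat_lit 7638108185) (nat_lit 1764) (nat_lit 1459445845) (nat_lit 339) (nat_lit 5) (nat_lit 338) (nat_lit 5) (nat_lit 359) (nat_lit 5) (nat_lit 232) (nat_lit 225) (nat_lit 143)) (XT.nd (nat_lit 94) (nat_lit 0) (nat_lit 0) (XT.lf (nat_lit 0) (nat_lit 135388411) (nat_lit 1764) (nat_lit 11106441958) (nat_lit 1848) (nat_lit 168253492) (nat_lit 318) (nat_lit 5) (nat_lit 339) (nat_lit 5) (nat_lit 340) (nat_lit 5) (nat_lit 233) (nat_lit 225) (nat_lit 142)) (XT.lf (nat_lit 0) (nat_lit 1848862863) (nat_lit 1764) (nat_lit 1525251107) (nat_lit 1848) (nat_lit 8225313671) (nat_lit 318) (nat_lit 5) (nat_lit 339) (nat_lit 5) (nat_lit 340) (nat_lit 5) (nat_lit 234) (nat_lit 225) (nat_lit 141)))))) (XT.nd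 (nat_lit 564) (nat_lit 3864) (nat_lit 0) (XT.nd (nat_lit 282) (nat_lit 3444) (nat_lit 0) (XT.nd (nat_lit 94) (nat_lit 0) (nat_lit 84) (XT.lf (nat_lit 0) (nat_lit 3678318807) (nat_lit 1764) (nat_lit 3344066616) (nat_lit 1848) (nat_lit 4771780814) (nat_lit 319) (nat_lit 5) (nat_lit 340) (nat_lit 5) (nat_lit 341) (nat_lit 5) (nat_lit 235) (nat_lit 225) (nat_lit 140)) (XT.nd (nat_lit 94) (nat_lit 0) (nat_lit 0) (XT.lf (nat_lit 0) (nat_lit 5627969233) (nat_lit 1764) (nat_lit 5156075067) (nat_lit 1848) (nat_lit 1210440785) (nat_lit 320) (nat_lit 5) (nat_lit 341) (nat_lit 5) (nat_lit 342) (nat_lit 5) (nat_lit 236) (nat_lit 225) (nat_lit 139)) (XT.lf (nat_lit 84) (nat_lit 5221023822) (nat_lit 0) (nat_lit 2502404391) (nat_lit 1848) (nat_lit 4476680324) (nat_lit 321) (nat_lit 5) (nat_lit 320) (nat_lit 5) (nat_lit 342) (nat_lit 5) (nat_lit 237) (nat_lit 225) (nat_lit 138)))) (XT.nd (nat_lit 94) (nat_lit 3612)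 (nat_lit 0) (XT.lf (nat_lit 84) (nat_lit 3606585795) (nat_lit 0) (nat_lit 6357913189) (nat_lit 1848) (nat_lit 2446839869) (nat_lit 322) (nat_lit 5) (nat_lit 321) (nat_lit 5) (nat_lit 343) (nat_lit 5) (nat_lit 238) (nat_lit 225) (nat_lit 137)) (XT.nd (nat_lit 94) (nat_lit 1932) (nat_lit 0) (XT.lf (nat_lit 0) (nat_lit 2004401882) (nat_lit 1764) (nat_lit 10346291923) (nat_lit 1848) (nat_lit 277801320) (nat_lit 301) (nat_lit 5) (nat_lit 322) (nat_lit 5) (nat_lit 323) (nat_lit 5) (nat_lit 239) (nat_lit 225) (nat_lit 136)) (XT.lf (nat_lit 0) (nat_lit 388253124) (nat_lit 1848) (nat_lit 1632804337) (nat_lit 1932) (nat_lit 10830076914) (nat_lit 278) (nat_lit 5) (nat_lit 300) (nat_lit 5) (nat_lit 301) (nat_lit 5) (nat_lit 240) (nat_lit 225) (nat_lit 135))))) (XT.nd (nat_lit 282) (nat_lit 1848) (nat_lit 0) (XT.nd (nat_lit 94) (nat_lit 2016) (nat_lit 0) (XT.lf (nat_lit 0) (nat_lit 4496117283) (nat_lit 1932) (nat_lit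 1217727795) (nat_lit 84) (nat_lit 7365478452) (nat_lit 278) (nat_lit 5) (nat_lit 301) (nat_lit 5) (nat_lit 279) (nat_lit 5) (nat_lit 241) (nat_lit 225) (nat_lit 134)) (XT.nd (nat_lit 94) (nat_lit 924) (nat_lit 0) (XT.lf (nat_lit 0) (nat_lit 7137551811) (nat_lit 1176) (nat_lit 2806371494) (nat_lit 84) (nat_lit 3369821554) (nat_lit 265) (nat_lit 5) (nat_lit 279) (nat_lit 5) (nat_lit 266) (nat_lit 5) (nat_lit 242) (nat_lit 225) (nat_lit 133)) (XT.lf (nat_lit 0) (nat_lit 9166392799) (nat_lit 924) (nat_lit 790863696) (nat_lit 1008) (nat_lit 3597226399) (nat_lit 254) (nat_lit 5) (nat_lit 265) (nat_lit 5) (nat_lit 266) (nat_lit 5) (nat_lit 243) (nat_lit 225) (nat_lit 132)))) (XT.nd (nat_lit 36002) (nat_lit 0) (nat_lit 8484) (XT.nd (nat_lit 94) (nat_lit 924) (nat_lit 0) (XT.lf (nat_lit 0) (nat_lit 7819438143) (nat_lit 924) (nat_lit 5164985601) (nat_lit 1008) (nat_lit 816830013) (nat_lit 243) (nat_lit 5) (nat_lit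 254) (nat_lit 5) (nat_lit 255) (nat_lit 5) (nat_lit 244) (nat_lit 225) (nat_lit 131)) (XT.lf (nat_lit 0) (nat_lit 2118635893) (nat_lit 924) (nat_lit 7577459193) (nat_lit 84) (nat_lit 4358319898) (nat_lit 232) (nat_lit 5) (nat_lit 243) (nat_lit 5) (nat_lit 233) (nat_lit 5) (nat_lit 245) (nat_lit 225) (nat_lit 130))) (XT.nd (nat_lit 94) (nat_lit 0) (nat_lit 84) (XT.lf (nat_lit 0) (nat_lit 1089902249) (nat_lit 1764) (nat_lit 2048452719) (nat_lit 1764) (nat_lit 2048452719) (nat_lit 333) (nat_lit 3) (nat_lit 354) (nat_lit 3) (nat_lit 354) (nat_lit 5) (nat_lit 226) (nat_lit 226) (nat_lit 148)) (XT.lf (nat_lit 0) (nat_lit 3287811006) (nat_lit 1680) (nat_lit 6327325149) (nat_lit 1764) (nat_lit 916480570) (nat_lit 334) (nat_lit 5) (nat_lit 354) (nat_lit 5) (nat_lit 355) (nat_lit 5) (nat_lit 227) (nat_lit 226) (nat_lit 147))))))))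
noncomputable def xc29 : XT := (XT.nd (nat_lit 38258) (nat_lit 0) (nat_lit 1932) (XT.nd (nat_lit 1128) (nat_lit 6300) (nat_lit 0) (XT.nd (nat_lit 564) (nat_lit 0) (nat_lit 0) (XT.nd (nat_lit 282) (nat_lit 1428) (nat_lit 0) (XT.nd (nat_lit 94) (nat_lit 0) (nat_lit 84) (XT.lf (nat_lit 84) (nat_lit 2122099527) (nat_lit 0) (nat_lit 2357891896) (nat_lit 1764) (nat_lit 6214158039) (nat_lit 335) (nat_lit 5) (nat_lit 334) (nat_lit 5) (nat_lit 355) (nat_lit 5) (nat_lit 228) (nat_lit 226) (nat_lit 146)) (XT.nd (nat_lit 94) (nat_lit 0) (nat_lit 84) (XT.lf (nat_lit 84) (nat_lit 39001053) (nat_lit 0) (nat_lit 5714243955) (nat_lit 1764) (nat_lit 5108260206) (nat_lit 336) (nat_lit 5) (nat_lit 335) (nat_lit 5) (nat_lit 356) (nat_lit 5) (nat_lit 229) (nat_lit 226) (nat_lit 145)) (XT.lf (nat_lit 0) (nat_lit 7122220754) (nat_lit 1680) (nat_lit 2009802947) (nat_lit 1764) (nat_lit 1901569233) (nat_lit 336) (nat_lit 5) (nat_lit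 356) (nat_lit 5) (nat_lit 357) (nat_lit 5) (nat_lit 230) (nat_lit 226) (nat_lit 144)))) (XT.nd (nat_lit 94) (nat_lit 1596) (nat_lit 0) (XT.lf (nat_lit 84) (nat_lit 7146330752) (nat_lit 0) (nat_lit 1443461987) (nat_lit 1764) (nat_lit 2620795981) (nat_lit 337) (nat_lit 5) (nat_lit 336) (nat_lit 5) (nat_lit 357) (nat_lit 5) (nat_lit 231) (nat_lit 226) (nat_lit 143)) (XT.nd (nat_lit 94) (nat_lit 1680) (nat_lit 0) (XT.lf (nat_lit 84) (nat_lit 5262847536) (nat_lit 0) (nat_lit 4903929219) (nat_lit 1764) (nat_lit 1225725569) (nat_lit 338) (nat_lit 5) (nat_lit 337) (nat_lit 5) (nat_lit 358) (nat_lit 5) (nat_lit 232) (nat_lit 226) (nat_lit 142)) (XT.lf (nat_lit 0) (nat_lit 263060086) (nat_lit 1764) (nat_lit 8194711072) (nat_lit 1848) (nat_lit 3121920891) (nat_lit 317) (nat_lit 5) (nat_lit 338) (nat_lit 5) (nat_lit 339) (nat_lit 5) (nat_lit 233) (nat_lit 226) (nat_lit 141))))) (XT.nd (nat_lit 282) (nat_lit 0)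 (nat_lit 252) (XT.nd (nat_lit 94) (nat_lit 0) (nat_lit 84) (XT.lf (nat_lit 84) (nat_lit 1502210059) (nat_lit 0) (nat_lit 337700696) (nat_lit 1848) (nat_lit 9932130798) (nat_lit 318) (nat_lit 5) (nat_lit 317) (nat_lit 5) (nat_lit 339) (nat_lit 5) (nat_lit 234) (nat_lit 226) (nat_lit 140)) (XT.nd (nat_lit 94) (nat_lit 0) (nat_lit 84) (XT.lf (nat_lit 0) (nat_lit 3553552028) (nat_lit 1764) (nat_lit 392411270) (nat_lit 1848) (nat_lit 8023364774) (nat_lit 318) (nat_lit 5) (nat_lit 339) (nat_lit 5) (nat_lit 340) (nat_lit 5) (nat_lit 235) (nat_lit 226) (nat_lit 139)) (XT.lf (nat_lit 0) (nat_lit 5396801417) (nat_lit 1764) (nat_lit 2260146006) (nat_lit 1848) (nat_lit 4515040320) (nat_lit 319) (nat_lit 5) (nat_lit 340) (nat_lit 5) (nat_lit 341) (nat_lit 5) (nat_lit 236) (nat_lit 226) (nat_lit 138)))) (XT.nd (nat_lit 94) (nat_lit 0) (nat_lit 0) (XT.lf (nat_lit 0) (nat_lit 7366701816) (nat_lit 1764) (nat_lit 4122639287)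 (nat_lit 1848) (nat_lit 891032381) (nat_lit 320) (nat_lit 5) (nat_lit 341) (nat_lit 5) (nat_lit 342) (nat_lit 5) (nat_lit 237) (nat_lit 226) (nat_lit 137)) (XT.nd (nat_lit 94) (nat_lit 0) (nat_lit 84) (XT.lf (nat_lit 84) (nat_lit 6593747978) (nat_lit 0) (nat_lit 2898093852) (nat_lit 1848) (nat_lit 3102312445) (nat_lit 321) (nat_lit 5) (nat_lit 320) (nat_lit 5) (nat_lit 342) (nat_lit 5) (nat_lit 238) (nat_lit 226) (nat_lit 136)) (XT.lf (nat_lit 84) (nat_lit 4933825856) (nat_lit 0) (nat_lit 6833298636) (nat_lit 1848) (nat_lit 1046626124) (nat_lit 322) (nat_lit 5) (nat_lit 321) (nat_lit 5) (nat_lit 343) (nat_lit 5) (nat_lit 239) (nat_lit 226) (nat_lit 135)))))) (XT.nd (nat_lit 36472) (nat_lit 0) (nat_lit 6216) (XT.nd (nat_lit 282) (nat_lit 3024) (nat_lit 0) (XT.nd (nat_lit 94) (nat_lit 1848) (nat_lit 0) (XT.lf (nat_lit 0) (nat_lit 1138478822) (nat_lit 1848) (nat_lit 9762635663) (nat_lit 84) (nat_lit 2138142065)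 (nat_lit 300) (nat_lit 5) (nat_lit 322) (nat_lit 5) (nat_lit 301) (nat_lit 5) (nat_lit 240) (nat_lit 226) (nat_lit 134)) (XT.nd (nat_lit 94) (nat_lit 0) (nat_lit 0) (XT.lf (nat_lit 0) (nat_lit 1608842812) (nat_lit 1848) (nat_lit 1865329048) (nat_lit 1932) (nat_lit 9796339915) (nat_lit 278) (nat_lit 5) (nat_lit 300) (nat_lit 5) (nat_lit 301) (nat_lit 5) (nat_lit 241) (nat_lit 226) (nat_lit 133)) (XT.lf (nat_lit 0) (nat_lit 5987904711) (nat_lit 1932) (nat_lit 63573022) (nat_lit 84) (nat_lit 7456264807) (nat_lit 278) (nat_lit 5) (nat_lit 301) (nat_lit 5) (nat_lit 279) (nat_lit 5) (nat_lit 242) (nat_lit 226) (nat_lit 132)))) (XT.nd (nat_lit 94) (nat_lit 1932) (nat_lit 0) (XT.lf (nat_lit 0) (nat_lit 8684134514) (nat_lit 1176) (nat_lit 1701957149) (nat_lit 84) (nat_lit 3365105360) (nat_lit 265) (nat_lit 5) (nat_lit 279) (nat_lit 5) (nat_lit 266) (nat_lit 5) (nat_lit 243) (nat_lit 226) (nat_lit 131)) (XT.nd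 (nat_lit 94) (nat_lit 1008) (nat_lit 0) (XT.lf (nat_lit 0) (nat_lit 10666165617) (nat_lit 924) (nat_lit 900909107) (nat_lit 1008) (nat_lit 2434066158) (nat_lit 254) (nat_lit 5) (nat_lit 265) (nat_lit 5) (nat_lit 266) (nat_lit 5) (nat_lit 244) (nat_lit 226) (nat_lit 130)) (XT.lf (nat_lit 0) (nat_lit 402211326) (nat_lit 1008) (nat_lit 4983597659) (nat_lit 84) (nat_lit 8871441160) (nat_lit 242) (nat_lit 5) (nat_lit 254) (nat_lit 5) (nat_lit 243) (nat_lit 5) (nat_lit 245) (nat_lit 226) (nat_lit 129))))) (XT.nd (nat_lit 282) (nat_lit 1428) (nat_lit 0) (XT.nd (nat_lit 94) (nat_lit 0) (nat_lit 84) (XT.lf (nat_lit 0) (nat_lit 2149776153) (nat_lit 1764) (nat_lit 1598045901) (nat_lit 1764) (nat_lit 1598045901) (nat_lit 333) (nat_lit 3) (nat_lit 354) (nat_lit 3) (nat_lit 354) (nat_lit 5) (nat_lit 227) (nat_lit 227) (nat_lit 146)) (XT.nd (nat_lit 94) (nat_lit 0) (nat_lit 0) (XT.lf (nat_lit 0) (nat_lit 5377704217)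 (nat_lit 1680) (nat_lit 5474723583) (nat_lit 1764) (nat_lit 4349474) (nat_lit 334) (nat_lit 5) (nat_lit 354) (nat_lit 5) (nat_lit 355) (nat_lit 5) (nat_lit 228) (nat_lit 227) (nat_lit 145)) (XT.lf (nat_lit 84) (nat_lit 3249275301) (nat_lit 0) (nat_lit 3303054373) (nat_lit 1764) (nat_lit 4473973171) (nat_lit 335) (nat_lit 5) (nat_lit 334) (nat_lit 5) (nat_lit 355) (nat_lit 5) (nat_lit 229) (nat_lit 227) (nat_lit 144)))) (XT.nd (nat_lit 188) (nat_lit 1596) (nat_lit 0) (XT.nd (nat_lit 94) (nat_lit 0) (nat_lit 84) (XT.lf (nat_lit 84) (nat_lit 1119864937) (nat_lit 0) (nat_lit 6687258088) (nat_lit 1764) (nat_lit 3393779553) (nat_lit 336) (nat_lit 5) (nat_lit 335) (nat_lit 5) (nat_lit 356) (nat_lit 5) (nat_lit 230) (nat_lit 227) (nat_lit 143)) (XT.lf (nat_lit 0) (nat_lit 9156047340) (nat_lit 1680) (nat_lit 992454710) (nat_lit 1764) (nat_lit 1232006562) (nat_lit 336) (nat_lit 5) (nat_lit 356) (nat_lit 5) (nat_lit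 357) (nat_lit 5) (nat_lit 231) (nat_lit 227) (nat_lit 142))) (XT.nd (nat_lit 94) (nat_lit 1680) (nat_lit 0) (XT.lf (nat_lit 84) (nat_lit 8462719477) (nat_lit 0) (nat_lit 2159513077) (nat_lit 1764) (nat_lit 942627236) (nat_lit 337) (nat_lit 5) (nat_lit 336) (nat_lit 5) (nat_lit 357) (nat_lit 5) (nat_lit 232) (nat_lit 227) (nat_lit 141)) (XT.lf (nat_lit 0) (nat_lit 438248668) (nat_lit 1764) (nat_lit 5223217924) (nat_lit 1848) (nat_lit 6092822868) (nat_lit 316) (nat_lit 5) (nat_lit 337) (nat_lit 5) (nat_lit 338) (nat_lit 5) (nat_lit 233) (nat_lit 227) (nat_lit 140))))))) (XT.nd (nat_lit 37224) (nat_lit 0) (nat_lit 2856) (XT.nd (nat_lit 564) (nat_lit 4368) (nat_lit 0) (XT.nd (nat_lit 282) (nat_lit 0) (nat_lit 168) (XT.nd (nat_lit 94) (nat_lit 0) (nat_lit 0) (XT.lf (nat_lit 0) (nat_lit 1907619377) (nat_lit 1764) (nat_lit 7351513579) (nat_lit 1848) (nat_lit 2689870567) (nat_lit 317) (nat_lit 5) (nat_lit 338)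 (nat_lit 5) (nat_lit 339) (nat_lit 5) (nat_lit 234) (nat_lit 227) (nat_lit 139)) (XT.nd (nat_lit 94) (nat_lit 0) (nat_lit 84) (XT.lf (nat_lit 84) (nat_lit 2662542006) (nat_lit 0) (nat_lit 829706847) (nat_lit 1848) (nat_lit 8656879449) (nat_lit 318) (nat_lit 5) (nat_lit 317) (nat_lit 5) (nat_lit 339) (nat_lit 5) (nat_lit 235) (nat_lit 227) (nat_lit 138)) (XT.lf (nat_lit 84) (nat_lit 711453985) (nat_lit 0) (nat_lit 4502478129) (nat_lit 1848) (nat_lit 7140530313) (nat_lit 319) (nat_lit 5) (nat_lit 318) (nat_lit 5) (nat_lit 340) (nat_lit 5) (nat_lit 236) (nat_lit 227) (nat_lit 137)))) (XT.nd (nat_lit 94) (nat_lit 0) (nat_lit 84) (XT.lf (nat_lit 0) (nat_lit 7069730123) (nat_lit 1764) (nat_lit 1218139360) (nat_lit 1848) (nat_lit 4277488937) (nat_lit 319) (nat_lit 5) (nat_lit 340) (nat_lit 5) (nat_lit 341) (nat_lit 5) (nat_lit 237) (nat_lit 227) (nat_lit 136)) (XT.nd (nat_lit 94) (nat_lit 0) (nat_lit 0) (XT.lf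 (nat_lit 0) (nat_lit 9063779918) (nat_lit 1764) (nat_lit 3133744509) (nat_lit 1848) (nat_lit 584498771) (nat_lit 320) (nat_lit 5) (nat_lit 341) (nat_lit 5) (nat_lit 342) (nat_lit 5) (nat_lit 238) (nat_lit 227) (nat_lit 135)) (XT.lf (nat_lit 84) (nat_lit 7935395990) (nat_lit 0) (nat_lit 3287146738) (nat_lit 1848) (nat_lit 1781640246) (nat_lit 321) (nat_lit 5) (nat_lit 320) (nat_lit 5) (nat_lit 342) (nat_lit 5) (nat_lit 239) (nat_lit 227) (nat_lit 134))))) (XT.nd (nat_lit 282) (nat_lit 1092) (nat_lit 0) (XT.nd (nat_lit 94) (nat_lit 1764) (nat_lit 0) (XT.lf (nat_lit 0) (nat_lit 299426055) (nat_lit 1848) (nat_lit 7006872475) (nat_lit 1932) (nat_lit 5926027318) (nat_lit 299) (nat_lit 5) (nat_lit 321) (nat_lit 5) (nat_lit 322) (nat_lit 5) (nat_lit 240) (nat_lit 227) (nat_lit 133)) (XT.nd (nat_lit 94) (nat_lit 1848) (nat_lit 0) (XT.lf (nat_lit 0) (nat_lit 2505648902) (nat_lit 1848) (nat_lit 8954940302) (nat_lit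 84) (nat_lit 2005840213) (nat_lit 300) (nat_lit 5) (nat_lit 322) (nat_lit 5) (nat_lit 301) (nat_lit 5) (nat_lit 241) (nat_lit 227) (nat_lit 132)) (XT.lf (nat_lit 0) (nat_lit 2791900499) (nat_lit 1848) (nat_lit 2094331460) (nat_lit 1932) (nat_lit 8820357518) (nat_lit 278) (nat_lit 5) (nat_lit 300) (nat_lit 5) (nat_lit 301) (nat_lit 5) (nat_lit 242) (nat_lit 227) (nat_lit 131)))) (XT.nd (nat_lit 94) (nat_lit 0) (nat_lit 0) (XT.lf (nat_lit 0) (nat_lit 1066769293) (nat_lit 1092) (nat_lit 6384009383) (nat_lit 1176) (nat_lit 6502162312) (nat_lit 265) (nat_lit 5) (nat_lit 278) (nat_lit 5) (nat_lit 279) (nat_lit 5) (nat_lit 243) (nat_lit 227) (nat_lit 130)) (XT.nd (nat_lit 36190) (nat_lit 0) (nat_lit 5712) (XT.lf (nat_lit 0) (nat_lit 10198626391) (nat_lit 1176) (nat_lit 638850818) (nat_lit 84) (nat_lit 3368379673) (nat_lit 265) (nat_lit 5) (nat_lit 279) (nat_lit 5) (nat_lit 266) (nat_lit 5) (nat_lit 244) (nat_lit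 227) (nat_lit 129)) (XT.lf (nat_lit 0) (nat_lit 3178811708) (nat_lit 1764) (nat_lit 1166589085) (nat_lit 1764) (nat_lit 1166589085) (nat_lit 333) (nat_lit 3) (nat_lit 354) (nat_lit 3) (nat_lit 354) (nat_lit 5) (nat_lit 228) (nat_lit 228) (nat_lit 144)))))) (XT.nd (nat_lit 564) (nat_lit 1344) (nat_lit 0) (XT.nd (nat_lit 282) (nat_lit 1512) (nat_lit 0) (XT.nd (nat_lit 94) (nat_lit 0) (nat_lit 84) (XT.lf (nat_lit 84) (nat_lit 6526035545) (nat_lit 0) (nat_lit 889741598) (nat_lit 1764) (nat_lit 3780290564) (nat_lit 334) (nat_lit 5) (nat_lit 333) (nat_lit 3) (nat_lit 354) (nat_lit 5) (nat_lit 229) (nat_lit 228) (nat_lit 143)) (XT.nd (nat_lit 94) (nat_lit 0) (nat_lit 84) (XT.lf (nat_lit 84) (nat_lit 4345895491) (nat_lit 0) (nat_lit 4223941455) (nat_lit 1764) (nat_lit 2803046632) (nat_lit 335) (nat_lit 5) (nat_lit 334) (nat_lit 5) (nat_lit 355) (nat_lit 5) (nat_lit 230) (nat_lit 228) (nat_lit 142)) (XT.lf (nat_lit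 84) (nat_lit 2166783935) (nat_lit 0) (nat_lit 7642930450) (nat_lit 1764) (nat_lit 1745174259) (nat_lit 336) (nat_lit 5) (nat_lit 335) (nat_lit 5) (nat_lit 356) (nat_lit 5) (nat_lit 231) (nat_lit 228) (nat_lit 141)))) (XT.nd (nat_lit 94) (nat_lit 1764) (nat_lit 0) (XT.lf (nat_lit 0) (nat_lit 11142404452) (nat_lit 1680) (nat_lit 11819120) (nat_lit 1764) (nat_lit 587953142) (nat_lit 336) (nat_lit 5) (nat_lit 356) (nat_lit 5) (nat_lit 357) (nat_lit 5) (nat_lit 232) (nat_lit 228) (nat_lit 140)) (XT.nd (nat_lit 94) (nat_lit 0) (nat_lit 84) (XT.lf (nat_lit 0) (nat_lit 666853061) (nat_lit 1764) (nat_lit 2184596676) (nat_lit 1848) (nat_lit 9082507791) (nat_lit 315) (nat_lit 5) (nat_lit 336) (nat_lit 5) (nat_lit 337) (nat_lit 5) (nat_lit 233) (nat_lit 228) (nat_lit 139)) (XT.lf (nat_lit 0) (nat_lit 2029915763) (nat_lit 1764) (nat_lit 4368024475) (nat_lit 1848) (nat_lit 5733070129) (nat_lit 316) (nat_lit 5) (nat_lit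 337) (nat_lit 5) (nat_lit 338) (nat_lit 5) (nat_lit 234) (nat_lit 228) (nat_lit 138))))) (XT.nd (nat_lit 282) (nat_lit 1512) (nat_lit 0) (XT.nd (nat_lit 94) (nat_lit 0) (nat_lit 0) (XT.lf (nat_lit 0) (nat_lit 3501004822) (nat_lit 1764) (nat_lit 6553937904) (nat_lit 1848) (nat_lit 2278690307) (nat_lit 317) (nat_lit 5) (nat_lit 338) (nat_lit 5) (nat_lit 339) (nat_lit 5) (nat_lit 235) (nat_lit 228) (nat_lit 137)) (XT.nd (nat_lit 94) (nat_lit 0) (nat_lit 84) (XT.lf (nat_lit 84) (nat_lit 3789831743) (nat_lit 0) (nat_lit 1307005941) (nat_lit 1848) (nat_lit 7444898185) (nat_lit 318) (nat_lit 5) (nat_lit 317) (nat_lit 5) (nat_lit 339) (nat_lit 5) (nat_lit 236) (nat_lit 228) (nat_lit 136)) (XT.lf (nat_lit 84) (nat_lit 1785186751) (nat_lit 0) (nat_lit 5047850986) (nat_lit 1848) (nat_lit 5922225279) (nat_lit 319) (nat_lit 5) (nat_lit 318) (nat_lit 5) (nat_lit 340) (nat_lit 5) (nat_lit 237) (nat_lit 228) (nat_lit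 135)))) (XT.nd (nat_lit 188) (nat_lit 1680) (nat_lit 0) (XT.nd (nat_lit 94) (nat_lit 0) (nat_lit 84) (XT.lf (nat_lit 0) (nat_lit 8702538510) (nat_lit 1764) (nat_lit 214204417) (nat_lit 1848) (nat_lit 4057924946) (nat_lit 319) (nat_lit 5) (nat_lit 340) (nat_lit 5) (nat_lit 341) (nat_lit 5) (nat_lit 238) (nat_lit 228) (nat_lit 134)) (XT.lf (nat_lit 0) (nat_lit 10724561459) (nat_lit 1764) (nat_lit 2185583234) (nat_lit 1848) (nat_lit 289691233) (nat_lit 320) (nat_lit 5) (nat_lit 341) (nat_lit 5) (nat_lit 342) (nat_lit 5) (nat_lit 239) (nat_lit 228) (nat_lit 133))) (XT.nd (nat_lit 94) (nat_lit 1764) (nat_lit 0) (XT.lf (nat_lit 84) (nat_lit 9250140925) (nat_lit 0) (nat_lit 3670692849) (nat_lit 1848) (nat_lit 509774559) (nat_lit 321) (nat_lit 5) (nat_lit 320) (nat_lit 5) (nat_lit 342) (nat_lit 5) (nat_lit 240) (nat_lit 228) (nat_lit 132)) (XT.lf (nat_lit 0) (nat_lit 1586091390) (nat_lit 1848) (nat_lit 6186852819)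 (nat_lit 1932) (nat_lit 5894436965) (nat_lit 299) (nat_lit 5) (nat_lit 321) (nat_lit 5) (nat_lit 322) (nat_lit 5) (nat_lit 241) (nat_lit 228) (nat_lit 131))))))))
noncomputable def xc30 : XT := (XT.nd (nat_lit 74824) (nat_lit 0) (nat_lit 2688) (XT.nd (nat_lit 37318) (nat_lit 0) (nat_lit 1092) (XT.nd (nat_lit 36754) (nat_lit 0) (nat_lit 4116) (XT.nd (nat_lit 36472) (nat_lit 0) (nat_lit 5712) (XT.nd (nat_lit 94) (nat_lit 2940) (nat_lit 0) (XT.lf (nat_lit 0) (nat_lit 3832417136) (nat_lit 1848) (nat_lit 8195397581) (nat_lit 84) (nat_lit 1882680178) (nat_lit 300) (nat_lit 5) (nat_lit 322) (nat_lit 5) (nat_lit 301) (nat_lit 5) (nat_lit 242) (nat_lit 228) (nat_lit 130)) (XT.nd (nat_lit 94) (nat_lit 1092) (nat_lit 0) (XT.lf (nat_lit 0) (nat_lit 3941448507) (nat_lit 1848) (nat_lit 2320463601) (nat_lit 1932) (nat_lit 7897905436) (nat_lit 278) (nat_lit 5) (nat_lit 300) (nat_lit 5) (nat_lit 301) (nat_lit 5) (nat_lit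 243) (nat_lit 228) (nat_lit 129)) (XT.lf (nat_lit 0) (nat_lit 2162267596) (nat_lit 1092) (nat_lit 6719698700) (nat_lit 1176) (nat_lit 5533578599) (nat_lit 265) (nat_lit 5) (nat_lit 278) (nat_lit 5) (nat_lit 279) (nat_lit 5) (nat_lit 244) (nat_lit 228) (nat_lit 128)))) (XT.nd (nat_lit 94) (nat_lit 0) (nat_lit 0) (XT.lf (nat_lit 0) (nat_lit 4180446454) (nat_lit 1764) (nat_lit 752437395) (nat_lit 1764) (nat_lit 752437395) (nat_lit 333) (nat_lit 3) (nat_lit 354) (nat_lit 3) (nat_lit 354) (nat_lit 5) (nat_lit 229) (nat_lit 229) (nat_lit 142)) (XT.nd (nat_lit 94) (nat_lit 0) (nat_lit 84) (XT.lf (nat_lit 84) (nat_lit 7646487885) (nat_lit 0) (nat_lit 1755729659) (nat_lit 1764) (nat_lit 2147720992) (nat_lit 334) (nat_lit 5) (nat_lit 333) (nat_lit 3) (nat_lit 354) (nat_lit 5) (nat_lit 230) (nat_lit 229) (nat_lit 141)) (XT.lf (nat_lit 84) (nat_lit 5415545350) (nat_lit 0) (nat_lit 5123517071) (nat_lit 1764) (nat_lit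 1195147897) (nat_lit 335) (nat_lit 5) (nat_lit 334) (nat_lit 5) (nat_lit 355) (nat_lit 5) (nat_lit 231) (nat_lit 229) (nat_lit 140))))) (XT.nd (nat_lit 282) (nat_lit 0) (nat_lit 168) (XT.nd (nat_lit 94) (nat_lit 1764) (nat_lit 0) (XT.lf (nat_lit 84) (nat_lit 3183342253) (nat_lit 0) (nat_lit 8584071448) (nat_lit 1764) (nat_lit 156380141) (nat_lit 336) (nat_lit 5) (nat_lit 335) (nat_lit 5) (nat_lit 356) (nat_lit 5) (nat_lit 232) (nat_lit 229) (nat_lit 139)) (XT.nd (nat_lit 94) (nat_lit 0) (nat_lit 84) (XT.lf (nat_lit 84) (nat_lit 942056675) (nat_lit 0) (nat_lit 19522905) (nat_lit 1848) (nat_lit 11157055737) (nat_lit 315) (nat_lit 5) (nat_lit 314) (nat_lit 5) (nat_lit 336) (nat_lit 5) (nat_lit 233) (nat_lit 229) (nat_lit 138)) (XT.lf (nat_lit 0) (nat_lit 2210340626) (nat_lit 1764) (nat_lit 1309652409) (nat_lit 1848) (nat_lit 8798209756) (nat_lit 315) (nat_lit 5) (nat_lit 336) (nat_lit 5) (nat_lit 337)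 (nat_lit 5) (nat_lit 234) (nat_lit 229) (nat_lit 137)))) (XT.nd (nat_lit 94) (nat_lit 0) (nat_lit 84) (XT.lf (nat_lit 0) (nat_lit 3572482235) (nat_lit 1764) (nat_lit 3551915553) (nat_lit 1848) (nat_lit 5398824515) (nat_lit 316) (nat_lit 5) (nat_lit 337) (nat_lit 5) (nat_lit 338) (nat_lit 5) (nat_lit 235) (nat_lit 229) (nat_lit 136)) (XT.nd (nat_lit 94) (nat_lit 0) (nat_lit 0) (XT.lf (nat_lit 0) (nat_lit 5048654945) (nat_lit 1764) (nat_lit 5798585224) (nat_lit 1848) (nat_lit 1886717491) (nat_lit 317) (nat_lit 5) (nat_lit 338) (nat_lit 5) (nat_lit 339) (nat_lit 5) (nat_lit 236) (nat_lit 229) (nat_lit 135)) (XT.lf (nat_lit 84) (nat_lit 4887819985) (nat_lit 0) (nat_lit 1771206052) (nat_lit 1848) (nat_lit 6291227008) (nat_lit 318) (nat_lit 5) (nat_lit 317) (nat_lit 5) (nat_lit 339) (nat_lit 5) (nat_lit 237) (nat_lit 229) (nat_lit 134)))))) (XT.nd (nat_lit 564) (nat_lit 1680) (nat_lit 0) (XT.nd (nat_lit 282)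 (nat_lit 1680) (nat_lit 0) (XT.nd (nat_lit 94) (nat_lit 0) (nat_lit 84) (XT.lf (nat_lit 84) (nat_lit 2826764067) (nat_lit 0) (nat_lit 5586528265) (nat_lit 1848) (nat_lit 4758900728) (nat_lit 319) (nat_lit 5) (nat_lit 318) (nat_lit 5) (nat_lit 340) (nat_lit 5) (nat_lit 238) (nat_lit 229) (nat_lit 133)) (XT.nd (nat_lit 94) (nat_lit 0) (nat_lit 84) (XT.lf (nat_lit 84) (nat_lit 766320002) (nat_lit 0) (nat_lit 9539521730) (nat_lit 1848) (nat_lit 3094367800) (nat_lit 320) (nat_lit 5) (nat_lit 319) (nat_lit 5) (nat_lit 341) (nat_lit 5) (nat_lit 239) (nat_lit 229) (nat_lit 132)) (XT.lf (nat_lit 0) (nat_lit 12354138705) (nat_lit 1764) (nat_lit 1274571510) (nat_lit 1848) (nat_lit 5527181) (nat_lit 320) (nat_lit 5) (nat_lit 341) (nat_lit 5) (nat_lit 342) (nat_lit 5) (nat_lit 240) (nat_lit 229) (nat_lit 131)))) (XT.nd (nat_lit 94) (nat_lit 0) (nat_lit 84) (XT.lf (nat_lit 0) (nat_lit 707554896) (nat_lit 1848) (nat_lit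 3337029831) (nat_lit 1932) (nat_lit 9829170992) (nat_lit 298) (nat_lit 5) (nat_lit 320) (nat_lit 5) (nat_lit 321) (nat_lit 5) (nat_lit 241) (nat_lit 229) (nat_lit 130)) (XT.nd (nat_lit 94) (nat_lit 0) (nat_lit 84) (XT.lf (nat_lit 0) (nat_lit 2832937336) (nat_lit 1848) (nat_lit 5408960879) (nat_lit 1932) (nat_lit 5877631978) (nat_lit 299) (nat_lit 5) (nat_lit 321) (nat_lit 5) (nat_lit 322) (nat_lit 5) (nat_lit 242) (nat_lit 229) (nat_lit 129)) (XT.lf (nat_lit 0) (nat_lit 5123237327) (nat_lit 1848) (nat_lit 7480611599) (nat_lit 84) (nat_lit 1768066208) (nat_lit 300) (nat_lit 5) (nat_lit 322) (nat_lit 5) (nat_lit 301) (nat_lit 5) (nat_lit 243) (nat_lit 229) (nat_lit 128))))) (XT.nd (nat_lit 36566) (nat_lit 0) (nat_lit 2940) (XT.nd (nat_lit 36378) (nat_lit 0) (nat_lit 4620) (XT.lf (nat_lit 0) (nat_lit 5061295157) (nat_lit 1848) (nat_lit 2544348771) (nat_lit 1932) (nat_lit 7025026802) (nat_lit 278) (nat_lit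 5) (nat_lit 300) (nat_lit 5) (nat_lit 301) (nat_lit 5) (nat_lit 244) (nat_lit 229) (nat_lit 127)) (XT.nd (nat_lit 94) (nat_lit 0) (nat_lit 0) (XT.lf (nat_lit 0) (nat_lit 5157937916) (nat_lit 1764) (nat_lit 354041852) (nat_lit 1764) (nat_lit 354041852) (nat_lit 333) (nat_lit 3) (nat_lit 354) (nat_lit 3) (nat_lit 354) (nat_lit 5) (nat_lit 230) (nat_lit 230) (nat_lit 140)) (XT.lf (nat_lit 84) (nat_lit 8746844869) (nat_lit 0) (nat_lit 2596518903) (nat_lit 1764) (nat_lit 575357103) (nat_lit 334) (nat_lit 5) (nat_lit 333) (nat_lit 3) (nat_lit 354) (nat_lit 5) (nat_lit 231) (nat_lit 230) (nat_lit 139)))) (XT.nd (nat_lit 188) (nat_lit 0) (nat_lit 84) (XT.nd (nat_lit 94) (nat_lit 0) (nat_lit 84) (XT.lf (nat_lit 0) (nat_lit 350474474) (nat_lit 1764) (nat_lit 5651532125) (nat_lit 1848) (nat_lit 6108562933) (nat_lit 313) (nat_lit 5) (nat_lit 334) (nat_lit 5) (nat_lit 335) (nat_lit 5) (nat_lit 232) (nat_lit 230)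 (nat_lit 138)) (XT.lf (nat_lit 0) (nat_lit 1358470488) (nat_lit 1764) (nat_lit 8144858028) (nat_lit 1848) (nat_lit 2804427634) (nat_lit 314) (nat_lit 5) (nat_lit 335) (nat_lit 5) (nat_lit 336) (nat_lit 5) (nat_lit 233) (nat_lit 230) (nat_lit 137))) (XT.nd (nat_lit 94) (nat_lit 0) (nat_lit 84) (XT.lf (nat_lit 84) (nat_lit 1857650838) (nat_lit 0) (nat_lit 610530796) (nat_lit 1848) (nat_lit 10042201090) (nat_lit 315) (nat_lit 5) (nat_lit 314) (nat_lit 5) (nat_lit 336) (nat_lit 5) (nat_lit 234) (nat_lit 230) (nat_lit 136)) (XT.lf (nat_lit 0) (nat_lit 3706776700) (nat_lit 1764) (nat_lit 467343355) (nat_lit 1848) (nat_lit 8544000202) (nat_lit 315) (nat_lit 5) (nat_lit 336) (nat_lit 5) (nat_lit 337) (nat_lit 5) (nat_lit 235) (nat_lit 230) (nat_lit 135))))))) (XT.nd (nat_lit 37506) (nat_lit 84) (nat_lit 0) (XT.nd (nat_lit 564) (nat_lit 1512) (nat_lit 0) (XT.nd (nat_lit 282) (nat_lit 0) (nat_lit 168) (XT.nd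 (nat_lit 94) (nat_lit 0) (nat_lit 84) (XT.lf (nat_lit 0) (nat_lit 5071198238) (nat_lit 1764) (nat_lit 2771670269) (nat_lit 1848) (nat_lit 5088445635) (nat_lit 316) (nat_lit 5) (nat_lit 337) (nat_lit 5) (nat_lit 338) (nat_lit 5) (nat_lit 236) (nat_lit 230) (nat_lit 134)) (XT.nd (nat_lit 94) (nat_lit 0) (nat_lit 0) (XT.lf (nat_lit 0) (nat_lit 6555717928) (nat_lit 1764) (nat_lit 5082269907) (nat_lit 1848) (nat_lit 1512390423) (nat_lit 317) (nat_lit 5) (nat_lit 338) (nat_lit 5) (nat_lit 339) (nat_lit 5) (nat_lit 237) (nat_lit 230) (nat_lit 133)) (XT.lf (nat_lit 84) (nat_lit 5960052761) (nat_lit 0) (nat_lit 2223830394) (nat_lit 1848) (nat_lit 5191209340) (nat_lit 318) (nat_lit 5) (nat_lit 317) (nat_lit 5) (nat_lit 339) (nat_lit 5) (nat_lit 238) (nat_lit 230) (nat_lit 132)))) (XT.nd (nat_lit 94) (nat_lit 0) (nat_lit 84) (XT.lf (nat_lit 84) (nat_lit 3839697196) (nat_lit 0) (nat_lit 6119989956) (nat_lit 1848)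 (nat_lit 3645990213) (nat_lit 319) (nat_lit 5) (nat_lit 318) (nat_lit 5) (nat_lit 340) (nat_lit 5) (nat_lit 239) (nat_lit 230) (nat_lit 131)) (XT.nd (nat_lit 94) (nat_lit 0) (nat_lit 0) (XT.lf (nat_lit 84) (nat_lit 1718494369) (nat_lit 0) (nat_lit 10161911362) (nat_lit 1848) (nat_lit 1962106224) (nat_lit 320) (nat_lit 5) (nat_lit 319) (nat_lit 5) (nat_lit 341) (nat_lit 5) (nat_lit 240) (nat_lit 230) (nat_lit 130)) (XT.lf (nat_lit 84) (nat_lit 13686357478) (nat_lit 0) (nat_lit 272945885) (nat_lit 1848) (nat_lit 126331406) (nat_lit 320) (nat_lit 5) (nat_lit 319) (nat_lit 5) (nat_lit 341) (nat_lit 5) (nat_lit 241) (nat_lit 230) (nat_lit 129))))) (XT.nd (nat_lit 36660) (nat_lit 0) (nat_lit 1176) (XT.nd (nat_lit 94) (nat_lit 0) (nat_lit 84) (XT.lf (nat_lit 0) (nat_lit 1878271107) (nat_lit 1848) (nat_lit 2533388434) (nat_lit 1932) (nat_lit 9922466689) (nat_lit 298) (nat_lit 5) (nat_lit 320) (nat_lit 5) (nat_lit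 321) (nat_lit 5) (nat_lit 242) (nat_lit 230) (nat_lit 128)) (XT.nd (nat_lit 94) (nat_lit 0) (nat_lit 84) (XT.lf (nat_lit 0) (nat_lit 4044212011) (nat_lit 1848) (nat_lit 4669961795) (nat_lit 1932) (nat_lit 5875073264) (nat_lit 299) (nat_lit 5) (nat_lit 321) (nat_lit 5) (nat_lit 322) (nat_lit 5) (nat_lit 243) (nat_lit 230) (nat_lit 127)) (XT.lf (nat_lit 0) (nat_lit 6382329009) (nat_lit 1848) (nat_lit 6807405445) (nat_lit 84) (nat_lit 1661442584) (nat_lit 300) (nat_lit 5) (nat_lit 322) (nat_lit 5) (nat_lit 301) (nat_lit 5) (nat_lit 244) (nat_lit 230) (nat_lit 126)))) (XT.nd (nat_lit 94) (nat_lit 0) (nat_lit 0) (XT.lf (nat_lit 0) (nat_lit 29840243) (nat_lit 0) (nat_lit 29840243) (nat_lit 1764) (nat_lit 5994562926) (nat_lit 312) (nat_lit 5) (nat_lit 312) (nat_lit 3) (nat_lit 333) (nat_lit 3) (nat_lit 231) (nat_lit 231) (nat_lit 138)) (XT.nd (nat_lit 94) (nat_lit 0) (nat_lit 84) (XT.lf (nat_lit 0) (nat_lit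 928921187) (nat_lit 1764) (nat_lit 2479135577) (nat_lit 1848) (nat_lit 8894564210) (nat_lit 312) (nat_lit 5) (nat_lit 333) (nat_lit 3) (nat_lit 334) (nat_lit 5) (nat_lit 232) (nat_lit 231) (nat_lit 137)) (XT.lf (nat_lit 0) (nat_lit 1828013201) (nat_lit 1764) (nat_lit 5028336585) (nat_lit 1848) (nat_lit 5645853693) (nat_lit 313) (nat_lit 5) (nat_lit 334) (nat_lit 5) (nat_lit 335) (nat_lit 5) (nat_lit 233) (nat_lit 231) (nat_lit 136)))))) (XT.nd (nat_lit 564) (nat_lit 1428) (nat_lit 0) (XT.nd (nat_lit 282) (nat_lit 0) (nat_lit 168) (XT.nd (nat_lit 94) (nat_lit 0) (nat_lit 0) (XT.lf (nat_lit 0) (nat_lit 2823079412) (nat_lit 1764) (nat_lit 7589435681) (nat_lit 1848) (nat_lit 2294837148) (nat_lit 314) (nat_lit 5) (nat_lit 335) (nat_lit 5) (nat_lit 336) (nat_lit 5) (nat_lit 234) (nat_lit 231) (nat_lit 135)) (XT.nd (nat_lit 94) (nat_lit 0) (nat_lit 84) (XT.lf (nat_lit 84) (nat_lit 2746605866) (nat_lit 0) (nat_lit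 1182973694) (nat_lit 1848) (nat_lit 8988416304) (nat_lit 315) (nat_lit 5) (nat_lit 314) (nat_lit 5) (nat_lit 336) (nat_lit 5) (nat_lit 235) (nat_lit 231) (nat_lit 134)) (XT.lf (nat_lit 84) (nat_lit 350441726) (nat_lit 0) (nat_lit 4813289343) (nat_lit 1848) (nat_lit 7970324620) (nat_lit 316) (nat_lit 5) (nat_lit 315) (nat_lit 5) (nat_lit 337) (nat_lit 5) (nat_lit 236) (nat_lit 231) (nat_lit 133)))) (XT.nd (nat_lit 94) (nat_lit 0) (nat_lit 84) (XT.lf (nat_lit 0) (nat_lit 6531034338) (nat_lit 1764) (nat_lit 2024260117) (nat_lit 1848) (nat_lit 4800404111) (nat_lit 316) (nat_lit 5) (nat_lit 337) (nat_lit 5) (nat_lit 338) (nat_lit 5) (nat_lit 237) (nat_lit 231) (nat_lit 132)) (XT.nd (nat_lit 94) (nat_lit 0) (nat_lit 0) (XT.lf (nat_lit 0) (nat_lit 8027073405) (nat_lit 1764) (nat_lit 4402004893) (nat_lit 1848) (nat_lit 1154241281) (nat_lit 317) (nat_lit 5) (nat_lit 338) (nat_lit 5) (nat_lit 339) (nat_lit 5)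 (nat_lit 238) (nat_lit 231) (nat_lit 131)) (XT.lf (nat_lit 84) (nat_lit 7009896248) (nat_lit 0) (nat_lit 2666323731) (nat_lit 1848) (nat_lit 4140470934) (nat_lit 318) (nat_lit 5) (nat_lit 317) (nat_lit 5) (nat_lit 339) (nat_lit 5) (nat_lit 239) (nat_lit 231) (nat_lit 130))))) (XT.nd (nat_lit 282) (nat_lit 0) (nat_lit 84) (XT.nd (nat_lit 94) (nat_lit 1764) (nat_lit 0) (XT.lf (nat_lit 84) (nat_lit 4827312006) (nat_lit 0) (nat_lit 6649653865) (nat_lit 1848) (nat_lit 2579199031) (nat_lit 319) (nat_lit 5) (nat_lit 318) (nat_lit 5) (nat_lit 340) (nat_lit 5) (nat_lit 240) (nat_lit 231) (nat_lit 129)) (XT.nd (nat_lit 94) (nat_lit 1848) (nat_lit 0) (XT.lf (nat_lit 84) (nat_lit 2642468755) (nat_lit 0) (nat_lit 10786902045) (nat_lit 1848) (nat_lit 872699755) (nat_lit 320) (nat_lit 5) (nat_lit 319) (nat_lit 5) (nat_lit 341) (nat_lit 5) (nat_lit 241) (nat_lit 231) (nat_lit 128)) (XT.lf (nat_lit 84) (nat_lit 444817698)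 (nat_lit 0) (nat_lit 532283170) (nat_lit 1932) (nat_lit 13577220254) (nat_lit 298) (nat_lit 5) (nat_lit 297) (nat_lit 5) (nat_lit 320) (nat_lit 5) (nat_lit 242) (nat_lit 231) (nat_lit 127)))) (XT.nd (nat_lit 36754) (nat_lit 0) (nat_lit 1176) (XT.nd (nat_lit 36660) (nat_lit 0) (nat_lit 1176) (XT.lf (nat_lit 0) (nat_lit 3013768853) (nat_lit 1848) (nat_lit 1762818829) (nat_lit 1932) (nat_lit 10035698284) (nat_lit 298) (nat_lit 5) (nat_lit 320) (nat_lit 5) (nat_lit 321) (nat_lit 5) (nat_lit 243) (nat_lit 231) (nat_lit 126)) (XT.lf (nat_lit 0) (nat_lit 398338011) (nat_lit 0) (nat_lit 398338011) (nat_lit 1764) (nat_lit 5453297962) (nat_lit 312) (nat_lit 5) (nat_lit 312) (nat_lit 3) (nat_lit 333) (nat_lit 3) (nat_lit 232) (nat_lit 232) (nat_lit 136))) (XT.nd (nat_lit 94) (nat_lit 0) (nat_lit 84) (XT.lf (nat_lit 0) (nat_lit 2376485142) (nat_lit 1764) (nat_lit 1819550222) (nat_lit 1848) (nat_lit 8506046206)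 (nat_lit 312) (nat_lit 5) (nat_lit 333) (nat_lit 3) (nat_lit 334) (nat_lit 5) (nat_lit 233) (nat_lit 232) (nat_lit 135)) (XT.lf (nat_lit 0) (nat_lit 3259840867) (nat_lit 1764) (nat_lit 4437916861) (nat_lit 1848) (nat_lit 5211930235) (nat_lit 313) (nat_lit 5) (nat_lit 334) (nat_lit 5) (nat_lit 335) (nat_lit 5) (nat_lit 234) (nat_lit 232) (nat_lit 134))))))))
noncomputable def xc31 : XT := (XT.nd (nat_lit 75764) (nat_lit 0) (nat_lit 1260) (XT.nd (nat_lit 37788) (nat_lit 0) (nat_lit 0) (XT.nd (nat_lit 564) (nat_lit 1428) (nat_lit 0) (XT.nd (nat_lit 282) (nat_lit 0) (nat_lit 168) (XT.nd (nat_lit 94) (nat_lit 0) (nat_lit 0) (XT.lf (nat_lit 0) (nat_lit 4244730158) (nat_lit 1764) (nat_lit 7070457302) (nat_lit 1848) (nat_lit 1807819564) (nat_lit 314) (nat_lit 5) (nat_lit 335) (nat_lit 5) (nat_lit 336) (nat_lit 5) (nat_lit 235) (nat_lit 232) (nat_lit 133)) (XT.nd (nat_lit 94) (nat_lit 0) (nat_lit 84) (XT.lf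 (nat_lit 84) (nat_lit 3611891309) (nat_lit 0) (nat_lit 1738811549) (nat_lit 1848) (nat_lit 7991183925) (nat_lit 315) (nat_lit 5) (nat_lit 314) (nat_lit 5) (nat_lit 336) (nat_lit 5) (nat_lit 236) (nat_lit 232) (nat_lit 132)) (XT.lf (nat_lit 84) (nat_lit 1147986410) (nat_lit 0) (nat_lit 5438710116) (nat_lit 1848) (nat_lit 6979721945) (nat_lit 316) (nat_lit 5) (nat_lit 315) (nat_lit 5) (nat_lit 337) (nat_lit 5) (nat_lit 237) (nat_lit 232) (nat_lit 131)))) (XT.nd (nat_lit 94) (nat_lit 0) (nat_lit 84) (XT.lf (nat_lit 0) (nat_lit 7956702537) (nat_lit 1764) (nat_lit 1306835411) (nat_lit 1848) (nat_lit 4533274264) (nat_lit 316) (nat_lit 5) (nat_lit 337) (nat_lit 5) (nat_lit 338) (nat_lit 5) (nat_lit 238) (nat_lit 232) (nat_lit 130)) (XT.nd (nat_lit 94) (nat_lit 0) (nat_lit 0) (XT.lf (nat_lit 0) (nat_lit 9467352908) (nat_lit 1764) (nat_lit 3754988027) (nat_lit 1848) (nat_lit 810889527) (nat_lit 317) (nat_lit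 5) (nat_lit 338) (nat_lit 5) (nat_lit 339) (nat_lit 5) (nat_lit 239) (nat_lit 232) (nat_lit 129)) (XT.lf (nat_lit 84) (nat_lit 8040550689) (nat_lit 0) (nat_lit 3100058396) (nat_lit 1848) (nat_lit 3134900139) (nat_lit 318) (nat_lit 5) (nat_lit 317) (nat_lit 5) (nat_lit 339) (nat_lit 5) (nat_lit 240) (nat_lit 232) (nat_lit 128))))) (XT.nd (nat_lit 36942) (nat_lit 0) (nat_lit 1260) (XT.nd (nat_lit 94) (nat_lit 1764) (nat_lit 0) (XT.lf (nat_lit 84) (nat_lit 5792762974) (nat_lit 0) (nat_lit 7176881013) (nat_lit 1848) (nat_lit 1554485032) (nat_lit 319) (nat_lit 5) (nat_lit 318) (nat_lit 5) (nat_lit 340) (nat_lit 5) (nat_lit 241) (nat_lit 232) (nat_lit 127)) (XT.nd (nat_lit 94) (nat_lit 0) (nat_lit 0) (XT.lf (nat_lit 0) (nat_lit 175274595) (nat_lit 1848) (nat_lit 11239291020) (nat_lit 1932) (nat_lit 3364777754) (nat_lit 297) (nat_lit 5) (nat_lit 319) (nat_lit 5) (nat_lit 320) (nat_lit 5) (nat_lit 242) (nat_lit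 232) (nat_lit 126)) (XT.lf (nat_lit 84) (nat_lit 1266158987) (nat_lit 0) (nat_lit 780357658) (nat_lit 1932) (nat_lit 12994430939) (nat_lit 298) (nat_lit 5) (nat_lit 297) (nat_lit 5) (nat_lit 320) (nat_lit 5) (nat_lit 243) (nat_lit 232) (nat_lit 125)))) (XT.nd (nat_lit 94) (nat_lit 0) (nat_lit 0) (XT.lf (nat_lit 0) (nat_lit 755301484) (nat_lit 0) (nat_lit 755301484) (nat_lit 1764) (nat_lit 4943027153) (nat_lit 312) (nat_lit 5) (nat_lit 312) (nat_lit 3) (nat_lit 333) (nat_lit 3) (nat_lit 233) (nat_lit 233) (nat_lit 134)) (XT.nd (nat_lit 94) (nat_lit 0) (nat_lit 84) (XT.lf (nat_lit 0) (nat_lit 3780628038) (nat_lit 1764) (nat_lit 1186504008) (nat_lit 1848) (nat_lit 8150461129) (nat_lit 312) (nat_lit 5) (nat_lit 333) (nat_lit 3) (nat_lit 334) (nat_lit 5) (nat_lit 234) (nat_lit 233) (nat_lit 133)) (XT.lf (nat_lit 0) (nat_lit 4650835298) (nat_lit 1764) (nat_lit 3877790610) (nat_lit 1848) (nat_lit 4804809333)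 (nat_lit 313) (nat_lit 5) (nat_lit 334) (nat_lit 5) (nat_lit 335) (nat_lit 5) (nat_lit 235) (nat_lit 233) (nat_lit 132)))))) (XT.nd (nat_lit 564) (nat_lit 1428) (nat_lit 0) (XT.nd (nat_lit 282) (nat_lit 0) (nat_lit 168) (XT.nd (nat_lit 94) (nat_lit 0) (nat_lit 0) (XT.lf (nat_lit 0) (nat_lit 5628183777) (nat_lit 1764) (nat_lit 6585482758) (nat_lit 1848) (nat_lit 1341478197) (nat_lit 314) (nat_lit 5) (nat_lit 335) (nat_lit 5) (nat_lit 336) (nat_lit 5) (nat_lit 236) (nat_lit 233) (nat_lit 131)) (XT.nd (nat_lit 94) (nat_lit 0) (nat_lit 84) (XT.lf (nat_lit 84) (nat_lit 4456321216) (nat_lit 0) (nat_lit 2279899387) (nat_lit 1848) (nat_lit 7046270868) (nat_lit 315) (nat_lit 5) (nat_lit 314) (nat_lit 5) (nat_lit 336) (nat_lit 5) (nat_lit 237) (nat_lit 233) (nat_lit 130)) (XT.lf (nat_lit 84) (nat_lit 1921232492) (nat_lit 0) (nat_lit 6055637955) (nat_lit 1848) (nat_lit 6038860600) (nat_lit 316) (nat_lit 5) (nat_lit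 315) (nat_lit 5) (nat_lit 337) (nat_lit 5) (nat_lit 238) (nat_lit 233) (nat_lit 129)))) (XT.nd (nat_lit 94) (nat_lit 0) (nat_lit 84) (XT.lf (nat_lit 0) (nat_lit 9352675979) (nat_lit 1764) (nat_lit 616712614) (nat_lit 1848) (nat_lit 4285727291) (nat_lit 316) (nat_lit 5) (nat_lit 337) (nat_lit 5) (nat_lit 338) (nat_lit 5) (nat_lit 239) (nat_lit 233) (nat_lit 128)) (XT.nd (nat_lit 94) (nat_lit 0) (nat_lit 0) (XT.lf (nat_lit 0) (nat_lit 10880959025) (nat_lit 1764) (nat_lit 3138589287) (nat_lit 1848) (nat_lit 481035743) (nat_lit 317) (nat_lit 5) (nat_lit 338) (nat_lit 5) (nat_lit 339) (nat_lit 5) (nat_lit 240) (nat_lit 233) (nat_lit 127)) (XT.lf (nat_lit 84) (nat_lit 9055063453) (nat_lit 0) (nat_lit 3526339929) (nat_lit 1848) (nat_lit 2170629459) (nat_lit 318) (nat_lit 5) (nat_lit 317) (nat_lit 5) (nat_lit 339) (nat_lit 5) (nat_lit 241) (nat_lit 233) (nat_lit 126))))) (XT.nd (nat_lit 37036) (nat_lit 0) (nat_lit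 1260) (XT.nd (nat_lit 94) (nat_lit 1764) (nat_lit 0) (XT.lf (nat_lit 84) (nat_lit 6739046328) (nat_lit 0) (nat_lit 7702980726) (nat_lit 1848) (nat_lit 568040679) (nat_lit 319) (nat_lit 5) (nat_lit 318) (nat_lit 5) (nat_lit 340) (nat_lit 5) (nat_lit 242) (nat_lit 233) (nat_lit 125)) (XT.nd (nat_lit 36848) (nat_lit 0) (nat_lit 1260) (XT.lf (nat_lit 0) (nat_lit 1176073493) (nat_lit 1848) (nat_lit 10865355116) (nat_lit 1932) (nat_lit 3233309164) (nat_lit 297) (nat_lit 5) (nat_lit 319) (nat_lit 5) (nat_lit 320) (nat_lit 5) (nat_lit 243) (nat_lit 233) (nat_lit 124)) (XT.lf (nat_lit 0) (nat_lit 1101951410) (nat_lit 0) (nat_lit 1101951410) (nat_lit 1764) (nat_lit 4461514922) (nat_lit 312) (nat_lit 5) (nat_lit 312) (nat_lit 3) (nat_lit 333) (nat_lit 3) (nat_lit 234) (nat_lit 234) (nat_lit 132)))) (XT.nd (nat_lit 188) (nat_lit 0) (nat_lit 168) (XT.nd (nat_lit 94) (nat_lit 0) (nat_lit 84) (XT.lf (nat_lit 0) (nat_lit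 5146085837) (nat_lit 1764) (nat_lit 577626297) (nat_lit 1848) (nat_lit 7825867814) (nat_lit 312) (nat_lit 5) (nat_lit 333) (nat_lit 3) (nat_lit 334) (nat_lit 5) (nat_lit 235) (nat_lit 234) (nat_lit 131)) (XT.lf (nat_lit 0) (nat_lit 6005614348) (nat_lit 1764) (nat_lit 3345629932) (nat_lit 1848) (nat_lit 4422637199) (nat_lit 313) (nat_lit 5) (nat_lit 334) (nat_lit 5) (nat_lit 335) (nat_lit 5) (nat_lit 236) (nat_lit 234) (nat_lit 130))) (XT.nd (nat_lit 94) (nat_lit 0) (nat_lit 0) (XT.lf (nat_lit 0) (nat_lit 6977951431) (nat_lit 1764) (nat_lit 6132233564) (nat_lit 1848) (nat_lit 894028616) (nat_lit 314) (nat_lit 5) (nat_lit 335) (nat_lit 5) (nat_lit 336) (nat_lit 5) (nat_lit 237) (nat_lit 234) (nat_lit 129)) (XT.lf (nat_lit 84) (nat_lit 5282565942) (nat_lit 0) (nat_lit 2807995181) (nat_lit 1848) (nat_lit 6149708949) (nat_lit 315) (nat_lit 5) (nat_lit 314) (nat_lit 5) (nat_lit 336) (nat_lit 5) (nat_lit 238)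 (nat_lit 234) (nat_lit 128))))))) (XT.nd (nat_lit 75106) (nat_lit 0) (nat_lit 0) (XT.nd (nat_lit 37506) (nat_lit 0) (nat_lit 84) (XT.nd (nat_lit 282) (nat_lit 252) (nat_lit 0) (XT.nd (nat_lit 94) (nat_lit 0) (nat_lit 84) (XT.lf (nat_lit 84) (nat_lit 2672801105) (nat_lit 0) (nat_lit 6665795730) (nat_lit 1848) (nat_lit 5143869009) (nat_lit 316) (nat_lit 5) (nat_lit 315) (nat_lit 5) (nat_lit 337) (nat_lit 5) (nat_lit 239) (nat_lit 234) (nat_lit 127)) (XT.nd (nat_lit 94) (nat_lit 0) (nat_lit 84) (XT.lf (nat_lit 84) (nat_lit 49348301) (nat_lit 0) (nat_lit 10674210658) (nat_lit 1848) (nat_lit 4007528116) (nat_lit 317) (nat_lit 5) (nat_lit 316) (nat_lit 5) (nat_lit 338) (nat_lit 5) (nat_lit 240) (nat_lit 234) (nat_lit 126)) (XT.lf (nat_lit 0) (nat_lit 12272083394) (nat_lit 1764) (nat_lit 2550338840) (nat_lit 1848) (nat_lit 163455866) (nat_lit 317) (nat_lit 5) (nat_lit 338) (nat_lit 5) (nat_lit 339) (nat_lit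 5) (nat_lit 241) (nat_lit 234) (nat_lit 125)))) (XT.nd (nat_lit 37036) (nat_lit 420) (nat_lit 0) (XT.lf (nat_lit 84) (nat_lit 10056341290) (nat_lit 0) (nat_lit 3946412381) (nat_lit 1848) (nat_lit 1244018294) (nat_lit 318) (nat_lit 5) (nat_lit 317) (nat_lit 5) (nat_lit 339) (nat_lit 5) (nat_lit 242) (nat_lit 234) (nat_lit 124)) (XT.nd (nat_lit 94) (nat_lit 0) (nat_lit 0) (XT.lf (nat_lit 0) (nat_lit 1439443254) (nat_lit 0) (nat_lit 1439443254) (nat_lit 1764) (nat_lit 4006668220) (nat_lit 312) (nat_lit 5) (nat_lit 312) (nat_lit 3) (nat_lit 333) (nat_lit 3) (nat_lit 235) (nat_lit 235) (nat_lit 130)) (XT.lf (nat_lit 84) (nat_lit 9453293) (nat_lit 0) (nat_lit 6467958366) (nat_lit 1848) (nat_lit 7521076905) (nat_lit 313) (nat_lit 5) (nat_lit 312) (nat_lit 5) (nat_lit 334) (nat_lit 5) (nat_lit 236) (nat_lit 235) (nat_lit 129))))) (XT.nd (nat_lit 282) (nat_lit 0) (nat_lit 168) (XT.nd (nat_lit 94) (nat_lit 0)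 (nat_lit 84) (XT.lf (nat_lit 0) (nat_lit 7328555431) (nat_lit 1764) (nat_lit 2839250726) (nat_lit 1848) (nat_lit 4063680793) (nat_lit 313) (nat_lit 5) (nat_lit 334) (nat_lit 5) (nat_lit 335) (nat_lit 5) (nat_lit 237) (nat_lit 235) (nat_lit 128)) (XT.nd (nat_lit 94) (nat_lit 0) (nat_lit 0) (XT.lf (nat_lit 0) (nat_lit 8298313337) (nat_lit 1764) (nat_lit 5708582115) (nat_lit 1848) (nat_lit 463790698) (nat_lit 314) (nat_lit 5) (nat_lit 335) (nat_lit 5) (nat_lit 336) (nat_lit 5) (nat_lit 238) (nat_lit 235) (nat_lit 127)) (XT.lf (nat_lit 84) (nat_lit 6093163218) (nat_lit 0) (nat_lit 3324767220) (nat_lit 1848) (nat_lit 5297776693) (nat_lit 315) (nat_lit 5) (nat_lit 314) (nat_lit 5) (nat_lit 336) (nat_lit 5) (nat_lit 239) (nat_lit 235) (nat_lit 126)))) (XT.nd (nat_lit 94) (nat_lit 0) (nat_lit 84) (XT.lf (nat_lit 84) (nat_lit 3405174297) (nat_lit 0) (nat_lit 7270832293) (nat_lit 1848) (nat_lit 4291113263) (nat_lit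 316) (nat_lit 5) (nat_lit 315) (nat_lit 5) (nat_lit 337) (nat_lit 5) (nat_lit 240) (nat_lit 235) (nat_lit 125)) (XT.nd (nat_lit 94) (nat_lit 0) (nat_lit 0) (XT.lf (nat_lit 84) (nat_lit 701707921) (nat_lit 0) (nat_lit 11375637185) (nat_lit 1848) (nat_lit 3147803862) (nat_lit 317) (nat_lit 5) (nat_lit 316) (nat_lit 5) (nat_lit 338) (nat_lit 5) (nat_lit 241) (nat_lit 235) (nat_lit 124)) (XT.lf (nat_lit 84) (nat_lit 13500663098) (nat_lit 0) (nat_lit 145094028) (nat_lit 1848) (nat_lit 1843855389) (nat_lit 317) (nat_lit 5) (nat_lit 316) (nat_lit 5) (nat_lit 338) (nat_lit 5) (nat_lit 242) (nat_lit 235) (nat_lit 123)))))) (XT.nd (nat_lit 37788) (nat_lit 0) (nat_lit 0) (XT.nd (nat_lit 282) (nat_lit 0) (nat_lit 168) (XT.nd (nat_lit 94) (nat_lit 0) (nat_lit 0) (XT.lf (nat_lit 0) (nat_lit 1768872095) (nat_lit 0) (nat_lit 1768872095) (nat_lit 1764) (nat_lit 3576526826) (nat_lit 312) (nat_lit 5) (nat_lit 312) (nat_lit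 3) (nat_lit 333) (nat_lit 3) (nat_lit 236) (nat_lit 236) (nat_lit 128)) (XT.nd (nat_lit 94) (nat_lit 0) (nat_lit 84) (XT.lf (nat_lit 84) (nat_lit 584857736) (nat_lit 0) (nat_lit 7197966340) (nat_lit 1848) (nat_lit 6681880121) (nat_lit 313) (nat_lit 5) (nat_lit 312) (nat_lit 5) (nat_lit 334) (nat_lit 5) (nat_lit 237) (nat_lit 236) (nat_lit 127)) (XT.lf (nat_lit 0) (nat_lit 8623813844) (nat_lit 1764) (nat_lit 2356602748) (nat_lit 1848) (nat_lit 3726319703) (nat_lit 313) (nat_lit 5) (nat_lit 334) (nat_lit 5) (nat_lit 335) (nat_lit 5) (nat_lit 238) (nat_lit 236) (nat_lit 126)))) (XT.nd (nat_lit 94) (nat_lit 0) (nat_lit 0) (XT.lf (nat_lit 0) (nat_lit 9593336539) (nat_lit 1764) (nat_lit 5312541630) (nat_lit 1848) (nat_lit 49181186) (nat_lit 314) (nat_lit 5) (nat_lit 335) (nat_lit 5) (nat_lit 336) (nat_lit 5) (nat_lit 239) (nat_lit 236) (nat_lit 125)) (XT.nd (nat_lit 94) (nat_lit 0) (nat_lit 84) (XT.lf (nat_lit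 84) (nat_lit 6890528548) (nat_lit 0) (nat_lit 3831801026) (nat_lit 1848) (nat_lit 4486982332) (nat_lit 315) (nat_lit 5) (nat_lit 314) (nat_lit 5) (nat_lit 336) (nat_lit 5) (nat_lit 240) (nat_lit 236) (nat_lit 124)) (XT.lf (nat_lit 84) (nat_lit 4120705515) (nat_lit 0) (nat_lit 7872328822) (nat_lit 1848) (nat_lit 3477180626) (nat_lit 316) (nat_lit 5) (nat_lit 315) (nat_lit 5) (nat_lit 337) (nat_lit 5) (nat_lit 241) (nat_lit 236) (nat_lit 123))))) (XT.nd (nat_lit 282) (nat_lit 0) (nat_lit 0) (XT.nd (nat_lit 94) (nat_lit 0) (nat_lit 0) (XT.lf (nat_lit 0) (nat_lit 2091277218) (nat_lit 0) (nat_lit 2091277218) (nat_lit 1764) (nat_lit 3169254303) (nat_lit 312) (nat_lit 5) (nat_lit 312) (nat_lit 3) (nat_lit 333) (nat_lit 3) (nat_lit 237) (nat_lit 237) (nat_lit 126)) (XT.nd (nat_lit 94) (nat_lit 0) (nat_lit 84) (XT.lf (nat_lit 84) (nat_lit 1142165095) (nat_lit 0) (nat_lit 7920038625) (nat_lit 1848) (nat_lit 5886611547)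 (nat_lit 313) (nat_lit 5) (nat_lit 312) (nat_lit 5) (nat_lit 334) (nat_lit 5) (nat_lit 238) (nat_lit 237) (nat_lit 125)) (XT.lf (nat_lit 0) (nat_lit 9895339946) (nat_lit 1764) (nat_lit 1895760309) (nat_lit 1848) (nat_lit 3409038574) (nat_lit 313) (nat_lit 5) (nat_lit 334) (nat_lit 5) (nat_lit 335) (nat_lit 5) (nat_lit 239) (nat_lit 237) (nat_lit 124)))) (XT.nd (nat_lit 37600) (nat_lit 0) (nat_lit 0) (XT.nd (nat_lit 37506) (nat_lit 84) (nat_lit 0) (XT.lf (nat_lit 84) (nat_lit 10513003553) (nat_lit 0) (nat_lit 356426944) (nat_lit 1848) (nat_lit 4588368737) (nat_lit 314) (nat_lit 5) (nat_lit 313) (nat_lit 5) (nat_lit 335) (nat_lit 5) (nat_lit 240) (nat_lit 237) (nat_lit 123)) (XT.lf (nat_lit 0) (nat_lit 2407646417) (nat_lit 0) (nat_lit 2407646417) (nat_lit 1764) (nat_lit 2783129534) (nat_lit 312) (nat_lit 5) (nat_lit 312) (nat_lit 3) (nat_lit 333) (nat_lit 3) (nat_lit 238) (nat_lit 238) (nat_lit 124)))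 (XT.nd (nat_lit 94) (nat_lit 0) (nat_lit 84) (XT.lf (nat_lit 84) (nat_lit 1683284273) (nat_lit 0) (nat_lit 8636123930) (nat_lit 1848) (nat_lit 5131934996) (nat_lit 313) (nat_lit 5) (nat_lit 312) (nat_lit 5) (nat_lit 334) (nat_lit 5) (nat_lit 239) (nat_lit 238) (nat_lit 123)) (XT.lf (nat_lit 0) (nat_lit 11146895278) (nat_lit 1764) (nat_lit 1454913586) (nat_lit 1848) (nat_lit 3110420018) (nat_lit 313) (nat_lit 5) (nat_lit 334) (nat_lit 5) (nat_lit 335) (nat_lit 5) (nat_lit 240) (nat_lit 238) (nat_lit 122))))))))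
noncomputable def ec0 : XT := (XT.nd (nat_lit 150400) (nat_lit 0) (nat_lit 0) (XT.nd (nat_lit 112424) (nat_lit 0) (nat_lit 0) (XT.nd (nat_lit 74918) (nat_lit 0) (nat_lit 0) (XT.nd (nat_lit 37506) (nat_lit 0) (nat_lit 84) (XT.nd (nat_lit 94) (nat_lit 84) (nat_lit 0) (XT.lf (nat_lit 1932) (nat_lit 501474046) (nat_lit 0) (nat_lit 700364189) (nat_lit 1848) (nat_lit 1725231779) (nat_lit 313) (nat_lit 1) (nat_lit 290) (nat_lit 1) (nat_lit 312) (nat_lit 1) (nat_lit 219) (nat_lit 191) (nat_lit 190)) (XT.nd (nat_lit 37318) (nat_lit 84) (nat_lit 0) (XT.lf (nat_lit 1932) (nat_lit 2151968798) (nat_lit 84) (nat_lit 597351374) (nat_lit 0) (nat_lit 128297228) (nat_lit 313) (nat_lit 1) (nat_lit 291) (nat_lit 1) (nat_lit 290) (nat_lit 1) (nat_lit 220) (nat_lit 191) (nat_lit 189)) (XT.lf (nat_lit 1932) (nat_lit 589354348) (nat_lit 0) (nat_lit 362243818) (nat_lit 1932) (nat_lit 589354348) (nat_lit 312) (nat_lit 1) (nat_lit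 289) (nat_lit 0) (nat_lit 312) (nat_lit 0) (nat_lit 216) (nat_lit 192) (nat_lit 192)))) (XT.nd (nat_lit 94) (nat_lit 0) (nat_lit 0) (XT.lf (nat_lit 1932) (nat_lit 519025638) (nat_lit 0) (nat_lit 724876935) (nat_lit 1848) (nat_lit 1785614891) (nat_lit 313) (nat_lit 1) (nat_lit 290) (nat_lit 1) (nat_lit 312) (nat_lit 1) (nat_lit 217) (nat_lit 192) (nat_lit 191)) (XT.nd (nat_lit 94) (nat_lit 0) (nat_lit 84) (XT.lf (nat_lit 1932) (nat_lit 2227287706) (nat_lit 84) (nat_lit 618258672) (nat_lit 0) (nat_lit 132787631) (nat_lit 313) (nat_lit 1) (nat_lit 291) (nat_lit 1) (nat_lit 290) (nat_lit 1) (nat_lit 218) (nat_lit 192) (nat_lit 190)) (XT.lf (nat_lit 1932) (nat_lit 2123795206) (nat_lit 84) (nat_lit 22258200) (nat_lit 0) (nat_lit 782208985) (nat_lit 314) (nat_lit 1) (nat_lit 292) (nat_lit 1) (nat_lit 291) (nat_lit 1) (nat_lit 219) (nat_lit 192) (nat_lit 189))))) (XT.nd (nat_lit 282) (nat_lit 0) (nat_lit 168)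 (XT.nd (nat_lit 94) (nat_lit 0) (nat_lit 84) (XT.lf (nat_lit 1932) (nat_lit 609981750) (nat_lit 0) (nat_lit 374922351) (nat_lit 1932) (nat_lit 609981750) (nat_lit 312) (nat_lit 1) (nat_lit 289) (nat_lit 0) (nat_lit 312) (nat_lit 0) (nat_lit 214) (nat_lit 193) (nat_lit 193)) (XT.nd (nat_lit 94) (nat_lit 0) (nat_lit 0) (XT.lf (nat_lit 1932) (nat_lit 537191535) (nat_lit 0) (nat_lit 750247628) (nat_lit 1848) (nat_lit 1848111413) (nat_lit 313) (nat_lit 1) (nat_lit 290) (nat_lit 1) (nat_lit 312) (nat_lit 1) (nat_lit 215) (nat_lit 193) (nat_lit 192)) (XT.lf (nat_lit 1932) (nat_lit 2305242775) (nat_lit 84) (nat_lit 639897725) (nat_lit 0) (nat_lit 137435198) (nat_lit 313) (nat_lit 1) (nat_lit 291) (nat_lit 1) (nat_lit 290) (nat_lit 1) (nat_lit 216) (nat_lit 193) (nat_lit 191)))) (XT.nd (nat_lit 94) (nat_lit 0) (nat_lit 84) (XT.lf (nat_lit 1932) (nat_lit 2198128038) (nat_lit 84) (nat_lit 23037237) (nat_lit 0)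 (nat_lit 809586300) (nat_lit 314) (nat_lit 1) (nat_lit 292) (nat_lit 1) (nat_lit 291) (nat_lit 1) (nat_lit 217) (nat_lit 193) (nat_lit 190)) (XT.nd (nat_lit 94) (nat_lit 0) (nat_lit 84) (XT.lf (nat_lit 1932) (nat_lit 1512753048) (nat_lit 0) (nat_lit 914973679) (nat_lit 1848) (nat_lit 552316786) (nat_lit 315) (nat_lit 1) (nat_lit 292) (nat_lit 1) (nat_lit 314) (nat_lit 1) (nat_lit 218) (nat_lit 193) (nat_lit 189)) (XT.lf (nat_lit 1932) (nat_lit 815845083) (nat_lit 0) (nat_lit 1019121099) (nat_lit 1848) (nat_lit 1095543231) (nat_lit 316) (nat_lit 1) (nat_lit 293) (nat_lit 1) (nat_lit 315) (nat_lit 1) (nat_lit 219) (nat_lit 193) (nat_lit 188)))))) (XT.nd (nat_lit 564) (nat_lit 0) (nat_lit 0) (XT.nd (nat_lit 282) (nat_lit 0) (nat_lit 168) (XT.nd (nat_lit 94) (nat_lit 0) (nat_lit 84) (XT.lf (nat_lit 1932) (nat_lit 631331112) (nat_lit 0) (nat_lit 388044634) (nat_lit 1932) (nat_lit 631331112) (nat_lit 312)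 (nat_lit 1) (nat_lit 289) (nat_lit 0) (nat_lit 312) (nat_lit 0) (nat_lit 212) (nat_lit 194) (nat_lit 194)) (XT.nd (nat_lit 94) (nat_lit 0) (nat_lit 0) (XT.lf (nat_lit 1932) (nat_lit 555993239) (nat_lit 0) (nat_lit 776506295) (nat_lit 1848) (nat_lit 1912795312) (nat_lit 313) (nat_lit 1) (nat_lit 290) (nat_lit 1) (nat_lit 312) (nat_lit 1) (nat_lit 213) (nat_lit 194) (nat_lit 193)) (XT.lf (nat_lit 1932) (nat_lit 2385926273) (nat_lit 84) (nat_lit 662294146) (nat_lit 0) (nat_lit 142245430) (nat_lit 313) (nat_lit 1) (nat_lit 291) (nat_lit 1) (nat_lit 290) (nat_lit 1) (nat_lit 214) (nat_lit 194) (nat_lit 192)))) (XT.nd (nat_lit 94) (nat_lit 0) (nat_lit 84) (XT.lf (nat_lit 1932) (nat_lit 2275062520) (nat_lit 84) (nat_lit 23843540) (nat_lit 0) (nat_lit 837921820) (nat_lit 314) (nat_lit 1) (nat_lit 292) (nat_lit 1) (nat_lit 291) (nat_lit 1) (nat_lit 215) (nat_lit 194) (nat_lit 191)) (XT.nd (nat_lit 94) (nat_lit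 0) (nat_lit 84) (XT.lf (nat_lit 1932) (nat_lit 1565699405) (nat_lit 0) (nat_lit 946997758) (nat_lit 1848) (nat_lit 571647874) (nat_lit 315) (nat_lit 1) (nat_lit 292) (nat_lit 1) (nat_lit 314) (nat_lit 1) (nat_lit 216) (nat_lit 194) (nat_lit 190)) (XT.lf (nat_lit 1932) (nat_lit 844399661) (nat_lit 0) (nat_lit 1054790338) (nat_lit 1848) (nat_lit 1133887244) (nat_lit 316) (nat_lit 1) (nat_lit 293) (nat_lit 1) (nat_lit 315) (nat_lit 1) (nat_lit 217) (nat_lit 194) (nat_lit 189))))) (XT.nd (nat_lit 37036) (nat_lit 0) (nat_lit 84) (XT.nd (nat_lit 94) (nat_lit 420) (nat_lit 0) (XT.lf (nat_lit 1932) (nat_lit 134833958) (nat_lit 0) (nat_lit 1183784868) (nat_lit 1848) (nat_lit 1664377679) (nat_lit 317) (nat_lit 1) (nat_lit 294) (nat_lit 1) (nat_lit 316) (nat_lit 1) (nat_lit 218) (nat_lit 194) (nat_lit 188)) (XT.nd (nat_lit 36848) (nat_lit 420) (nat_lit 0) (XT.lf (nat_lit 1932) (nat_lit 1597072403) (nat_lit 84)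 (nat_lit 765671904) (nat_lit 0) (nat_lit 571238171) (nat_lit 317) (nat_lit 1) (nat_lit 295) (nat_lit 1) (nat_lit 294) (nat_lit 1) (nat_lit 219) (nat_lit 194) (nat_lit 187)) (XT.lf (nat_lit 1932) (nat_lit 653427701) (nat_lit 0) (nat_lit 401626196) (nat_lit 1932) (nat_lit 653427701) (nat_lit 312) (nat_lit 1) (nat_lit 289) (nat_lit 0) (nat_lit 312) (nat_lit 0) (nat_lit 210) (nat_lit 195) (nat_lit 195)))) (XT.nd (nat_lit 188) (nat_lit 0) (nat_lit 84) (XT.nd (nat_lit 94) (nat_lit 0) (nat_lit 0) (XT.lf (nat_lit 1932) (nat_lit 575453002) (nat_lit 0) (nat_lit 803684015) (nat_lit 1848) (nat_lit 1979743148) (nat_lit 313) (nat_lit 1) (nat_lit 290) (nat_lit 1) (nat_lit 312) (nat_lit 1) (nat_lit 211) (nat_lit 195) (nat_lit 194)) (XT.lf (nat_lit 1932) (nat_lit 2469433692) (nat_lit 84) (nat_lit 685474441) (nat_lit 0) (nat_lit 147224020) (nat_lit 313) (nat_lit 1) (nat_lit 291) (nat_lit 1) (nat_lit 290) (nat_lit 1)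 (nat_lit 212) (nat_lit 195) (nat_lit 193))) (XT.nd (nat_lit 94) (nat_lit 0) (nat_lit 84) (XT.lf (nat_lit 1932) (nat_lit 2354689708) (nat_lit 84) (nat_lit 24678064) (nat_lit 0) (nat_lit 867249084) (nat_lit 314) (nat_lit 1) (nat_lit 292) (nat_lit 1) (nat_lit 291) (nat_lit 1) (nat_lit 213) (nat_lit 195) (nat_lit 192)) (XT.lf (nat_lit 1932) (nat_lit 1620498884) (nat_lit 0) (nat_lit 980142680) (nat_lit 1848) (nat_lit 591655549) (nat_lit 315) (nat_lit 1) (nat_lit 292) (nat_lit 1) (nat_lit 314) (nat_lit 1) (nat_lit 214) (nat_lit 195) (nat_lit 191))))))) (XT.nd (nat_lit 37788) (nat_lit 0) (nat_lit 0) (XT.nd (nat_lit 37130) (nat_lit 0) (nat_lit 84) (XT.nd (nat_lit 282) (nat_lit 336) (nat_lit 0) (XT.nd (nat_lit 94) (nat_lit 0) (nat_lit 84) (XT.lf (nat_lit 1932) (nat_lit 873953649) (nat_lit 0) (nat_lit 1091708000) (nat_lit 1848) (nat_lit 1173573297) (nat_lit 316) (nat_lit 1) (nat_lit 293) (nat_lit 1) (nat_lit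 315) (nat_lit 1) (nat_lit 215) (nat_lit 195) (nat_lit 190)) (XT.nd (nat_lit 94) (nat_lit 0) (nat_lit 0) (XT.lf (nat_lit 1932) (nat_lit 139553147) (nat_lit 0) (nat_lit 1225217338) (nat_lit 1848) (nat_lit 1722630898) (nat_lit 317) (nat_lit 1) (nat_lit 294) (nat_lit 1) (nat_lit 316) (nat_lit 1) (nat_lit 216) (nat_lit 195) (nat_lit 189)) (XT.lf (nat_lit 1932) (nat_lit 1652969937) (nat_lit 84) (nat_lit 792470420) (nat_lit 0) (nat_lit 591231507) (nat_lit 317) (nat_lit 1) (nat_lit 295) (nat_lit 1) (nat_lit 294) (nat_lit 1) (nat_lit 217) (nat_lit 195) (nat_lit 188)))) (XT.nd (nat_lit 94) (nat_lit 504) (nat_lit 0) (XT.lf (nat_lit 1932) (nat_lit 1424348759) (nat_lit 84) (nat_lit 250969058) (nat_lit 0) (nat_lit 1311769957) (nat_lit 318) (nat_lit 1) (nat_lit 296) (nat_lit 1) (nat_lit 295) (nat_lit 1) (nat_lit 218) (nat_lit 195) (nat_lit 187)) (XT.nd (nat_lit 36660) (nat_lit 588) (nat_lit 0) (XT.lf (nat_lit 1932)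 (nat_lit 920436830) (nat_lit 0) (nat_lit 1762084770) (nat_lit 1848) (nat_lit 256078855) (nat_lit 319) (nat_lit 1) (nat_lit 296) (nat_lit 1) (nat_lit 318) (nat_lit 1) (nat_lit 219) (nat_lit 195) (nat_lit 186)) (XT.lf (nat_lit 1932) (nat_lit 676297670) (nat_lit 0) (nat_lit 415683113) (nat_lit 1932) (nat_lit 676297670) (nat_lit 312) (nat_lit 1) (nat_lit 289) (nat_lit 0) (nat_lit 312) (nat_lit 0) (nat_lit 208) (nat_lit 196) (nat_lit 196))))) (XT.nd (nat_lit 282) (nat_lit 0) (nat_lit 168) (XT.nd (nat_lit 94) (nat_lit 0) (nat_lit 0) (XT.lf (nat_lit 1932) (nat_lit 595593857) (nat_lit 0) (nat_lit 831812956) (nat_lit 1848) (nat_lit 2049034158) (nat_lit 313) (nat_lit 1) (nat_lit 290) (nat_lit 1) (nat_lit 312) (nat_lit 1) (nat_lit 209) (nat_lit 196) (nat_lit 195)) (XT.nd (nat_lit 94) (nat_lit 0) (nat_lit 84) (XT.lf (nat_lit 1932) (nat_lit 2555863871) (nat_lit 84) (nat_lit 709466046) (nat_lit 0) (nat_lit 152376860)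 (nat_lit 313) (nat_lit 1) (nat_lit 291) (nat_lit 1) (nat_lit 290) (nat_lit 1) (nat_lit 210) (nat_lit 196) (nat_lit 194)) (XT.lf (nat_lit 1932) (nat_lit 2437103848) (nat_lit 84) (nat_lit 25541796) (nat_lit 0) (nat_lit 897602802) (nat_lit 314) (nat_lit 1) (nat_lit 292) (nat_lit 1) (nat_lit 291) (nat_lit 1) (nat_lit 211) (nat_lit 196) (nat_lit 193)))) (XT.nd (nat_lit 188) (nat_lit 0) (nat_lit 168) (XT.nd (nat_lit 94) (nat_lit 0) (nat_lit 84) (XT.lf (nat_lit 1932) (nat_lit 1677216345) (nat_lit 0) (nat_lit 1014447674) (nat_lit 1848) (nat_lit 612363494) (nat_lit 315) (nat_lit 1) (nat_lit 292) (nat_lit 1) (nat_lit 314) (nat_lit 1) (nat_lit 212) (nat_lit 196) (nat_lit 192)) (XT.lf (nat_lit 1932) (nat_lit 904542027) (nat_lit 0) (nat_lit 1129917780) (nat_lit 1848) (nat_lit 1214648363) (nat_lit 316) (nat_lit 1) (nat_lit 293) (nat_lit 1) (nat_lit 315) (nat_lit 1) (nat_lit 213) (nat_lit 196) (nat_lit 191))) (XT.nd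 (nat_lit 94) (nat_lit 0) (nat_lit 0) (XT.lf (nat_lit 1932) (nat_lit 144437507) (nat_lit 0) (nat_lit 1268099945) (nat_lit 1848) (nat_lit 1782922979) (nat_lit 317) (nat_lit 1) (nat_lit 294) (nat_lit 1) (nat_lit 316) (nat_lit 1) (nat_lit 214) (nat_lit 196) (nat_lit 190)) (XT.lf (nat_lit 1932) (nat_lit 1710823885) (nat_lit 84) (nat_lit 820206885) (nat_lit 0) (nat_lit 611924610) (nat_lit 317) (nat_lit 1) (nat_lit 295) (nat_lit 1) (nat_lit 294) (nat_lit 1) (nat_lit 215) (nat_lit 196) (nat_lit 189)))))) (XT.nd (nat_lit 36942) (nat_lit 0) (nat_lit 84) (XT.nd (nat_lit 282) (nat_lit 504) (nat_lit 0) (XT.nd (nat_lit 94) (nat_lit 0) (nat_lit 84) (XT.lf (nat_lit 1932) (nat_lit 1474200966) (nat_lit 84) (nat_lit 259752976) (nat_lit 0) (nat_lit 1357681906) (nat_lit 318) (nat_lit 1) (nat_lit 296) (nat_lit 1) (nat_lit 295) (nat_lit 1) (nat_lit 216) (nat_lit 196) (nat_lit 188)) (XT.nd (nat_lit 94) (nat_lit 0) (nat_lit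 84) (XT.lf (nat_lit 1932) (nat_lit 952652119) (nat_lit 0) (nat_lit 1823757737) (nat_lit 1848) (nat_lit 265041615) (nat_lit 319) (nat_lit 1) (nat_lit 296) (nat_lit 1) (nat_lit 318) (nat_lit 1) (nat_lit 217) (nat_lit 196) (nat_lit 187)) (XT.lf (nat_lit 1932) (nat_lit 186768979) (nat_lit 0) (nat_lit 2049738376) (nat_lit 1848) (nat_lit 755870829) (nat_lit 320) (nat_lit 1) (nat_lit 297) (nat_lit 1) (nat_lit 319) (nat_lit 1) (nat_lit 218) (nat_lit 196) (nat_lit 186)))) (XT.nd (nat_lit 36472) (nat_lit 672) (nat_lit 0) (XT.lf (nat_lit 1932) (nat_lit 647748647) (nat_lit 84) (nat_lit 1722704571) (nat_lit 0) (nat_lit 573883913) (nat_lit 320) (nat_lit 1) (nat_lit 298) (nat_lit 1) (nat_lit 297) (nat_lit 1) (nat_lit 219) (nat_lit 196) (nat_lit 185)) (XT.nd (nat_lit 94) (nat_lit 0) (nat_lit 84) (XT.lf (nat_lit 1932) (nat_lit 699968089) (nat_lit 0) (nat_lit 430232022) (nat_lit 1932) (nat_lit 699968089) (nat_lit 312)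 (nat_lit 1) (nat_lit 289) (nat_lit 0) (nat_lit 312) (nat_lit 0) (nat_lit 206) (nat_lit 197) (nat_lit 197)) (XT.lf (nat_lit 1932) (nat_lit 616439642) (nat_lit 0) (nat_lit 860926409) (nat_lit 1848) (nat_lit 2120750354) (nat_lit 313) (nat_lit 1) (nat_lit 290) (nat_lit 1) (nat_lit 312) (nat_lit 1) (nat_lit 207) (nat_lit 197) (nat_lit 196))))) (XT.nd (nat_lit 282) (nat_lit 0) (nat_lit 252) (XT.nd (nat_lit 94) (nat_lit 0) (nat_lit 84) (XT.lf (nat_lit 1932) (nat_lit 2645319107) (nat_lit 84) (nat_lit 734297358) (nat_lit 0) (nat_lit 157710051) (nat_lit 313) (nat_lit 1) (nat_lit 291) (nat_lit 1) (nat_lit 290) (nat_lit 1) (nat_lit 208) (nat_lit 197) (nat_lit 195)) (XT.nd (nat_lit 94) (nat_lit 0) (nat_lit 84) (XT.lf (nat_lit 1932) (nat_lit 2522402482) (nat_lit 84) (nat_lit 26435759) (nat_lit 0) (nat_lit 929018900) (nat_lit 314) (nat_lit 1) (nat_lit 292) (nat_lit 1) (nat_lit 291) (nat_lit 1) (nat_lit 209) (nat_lit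 197) (nat_lit 194)) (XT.lf (nat_lit 1932) (nat_lit 1735918917) (nat_lit 0) (nat_lit 1049953342) (nat_lit 1848) (nat_lit 633796216) (nat_lit 315) (nat_lit 1) (nat_lit 292) (nat_lit 1) (nat_lit 314) (nat_lit 1) (nat_lit 210) (nat_lit 197) (nat_lit 193)))) (XT.nd (nat_lit 188) (nat_lit 0) (nat_lit 84) (XT.nd (nat_lit 94) (nat_lit 0) (nat_lit 84) (XT.lf (nat_lit 1932) (nat_lit 936200998) (nat_lit 0) (nat_lit 1169464902) (nat_lit 1848) (nat_lit 1257161055) (nat_lit 316) (nat_lit 1) (nat_lit 293) (nat_lit 1) (nat_lit 315) (nat_lit 1) (nat_lit 211) (nat_lit 197) (nat_lit 192)) (XT.lf (nat_lit 1932) (nat_lit 149492820) (nat_lit 0) (nat_lit 1312483443) (nat_lit 1848) (nat_lit 1845325283) (nat_lit 317) (nat_lit 1) (nat_lit 294) (nat_lit 1) (nat_lit 316) (nat_lit 1) (nat_lit 212) (nat_lit 197) (nat_lit 191))) (XT.nd (nat_lit 94) (nat_lit 0) (nat_lit 84) (XT.lf (nat_lit 1932) (nat_lit 1770702721) (nat_lit 84) (nat_lit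 848914126) (nat_lit 0) (nat_lit 633341971) (nat_lit 317) (nat_lit 1) (nat_lit 295) (nat_lit 1) (nat_lit 294) (nat_lit 1) (nat_lit 213) (nat_lit 197) (nat_lit 190)) (XT.lf (nat_lit 1932) (nat_lit 1525798000) (nat_lit 84) (nat_lit 268844330) (nat_lit 0) (nat_lit 1405200773) (nat_lit 318) (nat_lit 1) (nat_lit 296) (nat_lit 1) (nat_lit 295) (nat_lit 1) (nat_lit 214) (nat_lit 197) (nat_lit 189))))))))
noncomputable def ec1 : XT := (XT.nd (nat_lit 74542) (nat_lit 2016) (nat_lit 0) (XT.nd (nat_lit 37318) (nat_lit 1008) (nat_lit 0) (XT.nd (nat_lit 36754) (nat_lit 0) (nat_lit 84) (XT.nd (nat_lit 282) (nat_lit 588) (nat_lit 0) (XT.nd (nat_lit 94) (nat_lit 0) (nat_lit 84) (XT.lf (nat_lit 1932) (nat_lit 985994943) (nat_lit 0) (nat_lit 1887589258) (nat_lit 1848) (nat_lit 274318071) (nat_lit 319) (nat_lit 1) (nat_lit 296) (nat_lit 1) (nat_lit 318) (nat_lit 1) (nat_lit 215) (nat_lit 197) (nat_lit 188)) (XT.nd (nat_lit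 94) (nat_lit 0) (nat_lit 0) (XT.lf (nat_lit 1932) (nat_lit 193305894) (nat_lit 0) (nat_lit 2121479219) (nat_lit 1848) (nat_lit 782326308) (nat_lit 320) (nat_lit 1) (nat_lit 297) (nat_lit 1) (nat_lit 319) (nat_lit 1) (nat_lit 216) (nat_lit 197) (nat_lit 187)) (XT.lf (nat_lit 1932) (nat_lit 670419850) (nat_lit 84) (nat_lit 1782999231) (nat_lit 0) (nat_lit 593969850) (nat_lit 320) (nat_lit 1) (nat_lit 298) (nat_lit 1) (nat_lit 297) (nat_lit 1) (nat_lit 217) (nat_lit 197) (nat_lit 186)))) (XT.nd (nat_lit 94) (nat_lit 756) (nat_lit 0) (XT.lf (nat_lit 1932) (nat_lit 348662914) (nat_lit 84) (nat_lit 1280124966) (nat_lit 0) (nat_lit 1369981673) (nat_lit 321) (nat_lit 1) (nat_lit 299) (nat_lit 1) (nat_lit 298) (nat_lit 1) (nat_lit 218) (nat_lit 197) (nat_lit 185)) (XT.nd (nat_lit 36284) (nat_lit 840) (nat_lit 0) (XT.lf (nat_lit 1932) (nat_lit 12735268) (nat_lit 84) (nat_lit 806524317) (nat_lit 0) (nat_lit 2131995459)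 (nat_lit 322) (nat_lit 1) (nat_lit 300) (nat_lit 1) (nat_lit 299) (nat_lit 1) (nat_lit 219) (nat_lit 197) (nat_lit 184)) (XT.lf (nat_lit 1932) (nat_lit 724466972) (nat_lit 0) (nat_lit 445290142) (nat_lit 1932) (nat_lit 724466972) (nat_lit 312) (nat_lit 1) (nat_lit 289) (nat_lit 0) (nat_lit 312) (nat_lit 0) (nat_lit 204) (nat_lit 198) (nat_lit 198))))) (XT.nd (nat_lit 282) (nat_lit 0) (nat_lit 168) (XT.nd (nat_lit 94) (nat_lit 0) (nat_lit 0) (XT.lf (nat_lit 1932) (nat_lit 638015030) (nat_lit 0) (nat_lit 891058834) (nat_lit 1848) (nat_lit 2194976616) (nat_lit 313) (nat_lit 1) (nat_lit 290) (nat_lit 1) (nat_lit 312) (nat_lit 1) (nat_lit 205) (nat_lit 198) (nat_lit 197)) (XT.nd (nat_lit 94) (nat_lit 0) (nat_lit 84) (XT.lf (nat_lit 1932) (nat_lit 2737905276) (nat_lit 84) (nat_lit 759997765) (nat_lit 0) (nat_lit 163229902) (nat_lit 313) (nat_lit 1) (nat_lit 291) (nat_lit 1) (nat_lit 290) (nat_lit 1) (nat_lit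 206) (nat_lit 198) (nat_lit 196)) (XT.lf (nat_lit 1932) (nat_lit 2610686569) (nat_lit 84) (nat_lit 27361011) (nat_lit 0) (nat_lit 961534562) (nat_lit 314) (nat_lit 1) (nat_lit 292) (nat_lit 1) (nat_lit 291) (nat_lit 1) (nat_lit 207) (nat_lit 198) (nat_lit 195)))) (XT.nd (nat_lit 94) (nat_lit 0) (nat_lit 84) (XT.lf (nat_lit 1932) (nat_lit 1796676079) (nat_lit 0) (nat_lit 1086701709) (nat_lit 1848) (nat_lit 655979084) (nat_lit 315) (nat_lit 1) (nat_lit 292) (nat_lit 1) (nat_lit 314) (nat_lit 1) (nat_lit 208) (nat_lit 198) (nat_lit 194)) (XT.nd (nat_lit 94) (nat_lit 0) (nat_lit 84) (XT.lf (nat_lit 1932) (nat_lit 968968033) (nat_lit 0) (nat_lit 1210396174) (nat_lit 1848) (nat_lit 1301161692) (nat_lit 316) (nat_lit 1) (nat_lit 293) (nat_lit 1) (nat_lit 315) (nat_lit 1) (nat_lit 209) (nat_lit 198) (nat_lit 193)) (XT.lf (nat_lit 1932) (nat_lit 154725069) (nat_lit 0) (nat_lit 1358420364) (nat_lit 1848) (nat_lit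 1909911668) (nat_lit 317) (nat_lit 1) (nat_lit 294) (nat_lit 1) (nat_lit 316) (nat_lit 1) (nat_lit 210) (nat_lit 198) (nat_lit 192)))))) (XT.nd (nat_lit 564) (nat_lit 1428) (nat_lit 0) (XT.nd (nat_lit 282) (nat_lit 0) (nat_lit 252) (XT.nd (nat_lit 94) (nat_lit 0) (nat_lit 84) (XT.lf (nat_lit 1932) (nat_lit 1832677316) (nat_lit 84) (nat_lit 878626120) (nat_lit 0) (nat_lit 655508940) (nat_lit 317) (nat_lit 1) (nat_lit 295) (nat_lit 1) (nat_lit 294) (nat_lit 1) (nat_lit 211) (nat_lit 198) (nat_lit 191)) (XT.nd (nat_lit 94) (nat_lit 0) (nat_lit 84) (XT.lf (nat_lit 1932) (nat_lit 1579200930) (nat_lit 84) (nat_lit 278253881) (nat_lit 0) (nat_lit 1454382800) (nat_lit 318) (nat_lit 1) (nat_lit 296) (nat_lit 1) (nat_lit 295) (nat_lit 1) (nat_lit 212) (nat_lit 198) (nat_lit 190)) (XT.lf (nat_lit 1932) (nat_lit 1020504766) (nat_lit 0) (nat_lit 1953654882) (nat_lit 1848) (nat_lit 283919204) (nat_lit 319) (nat_lit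 1) (nat_lit 296) (nat_lit 1) (nat_lit 318) (nat_lit 1) (nat_lit 213) (nat_lit 198) (nat_lit 189)))) (XT.nd (nat_lit 94) (nat_lit 0) (nat_lit 0) (XT.lf (nat_lit 1932) (nat_lit 200071600) (nat_lit 0) (nat_lit 2195730992) (nat_lit 1848) (nat_lit 809707728) (nat_lit 320) (nat_lit 1) (nat_lit 297) (nat_lit 1) (nat_lit 319) (nat_lit 1) (nat_lit 214) (nat_lit 198) (nat_lit 188)) (XT.nd (nat_lit 94) (nat_lit 0) (nat_lit 84) (XT.lf (nat_lit 1932) (nat_lit 693884544) (nat_lit 84) (nat_lit 1845404204) (nat_lit 0) (nat_lit 614758795) (nat_lit 320) (nat_lit 1) (nat_lit 298) (nat_lit 1) (nat_lit 297) (nat_lit 1) (nat_lit 215) (nat_lit 198) (nat_lit 187)) (XT.lf (nat_lit 1932) (nat_lit 360866116) (nat_lit 84) (nat_lit 1324929340) (nat_lit 0) (nat_lit 1417931031) (nat_lit 321) (nat_lit 1) (nat_lit 299) (nat_lit 1) (nat_lit 298) (nat_lit 1) (nat_lit 216) (nat_lit 198) (nat_lit 186))))) (XT.nd (nat_lit 36284) (nat_lit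 0) (nat_lit 1008) (XT.nd (nat_lit 94) (nat_lit 1848) (nat_lit 0) (XT.lf (nat_lit 1932) (nat_lit 13181002) (nat_lit 84) (nat_lit 834752668) (nat_lit 0) (nat_lit 2206615300) (nat_lit 322) (nat_lit 1) (nat_lit 300) (nat_lit 1) (nat_lit 299) (nat_lit 1) (nat_lit 217) (nat_lit 198) (nat_lit 185)) (XT.nd (nat_lit 94) (nat_lit 0) (nat_lit 0) (XT.lf (nat_lit 84) (nat_lit 28053912) (nat_lit 0) (nat_lit 343217291) (nat_lit 1932) (nat_lit 2635160056) (nat_lit 278) (nat_lit 1) (nat_lit 277) (nat_lit 1) (nat_lit 300) (nat_lit 1) (nat_lit 218) (nat_lit 198) (nat_lit 184)) (XT.lf (nat_lit 84) (nat_lit 2172151323) (nat_lit 0) (nat_lit 718180274) (nat_lit 1932) (nat_lit 68929519) (nat_lit 278) (nat_lit 1) (nat_lit 277) (nat_lit 1) (nat_lit 300) (nat_lit 1) (nat_lit 219) (nat_lit 198) (nat_lit 183)))) (XT.nd (nat_lit 188) (nat_lit 0) (nat_lit 84) (XT.nd (nat_lit 94) (nat_lit 0) (nat_lit 84) (XT.lf (nat_lit 1932) (nat_lit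 749823316) (nat_lit 0) (nat_lit 460875297) (nat_lit 1932) (nat_lit 749823316) (nat_lit 312) (nat_lit 1) (nat_lit 289) (nat_lit 0) (nat_lit 312) (nat_lit 0) (nat_lit 202) (nat_lit 199) (nat_lit 199)) (XT.lf (nat_lit 1932) (nat_lit 660345556) (nat_lit 0) (nat_lit 922245893) (nat_lit 1848) (nat_lit 2271800798) (nat_lit 313) (nat_lit 1) (nat_lit 290) (nat_lit 1) (nat_lit 312) (nat_lit 1) (nat_lit 203) (nat_lit 199) (nat_lit 198))) (XT.nd (nat_lit 94) (nat_lit 0) (nat_lit 84) (XT.lf (nat_lit 1932) (nat_lit 2833731960) (nat_lit 84) (nat_lit 786597687) (nat_lit 0) (nat_lit 168942949) (nat_lit 313) (nat_lit 1) (nat_lit 291) (nat_lit 1) (nat_lit 290) (nat_lit 1) (nat_lit 204) (nat_lit 199) (nat_lit 197)) (XT.lf (nat_lit 1932) (nat_lit 2702060599) (nat_lit 84) (nat_lit 28318646) (nat_lit 0) (nat_lit 995188271) (nat_lit 314) (nat_lit 1) (nat_lit 292) (nat_lit 1) (nat_lit 291) (nat_lit 1) (nat_lit 205) (nat_lit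 199) (nat_lit 196))))))) (XT.nd (nat_lit 1222) (nat_lit 924) (nat_lit 0) (XT.nd (nat_lit 564) (nat_lit 2352) (nat_lit 0) (XT.nd (nat_lit 282) (nat_lit 0) (nat_lit 168) (XT.nd (nat_lit 94) (nat_lit 0) (nat_lit 84) (XT.lf (nat_lit 1932) (nat_lit 1859559742) (nat_lit 0) (nat_lit 1124736269) (nat_lit 1848) (nat_lit 678938352) (nat_lit 315) (nat_lit 1) (nat_lit 292) (nat_lit 1) (nat_lit 314) (nat_lit 1) (nat_lit 206) (nat_lit 199) (nat_lit 195)) (XT.nd (nat_lit 94) (nat_lit 0) (nat_lit 84) (XT.lf (nat_lit 1932) (nat_lit 1002881914) (nat_lit 0) (nat_lit 1252760040) (nat_lit 1848) (nat_lit 1346702352) (nat_lit 316) (nat_lit 1) (nat_lit 293) (nat_lit 1) (nat_lit 315) (nat_lit 1) (nat_lit 207) (nat_lit 199) (nat_lit 194)) (XT.lf (nat_lit 1932) (nat_lit 160140446) (nat_lit 0) (nat_lit 1405965077) (nat_lit 1848) (nat_lit 1976758577) (nat_lit 317) (nat_lit 1) (nat_lit 294) (nat_lit 1) (nat_lit 316) (nat_lit 1)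 (nat_lit 208) (nat_lit 199) (nat_lit 193)))) (XT.nd (nat_lit 94) (nat_lit 0) (nat_lit 84) (XT.lf (nat_lit 1932) (nat_lit 1896821022) (nat_lit 84) (nat_lit 909378035) (nat_lit 0) (nat_lit 678451753) (nat_lit 317) (nat_lit 1) (nat_lit 295) (nat_lit 1) (nat_lit 294) (nat_lit 1) (nat_lit 209) (nat_lit 199) (nat_lit 192)) (XT.nd (nat_lit 94) (nat_lit 0) (nat_lit 84) (XT.lf (nat_lit 1932) (nat_lit 1634472962) (nat_lit 84) (nat_lit 287992767) (nat_lit 0) (nat_lit 1505286198) (nat_lit 318) (nat_lit 1) (nat_lit 296) (nat_lit 1) (nat_lit 295) (nat_lit 1) (nat_lit 210) (nat_lit 199) (nat_lit 191)) (XT.lf (nat_lit 1932) (nat_lit 1056222433) (nat_lit 0) (nat_lit 2022032803) (nat_lit 1848) (nat_lit 293856376) (nat_lit 319) (nat_lit 1) (nat_lit 296) (nat_lit 1) (nat_lit 318) (nat_lit 1) (nat_lit 211) (nat_lit 199) (nat_lit 190))))) (XT.nd (nat_lit 282) (nat_lit 2772) (nat_lit 0) (XT.nd (nat_lit 94) (nat_lit 0) (nat_lit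 0) (XT.lf (nat_lit 1932) (nat_lit 207074106) (nat_lit 0) (nat_lit 2272581577) (nat_lit 1848) (nat_lit 838047499) (nat_lit 320) (nat_lit 1) (nat_lit 297) (nat_lit 1) (nat_lit 319) (nat_lit 1) (nat_lit 212) (nat_lit 199) (nat_lit 189)) (XT.nd (nat_lit 94) (nat_lit 0) (nat_lit 84) (XT.lf (nat_lit 1932) (nat_lit 718170503) (nat_lit 84) (nat_lit 1909993351) (nat_lit 0) (nat_lit 636275353) (nat_lit 320) (nat_lit 1) (nat_lit 298) (nat_lit 1) (nat_lit 297) (nat_lit 1) (nat_lit 213) (nat_lit 199) (nat_lit 188)) (XT.lf (nat_lit 1932) (nat_lit 373496430) (nat_lit 84) (nat_lit 1371301867) (nat_lit 0) (nat_lit 1467558618) (nat_lit 321) (nat_lit 1) (nat_lit 299) (nat_lit 1) (nat_lit 298) (nat_lit 1) (nat_lit 214) (nat_lit 199) (nat_lit 187)))) (XT.nd (nat_lit 188) (nat_lit 1092) (nat_lit 0) (XT.nd (nat_lit 94) (nat_lit 1848) (nat_lit 0) (XT.lf (nat_lit 1932) (nat_lit 13642338) (nat_lit 84) (nat_lit 863969011) (nat_lit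 0) (nat_lit 2283846835) (nat_lit 322) (nat_lit 1) (nat_lit 300) (nat_lit 1) (nat_lit 299) (nat_lit 1) (nat_lit 215) (nat_lit 199) (nat_lit 186)) (XT.lf (nat_lit 84) (nat_lit 29035799) (nat_lit 0) (nat_lit 355229896) (nat_lit 1932) (nat_lit 2727390658) (nat_lit 278) (nat_lit 1) (nat_lit 277) (nat_lit 1) (nat_lit 300) (nat_lit 1) (nat_lit 216) (nat_lit 199) (nat_lit 185))) (XT.nd (nat_lit 94) (nat_lit 1092) (nat_lit 0) (XT.lf (nat_lit 84) (nat_lit 2248176619) (nat_lit 0) (nat_lit 743316583) (nat_lit 1932) (nat_lit 71342052) (nat_lit 278) (nat_lit 1) (nat_lit 277) (nat_lit 1) (nat_lit 300) (nat_lit 1) (nat_lit 217) (nat_lit 199) (nat_lit 184)) (XT.lf (nat_lit 84) (nat_lit 1374944022) (nat_lit 0) (nat_lit 1146248132) (nat_lit 1176) (nat_lit 493857649) (nat_lit 265) (nat_lit 1) (nat_lit 264) (nat_lit 1) (nat_lit 278) (nat_lit 1) (nat_lit 218) (nat_lit 199) (nat_lit 183)))))) (XT.nd (nat_lit 36378) (nat_lit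 0) (nat_lit 3360) (XT.nd (nat_lit 36096) (nat_lit 0) (nat_lit 3108) (XT.nd (nat_lit 35908) (nat_lit 0) (nat_lit 3024) (XT.lf (nat_lit 84) (nat_lit 518504976) (nat_lit 0) (nat_lit 1560244661) (nat_lit 1008) (nat_lit 889587452) (nat_lit 254) (nat_lit 1) (nat_lit 253) (nat_lit 1) (nat_lit 265) (nat_lit 1) (nat_lit 219) (nat_lit 199) (nat_lit 182)) (XT.nd (nat_lit 94) (nat_lit 0) (nat_lit 84) (XT.lf (nat_lit 1932) (nat_lit 776067132) (nat_lit 0) (nat_lit 477005933) (nat_lit 1932) (nat_lit 776067132) (nat_lit 312) (nat_lit 1) (nat_lit 289) (nat_lit 0) (nat_lit 312) (nat_lit 0) (nat_lit 200) (nat_lit 200) (nat_lit 200)) (XT.lf (nat_lit 1932) (nat_lit 683457650) (nat_lit 0) (nat_lit 954524499) (nat_lit 1848) (nat_lit 2351313826) (nat_lit 313) (nat_lit 1) (nat_lit 290) (nat_lit 1) (nat_lit 312) (nat_lit 1) (nat_lit 201) (nat_lit 200) (nat_lit 199)))) (XT.nd (nat_lit 94) (nat_lit 0) (nat_lit 84) (XT.lf (nat_lit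 1932) (nat_lit 2932912579) (nat_lit 84) (nat_lit 814128606) (nat_lit 0) (nat_lit 174855952) (nat_lit 313) (nat_lit 1) (nat_lit 291) (nat_lit 1) (nat_lit 290) (nat_lit 1) (nat_lit 202) (nat_lit 200) (nat_lit 198)) (XT.nd (nat_lit 94) (nat_lit 0) (nat_lit 84) (XT.lf (nat_lit 1932) (nat_lit 2796632720) (nat_lit 84) (nat_lit 29309799) (nat_lit 0) (nat_lit 1030019861) (nat_lit 314) (nat_lit 1) (nat_lit 292) (nat_lit 1) (nat_lit 291) (nat_lit 1) (nat_lit 203) (nat_lit 200) (nat_lit 197)) (XT.lf (nat_lit 1932) (nat_lit 1924644333) (nat_lit 0) (nat_lit 1164102038) (nat_lit 1848) (nat_lit 702701194) (nat_lit 315) (nat_lit 1) (nat_lit 292) (nat_lit 1) (nat_lit 314) (nat_lit 1) (nat_lit 204) (nat_lit 200) (nat_lit 196))))) (XT.nd (nat_lit 282) (nat_lit 0) (nat_lit 168) (XT.nd (nat_lit 94) (nat_lit 0) (nat_lit 84) (XT.lf (nat_lit 1932) (nat_lit 1037982781) (nat_lit 0) (nat_lit 1296606641) (nat_lit 1848) (nat_lit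 1393836934) (nat_lit 316) (nat_lit 1) (nat_lit 293) (nat_lit 1) (nat_lit 315) (nat_lit 1) (nat_lit 205) (nat_lit 200) (nat_lit 195)) (XT.nd (nat_lit 94) (nat_lit 0) (nat_lit 0) (XT.lf (nat_lit 1932) (nat_lit 165745362) (nat_lit 0) (nat_lit 1455173854) (nat_lit 1848) (nat_lit 2045945127) (nat_lit 317) (nat_lit 1) (nat_lit 294) (nat_lit 1) (nat_lit 316) (nat_lit 1) (nat_lit 206) (nat_lit 200) (nat_lit 194)) (XT.lf (nat_lit 1932) (nat_lit 1963209758) (nat_lit 84) (nat_lit 941206266) (nat_lit 0) (nat_lit 702197565) (nat_lit 317) (nat_lit 1) (nat_lit 295) (nat_lit 1) (nat_lit 294) (nat_lit 1) (nat_lit 207) (nat_lit 200) (nat_lit 193)))) (XT.nd (nat_lit 188) (nat_lit 0) (nat_lit 168) (XT.nd (nat_lit 94) (nat_lit 0) (nat_lit 84) (XT.lf (nat_lit 1932) (nat_lit 1691679516) (nat_lit 84) (nat_lit 298072514) (nat_lit 0) (nat_lit 1557971215) (nat_lit 318) (nat_lit 1) (nat_lit 296) (nat_lit 1) (nat_lit 295) (nat_lit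 1) (nat_lit 208) (nat_lit 200) (nat_lit 192)) (XT.lf (nat_lit 1932) (nat_lit 1093190219) (nat_lit 0) (nat_lit 2092803951) (nat_lit 1848) (nat_lit 304141349) (nat_lit 319) (nat_lit 1) (nat_lit 296) (nat_lit 1) (nat_lit 318) (nat_lit 1) (nat_lit 209) (nat_lit 200) (nat_lit 191))) (XT.nd (nat_lit 94) (nat_lit 0) (nat_lit 0) (XT.lf (nat_lit 1932) (nat_lit 214321700) (nat_lit 0) (nat_lit 2352121932) (nat_lit 1848) (nat_lit 867379161) (nat_lit 320) (nat_lit 1) (nat_lit 297) (nat_lit 1) (nat_lit 319) (nat_lit 1) (nat_lit 210) (nat_lit 200) (nat_lit 190)) (XT.lf (nat_lit 1932) (nat_lit 743306471) (nat_lit 84) (nat_lit 1976843118) (nat_lit 0) (nat_lit 658544990) (nat_lit 320) (nat_lit 1) (nat_lit 298) (nat_lit 1) (nat_lit 297) (nat_lit 1) (nat_lit 211) (nat_lit 200) (nat_lit 189))))))))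
noncomputable def ec2 : XT := (XT.nd (nat_lit 37976) (nat_lit 1764) (nat_lit 0) (XT.nd (nat_lit 36754) (nat_lit 0) (nat_lit 2688) (XT.nd (nat_lit 564) (nat_lit 1764) (nat_lit 0) (XT.nd (nat_lit 282) (nat_lit 2016) (nat_lit 0) (XT.nd (nat_lit 94) (nat_lit 1764) (nat_lit 0) (XT.lf (nat_lit 1932) (nat_lit 386568805) (nat_lit 84) (nat_lit 1419297433) (nat_lit 0) (nat_lit 1518923169) (nat_lit 321) (nat_lit 1) (nat_lit 299) (nat_lit 1) (nat_lit 298) (nat_lit 1) (nat_lit 212) (nat_lit 200) (nat_lit 188)) (XT.nd (nat_lit 94) (nat_lit 1848) (nat_lit 0) (XT.lf (nat_lit 1932) (nat_lit 14119819) (nat_lit 84) (nat_lit 894207926) (nat_lit 0) (nat_lit 2363781475) (nat_lit 322) (nat_lit 1) (nat_lit 300) (nat_lit 1) (nat_lit 299) (nat_lit 1) (nat_lit 213) (nat_lit 200) (nat_lit 187)) (XT.lf (nat_lit 84) (nat_lit 30052052) (nat_lit 0) (nat_lit 367662943) (nat_lit 1932) (nat_lit 2822849331) (nat_lit 278) (nat_lit 1) (nat_lit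 277) (nat_lit 1) (nat_lit 300) (nat_lit 1) (nat_lit 214) (nat_lit 200) (nat_lit 186)))) (XT.nd (nat_lit 94) (nat_lit 2016) (nat_lit 0) (XT.lf (nat_lit 84) (nat_lit 2326862801) (nat_lit 0) (nat_lit 769332664) (nat_lit 1932) (nat_lit 73839024) (nat_lit 278) (nat_lit 1) (nat_lit 277) (nat_lit 1) (nat_lit 300) (nat_lit 1) (nat_lit 215) (nat_lit 200) (nat_lit 185)) (XT.nd (nat_lit 94) (nat_lit 924) (nat_lit 0) (XT.lf (nat_lit 84) (nat_lit 1423067063) (nat_lit 0) (nat_lit 1186366817) (nat_lit 1176) (nat_lit 511142667) (nat_lit 265) (nat_lit 1) (nat_lit 264) (nat_lit 1) (nat_lit 278) (nat_lit 1) (nat_lit 216) (nat_lit 200) (nat_lit 184)) (XT.lf (nat_lit 84) (nat_lit 536652651) (nat_lit 0) (nat_lit 1614853224) (nat_lit 1008) (nat_lit 920723013) (nat_lit 254) (nat_lit 1) (nat_lit 253) (nat_lit 1) (nat_lit 265) (nat_lit 1) (nat_lit 217) (nat_lit 200) (nat_lit 183))))) (XT.nd (nat_lit 35908) (nat_lit 0) (nat_lit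 4872) (XT.nd (nat_lit 94) (nat_lit 840) (nat_lit 0) (XT.lf (nat_lit 1008) (nat_lit 968538379) (nat_lit 0) (nat_lit 1718941973) (nat_lit 924) (nat_lit 337430327) (nat_lit 254) (nat_lit 1) (nat_lit 242) (nat_lit 1) (nat_lit 253) (nat_lit 1) (nat_lit 218) (nat_lit 200) (nat_lit 182)) (XT.nd (nat_lit 35720) (nat_lit 0) (nat_lit 4788) (XT.lf (nat_lit 924) (nat_lit 467076217) (nat_lit 0) (nat_lit 1309379509) (nat_lit 840) (nat_lit 1202109260) (nat_lit 243) (nat_lit 1) (nat_lit 232) (nat_lit 1) (nat_lit 242) (nat_lit 1) (nat_lit 219) (nat_lit 200) (nat_lit 181)) (XT.lf (nat_lit 1932) (nat_lit 803229482) (nat_lit 0) (nat_lit 493701140) (nat_lit 1932) (nat_lit 803229482) (nat_lit 312) (nat_lit 1) (nat_lit 289) (nat_lit 0) (nat_lit 312) (nat_lit 0) (nat_lit 198) (nat_lit 201) (nat_lit 201)))) (XT.nd (nat_lit 94) (nat_lit 0) (nat_lit 0) (XT.lf (nat_lit 1932) (nat_lit 707378668) (nat_lit 0) (nat_lit 987932857)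 (nat_lit 1848) (nat_lit 2433609810) (nat_lit 313) (nat_lit 1) (nat_lit 290) (nat_lit 1) (nat_lit 312) (nat_lit 1) (nat_lit 199) (nat_lit 201) (nat_lit 200)) (XT.nd (nat_lit 94) (nat_lit 0) (nat_lit 84) (XT.lf (nat_lit 1932) (nat_lit 3035564519) (nat_lit 84) (nat_lit 842623108) (nat_lit 0) (nat_lit 180975910) (nat_lit 313) (nat_lit 1) (nat_lit 291) (nat_lit 1) (nat_lit 290) (nat_lit 1) (nat_lit 200) (nat_lit 201) (nat_lit 199)) (XT.lf (nat_lit 1932) (nat_lit 2894514865) (nat_lit 84) (nat_lit 30335642) (nat_lit 0) (nat_lit 1066070556) (nat_lit 314) (nat_lit 1) (nat_lit 292) (nat_lit 1) (nat_lit 291) (nat_lit 1) (nat_lit 201) (nat_lit 201) (nat_lit 198)))))) (XT.nd (nat_lit 564) (nat_lit 2352) (nat_lit 0) (XT.nd (nat_lit 282) (nat_lit 0) (nat_lit 168) (XT.nd (nat_lit 94) (nat_lit 0) (nat_lit 84) (XT.lf (nat_lit 1932) (nat_lit 1992006885) (nat_lit 0) (nat_lit 1204845610) (nat_lit 1848) (nat_lit 727295736)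 (nat_lit 315) (nat_lit 1) (nat_lit 292) (nat_lit 1) (nat_lit 314) (nat_lit 1) (nat_lit 202) (nat_lit 201) (nat_lit 197)) (XT.nd (nat_lit 94) (nat_lit 0) (nat_lit 84) (XT.lf (nat_lit 1932) (nat_lit 1074312178) (nat_lit 0) (nat_lit 1341987874) (nat_lit 1848) (nat_lit 1442621227) (nat_lit 316) (nat_lit 1) (nat_lit 293) (nat_lit 1) (nat_lit 315) (nat_lit 1) (nat_lit 203) (nat_lit 201) (nat_lit 196)) (XT.lf (nat_lit 1932) (nat_lit 171546449) (nat_lit 0) (nat_lit 1506104939) (nat_lit 1848) (nat_lit 2117553206) (nat_lit 317) (nat_lit 1) (nat_lit 294) (nat_lit 1) (nat_lit 316) (nat_lit 1) (nat_lit 204) (nat_lit 201) (nat_lit 195)))) (XT.nd (nat_lit 94) (nat_lit 0) (nat_lit 84) (XT.lf (nat_lit 1932) (nat_lit 2031922099) (nat_lit 84) (nat_lit 974148485) (nat_lit 0) (nat_lit 726774479) (nat_lit 317) (nat_lit 1) (nat_lit 295) (nat_lit 1) (nat_lit 294) (nat_lit 1) (nat_lit 205) (nat_lit 201) (nat_lit 194)) (XT.nd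 (nat_lit 94) (nat_lit 0) (nat_lit 84) (XT.lf (nat_lit 1932) (nat_lit 1750888299) (nat_lit 84) (nat_lit 308505052) (nat_lit 0) (nat_lit 1612500207) (nat_lit 318) (nat_lit 1) (nat_lit 296) (nat_lit 1) (nat_lit 295) (nat_lit 1) (nat_lit 206) (nat_lit 201) (nat_lit 193)) (XT.lf (nat_lit 1932) (nat_lit 1131451876) (nat_lit 0) (nat_lit 2166052090) (nat_lit 1848) (nat_lit 314786296) (nat_lit 319) (nat_lit 1) (nat_lit 296) (nat_lit 1) (nat_lit 318) (nat_lit 1) (nat_lit 207) (nat_lit 201) (nat_lit 192))))) (XT.nd (nat_lit 282) (nat_lit 2772) (nat_lit 0) (XT.nd (nat_lit 94) (nat_lit 0) (nat_lit 0) (XT.lf (nat_lit 1932) (nat_lit 221822959) (nat_lit 0) (nat_lit 2434446200) (nat_lit 1848) (nat_lit 897737432) (nat_lit 320) (nat_lit 1) (nat_lit 297) (nat_lit 1) (nat_lit 319) (nat_lit 1) (nat_lit 208) (nat_lit 201) (nat_lit 191)) (XT.nd (nat_lit 94) (nat_lit 0) (nat_lit 84) (XT.lf (nat_lit 1932) (nat_lit 769322198)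 (nat_lit 84) (nat_lit 2046032627) (nat_lit 0) (nat_lit 681594065) (nat_lit 320) (nat_lit 1) (nat_lit 298) (nat_lit 1) (nat_lit 297) (nat_lit 1) (nat_lit 209) (nat_lit 201) (nat_lit 190)) (XT.lf (nat_lit 1932) (nat_lit 400098713) (nat_lit 84) (nat_lit 1468972843) (nat_lit 0) (nat_lit 1572085480) (nat_lit 321) (nat_lit 1) (nat_lit 299) (nat_lit 1) (nat_lit 298) (nat_lit 1) (nat_lit 210) (nat_lit 201) (nat_lit 189)))) (XT.nd (nat_lit 188) (nat_lit 1092) (nat_lit 0) (XT.nd (nat_lit 94) (nat_lit 1848) (nat_lit 0) (XT.lf (nat_lit 1932) (nat_lit 14614013) (nat_lit 84) (nat_lit 925505204) (nat_lit 0) (nat_lit 2446513826) (nat_lit 322) (nat_lit 1) (nat_lit 300) (nat_lit 1) (nat_lit 299) (nat_lit 1) (nat_lit 211) (nat_lit 201) (nat_lit 188)) (XT.lf (nat_lit 84) (nat_lit 31103874) (nat_lit 0) (nat_lit 380531146) (nat_lit 1932) (nat_lit 2921649057) (nat_lit 278) (nat_lit 1) (nat_lit 277) (nat_lit 1) (nat_lit 300)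 (nat_lit 1) (nat_lit 212) (nat_lit 201) (nat_lit 187))) (XT.nd (nat_lit 94) (nat_lit 1092) (nat_lit 0) (XT.lf (nat_lit 84) (nat_lit 2408302999) (nat_lit 0) (nat_lit 796259307) (nat_lit 1932) (nat_lit 76423390) (nat_lit 278) (nat_lit 1) (nat_lit 277) (nat_lit 1) (nat_lit 300) (nat_lit 1) (nat_lit 213) (nat_lit 201) (nat_lit 186)) (XT.lf (nat_lit 84) (nat_lit 1472874410) (nat_lit 0) (nat_lit 1227889655) (nat_lit 1176) (nat_lit 529032660) (nat_lit 265) (nat_lit 1) (nat_lit 264) (nat_lit 1) (nat_lit 278) (nat_lit 1) (nat_lit 214) (nat_lit 201) (nat_lit 185))))))) (XT.nd (nat_lit 36660) (nat_lit 0) (nat_lit 840) (XT.nd (nat_lit 36002) (nat_lit 0) (nat_lit 6636) (XT.nd (nat_lit 282) (nat_lit 1764) (nat_lit 0) (XT.nd (nat_lit 94) (nat_lit 1764) (nat_lit 0) (XT.lf (nat_lit 84) (nat_lit 555435493) (nat_lit 0) (nat_lit 1671373087) (nat_lit 1008) (nat_lit 952948319) (nat_lit 254) (nat_lit 1) (nat_lit 253) (nat_lit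 1) (nat_lit 265) (nat_lit 1) (nat_lit 215) (nat_lit 201) (nat_lit 184)) (XT.nd (nat_lit 94) (nat_lit 840) (nat_lit 0) (XT.lf (nat_lit 1008) (nat_lit 1002437222) (nat_lit 0) (nat_lit 1779104942) (nat_lit 924) (nat_lit 349240388) (nat_lit 254) (nat_lit 1) (nat_lit 242) (nat_lit 1) (nat_lit 253) (nat_lit 1) (nat_lit 216) (nat_lit 201) (nat_lit 183)) (XT.lf (nat_lit 924) (nat_lit 483423885) (nat_lit 0) (nat_lit 1355207792) (nat_lit 840) (nat_lit 1244183084) (nat_lit 243) (nat_lit 1) (nat_lit 232) (nat_lit 1) (nat_lit 242) (nat_lit 1) (nat_lit 217) (nat_lit 201) (nat_lit 182)))) (XT.nd (nat_lit 94) (nat_lit 840) (nat_lit 0) (XT.lf (nat_lit 84) (nat_lit 914744335) (nat_lit 0) (nat_lit 43172202) (nat_lit 924) (nat_lit 2077991043) (nat_lit 222) (nat_lit 1) (nat_lit 221) (nat_lit 1) (nat_lit 232) (nat_lit 1) (nat_lit 218) (nat_lit 201) (nat_lit 181)) (XT.nd (nat_lit 35532) (nat_lit 0) (nat_lit 6552) (XT.lf (nat_lit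 84) (nat_lit 12828896) (nat_lit 0) (nat_lit 570194202) (nat_lit 924) (nat_lit 2406941197) (nat_lit 212) (nat_lit 1) (nat_lit 211) (nat_lit 1) (nat_lit 222) (nat_lit 1) (nat_lit 219) (nat_lit 201) (nat_lit 180)) (XT.lf (nat_lit 1932) (nat_lit 831342513) (nat_lit 0) (nat_lit 510980680) (nat_lit 1932) (nat_lit 831342513) (nat_lit 312) (nat_lit 1) (nat_lit 289) (nat_lit 0) (nat_lit 312) (nat_lit 0) (nat_lit 196) (nat_lit 202) (nat_lit 202))))) (XT.nd (nat_lit 282) (nat_lit 0) (nat_lit 168) (XT.nd (nat_lit 94) (nat_lit 0) (nat_lit 0) (XT.lf (nat_lit 1932) (nat_lit 732136921) (nat_lit 0) (nat_lit 1022510507) (nat_lit 1848) (nat_lit 2518786153) (nat_lit 313) (nat_lit 1) (nat_lit 290) (nat_lit 1) (nat_lit 312) (nat_lit 1) (nat_lit 197) (nat_lit 202) (nat_lit 201)) (XT.nd (nat_lit 94) (nat_lit 0) (nat_lit 84) (XT.lf (nat_lit 1932) (nat_lit 3141809277) (nat_lit 84) (nat_lit 872114916) (nat_lit 0) (nat_lit 187310067)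 (nat_lit 313) (nat_lit 1) (nat_lit 291) (nat_lit 1) (nat_lit 290) (nat_lit 1) (nat_lit 198) (nat_lit 202) (nat_lit 200)) (XT.lf (nat_lit 1932) (nat_lit 2995822886) (nat_lit 84) (nat_lit 31397389) (nat_lit 0) (nat_lit 1103383026) (nat_lit 314) (nat_lit 1) (nat_lit 292) (nat_lit 1) (nat_lit 291) (nat_lit 1) (nat_lit 199) (nat_lit 202) (nat_lit 199)))) (XT.nd (nat_lit 188) (nat_lit 0) (nat_lit 168) (XT.nd (nat_lit 94) (nat_lit 0) (nat_lit 84) (XT.lf (nat_lit 1932) (nat_lit 2061727126) (nat_lit 0) (nat_lit 1247015206) (nat_lit 1848) (nat_lit 752751086) (nat_lit 315) (nat_lit 1) (nat_lit 292) (nat_lit 1) (nat_lit 314) (nat_lit 1) (nat_lit 200) (nat_lit 202) (nat_lit 198)) (XT.lf (nat_lit 1932) (nat_lit 1111913104) (nat_lit 0) (nat_lit 1388957449) (nat_lit 1848) (nat_lit 1493112970) (nat_lit 316) (nat_lit 1) (nat_lit 293) (nat_lit 1) (nat_lit 315) (nat_lit 1) (nat_lit 201) (nat_lit 202) (nat_lit 197))) (XT.nd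 (nat_lit 94) (nat_lit 0) (nat_lit 0) (XT.lf (nat_lit 1932) (nat_lit 177550575) (nat_lit 0) (nat_lit 1558818612) (nat_lit 1848) (nat_lit 2191667569) (nat_lit 317) (nat_lit 1) (nat_lit 294) (nat_lit 1) (nat_lit 316) (nat_lit 1) (nat_lit 202) (nat_lit 202) (nat_lit 196)) (XT.lf (nat_lit 1932) (nat_lit 2103039373) (nat_lit 84) (nat_lit 1008243682) (nat_lit 0) (nat_lit 752211586) (nat_lit 317) (nat_lit 1) (nat_lit 295) (nat_lit 1) (nat_lit 294) (nat_lit 1) (nat_lit 203) (nat_lit 202) (nat_lit 195)))))) (XT.nd (nat_lit 564) (nat_lit 6216) (nat_lit 0) (XT.nd (nat_lit 282) (nat_lit 0) (nat_lit 168) (XT.nd (nat_lit 94) (nat_lit 0) (nat_lit 84) (XT.lf (nat_lit 1932) (nat_lit 1812169390) (nat_lit 84) (nat_lit 319302729) (nat_lit 0) (nat_lit 1668937714) (nat_lit 318) (nat_lit 1) (nat_lit 296) (nat_lit 1) (nat_lit 295) (nat_lit 1) (nat_lit 204) (nat_lit 202) (nat_lit 194)) (XT.nd (nat_lit 94) (nat_lit 0) (nat_lit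 84) (XT.lf (nat_lit 1932) (nat_lit 1171052692) (nat_lit 0) (nat_lit 2241863913) (nat_lit 1848) (nat_lit 325803817) (nat_lit 319) (nat_lit 1) (nat_lit 296) (nat_lit 1) (nat_lit 318) (nat_lit 1) (nat_lit 205) (nat_lit 202) (nat_lit 193)) (XT.lf (nat_lit 1932) (nat_lit 229586763) (nat_lit 0) (nat_lit 2519651817) (nat_lit 1848) (nat_lit 929158242) (nat_lit 320) (nat_lit 1) (nat_lit 297) (nat_lit 1) (nat_lit 319) (nat_lit 1) (nat_lit 206) (nat_lit 202) (nat_lit 192)))) (XT.nd (nat_lit 94) (nat_lit 0) (nat_lit 84) (XT.lf (nat_lit 1932) (nat_lit 796248475) (nat_lit 84) (nat_lit 2117643769) (nat_lit 0) (nat_lit 705449857) (nat_lit 320) (nat_lit 1) (nat_lit 298) (nat_lit 1) (nat_lit 297) (nat_lit 1) (nat_lit 207) (nat_lit 202) (nat_lit 191)) (XT.nd (nat_lit 94) (nat_lit 0) (nat_lit 84) (XT.lf (nat_lit 1932) (nat_lit 414102168) (nat_lit 84) (nat_lit 1520386892) (nat_lit 0) (nat_lit 1627108472) (nat_lit 321) (nat_lit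 1) (nat_lit 299) (nat_lit 1) (nat_lit 298) (nat_lit 1) (nat_lit 208) (nat_lit 202) (nat_lit 190)) (XT.lf (nat_lit 1932) (nat_lit 15125504) (nat_lit 84) (nat_lit 957897886) (nat_lit 0) (nat_lit 2532141810) (nat_lit 322) (nat_lit 1) (nat_lit 300) (nat_lit 1) (nat_lit 299) (nat_lit 1) (nat_lit 209) (nat_lit 202) (nat_lit 189))))) (XT.nd (nat_lit 282) (nat_lit 3612) (nat_lit 0) (XT.nd (nat_lit 94) (nat_lit 1092) (nat_lit 0) (XT.lf (nat_lit 84) (nat_lit 32192509) (nat_lit 0) (nat_lit 393849736) (nat_lit 1932) (nat_lit 3023906774) (nat_lit 278) (nat_lit 1) (nat_lit 277) (nat_lit 1) (nat_lit 300) (nat_lit 1) (nat_lit 210) (nat_lit 202) (nat_lit 188)) (XT.nd (nat_lit 94) (nat_lit 1092) (nat_lit 0) (XT.lf (nat_lit 84) (nat_lit 2492593604) (nat_lit 0) (nat_lit 824128383) (nat_lit 1932) (nat_lit 79098209) (nat_lit 278) (nat_lit 1) (nat_lit 277) (nat_lit 1) (nat_lit 300) (nat_lit 1) (nat_lit 211) (nat_lit 202)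 (nat_lit 187)) (XT.lf (nat_lit 84) (nat_lit 1524425015) (nat_lit 0) (nat_lit 1270865793) (nat_lit 1176) (nat_lit 547548803) (nat_lit 265) (nat_lit 1) (nat_lit 264) (nat_lit 1) (nat_lit 278) (nat_lit 1) (nat_lit 212) (nat_lit 202) (nat_lit 186)))) (XT.nd (nat_lit 188) (nat_lit 1764) (nat_lit 0) (XT.nd (nat_lit 94) (nat_lit 924) (nat_lit 0) (XT.lf (nat_lit 84) (nat_lit 574875736) (nat_lit 0) (nat_lit 1729871145) (nat_lit 1008) (nat_lit 986301510) (nat_lit 254) (nat_lit 1) (nat_lit 253) (nat_lit 1) (nat_lit 265) (nat_lit 1) (nat_lit 213) (nat_lit 202) (nat_lit 185)) (XT.lf (nat_lit 1008) (nat_lit 1037522525) (nat_lit 0) (nat_lit 1841373615) (nat_lit 924) (nat_lit 361463802) (nat_lit 254) (nat_lit 1) (nat_lit 242) (nat_lit 1) (nat_lit 253) (nat_lit 1) (nat_lit 214) (nat_lit 202) (nat_lit 184))) (XT.nd (nat_lit 94) (nat_lit 924) (nat_lit 0) (XT.lf (nat_lit 924) (nat_lit 500343721) (nat_lit 0) (nat_lit 1402640065)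 (nat_lit 840) (nat_lit 1287729492) (nat_lit 243) (nat_lit 1) (nat_lit 232) (nat_lit 1) (nat_lit 242) (nat_lit 1) (nat_lit 215) (nat_lit 202) (nat_lit 183)) (XT.lf (nat_lit 84) (nat_lit 946760387) (nat_lit 0) (nat_lit 44683229) (nat_lit 924) (nat_lit 2150720729) (nat_lit 222) (nat_lit 1) (nat_lit 221) (nat_lit 1) (nat_lit 232) (nat_lit 1) (nat_lit 216) (nat_lit 202) (nat_lit 182))))))))
noncomputable def ec3 : XT := (XT.nd (nat_lit 37694) (nat_lit 756) (nat_lit 0) (XT.nd (nat_lit 36472) (nat_lit 0) (nat_lit 0) (XT.nd (nat_lit 35908) (nat_lit 0) (nat_lit 7644) (XT.nd (nat_lit 35626) (nat_lit 0) (nat_lit 7476) (XT.nd (nat_lit 94) (nat_lit 840) (nat_lit 0) (XT.lf (nat_lit 84) (nat_lit 13277907) (nat_lit 0) (nat_lit 590151000) (nat_lit 924) (nat_lit 2491184139) (nat_lit 212) (nat_lit 1) (nat_lit 211) (nat_lit 1) (nat_lit 222) (nat_lit 1) (nat_lit 217) (nat_lit 202) (nat_lit 181)) (XT.nd (nat_lit 35438) (nat_lit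 0) (nat_lit 7392) (XT.lf (nat_lit 924) (nat_lit 1898886229) (nat_lit 0) (nat_lit 234631317) (nat_lit 840) (nat_lit 914450228) (nat_lit 212) (nat_lit 1) (nat_lit 201) (nat_lit 1) (nat_lit 211) (nat_lit 1) (nat_lit 218) (nat_lit 202) (nat_lit 180)) (XT.lf (nat_lit 1932) (nat_lit 860439501) (nat_lit 0) (nat_lit 528865004) (nat_lit 1932) (nat_lit 860439501) (nat_lit 312) (nat_lit 1) (nat_lit 289) (nat_lit 0) (nat_lit 312) (nat_lit 0) (nat_lit 194) (nat_lit 203) (nat_lit 203)))) (XT.nd (nat_lit 94) (nat_lit 0) (nat_lit 0) (XT.lf (nat_lit 1932) (nat_lit 757761714) (nat_lit 0) (nat_lit 1058298375) (nat_lit 1848) (nat_lit 2606943668) (nat_lit 313) (nat_lit 1) (nat_lit 290) (nat_lit 1) (nat_lit 312) (nat_lit 1) (nat_lit 195) (nat_lit 203) (nat_lit 202)) (XT.nd (nat_lit 94) (nat_lit 0) (nat_lit 84) (XT.lf (nat_lit 1932) (nat_lit 3251772602) (nat_lit 84) (nat_lit 902638938) (nat_lit 0) (nat_lit 193865920) (nat_lit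 313) (nat_lit 1) (nat_lit 291) (nat_lit 1) (nat_lit 290) (nat_lit 1) (nat_lit 196) (nat_lit 203) (nat_lit 201)) (XT.lf (nat_lit 1932) (nat_lit 3100676687) (nat_lit 84) (nat_lit 32496298) (nat_lit 0) (nat_lit 1142001431) (nat_lit 314) (nat_lit 1) (nat_lit 292) (nat_lit 1) (nat_lit 291) (nat_lit 1) (nat_lit 197) (nat_lit 203) (nat_lit 200))))) (XT.nd (nat_lit 282) (nat_lit 0) (nat_lit 168) (XT.nd (nat_lit 94) (nat_lit 0) (nat_lit 84) (XT.lf (nat_lit 1932) (nat_lit 2133887575) (nat_lit 0) (nat_lit 1290660738) (nat_lit 1848) (nat_lit 779097375) (nat_lit 315) (nat_lit 1) (nat_lit 292) (nat_lit 1) (nat_lit 314) (nat_lit 1) (nat_lit 198) (nat_lit 203) (nat_lit 199)) (XT.nd (nat_lit 94) (nat_lit 0) (nat_lit 84) (XT.lf (nat_lit 1932) (nat_lit 1150830063) (nat_lit 0) (nat_lit 1437570960) (nat_lit 1848) (nat_lit 1545371924) (nat_lit 316) (nat_lit 1) (nat_lit 293) (nat_lit 1) (nat_lit 315) (nat_lit 1) (nat_lit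 199) (nat_lit 203) (nat_lit 198)) (XT.lf (nat_lit 1932) (nat_lit 183764845) (nat_lit 0) (nat_lit 1613377264) (nat_lit 1848) (nat_lit 2268375934) (nat_lit 317) (nat_lit 1) (nat_lit 294) (nat_lit 1) (nat_lit 316) (nat_lit 1) (nat_lit 200) (nat_lit 203) (nat_lit 197)))) (XT.nd (nat_lit 94) (nat_lit 0) (nat_lit 84) (XT.lf (nat_lit 1932) (nat_lit 2176645751) (nat_lit 84) (nat_lit 1043532211) (nat_lit 0) (nat_lit 778538992) (nat_lit 317) (nat_lit 1) (nat_lit 295) (nat_lit 1) (nat_lit 294) (nat_lit 1) (nat_lit 201) (nat_lit 203) (nat_lit 196)) (XT.nd (nat_lit 94) (nat_lit 0) (nat_lit 84) (XT.lf (nat_lit 1932) (nat_lit 1875595318) (nat_lit 84) (nat_lit 330478324) (nat_lit 0) (nat_lit 1727350534) (nat_lit 318) (nat_lit 1) (nat_lit 296) (nat_lit 1) (nat_lit 295) (nat_lit 1) (nat_lit 202) (nat_lit 203) (nat_lit 195)) (XT.lf (nat_lit 1932) (nat_lit 1212039536) (nat_lit 0) (nat_lit 2320329150) (nat_lit 1848) (nat_lit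 337206950) (nat_lit 319) (nat_lit 1) (nat_lit 296) (nat_lit 1) (nat_lit 318) (nat_lit 1) (nat_lit 203) (nat_lit 203) (nat_lit 194)))))) (XT.nd (nat_lit 564) (nat_lit 6384) (nat_lit 0) (XT.nd (nat_lit 282) (nat_lit 1680) (nat_lit 0) (XT.nd (nat_lit 94) (nat_lit 0) (nat_lit 0) (XT.lf (nat_lit 1932) (nat_lit 237622300) (nat_lit 0) (nat_lit 2607839630) (nat_lit 1848) (nat_lit 961678781) (nat_lit 320) (nat_lit 1) (nat_lit 297) (nat_lit 1) (nat_lit 319) (nat_lit 1) (nat_lit 204) (nat_lit 203) (nat_lit 193)) (XT.nd (nat_lit 94) (nat_lit 0) (nat_lit 84) (XT.lf (nat_lit 1932) (nat_lit 824117171) (nat_lit 84) (nat_lit 2191761301) (nat_lit 0) (nat_lit 730140602) (nat_lit 320) (nat_lit 1) (nat_lit 298) (nat_lit 1) (nat_lit 297) (nat_lit 1) (nat_lit 205) (nat_lit 203) (nat_lit 192)) (XT.lf (nat_lit 1932) (nat_lit 428595744) (nat_lit 84) (nat_lit 1573600434) (nat_lit 0) (nat_lit 1684057269) (nat_lit 321) (nat_lit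 1) (nat_lit 299) (nat_lit 1) (nat_lit 298) (nat_lit 1) (nat_lit 206) (nat_lit 203) (nat_lit 191)))) (XT.nd (nat_lit 94) (nat_lit 1848) (nat_lit 0) (XT.lf (nat_lit 1932) (nat_lit 15654896) (nat_lit 84) (nat_lit 991424312) (nat_lit 0) (nat_lit 2620766773) (nat_lit 322) (nat_lit 1) (nat_lit 300) (nat_lit 1) (nat_lit 299) (nat_lit 1) (nat_lit 207) (nat_lit 203) (nat_lit 190)) (XT.nd (nat_lit 94) (nat_lit 0) (nat_lit 0) (XT.lf (nat_lit 84) (nat_lit 33319247) (nat_lit 0) (nat_lit 407634477) (nat_lit 1932) (nat_lit 3129743511) (nat_lit 278) (nat_lit 1) (nat_lit 277) (nat_lit 1) (nat_lit 300) (nat_lit 1) (nat_lit 208) (nat_lit 203) (nat_lit 189)) (XT.lf (nat_lit 84) (nat_lit 2579834380) (nat_lit 0) (nat_lit 852972876) (nat_lit 1932) (nat_lit 81866646) (nat_lit 278) (nat_lit 1) (nat_lit 277) (nat_lit 1) (nat_lit 300) (nat_lit 1) (nat_lit 209) (nat_lit 203) (nat_lit 188))))) (XT.nd (nat_lit 282) (nat_lit 3444)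 (nat_lit 0) (XT.nd (nat_lit 94) (nat_lit 1848) (nat_lit 0) (XT.lf (nat_lit 84) (nat_lit 1577779890) (nat_lit 0) (nat_lit 1315346096) (nat_lit 1176) (nat_lit 566713011) (nat_lit 265) (nat_lit 1) (nat_lit 264) (nat_lit 1) (nat_lit 278) (nat_lit 1) (nat_lit 210) (nat_lit 203) (nat_lit 187)) (XT.nd (nat_lit 94) (nat_lit 924) (nat_lit 0) (XT.lf (nat_lit 84) (nat_lit 594996387) (nat_lit 0) (nat_lit 1790416635) (nat_lit 1008) (nat_lit 1020822063) (nat_lit 254) (nat_lit 1) (nat_lit 253) (nat_lit 1) (nat_lit 265) (nat_lit 1) (nat_lit 211) (nat_lit 203) (nat_lit 186)) (XT.lf (nat_lit 1008) (nat_lit 1073835814) (nat_lit 0) (nat_lit 1905821692) (nat_lit 924) (nat_lit 374115035) (nat_lit 254) (nat_lit 1) (nat_lit 242) (nat_lit 1) (nat_lit 253) (nat_lit 1) (nat_lit 212) (nat_lit 203) (nat_lit 185)))) (XT.nd (nat_lit 188) (nat_lit 1680) (nat_lit 0) (XT.nd (nat_lit 94) (nat_lit 924) (nat_lit 0) (XT.lf (nat_lit 924)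 (nat_lit 517855751) (nat_lit 0) (nat_lit 1451732467) (nat_lit 840) (nat_lit 1332800024) (nat_lit 243) (nat_lit 1) (nat_lit 232) (nat_lit 1) (nat_lit 242) (nat_lit 1) (nat_lit 213) (nat_lit 203) (nat_lit 184)) (XT.lf (nat_lit 84) (nat_lit 979897000) (nat_lit 0) (nat_lit 46247142) (nat_lit 924) (nat_lit 2225995955) (nat_lit 222) (nat_lit 1) (nat_lit 221) (nat_lit 1) (nat_lit 232) (nat_lit 1) (nat_lit 214) (nat_lit 203) (nat_lit 183))) (XT.nd (nat_lit 94) (nat_lit 840) (nat_lit 0) (XT.lf (nat_lit 84) (nat_lit 13742634) (nat_lit 0) (nat_lit 610806285) (nat_lit 924) (nat_lit 2578375583) (nat_lit 212) (nat_lit 1) (nat_lit 211) (nat_lit 1) (nat_lit 222) (nat_lit 1) (nat_lit 215) (nat_lit 203) (nat_lit 182)) (XT.lf (nat_lit 924) (nat_lit 1965347247) (nat_lit 0) (nat_lit 242843413) (nat_lit 840) (nat_lit 946455986) (nat_lit 212) (nat_lit 1) (nat_lit 201) (nat_lit 1) (nat_lit 211) (nat_lit 1) (nat_lit 216) (nat_lit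 203) (nat_lit 181))))))) (XT.nd (nat_lit 36378) (nat_lit 0) (nat_lit 756) (XT.nd (nat_lit 35720) (nat_lit 0) (nat_lit 8400) (XT.nd (nat_lit 35438) (nat_lit 0) (nat_lit 8232) (XT.nd (nat_lit 94) (nat_lit 756) (nat_lit 0) (XT.lf (nat_lit 84) (nat_lit 1220986551) (nat_lit 0) (nat_lit 1775059037) (nat_lit 924) (nat_lit 111365545) (nat_lit 202) (nat_lit 1) (nat_lit 201) (nat_lit 1) (nat_lit 212) (nat_lit 1) (nat_lit 217) (nat_lit 203) (nat_lit 180)) (XT.nd (nat_lit 35250) (nat_lit 0) (nat_lit 8148) (XT.lf (nat_lit 84) (nat_lit 255711184) (nat_lit 0) (nat_lit 2368075639) (nat_lit 840) (nat_lit 437390699) (nat_lit 193) (nat_lit 1) (nat_lit 192) (nat_lit 1) (nat_lit 202) (nat_lit 1) (nat_lit 218) (nat_lit 203) (nat_lit 179)) (XT.lf (nat_lit 1932) (nat_lit 890554884) (nat_lit 0) (nat_lit 547375279) (nat_lit 1932) (nat_lit 890554884) (nat_lit 312) (nat_lit 1) (nat_lit 289) (nat_lit 0) (nat_lit 312) (nat_lit 0)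 (nat_lit 192) (nat_lit 204) (nat_lit 204)))) (XT.nd (nat_lit 94) (nat_lit 0) (nat_lit 0) (XT.lf (nat_lit 1932) (nat_lit 784283374) (nat_lit 0) (nat_lit 1095338818) (nat_lit 1848) (nat_lit 2698186697) (nat_lit 313) (nat_lit 1) (nat_lit 290) (nat_lit 1) (nat_lit 312) (nat_lit 1) (nat_lit 193) (nat_lit 204) (nat_lit 203)) (XT.nd (nat_lit 94) (nat_lit 0) (nat_lit 84) (XT.lf (nat_lit 1932) (nat_lit 3365584643) (nat_lit 84) (nat_lit 934231301) (nat_lit 0) (nat_lit 200651227) (nat_lit 313) (nat_lit 1) (nat_lit 291) (nat_lit 1) (nat_lit 290) (nat_lit 1) (nat_lit 194) (nat_lit 204) (nat_lit 202)) (XT.lf (nat_lit 1932) (nat_lit 3209200371) (nat_lit 84) (nat_lit 33633668) (nat_lit 0) (nat_lit 1181971482) (nat_lit 314) (nat_lit 1) (nat_lit 292) (nat_lit 1) (nat_lit 291) (nat_lit 1) (nat_lit 195) (nat_lit 204) (nat_lit 201))))) (XT.nd (nat_lit 282) (nat_lit 0) (nat_lit 168) (XT.nd (nat_lit 94) (nat_lit 0) (nat_lit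 84) (XT.lf (nat_lit 1932) (nat_lit 2208573640) (nat_lit 0) (nat_lit 1335833864) (nat_lit 1848) (nat_lit 806365783) (nat_lit 315) (nat_lit 1) (nat_lit 292) (nat_lit 1) (nat_lit 314) (nat_lit 1) (nat_lit 196) (nat_lit 204) (nat_lit 200)) (XT.nd (nat_lit 94) (nat_lit 0) (nat_lit 84) (XT.lf (nat_lit 1932) (nat_lit 1191109115) (nat_lit 0) (nat_lit 1487885944) (nat_lit 1848) (nat_lit 1599459941) (nat_lit 316) (nat_lit 1) (nat_lit 293) (nat_lit 1) (nat_lit 315) (nat_lit 1) (nat_lit 197) (nat_lit 204) (nat_lit 199)) (XT.lf (nat_lit 1932) (nat_lit 190196615) (nat_lit 0) (nat_lit 1669845468) (nat_lit 1848) (nat_lit 2347769091) (nat_lit 317) (nat_lit 1) (nat_lit 294) (nat_lit 1) (nat_lit 316) (nat_lit 1) (nat_lit 198) (nat_lit 204) (nat_lit 198)))) (XT.nd (nat_lit 188) (nat_lit 0) (nat_lit 168) (XT.nd (nat_lit 94) (nat_lit 0) (nat_lit 84) (XT.lf (nat_lit 1932) (nat_lit 2252828352) (nat_lit 84) (nat_lit 1080055838)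 (nat_lit 0) (nat_lit 805787857) (nat_lit 317) (nat_lit 1) (nat_lit 295) (nat_lit 1) (nat_lit 294) (nat_lit 1) (nat_lit 199) (nat_lit 204) (nat_lit 197)) (XT.lf (nat_lit 1932) (nat_lit 1941241155) (nat_lit 84) (nat_lit 342045066) (nat_lit 0) (nat_lit 1787807803) (nat_lit 318) (nat_lit 1) (nat_lit 296) (nat_lit 1) (nat_lit 295) (nat_lit 1) (nat_lit 200) (nat_lit 204) (nat_lit 196))) (XT.nd (nat_lit 94) (nat_lit 0) (nat_lit 84) (XT.lf (nat_lit 1932) (nat_lit 1254460920) (nat_lit 0) (nat_lit 2401540670) (nat_lit 1848) (nat_lit 349009194) (nat_lit 319) (nat_lit 1) (nat_lit 296) (nat_lit 1) (nat_lit 318) (nat_lit 1) (nat_lit 201) (nat_lit 204) (nat_lit 195)) (XT.lf (nat_lit 1932) (nat_lit 245939080) (nat_lit 0) (nat_lit 2699114017) (nat_lit 1848) (nat_lit 995337538) (nat_lit 320) (nat_lit 1) (nat_lit 297) (nat_lit 1) (nat_lit 319) (nat_lit 1) (nat_lit 202) (nat_lit 204) (nat_lit 194)))))) (XT.nd (nat_lit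 564) (nat_lit 5292) (nat_lit 0) (XT.nd (nat_lit 282) (nat_lit 2772) (nat_lit 0) (XT.nd (nat_lit 94) (nat_lit 0) (nat_lit 84) (XT.lf (nat_lit 1932) (nat_lit 852961272) (nat_lit 84) (nat_lit 2268472947) (nat_lit 0) (nat_lit 755695523) (nat_lit 320) (nat_lit 1) (nat_lit 298) (nat_lit 1) (nat_lit 297) (nat_lit 1) (nat_lit 203) (nat_lit 204) (nat_lit 193)) (XT.nd (nat_lit 94) (nat_lit 0) (nat_lit 84) (XT.lf (nat_lit 1932) (nat_lit 443596595) (nat_lit 84) (nat_lit 1628676449) (nat_lit 0) (nat_lit 1742999273) (nat_lit 321) (nat_lit 1) (nat_lit 299) (nat_lit 1) (nat_lit 298) (nat_lit 1) (nat_lit 204) (nat_lit 204) (nat_lit 192)) (XT.lf (nat_lit 1932) (nat_lit 16202818) (nat_lit 84) (nat_lit 1026124163) (nat_lit 0) (nat_lit 2712493611) (nat_lit 322) (nat_lit 1) (nat_lit 300) (nat_lit 1) (nat_lit 299) (nat_lit 1) (nat_lit 205) (nat_lit 204) (nat_lit 191)))) (XT.nd (nat_lit 94) (nat_lit 1092) (nat_lit 0) (XT.lf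 (nat_lit 84) (nat_lit 34485421) (nat_lit 0) (nat_lit 421901683) (nat_lit 1932) (nat_lit 3239284534) (nat_lit 278) (nat_lit 1) (nat_lit 277) (nat_lit 1) (nat_lit 300) (nat_lit 1) (nat_lit 206) (nat_lit 204) (nat_lit 190)) (XT.nd (nat_lit 94) (nat_lit 1092) (nat_lit 0) (XT.lf (nat_lit 84) (nat_lit 2670128583) (nat_lit 0) (nat_lit 882826927) (nat_lit 1932) (nat_lit 84731979) (nat_lit 278) (nat_lit 1) (nat_lit 277) (nat_lit 1) (nat_lit 300) (nat_lit 1) (nat_lit 207) (nat_lit 204) (nat_lit 189)) (XT.lf (nat_lit 84) (nat_lit 1633002187) (nat_lit 0) (nat_lit 1361383209) (nat_lit 1176) (nat_lit 586547967) (nat_lit 265) (nat_lit 1) (nat_lit 264) (nat_lit 1) (nat_lit 278) (nat_lit 1) (nat_lit 208) (nat_lit 204) (nat_lit 188))))) (XT.nd (nat_lit 282) (nat_lit 2604) (nat_lit 0) (XT.nd (nat_lit 94) (nat_lit 1764) (nat_lit 0) (XT.lf (nat_lit 84) (nat_lit 615821260) (nat_lit 0) (nat_lit 1853081217) (nat_lit 1008)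 (nat_lit 1056550835) (nat_lit 254) (nat_lit 1) (nat_lit 253) (nat_lit 1) (nat_lit 265) (nat_lit 1) (nat_lit 209) (nat_lit 204) (nat_lit 187)) (XT.nd (nat_lit 94) (nat_lit 840) (nat_lit 0) (XT.lf (nat_lit 1008) (nat_lit 1111420067) (nat_lit 0) (nat_lit 1972525451) (nat_lit 924) (nat_lit 387209061) (nat_lit 254) (nat_lit 1) (nat_lit 242) (nat_lit 1) (nat_lit 253) (nat_lit 1) (nat_lit 210) (nat_lit 204) (nat_lit 186)) (XT.lf (nat_lit 924) (nat_lit 535980703) (nat_lit 0) (nat_lit 1502543103) (nat_lit 840) (nat_lit 1379448025) (nat_lit 243) (nat_lit 1) (nat_lit 232) (nat_lit 1) (nat_lit 242) (nat_lit 1) (nat_lit 211) (nat_lit 204) (nat_lit 185)))) (XT.nd (nat_lit 188) (nat_lit 840) (nat_lit 0) (XT.nd (nat_lit 94) (nat_lit 840) (nat_lit 0) (XT.lf (nat_lit 84) (nat_lit 1014193395) (nat_lit 0) (nat_lit 47865792) (nat_lit 924) (nat_lit 2303905813) (nat_lit 222) (nat_lit 1) (nat_lit 221) (nat_lit 1) (nat_lit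 232) (nat_lit 1) (nat_lit 212) (nat_lit 204) (nat_lit 184)) (XT.lf (nat_lit 84) (nat_lit 14223626) (nat_lit 0) (nat_lit 632184505) (nat_lit 924) (nat_lit 2668618729) (nat_lit 212) (nat_lit 1) (nat_lit 211) (nat_lit 1) (nat_lit 222) (nat_lit 1) (nat_lit 213) (nat_lit 204) (nat_lit 183))) (XT.nd (nat_lit 94) (nat_lit 0) (nat_lit 0) (XT.lf (nat_lit 924) (nat_lit 2034134400) (nat_lit 0) (nat_lit 251342932) (nat_lit 840) (nat_lit 979581946) (nat_lit 212) (nat_lit 1) (nat_lit 201) (nat_lit 1) (nat_lit 211) (nat_lit 1) (nat_lit 214) (nat_lit 204) (nat_lit 182)) (XT.lf (nat_lit 84) (nat_lit 1263721080) (nat_lit 0) (nat_lit 1837186103) (nat_lit 924) (nat_lit 115263339) (nat_lit 202) (nat_lit 1) (nat_lit 201) (nat_lit 1) (nat_lit 212) (nat_lit 1) (nat_lit 215) (nat_lit 204) (nat_lit 181))))))))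
noncomputable def ec4 : XT := (XT.nd (nat_lit 37318) (nat_lit 1428) (nat_lit 0) (XT.nd (nat_lit 36096) (nat_lit 0) (nat_lit 3192) (XT.nd (nat_lit 35532) (nat_lit 0) (nat_lit 9912) (XT.nd (nat_lit 35250) (nat_lit 0) (nat_lit 9744) (XT.nd (nat_lit 94) (nat_lit 1596) (nat_lit 0) (XT.lf (nat_lit 84) (nat_lit 264661075) (nat_lit 0) (nat_lit 2450958286) (nat_lit 840) (nat_lit 452699374) (nat_lit 193) (nat_lit 1) (nat_lit 192) (nat_lit 1) (nat_lit 202) (nat_lit 1) (nat_lit 216) (nat_lit 204) (nat_lit 180)) (XT.nd (nat_lit 94) (nat_lit 840) (nat_lit 0) (XT.lf (nat_lit 840) (nat_lit 46435282) (nat_lit 0) (nat_lit 2350746701) (nat_lit 756) (nat_lit 724221292) (nat_lit 193) (nat_lit 1) (nat_lit 183) (nat_lit 1) (nat_lit 192) (nat_lit 1) (nat_lit 217) (nat_lit 204) (nat_lit 179)) (XT.lf (nat_lit 84) (nat_lit 1383595567) (nat_lit 0) (nat_lit 620667255) (nat_lit 840) (nat_lit 1071111460) (nat_lit 174) (nat_lit 1)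 (nat_lit 173) (nat_lit 1) (nat_lit 183) (nat_lit 1) (nat_lit 218) (nat_lit 204) (nat_lit 178)))) (XT.nd (nat_lit 94) (nat_lit 0) (nat_lit 84) (XT.lf (nat_lit 1932) (nat_lit 921724305) (nat_lit 0) (nat_lit 566533414) (nat_lit 1932) (nat_lit 921724305) (nat_lit 312) (nat_lit 1) (nat_lit 289) (nat_lit 0) (nat_lit 312) (nat_lit 0) (nat_lit 190) (nat_lit 205) (nat_lit 205)) (XT.nd (nat_lit 94) (nat_lit 0) (nat_lit 0) (XT.lf (nat_lit 1932) (nat_lit 811733292) (nat_lit 0) (nat_lit 1133675676) (nat_lit 1848) (nat_lit 2792623231) (nat_lit 313) (nat_lit 1) (nat_lit 290) (nat_lit 1) (nat_lit 312) (nat_lit 1) (nat_lit 191) (nat_lit 205) (nat_lit 204)) (XT.lf (nat_lit 1932) (nat_lit 3483380106) (nat_lit 84) (nat_lit 966929397) (nat_lit 0) (nat_lit 207674020) (nat_lit 313) (nat_lit 1) (nat_lit 291) (nat_lit 1) (nat_lit 290) (nat_lit 1) (nat_lit 192) (nat_lit 205) (nat_lit 203))))) (XT.nd (nat_lit 282) (nat_lit 0)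 (nat_lit 252) (XT.nd (nat_lit 94) (nat_lit 0) (nat_lit 84) (XT.lf (nat_lit 1932) (nat_lit 3321522384) (nat_lit 84) (nat_lit 34810846) (nat_lit 0) (nat_lit 1223340483) (nat_lit 314) (nat_lit 1) (nat_lit 292) (nat_lit 1) (nat_lit 291) (nat_lit 1) (nat_lit 193) (nat_lit 205) (nat_lit 202)) (XT.nd (nat_lit 94) (nat_lit 0) (nat_lit 84) (XT.lf (nat_lit 1932) (nat_lit 2285873718) (nat_lit 0) (nat_lit 1382588049) (nat_lit 1848) (nat_lit 834588585) (nat_lit 315) (nat_lit 1) (nat_lit 292) (nat_lit 1) (nat_lit 314) (nat_lit 1) (nat_lit 194) (nat_lit 205) (nat_lit 201)) (XT.lf (nat_lit 1932) (nat_lit 1232797934) (nat_lit 0) (nat_lit 1539961952) (nat_lit 1848) (nat_lit 1655441039) (nat_lit 316) (nat_lit 1) (nat_lit 293) (nat_lit 1) (nat_lit 315) (nat_lit 1) (nat_lit 195) (nat_lit 205) (nat_lit 200)))) (XT.nd (nat_lit 94) (nat_lit 0) (nat_lit 0) (XT.lf (nat_lit 1932) (nat_lit 196853496) (nat_lit 0) (nat_lit 1728290059)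 (nat_lit 1848) (nat_lit 2429941009) (nat_lit 317) (nat_lit 1) (nat_lit 294) (nat_lit 1) (nat_lit 316) (nat_lit 1) (nat_lit 196) (nat_lit 205) (nat_lit 199)) (XT.nd (nat_lit 94) (nat_lit 0) (nat_lit 84) (XT.lf (nat_lit 1932) (nat_lit 2331677344) (nat_lit 84) (nat_lit 1117857793) (nat_lit 0) (nat_lit 833990431) (nat_lit 317) (nat_lit 1) (nat_lit 295) (nat_lit 1) (nat_lit 294) (nat_lit 1) (nat_lit 197) (nat_lit 205) (nat_lit 198)) (XT.lf (nat_lit 1932) (nat_lit 2009184595) (nat_lit 84) (nat_lit 354016643) (nat_lit 0) (nat_lit 1850381076) (nat_lit 318) (nat_lit 1) (nat_lit 296) (nat_lit 1) (nat_lit 295) (nat_lit 1) (nat_lit 198) (nat_lit 205) (nat_lit 197)))))) (XT.nd (nat_lit 564) (nat_lit 5544) (nat_lit 0) (XT.nd (nat_lit 282) (nat_lit 1596) (nat_lit 0) (XT.nd (nat_lit 94) (nat_lit 0) (nat_lit 84) (XT.lf (nat_lit 1932) (nat_lit 1298367052) (nat_lit 0) (nat_lit 2485594593) (nat_lit 1848) (nat_lit 361224515)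 (nat_lit 319) (nat_lit 1) (nat_lit 296) (nat_lit 1) (nat_lit 318) (nat_lit 1) (nat_lit 199) (nat_lit 205) (nat_lit 196)) (XT.nd (nat_lit 94) (nat_lit 0) (nat_lit 0) (XT.lf (nat_lit 1932) (nat_lit 254546948) (nat_lit 0) (nat_lit 2793583008) (nat_lit 1848) (nat_lit 1030174352) (nat_lit 320) (nat_lit 1) (nat_lit 297) (nat_lit 1) (nat_lit 319) (nat_lit 1) (nat_lit 200) (nat_lit 205) (nat_lit 195)) (XT.lf (nat_lit 1932) (nat_lit 882814917) (nat_lit 84) (nat_lit 2347869500) (nat_lit 0) (nat_lit 782144867) (nat_lit 320) (nat_lit 1) (nat_lit 298) (nat_lit 1) (nat_lit 297) (nat_lit 1) (nat_lit 201) (nat_lit 205) (nat_lit 194)))) (XT.nd (nat_lit 94) (nat_lit 1764) (nat_lit 0) (XT.lf (nat_lit 1932) (nat_lit 459122476) (nat_lit 84) (nat_lit 1685680124) (nat_lit 0) (nat_lit 1804004248) (nat_lit 321) (nat_lit 1) (nat_lit 299) (nat_lit 1) (nat_lit 298) (nat_lit 1) (nat_lit 202) (nat_lit 205) (nat_lit 193)) (XT.nd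 (nat_lit 94) (nat_lit 1848) (nat_lit 0) (XT.lf (nat_lit 1932) (nat_lit 16769916) (nat_lit 84) (nat_lit 1062038509) (nat_lit 0) (nat_lit 2807430887) (nat_lit 322) (nat_lit 1) (nat_lit 300) (nat_lit 1) (nat_lit 299) (nat_lit 1) (nat_lit 203) (nat_lit 205) (nat_lit 192)) (XT.lf (nat_lit 84) (nat_lit 35692411) (nat_lit 0) (nat_lit 436668242) (nat_lit 1932) (nat_lit 3352659493) (nat_lit 278) (nat_lit 1) (nat_lit 277) (nat_lit 1) (nat_lit 300) (nat_lit 1) (nat_lit 204) (nat_lit 205) (nat_lit 191))))) (XT.nd (nat_lit 282) (nat_lit 3528) (nat_lit 0) (XT.nd (nat_lit 94) (nat_lit 2016) (nat_lit 0) (XT.lf (nat_lit 84) (nat_lit 2763583084) (nat_lit 0) (nat_lit 913725869) (nat_lit 1932) (nat_lit 87697598) (nat_lit 278) (nat_lit 1) (nat_lit 277) (nat_lit 1) (nat_lit 300) (nat_lit 1) (nat_lit 205) (nat_lit 205) (nat_lit 190)) (XT.nd (nat_lit 94) (nat_lit 924) (nat_lit 0) (XT.lf (nat_lit 84) (nat_lit 1690157263) (nat_lit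 0) (nat_lit 1409031622) (nat_lit 1176) (nat_lit 607077145) (nat_lit 265) (nat_lit 1) (nat_lit 264) (nat_lit 1) (nat_lit 278) (nat_lit 1) (nat_lit 206) (nat_lit 205) (nat_lit 189)) (XT.lf (nat_lit 84) (nat_lit 637375004) (nat_lit 0) (nat_lit 1917939060) (nat_lit 1008) (nat_lit 1093530114) (nat_lit 254) (nat_lit 1) (nat_lit 253) (nat_lit 1) (nat_lit 265) (nat_lit 1) (nat_lit 207) (nat_lit 205) (nat_lit 188)))) (XT.nd (nat_lit 188) (nat_lit 1764) (nat_lit 0) (XT.nd (nat_lit 94) (nat_lit 840) (nat_lit 0) (XT.lf (nat_lit 1008) (nat_lit 1150319769) (nat_lit 0) (nat_lit 2041563842) (nat_lit 924) (nat_lit 400761378) (nat_lit 254) (nat_lit 1) (nat_lit 242) (nat_lit 1) (nat_lit 253) (nat_lit 1) (nat_lit 208) (nat_lit 205) (nat_lit 187)) (XT.lf (nat_lit 924) (nat_lit 554740027) (nat_lit 0) (nat_lit 1555132112) (nat_lit 840) (nat_lit 1427728706) (nat_lit 243) (nat_lit 1) (nat_lit 232) (nat_lit 1) (nat_lit 242)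 (nat_lit 1) (nat_lit 209) (nat_lit 205) (nat_lit 186))) (XT.nd (nat_lit 94) (nat_lit 840) (nat_lit 0) (XT.lf (nat_lit 84) (nat_lit 1049690164) (nat_lit 0) (nat_lit 49541094) (nat_lit 924) (nat_lit 2384542517) (nat_lit 222) (nat_lit 1) (nat_lit 221) (nat_lit 1) (nat_lit 232) (nat_lit 1) (nat_lit 210) (nat_lit 205) (nat_lit 185)) (XT.lf (nat_lit 84) (nat_lit 14721453) (nat_lit 0) (nat_lit 654310962) (nat_lit 924) (nat_lit 2762020384) (nat_lit 212) (nat_lit 1) (nat_lit 211) (nat_lit 1) (nat_lit 222) (nat_lit 1) (nat_lit 211) (nat_lit 205) (nat_lit 184))))))) (XT.nd (nat_lit 36002) (nat_lit 0) (nat_lit 7224) (XT.nd (nat_lit 564) (nat_lit 672) (nat_lit 0) (XT.nd (nat_lit 282) (nat_lit 2352) (nat_lit 0) (XT.nd (nat_lit 94) (nat_lit 756) (nat_lit 0) (XT.lf (nat_lit 924) (nat_lit 2105329104) (nat_lit 0) (nat_lit 260139935) (nat_lit 840) (nat_lit 1013867314) (nat_lit 212) (nat_lit 1) (nat_lit 201) (nat_lit 1)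 (nat_lit 211) (nat_lit 1) (nat_lit 212) (nat_lit 205) (nat_lit 183)) (XT.nd (nat_lit 94) (nat_lit 756) (nat_lit 0) (XT.lf (nat_lit 84) (nat_lit 1307951318) (nat_lit 0) (nat_lit 1901487617) (nat_lit 924) (nat_lit 119297556) (nat_lit 202) (nat_lit 1) (nat_lit 201) (nat_lit 1) (nat_lit 212) (nat_lit 1) (nat_lit 213) (nat_lit 205) (nat_lit 182)) (XT.lf (nat_lit 84) (nat_lit 273924213) (nat_lit 0) (nat_lit 2536741826) (nat_lit 840) (nat_lit 468543852) (nat_lit 193) (nat_lit 1) (nat_lit 192) (nat_lit 1) (nat_lit 202) (nat_lit 1) (nat_lit 214) (nat_lit 205) (nat_lit 181)))) (XT.nd (nat_lit 94) (nat_lit 1596) (nat_lit 0) (XT.lf (nat_lit 840) (nat_lit 48060517) (nat_lit 0) (nat_lit 2433022835) (nat_lit 756) (nat_lit 749569038) (nat_lit 193) (nat_lit 1) (nat_lit 183) (nat_lit 1) (nat_lit 192) (nat_lit 1) (nat_lit 215) (nat_lit 205) (nat_lit 180)) (XT.nd (nat_lit 94) (nat_lit 756) (nat_lit 0) (XT.lf (nat_lit 84)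 (nat_lit 1432021412) (nat_lit 0) (nat_lit 642390609) (nat_lit 840) (nat_lit 1108600361) (nat_lit 174) (nat_lit 1) (nat_lit 173) (nat_lit 1) (nat_lit 183) (nat_lit 1) (nat_lit 216) (nat_lit 205) (nat_lit 179)) (XT.lf (nat_lit 84) (nat_lit 405376281) (nat_lit 0) (nat_lit 1334941281) (nat_lit 840) (nat_lit 1396083977) (nat_lit 165) (nat_lit 1) (nat_lit 164) (nat_lit 1) (nat_lit 174) (nat_lit 1) (nat_lit 217) (nat_lit 205) (nat_lit 178))))) (XT.nd (nat_lit 35062) (nat_lit 0) (nat_lit 11256) (XT.nd (nat_lit 34874) (nat_lit 0) (nat_lit 11172) (XT.lf (nat_lit 756) (nat_lit 1056629699) (nat_lit 0) (nat_lit 1425780006) (nat_lit 672) (nat_lit 608297099) (nat_lit 165) (nat_lit 1) (nat_lit 156) (nat_lit 1) (nat_lit 164) (nat_lit 1) (nat_lit 218) (nat_lit 205) (nat_lit 177)) (XT.nd (nat_lit 94) (nat_lit 0) (nat_lit 84) (XT.lf (nat_lit 1932) (nat_lit 953984656) (nat_lit 0) (nat_lit 586362084) (nat_lit 1932) (nat_lit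 953984656) (nat_lit 312) (nat_lit 1) (nat_lit 289) (nat_lit 0) (nat_lit 312) (nat_lit 0) (nat_lit 188) (nat_lit 206) (nat_lit 206)) (XT.lf (nat_lit 1932) (nat_lit 840143957) (nat_lit 0) (nat_lit 1173354325) (nat_lit 1848) (nat_lit 2890365044) (nat_lit 313) (nat_lit 1) (nat_lit 290) (nat_lit 1) (nat_lit 312) (nat_lit 1) (nat_lit 189) (nat_lit 206) (nat_lit 205)))) (XT.nd (nat_lit 188) (nat_lit 0) (nat_lit 168) (XT.nd (nat_lit 94) (nat_lit 0) (nat_lit 84) (XT.lf (nat_lit 1932) (nat_lit 3605298409) (nat_lit 84) (nat_lit 1000771926) (nat_lit 0) (nat_lit 214942611) (nat_lit 313) (nat_lit 1) (nat_lit 291) (nat_lit 1) (nat_lit 290) (nat_lit 1) (nat_lit 190) (nat_lit 206) (nat_lit 204)) (XT.lf (nat_lit 1932) (nat_lit 3437775667) (nat_lit 84) (nat_lit 36029226) (nat_lit 0) (nat_lit 1266157400) (nat_lit 314) (nat_lit 1) (nat_lit 292) (nat_lit 1) (nat_lit 291) (nat_lit 1) (nat_lit 191) (nat_lit 206) (nat_lit 203)))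 (XT.nd (nat_lit 94) (nat_lit 0) (nat_lit 84) (XT.lf (nat_lit 1932) (nat_lit 2365879298) (nat_lit 0) (nat_lit 1430978631) (nat_lit 1848) (nat_lit 863799186) (nat_lit 315) (nat_lit 1) (nat_lit 292) (nat_lit 1) (nat_lit 314) (nat_lit 1) (nat_lit 192) (nat_lit 206) (nat_lit 202)) (XT.lf (nat_lit 1932) (nat_lit 1275945862) (nat_lit 0) (nat_lit 1593860620) (nat_lit 1848) (nat_lit 1713381475) (nat_lit 316) (nat_lit 1) (nat_lit 293) (nat_lit 1) (nat_lit 315) (nat_lit 1) (nat_lit 193) (nat_lit 206) (nat_lit 201)))))) (XT.nd (nat_lit 564) (nat_lit 4368) (nat_lit 0) (XT.nd (nat_lit 282) (nat_lit 0) (nat_lit 168) (XT.nd (nat_lit 94) (nat_lit 0) (nat_lit 0) (XT.lf (nat_lit 1932) (nat_lit 203743369) (nat_lit 0) (nat_lit 1788780211) (nat_lit 1848) (nat_lit 2514988945) (nat_lit 317) (nat_lit 1) (nat_lit 294) (nat_lit 1) (nat_lit 316) (nat_lit 1) (nat_lit 194) (nat_lit 206) (nat_lit 200)) (XT.nd (nat_lit 94) (nat_lit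 0) (nat_lit 84) (XT.lf (nat_lit 1932) (nat_lit 2413286052) (nat_lit 84) (nat_lit 1156982815) (nat_lit 0) (nat_lit 863180097) (nat_lit 317) (nat_lit 1) (nat_lit 295) (nat_lit 1) (nat_lit 294) (nat_lit 1) (nat_lit 195) (nat_lit 206) (nat_lit 199)) (XT.lf (nat_lit 1932) (nat_lit 2079506056) (nat_lit 84) (nat_lit 366407226) (nat_lit 0) (nat_lit 1915144414) (nat_lit 318) (nat_lit 1) (nat_lit 296) (nat_lit 1) (nat_lit 295) (nat_lit 1) (nat_lit 196) (nat_lit 206) (nat_lit 198)))) (XT.nd (nat_lit 94) (nat_lit 0) (nat_lit 84) (XT.lf (nat_lit 1932) (nat_lit 1343809899) (nat_lit 0) (nat_lit 2572590404) (nat_lit 1848) (nat_lit 373867373) (nat_lit 319) (nat_lit 1) (nat_lit 296) (nat_lit 1) (nat_lit 318) (nat_lit 1) (nat_lit 197) (nat_lit 206) (nat_lit 197)) (XT.nd (nat_lit 94) (nat_lit 0) (nat_lit 0) (XT.lf (nat_lit 1932) (nat_lit 263456091) (nat_lit 0) (nat_lit 2891358413) (nat_lit 1848) (nat_lit 1066230454) (nat_lit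 320) (nat_lit 1) (nat_lit 297) (nat_lit 1) (nat_lit 319) (nat_lit 1) (nat_lit 198) (nat_lit 206) (nat_lit 196)) (XT.lf (nat_lit 1932) (nat_lit 913713439) (nat_lit 84) (nat_lit 2430044933) (nat_lit 0) (nat_lit 809519937) (nat_lit 320) (nat_lit 1) (nat_lit 298) (nat_lit 1) (nat_lit 297) (nat_lit 1) (nat_lit 199) (nat_lit 206) (nat_lit 195))))) (XT.nd (nat_lit 282) (nat_lit 2940) (nat_lit 0) (XT.nd (nat_lit 94) (nat_lit 1764) (nat_lit 0) (XT.lf (nat_lit 1932) (nat_lit 475191763) (nat_lit 84) (nat_lit 1744678929) (nat_lit 0) (nat_lit 1867144396) (nat_lit 321) (nat_lit 1) (nat_lit 299) (nat_lit 1) (nat_lit 298) (nat_lit 1) (nat_lit 200) (nat_lit 206) (nat_lit 194)) (XT.nd (nat_lit 94) (nat_lit 1848) (nat_lit 0) (XT.lf (nat_lit 1932) (nat_lit 17356863) (nat_lit 84) (nat_lit 1099209857) (nat_lit 0) (nat_lit 2905690968) (nat_lit 322) (nat_lit 1) (nat_lit 300) (nat_lit 1) (nat_lit 299) (nat_lit 1) (nat_lit 201)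 (nat_lit 206) (nat_lit 193)) (XT.lf (nat_lit 84) (nat_lit 36941645) (nat_lit 0) (nat_lit 451951631) (nat_lit 1932) (nat_lit 3470002575) (nat_lit 278) (nat_lit 1) (nat_lit 277) (nat_lit 1) (nat_lit 300) (nat_lit 1) (nat_lit 202) (nat_lit 206) (nat_lit 192)))) (XT.nd (nat_lit 188) (nat_lit 1848) (nat_lit 0) (XT.nd (nat_lit 94) (nat_lit 1092) (nat_lit 0) (XT.lf (nat_lit 84) (nat_lit 2860308492) (nat_lit 0) (nat_lit 945706275) (nat_lit 1932) (nat_lit 90767014) (nat_lit 278) (nat_lit 1) (nat_lit 277) (nat_lit 1) (nat_lit 300) (nat_lit 1) (nat_lit 203) (nat_lit 206) (nat_lit 191)) (XT.lf (nat_lit 84) (nat_lit 1749312767) (nat_lit 0) (nat_lit 1458347729) (nat_lit 1176) (nat_lit 628324845) (nat_lit 265) (nat_lit 1) (nat_lit 264) (nat_lit 1) (nat_lit 278) (nat_lit 1) (nat_lit 204) (nat_lit 206) (nat_lit 190))) (XT.nd (nat_lit 94) (nat_lit 924) (nat_lit 0) (XT.lf (nat_lit 84) (nat_lit 659683129) (nat_lit 0) (nat_lit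 1985066927) (nat_lit 1008) (nat_lit 1131803668) (nat_lit 254) (nat_lit 1) (nat_lit 253) (nat_lit 1) (nat_lit 265) (nat_lit 1) (nat_lit 205) (nat_lit 206) (nat_lit 189)) (XT.lf (nat_lit 1008) (nat_lit 1190580961) (nat_lit 0) (nat_lit 2113018576) (nat_lit 924) (nat_lit 414788026) (nat_lit 254) (nat_lit 1) (nat_lit 242) (nat_lit 1) (nat_lit 253) (nat_lit 1) (nat_lit 206) (nat_lit 206) (nat_lit 188))))))))
noncomputable def ec5 : XT := (XT.nd (nat_lit 37036) (nat_lit 1428) (nat_lit 0) (XT.nd (nat_lit 35814) (nat_lit 0) (nat_lit 11928) (XT.nd (nat_lit 564) (nat_lit 3696) (nat_lit 0) (XT.nd (nat_lit 282) (nat_lit 1596) (nat_lit 0) (XT.nd (nat_lit 94) (nat_lit 1764) (nat_lit 0) (XT.lf (nat_lit 924) (nat_lit 574155928) (nat_lit 0) (nat_lit 1609561736) (nat_lit 840) (nat_lit 1477699210) (nat_lit 243) (nat_lit 1) (nat_lit 232) (nat_lit 1) (nat_lit 242) (nat_lit 1) (nat_lit 207) (nat_lit 206) (nat_lit 187)) (XT.nd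 (nat_lit 94) (nat_lit 840) (nat_lit 0) (XT.lf (nat_lit 84) (nat_lit 1086429320) (nat_lit 0) (nat_lit 51275033) (nat_lit 924) (nat_lit 2468001505) (nat_lit 222) (nat_lit 1) (nat_lit 221) (nat_lit 1) (nat_lit 232) (nat_lit 1) (nat_lit 208) (nat_lit 206) (nat_lit 186)) (XT.lf (nat_lit 84) (nat_lit 15236704) (nat_lit 0) (nat_lit 677211846) (nat_lit 924) (nat_lit 2858691098) (nat_lit 212) (nat_lit 1) (nat_lit 211) (nat_lit 1) (nat_lit 222) (nat_lit 1) (nat_lit 209) (nat_lit 206) (nat_lit 185)))) (XT.nd (nat_lit 94) (nat_lit 756) (nat_lit 0) (XT.lf (nat_lit 924) (nat_lit 2179015623) (nat_lit 0) (nat_lit 269244833) (nat_lit 840) (nat_lit 1049352670) (nat_lit 212) (nat_lit 1) (nat_lit 201) (nat_lit 1) (nat_lit 211) (nat_lit 1) (nat_lit 210) (nat_lit 206) (nat_lit 184)) (XT.nd (nat_lit 94) (nat_lit 756) (nat_lit 0) (XT.lf (nat_lit 84) (nat_lit 1353729614) (nat_lit 0) (nat_lit 1968039684) (nat_lit 924) (nat_lit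 123472971) (nat_lit 202) (nat_lit 1) (nat_lit 201) (nat_lit 1) (nat_lit 212) (nat_lit 1) (nat_lit 211) (nat_lit 206) (nat_lit 183)) (XT.lf (nat_lit 84) (nat_lit 283511560) (nat_lit 0) (nat_lit 2625527790) (nat_lit 840) (nat_lit 484942887) (nat_lit 193) (nat_lit 1) (nat_lit 192) (nat_lit 1) (nat_lit 202) (nat_lit 1) (nat_lit 212) (nat_lit 206) (nat_lit 182))))) (XT.nd (nat_lit 282) (nat_lit 1344) (nat_lit 0) (XT.nd (nat_lit 94) (nat_lit 1596) (nat_lit 0) (XT.lf (nat_lit 840) (nat_lit 49742635) (nat_lit 0) (nat_lit 2518178634) (nat_lit 756) (nat_lit 775803954) (nat_lit 193) (nat_lit 1) (nat_lit 183) (nat_lit 1) (nat_lit 192) (nat_lit 1) (nat_lit 213) (nat_lit 206) (nat_lit 181)) (XT.nd (nat_lit 94) (nat_lit 756) (nat_lit 0) (XT.lf (nat_lit 84) (nat_lit 1482142161) (nat_lit 0) (nat_lit 664874281) (nat_lit 840) (nat_lit 1147401373) (nat_lit 174) (nat_lit 1) (nat_lit 173) (nat_lit 1) (nat_lit 183) (nat_lit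 1) (nat_lit 214) (nat_lit 206) (nat_lit 180)) (XT.lf (nat_lit 84) (nat_lit 419564451) (nat_lit 0) (nat_lit 1381664226) (nat_lit 840) (nat_lit 1444946916) (nat_lit 165) (nat_lit 1) (nat_lit 164) (nat_lit 1) (nat_lit 174) (nat_lit 1) (nat_lit 215) (nat_lit 206) (nat_lit 179)))) (XT.nd (nat_lit 94) (nat_lit 672) (nat_lit 0) (XT.lf (nat_lit 756) (nat_lit 1093611738) (nat_lit 0) (nat_lit 1475682306) (nat_lit 672) (nat_lit 629587497) (nat_lit 165) (nat_lit 1) (nat_lit 156) (nat_lit 1) (nat_lit 164) (nat_lit 1) (nat_lit 216) (nat_lit 206) (nat_lit 178)) (XT.nd (nat_lit 34780) (nat_lit 0) (nat_lit 11844) (XT.lf (nat_lit 756) (nat_lit 318998329) (nat_lit 0) (nat_lit 1171142093) (nat_lit 672) (nat_lit 1662405266) (nat_lit 157) (nat_lit 1) (nat_lit 148) (nat_lit 1) (nat_lit 156) (nat_lit 1) (nat_lit 217) (nat_lit 206) (nat_lit 177)) (XT.lf (nat_lit 1932) (nat_lit 987374119) (nat_lit 0) (nat_lit 606884757) (nat_lit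 1932) (nat_lit 987374119) (nat_lit 312) (nat_lit 1) (nat_lit 289) (nat_lit 0) (nat_lit 312) (nat_lit 0) (nat_lit 186) (nat_lit 207) (nat_lit 207)))))) (XT.nd (nat_lit 564) (nat_lit 0) (nat_lit 336) (XT.nd (nat_lit 282) (nat_lit 0) (nat_lit 168) (XT.nd (nat_lit 94) (nat_lit 0) (nat_lit 0) (XT.lf (nat_lit 1932) (nat_lit 869548995) (nat_lit 0) (nat_lit 1214421726) (nat_lit 1848) (nat_lit 2991527821) (nat_lit 313) (nat_lit 1) (nat_lit 290) (nat_lit 1) (nat_lit 312) (nat_lit 1) (nat_lit 187) (nat_lit 207) (nat_lit 206)) (XT.nd (nat_lit 94) (nat_lit 0) (nat_lit 84) (XT.lf (nat_lit 1932) (nat_lit 3731483854) (nat_lit 84) (nat_lit 1035798943) (nat_lit 0) (nat_lit 222465602) (nat_lit 313) (nat_lit 1) (nat_lit 291) (nat_lit 1) (nat_lit 290) (nat_lit 1) (nat_lit 188) (nat_lit 207) (nat_lit 205)) (XT.lf (nat_lit 1932) (nat_lit 3558097815) (nat_lit 84) (nat_lit 37290249) (nat_lit 0) (nat_lit 1310472909) (nat_lit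 314) (nat_lit 1) (nat_lit 292) (nat_lit 1) (nat_lit 291) (nat_lit 1) (nat_lit 189) (nat_lit 207) (nat_lit 204)))) (XT.nd (nat_lit 94) (nat_lit 0) (nat_lit 84) (XT.lf (nat_lit 1932) (nat_lit 2448685073) (nat_lit 0) (nat_lit 1481062883) (nat_lit 1848) (nat_lit 894032157) (nat_lit 315) (nat_lit 1) (nat_lit 292) (nat_lit 1) (nat_lit 314) (nat_lit 1) (nat_lit 190) (nat_lit 207) (nat_lit 203)) (XT.nd (nat_lit 94) (nat_lit 0) (nat_lit 84) (XT.lf (nat_lit 1932) (nat_lit 1320603967) (nat_lit 0) (nat_lit 1649645742) (nat_lit 1848) (nat_lit 1773349827) (nat_lit 316) (nat_lit 1) (nat_lit 293) (nat_lit 1) (nat_lit 315) (nat_lit 1) (nat_lit 191) (nat_lit 207) (nat_lit 202)) (XT.lf (nat_lit 1932) (nat_lit 210874387) (nat_lit 0) (nat_lit 1851387519) (nat_lit 1848) (nat_lit 2603013558) (nat_lit 317) (nat_lit 1) (nat_lit 294) (nat_lit 1) (nat_lit 316) (nat_lit 1) (nat_lit 192) (nat_lit 207) (nat_lit 201))))) (XT.nd (nat_lit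 282) (nat_lit 0) (nat_lit 252) (XT.nd (nat_lit 94) (nat_lit 0) (nat_lit 84) (XT.lf (nat_lit 1932) (nat_lit 2497751063) (nat_lit 84) (nat_lit 1197477214) (nat_lit 0) (nat_lit 893391400) (nat_lit 317) (nat_lit 1) (nat_lit 295) (nat_lit 1) (nat_lit 294) (nat_lit 1) (nat_lit 193) (nat_lit 207) (nat_lit 200)) (XT.nd (nat_lit 94) (nat_lit 0) (nat_lit 84) (XT.lf (nat_lit 1932) (nat_lit 2152288768) (nat_lit 84) (nat_lit 379231478) (nat_lit 0) (nat_lit 1982174468) (nat_lit 318) (nat_lit 1) (nat_lit 296) (nat_lit 1) (nat_lit 295) (nat_lit 1) (nat_lit 194) (nat_lit 207) (nat_lit 199)) (XT.lf (nat_lit 1932) (nat_lit 1390843245) (nat_lit 0) (nat_lit 2662631068) (nat_lit 1848) (nat_lit 386952732) (nat_lit 319) (nat_lit 1) (nat_lit 296) (nat_lit 1) (nat_lit 318) (nat_lit 1) (nat_lit 195) (nat_lit 207) (nat_lit 198)))) (XT.nd (nat_lit 188) (nat_lit 0) (nat_lit 84) (XT.nd (nat_lit 94) (nat_lit 0) (nat_lit 0) (XT.lf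 (nat_lit 1932) (nat_lit 272677054) (nat_lit 0) (nat_lit 2992555958) (nat_lit 1848) (nat_lit 1103548520) (nat_lit 320) (nat_lit 1) (nat_lit 297) (nat_lit 1) (nat_lit 319) (nat_lit 1) (nat_lit 196) (nat_lit 207) (nat_lit 197)) (XT.lf (nat_lit 1932) (nat_lit 945693409) (nat_lit 84) (nat_lit 2515096505) (nat_lit 0) (nat_lit 837853135) (nat_lit 320) (nat_lit 1) (nat_lit 298) (nat_lit 1) (nat_lit 297) (nat_lit 1) (nat_lit 197) (nat_lit 207) (nat_lit 196))) (XT.nd (nat_lit 94) (nat_lit 0) (nat_lit 84) (XT.lf (nat_lit 1932) (nat_lit 491823475) (nat_lit 84) (nat_lit 1805742691) (nat_lit 0) (nat_lit 1932494450) (nat_lit 321) (nat_lit 1) (nat_lit 299) (nat_lit 1) (nat_lit 298) (nat_lit 1) (nat_lit 198) (nat_lit 207) (nat_lit 195)) (XT.lf (nat_lit 1932) (nat_lit 17964354) (nat_lit 84) (nat_lit 1137682202) (nat_lit 0) (nat_lit 3007390152) (nat_lit 322) (nat_lit 1) (nat_lit 300) (nat_lit 1) (nat_lit 299) (nat_lit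 1) (nat_lit 199) (nat_lit 207) (nat_lit 194))))))) (XT.nd (nat_lit 1222) (nat_lit 3528) (nat_lit 0) (XT.nd (nat_lit 564) (nat_lit 4956) (nat_lit 0) (XT.nd (nat_lit 282) (nat_lit 2688) (nat_lit 0) (XT.nd (nat_lit 94) (nat_lit 1092) (nat_lit 0) (XT.lf (nat_lit 84) (nat_lit 38234603) (nat_lit 0) (nat_lit 467769938) (nat_lit 1932) (nat_lit 3591452665) (nat_lit 278) (nat_lit 1) (nat_lit 277) (nat_lit 1) (nat_lit 300) (nat_lit 1) (nat_lit 200) (nat_lit 207) (nat_lit 193)) (XT.nd (nat_lit 94) (nat_lit 1092) (nat_lit 0) (XT.lf (nat_lit 84) (nat_lit 2960419289) (nat_lit 0) (nat_lit 978805995) (nat_lit 1932) (nat_lit 93943859) (nat_lit 278) (nat_lit 1) (nat_lit 277) (nat_lit 1) (nat_lit 300) (nat_lit 1) (nat_lit 201) (nat_lit 207) (nat_lit 192)) (XT.lf (nat_lit 84) (nat_lit 1810538714) (nat_lit 0) (nat_lit 1509389899) (nat_lit 1176) (nat_lit 650316215) (nat_lit 265) (nat_lit 1) (nat_lit 264) (nat_lit 1) (nat_lit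 278) (nat_lit 1) (nat_lit 202) (nat_lit 207) (nat_lit 191)))) (XT.nd (nat_lit 94) (nat_lit 1764) (nat_lit 0) (XT.lf (nat_lit 84) (nat_lit 682772039) (nat_lit 0) (nat_lit 2054544270) (nat_lit 1008) (nat_lit 1171416797) (nat_lit 254) (nat_lit 1) (nat_lit 253) (nat_lit 1) (nat_lit 265) (nat_lit 1) (nat_lit 203) (nat_lit 207) (nat_lit 190)) (XT.nd (nat_lit 94) (nat_lit 840) (nat_lit 0) (XT.lf (nat_lit 1008) (nat_lit 1232251295) (nat_lit 0) (nat_lit 2186974226) (nat_lit 924) (nat_lit 429305607) (nat_lit 254) (nat_lit 1) (nat_lit 242) (nat_lit 1) (nat_lit 253) (nat_lit 1) (nat_lit 204) (nat_lit 207) (nat_lit 189)) (XT.lf (nat_lit 924) (nat_lit 594251386) (nat_lit 0) (nat_lit 1665896397) (nat_lit 840) (nat_lit 1529418683) (nat_lit 243) (nat_lit 1) (nat_lit 232) (nat_lit 1) (nat_lit 242) (nat_lit 1) (nat_lit 205) (nat_lit 207) (nat_lit 188))))) (XT.nd (nat_lit 282) (nat_lit 2352) (nat_lit 0) (XT.nd (nat_lit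 94) (nat_lit 1680) (nat_lit 0) (XT.lf (nat_lit 84) (nat_lit 1124454346) (nat_lit 0) (nat_lit 53069659) (nat_lit 924) (nat_lit 2554381557) (nat_lit 222) (nat_lit 1) (nat_lit 221) (nat_lit 1) (nat_lit 232) (nat_lit 1) (nat_lit 206) (nat_lit 207) (nat_lit 187)) (XT.nd (nat_lit 94) (nat_lit 840) (nat_lit 0) (XT.lf (nat_lit 84) (nat_lit 15769989) (nat_lit 0) (nat_lit 700914261) (nat_lit 924) (nat_lit 2958745286) (nat_lit 212) (nat_lit 1) (nat_lit 211) (nat_lit 1) (nat_lit 222) (nat_lit 1) (nat_lit 207) (nat_lit 207) (nat_lit 186)) (XT.lf (nat_lit 924) (nat_lit 2255281170) (nat_lit 0) (nat_lit 278668402) (nat_lit 840) (nat_lit 1086080013) (nat_lit 212) (nat_lit 1) (nat_lit 201) (nat_lit 1) (nat_lit 211) (nat_lit 1) (nat_lit 208) (nat_lit 207) (nat_lit 185)))) (XT.nd (nat_lit 188) (nat_lit 1596) (nat_lit 0) (XT.nd (nat_lit 94) (nat_lit 756) (nat_lit 0) (XT.lf (nat_lit 84) (nat_lit 1401110151) (nat_lit 0) (nat_lit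 2036921073) (nat_lit 924) (nat_lit 127794525) (nat_lit 202) (nat_lit 1) (nat_lit 201) (nat_lit 1) (nat_lit 212) (nat_lit 1) (nat_lit 209) (nat_lit 207) (nat_lit 184)) (XT.lf (nat_lit 84) (nat_lit 293434465) (nat_lit 0) (nat_lit 2717421263) (nat_lit 840) (nat_lit 501915888) (nat_lit 193) (nat_lit 1) (nat_lit 192) (nat_lit 1) (nat_lit 202) (nat_lit 1) (nat_lit 210) (nat_lit 207) (nat_lit 183))) (XT.nd (nat_lit 94) (nat_lit 840) (nat_lit 0) (XT.lf (nat_lit 840) (nat_lit 51483627) (nat_lit 0) (nat_lit 2606314887) (nat_lit 756) (nat_lit 802957092) (nat_lit 193) (nat_lit 1) (nat_lit 183) (nat_lit 1) (nat_lit 192) (nat_lit 1) (nat_lit 211) (nat_lit 207) (nat_lit 182)) (XT.lf (nat_lit 84) (nat_lit 1534017137) (nat_lit 0) (nat_lit 688144881) (nat_lit 840) (nat_lit 1187560421) (nat_lit 174) (nat_lit 1) (nat_lit 173) (nat_lit 1) (nat_lit 183) (nat_lit 1) (nat_lit 212) (nat_lit 207) (nat_lit 181)))))) (XT.nd (nat_lit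 35062) (nat_lit 0) (nat_lit 13356) (XT.nd (nat_lit 282) (nat_lit 1428) (nat_lit 0) (XT.nd (nat_lit 94) (nat_lit 1344) (nat_lit 0) (XT.lf (nat_lit 84) (nat_lit 434249207) (nat_lit 0) (nat_lit 1430022473) (nat_lit 840) (nat_lit 1495520058) (nat_lit 165) (nat_lit 1) (nat_lit 164) (nat_lit 1) (nat_lit 174) (nat_lit 1) (nat_lit 213) (nat_lit 207) (nat_lit 180)) (XT.nd (nat_lit 94) (nat_lit 672) (nat_lit 0) (XT.lf (nat_lit 756) (nat_lit 1131888149) (nat_lit 0) (nat_lit 1527331187) (nat_lit 672) (nat_lit 651623060) (nat_lit 165) (nat_lit 1) (nat_lit 156) (nat_lit 1) (nat_lit 164) (nat_lit 1) (nat_lit 214) (nat_lit 207) (nat_lit 179)) (XT.lf (nat_lit 756) (nat_lit 330163270) (nat_lit 0) (nat_lit 1212132066) (nat_lit 672) (nat_lit 1720589451) (nat_lit 157) (nat_lit 1) (nat_lit 148) (nat_lit 1) (nat_lit 156) (nat_lit 1) (nat_lit 215) (nat_lit 207) (nat_lit 178)))) (XT.nd (nat_lit 94) (nat_lit 672) (nat_lit 0)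 (XT.lf (nat_lit 84) (nat_lit 452650524) (nat_lit 0) (nat_lit 464909409) (nat_lit 756) (nat_lit 2298328414) (nat_lit 140) (nat_lit 1) (nat_lit 139) (nat_lit 1) (nat_lit 148) (nat_lit 1) (nat_lit 216) (nat_lit 207) (nat_lit 177)) (XT.nd (nat_lit 34592) (nat_lit 0) (nat_lit 13272) (XT.lf (nat_lit 756) (nat_lit 1910432233) (nat_lit 0) (nat_lit 639273643) (nat_lit 672) (nat_lit 620047253) (nat_lit 140) (nat_lit 1) (nat_lit 131) (nat_lit 1) (nat_lit 139) (nat_lit 1) (nat_lit 217) (nat_lit 207) (nat_lit 176)) (XT.lf (nat_lit 1932) (nat_lit 1021932213) (nat_lit 0) (nat_lit 628125723) (nat_lit 1932) (nat_lit 1021932213) (nat_lit 312) (nat_lit 1) (nat_lit 289) (nat_lit 0) (nat_lit 312) (nat_lit 0) (nat_lit 184) (nat_lit 208) (nat_lit 208))))) (XT.nd (nat_lit 282) (nat_lit 0) (nat_lit 168) (XT.nd (nat_lit 94) (nat_lit 0) (nat_lit 0) (XT.lf (nat_lit 1932) (nat_lit 899983210) (nat_lit 0) (nat_lit 1256926487) (nat_lit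 1848) (nat_lit 3096231294) (nat_lit 313) (nat_lit 1) (nat_lit 290) (nat_lit 1) (nat_lit 312) (nat_lit 1) (nat_lit 185) (nat_lit 208) (nat_lit 207)) (XT.nd (nat_lit 94) (nat_lit 0) (nat_lit 84) (XT.lf (nat_lit 1932) (nat_lit 3862085789) (nat_lit 84) (nat_lit 1072051906) (nat_lit 0) (nat_lit 230251898) (nat_lit 313) (nat_lit 1) (nat_lit 291) (nat_lit 1) (nat_lit 290) (nat_lit 1) (nat_lit 186) (nat_lit 208) (nat_lit 206)) (XT.lf (nat_lit 1932) (nat_lit 3682631239) (nat_lit 84) (nat_lit 38595408) (nat_lit 0) (nat_lit 1356339461) (nat_lit 314) (nat_lit 1) (nat_lit 292) (nat_lit 1) (nat_lit 291) (nat_lit 1) (nat_lit 187) (nat_lit 208) (nat_lit 205)))) (XT.nd (nat_lit 188) (nat_lit 0) (nat_lit 168) (XT.nd (nat_lit 94) (nat_lit 0) (nat_lit 84) (XT.lf (nat_lit 1932) (nat_lit 2534389051) (nat_lit 0) (nat_lit 1532900084) (nat_lit 1848) (nat_lit 925323283) (nat_lit 315) (nat_lit 1) (nat_lit 292) (nat_lit 1) (nat_lit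 314) (nat_lit 1) (nat_lit 188) (nat_lit 208) (nat_lit 204)) (XT.lf (nat_lit 1932) (nat_lit 1366825106) (nat_lit 0) (nat_lit 1707383343) (nat_lit 1848) (nat_lit 1835417071) (nat_lit 316) (nat_lit 1) (nat_lit 293) (nat_lit 1) (nat_lit 315) (nat_lit 1) (nat_lit 189) (nat_lit 208) (nat_lit 203))) (XT.nd (nat_lit 94) (nat_lit 0) (nat_lit 0) (XT.lf (nat_lit 1932) (nat_lit 218254990) (nat_lit 0) (nat_lit 1916186082) (nat_lit 1848) (nat_lit 2694119032) (nat_lit 317) (nat_lit 1) (nat_lit 294) (nat_lit 1) (nat_lit 316) (nat_lit 1) (nat_lit 190) (nat_lit 208) (nat_lit 202)) (XT.lf (nat_lit 1932) (nat_lit 2585172351) (nat_lit 84) (nat_lit 1239388917) (nat_lit 0) (nat_lit 924660099) (nat_lit 317) (nat_lit 1) (nat_lit 295) (nat_lit 1) (nat_lit 294) (nat_lit 1) (nat_lit 191) (nat_lit 208) (nat_lit 201))))))))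
noncomputable def ec6 : XT := (XT.nd (nat_lit 36754) (nat_lit 0) (nat_lit 4956) (XT.nd (nat_lit 1128) (nat_lit 9072) (nat_lit 0) (XT.nd (nat_lit 564) (nat_lit 5292) (nat_lit 0) (XT.nd (nat_lit 282) (nat_lit 0) (nat_lit 168) (XT.nd (nat_lit 94) (nat_lit 0) (nat_lit 84) (XT.lf (nat_lit 1932) (nat_lit 2227618875) (nat_lit 84) (nat_lit 392504580) (nat_lit 0) (nat_lit 2051550575) (nat_lit 318) (nat_lit 1) (nat_lit 296) (nat_lit 1) (nat_lit 295) (nat_lit 1) (nat_lit 192) (nat_lit 208) (nat_lit 200)) (XT.nd (nat_lit 94) (nat_lit 0) (nat_lit 84) (XT.lf (nat_lit 1932) (nat_lit 1439522759) (nat_lit 0) (nat_lit 2755823156) (nat_lit 1848) (nat_lit 400496077) (nat_lit 319) (nat_lit 1) (nat_lit 296) (nat_lit 1) (nat_lit 318) (nat_lit 1) (nat_lit 193) (nat_lit 208) (nat_lit 199)) (XT.lf (nat_lit 1932) (nat_lit 282220751) (nat_lit 0) (nat_lit 3097295416) (nat_lit 1848) (nat_lit 1142172718) (nat_lit 320) (nat_lit 1)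 (nat_lit 297) (nat_lit 1) (nat_lit 319) (nat_lit 1) (nat_lit 194) (nat_lit 208) (nat_lit 198)))) (XT.nd (nat_lit 94) (nat_lit 0) (nat_lit 84) (XT.lf (nat_lit 1932) (nat_lit 978792679) (nat_lit 84) (nat_lit 2603124883) (nat_lit 0) (nat_lit 867177995) (nat_lit 320) (nat_lit 1) (nat_lit 298) (nat_lit 1) (nat_lit 297) (nat_lit 1) (nat_lit 195) (nat_lit 208) (nat_lit 197)) (XT.nd (nat_lit 94) (nat_lit 0) (nat_lit 84) (XT.lf (nat_lit 1932) (nat_lit 509037296) (nat_lit 84) (nat_lit 1868943686) (nat_lit 0) (nat_lit 2000131756) (nat_lit 321) (nat_lit 1) (nat_lit 299) (nat_lit 1) (nat_lit 298) (nat_lit 1) (nat_lit 196) (nat_lit 208) (nat_lit 196)) (XT.lf (nat_lit 1932) (nat_lit 18593106) (nat_lit 84) (nat_lit 1177501079) (nat_lit 0) (nat_lit 3112648807) (nat_lit 322) (nat_lit 1) (nat_lit 300) (nat_lit 1) (nat_lit 299) (nat_lit 1) (nat_lit 197) (nat_lit 208) (nat_lit 195))))) (XT.nd (nat_lit 282) (nat_lit 2688)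 (nat_lit 0) (XT.nd (nat_lit 94) (nat_lit 1092) (nat_lit 0) (XT.lf (nat_lit 84) (nat_lit 39572814) (nat_lit 0) (nat_lit 484141886) (nat_lit 1932) (nat_lit 3717153509) (nat_lit 278) (nat_lit 1) (nat_lit 277) (nat_lit 1) (nat_lit 300) (nat_lit 1) (nat_lit 198) (nat_lit 208) (nat_lit 194)) (XT.nd (nat_lit 94) (nat_lit 1092) (nat_lit 0) (XT.lf (nat_lit 84) (nat_lit 3064033964) (nat_lit 0) (nat_lit 1013064204) (nat_lit 1932) (nat_lit 97231895) (nat_lit 278) (nat_lit 1) (nat_lit 277) (nat_lit 1) (nat_lit 300) (nat_lit 1) (nat_lit 199) (nat_lit 208) (nat_lit 193)) (XT.lf (nat_lit 84) (nat_lit 1873907569) (nat_lit 0) (nat_lit 1562218546) (nat_lit 1176) (nat_lit 673077283) (nat_lit 265) (nat_lit 1) (nat_lit 264) (nat_lit 1) (nat_lit 278) (nat_lit 1) (nat_lit 200) (nat_lit 208) (nat_lit 192)))) (XT.nd (nat_lit 94) (nat_lit 1764) (nat_lit 0) (XT.lf (nat_lit 84) (nat_lit 706669060) (nat_lit 0) (nat_lit 2126453319)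 (nat_lit 1008) (nat_lit 1212416385) (nat_lit 254) (nat_lit 1) (nat_lit 253) (nat_lit 1) (nat_lit 265) (nat_lit 1) (nat_lit 201) (nat_lit 208) (nat_lit 191)) (XT.nd (nat_lit 94) (nat_lit 840) (nat_lit 0) (XT.lf (nat_lit 1008) (nat_lit 1275380090) (nat_lit 0) (nat_lit 2263518324) (nat_lit 924) (nat_lit 444331304) (nat_lit 254) (nat_lit 1) (nat_lit 242) (nat_lit 1) (nat_lit 253) (nat_lit 1) (nat_lit 202) (nat_lit 208) (nat_lit 190)) (XT.lf (nat_lit 924) (nat_lit 615050184) (nat_lit 0) (nat_lit 1724202771) (nat_lit 840) (nat_lit 1582948337) (nat_lit 243) (nat_lit 1) (nat_lit 232) (nat_lit 1) (nat_lit 242) (nat_lit 1) (nat_lit 203) (nat_lit 208) (nat_lit 189)))))) (XT.nd (nat_lit 564) (nat_lit 4956) (nat_lit 0) (XT.nd (nat_lit 282) (nat_lit 1512) (nat_lit 0) (XT.nd (nat_lit 94) (nat_lit 1680) (nat_lit 0) (XT.lf (nat_lit 84) (nat_lit 1163810248) (nat_lit 0) (nat_lit 54927097) (nat_lit 924) (nat_lit 2643784912)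 (nat_lit 222) (nat_lit 1) (nat_lit 221) (nat_lit 1) (nat_lit 232) (nat_lit 1) (nat_lit 204) (nat_lit 208) (nat_lit 188)) (XT.nd (nat_lit 94) (nat_lit 840) (nat_lit 0) (XT.lf (nat_lit 84) (nat_lit 16321939) (nat_lit 0) (nat_lit 725446260) (nat_lit 924) (nat_lit 3062301371) (nat_lit 212) (nat_lit 1) (nat_lit 211) (nat_lit 1) (nat_lit 222) (nat_lit 1) (nat_lit 205) (nat_lit 208) (nat_lit 187)) (XT.lf (nat_lit 924) (nat_lit 2334216011) (nat_lit 0) (nat_lit 288421796) (nat_lit 840) (nat_lit 1124092814) (nat_lit 212) (nat_lit 1) (nat_lit 201) (nat_lit 1) (nat_lit 211) (nat_lit 1) (nat_lit 206) (nat_lit 208) (nat_lit 186)))) (XT.nd (nat_lit 94) (nat_lit 1512) (nat_lit 0) (XT.lf (nat_lit 84) (nat_lit 1450149006) (nat_lit 0) (nat_lit 2108213310) (nat_lit 924) (nat_lit 132267333) (nat_lit 202) (nat_lit 1) (nat_lit 201) (nat_lit 1) (nat_lit 212) (nat_lit 1) (nat_lit 207) (nat_lit 208) (nat_lit 185)) (XT.nd (nat_lit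 94) (nat_lit 756) (nat_lit 0) (XT.lf (nat_lit 84) (nat_lit 303704671) (nat_lit 0) (nat_lit 2812531007) (nat_lit 840) (nat_lit 519482944) (nat_lit 193) (nat_lit 1) (nat_lit 192) (nat_lit 1) (nat_lit 202) (nat_lit 1) (nat_lit 208) (nat_lit 208) (nat_lit 184)) (XT.lf (nat_lit 840) (nat_lit 53285554) (nat_lit 0) (nat_lit 2697535908) (nat_lit 756) (nat_lit 831060591) (nat_lit 193) (nat_lit 1) (nat_lit 183) (nat_lit 1) (nat_lit 192) (nat_lit 1) (nat_lit 209) (nat_lit 208) (nat_lit 183))))) (XT.nd (nat_lit 282) (nat_lit 2688) (nat_lit 0) (XT.nd (nat_lit 94) (nat_lit 1428) (nat_lit 0) (XT.lf (nat_lit 84) (nat_lit 1587707737) (nat_lit 0) (nat_lit 712229951) (nat_lit 840) (nat_lit 1229125036) (nat_lit 174) (nat_lit 1) (nat_lit 173) (nat_lit 1) (nat_lit 183) (nat_lit 1) (nat_lit 210) (nat_lit 208) (nat_lit 182)) (XT.nd (nat_lit 94) (nat_lit 672) (nat_lit 0) (XT.lf (nat_lit 84) (nat_lit 449447929) (nat_lit 0) (nat_lit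 1480073260) (nat_lit 840) (nat_lit 1547863261) (nat_lit 165) (nat_lit 1) (nat_lit 164) (nat_lit 1) (nat_lit 174) (nat_lit 1) (nat_lit 211) (nat_lit 208) (nat_lit 181)) (XT.lf (nat_lit 756) (nat_lit 1171504235) (nat_lit 0) (nat_lit 1580787778) (nat_lit 672) (nat_lit 674429867) (nat_lit 165) (nat_lit 1) (nat_lit 156) (nat_lit 1) (nat_lit 164) (nat_lit 1) (nat_lit 212) (nat_lit 208) (nat_lit 180)))) (XT.nd (nat_lit 188) (nat_lit 1260) (nat_lit 0) (XT.nd (nat_lit 94) (nat_lit 756) (nat_lit 0) (XT.lf (nat_lit 756) (nat_lit 341718985) (nat_lit 0) (nat_lit 1254556689) (nat_lit 672) (nat_lit 1780810081) (nat_lit 157) (nat_lit 1) (nat_lit 148) (nat_lit 1) (nat_lit 156) (nat_lit 1) (nat_lit 213) (nat_lit 208) (nat_lit 179)) (XT.lf (nat_lit 84) (nat_lit 468493292) (nat_lit 0) (nat_lit 481181238) (nat_lit 756) (nat_lit 2378769908) (nat_lit 140) (nat_lit 1) (nat_lit 139) (nat_lit 1) (nat_lit 148) (nat_lit 1) (nat_lit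 214) (nat_lit 208) (nat_lit 178))) (XT.nd (nat_lit 94) (nat_lit 588) (nat_lit 0) (XT.lf (nat_lit 756) (nat_lit 1977297361) (nat_lit 0) (nat_lit 661648221) (nat_lit 672) (nat_lit 641748907) (nat_lit 140) (nat_lit 1) (nat_lit 131) (nat_lit 1) (nat_lit 139) (nat_lit 1) (nat_lit 215) (nat_lit 208) (nat_lit 177)) (XT.lf (nat_lit 672) (nat_lit 1105855810) (nat_lit 0) (nat_lit 393494979) (nat_lit 588) (nat_lit 1734543426) (nat_lit 132) (nat_lit 1) (nat_lit 124) (nat_lit 1) (nat_lit 131) (nat_lit 1) (nat_lit 216) (nat_lit 208) (nat_lit 176))))))) (XT.nd (nat_lit 1222) (nat_lit 8904) (nat_lit 0) (XT.nd (nat_lit 564) (nat_lit 0) (nat_lit 420) (XT.nd (nat_lit 282) (nat_lit 0) (nat_lit 168) (XT.nd (nat_lit 94) (nat_lit 0) (nat_lit 84) (XT.lf (nat_lit 1932) (nat_lit 1057699840) (nat_lit 0) (nat_lit 650110123) (nat_lit 1932) (nat_lit 1057699840) (nat_lit 312) (nat_lit 1) (nat_lit 289) (nat_lit 0) (nat_lit 312) (nat_lit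 0) (nat_lit 182) (nat_lit 209) (nat_lit 209)) (XT.nd (nat_lit 94) (nat_lit 0) (nat_lit 0) (XT.lf (nat_lit 1932) (nat_lit 931482623) (nat_lit 0) (nat_lit 1300918914) (nat_lit 1848) (nat_lit 3204599390) (nat_lit 313) (nat_lit 1) (nat_lit 290) (nat_lit 1) (nat_lit 312) (nat_lit 1) (nat_lit 183) (nat_lit 209) (nat_lit 208)) (XT.lf (nat_lit 1932) (nat_lit 3997258791) (nat_lit 84) (nat_lit 1109573723) (nat_lit 0) (nat_lit 238310715) (nat_lit 313) (nat_lit 1) (nat_lit 291) (nat_lit 1) (nat_lit 290) (nat_lit 1) (nat_lit 184) (nat_lit 209) (nat_lit 207)))) (XT.nd (nat_lit 94) (nat_lit 0) (nat_lit 84) (XT.lf (nat_lit 1932) (nat_lit 3811523332) (nat_lit 84) (nat_lit 39946247) (nat_lit 0) (nat_lit 1403811342) (nat_lit 314) (nat_lit 1) (nat_lit 292) (nat_lit 1) (nat_lit 291) (nat_lit 1) (nat_lit 185) (nat_lit 209) (nat_lit 206)) (XT.nd (nat_lit 94) (nat_lit 0) (nat_lit 84) (XT.lf (nat_lit 1932) (nat_lit 2623092668)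 (nat_lit 0) (nat_lit 1586551587) (nat_lit 1848) (nat_lit 957709597) (nat_lit 315) (nat_lit 1) (nat_lit 292) (nat_lit 1) (nat_lit 314) (nat_lit 1) (nat_lit 186) (nat_lit 209) (nat_lit 205)) (XT.lf (nat_lit 1932) (nat_lit 1414663985) (nat_lit 0) (nat_lit 1767141760) (nat_lit 1848) (nat_lit 1899656668) (nat_lit 316) (nat_lit 1) (nat_lit 293) (nat_lit 1) (nat_lit 315) (nat_lit 1) (nat_lit 187) (nat_lit 209) (nat_lit 204))))) (XT.nd (nat_lit 282) (nat_lit 0) (nat_lit 168) (XT.nd (nat_lit 94) (nat_lit 0) (nat_lit 0) (XT.lf (nat_lit 1932) (nat_lit 225893915) (nat_lit 0) (nat_lit 1983252595) (nat_lit 1848) (nat_lit 2788413199) (nat_lit 317) (nat_lit 1) (nat_lit 294) (nat_lit 1) (nat_lit 316) (nat_lit 1) (nat_lit 188) (nat_lit 209) (nat_lit 203)) (XT.nd (nat_lit 94) (nat_lit 0) (nat_lit 84) (XT.lf (nat_lit 1932) (nat_lit 2675653383) (nat_lit 84) (nat_lit 1282767529) (nat_lit 0) (nat_lit 957023203) (nat_lit 317)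 (nat_lit 1) (nat_lit 295) (nat_lit 1) (nat_lit 294) (nat_lit 1) (nat_lit 189) (nat_lit 209) (nat_lit 202)) (XT.lf (nat_lit 1932) (nat_lit 2305585535) (nat_lit 84) (nat_lit 406242241) (nat_lit 0) (nat_lit 2123354845) (nat_lit 318) (nat_lit 1) (nat_lit 296) (nat_lit 1) (nat_lit 295) (nat_lit 1) (nat_lit 190) (nat_lit 209) (nat_lit 201)))) (XT.nd (nat_lit 188) (nat_lit 0) (nat_lit 84) (XT.nd (nat_lit 94) (nat_lit 0) (nat_lit 84) (XT.lf (nat_lit 1932) (nat_lit 1489906056) (nat_lit 0) (nat_lit 2852276966) (nat_lit 1848) (nat_lit 414513440) (nat_lit 319) (nat_lit 1) (nat_lit 296) (nat_lit 1) (nat_lit 318) (nat_lit 1) (nat_lit 191) (nat_lit 209) (nat_lit 200)) (XT.lf (nat_lit 1932) (nat_lit 292098478) (nat_lit 0) (nat_lit 3205700756) (nat_lit 1848) (nat_lit 1182148764) (nat_lit 320) (nat_lit 1) (nat_lit 297) (nat_lit 1) (nat_lit 319) (nat_lit 1) (nat_lit 192) (nat_lit 209) (nat_lit 199))) (XT.nd (nat_lit 94)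 (nat_lit 0) (nat_lit 84) (XT.lf (nat_lit 1932) (nat_lit 1013050422) (nat_lit 84) (nat_lit 2694234254) (nat_lit 0) (nat_lit 897529225) (nat_lit 320) (nat_lit 1) (nat_lit 298) (nat_lit 1) (nat_lit 297) (nat_lit 1) (nat_lit 193) (nat_lit 209) (nat_lit 198)) (XT.lf (nat_lit 1932) (nat_lit 526853602) (nat_lit 84) (nat_lit 1934356715) (nat_lit 0) (nat_lit 2070136367) (nat_lit 321) (nat_lit 1) (nat_lit 299) (nat_lit 1) (nat_lit 298) (nat_lit 1) (nat_lit 194) (nat_lit 209) (nat_lit 197)))))) (XT.nd (nat_lit 564) (nat_lit 4956) (nat_lit 0) (XT.nd (nat_lit 282) (nat_lit 2940) (nat_lit 0) (XT.nd (nat_lit 94) (nat_lit 1848) (nat_lit 0) (XT.lf (nat_lit 1932) (nat_lit 19243865) (nat_lit 84) (nat_lit 1218713616) (nat_lit 0) (nat_lit 3221591516) (nat_lit 322) (nat_lit 1) (nat_lit 300) (nat_lit 1) (nat_lit 299) (nat_lit 1) (nat_lit 195) (nat_lit 209) (nat_lit 196)) (XT.nd (nat_lit 94) (nat_lit 0) (nat_lit 0) (XT.lf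 (nat_lit 84) (nat_lit 40957862) (nat_lit 0) (nat_lit 501086852) (nat_lit 1932) (nat_lit 3847253881) (nat_lit 278) (nat_lit 1) (nat_lit 277) (nat_lit 1) (nat_lit 300) (nat_lit 1) (nat_lit 196) (nat_lit 209) (nat_lit 195)) (XT.lf (nat_lit 84) (nat_lit 3171275153) (nat_lit 0) (nat_lit 1048521451) (nat_lit 1932) (nat_lit 100635011) (nat_lit 278) (nat_lit 1) (nat_lit 277) (nat_lit 1) (nat_lit 300) (nat_lit 1) (nat_lit 197) (nat_lit 209) (nat_lit 194)))) (XT.nd (nat_lit 94) (nat_lit 1848) (nat_lit 0) (XT.lf (nat_lit 84) (nat_lit 1939494334) (nat_lit 0) (nat_lit 1616896195) (nat_lit 1176) (nat_lit 696634988) (nat_lit 265) (nat_lit 1) (nat_lit 264) (nat_lit 1) (nat_lit 278) (nat_lit 1) (nat_lit 198) (nat_lit 209) (nat_lit 193)) (XT.nd (nat_lit 94) (nat_lit 924) (nat_lit 0) (XT.lf (nat_lit 84) (nat_lit 731402477) (nat_lit 0) (nat_lit 2200879185) (nat_lit 1008) (nat_lit 1254850958) (nat_lit 254) (nat_lit 1) (nat_lit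 253) (nat_lit 1) (nat_lit 265) (nat_lit 1) (nat_lit 199) (nat_lit 209) (nat_lit 192)) (XT.lf (nat_lit 1008) (nat_lit 1320018394) (nat_lit 0) (nat_lit 2342741466) (nat_lit 924) (nat_lit 459882899) (nat_lit 254) (nat_lit 1) (nat_lit 242) (nat_lit 1) (nat_lit 253) (nat_lit 1) (nat_lit 200) (nat_lit 209) (nat_lit 191))))) (XT.nd (nat_lit 282) (nat_lit 2352) (nat_lit 0) (XT.nd (nat_lit 94) (nat_lit 1764) (nat_lit 0) (XT.lf (nat_lit 924) (nat_lit 636576941) (nat_lit 0) (nat_lit 1784549868) (nat_lit 840) (nat_lit 1638351528) (nat_lit 243) (nat_lit 1) (nat_lit 232) (nat_lit 1) (nat_lit 242) (nat_lit 1) (nat_lit 201) (nat_lit 209) (nat_lit 190)) (XT.nd (nat_lit 94) (nat_lit 840) (nat_lit 0) (XT.lf (nat_lit 84) (nat_lit 1204543607) (nat_lit 0) (nat_lit 56849545) (nat_lit 924) (nat_lit 2736317384) (nat_lit 222) (nat_lit 1) (nat_lit 221) (nat_lit 1) (nat_lit 232) (nat_lit 1) (nat_lit 202) (nat_lit 209) (nat_lit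 189)) (XT.lf (nat_lit 84) (nat_lit 16893206) (nat_lit 0) (nat_lit 750836879) (nat_lit 924) (nat_lit 3169481919) (nat_lit 212) (nat_lit 1) (nat_lit 211) (nat_lit 1) (nat_lit 222) (nat_lit 1) (nat_lit 203) (nat_lit 209) (nat_lit 188)))) (XT.nd (nat_lit 188) (nat_lit 1512) (nat_lit 0) (XT.nd (nat_lit 94) (nat_lit 0) (nat_lit 0) (XT.lf (nat_lit 924) (nat_lit 2415913571) (nat_lit 0) (nat_lit 298516559) (nat_lit 840) (nat_lit 1163436062) (nat_lit 212) (nat_lit 1) (nat_lit 201) (nat_lit 1) (nat_lit 211) (nat_lit 1) (nat_lit 204) (nat_lit 209) (nat_lit 187)) (XT.lf (nat_lit 84) (nat_lit 1500904221) (nat_lit 0) (nat_lit 2182000776) (nat_lit 924) (nat_lit 136896690) (nat_lit 202) (nat_lit 1) (nat_lit 201) (nat_lit 1) (nat_lit 212) (nat_lit 1) (nat_lit 205) (nat_lit 209) (nat_lit 186))) (XT.nd (nat_lit 94) (nat_lit 756) (nat_lit 0) (XT.lf (nat_lit 84) (nat_lit 314334335) (nat_lit 0) (nat_lit 2910969592) (nat_lit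 840) (nat_lit 537664847) (nat_lit 193) (nat_lit 1) (nat_lit 192) (nat_lit 1) (nat_lit 202) (nat_lit 1) (nat_lit 206) (nat_lit 209) (nat_lit 185)) (XT.lf (nat_lit 840) (nat_lit 55150549) (nat_lit 0) (nat_lit 2791949664) (nat_lit 756) (nat_lit 860147711) (nat_lit 193) (nat_lit 1) (nat_lit 183) (nat_lit 1) (nat_lit 192) (nat_lit 1) (nat_lit 207) (nat_lit 209) (nat_lit 184))))))))
noncomputable def ec7 : XT := (XT.nd (nat_lit 36566) (nat_lit 588) (nat_lit 0) (XT.nd (nat_lit 35344) (nat_lit 0) (nat_lit 13524) (XT.nd (nat_lit 564) (nat_lit 1260) (nat_lit 0) (XT.nd (nat_lit 282) (nat_lit 2100) (nat_lit 0) (XT.nd (nat_lit 94) (nat_lit 1428) (nat_lit 0) (XT.lf (nat_lit 84) (nat_lit 1643277507) (nat_lit 0) (nat_lit 737158000) (nat_lit 840) (nat_lit 1272144412) (nat_lit 174) (nat_lit 1) (nat_lit 173) (nat_lit 1) (nat_lit 183) (nat_lit 1) (nat_lit 208) (nat_lit 209) (nat_lit 183)) (XT.nd (nat_lit 94) (nat_lit 672)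 (nat_lit 0) (XT.lf (nat_lit 84) (nat_lit 465178606) (nat_lit 0) (nat_lit 1531875824) (nat_lit 840) (nat_lit 1602038475) (nat_lit 165) (nat_lit 1) (nat_lit 164) (nat_lit 1) (nat_lit 174) (nat_lit 1) (nat_lit 209) (nat_lit 209) (nat_lit 182)) (XT.lf (nat_lit 756) (nat_lit 1212506883) (nat_lit 0) (nat_lit 1636115351) (nat_lit 672) (nat_lit 698034912) (nat_lit 165) (nat_lit 1) (nat_lit 156) (nat_lit 1) (nat_lit 164) (nat_lit 1) (nat_lit 210) (nat_lit 209) (nat_lit 181)))) (XT.nd (nat_lit 94) (nat_lit 1428) (nat_lit 0) (XT.lf (nat_lit 756) (nat_lit 353679149) (nat_lit 0) (nat_lit 1298466173) (nat_lit 672) (nat_lit 1843138434) (nat_lit 157) (nat_lit 1) (nat_lit 148) (nat_lit 1) (nat_lit 156) (nat_lit 1) (nat_lit 211) (nat_lit 209) (nat_lit 180)) (XT.nd (nat_lit 94) (nat_lit 672) (nat_lit 0) (XT.lf (nat_lit 84) (nat_lit 484890558) (nat_lit 0) (nat_lit 498022581) (nat_lit 756) (nat_lit 2462026855) (nat_lit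 140) (nat_lit 1) (nat_lit 139) (nat_lit 1) (nat_lit 148) (nat_lit 1) (nat_lit 212) (nat_lit 209) (nat_lit 179)) (XT.lf (nat_lit 756) (nat_lit 2046502769) (nat_lit 0) (nat_lit 684805908) (nat_lit 672) (nat_lit 664210119) (nat_lit 140) (nat_lit 1) (nat_lit 131) (nat_lit 1) (nat_lit 139) (nat_lit 1) (nat_lit 213) (nat_lit 209) (nat_lit 178))))) (XT.nd (nat_lit 34498) (nat_lit 0) (nat_lit 14532) (XT.nd (nat_lit 94) (nat_lit 672) (nat_lit 0) (XT.lf (nat_lit 672) (nat_lit 1144560763) (nat_lit 0) (nat_lit 407267304) (nat_lit 588) (nat_lit 1795252446) (nat_lit 132) (nat_lit 1) (nat_lit 124) (nat_lit 1) (nat_lit 131) (nat_lit 1) (nat_lit 214) (nat_lit 209) (nat_lit 177)) (XT.nd (nat_lit 94) (nat_lit 84) (nat_lit 0) (XT.lf (nat_lit 672) (nat_lit 245089508) (nat_lit 0) (nat_lit 153014867) (nat_lit 588) (nat_lit 2901572485) (nat_lit 125) (nat_lit 1) (nat_lit 117) (nat_lit 1) (nat_lit 124) (nat_lit 1) (nat_lit 215)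 (nat_lit 209) (nat_lit 176)) (XT.lf (nat_lit 84) (nat_lit 2517429370) (nat_lit 0) (nat_lit 648011281) (nat_lit 672) (nat_lit 87611059) (nat_lit 117) (nat_lit 1) (nat_lit 116) (nat_lit 1) (nat_lit 124) (nat_lit 1) (nat_lit 216) (nat_lit 209) (nat_lit 175)))) (XT.nd (nat_lit 94) (nat_lit 0) (nat_lit 84) (XT.lf (nat_lit 1932) (nat_lit 1094719335) (nat_lit 0) (nat_lit 672863978) (nat_lit 1932) (nat_lit 1094719335) (nat_lit 312) (nat_lit 1) (nat_lit 289) (nat_lit 0) (nat_lit 312) (nat_lit 0) (nat_lit 180) (nat_lit 210) (nat_lit 210)) (XT.nd (nat_lit 94) (nat_lit 0) (nat_lit 0) (XT.lf (nat_lit 1932) (nat_lit 964084515) (nat_lit 0) (nat_lit 1346451076) (nat_lit 1848) (nat_lit 3316760368) (nat_lit 313) (nat_lit 1) (nat_lit 290) (nat_lit 1) (nat_lit 312) (nat_lit 1) (nat_lit 181) (nat_lit 210) (nat_lit 209)) (XT.lf (nat_lit 1932) (nat_lit 4137162849) (nat_lit 84) (nat_lit 1148408803) (nat_lit 0) (nat_lit 246651590)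 (nat_lit 313) (nat_lit 1) (nat_lit 291) (nat_lit 1) (nat_lit 290) (nat_lit 1) (nat_lit 182) (nat_lit 210) (nat_lit 208)))))) (XT.nd (nat_lit 564) (nat_lit 1176) (nat_lit 0) (XT.nd (nat_lit 282) (nat_lit 0) (nat_lit 252) (XT.nd (nat_lit 94) (nat_lit 0) (nat_lit 84) (XT.lf (nat_lit 1932) (nat_lit 3944926649) (nat_lit 84) (nat_lit 41344366) (nat_lit 0) (nat_lit 1452944739) (nat_lit 314) (nat_lit 1) (nat_lit 292) (nat_lit 1) (nat_lit 291) (nat_lit 1) (nat_lit 183) (nat_lit 210) (nat_lit 207)) (XT.nd (nat_lit 94) (nat_lit 0) (nat_lit 84) (XT.lf (nat_lit 1932) (nat_lit 2714900911) (nat_lit 0) (nat_lit 1642080893) (nat_lit 1848) (nat_lit 991229433) (nat_lit 315) (nat_lit 1) (nat_lit 292) (nat_lit 1) (nat_lit 314) (nat_lit 1) (nat_lit 184) (nat_lit 210) (nat_lit 206)) (XT.lf (nat_lit 1932) (nat_lit 1464177224) (nat_lit 0) (nat_lit 1828991721) (nat_lit 1848) (nat_lit 1966144652) (nat_lit 316) (nat_lit 1) (nat_lit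 293) (nat_lit 1) (nat_lit 315) (nat_lit 1) (nat_lit 185) (nat_lit 210) (nat_lit 205)))) (XT.nd (nat_lit 94) (nat_lit 0) (nat_lit 0) (XT.lf (nat_lit 1932) (nat_lit 233800202) (nat_lit 0) (nat_lit 2052666436) (nat_lit 1848) (nat_lit 2886007661) (nat_lit 317) (nat_lit 1) (nat_lit 294) (nat_lit 1) (nat_lit 316) (nat_lit 1) (nat_lit 186) (nat_lit 210) (nat_lit 204)) (XT.nd (nat_lit 94) (nat_lit 0) (nat_lit 84) (XT.lf (nat_lit 1932) (nat_lit 2769301251) (nat_lit 84) (nat_lit 1327664392) (nat_lit 0) (nat_lit 990519015) (nat_lit 317) (nat_lit 1) (nat_lit 295) (nat_lit 1) (nat_lit 294) (nat_lit 1) (nat_lit 187) (nat_lit 210) (nat_lit 203)) (XT.lf (nat_lit 1932) (nat_lit 2386281029) (nat_lit 84) (nat_lit 420460719) (nat_lit 0) (nat_lit 2197672265) (nat_lit 318) (nat_lit 1) (nat_lit 296) (nat_lit 1) (nat_lit 295) (nat_lit 1) (nat_lit 188) (nat_lit 210) (nat_lit 202))))) (XT.nd (nat_lit 282) (nat_lit 1596) (nat_lit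 0) (XT.nd (nat_lit 94) (nat_lit 0) (nat_lit 84) (XT.lf (nat_lit 1932) (nat_lit 1542052768) (nat_lit 0) (nat_lit 2952106660) (nat_lit 1848) (nat_lit 429021410) (nat_lit 319) (nat_lit 1) (nat_lit 296) (nat_lit 1) (nat_lit 318) (nat_lit 1) (nat_lit 189) (nat_lit 210) (nat_lit 201)) (XT.nd (nat_lit 94) (nat_lit 0) (nat_lit 0) (XT.lf (nat_lit 1932) (nat_lit 302321924) (nat_lit 0) (nat_lit 3317900282) (nat_lit 1848) (nat_lit 1223523970) (nat_lit 320) (nat_lit 1) (nat_lit 297) (nat_lit 1) (nat_lit 319) (nat_lit 1) (nat_lit 190) (nat_lit 210) (nat_lit 200)) (XT.lf (nat_lit 1932) (nat_lit 1048507187) (nat_lit 84) (nat_lit 2788532453) (nat_lit 0) (nat_lit 928942747) (nat_lit 320) (nat_lit 1) (nat_lit 298) (nat_lit 1) (nat_lit 297) (nat_lit 1) (nat_lit 191) (nat_lit 210) (nat_lit 199)))) (XT.nd (nat_lit 188) (nat_lit 1764) (nat_lit 0) (XT.nd (nat_lit 94) (nat_lit 0) (nat_lit 84) (XT.lf (nat_lit 1932) (nat_lit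 545293478) (nat_lit 84) (nat_lit 2002059200) (nat_lit 0) (nat_lit 2142591140) (nat_lit 321) (nat_lit 1) (nat_lit 299) (nat_lit 1) (nat_lit 298) (nat_lit 1) (nat_lit 192) (nat_lit 210) (nat_lit 198)) (XT.lf (nat_lit 1932) (nat_lit 19917400) (nat_lit 84) (nat_lit 1261368593) (nat_lit 0) (nat_lit 3334347219) (nat_lit 322) (nat_lit 1) (nat_lit 300) (nat_lit 1) (nat_lit 299) (nat_lit 1) (nat_lit 193) (nat_lit 210) (nat_lit 197))) (XT.nd (nat_lit 94) (nat_lit 0) (nat_lit 0) (XT.lf (nat_lit 84) (nat_lit 42391388) (nat_lit 0) (nat_lit 518624892) (nat_lit 1932) (nat_lit 3981907767) (nat_lit 278) (nat_lit 1) (nat_lit 277) (nat_lit 1) (nat_lit 300) (nat_lit 1) (nat_lit 194) (nat_lit 210) (nat_lit 196)) (XT.lf (nat_lit 84) (nat_lit 3282269783) (nat_lit 0) (nat_lit 1085219702) (nat_lit 1932) (nat_lit 104157236) (nat_lit 278) (nat_lit 1) (nat_lit 277) (nat_lit 1) (nat_lit 300) (nat_lit 1) (nat_lit 195) (nat_lit 210)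 (nat_lit 195))))))) (XT.nd (nat_lit 1222) (nat_lit 3948) (nat_lit 0) (XT.nd (nat_lit 564) (nat_lit 4620) (nat_lit 0) (XT.nd (nat_lit 282) (nat_lit 2604) (nat_lit 0) (XT.nd (nat_lit 94) (nat_lit 1848) (nat_lit 0) (XT.lf (nat_lit 84) (nat_lit 2007376636) (nat_lit 0) (nat_lit 1673487562) (nat_lit 1176) (nat_lit 721017212) (nat_lit 265) (nat_lit 1) (nat_lit 264) (nat_lit 1) (nat_lit 278) (nat_lit 1) (nat_lit 196) (nat_lit 210) (nat_lit 194)) (XT.nd (nat_lit 94) (nat_lit 924) (nat_lit 0) (XT.lf (nat_lit 84) (nat_lit 757001564) (nat_lit 0) (nat_lit 2277909957) (nat_lit 1008) (nat_lit 1298770742) (nat_lit 254) (nat_lit 1) (nat_lit 253) (nat_lit 1) (nat_lit 265) (nat_lit 1) (nat_lit 197) (nat_lit 210) (nat_lit 193)) (XT.lf (nat_lit 1008) (nat_lit 1366219037) (nat_lit 0) (nat_lit 2424737417) (nat_lit 924) (nat_lit 475978801) (nat_lit 254) (nat_lit 1) (nat_lit 242) (nat_lit 1) (nat_lit 253) (nat_lit 1) (nat_lit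 198) (nat_lit 210) (nat_lit 192)))) (XT.nd (nat_lit 94) (nat_lit 1764) (nat_lit 0) (XT.lf (nat_lit 924) (nat_lit 658857134) (nat_lit 0) (nat_lit 1847009113) (nat_lit 840) (nat_lit 1695693832) (nat_lit 243) (nat_lit 1) (nat_lit 232) (nat_lit 1) (nat_lit 242) (nat_lit 1) (nat_lit 199) (nat_lit 210) (nat_lit 191)) (XT.nd (nat_lit 94) (nat_lit 840) (nat_lit 0) (XT.lf (nat_lit 84) (nat_lit 1246702633) (nat_lit 0) (nat_lit 58839280) (nat_lit 924) (nat_lit 2832088492) (nat_lit 222) (nat_lit 1) (nat_lit 221) (nat_lit 1) (nat_lit 232) (nat_lit 1) (nat_lit 200) (nat_lit 210) (nat_lit 190)) (XT.lf (nat_lit 84) (nat_lit 17484469) (nat_lit 0) (nat_lit 777116170) (nat_lit 924) (nat_lit 3280413787) (nat_lit 212) (nat_lit 1) (nat_lit 211) (nat_lit 1) (nat_lit 222) (nat_lit 1) (nat_lit 201) (nat_lit 210) (nat_lit 189))))) (XT.nd (nat_lit 282) (nat_lit 3024) (nat_lit 0) (XT.nd (nat_lit 94) (nat_lit 756) (nat_lit 0) (XT.lf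 (nat_lit 924) (nat_lit 2500470546) (nat_lit 0) (nat_lit 308964639) (nat_lit 840) (nat_lit 1204156324) (nat_lit 212) (nat_lit 1) (nat_lit 201) (nat_lit 1) (nat_lit 211) (nat_lit 1) (nat_lit 202) (nat_lit 210) (nat_lit 188)) (XT.nd (nat_lit 94) (nat_lit 756) (nat_lit 0) (XT.lf (nat_lit 84) (nat_lit 1553435869) (nat_lit 0) (nat_lit 2258370803) (nat_lit 924) (nat_lit 141688074) (nat_lit 202) (nat_lit 1) (nat_lit 201) (nat_lit 1) (nat_lit 212) (nat_lit 1) (nat_lit 203) (nat_lit 210) (nat_lit 187)) (XT.lf (nat_lit 84) (nat_lit 325336037) (nat_lit 0) (nat_lit 3012853528) (nat_lit 840) (nat_lit 556483117) (nat_lit 193) (nat_lit 1) (nat_lit 192) (nat_lit 1) (nat_lit 202) (nat_lit 1) (nat_lit 204) (nat_lit 210) (nat_lit 186)))) (XT.nd (nat_lit 188) (nat_lit 1428) (nat_lit 0) (XT.nd (nat_lit 94) (nat_lit 840) (nat_lit 0) (XT.lf (nat_lit 840) (nat_lit 57080818) (nat_lit 0) (nat_lit 2889667903) (nat_lit 756) (nat_lit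 890252881) (nat_lit 193) (nat_lit 1) (nat_lit 183) (nat_lit 1) (nat_lit 192) (nat_lit 1) (nat_lit 205) (nat_lit 210) (nat_lit 185)) (XT.lf (nat_lit 84) (nat_lit 1700792220) (nat_lit 0) (nat_lit 762958530) (nat_lit 840) (nat_lit 1316669467) (nat_lit 174) (nat_lit 1) (nat_lit 173) (nat_lit 1) (nat_lit 183) (nat_lit 1) (nat_lit 206) (nat_lit 210) (nat_lit 184))) (XT.nd (nat_lit 94) (nat_lit 672) (nat_lit 0) (XT.lf (nat_lit 84) (nat_lit 481459858) (nat_lit 0) (nat_lit 1585491478) (nat_lit 840) (nat_lit 1658109821) (nat_lit 165) (nat_lit 1) (nat_lit 164) (nat_lit 1) (nat_lit 174) (nat_lit 1) (nat_lit 207) (nat_lit 210) (nat_lit 183)) (XT.lf (nat_lit 756) (nat_lit 1254944624) (nat_lit 0) (nat_lit 1693379388) (nat_lit 672) (nat_lit 722466134) (nat_lit 165) (nat_lit 1) (nat_lit 156) (nat_lit 1) (nat_lit 164) (nat_lit 1) (nat_lit 208) (nat_lit 210) (nat_lit 182)))))) (XT.nd (nat_lit 564) (nat_lit 588) (nat_lit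 0) (XT.nd (nat_lit 282) (nat_lit 1260) (nat_lit 0) (XT.nd (nat_lit 94) (nat_lit 1428) (nat_lit 0) (XT.lf (nat_lit 756) (nat_lit 366057920) (nat_lit 0) (nat_lit 1343912489) (nat_lit 672) (nat_lit 1907648279) (nat_lit 157) (nat_lit 1) (nat_lit 148) (nat_lit 1) (nat_lit 156) (nat_lit 1) (nat_lit 209) (nat_lit 210) (nat_lit 181)) (XT.nd (nat_lit 94) (nat_lit 672) (nat_lit 0) (XT.lf (nat_lit 84) (nat_lit 501861727) (nat_lit 0) (nat_lit 515453372) (nat_lit 756) (nat_lit 2548197795) (nat_lit 140) (nat_lit 1) (nat_lit 139) (nat_lit 1) (nat_lit 148) (nat_lit 1) (nat_lit 210) (nat_lit 210) (nat_lit 180)) (XT.lf (nat_lit 756) (nat_lit 2118130365) (nat_lit 0) (nat_lit 708774115) (nat_lit 672) (nat_lit 687457473) (nat_lit 140) (nat_lit 1) (nat_lit 131) (nat_lit 1) (nat_lit 139) (nat_lit 1) (nat_lit 211) (nat_lit 210) (nat_lit 179)))) (XT.nd (nat_lit 94) (nat_lit 672) (nat_lit 0) (XT.lf (nat_lit 672) (nat_lit 1184620390)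 (nat_lit 0) (nat_lit 421521659) (nat_lit 588) (nat_lit 1858086282) (nat_lit 132) (nat_lit 1) (nat_lit 124) (nat_lit 1) (nat_lit 131) (nat_lit 1) (nat_lit 212) (nat_lit 210) (nat_lit 178)) (XT.nd (nat_lit 94) (nat_lit 84) (nat_lit 0) (XT.lf (nat_lit 672) (nat_lit 253667641) (nat_lit 0) (nat_lit 158370387) (nat_lit 588) (nat_lit 3003127522) (nat_lit 125) (nat_lit 1) (nat_lit 117) (nat_lit 1) (nat_lit 124) (nat_lit 1) (nat_lit 213) (nat_lit 210) (nat_lit 177)) (XT.lf (nat_lit 84) (nat_lit 2605539398) (nat_lit 0) (nat_lit 670691676) (nat_lit 672) (nat_lit 90677447) (nat_lit 117) (nat_lit 1) (nat_lit 116) (nat_lit 1) (nat_lit 124) (nat_lit 1) (nat_lit 214) (nat_lit 210) (nat_lit 176))))) (XT.nd (nat_lit 34404) (nat_lit 0) (nat_lit 15204) (XT.nd (nat_lit 34216) (nat_lit 0) (nat_lit 15120) (XT.lf (nat_lit 84) (nat_lit 1407706015) (nat_lit 0) (nat_lit 1591877161) (nat_lit 672) (nat_lit 319966261) (nat_lit 110)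 (nat_lit 1) (nat_lit 109) (nat_lit 1) (nat_lit 117) (nat_lit 1) (nat_lit 215) (nat_lit 210) (nat_lit 175)) (XT.nd (nat_lit 94) (nat_lit 0) (nat_lit 84) (XT.lf (nat_lit 1932) (nat_lit 1133034511) (nat_lit 0) (nat_lit 696414217) (nat_lit 1932) (nat_lit 1133034511) (nat_lit 312) (nat_lit 1) (nat_lit 289) (nat_lit 0) (nat_lit 312) (nat_lit 0) (nat_lit 178) (nat_lit 211) (nat_lit 211)) (XT.lf (nat_lit 1932) (nat_lit 997827473) (nat_lit 0) (nat_lit 1393576864) (nat_lit 1848) (nat_lit 3432846981) (nat_lit 313) (nat_lit 1) (nat_lit 290) (nat_lit 1) (nat_lit 312) (nat_lit 1) (nat_lit 179) (nat_lit 211) (nat_lit 210)))) (XT.nd (nat_lit 188) (nat_lit 0) (nat_lit 168) (XT.nd (nat_lit 94) (nat_lit 0) (nat_lit 84) (XT.lf (nat_lit 1932) (nat_lit 4281963549) (nat_lit 84) (nat_lit 1188603111) (nat_lit 0) (nat_lit 255284395) (nat_lit 313) (nat_lit 1) (nat_lit 291) (nat_lit 1) (nat_lit 290) (nat_lit 1) (nat_lit 180) (nat_lit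 211) (nat_lit 209)) (XT.lf (nat_lit 1932) (nat_lit 4082999082) (nat_lit 84) (nat_lit 42791419) (nat_lit 0) (nat_lit 1503797805) (nat_lit 314) (nat_lit 1) (nat_lit 292) (nat_lit 1) (nat_lit 291) (nat_lit 1) (nat_lit 181) (nat_lit 211) (nat_lit 208))) (XT.nd (nat_lit 94) (nat_lit 0) (nat_lit 84) (XT.lf (nat_lit 1932) (nat_lit 2809922443) (nat_lit 0) (nat_lit 1699553724) (nat_lit 1848) (nat_lit 1025922464) (nat_lit 315) (nat_lit 1) (nat_lit 292) (nat_lit 1) (nat_lit 314) (nat_lit 1) (nat_lit 182) (nat_lit 211) (nat_lit 207)) (XT.lf (nat_lit 1932) (nat_lit 1515423427) (nat_lit 0) (nat_lit 1893006431) (nat_lit 1848) (nat_lit 2034959715) (nat_lit 316) (nat_lit 1) (nat_lit 293) (nat_lit 1) (nat_lit 315) (nat_lit 1) (nat_lit 183) (nat_lit 211) (nat_lit 206))))))))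
noncomputable def ec8 : XT := (XT.nd (nat_lit 2350) (nat_lit 3696) (nat_lit 0) (XT.nd (nat_lit 1128) (nat_lit 9576) (nat_lit 0) (XT.nd (nat_lit 564) (nat_lit 3444) (nat_lit 0) (XT.nd (nat_lit 282) (nat_lit 0) (nat_lit 168) (XT.nd (nat_lit 94) (nat_lit 0) (nat_lit 0) (XT.lf (nat_lit 1932) (nat_lit 241983209) (nat_lit 0) (nat_lit 2124509761) (nat_lit 1848) (nat_lit 2987017929) (nat_lit 317) (nat_lit 1) (nat_lit 294) (nat_lit 1) (nat_lit 316) (nat_lit 1) (nat_lit 184) (nat_lit 211) (nat_lit 205)) (XT.nd (nat_lit 94) (nat_lit 0) (nat_lit 84) (XT.lf (nat_lit 1932) (nat_lit 2866226795) (nat_lit 84) (nat_lit 1374132646) (nat_lit 0) (nat_lit 1025187180) (nat_lit 317) (nat_lit 1) (nat_lit 295) (nat_lit 1) (nat_lit 294) (nat_lit 1) (nat_lit 185) (nat_lit 211) (nat_lit 204)) (XT.lf (nat_lit 1932) (nat_lit 2469800865) (nat_lit 84) (nat_lit 435176844) (nat_lit 0) (nat_lit 2274590794) (nat_lit 318) (nat_lit 1) (nat_lit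 296) (nat_lit 1) (nat_lit 295) (nat_lit 1) (nat_lit 186) (nat_lit 211) (nat_lit 203)))) (XT.nd (nat_lit 94) (nat_lit 0) (nat_lit 84) (XT.lf (nat_lit 1932) (nat_lit 1596024614) (nat_lit 0) (nat_lit 3055430393) (nat_lit 1848) (nat_lit 444037160) (nat_lit 319) (nat_lit 1) (nat_lit 296) (nat_lit 1) (nat_lit 318) (nat_lit 1) (nat_lit 187) (nat_lit 211) (nat_lit 202)) (XT.nd (nat_lit 94) (nat_lit 0) (nat_lit 0) (XT.lf (nat_lit 1932) (nat_lit 312903192) (nat_lit 0) (nat_lit 3434026792) (nat_lit 1848) (nat_lit 1266347309) (nat_lit 320) (nat_lit 1) (nat_lit 297) (nat_lit 1) (nat_lit 319) (nat_lit 1) (nat_lit 188) (nat_lit 211) (nat_lit 201)) (XT.lf (nat_lit 1932) (nat_lit 1085204939) (nat_lit 84) (nat_lit 2886131089) (nat_lit 0) (nat_lit 961455744) (nat_lit 320) (nat_lit 1) (nat_lit 298) (nat_lit 1) (nat_lit 297) (nat_lit 1) (nat_lit 189) (nat_lit 211) (nat_lit 200))))) (XT.nd (nat_lit 282) (nat_lit 2016) (nat_lit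 0) (XT.nd (nat_lit 94) (nat_lit 1764) (nat_lit 0) (XT.lf (nat_lit 1932) (nat_lit 564378750) (nat_lit 84) (nat_lit 2072131272) (nat_lit 0) (nat_lit 2217581830) (nat_lit 321) (nat_lit 1) (nat_lit 299) (nat_lit 1) (nat_lit 298) (nat_lit 1) (nat_lit 190) (nat_lit 211) (nat_lit 199)) (XT.nd (nat_lit 94) (nat_lit 1848) (nat_lit 0) (XT.lf (nat_lit 1932) (nat_lit 20614509) (nat_lit 84) (nat_lit 1305516494) (nat_lit 0) (nat_lit 3451049371) (nat_lit 322) (nat_lit 1) (nat_lit 300) (nat_lit 1) (nat_lit 299) (nat_lit 1) (nat_lit 191) (nat_lit 211) (nat_lit 198)) (XT.lf (nat_lit 84) (nat_lit 43875086) (nat_lit 0) (nat_lit 536776763) (nat_lit 1932) (nat_lit 4121274539) (nat_lit 278) (nat_lit 1) (nat_lit 277) (nat_lit 1) (nat_lit 300) (nat_lit 1) (nat_lit 192) (nat_lit 211) (nat_lit 197)))) (XT.nd (nat_lit 94) (nat_lit 2016) (nat_lit 0) (XT.lf (nat_lit 84) (nat_lit 3397149226) (nat_lit 0) (nat_lit 1123202392) (nat_lit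 1932) (nat_lit 107802740) (nat_lit 278) (nat_lit 1) (nat_lit 277) (nat_lit 1) (nat_lit 300) (nat_lit 1) (nat_lit 193) (nat_lit 211) (nat_lit 196)) (XT.nd (nat_lit 94) (nat_lit 924) (nat_lit 0) (XT.lf (nat_lit 84) (nat_lit 2077634818) (nat_lit 0) (nat_lit 1732059626) (nat_lit 1176) (nat_lit 746252815) (nat_lit 265) (nat_lit 1) (nat_lit 264) (nat_lit 1) (nat_lit 278) (nat_lit 1) (nat_lit 194) (nat_lit 211) (nat_lit 195)) (XT.lf (nat_lit 84) (nat_lit 783496619) (nat_lit 0) (nat_lit 2357636805) (nat_lit 1008) (nat_lit 1344227718) (nat_lit 254) (nat_lit 1) (nat_lit 253) (nat_lit 1) (nat_lit 265) (nat_lit 1) (nat_lit 195) (nat_lit 211) (nat_lit 194)))))) (XT.nd (nat_lit 564) (nat_lit 5208) (nat_lit 0) (XT.nd (nat_lit 282) (nat_lit 1680) (nat_lit 0) (XT.nd (nat_lit 94) (nat_lit 1764) (nat_lit 0) (XT.lf (nat_lit 1008) (nat_lit 1414036704) (nat_lit 0) (nat_lit 2509603227) (nat_lit 924) (nat_lit 492638059) (nat_lit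 254) (nat_lit 1) (nat_lit 242) (nat_lit 1) (nat_lit 253) (nat_lit 1) (nat_lit 196) (nat_lit 211) (nat_lit 193)) (XT.nd (nat_lit 94) (nat_lit 924) (nat_lit 0) (XT.lf (nat_lit 924) (nat_lit 681917133) (nat_lit 0) (nat_lit 1911654432) (nat_lit 840) (nat_lit 1755043116) (nat_lit 243) (nat_lit 1) (nat_lit 232) (nat_lit 1) (nat_lit 242) (nat_lit 1) (nat_lit 197) (nat_lit 211) (nat_lit 192)) (XT.lf (nat_lit 84) (nat_lit 1290337225) (nat_lit 0) (nat_lit 60898654) (nat_lit 924) (nat_lit 2931211589) (nat_lit 222) (nat_lit 1) (nat_lit 221) (nat_lit 1) (nat_lit 232) (nat_lit 1) (nat_lit 198) (nat_lit 211) (nat_lit 191)))) (XT.nd (nat_lit 94) (nat_lit 840) (nat_lit 0) (XT.lf (nat_lit 84) (nat_lit 18096425) (nat_lit 0) (nat_lit 804315236) (nat_lit 924) (nat_lit 3395228269) (nat_lit 212) (nat_lit 1) (nat_lit 211) (nat_lit 1) (nat_lit 222) (nat_lit 1) (nat_lit 199) (nat_lit 211) (nat_lit 190)) (XT.nd (nat_lit 94) (nat_lit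 0) (nat_lit 0) (XT.lf (nat_lit 924) (nat_lit 2587987015) (nat_lit 0) (nat_lit 319778401) (nat_lit 840) (nat_lit 1246301796) (nat_lit 212) (nat_lit 1) (nat_lit 201) (nat_lit 1) (nat_lit 211) (nat_lit 1) (nat_lit 200) (nat_lit 211) (nat_lit 189)) (XT.lf (nat_lit 84) (nat_lit 1607806125) (nat_lit 0) (nat_lit 2337413781) (nat_lit 924) (nat_lit 146647157) (nat_lit 202) (nat_lit 1) (nat_lit 201) (nat_lit 1) (nat_lit 212) (nat_lit 1) (nat_lit 201) (nat_lit 211) (nat_lit 188))))) (XT.nd (nat_lit 282) (nat_lit 2856) (nat_lit 0) (XT.nd (nat_lit 94) (nat_lit 1596) (nat_lit 0) (XT.lf (nat_lit 84) (nat_lit 336722798) (nat_lit 0) (nat_lit 3118303402) (nat_lit 840) (nat_lit 575960026) (nat_lit 193) (nat_lit 1) (nat_lit 192) (nat_lit 1) (nat_lit 202) (nat_lit 1) (nat_lit 202) (nat_lit 211) (nat_lit 187)) (XT.nd (nat_lit 94) (nat_lit 840) (nat_lit 0) (XT.lf (nat_lit 840) (nat_lit 59078647) (nat_lit 0) (nat_lit 2990806279)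 (nat_lit 756) (nat_lit 921411732) (nat_lit 193) (nat_lit 1) (nat_lit 183) (nat_lit 1) (nat_lit 192) (nat_lit 1) (nat_lit 203) (nat_lit 211) (nat_lit 186)) (XT.lf (nat_lit 84) (nat_lit 1760319948) (nat_lit 0) (nat_lit 789662078) (nat_lit 840) (nat_lit 1362752898) (nat_lit 174) (nat_lit 1) (nat_lit 173) (nat_lit 1) (nat_lit 183) (nat_lit 1) (nat_lit 204) (nat_lit 211) (nat_lit 185)))) (XT.nd (nat_lit 188) (nat_lit 1428) (nat_lit 0) (XT.nd (nat_lit 94) (nat_lit 672) (nat_lit 0) (XT.lf (nat_lit 84) (nat_lit 498310953) (nat_lit 0) (nat_lit 1640983680) (nat_lit 840) (nat_lit 1716143665) (nat_lit 165) (nat_lit 1) (nat_lit 164) (nat_lit 1) (nat_lit 174) (nat_lit 1) (nat_lit 205) (nat_lit 211) (nat_lit 184)) (XT.lf (nat_lit 756) (nat_lit 1298867686) (nat_lit 0) (nat_lit 1752647666) (nat_lit 672) (nat_lit 747752449) (nat_lit 165) (nat_lit 1) (nat_lit 156) (nat_lit 1) (nat_lit 164) (nat_lit 1) (nat_lit 206) (nat_lit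 211) (nat_lit 183))) (XT.nd (nat_lit 94) (nat_lit 756) (nat_lit 0) (XT.lf (nat_lit 756) (nat_lit 378869947) (nat_lit 0) (nat_lit 1390949426) (nat_lit 672) (nat_lit 1974415969) (nat_lit 157) (nat_lit 1) (nat_lit 148) (nat_lit 1) (nat_lit 156) (nat_lit 1) (nat_lit 207) (nat_lit 211) (nat_lit 182)) (XT.lf (nat_lit 84) (nat_lit 519426888) (nat_lit 0) (nat_lit 533494240) (nat_lit 756) (nat_lit 2637384718) (nat_lit 140) (nat_lit 1) (nat_lit 139) (nat_lit 1) (nat_lit 148) (nat_lit 1) (nat_lit 208) (nat_lit 211) (nat_lit 181))))))) (XT.nd (nat_lit 35156) (nat_lit 0) (nat_lit 12348) (XT.nd (nat_lit 564) (nat_lit 588) (nat_lit 0) (XT.nd (nat_lit 282) (nat_lit 1260) (nat_lit 0) (XT.nd (nat_lit 94) (nat_lit 1176) (nat_lit 0) (XT.lf (nat_lit 756) (nat_lit 2192264928) (nat_lit 0) (nat_lit 733581209) (nat_lit 672) (nat_lit 711518484) (nat_lit 140) (nat_lit 1) (nat_lit 131) (nat_lit 1) (nat_lit 139) (nat_lit 1) (nat_lit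 209) (nat_lit 211) (nat_lit 180)) (XT.nd (nat_lit 94) (nat_lit 588) (nat_lit 0) (XT.lf (nat_lit 672) (nat_lit 1226082104) (nat_lit 0) (nat_lit 436274918) (nat_lit 588) (nat_lit 1923119301) (nat_lit 132) (nat_lit 1) (nat_lit 124) (nat_lit 1) (nat_lit 131) (nat_lit 1) (nat_lit 210) (nat_lit 211) (nat_lit 179)) (XT.lf (nat_lit 672) (nat_lit 262546009) (nat_lit 0) (nat_lit 163913351) (nat_lit 588) (nat_lit 3108236986) (nat_lit 125) (nat_lit 1) (nat_lit 117) (nat_lit 1) (nat_lit 124) (nat_lit 1) (nat_lit 211) (nat_lit 211) (nat_lit 178)))) (XT.nd (nat_lit 94) (nat_lit 1176) (nat_lit 0) (XT.lf (nat_lit 84) (nat_lit 2696733277) (nat_lit 0) (nat_lit 694165885) (nat_lit 672) (nat_lit 93851157) (nat_lit 117) (nat_lit 1) (nat_lit 116) (nat_lit 1) (nat_lit 124) (nat_lit 1) (nat_lit 212) (nat_lit 211) (nat_lit 177)) (XT.nd (nat_lit 94) (nat_lit 588) (nat_lit 0) (XT.lf (nat_lit 84) (nat_lit 1456975726) (nat_lit 0)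 (nat_lit 1647592862) (nat_lit 672) (nat_lit 331165081) (nat_lit 110) (nat_lit 1) (nat_lit 109) (nat_lit 1) (nat_lit 117) (nat_lit 1) (nat_lit 213) (nat_lit 211) (nat_lit 176)) (XT.lf (nat_lit 84) (nat_lit 244628397) (nat_lit 0) (nat_lit 2596883528) (nat_lit 672) (nat_lit 546244347) (nat_lit 103) (nat_lit 1) (nat_lit 102) (nat_lit 1) (nat_lit 110) (nat_lit 1) (nat_lit 214) (nat_lit 211) (nat_lit 175))))) (XT.nd (nat_lit 34216) (nat_lit 0) (nat_lit 16380) (XT.nd (nat_lit 34028) (nat_lit 0) (nat_lit 16296) (XT.lf (nat_lit 84) (nat_lit 2387578388) (nat_lit 0) (nat_lit 204860052) (nat_lit 588) (nat_lit 748172931) (nat_lit 96) (nat_lit 1) (nat_lit 95) (nat_lit 1) (nat_lit 102) (nat_lit 1) (nat_lit 215) (nat_lit 211) (nat_lit 174)) (XT.nd (nat_lit 94) (nat_lit 0) (nat_lit 84) (XT.lf (nat_lit 1932) (nat_lit 1172690719) (nat_lit 0) (nat_lit 720788715) (nat_lit 1932) (nat_lit 1172690719) (nat_lit 312) (nat_lit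 1) (nat_lit 289) (nat_lit 0) (nat_lit 312) (nat_lit 0) (nat_lit 176) (nat_lit 212) (nat_lit 212)) (XT.lf (nat_lit 1932) (nat_lit 1032751434) (nat_lit 0) (nat_lit 1442352054) (nat_lit 1848) (nat_lit 3552996626) (nat_lit 313) (nat_lit 1) (nat_lit 290) (nat_lit 1) (nat_lit 312) (nat_lit 1) (nat_lit 177) (nat_lit 212) (nat_lit 211)))) (XT.nd (nat_lit 188) (nat_lit 0) (nat_lit 168) (XT.nd (nat_lit 94) (nat_lit 0) (nat_lit 84) (XT.lf (nat_lit 1932) (nat_lit 4431832273) (nat_lit 84) (nat_lit 1230204220) (nat_lit 0) (nat_lit 264219349) (nat_lit 313) (nat_lit 1) (nat_lit 291) (nat_lit 1) (nat_lit 290) (nat_lit 1) (nat_lit 178) (nat_lit 212) (nat_lit 210)) (XT.lf (nat_lit 1932) (nat_lit 4225904050) (nat_lit 84) (nat_lit 44289118) (nat_lit 0) (nat_lit 1556430728) (nat_lit 314) (nat_lit 1) (nat_lit 292) (nat_lit 1) (nat_lit 291) (nat_lit 1) (nat_lit 179) (nat_lit 212) (nat_lit 209))) (XT.nd (nat_lit 94) (nat_lit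 0) (nat_lit 84) (XT.lf (nat_lit 1932) (nat_lit 2908269728) (nat_lit 0) (nat_lit 1759038104) (nat_lit 1848) (nat_lit 1061829750) (nat_lit 315) (nat_lit 1) (nat_lit 292) (nat_lit 1) (nat_lit 314) (nat_lit 1) (nat_lit 180) (nat_lit 212) (nat_lit 208)) (XT.lf (nat_lit 1932) (nat_lit 1568463247) (nat_lit 0) (nat_lit 1959261657) (nat_lit 1848) (nat_lit 2106183305) (nat_lit 316) (nat_lit 1) (nat_lit 293) (nat_lit 1) (nat_lit 315) (nat_lit 1) (nat_lit 181) (nat_lit 212) (nat_lit 207)))))) (XT.nd (nat_lit 564) (nat_lit 4368) (nat_lit 0) (XT.nd (nat_lit 282) (nat_lit 0) (nat_lit 168) (XT.nd (nat_lit 94) (nat_lit 0) (nat_lit 0) (XT.lf (nat_lit 1932) (nat_lit 250452621) (nat_lit 0) (nat_lit 2198867602) (nat_lit 1848) (nat_lit 3091563556) (nat_lit 317) (nat_lit 1) (nat_lit 294) (nat_lit 1) (nat_lit 316) (nat_lit 1) (nat_lit 182) (nat_lit 212) (nat_lit 206)) (XT.nd (nat_lit 94) (nat_lit 0) (nat_lit 84) (XT.lf (nat_lit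 1932) (nat_lit 2966544733) (nat_lit 84) (nat_lit 1422227289) (nat_lit 0) (nat_lit 1061068731) (nat_lit 317) (nat_lit 1) (nat_lit 295) (nat_lit 1) (nat_lit 294) (nat_lit 1) (nat_lit 183) (nat_lit 212) (nat_lit 205)) (XT.lf (nat_lit 1932) (nat_lit 2556243895) (nat_lit 84) (nat_lit 450408034) (nat_lit 0) (nat_lit 2354201472) (nat_lit 318) (nat_lit 1) (nat_lit 296) (nat_lit 1) (nat_lit 295) (nat_lit 1) (nat_lit 184) (nat_lit 212) (nat_lit 204)))) (XT.nd (nat_lit 94) (nat_lit 0) (nat_lit 84) (XT.lf (nat_lit 1932) (nat_lit 1651885476) (nat_lit 0) (nat_lit 3162370457) (nat_lit 1848) (nat_lit 459578460) (nat_lit 319) (nat_lit 1) (nat_lit 296) (nat_lit 1) (nat_lit 318) (nat_lit 1) (nat_lit 185) (nat_lit 212) (nat_lit 203)) (XT.nd (nat_lit 94) (nat_lit 0) (nat_lit 0) (XT.lf (nat_lit 1932) (nat_lit 323854803) (nat_lit 0) (nat_lit 3554217730) (nat_lit 1848) (nat_lit 1310669465) (nat_lit 320) (nat_lit 1) (nat_lit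 297) (nat_lit 1) (nat_lit 319) (nat_lit 1) (nat_lit 186) (nat_lit 212) (nat_lit 202)) (XT.lf (nat_lit 1932) (nat_lit 1123187112) (nat_lit 84) (nat_lit 2987145677) (nat_lit 0) (nat_lit 995106695) (nat_lit 320) (nat_lit 1) (nat_lit 298) (nat_lit 1) (nat_lit 297) (nat_lit 1) (nat_lit 187) (nat_lit 212) (nat_lit 201))))) (XT.nd (nat_lit 282) (nat_lit 2940) (nat_lit 0) (XT.nd (nat_lit 94) (nat_lit 1764) (nat_lit 0) (XT.lf (nat_lit 1932) (nat_lit 584132006) (nat_lit 84) (nat_lit 2144655866) (nat_lit 0) (nat_lit 2295197194) (nat_lit 321) (nat_lit 1) (nat_lit 299) (nat_lit 1) (nat_lit 298) (nat_lit 1) (nat_lit 188) (nat_lit 212) (nat_lit 200)) (XT.nd (nat_lit 94) (nat_lit 1848) (nat_lit 0) (XT.lf (nat_lit 1932) (nat_lit 21336017) (nat_lit 84) (nat_lit 1351209571) (nat_lit 0) (nat_lit 3571836099) (nat_lit 322) (nat_lit 1) (nat_lit 300) (nat_lit 1) (nat_lit 299) (nat_lit 1) (nat_lit 189) (nat_lit 212) (nat_lit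 199)) (XT.lf (nat_lit 84) (nat_lit 45410714) (nat_lit 0) (nat_lit 555563950) (nat_lit 1932) (nat_lit 4265519148) (nat_lit 278) (nat_lit 1) (nat_lit 277) (nat_lit 1) (nat_lit 300) (nat_lit 1) (nat_lit 190) (nat_lit 212) (nat_lit 198)))) (XT.nd (nat_lit 188) (nat_lit 1848) (nat_lit 0) (XT.nd (nat_lit 94) (nat_lit 1092) (nat_lit 0) (XT.lf (nat_lit 84) (nat_lit 3516049448) (nat_lit 0) (nat_lit 1162514476) (nat_lit 1932) (nat_lit 111575835) (nat_lit 278) (nat_lit 1) (nat_lit 277) (nat_lit 1) (nat_lit 300) (nat_lit 1) (nat_lit 191) (nat_lit 212) (nat_lit 197)) (XT.lf (nat_lit 84) (nat_lit 2150352037) (nat_lit 0) (nat_lit 1792681713) (nat_lit 1176) (nat_lit 772371663) (nat_lit 265) (nat_lit 1) (nat_lit 264) (nat_lit 1) (nat_lit 278) (nat_lit 1) (nat_lit 192) (nat_lit 212) (nat_lit 196))) (XT.nd (nat_lit 94) (nat_lit 924) (nat_lit 0) (XT.lf (nat_lit 84) (nat_lit 810919001) (nat_lit 0) (nat_lit 2440154094) (nat_lit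 1008) (nat_lit 1391275688) (nat_lit 254) (nat_lit 1) (nat_lit 253) (nat_lit 1) (nat_lit 265) (nat_lit 1) (nat_lit 193) (nat_lit 212) (nat_lit 195)) (XT.lf (nat_lit 1008) (nat_lit 1463527988) (nat_lit 0) (nat_lit 2597439340) (nat_lit 924) (nat_lit 509880391) (nat_lit 254) (nat_lit 1) (nat_lit 242) (nat_lit 1) (nat_lit 253) (nat_lit 1) (nat_lit 194) (nat_lit 212) (nat_lit 194))))))))
noncomputable def ec9 : XT := (XT.nd (nat_lit 36284) (nat_lit 0) (nat_lit 3612) (XT.nd (nat_lit 1128) (nat_lit 4284) (nat_lit 0) (XT.nd (nat_lit 564) (nat_lit 4452) (nat_lit 0) (XT.nd (nat_lit 282) (nat_lit 1596) (nat_lit 0) (XT.nd (nat_lit 94) (nat_lit 1764) (nat_lit 0) (XT.lf (nat_lit 924) (nat_lit 705784233) (nat_lit 0) (nat_lit 1978562337) (nat_lit 840) (nat_lit 1816469625) (nat_lit 243) (nat_lit 1) (nat_lit 232) (nat_lit 1) (nat_lit 242) (nat_lit 1) (nat_lit 195) (nat_lit 212) (nat_lit 193)) (XT.nd (nat_lit 94) (nat_lit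 840) (nat_lit 0) (XT.lf (nat_lit 84) (nat_lit 1335499028) (nat_lit 0) (nat_lit 63030107) (nat_lit 924) (nat_lit 3033803995) (nat_lit 222) (nat_lit 1) (nat_lit 221) (nat_lit 1) (nat_lit 232) (nat_lit 1) (nat_lit 196) (nat_lit 212) (nat_lit 192)) (XT.lf (nat_lit 84) (nat_lit 18729800) (nat_lit 0) (nat_lit 832466269) (nat_lit 924) (nat_lit 3514061259) (nat_lit 212) (nat_lit 1) (nat_lit 211) (nat_lit 1) (nat_lit 222) (nat_lit 1) (nat_lit 197) (nat_lit 212) (nat_lit 191)))) (XT.nd (nat_lit 94) (nat_lit 756) (nat_lit 0) (XT.lf (nat_lit 924) (nat_lit 2678566561) (nat_lit 0) (nat_lit 330970645) (nat_lit 840) (nat_lit 1289922359) (nat_lit 212) (nat_lit 1) (nat_lit 201) (nat_lit 1) (nat_lit 211) (nat_lit 1) (nat_lit 198) (nat_lit 212) (nat_lit 190)) (XT.nd (nat_lit 94) (nat_lit 756) (nat_lit 0) (XT.lf (nat_lit 84) (nat_lit 1664079339) (nat_lit 0) (nat_lit 2419223264) (nat_lit 924) (nat_lit 151779807) (nat_lit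 202) (nat_lit 1) (nat_lit 201) (nat_lit 1) (nat_lit 212) (nat_lit 1) (nat_lit 199) (nat_lit 212) (nat_lit 189)) (XT.lf (nat_lit 84) (nat_lit 348508096) (nat_lit 0) (nat_lit 3227444021) (nat_lit 840) (nat_lit 596118627) (nat_lit 193) (nat_lit 1) (nat_lit 192) (nat_lit 1) (nat_lit 202) (nat_lit 1) (nat_lit 200) (nat_lit 212) (nat_lit 188))))) (XT.nd (nat_lit 282) (nat_lit 2100) (nat_lit 0) (XT.nd (nat_lit 94) (nat_lit 1596) (nat_lit 0) (XT.lf (nat_lit 840) (nat_lit 61146399) (nat_lit 0) (nat_lit 3095484499) (nat_lit 756) (nat_lit 953661143) (nat_lit 193) (nat_lit 1) (nat_lit 183) (nat_lit 1) (nat_lit 192) (nat_lit 1) (nat_lit 201) (nat_lit 212) (nat_lit 187)) (XT.nd (nat_lit 94) (nat_lit 756) (nat_lit 0) (XT.lf (nat_lit 84) (nat_lit 1821931146) (nat_lit 0) (nat_lit 817300251) (nat_lit 840) (nat_lit 1410449250) (nat_lit 174) (nat_lit 1) (nat_lit 173) (nat_lit 1) (nat_lit 183) (nat_lit 1) (nat_lit 202)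 (nat_lit 212) (nat_lit 186)) (XT.lf (nat_lit 84) (nat_lit 515751836) (nat_lit 0) (nat_lit 1698418109) (nat_lit 840) (nat_lit 1776208693) (nat_lit 165) (nat_lit 1) (nat_lit 164) (nat_lit 1) (nat_lit 174) (nat_lit 1) (nat_lit 203) (nat_lit 212) (nat_lit 185)))) (XT.nd (nat_lit 94) (nat_lit 1428) (nat_lit 0) (XT.lf (nat_lit 756) (nat_lit 1344328055) (nat_lit 0) (nat_lit 1813990335) (nat_lit 672) (nat_lit 773923784) (nat_lit 165) (nat_lit 1) (nat_lit 156) (nat_lit 1) (nat_lit 164) (nat_lit 1) (nat_lit 204) (nat_lit 212) (nat_lit 184)) (XT.nd (nat_lit 94) (nat_lit 756) (nat_lit 0) (XT.lf (nat_lit 756) (nat_lit 392130395) (nat_lit 0) (nat_lit 1439632656) (nat_lit 672) (nat_lit 2043520528) (nat_lit 157) (nat_lit 1) (nat_lit 148) (nat_lit 1) (nat_lit 156) (nat_lit 1) (nat_lit 205) (nat_lit 212) (nat_lit 183)) (XT.lf (nat_lit 84) (nat_lit 537606829) (nat_lit 0) (nat_lit 552166538) (nat_lit 756) (nat_lit 2729693183)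 (nat_lit 140) (nat_lit 1) (nat_lit 139) (nat_lit 1) (nat_lit 148) (nat_lit 1) (nat_lit 206) (nat_lit 212) (nat_lit 182)))))) (XT.nd (nat_lit 564) (nat_lit 1176) (nat_lit 0) (XT.nd (nat_lit 282) (nat_lit 1260) (nat_lit 0) (XT.nd (nat_lit 94) (nat_lit 1176) (nat_lit 0) (XT.lf (nat_lit 756) (nat_lit 2268994201) (nat_lit 0) (nat_lit 759256552) (nat_lit 672) (nat_lit 736421631) (nat_lit 140) (nat_lit 1) (nat_lit 131) (nat_lit 1) (nat_lit 139) (nat_lit 1) (nat_lit 207) (nat_lit 212) (nat_lit 181)) (XT.nd (nat_lit 94) (nat_lit 588) (nat_lit 0) (XT.lf (nat_lit 672) (nat_lit 1268994977) (nat_lit 0) (nat_lit 451544540) (nat_lit 588) (nat_lit 1990428477) (nat_lit 132) (nat_lit 1) (nat_lit 124) (nat_lit 1) (nat_lit 131) (nat_lit 1) (nat_lit 208) (nat_lit 212) (nat_lit 180)) (XT.lf (nat_lit 672) (nat_lit 271735119) (nat_lit 0) (nat_lit 169650318) (nat_lit 588) (nat_lit 3217025280) (nat_lit 125) (nat_lit 1) (nat_lit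 117) (nat_lit 1) (nat_lit 124) (nat_lit 1) (nat_lit 209) (nat_lit 212) (nat_lit 179)))) (XT.nd (nat_lit 94) (nat_lit 1176) (nat_lit 0) (XT.lf (nat_lit 84) (nat_lit 2791118942) (nat_lit 0) (nat_lit 718461691) (nat_lit 672) (nat_lit 97135948) (nat_lit 117) (nat_lit 1) (nat_lit 116) (nat_lit 1) (nat_lit 124) (nat_lit 1) (nat_lit 210) (nat_lit 212) (nat_lit 178)) (XT.nd (nat_lit 94) (nat_lit 588) (nat_lit 0) (XT.lf (nat_lit 84) (nat_lit 1507969876) (nat_lit 0) (nat_lit 1705258612) (nat_lit 672) (nat_lit 342755858) (nat_lit 110) (nat_lit 1) (nat_lit 109) (nat_lit 1) (nat_lit 117) (nat_lit 1) (nat_lit 211) (nat_lit 212) (nat_lit 177)) (XT.lf (nat_lit 84) (nat_lit 253190391) (nat_lit 0) (nat_lit 2687774451) (nat_lit 672) (nat_lit 565362899) (nat_lit 103) (nat_lit 1) (nat_lit 102) (nat_lit 1) (nat_lit 110) (nat_lit 1) (nat_lit 212) (nat_lit 212) (nat_lit 176))))) (XT.nd (nat_lit 34216) (nat_lit 0) (nat_lit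 16968) (XT.nd (nat_lit 94) (nat_lit 588) (nat_lit 0) (XT.lf (nat_lit 84) (nat_lit 2471143632) (nat_lit 0) (nat_lit 212030154) (nat_lit 588) (nat_lit 774358984) (nat_lit 96) (nat_lit 1) (nat_lit 95) (nat_lit 1) (nat_lit 102) (nat_lit 1) (nat_lit 213) (nat_lit 212) (nat_lit 175)) (XT.nd (nat_lit 34028) (nat_lit 0) (nat_lit 16968) (XT.lf (nat_lit 84) (nat_lit 1213621611) (nat_lit 0) (nat_lit 1226565627) (nat_lit 672) (nat_lit 969412430) (nat_lit 89) (nat_lit 1) (nat_lit 88) (nat_lit 1) (nat_lit 96) (nat_lit 1) (nat_lit 214) (nat_lit 212) (nat_lit 174)) (XT.lf (nat_lit 1932) (nat_lit 1068897734) (nat_lit 0) (nat_lit 1492834376) (nat_lit 1848) (nat_lit 3677351508) (nat_lit 313) (nat_lit 1) (nat_lit 290) (nat_lit 1) (nat_lit 312) (nat_lit 1) (nat_lit 175) (nat_lit 213) (nat_lit 212)))) (XT.nd (nat_lit 188) (nat_lit 0) (nat_lit 168) (XT.nd (nat_lit 94) (nat_lit 0) (nat_lit 84) (XT.lf (nat_lit 1932) (nat_lit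 4586946403) (nat_lit 84) (nat_lit 1273261368) (nat_lit 0) (nat_lit 273467026) (nat_lit 313) (nat_lit 1) (nat_lit 291) (nat_lit 1) (nat_lit 290) (nat_lit 1) (nat_lit 176) (nat_lit 213) (nat_lit 211)) (XT.lf (nat_lit 1932) (nat_lit 4373810691) (nat_lit 84) (nat_lit 45839237) (nat_lit 0) (nat_lit 1610905804) (nat_lit 314) (nat_lit 1) (nat_lit 292) (nat_lit 1) (nat_lit 291) (nat_lit 1) (nat_lit 177) (nat_lit 213) (nat_lit 210))) (XT.nd (nat_lit 94) (nat_lit 0) (nat_lit 84) (XT.lf (nat_lit 1932) (nat_lit 3010059169) (nat_lit 0) (nat_lit 1820604438) (nat_lit 1848) (nat_lit 1098993791) (nat_lit 315) (nat_lit 1) (nat_lit 292) (nat_lit 1) (nat_lit 314) (nat_lit 1) (nat_lit 178) (nat_lit 213) (nat_lit 209)) (XT.lf (nat_lit 1932) (nat_lit 1623359461) (nat_lit 0) (nat_lit 2027835815) (nat_lit 1848) (nat_lit 2179899720) (nat_lit 316) (nat_lit 1) (nat_lit 293) (nat_lit 1) (nat_lit 315) (nat_lit 1) (nat_lit 179) (nat_lit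 213) (nat_lit 208))))))) (XT.nd (nat_lit 1222) (nat_lit 9324) (nat_lit 0) (XT.nd (nat_lit 564) (nat_lit 4368) (nat_lit 0) (XT.nd (nat_lit 282) (nat_lit 0) (nat_lit 168) (XT.nd (nat_lit 94) (nat_lit 0) (nat_lit 0) (XT.lf (nat_lit 1932) (nat_lit 259218463) (nat_lit 0) (nat_lit 2275827969) (nat_lit 1848) (nat_lit 3199768281) (nat_lit 317) (nat_lit 1) (nat_lit 294) (nat_lit 1) (nat_lit 316) (nat_lit 1) (nat_lit 180) (nat_lit 213) (nat_lit 207)) (XT.nd (nat_lit 94) (nat_lit 0) (nat_lit 84) (XT.lf (nat_lit 1932) (nat_lit 3070373799) (nat_lit 84) (nat_lit 1472005244) (nat_lit 0) (nat_lit 1098206137) (nat_lit 317) (nat_lit 1) (nat_lit 295) (nat_lit 1) (nat_lit 294) (nat_lit 1) (nat_lit 181) (nat_lit 213) (nat_lit 206)) (XT.lf (nat_lit 1932) (nat_lit 2645712432) (nat_lit 84) (nat_lit 466172315) (nat_lit 0) (nat_lit 2436598523) (nat_lit 318) (nat_lit 1) (nat_lit 296) (nat_lit 1) (nat_lit 295) (nat_lit 1) (nat_lit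 182) (nat_lit 213) (nat_lit 205)))) (XT.nd (nat_lit 94) (nat_lit 0) (nat_lit 84) (XT.lf (nat_lit 1932) (nat_lit 1709701468) (nat_lit 0) (nat_lit 3273053423) (nat_lit 1848) (nat_lit 475663706) (nat_lit 319) (nat_lit 1) (nat_lit 296) (nat_lit 1) (nat_lit 318) (nat_lit 1) (nat_lit 183) (nat_lit 213) (nat_lit 204)) (XT.nd (nat_lit 94) (nat_lit 0) (nat_lit 0) (XT.lf (nat_lit 1932) (nat_lit 335189722) (nat_lit 0) (nat_lit 3678615350) (nat_lit 1848) (nat_lit 1356542896) (nat_lit 320) (nat_lit 1) (nat_lit 297) (nat_lit 1) (nat_lit 319) (nat_lit 1) (nat_lit 184) (nat_lit 213) (nat_lit 203)) (XT.lf (nat_lit 1932) (nat_lit 1162498660) (nat_lit 84) (nat_lit 3091695775) (nat_lit 0) (nat_lit 1029935429) (nat_lit 320) (nat_lit 1) (nat_lit 298) (nat_lit 1) (nat_lit 297) (nat_lit 1) (nat_lit 185) (nat_lit 213) (nat_lit 202))))) (XT.nd (nat_lit 282) (nat_lit 2940) (nat_lit 0) (XT.nd (nat_lit 94) (nat_lit 1764) (nat_lit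 0) (XT.lf (nat_lit 1932) (nat_lit 604576626) (nat_lit 84) (nat_lit 2219718821) (nat_lit 0) (nat_lit 2375529096) (nat_lit 321) (nat_lit 1) (nat_lit 299) (nat_lit 1) (nat_lit 298) (nat_lit 1) (nat_lit 186) (nat_lit 213) (nat_lit 201)) (XT.nd (nat_lit 94) (nat_lit 1848) (nat_lit 0) (XT.lf (nat_lit 1932) (nat_lit 22082777) (nat_lit 84) (nat_lit 1398501906) (nat_lit 0) (nat_lit 3696850363) (nat_lit 322) (nat_lit 1) (nat_lit 300) (nat_lit 1) (nat_lit 299) (nat_lit 1) (nat_lit 187) (nat_lit 213) (nat_lit 200)) (XT.lf (nat_lit 84) (nat_lit 47000089) (nat_lit 0) (nat_lit 575008688) (nat_lit 1932) (nat_lit 4414812318) (nat_lit 278) (nat_lit 1) (nat_lit 277) (nat_lit 1) (nat_lit 300) (nat_lit 1) (nat_lit 188) (nat_lit 213) (nat_lit 199)))) (XT.nd (nat_lit 188) (nat_lit 1848) (nat_lit 0) (XT.nd (nat_lit 94) (nat_lit 1092) (nat_lit 0) (XT.lf (nat_lit 84) (nat_lit 3639111179) (nat_lit 0) (nat_lit 1203202482) (nat_lit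 1932) (nat_lit 115480990) (nat_lit 278) (nat_lit 1) (nat_lit 277) (nat_lit 1) (nat_lit 300) (nat_lit 1) (nat_lit 189) (nat_lit 213) (nat_lit 198)) (XT.lf (nat_lit 84) (nat_lit 2225614358) (nat_lit 0) (nat_lit 1855425573) (nat_lit 1176) (nat_lit 799404671) (nat_lit 265) (nat_lit 1) (nat_lit 264) (nat_lit 1) (nat_lit 278) (nat_lit 1) (nat_lit 190) (nat_lit 213) (nat_lit 197))) (XT.nd (nat_lit 94) (nat_lit 924) (nat_lit 0) (XT.lf (nat_lit 84) (nat_lit 839301166) (nat_lit 0) (nat_lit 2525559487) (nat_lit 1008) (nat_lit 1439970337) (nat_lit 254) (nat_lit 1) (nat_lit 253) (nat_lit 1) (nat_lit 265) (nat_lit 1) (nat_lit 191) (nat_lit 213) (nat_lit 196)) (XT.lf (nat_lit 1008) (nat_lit 1514751468) (nat_lit 0) (nat_lit 2688349716) (nat_lit 924) (nat_lit 527726204) (nat_lit 254) (nat_lit 1) (nat_lit 242) (nat_lit 1) (nat_lit 253) (nat_lit 1) (nat_lit 192) (nat_lit 213) (nat_lit 195)))))) (XT.nd (nat_lit 564) (nat_lit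 5124) (nat_lit 0) (XT.nd (nat_lit 282) (nat_lit 1596) (nat_lit 0) (XT.nd (nat_lit 94) (nat_lit 1764) (nat_lit 0) (XT.lf (nat_lit 924) (nat_lit 730486681) (nat_lit 0) (nat_lit 2047812019) (nat_lit 840) (nat_lit 1880046062) (nat_lit 243) (nat_lit 1) (nat_lit 232) (nat_lit 1) (nat_lit 242) (nat_lit 1) (nat_lit 193) (nat_lit 213) (nat_lit 194)) (XT.nd (nat_lit 94) (nat_lit 840) (nat_lit 0) (XT.lf (nat_lit 84) (nat_lit 1382241494) (nat_lit 0) (nat_lit 65236161) (nat_lit 924) (nat_lit 3139987135) (nat_lit 222) (nat_lit 1) (nat_lit 221) (nat_lit 1) (nat_lit 232) (nat_lit 1) (nat_lit 194) (nat_lit 213) (nat_lit 193)) (XT.lf (nat_lit 84) (nat_lit 19385343) (nat_lit 0) (nat_lit 861602588) (nat_lit 924) (nat_lit 3637053403) (nat_lit 212) (nat_lit 1) (nat_lit 211) (nat_lit 1) (nat_lit 222) (nat_lit 1) (nat_lit 195) (nat_lit 213) (nat_lit 192)))) (XT.nd (nat_lit 94) (nat_lit 756) (nat_lit 0) (XT.lf (nat_lit 924)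 (nat_lit 2772316390) (nat_lit 0) (nat_lit 342554618) (nat_lit 840) (nat_lit 1335069641) (nat_lit 212) (nat_lit 1) (nat_lit 201) (nat_lit 1) (nat_lit 211) (nat_lit 1) (nat_lit 196) (nat_lit 213) (nat_lit 191)) (XT.nd (nat_lit 94) (nat_lit 756) (nat_lit 0) (XT.lf (nat_lit 84) (nat_lit 1722322116) (nat_lit 0) (nat_lit 2503896078) (nat_lit 924) (nat_lit 157092100) (nat_lit 202) (nat_lit 1) (nat_lit 201) (nat_lit 1) (nat_lit 212) (nat_lit 1) (nat_lit 197) (nat_lit 213) (nat_lit 190)) (XT.lf (nat_lit 84) (nat_lit 360705879) (nat_lit 0) (nat_lit 3340404561) (nat_lit 840) (nat_lit 616982779) (nat_lit 193) (nat_lit 1) (nat_lit 192) (nat_lit 1) (nat_lit 202) (nat_lit 1) (nat_lit 198) (nat_lit 213) (nat_lit 189))))) (XT.nd (nat_lit 282) (nat_lit 2772) (nat_lit 0) (XT.nd (nat_lit 94) (nat_lit 1596) (nat_lit 0) (XT.lf (nat_lit 840) (nat_lit 63286523) (nat_lit 0) (nat_lit 3203826457) (nat_lit 756) (nat_lit 987039283)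 (nat_lit 193) (nat_lit 1) (nat_lit 183) (nat_lit 1) (nat_lit 192) (nat_lit 1) (nat_lit 199) (nat_lit 213) (nat_lit 188)) (XT.nd (nat_lit 94) (nat_lit 756) (nat_lit 0) (XT.lf (nat_lit 84) (nat_lit 1885698736) (nat_lit 0) (nat_lit 845905760) (nat_lit 840) (nat_lit 1459814973) (nat_lit 174) (nat_lit 1) (nat_lit 173) (nat_lit 1) (nat_lit 183) (nat_lit 1) (nat_lit 200) (nat_lit 213) (nat_lit 187)) (XT.lf (nat_lit 84) (nat_lit 533803150) (nat_lit 0) (nat_lit 1757862742) (nat_lit 840) (nat_lit 1838375998) (nat_lit 165) (nat_lit 1) (nat_lit 164) (nat_lit 1) (nat_lit 174) (nat_lit 1) (nat_lit 201) (nat_lit 213) (nat_lit 186)))) (XT.nd (nat_lit 188) (nat_lit 1428) (nat_lit 0) (XT.nd (nat_lit 94) (nat_lit 672) (nat_lit 0) (XT.lf (nat_lit 756) (nat_lit 1391379537) (nat_lit 0) (nat_lit 1877479997) (nat_lit 672) (nat_lit 801011117) (nat_lit 165) (nat_lit 1) (nat_lit 156) (nat_lit 1) (nat_lit 164) (nat_lit 1) (nat_lit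 202) (nat_lit 213) (nat_lit 185)) (XT.lf (nat_lit 756) (nat_lit 405854959) (nat_lit 0) (nat_lit 1490019799) (nat_lit 672) (nat_lit 2115043747) (nat_lit 157) (nat_lit 1) (nat_lit 148) (nat_lit 1) (nat_lit 156) (nat_lit 1) (nat_lit 203) (nat_lit 213) (nat_lit 184))) (XT.nd (nat_lit 94) (nat_lit 672) (nat_lit 0) (XT.lf (nat_lit 84) (nat_lit 556423068) (nat_lit 0) (nat_lit 571492367) (nat_lit 756) (nat_lit 2825232445) (nat_lit 140) (nat_lit 1) (nat_lit 139) (nat_lit 1) (nat_lit 148) (nat_lit 1) (nat_lit 204) (nat_lit 213) (nat_lit 183)) (XT.lf (nat_lit 756) (nat_lit 2348408998) (nat_lit 0) (nat_lit 785830531) (nat_lit 672) (nat_lit 762196389) (nat_lit 140) (nat_lit 1) (nat_lit 131) (nat_lit 1) (nat_lit 139) (nat_lit 1) (nat_lit 205) (nat_lit 213) (nat_lit 182))))))))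
noncomputable def ec10 : XT := (XT.nd (nat_lit 36190) (nat_lit 1092) (nat_lit 0) (XT.nd (nat_lit 34968) (nat_lit 0) (nat_lit 14364) (XT.nd (nat_lit 564) (nat_lit 1092) (nat_lit 0) (XT.nd (nat_lit 282) (nat_lit 1764) (nat_lit 0) (XT.nd (nat_lit 94) (nat_lit 672) (nat_lit 0) (XT.lf (nat_lit 672) (nat_lit 1313409802) (nat_lit 0) (nat_lit 467348599) (nat_lit 588) (nat_lit 2060093474) (nat_lit 132) (nat_lit 1) (nat_lit 124) (nat_lit 1) (nat_lit 131) (nat_lit 1) (nat_lit 206) (nat_lit 213) (nat_lit 181)) (XT.nd (nat_lit 94) (nat_lit 84) (nat_lit 0) (XT.lf (nat_lit 672) (nat_lit 281245848) (nat_lit 0) (nat_lit 175588079) (nat_lit 588) (nat_lit 3329621165) (nat_lit 125) (nat_lit 1) (nat_lit 117) (nat_lit 1) (nat_lit 124) (nat_lit 1) (nat_lit 207) (nat_lit 213) (nat_lit 180)) (XT.lf (nat_lit 84) (nat_lit 2888808105) (nat_lit 0) (nat_lit 743607850) (nat_lit 672) (nat_lit 100535706) (nat_lit 117) (nat_lit 1) (nat_lit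 116) (nat_lit 1) (nat_lit 124) (nat_lit 1) (nat_lit 208) (nat_lit 213) (nat_lit 179)))) (XT.nd (nat_lit 94) (nat_lit 1176) (nat_lit 0) (XT.lf (nat_lit 84) (nat_lit 1560748822) (nat_lit 0) (nat_lit 1764942664) (nat_lit 672) (nat_lit 354752313) (nat_lit 110) (nat_lit 1) (nat_lit 109) (nat_lit 1) (nat_lit 117) (nat_lit 1) (nat_lit 209) (nat_lit 213) (nat_lit 178)) (XT.nd (nat_lit 94) (nat_lit 588) (nat_lit 0) (XT.lf (nat_lit 84) (nat_lit 262052055) (nat_lit 0) (nat_lit 2781846557) (nat_lit 672) (nat_lit 585150600) (nat_lit 103) (nat_lit 1) (nat_lit 102) (nat_lit 1) (nat_lit 110) (nat_lit 1) (nat_lit 210) (nat_lit 213) (nat_lit 177)) (XT.lf (nat_lit 84) (nat_lit 2557633659) (nat_lit 0) (nat_lit 219451210) (nat_lit 588) (nat_lit 801461548) (nat_lit 96) (nat_lit 1) (nat_lit 95) (nat_lit 1) (nat_lit 102) (nat_lit 1) (nat_lit 211) (nat_lit 213) (nat_lit 176))))) (XT.nd (nat_lit 34122) (nat_lit 0) (nat_lit 17472)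 (XT.nd (nat_lit 94) (nat_lit 504) (nat_lit 0) (XT.lf (nat_lit 84) (nat_lit 1256098367) (nat_lit 0) (nat_lit 1269495424) (nat_lit 672) (nat_lit 1003341866) (nat_lit 89) (nat_lit 1) (nat_lit 88) (nat_lit 1) (nat_lit 96) (nat_lit 1) (nat_lit 212) (nat_lit 213) (nat_lit 175)) (XT.nd (nat_lit 33934) (nat_lit 0) (nat_lit 17472) (XT.lf (nat_lit 588) (nat_lit 1167310447) (nat_lit 0) (nat_lit 2296587957) (nat_lit 504) (nat_lit 16465652) (nat_lit 89) (nat_lit 1) (nat_lit 82) (nat_lit 1) (nat_lit 88) (nat_lit 1) (nat_lit 213) (nat_lit 213) (nat_lit 174)) (XT.lf (nat_lit 1932) (nat_lit 1106309155) (nat_lit 0) (nat_lit 1545083579) (nat_lit 1848) (nat_lit 3806058810) (nat_lit 313) (nat_lit 1) (nat_lit 290) (nat_lit 1) (nat_lit 312) (nat_lit 1) (nat_lit 173) (nat_lit 214) (nat_lit 213)))) (XT.nd (nat_lit 94) (nat_lit 0) (nat_lit 84) (XT.lf (nat_lit 1932) (nat_lit 4747489527) (nat_lit 84) (nat_lit 1317825516) (nat_lit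 0) (nat_lit 283038372) (nat_lit 313) (nat_lit 1) (nat_lit 291) (nat_lit 1) (nat_lit 290) (nat_lit 1) (nat_lit 174) (nat_lit 214) (nat_lit 212)) (XT.nd (nat_lit 94) (nat_lit 0) (nat_lit 84) (XT.lf (nat_lit 1932) (nat_lit 4526894066) (nat_lit 84) (nat_lit 47443611) (nat_lit 0) (nat_lit 1667287507) (nat_lit 314) (nat_lit 1) (nat_lit 292) (nat_lit 1) (nat_lit 291) (nat_lit 1) (nat_lit 175) (nat_lit 214) (nat_lit 211)) (XT.lf (nat_lit 1932) (nat_lit 3115411240) (nat_lit 0) (nat_lit 1884325593) (nat_lit 1848) (nat_lit 1137458574) (nat_lit 315) (nat_lit 1) (nat_lit 292) (nat_lit 1) (nat_lit 314) (nat_lit 1) (nat_lit 176) (nat_lit 214) (nat_lit 210)))))) (XT.nd (nat_lit 564) (nat_lit 3360) (nat_lit 0) (XT.nd (nat_lit 282) (nat_lit 0) (nat_lit 168) (XT.nd (nat_lit 94) (nat_lit 0) (nat_lit 84) (XT.lf (nat_lit 1932) (nat_lit 1680177042) (nat_lit 0) (nat_lit 2098810068) (nat_lit 1848) (nat_lit 2256196210) (nat_lit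 316) (nat_lit 1) (nat_lit 293) (nat_lit 1) (nat_lit 315) (nat_lit 1) (nat_lit 177) (nat_lit 214) (nat_lit 209)) (XT.nd (nat_lit 94) (nat_lit 0) (nat_lit 0) (XT.lf (nat_lit 1932) (nat_lit 268291109) (nat_lit 0) (nat_lit 2355481947) (nat_lit 1848) (nat_lit 3311760171) (nat_lit 317) (nat_lit 1) (nat_lit 294) (nat_lit 1) (nat_lit 316) (nat_lit 1) (nat_lit 178) (nat_lit 214) (nat_lit 208)) (XT.lf (nat_lit 1932) (nat_lit 3177836882) (nat_lit 84) (nat_lit 1523525427) (nat_lit 0) (nat_lit 1136643352) (nat_lit 317) (nat_lit 1) (nat_lit 295) (nat_lit 1) (nat_lit 294) (nat_lit 1) (nat_lit 179) (nat_lit 214) (nat_lit 207)))) (XT.nd (nat_lit 94) (nat_lit 0) (nat_lit 84) (XT.lf (nat_lit 1932) (nat_lit 2738312367) (nat_lit 84) (nat_lit 482488346) (nat_lit 0) (nat_lit 2521879471) (nat_lit 318) (nat_lit 1) (nat_lit 296) (nat_lit 1) (nat_lit 295) (nat_lit 1) (nat_lit 180) (nat_lit 214) (nat_lit 206)) (XT.nd (nat_lit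 94) (nat_lit 0) (nat_lit 84) (XT.lf (nat_lit 1932) (nat_lit 1769541019) (nat_lit 0) (nat_lit 3387610293) (nat_lit 1848) (nat_lit 492311936) (nat_lit 319) (nat_lit 1) (nat_lit 296) (nat_lit 1) (nat_lit 318) (nat_lit 1) (nat_lit 181) (nat_lit 214) (nat_lit 205)) (XT.lf (nat_lit 1932) (nat_lit 346921362) (nat_lit 0) (nat_lit 3807366888) (nat_lit 1848) (nat_lit 1404021898) (nat_lit 320) (nat_lit 1) (nat_lit 297) (nat_lit 1) (nat_lit 319) (nat_lit 1) (nat_lit 182) (nat_lit 214) (nat_lit 204))))) (XT.nd (nat_lit 282) (nat_lit 3696) (nat_lit 0) (XT.nd (nat_lit 94) (nat_lit 0) (nat_lit 84) (XT.lf (nat_lit 1932) (nat_lit 1203186114) (nat_lit 84) (nat_lit 3199905128) (nat_lit 0) (nat_lit 1065983169) (nat_lit 320) (nat_lit 1) (nat_lit 298) (nat_lit 1) (nat_lit 297) (nat_lit 1) (nat_lit 183) (nat_lit 214) (nat_lit 203)) (XT.nd (nat_lit 94) (nat_lit 0) (nat_lit 84) (XT.lf (nat_lit 1932) (nat_lit 625736808) (nat_lit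 84) (nat_lit 2297408980) (nat_lit 0) (nat_lit 2458672614) (nat_lit 321) (nat_lit 1) (nat_lit 299) (nat_lit 1) (nat_lit 298) (nat_lit 1) (nat_lit 184) (nat_lit 214) (nat_lit 202)) (XT.lf (nat_lit 1932) (nat_lit 22855675) (nat_lit 84) (nat_lit 1447449473) (nat_lit 0) (nat_lit 3826240125) (nat_lit 322) (nat_lit 1) (nat_lit 300) (nat_lit 1) (nat_lit 299) (nat_lit 1) (nat_lit 185) (nat_lit 214) (nat_lit 201)))) (XT.nd (nat_lit 188) (nat_lit 2016) (nat_lit 0) (XT.nd (nat_lit 94) (nat_lit 0) (nat_lit 0) (XT.lf (nat_lit 84) (nat_lit 48645092) (nat_lit 0) (nat_lit 595133992) (nat_lit 1932) (nat_lit 4569330749) (nat_lit 278) (nat_lit 1) (nat_lit 277) (nat_lit 1) (nat_lit 300) (nat_lit 1) (nat_lit 186) (nat_lit 214) (nat_lit 200)) (XT.lf (nat_lit 84) (nat_lit 3766480070) (nat_lit 0) (nat_lit 1245314569) (nat_lit 1932) (nat_lit 119522824) (nat_lit 278) (nat_lit 1) (nat_lit 277) (nat_lit 1) (nat_lit 300) (nat_lit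 1) (nat_lit 187) (nat_lit 214) (nat_lit 199))) (XT.nd (nat_lit 94) (nat_lit 924) (nat_lit 0) (XT.lf (nat_lit 84) (nat_lit 2303510861) (nat_lit 0) (nat_lit 1920365468) (nat_lit 1176) (nat_lit 827383835) (nat_lit 265) (nat_lit 1) (nat_lit 264) (nat_lit 1) (nat_lit 278) (nat_lit 1) (nat_lit 188) (nat_lit 214) (nat_lit 198)) (XT.lf (nat_lit 84) (nat_lit 868676706) (nat_lit 0) (nat_lit 2613954069) (nat_lit 1008) (nat_lit 1490369299) (nat_lit 254) (nat_lit 1) (nat_lit 253) (nat_lit 1) (nat_lit 265) (nat_lit 1) (nat_lit 189) (nat_lit 214) (nat_lit 197))))))) (XT.nd (nat_lit 1222) (nat_lit 5880) (nat_lit 0) (XT.nd (nat_lit 564) (nat_lit 5208) (nat_lit 0) (XT.nd (nat_lit 282) (nat_lit 1680) (nat_lit 0) (XT.nd (nat_lit 94) (nat_lit 1764) (nat_lit 0) (XT.lf (nat_lit 1008) (nat_lit 1567767769) (nat_lit 0) (nat_lit 2782441957) (nat_lit 924) (nat_lit 546196622) (nat_lit 254) (nat_lit 1) (nat_lit 242) (nat_lit 1)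 (nat_lit 253) (nat_lit 1) (nat_lit 190) (nat_lit 214) (nat_lit 196)) (XT.nd (nat_lit 94) (nat_lit 924) (nat_lit 0) (XT.lf (nat_lit 924) (nat_lit 756053715) (nat_lit 0) (nat_lit 2119485440) (nat_lit 840) (nat_lit 1945847674) (nat_lit 243) (nat_lit 1) (nat_lit 232) (nat_lit 1) (nat_lit 242) (nat_lit 1) (nat_lit 191) (nat_lit 214) (nat_lit 195)) (XT.lf (nat_lit 84) (nat_lit 1430619947) (nat_lit 0) (nat_lit 67519427) (nat_lit 924) (nat_lit 3249886685) (nat_lit 222) (nat_lit 1) (nat_lit 221) (nat_lit 1) (nat_lit 232) (nat_lit 1) (nat_lit 192) (nat_lit 214) (nat_lit 194)))) (XT.nd (nat_lit 94) (nat_lit 840) (nat_lit 0) (XT.lf (nat_lit 84) (nat_lit 20063830) (nat_lit 0) (nat_lit 891758679) (nat_lit 924) (nat_lit 3764350272) (nat_lit 212) (nat_lit 1) (nat_lit 211) (nat_lit 1) (nat_lit 222) (nat_lit 1) (nat_lit 193) (nat_lit 214) (nat_lit 193)) (XT.nd (nat_lit 94) (nat_lit 0) (nat_lit 0) (XT.lf (nat_lit 924)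 (nat_lit 2869347464) (nat_lit 0) (nat_lit 354544029) (nat_lit 840) (nat_lit 1381797079) (nat_lit 212) (nat_lit 1) (nat_lit 201) (nat_lit 1) (nat_lit 211) (nat_lit 1) (nat_lit 194) (nat_lit 214) (nat_lit 192)) (XT.lf (nat_lit 84) (nat_lit 1782603390) (nat_lit 0) (nat_lit 2591532441) (nat_lit 924) (nat_lit 162590324) (nat_lit 202) (nat_lit 1) (nat_lit 201) (nat_lit 1) (nat_lit 212) (nat_lit 1) (nat_lit 195) (nat_lit 214) (nat_lit 191))))) (XT.nd (nat_lit 282) (nat_lit 2856) (nat_lit 0) (XT.nd (nat_lit 94) (nat_lit 1596) (nat_lit 0) (XT.lf (nat_lit 84) (nat_lit 373330585) (nat_lit 0) (nat_lit 3457318721) (nat_lit 840) (nat_lit 638577176) (nat_lit 193) (nat_lit 1) (nat_lit 192) (nat_lit 1) (nat_lit 202) (nat_lit 1) (nat_lit 196) (nat_lit 214) (nat_lit 190)) (XT.nd (nat_lit 94) (nat_lit 840) (nat_lit 0) (XT.lf (nat_lit 840) (nat_lit 65501552) (nat_lit 0) (nat_lit 3315960383) (nat_lit 756) (nat_lit 1021585658)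 (nat_lit 193) (nat_lit 1) (nat_lit 183) (nat_lit 1) (nat_lit 192) (nat_lit 1) (nat_lit 197) (nat_lit 214) (nat_lit 189)) (XT.lf (nat_lit 84) (nat_lit 1951698192) (nat_lit 0) (nat_lit 875512461) (nat_lit 840) (nat_lit 1510908498) (nat_lit 174) (nat_lit 1) (nat_lit 173) (nat_lit 1) (nat_lit 183) (nat_lit 1) (nat_lit 198) (nat_lit 214) (nat_lit 188)))) (XT.nd (nat_lit 188) (nat_lit 1428) (nat_lit 0) (XT.nd (nat_lit 94) (nat_lit 672) (nat_lit 0) (XT.lf (nat_lit 84) (nat_lit 552486260) (nat_lit 0) (nat_lit 1819387938) (nat_lit 840) (nat_lit 1902719158) (nat_lit 165) (nat_lit 1) (nat_lit 164) (nat_lit 1) (nat_lit 174) (nat_lit 1) (nat_lit 199) (nat_lit 214) (nat_lit 187)) (XT.lf (nat_lit 756) (nat_lit 1440077820) (nat_lit 0) (nat_lit 1943191796) (nat_lit 672) (nat_lit 829046506) (nat_lit 165) (nat_lit 1) (nat_lit 156) (nat_lit 1) (nat_lit 164) (nat_lit 1) (nat_lit 200) (nat_lit 214) (nat_lit 186))) (XT.nd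 (nat_lit 94) (nat_lit 756) (nat_lit 0) (XT.lf (nat_lit 756) (nat_lit 420059882) (nat_lit 0) (nat_lit 1542170492) (nat_lit 672) (nat_lit 2189070278) (nat_lit 157) (nat_lit 1) (nat_lit 148) (nat_lit 1) (nat_lit 156) (nat_lit 1) (nat_lit 201) (nat_lit 214) (nat_lit 185)) (XT.lf (nat_lit 84) (nat_lit 575897875) (nat_lit 0) (nat_lit 591494600) (nat_lit 756) (nat_lit 2924115580) (nat_lit 140) (nat_lit 1) (nat_lit 139) (nat_lit 1) (nat_lit 148) (nat_lit 1) (nat_lit 202) (nat_lit 214) (nat_lit 184)))))) (XT.nd (nat_lit 564) (nat_lit 2772) (nat_lit 0) (XT.nd (nat_lit 282) (nat_lit 1260) (nat_lit 0) (XT.nd (nat_lit 94) (nat_lit 1176) (nat_lit 0) (XT.lf (nat_lit 756) (nat_lit 2430603313) (nat_lit 0) (nat_lit 813334600) (nat_lit 672) (nat_lit 788873262) (nat_lit 140) (nat_lit 1) (nat_lit 131) (nat_lit 1) (nat_lit 139) (nat_lit 1) (nat_lit 203) (nat_lit 214) (nat_lit 183)) (XT.nd (nat_lit 94) (nat_lit 588) (nat_lit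 0) (XT.lf (nat_lit 672) (nat_lit 1359379145) (nat_lit 0) (nat_lit 483705800) (nat_lit 588) (nat_lit 2132196745) (nat_lit 132) (nat_lit 1) (nat_lit 124) (nat_lit 1) (nat_lit 131) (nat_lit 1) (nat_lit 204) (nat_lit 214) (nat_lit 182)) (XT.lf (nat_lit 672) (nat_lit 291089453) (nat_lit 0) (nat_lit 181733662) (nat_lit 588) (nat_lit 3446157906) (nat_lit 125) (nat_lit 1) (nat_lit 117) (nat_lit 1) (nat_lit 124) (nat_lit 1) (nat_lit 205) (nat_lit 214) (nat_lit 181)))) (XT.nd (nat_lit 94) (nat_lit 1176) (nat_lit 0) (XT.lf (nat_lit 84) (nat_lit 2989916388) (nat_lit 0) (nat_lit 769634125) (nat_lit 672) (nat_lit 104054456) (nat_lit 117) (nat_lit 1) (nat_lit 116) (nat_lit 1) (nat_lit 124) (nat_lit 1) (nat_lit 206) (nat_lit 214) (nat_lit 180)) (XT.nd (nat_lit 94) (nat_lit 588) (nat_lit 0) (XT.lf (nat_lit 84) (nat_lit 1615375030) (nat_lit 0) (nat_lit 1826715657) (nat_lit 672) (nat_lit 367168644) (nat_lit 110) (nat_lit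 1) (nat_lit 109) (nat_lit 1) (nat_lit 117) (nat_lit 1) (nat_lit 207) (nat_lit 214) (nat_lit 179)) (XT.lf (nat_lit 84) (nat_lit 271223877) (nat_lit 0) (nat_lit 2879211186) (nat_lit 672) (nat_lit 605630871) (nat_lit 103) (nat_lit 1) (nat_lit 102) (nat_lit 1) (nat_lit 110) (nat_lit 1) (nat_lit 208) (nat_lit 214) (nat_lit 178))))) (XT.nd (nat_lit 282) (nat_lit 1092) (nat_lit 0) (XT.nd (nat_lit 94) (nat_lit 1092) (nat_lit 0) (XT.lf (nat_lit 84) (nat_lit 2647150837) (nat_lit 0) (nat_lit 227132002) (nat_lit 588) (nat_lit 829512702) (nat_lit 96) (nat_lit 1) (nat_lit 95) (nat_lit 1) (nat_lit 102) (nat_lit 1) (nat_lit 209) (nat_lit 214) (nat_lit 177)) (XT.nd (nat_lit 94) (nat_lit 504) (nat_lit 0) (XT.lf (nat_lit 84) (nat_lit 1300061810) (nat_lit 0) (nat_lit 1313927764) (nat_lit 672) (nat_lit 1038458831) (nat_lit 89) (nat_lit 1) (nat_lit 88) (nat_lit 1) (nat_lit 96) (nat_lit 1) (nat_lit 210) (nat_lit 214) (nat_lit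 176)) (XT.lf (nat_lit 588) (nat_lit 1208166312) (nat_lit 0) (nat_lit 2376968535) (nat_lit 504) (nat_lit 17041950) (nat_lit 89) (nat_lit 1) (nat_lit 82) (nat_lit 1) (nat_lit 88) (nat_lit 1) (nat_lit 211) (nat_lit 214) (nat_lit 175)))) (XT.nd (nat_lit 33840) (nat_lit 0) (nat_lit 18564) (XT.nd (nat_lit 94) (nat_lit 588) (nat_lit 0) (XT.lf (nat_lit 588) (nat_lit 76594734) (nat_lit 0) (nat_lit 2153122956) (nat_lit 504) (nat_lit 1323038467) (nat_lit 83) (nat_lit 1) (nat_lit 76) (nat_lit 1) (nat_lit 82) (nat_lit 1) (nat_lit 212) (nat_lit 214) (nat_lit 174)) (XT.lf (nat_lit 84) (nat_lit 912333640) (nat_lit 0) (nat_lit 1031289001) (nat_lit 588) (nat_lit 1560581896) (nat_lit 70) (nat_lit 1) (nat_lit 69) (nat_lit 1) (nat_lit 76) (nat_lit 1) (nat_lit 213) (nat_lit 214) (nat_lit 173))) (XT.nd (nat_lit 94) (nat_lit 0) (nat_lit 0) (XT.lf (nat_lit 1932) (nat_lit 1145029975) (nat_lit 0) (nat_lit 1599161504) (nat_lit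 1848) (nat_lit 3939270869) (nat_lit 313) (nat_lit 1) (nat_lit 290) (nat_lit 1) (nat_lit 312) (nat_lit 1) (nat_lit 171) (nat_lit 215) (nat_lit 214)) (XT.lf (nat_lit 1932) (nat_lit 4913651660) (nat_lit 84) (nat_lit 1363949409) (nat_lit 0) (nat_lit 292944715) (nat_lit 313) (nat_lit 1) (nat_lit 291) (nat_lit 1) (nat_lit 290) (nat_lit 1) (nat_lit 172) (nat_lit 215) (nat_lit 213))))))))
noncomputable def ec11 : XT := (XT.nd (nat_lit 2350) (nat_lit 8484) (nat_lit 0) (XT.nd (nat_lit 1128) (nat_lit 9492) (nat_lit 0) (XT.nd (nat_lit 564) (nat_lit 1176) (nat_lit 0) (XT.nd (nat_lit 282) (nat_lit 0) (nat_lit 252) (XT.nd (nat_lit 94) (nat_lit 0) (nat_lit 84) (XT.lf (nat_lit 1932) (nat_lit 4685335358) (nat_lit 84) (nat_lit 49104137) (nat_lit 0) (nat_lit 1725642570) (nat_lit 314) (nat_lit 1) (nat_lit 292) (nat_lit 1) (nat_lit 291) (nat_lit 1) (nat_lit 173) (nat_lit 215) (nat_lit 212)) (XT.nd (nat_lit 94) (nat_lit 0)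 (nat_lit 84) (XT.lf (nat_lit 1932) (nat_lit 3224450633) (nat_lit 0) (nat_lit 1950276989) (nat_lit 1848) (nat_lit 1177269624) (nat_lit 315) (nat_lit 1) (nat_lit 292) (nat_lit 1) (nat_lit 314) (nat_lit 1) (nat_lit 174) (nat_lit 215) (nat_lit 211)) (XT.lf (nat_lit 1932) (nat_lit 1738983239) (nat_lit 0) (nat_lit 2172268421) (nat_lit 1848) (nat_lit 2335163078) (nat_lit 316) (nat_lit 1) (nat_lit 293) (nat_lit 1) (nat_lit 315) (nat_lit 1) (nat_lit 175) (nat_lit 215) (nat_lit 210)))) (XT.nd (nat_lit 94) (nat_lit 0) (nat_lit 0) (XT.lf (nat_lit 1932) (nat_lit 277681298) (nat_lit 0) (nat_lit 2437923816) (nat_lit 1848) (nat_lit 3427671777) (nat_lit 317) (nat_lit 1) (nat_lit 294) (nat_lit 1) (nat_lit 316) (nat_lit 1) (nat_lit 176) (nat_lit 215) (nat_lit 209)) (XT.nd (nat_lit 94) (nat_lit 0) (nat_lit 84) (XT.lf (nat_lit 1932) (nat_lit 3289061173) (nat_lit 84) (nat_lit 1576848817) (nat_lit 0) (nat_lit 1176425869)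 (nat_lit 317) (nat_lit 1) (nat_lit 295) (nat_lit 1) (nat_lit 294) (nat_lit 1) (nat_lit 177) (nat_lit 215) (nat_lit 208)) (XT.lf (nat_lit 1932) (nat_lit 2834153300) (nat_lit 84) (nat_lit 499375438) (nat_lit 0) (nat_lit 2610145253) (nat_lit 318) (nat_lit 1) (nat_lit 296) (nat_lit 1) (nat_lit 295) (nat_lit 1) (nat_lit 178) (nat_lit 215) (nat_lit 207))))) (XT.nd (nat_lit 282) (nat_lit 1596) (nat_lit 0) (XT.nd (nat_lit 94) (nat_lit 0) (nat_lit 84) (XT.lf (nat_lit 1932) (nat_lit 1831474955) (nat_lit 0) (nat_lit 3506176653) (nat_lit 1848) (nat_lit 509542854) (nat_lit 319) (nat_lit 1) (nat_lit 296) (nat_lit 1) (nat_lit 318) (nat_lit 1) (nat_lit 179) (nat_lit 215) (nat_lit 206)) (XT.nd (nat_lit 94) (nat_lit 0) (nat_lit 0) (XT.lf (nat_lit 1932) (nat_lit 359063610) (nat_lit 0) (nat_lit 3940624729) (nat_lit 1848) (nat_lit 1453162664) (nat_lit 320) (nat_lit 1) (nat_lit 297) (nat_lit 1) (nat_lit 319) (nat_lit 1)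 (nat_lit 180) (nat_lit 215) (nat_lit 205)) (XT.lf (nat_lit 1932) (nat_lit 1245297628) (nat_lit 84) (nat_lit 3311901807) (nat_lit 0) (nat_lit 1103292580) (nat_lit 320) (nat_lit 1) (nat_lit 298) (nat_lit 1) (nat_lit 297) (nat_lit 1) (nat_lit 181) (nat_lit 215) (nat_lit 204)))) (XT.nd (nat_lit 94) (nat_lit 1764) (nat_lit 0) (XT.lf (nat_lit 1932) (nat_lit 647637596) (nat_lit 84) (nat_lit 2377818295) (nat_lit 0) (nat_lit 2544726156) (nat_lit 321) (nat_lit 1) (nat_lit 299) (nat_lit 1) (nat_lit 298) (nat_lit 1) (nat_lit 182) (nat_lit 215) (nat_lit 203)) (XT.nd (nat_lit 94) (nat_lit 1848) (nat_lit 0) (XT.lf (nat_lit 1932) (nat_lit 23655623) (nat_lit 84) (nat_lit 1498110204) (nat_lit 0) (nat_lit 3960158530) (nat_lit 322) (nat_lit 1) (nat_lit 300) (nat_lit 1) (nat_lit 299) (nat_lit 1) (nat_lit 183) (nat_lit 215) (nat_lit 202)) (XT.lf (nat_lit 84) (nat_lit 50347671) (nat_lit 0) (nat_lit 615963682) (nat_lit 1932)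 (nat_lit 4729257326) (nat_lit 278) (nat_lit 1) (nat_lit 277) (nat_lit 1) (nat_lit 300) (nat_lit 1) (nat_lit 184) (nat_lit 215) (nat_lit 201)))))) (XT.nd (nat_lit 564) (nat_lit 4788) (nat_lit 0) (XT.nd (nat_lit 282) (nat_lit 2688) (nat_lit 0) (XT.nd (nat_lit 94) (nat_lit 2016) (nat_lit 0) (XT.lf (nat_lit 84) (nat_lit 3898306873) (nat_lit 0) (nat_lit 1288900579) (nat_lit 1932) (nat_lit 123706123) (nat_lit 278) (nat_lit 1) (nat_lit 277) (nat_lit 1) (nat_lit 300) (nat_lit 1) (nat_lit 185) (nat_lit 215) (nat_lit 200)) (XT.nd (nat_lit 94) (nat_lit 924) (nat_lit 0) (XT.lf (nat_lit 84) (nat_lit 2384133741) (nat_lit 0) (nat_lit 1987578260) (nat_lit 1176) (nat_lit 856342269) (nat_lit 265) (nat_lit 1) (nat_lit 264) (nat_lit 1) (nat_lit 278) (nat_lit 1) (nat_lit 186) (nat_lit 215) (nat_lit 199)) (XT.lf (nat_lit 84) (nat_lit 899080391) (nat_lit 0) (nat_lit 2705442461) (nat_lit 1008) (nat_lit 1542532224) (nat_lit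 254) (nat_lit 1) (nat_lit 253) (nat_lit 1) (nat_lit 265) (nat_lit 1) (nat_lit 187) (nat_lit 215) (nat_lit 198)))) (XT.nd (nat_lit 94) (nat_lit 1764) (nat_lit 0) (XT.lf (nat_lit 1008) (nat_lit 1622639641) (nat_lit 0) (nat_lit 2879827425) (nat_lit 924) (nat_lit 565313503) (nat_lit 254) (nat_lit 1) (nat_lit 242) (nat_lit 1) (nat_lit 253) (nat_lit 1) (nat_lit 188) (nat_lit 215) (nat_lit 197)) (XT.nd (nat_lit 94) (nat_lit 924) (nat_lit 0) (XT.lf (nat_lit 924) (nat_lit 782515595) (nat_lit 0) (nat_lit 2193667430) (nat_lit 840) (nat_lit 2013952343) (nat_lit 243) (nat_lit 1) (nat_lit 232) (nat_lit 1) (nat_lit 242) (nat_lit 1) (nat_lit 189) (nat_lit 215) (nat_lit 196)) (XT.lf (nat_lit 84) (nat_lit 1480691645) (nat_lit 0) (nat_lit 69882607) (nat_lit 924) (nat_lit 3363632719) (nat_lit 222) (nat_lit 1) (nat_lit 221) (nat_lit 1) (nat_lit 232) (nat_lit 1) (nat_lit 190) (nat_lit 215) (nat_lit 195))))) (XT.nd (nat_lit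 282) (nat_lit 3108) (nat_lit 0) (XT.nd (nat_lit 94) (nat_lit 840) (nat_lit 0) (XT.lf (nat_lit 84) (nat_lit 20766064) (nat_lit 0) (nat_lit 922970233) (nat_lit 924) (nat_lit 3896102531) (nat_lit 212) (nat_lit 1) (nat_lit 211) (nat_lit 1) (nat_lit 222) (nat_lit 1) (nat_lit 191) (nat_lit 215) (nat_lit 194)) (XT.nd (nat_lit 94) (nat_lit 0) (nat_lit 0) (XT.lf (nat_lit 924) (nat_lit 2969774625) (nat_lit 0) (nat_lit 366953070) (nat_lit 840) (nat_lit 1430159976) (nat_lit 212) (nat_lit 1) (nat_lit 201) (nat_lit 1) (nat_lit 211) (nat_lit 1) (nat_lit 192) (nat_lit 215) (nat_lit 193)) (XT.lf (nat_lit 84) (nat_lit 1844994509) (nat_lit 0) (nat_lit 2682236076) (nat_lit 924) (nat_lit 168280985) (nat_lit 202) (nat_lit 1) (nat_lit 201) (nat_lit 1) (nat_lit 212) (nat_lit 1) (nat_lit 193) (nat_lit 215) (nat_lit 192)))) (XT.nd (nat_lit 188) (nat_lit 1596) (nat_lit 0) (XT.nd (nat_lit 94) (nat_lit 756) (nat_lit 0) (XT.lf (nat_lit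 84) (nat_lit 386397156) (nat_lit 0) (nat_lit 3578324876) (nat_lit 840) (nat_lit 660927377) (nat_lit 193) (nat_lit 1) (nat_lit 192) (nat_lit 1) (nat_lit 202) (nat_lit 1) (nat_lit 194) (nat_lit 215) (nat_lit 191)) (XT.lf (nat_lit 840) (nat_lit 67794106) (nat_lit 0) (nat_lit 3432018996) (nat_lit 756) (nat_lit 1057341156) (nat_lit 193) (nat_lit 1) (nat_lit 183) (nat_lit 1) (nat_lit 192) (nat_lit 1) (nat_lit 195) (nat_lit 215) (nat_lit 190))) (XT.nd (nat_lit 94) (nat_lit 756) (nat_lit 0) (XT.lf (nat_lit 84) (nat_lit 2020007629) (nat_lit 0) (nat_lit 906155398) (nat_lit 840) (nat_lit 1563790295) (nat_lit 174) (nat_lit 1) (nat_lit 173) (nat_lit 1) (nat_lit 183) (nat_lit 1) (nat_lit 196) (nat_lit 215) (nat_lit 189)) (XT.lf (nat_lit 84) (nat_lit 571823280) (nat_lit 0) (nat_lit 1883066516) (nat_lit 840) (nat_lit 1969314328) (nat_lit 165) (nat_lit 1) (nat_lit 164) (nat_lit 1) (nat_lit 174) (nat_lit 1) (nat_lit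 197) (nat_lit 215) (nat_lit 188))))))) (XT.nd (nat_lit 1222) (nat_lit 1092) (nat_lit 0) (XT.nd (nat_lit 564) (nat_lit 3444) (nat_lit 0) (XT.nd (nat_lit 282) (nat_lit 1848) (nat_lit 0) (XT.nd (nat_lit 94) (nat_lit 1428) (nat_lit 0) (XT.lf (nat_lit 756) (nat_lit 1490480544) (nat_lit 0) (nat_lit 2011203509) (nat_lit 672) (nat_lit 858063134) (nat_lit 165) (nat_lit 1) (nat_lit 156) (nat_lit 1) (nat_lit 164) (nat_lit 1) (nat_lit 198) (nat_lit 215) (nat_lit 187)) (XT.nd (nat_lit 94) (nat_lit 756) (nat_lit 0) (XT.lf (nat_lit 756) (nat_lit 434761978) (nat_lit 0) (nat_lit 1596146459) (nat_lit 672) (nat_lit 2265687738) (nat_lit 157) (nat_lit 1) (nat_lit 148) (nat_lit 1) (nat_lit 156) (nat_lit 1) (nat_lit 199) (nat_lit 215) (nat_lit 186)) (XT.lf (nat_lit 84) (nat_lit 596054301) (nat_lit 0) (nat_lit 612196911) (nat_lit 756) (nat_lit 3026459626) (nat_lit 140) (nat_lit 1) (nat_lit 139) (nat_lit 1) (nat_lit 148) (nat_lit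 1) (nat_lit 200) (nat_lit 215) (nat_lit 185)))) (XT.nd (nat_lit 94) (nat_lit 1176) (nat_lit 0) (XT.lf (nat_lit 756) (nat_lit 2515674429) (nat_lit 0) (nat_lit 841801311) (nat_lit 672) (nat_lit 816483826) (nat_lit 140) (nat_lit 1) (nat_lit 131) (nat_lit 1) (nat_lit 139) (nat_lit 1) (nat_lit 201) (nat_lit 215) (nat_lit 184)) (XT.nd (nat_lit 94) (nat_lit 588) (nat_lit 0) (XT.lf (nat_lit 672) (nat_lit 1406957415) (nat_lit 0) (nat_lit 500635503) (nat_lit 588) (nat_lit 2206823631) (nat_lit 132) (nat_lit 1) (nat_lit 124) (nat_lit 1) (nat_lit 131) (nat_lit 1) (nat_lit 202) (nat_lit 215) (nat_lit 183)) (XT.lf (nat_lit 672) (nat_lit 301277584) (nat_lit 0) (nat_lit 188094340) (nat_lit 588) (nat_lit 3566773433) (nat_lit 125) (nat_lit 1) (nat_lit 117) (nat_lit 1) (nat_lit 124) (nat_lit 1) (nat_lit 203) (nat_lit 215) (nat_lit 182))))) (XT.nd (nat_lit 282) (nat_lit 2184) (nat_lit 0) (XT.nd (nat_lit 94) (nat_lit 1176)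 (nat_lit 0) (XT.lf (nat_lit 84) (nat_lit 3094563462) (nat_lit 0) (nat_lit 796571319) (nat_lit 672) (nat_lit 107696362) (nat_lit 117) (nat_lit 1) (nat_lit 116) (nat_lit 1) (nat_lit 124) (nat_lit 1) (nat_lit 204) (nat_lit 215) (nat_lit 181)) (XT.nd (nat_lit 94) (nat_lit 588) (nat_lit 0) (XT.lf (nat_lit 84) (nat_lit 1671913157) (nat_lit 0) (nat_lit 1890650705) (nat_lit 672) (nat_lit 380019547) (nat_lit 110) (nat_lit 1) (nat_lit 109) (nat_lit 1) (nat_lit 117) (nat_lit 1) (nat_lit 205) (nat_lit 215) (nat_lit 180)) (XT.lf (nat_lit 84) (nat_lit 280716712) (nat_lit 0) (nat_lit 2979983578) (nat_lit 672) (nat_lit 626827952) (nat_lit 103) (nat_lit 1) (nat_lit 102) (nat_lit 1) (nat_lit 110) (nat_lit 1) (nat_lit 206) (nat_lit 215) (nat_lit 179)))) (XT.nd (nat_lit 188) (nat_lit 1008) (nat_lit 0) (XT.nd (nat_lit 94) (nat_lit 588) (nat_lit 0) (XT.lf (nat_lit 84) (nat_lit 2739801116) (nat_lit 0) (nat_lit 235081622)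 (nat_lit 588) (nat_lit 858545647) (nat_lit 96) (nat_lit 1) (nat_lit 95) (nat_lit 1) (nat_lit 102) (nat_lit 1) (nat_lit 207) (nat_lit 215) (nat_lit 178)) (XT.lf (nat_lit 84) (nat_lit 1345563973) (nat_lit 0) (nat_lit 1359915236) (nat_lit 672) (nat_lit 1074804890) (nat_lit 89) (nat_lit 1) (nat_lit 88) (nat_lit 1) (nat_lit 96) (nat_lit 1) (nat_lit 208) (nat_lit 215) (nat_lit 177))) (XT.nd (nat_lit 94) (nat_lit 504) (nat_lit 0) (XT.lf (nat_lit 588) (nat_lit 1250452133) (nat_lit 0) (nat_lit 2460162434) (nat_lit 504) (nat_lit 17638418) (nat_lit 89) (nat_lit 1) (nat_lit 82) (nat_lit 1) (nat_lit 88) (nat_lit 1) (nat_lit 209) (nat_lit 215) (nat_lit 176)) (XT.lf (nat_lit 588) (nat_lit 79275549) (nat_lit 0) (nat_lit 2228482259) (nat_lit 504) (nat_lit 1369344814) (nat_lit 83) (nat_lit 1) (nat_lit 76) (nat_lit 1) (nat_lit 82) (nat_lit 1) (nat_lit 210) (nat_lit 215) (nat_lit 175)))))) (XT.nd (nat_lit 34310) (nat_lit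 0) (nat_lit 19404) (XT.nd (nat_lit 34028) (nat_lit 0) (nat_lit 19236) (XT.nd (nat_lit 94) (nat_lit 504) (nat_lit 0) (XT.lf (nat_lit 84) (nat_lit 944265317) (nat_lit 0) (nat_lit 1067384116) (nat_lit 588) (nat_lit 1615202262) (nat_lit 70) (nat_lit 1) (nat_lit 69) (nat_lit 1) (nat_lit 76) (nat_lit 1) (nat_lit 211) (nat_lit 215) (nat_lit 174)) (XT.nd (nat_lit 33840) (nat_lit 0) (nat_lit 19152) (XT.lf (nat_lit 588) (nat_lit 1370877223) (nat_lit 0) (nat_lit 1813356057) (nat_lit 504) (nat_lit 393339120) (nat_lit 70) (nat_lit 1) (nat_lit 63) (nat_lit 1) (nat_lit 69) (nat_lit 1) (nat_lit 212) (nat_lit 215) (nat_lit 173)) (XT.lf (nat_lit 1932) (nat_lit 4849322095) (nat_lit 84) (nat_lit 50822782) (nat_lit 0) (nat_lit 1786040060) (nat_lit 314) (nat_lit 1) (nat_lit 292) (nat_lit 1) (nat_lit 291) (nat_lit 1) (nat_lit 171) (nat_lit 216) (nat_lit 213)))) (XT.nd (nat_lit 94) (nat_lit 0) (nat_lit 84) (XT.lf (nat_lit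 1932) (nat_lit 3337306405) (nat_lit 0) (nat_lit 2018536684) (nat_lit 1848) (nat_lit 1218474061) (nat_lit 315) (nat_lit 1) (nat_lit 292) (nat_lit 1) (nat_lit 314) (nat_lit 1) (nat_lit 172) (nat_lit 216) (nat_lit 212)) (XT.nd (nat_lit 94) (nat_lit 0) (nat_lit 84) (XT.lf (nat_lit 1932) (nat_lit 1799847652) (nat_lit 0) (nat_lit 2248297815) (nat_lit 1848) (nat_lit 2416893786) (nat_lit 316) (nat_lit 1) (nat_lit 293) (nat_lit 1) (nat_lit 315) (nat_lit 1) (nat_lit 173) (nat_lit 216) (nat_lit 211)) (XT.lf (nat_lit 1932) (nat_lit 287400143) (nat_lit 0) (nat_lit 2523251149) (nat_lit 1848) (nat_lit 3547640289) (nat_lit 317) (nat_lit 1) (nat_lit 294) (nat_lit 1) (nat_lit 316) (nat_lit 1) (nat_lit 174) (nat_lit 216) (nat_lit 210))))) (XT.nd (nat_lit 282) (nat_lit 0) (nat_lit 252) (XT.nd (nat_lit 94) (nat_lit 0) (nat_lit 84) (XT.lf (nat_lit 1932) (nat_lit 3404178314) (nat_lit 84) (nat_lit 1632038526) (nat_lit 0) (nat_lit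 1217600775) (nat_lit 317) (nat_lit 1) (nat_lit 295) (nat_lit 1) (nat_lit 294) (nat_lit 1) (nat_lit 175) (nat_lit 216) (nat_lit 209)) (XT.nd (nat_lit 94) (nat_lit 0) (nat_lit 84) (XT.lf (nat_lit 1932) (nat_lit 2933348665) (nat_lit 84) (nat_lit 516853578) (nat_lit 0) (nat_lit 2701500337) (nat_lit 318) (nat_lit 1) (nat_lit 296) (nat_lit 1) (nat_lit 295) (nat_lit 1) (nat_lit 176) (nat_lit 216) (nat_lit 208)) (XT.lf (nat_lit 1932) (nat_lit 1895576578) (nat_lit 0) (nat_lit 3628892836) (nat_lit 1848) (nat_lit 527376854) (nat_lit 319) (nat_lit 1) (nat_lit 296) (nat_lit 1) (nat_lit 318) (nat_lit 1) (nat_lit 177) (nat_lit 216) (nat_lit 207)))) (XT.nd (nat_lit 188) (nat_lit 0) (nat_lit 84) (XT.nd (nat_lit 94) (nat_lit 0) (nat_lit 0) (XT.lf (nat_lit 1932) (nat_lit 371630836) (nat_lit 0) (nat_lit 4078546594) (nat_lit 1848) (nat_lit 1504023357) (nat_lit 320) (nat_lit 1) (nat_lit 297) (nat_lit 1) (nat_lit 319) (nat_lit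 1) (nat_lit 178) (nat_lit 216) (nat_lit 206)) (XT.lf (nat_lit 1932) (nat_lit 1288883045) (nat_lit 84) (nat_lit 3427818370) (nat_lit 0) (nat_lit 1141907820) (nat_lit 320) (nat_lit 1) (nat_lit 298) (nat_lit 1) (nat_lit 297) (nat_lit 1) (nat_lit 179) (nat_lit 216) (nat_lit 205))) (XT.nd (nat_lit 94) (nat_lit 0) (nat_lit 84) (XT.lf (nat_lit 1932) (nat_lit 670304912) (nat_lit 84) (nat_lit 2461041935) (nat_lit 0) (nat_lit 2633791571) (nat_lit 321) (nat_lit 1) (nat_lit 299) (nat_lit 1) (nat_lit 298) (nat_lit 1) (nat_lit 180) (nat_lit 216) (nat_lit 204)) (XT.lf (nat_lit 1932) (nat_lit 24483570) (nat_lit 84) (nat_lit 1550544062) (nat_lit 0) (nat_lit 4098764078) (nat_lit 322) (nat_lit 1) (nat_lit 300) (nat_lit 1) (nat_lit 299) (nat_lit 1) (nat_lit 181) (nat_lit 216) (nat_lit 203))))))))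
noncomputable def ec12 : XT := (XT.nd (nat_lit 2350) (nat_lit 2520) (nat_lit 0) (XT.nd (nat_lit 1128) (nat_lit 7980) (nat_lit 0) (XT.nd (nat_lit 564) (nat_lit 4116) (nat_lit 0) (XT.nd (nat_lit 282) (nat_lit 2688) (nat_lit 0) (XT.nd (nat_lit 94) (nat_lit 1092) (nat_lit 0) (XT.lf (nat_lit 84) (nat_lit 52109839) (nat_lit 0) (nat_lit 637522410) (nat_lit 1932) (nat_lit 4894781332) (nat_lit 278) (nat_lit 1) (nat_lit 277) (nat_lit 1) (nat_lit 300) (nat_lit 1) (nat_lit 182) (nat_lit 216) (nat_lit 202)) (XT.nd (nat_lit 94) (nat_lit 1092) (nat_lit 0) (XT.lf (nat_lit 84) (nat_lit 4034747613) (nat_lit 0) (nat_lit 1334012099) (nat_lit 1932) (nat_lit 128035838) (nat_lit 278) (nat_lit 1) (nat_lit 277) (nat_lit 1) (nat_lit 300) (nat_lit 1) (nat_lit 183) (nat_lit 216) (nat_lit 201)) (XT.lf (nat_lit 84) (nat_lit 2467578422) (nat_lit 0) (nat_lit 2057143499) (nat_lit 1176) (nat_lit 886314249) (nat_lit 265) (nat_lit 1)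 (nat_lit 264) (nat_lit 1) (nat_lit 278) (nat_lit 1) (nat_lit 184) (nat_lit 216) (nat_lit 200)))) (XT.nd (nat_lit 94) (nat_lit 1764) (nat_lit 0) (XT.lf (nat_lit 84) (nat_lit 930548205) (nat_lit 0) (nat_lit 2800132947) (nat_lit 1008) (nat_lit 1596520852) (nat_lit 254) (nat_lit 1) (nat_lit 253) (nat_lit 1) (nat_lit 265) (nat_lit 1) (nat_lit 185) (nat_lit 216) (nat_lit 199)) (XT.nd (nat_lit 94) (nat_lit 840) (nat_lit 0) (XT.lf (nat_lit 1008) (nat_lit 1679432029) (nat_lit 0) (nat_lit 2980621385) (nat_lit 924) (nat_lit 585099476) (nat_lit 254) (nat_lit 1) (nat_lit 242) (nat_lit 1) (nat_lit 253) (nat_lit 1) (nat_lit 186) (nat_lit 216) (nat_lit 198)) (XT.lf (nat_lit 924) (nat_lit 809903641) (nat_lit 0) (nat_lit 2270445790) (nat_lit 840) (nat_lit 2084440675) (nat_lit 243) (nat_lit 1) (nat_lit 232) (nat_lit 1) (nat_lit 242) (nat_lit 1) (nat_lit 187) (nat_lit 216) (nat_lit 197))))) (XT.nd (nat_lit 282) (nat_lit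 1512) (nat_lit 0) (XT.nd (nat_lit 94) (nat_lit 1680) (nat_lit 0) (XT.lf (nat_lit 84) (nat_lit 1532515852) (nat_lit 0) (nat_lit 72328498) (nat_lit 924) (nat_lit 3481359864) (nat_lit 222) (nat_lit 1) (nat_lit 221) (nat_lit 1) (nat_lit 232) (nat_lit 1) (nat_lit 188) (nat_lit 216) (nat_lit 196)) (XT.nd (nat_lit 94) (nat_lit 840) (nat_lit 0) (XT.lf (nat_lit 84) (nat_lit 21492876) (nat_lit 0) (nat_lit 955274191) (nat_lit 924) (nat_lit 4032466120) (nat_lit 212) (nat_lit 1) (nat_lit 211) (nat_lit 1) (nat_lit 222) (nat_lit 1) (nat_lit 189) (nat_lit 216) (nat_lit 195)) (XT.lf (nat_lit 924) (nat_lit 3073716737) (nat_lit 0) (nat_lit 379796428) (nat_lit 840) (nat_lit 1480215576) (nat_lit 212) (nat_lit 1) (nat_lit 201) (nat_lit 1) (nat_lit 211) (nat_lit 1) (nat_lit 190) (nat_lit 216) (nat_lit 194)))) (XT.nd (nat_lit 94) (nat_lit 1512) (nat_lit 0) (XT.lf (nat_lit 84) (nat_lit 1909569316) (nat_lit 0) (nat_lit 2776114339)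 (nat_lit 924) (nat_lit 174170820) (nat_lit 202) (nat_lit 1) (nat_lit 201) (nat_lit 1) (nat_lit 212) (nat_lit 1) (nat_lit 191) (nat_lit 216) (nat_lit 193)) (XT.nd (nat_lit 94) (nat_lit 756) (nat_lit 0) (XT.lf (nat_lit 84) (nat_lit 399921056) (nat_lit 0) (nat_lit 3703566247) (nat_lit 840) (nat_lit 684059835) (nat_lit 193) (nat_lit 1) (nat_lit 192) (nat_lit 1) (nat_lit 202) (nat_lit 1) (nat_lit 192) (nat_lit 216) (nat_lit 192)) (XT.lf (nat_lit 840) (nat_lit 70166900) (nat_lit 0) (nat_lit 3552139661) (nat_lit 756) (nat_lit 1094348096) (nat_lit 193) (nat_lit 1) (nat_lit 183) (nat_lit 1) (nat_lit 192) (nat_lit 1) (nat_lit 193) (nat_lit 216) (nat_lit 191)))))) (XT.nd (nat_lit 564) (nat_lit 3612) (nat_lit 0) (XT.nd (nat_lit 282) (nat_lit 2100) (nat_lit 0) (XT.nd (nat_lit 94) (nat_lit 1428) (nat_lit 0) (XT.lf (nat_lit 84) (nat_lit 2090707896) (nat_lit 0) (nat_lit 937870837) (nat_lit 840) (nat_lit 1618522955)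 (nat_lit 174) (nat_lit 1) (nat_lit 173) (nat_lit 1) (nat_lit 183) (nat_lit 1) (nat_lit 194) (nat_lit 216) (nat_lit 190)) (XT.nd (nat_lit 94) (nat_lit 672) (nat_lit 0) (XT.lf (nat_lit 84) (nat_lit 591837094) (nat_lit 0) (nat_lit 1948973844) (nat_lit 840) (nat_lit 2038240330) (nat_lit 165) (nat_lit 1) (nat_lit 164) (nat_lit 1) (nat_lit 174) (nat_lit 1) (nat_lit 195) (nat_lit 216) (nat_lit 189)) (XT.lf (nat_lit 756) (nat_lit 1542647363) (nat_lit 0) (nat_lit 2081595632) (nat_lit 672) (nat_lit 888095343) (nat_lit 165) (nat_lit 1) (nat_lit 156) (nat_lit 1) (nat_lit 164) (nat_lit 1) (nat_lit 196) (nat_lit 216) (nat_lit 188)))) (XT.nd (nat_lit 94) (nat_lit 1428) (nat_lit 0) (XT.lf (nat_lit 756) (nat_lit 449978648) (nat_lit 0) (nat_lit 1652011585) (nat_lit 672) (nat_lit 2344986808) (nat_lit 157) (nat_lit 1) (nat_lit 148) (nat_lit 1) (nat_lit 156) (nat_lit 1) (nat_lit 197) (nat_lit 216) (nat_lit 187)) (XT.nd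 (nat_lit 94) (nat_lit 672) (nat_lit 0) (XT.lf (nat_lit 84) (nat_lit 616916201) (nat_lit 0) (nat_lit 633623803) (nat_lit 756) (nat_lit 3132385712) (nat_lit 140) (nat_lit 1) (nat_lit 139) (nat_lit 1) (nat_lit 148) (nat_lit 1) (nat_lit 198) (nat_lit 216) (nat_lit 186)) (XT.lf (nat_lit 756) (nat_lit 2603723034) (nat_lit 0) (nat_lit 871264356) (nat_lit 672) (nat_lit 845060760) (nat_lit 140) (nat_lit 1) (nat_lit 131) (nat_lit 1) (nat_lit 139) (nat_lit 1) (nat_lit 199) (nat_lit 216) (nat_lit 185))))) (XT.nd (nat_lit 282) (nat_lit 2352) (nat_lit 0) (XT.nd (nat_lit 94) (nat_lit 672) (nat_lit 0) (XT.lf (nat_lit 672) (nat_lit 1456200924) (nat_lit 0) (nat_lit 518157745) (nat_lit 588) (nat_lit 2284062459) (nat_lit 132) (nat_lit 1) (nat_lit 124) (nat_lit 1) (nat_lit 131) (nat_lit 1) (nat_lit 200) (nat_lit 216) (nat_lit 184)) (XT.nd (nat_lit 94) (nat_lit 84) (nat_lit 0) (XT.lf (nat_lit 672) (nat_lit 311822299) (nat_lit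 0) (nat_lit 194677642) (nat_lit 588) (nat_lit 3691610503) (nat_lit 125) (nat_lit 1) (nat_lit 117) (nat_lit 1) (nat_lit 124) (nat_lit 1) (nat_lit 201) (nat_lit 216) (nat_lit 183)) (XT.lf (nat_lit 84) (nat_lit 3202873183) (nat_lit 0) (nat_lit 824451315) (nat_lit 672) (nat_lit 111465734) (nat_lit 117) (nat_lit 1) (nat_lit 116) (nat_lit 1) (nat_lit 124) (nat_lit 1) (nat_lit 202) (nat_lit 216) (nat_lit 182)))) (XT.nd (nat_lit 188) (nat_lit 1176) (nat_lit 0) (XT.nd (nat_lit 94) (nat_lit 588) (nat_lit 0) (XT.lf (nat_lit 84) (nat_lit 1730430117) (nat_lit 0) (nat_lit 1956823480) (nat_lit 672) (nat_lit 393320231) (nat_lit 110) (nat_lit 1) (nat_lit 109) (nat_lit 1) (nat_lit 117) (nat_lit 1) (nat_lit 203) (nat_lit 216) (nat_lit 181)) (XT.lf (nat_lit 84) (nat_lit 290541797) (nat_lit 0) (nat_lit 3084283003) (nat_lit 672) (nat_lit 648766930) (nat_lit 103) (nat_lit 1) (nat_lit 102) (nat_lit 1) (nat_lit 110) (nat_lit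 1) (nat_lit 204) (nat_lit 216) (nat_lit 180))) (XT.nd (nat_lit 94) (nat_lit 588) (nat_lit 0) (XT.lf (nat_lit 84) (nat_lit 2835694155) (nat_lit 0) (nat_lit 243309479) (nat_lit 588) (nat_lit 888594745) (nat_lit 96) (nat_lit 1) (nat_lit 95) (nat_lit 1) (nat_lit 102) (nat_lit 1) (nat_lit 205) (nat_lit 216) (nat_lit 179)) (XT.lf (nat_lit 84) (nat_lit 1392658712) (nat_lit 0) (nat_lit 1407512269) (nat_lit 672) (nat_lit 1112423061) (nat_lit 89) (nat_lit 1) (nat_lit 88) (nat_lit 1) (nat_lit 96) (nat_lit 1) (nat_lit 206) (nat_lit 216) (nat_lit 178))))))) (XT.nd (nat_lit 35062) (nat_lit 0) (nat_lit 10500) (XT.nd (nat_lit 34404) (nat_lit 0) (nat_lit 19824) (XT.nd (nat_lit 282) (nat_lit 924) (nat_lit 0) (XT.nd (nat_lit 94) (nat_lit 1092) (nat_lit 0) (XT.lf (nat_lit 588) (nat_lit 1294217958) (nat_lit 0) (nat_lit 2546268119) (nat_lit 504) (nat_lit 18255763) (nat_lit 89) (nat_lit 1) (nat_lit 82) (nat_lit 1) (nat_lit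 88) (nat_lit 1) (nat_lit 207) (nat_lit 216) (nat_lit 177)) (XT.nd (nat_lit 94) (nat_lit 588) (nat_lit 0) (XT.lf (nat_lit 588) (nat_lit 82050194) (nat_lit 0) (nat_lit 2306479138) (nat_lit 504) (nat_lit 1417271882) (nat_lit 83) (nat_lit 1) (nat_lit 76) (nat_lit 1) (nat_lit 82) (nat_lit 1) (nat_lit 208) (nat_lit 216) (nat_lit 176)) (XT.lf (nat_lit 84) (nat_lit 977314603) (nat_lit 0) (nat_lit 1104742560) (nat_lit 588) (nat_lit 1671734341) (nat_lit 70) (nat_lit 1) (nat_lit 69) (nat_lit 1) (nat_lit 76) (nat_lit 1) (nat_lit 209) (nat_lit 216) (nat_lit 175)))) (XT.nd (nat_lit 94) (nat_lit 420) (nat_lit 0) (XT.lf (nat_lit 588) (nat_lit 1418857926) (nat_lit 0) (nat_lit 1876823519) (nat_lit 504) (nat_lit 407105989) (nat_lit 70) (nat_lit 1) (nat_lit 63) (nat_lit 1) (nat_lit 69) (nat_lit 1) (nat_lit 210) (nat_lit 216) (nat_lit 174)) (XT.nd (nat_lit 33934) (nat_lit 0) (nat_lit 19740) (XT.lf (nat_lit 504) (nat_lit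 192270525) (nat_lit 0) (nat_lit 1686534085) (nat_lit 420) (nat_lit 1773885588) (nat_lit 64) (nat_lit 1) (nat_lit 58) (nat_lit 1) (nat_lit 63) (nat_lit 1) (nat_lit 211) (nat_lit 216) (nat_lit 173)) (XT.lf (nat_lit 1932) (nat_lit 1862842320) (nat_lit 0) (nat_lit 2326988239) (nat_lit 1848) (nat_lit 2501485068) (nat_lit 316) (nat_lit 1) (nat_lit 293) (nat_lit 1) (nat_lit 315) (nat_lit 1) (nat_lit 171) (nat_lit 217) (nat_lit 212))))) (XT.nd (nat_lit 282) (nat_lit 0) (nat_lit 168) (XT.nd (nat_lit 94) (nat_lit 0) (nat_lit 0) (XT.lf (nat_lit 1932) (nat_lit 297459149) (nat_lit 0) (nat_lit 2611564939) (nat_lit 1848) (nat_lit 3671807699) (nat_lit 317) (nat_lit 1) (nat_lit 294) (nat_lit 1) (nat_lit 316) (nat_lit 1) (nat_lit 172) (nat_lit 217) (nat_lit 211)) (XT.nd (nat_lit 94) (nat_lit 0) (nat_lit 84) (XT.lf (nat_lit 1932) (nat_lit 3523324555) (nat_lit 84) (nat_lit 1689159874) (nat_lit 0) (nat_lit 1260216802) (nat_lit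 317) (nat_lit 1) (nat_lit 295) (nat_lit 1) (nat_lit 294) (nat_lit 1) (nat_lit 173) (nat_lit 217) (nat_lit 210)) (XT.lf (nat_lit 1932) (nat_lit 3036015869) (nat_lit 84) (nat_lit 534943454) (nat_lit 0) (nat_lit 2796052849) (nat_lit 318) (nat_lit 1) (nat_lit 296) (nat_lit 1) (nat_lit 295) (nat_lit 1) (nat_lit 174) (nat_lit 217) (nat_lit 209)))) (XT.nd (nat_lit 188) (nat_lit 0) (nat_lit 84) (XT.nd (nat_lit 94) (nat_lit 0) (nat_lit 84) (XT.lf (nat_lit 1932) (nat_lit 1961921758) (nat_lit 0) (nat_lit 3755904085) (nat_lit 1848) (nat_lit 545835044) (nat_lit 319) (nat_lit 1) (nat_lit 296) (nat_lit 1) (nat_lit 318) (nat_lit 1) (nat_lit 175) (nat_lit 217) (nat_lit 208)) (XT.lf (nat_lit 1932) (nat_lit 384637915) (nat_lit 0) (nat_lit 4221295725) (nat_lit 1848) (nat_lit 1556664175) (nat_lit 320) (nat_lit 1) (nat_lit 297) (nat_lit 1) (nat_lit 319) (nat_lit 1) (nat_lit 176) (nat_lit 217) (nat_lit 207))) (XT.nd (nat_lit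 94) (nat_lit 0) (nat_lit 84) (XT.lf (nat_lit 1932) (nat_lit 1333993951) (nat_lit 84) (nat_lit 3547792013) (nat_lit 0) (nat_lit 1181874594) (nat_lit 320) (nat_lit 1) (nat_lit 298) (nat_lit 1) (nat_lit 297) (nat_lit 1) (nat_lit 177) (nat_lit 217) (nat_lit 206)) (XT.lf (nat_lit 1932) (nat_lit 693765584) (nat_lit 84) (nat_lit 2547178403) (nat_lit 0) (nat_lit 2725974276) (nat_lit 321) (nat_lit 1) (nat_lit 299) (nat_lit 1) (nat_lit 298) (nat_lit 1) (nat_lit 178) (nat_lit 217) (nat_lit 205)))))) (XT.nd (nat_lit 564) (nat_lit 4956) (nat_lit 0) (XT.nd (nat_lit 282) (nat_lit 2940) (nat_lit 0) (XT.nd (nat_lit 94) (nat_lit 1848) (nat_lit 0) (XT.lf (nat_lit 1932) (nat_lit 25340495) (nat_lit 84) (nat_lit 1604813104) (nat_lit 0) (nat_lit 4242220821) (nat_lit 322) (nat_lit 1) (nat_lit 300) (nat_lit 1) (nat_lit 299) (nat_lit 1) (nat_lit 179) (nat_lit 217) (nat_lit 204)) (XT.nd (nat_lit 94) (nat_lit 0) (nat_lit 0) (XT.lf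 (nat_lit 84) (nat_lit 53933683) (nat_lit 0) (nat_lit 659835695) (nat_lit 1932) (nat_lit 5066098679) (nat_lit 278) (nat_lit 1) (nat_lit 277) (nat_lit 1) (nat_lit 300) (nat_lit 1) (nat_lit 180) (nat_lit 217) (nat_lit 203)) (XT.lf (nat_lit 84) (nat_lit 4175963780) (nat_lit 0) (nat_lit 1380702523) (nat_lit 1932) (nat_lit 132517092) (nat_lit 278) (nat_lit 1) (nat_lit 277) (nat_lit 1) (nat_lit 300) (nat_lit 1) (nat_lit 181) (nat_lit 217) (nat_lit 202)))) (XT.nd (nat_lit 94) (nat_lit 1848) (nat_lit 0) (XT.lf (nat_lit 84) (nat_lit 2553943667) (nat_lit 0) (nat_lit 2129143521) (nat_lit 1176) (nat_lit 917335247) (nat_lit 265) (nat_lit 1) (nat_lit 264) (nat_lit 1) (nat_lit 278) (nat_lit 1) (nat_lit 182) (nat_lit 217) (nat_lit 201)) (XT.nd (nat_lit 94) (nat_lit 924) (nat_lit 0) (XT.lf (nat_lit 84) (nat_lit 963117392) (nat_lit 0) (nat_lit 2898137601) (nat_lit 1008) (nat_lit 1652399082) (nat_lit 254) (nat_lit 1) (nat_lit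 253) (nat_lit 1) (nat_lit 265) (nat_lit 1) (nat_lit 183) (nat_lit 217) (nat_lit 200)) (XT.lf (nat_lit 1008) (nat_lit 1738212150) (nat_lit 0) (nat_lit 3084943133) (nat_lit 924) (nat_lit 605577958) (nat_lit 254) (nat_lit 1) (nat_lit 242) (nat_lit 1) (nat_lit 253) (nat_lit 1) (nat_lit 184) (nat_lit 217) (nat_lit 199))))) (XT.nd (nat_lit 282) (nat_lit 2352) (nat_lit 0) (XT.nd (nat_lit 94) (nat_lit 1764) (nat_lit 0) (XT.lf (nat_lit 924) (nat_lit 838250268) (nat_lit 0) (nat_lit 2349911393) (nat_lit 840) (nat_lit 2157396099) (nat_lit 243) (nat_lit 1) (nat_lit 232) (nat_lit 1) (nat_lit 242) (nat_lit 1) (nat_lit 185) (nat_lit 217) (nat_lit 198)) (XT.nd (nat_lit 94) (nat_lit 840) (nat_lit 0) (XT.lf (nat_lit 84) (nat_lit 1586153907) (nat_lit 0) (nat_lit 74859995) (nat_lit 924) (nat_lit 3603207459) (nat_lit 222) (nat_lit 1) (nat_lit 221) (nat_lit 1) (nat_lit 232) (nat_lit 1) (nat_lit 186) (nat_lit 217) (nat_lit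 197)) (XT.lf (nat_lit 84) (nat_lit 22245127) (nat_lit 0) (nat_lit 988708787) (nat_lit 924) (nat_lit 4173602434) (nat_lit 212) (nat_lit 1) (nat_lit 211) (nat_lit 1) (nat_lit 222) (nat_lit 1) (nat_lit 187) (nat_lit 217) (nat_lit 196)))) (XT.nd (nat_lit 188) (nat_lit 1512) (nat_lit 0) (XT.nd (nat_lit 94) (nat_lit 0) (nat_lit 0) (XT.lf (nat_lit 924) (nat_lit 3181296823) (nat_lit 0) (nat_lit 393089303) (nat_lit 840) (nat_lit 1532023121) (nat_lit 212) (nat_lit 1) (nat_lit 201) (nat_lit 1) (nat_lit 211) (nat_lit 1) (nat_lit 188) (nat_lit 217) (nat_lit 195)) (XT.lf (nat_lit 84) (nat_lit 1976404243) (nat_lit 0) (nat_lit 2873278341) (nat_lit 924) (nat_lit 180266799) (nat_lit 202) (nat_lit 1) (nat_lit 201) (nat_lit 1) (nat_lit 212) (nat_lit 1) (nat_lit 189) (nat_lit 217) (nat_lit 194))) (XT.nd (nat_lit 94) (nat_lit 756) (nat_lit 0) (XT.lf (nat_lit 84) (nat_lit 413918293) (nat_lit 0) (nat_lit 3833191066) (nat_lit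 840) (nat_lit 708001929) (nat_lit 193) (nat_lit 1) (nat_lit 192) (nat_lit 1) (nat_lit 202) (nat_lit 1) (nat_lit 190) (nat_lit 217) (nat_lit 193)) (XT.lf (nat_lit 840) (nat_lit 72622741) (nat_lit 0) (nat_lit 3676464549) (nat_lit 756) (nat_lit 1132650280) (nat_lit 193) (nat_lit 1) (nat_lit 183) (nat_lit 1) (nat_lit 192) (nat_lit 1) (nat_lit 191) (nat_lit 217) (nat_lit 192))))))))
noncomputable def ec13 : XT := (XT.nd (nat_lit 36472) (nat_lit 0) (nat_lit 1512) (XT.nd (nat_lit 1128) (nat_lit 3108) (nat_lit 0) (XT.nd (nat_lit 564) (nat_lit 3024) (nat_lit 0) (XT.nd (nat_lit 282) (nat_lit 2100) (nat_lit 0) (XT.nd (nat_lit 94) (nat_lit 1428) (nat_lit 0) (XT.lf (nat_lit 84) (nat_lit 2163882672) (nat_lit 0) (nat_lit 970696316) (nat_lit 840) (nat_lit 1675171259) (nat_lit 174) (nat_lit 1) (nat_lit 173) (nat_lit 1) (nat_lit 183) (nat_lit 1) (nat_lit 192) (nat_lit 217) (nat_lit 191)) (XT.nd (nat_lit 94) (nat_lit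 672) (nat_lit 0) (XT.lf (nat_lit 84) (nat_lit 612551393) (nat_lit 0) (nat_lit 2017187929) (nat_lit 840) (nat_lit 2109578741) (nat_lit 165) (nat_lit 1) (nat_lit 164) (nat_lit 1) (nat_lit 174) (nat_lit 1) (nat_lit 193) (nat_lit 217) (nat_lit 190)) (XT.lf (nat_lit 756) (nat_lit 1596640021) (nat_lit 0) (nat_lit 2154451479) (nat_lit 672) (nat_lit 919178680) (nat_lit 165) (nat_lit 1) (nat_lit 156) (nat_lit 1) (nat_lit 164) (nat_lit 1) (nat_lit 194) (nat_lit 217) (nat_lit 189)))) (XT.nd (nat_lit 94) (nat_lit 1428) (nat_lit 0) (XT.lf (nat_lit 756) (nat_lit 465727900) (nat_lit 0) (nat_lit 1709831991) (nat_lit 672) (nat_lit 2427061347) (nat_lit 157) (nat_lit 1) (nat_lit 148) (nat_lit 1) (nat_lit 156) (nat_lit 1) (nat_lit 195) (nat_lit 217) (nat_lit 188)) (XT.nd (nat_lit 94) (nat_lit 672) (nat_lit 0) (XT.lf (nat_lit 84) (nat_lit 638508269) (nat_lit 0) (nat_lit 655800636) (nat_lit 756) (nat_lit 3242019212) (nat_lit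 140) (nat_lit 1) (nat_lit 139) (nat_lit 1) (nat_lit 148) (nat_lit 1) (nat_lit 196) (nat_lit 217) (nat_lit 187)) (XT.lf (nat_lit 756) (nat_lit 2694853340) (nat_lit 0) (nat_lit 901758609) (nat_lit 672) (nat_lit 874637887) (nat_lit 140) (nat_lit 1) (nat_lit 131) (nat_lit 1) (nat_lit 139) (nat_lit 1) (nat_lit 197) (nat_lit 217) (nat_lit 186))))) (XT.nd (nat_lit 282) (nat_lit 1764) (nat_lit 0) (XT.nd (nat_lit 94) (nat_lit 672) (nat_lit 0) (XT.lf (nat_lit 672) (nat_lit 1507167957) (nat_lit 0) (nat_lit 536293266) (nat_lit 588) (nat_lit 2364004645) (nat_lit 132) (nat_lit 1) (nat_lit 124) (nat_lit 1) (nat_lit 131) (nat_lit 1) (nat_lit 198) (nat_lit 217) (nat_lit 185)) (XT.nd (nat_lit 94) (nat_lit 84) (nat_lit 0) (XT.lf (nat_lit 672) (nat_lit 322736080) (nat_lit 0) (nat_lit 201491359) (nat_lit 588) (nat_lit 3820816870) (nat_lit 125) (nat_lit 1) (nat_lit 117) (nat_lit 1) (nat_lit 124) (nat_lit 1) (nat_lit 199)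 (nat_lit 217) (nat_lit 184)) (XT.lf (nat_lit 84) (nat_lit 3314973745) (nat_lit 0) (nat_lit 853307111) (nat_lit 672) (nat_lit 115367035) (nat_lit 117) (nat_lit 1) (nat_lit 116) (nat_lit 1) (nat_lit 124) (nat_lit 1) (nat_lit 200) (nat_lit 217) (nat_lit 183)))) (XT.nd (nat_lit 94) (nat_lit 1176) (nat_lit 0) (XT.lf (nat_lit 84) (nat_lit 1790995171) (nat_lit 0) (nat_lit 2025312301) (nat_lit 672) (nat_lit 407086439) (nat_lit 110) (nat_lit 1) (nat_lit 109) (nat_lit 1) (nat_lit 117) (nat_lit 1) (nat_lit 201) (nat_lit 217) (nat_lit 182)) (XT.nd (nat_lit 94) (nat_lit 588) (nat_lit 0) (XT.lf (nat_lit 84) (nat_lit 300710760) (nat_lit 0) (nat_lit 3192232908) (nat_lit 672) (nat_lit 671473773) (nat_lit 103) (nat_lit 1) (nat_lit 102) (nat_lit 1) (nat_lit 110) (nat_lit 1) (nat_lit 202) (nat_lit 217) (nat_lit 181)) (XT.lf (nat_lit 84) (nat_lit 2934943451) (nat_lit 0) (nat_lit 251825311) (nat_lit 588) (nat_lit 919695561)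 (nat_lit 96) (nat_lit 1) (nat_lit 95) (nat_lit 1) (nat_lit 102) (nat_lit 1) (nat_lit 203) (nat_lit 217) (nat_lit 180)))))) (XT.nd (nat_lit 34686) (nat_lit 0) (nat_lit 18396) (XT.nd (nat_lit 282) (nat_lit 1512) (nat_lit 0) (XT.nd (nat_lit 94) (nat_lit 1008) (nat_lit 0) (XT.lf (nat_lit 84) (nat_lit 1441401767) (nat_lit 0) (nat_lit 1456775199) (nat_lit 672) (nat_lit 1151357868) (nat_lit 89) (nat_lit 1) (nat_lit 88) (nat_lit 1) (nat_lit 96) (nat_lit 1) (nat_lit 204) (nat_lit 217) (nat_lit 179)) (XT.nd (nat_lit 94) (nat_lit 504) (nat_lit 0) (XT.lf (nat_lit 588) (nat_lit 1339515587) (nat_lit 0) (nat_lit 2635387504) (nat_lit 504) (nat_lit 18894715) (nat_lit 89) (nat_lit 1) (nat_lit 82) (nat_lit 1) (nat_lit 88) (nat_lit 1) (nat_lit 205) (nat_lit 217) (nat_lit 178)) (XT.lf (nat_lit 588) (nat_lit 84921950) (nat_lit 0) (nat_lit 2387205908) (nat_lit 504) (nat_lit 1466876398) (nat_lit 83) (nat_lit 1) (nat_lit 76)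 (nat_lit 1) (nat_lit 82) (nat_lit 1) (nat_lit 206) (nat_lit 217) (nat_lit 177)))) (XT.nd (nat_lit 94) (nat_lit 924) (nat_lit 0) (XT.lf (nat_lit 84) (nat_lit 1011520614) (nat_lit 0) (nat_lit 1143408550) (nat_lit 588) (nat_lit 1730245043) (nat_lit 70) (nat_lit 1) (nat_lit 69) (nat_lit 1) (nat_lit 76) (nat_lit 1) (nat_lit 207) (nat_lit 217) (nat_lit 176)) (XT.nd (nat_lit 94) (nat_lit 420) (nat_lit 0) (XT.lf (nat_lit 588) (nat_lit 1468517953) (nat_lit 0) (nat_lit 1942512343) (nat_lit 504) (nat_lit 421354699) (nat_lit 70) (nat_lit 1) (nat_lit 63) (nat_lit 1) (nat_lit 69) (nat_lit 1) (nat_lit 208) (nat_lit 217) (nat_lit 175)) (XT.lf (nat_lit 504) (nat_lit 198999994) (nat_lit 0) (nat_lit 1745562778) (nat_lit 420) (nat_lit 1835971584) (nat_lit 64) (nat_lit 1) (nat_lit 58) (nat_lit 1) (nat_lit 63) (nat_lit 1) (nat_lit 209) (nat_lit 217) (nat_lit 174))))) (XT.nd (nat_lit 282) (nat_lit 1512) (nat_lit 0) (XT.nd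 (nat_lit 94) (nat_lit 0) (nat_lit 84) (XT.lf (nat_lit 1932) (nat_lit 3142276424) (nat_lit 84) (nat_lit 553666475) (nat_lit 0) (nat_lit 2893914698) (nat_lit 318) (nat_lit 1) (nat_lit 296) (nat_lit 1) (nat_lit 295) (nat_lit 1) (nat_lit 172) (nat_lit 218) (nat_lit 210)) (XT.nd (nat_lit 94) (nat_lit 0) (nat_lit 84) (XT.lf (nat_lit 1932) (nat_lit 2030589020) (nat_lit 0) (nat_lit 3887360728) (nat_lit 1848) (nat_lit 564939270) (nat_lit 319) (nat_lit 1) (nat_lit 296) (nat_lit 1) (nat_lit 318) (nat_lit 1) (nat_lit 173) (nat_lit 218) (nat_lit 209)) (XT.lf (nat_lit 1932) (nat_lit 398100242) (nat_lit 0) (nat_lit 4369041076) (nat_lit 1848) (nat_lit 1611147421) (nat_lit 320) (nat_lit 1) (nat_lit 297) (nat_lit 1) (nat_lit 319) (nat_lit 1) (nat_lit 174) (nat_lit 218) (nat_lit 208)))) (XT.nd (nat_lit 188) (nat_lit 1680) (nat_lit 0) (XT.nd (nat_lit 94) (nat_lit 0) (nat_lit 84) (XT.lf (nat_lit 1932) (nat_lit 1380683739)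 (nat_lit 84) (nat_lit 3671964734) (nat_lit 0) (nat_lit 1223240205) (nat_lit 320) (nat_lit 1) (nat_lit 298) (nat_lit 1) (nat_lit 297) (nat_lit 1) (nat_lit 175) (nat_lit 218) (nat_lit 207)) (XT.lf (nat_lit 1932) (nat_lit 718047380) (nat_lit 84) (nat_lit 2636329647) (nat_lit 0) (nat_lit 2821383376) (nat_lit 321) (nat_lit 1) (nat_lit 299) (nat_lit 1) (nat_lit 298) (nat_lit 1) (nat_lit 176) (nat_lit 218) (nat_lit 206))) (XT.nd (nat_lit 94) (nat_lit 1848) (nat_lit 0) (XT.lf (nat_lit 1932) (nat_lit 26227412) (nat_lit 84) (nat_lit 1660981562) (nat_lit 0) (nat_lit 4390698550) (nat_lit 322) (nat_lit 1) (nat_lit 300) (nat_lit 1) (nat_lit 299) (nat_lit 1) (nat_lit 177) (nat_lit 218) (nat_lit 205)) (XT.lf (nat_lit 84) (nat_lit 55821362) (nat_lit 0) (nat_lit 682929944) (nat_lit 1932) (nat_lit 5243412132) (nat_lit 278) (nat_lit 1) (nat_lit 277) (nat_lit 1) (nat_lit 300) (nat_lit 1) (nat_lit 178) (nat_lit 218) (nat_lit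 204))))))) (XT.nd (nat_lit 1222) (nat_lit 7392) (nat_lit 0) (XT.nd (nat_lit 564) (nat_lit 4788) (nat_lit 0) (XT.nd (nat_lit 282) (nat_lit 2688) (nat_lit 0) (XT.nd (nat_lit 94) (nat_lit 2016) (nat_lit 0) (XT.lf (nat_lit 84) (nat_lit 4322122512) (nat_lit 0) (nat_lit 1429027111) (nat_lit 1932) (nat_lit 137155190) (nat_lit 278) (nat_lit 1) (nat_lit 277) (nat_lit 1) (nat_lit 300) (nat_lit 1) (nat_lit 179) (nat_lit 218) (nat_lit 203)) (XT.nd (nat_lit 94) (nat_lit 924) (nat_lit 0) (XT.lf (nat_lit 84) (nat_lit 2643331695) (nat_lit 0) (nat_lit 2203663545) (nat_lit 1176) (nat_lit 949441981) (nat_lit 265) (nat_lit 1) (nat_lit 264) (nat_lit 1) (nat_lit 278) (nat_lit 1) (nat_lit 180) (nat_lit 218) (nat_lit 202)) (XT.lf (nat_lit 84) (nat_lit 996826501) (nat_lit 0) (nat_lit 2999572417) (nat_lit 1008) (nat_lit 1710233050) (nat_lit 254) (nat_lit 1) (nat_lit 253) (nat_lit 1) (nat_lit 265) (nat_lit 1) (nat_lit 181) (nat_lit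 218) (nat_lit 201)))) (XT.nd (nat_lit 94) (nat_lit 1764) (nat_lit 0) (XT.lf (nat_lit 1008) (nat_lit 1799049575) (nat_lit 0) (nat_lit 3192916143) (nat_lit 924) (nat_lit 626773186) (nat_lit 254) (nat_lit 1) (nat_lit 242) (nat_lit 1) (nat_lit 253) (nat_lit 1) (nat_lit 182) (nat_lit 218) (nat_lit 200)) (XT.nd (nat_lit 94) (nat_lit 924) (nat_lit 0) (XT.lf (nat_lit 924) (nat_lit 867589028) (nat_lit 0) (nat_lit 2432158292) (nat_lit 840) (nat_lit 2232904962) (nat_lit 243) (nat_lit 1) (nat_lit 232) (nat_lit 1) (nat_lit 242) (nat_lit 1) (nat_lit 183) (nat_lit 218) (nat_lit 199)) (XT.lf (nat_lit 84) (nat_lit 1641669294) (nat_lit 0) (nat_lit 77480095) (nat_lit 924) (nat_lit 3729319720) (nat_lit 222) (nat_lit 1) (nat_lit 221) (nat_lit 1) (nat_lit 232) (nat_lit 1) (nat_lit 184) (nat_lit 218) (nat_lit 198))))) (XT.nd (nat_lit 282) (nat_lit 3108) (nat_lit 0) (XT.nd (nat_lit 94) (nat_lit 840) (nat_lit 0) (XT.lf (nat_lit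 84) (nat_lit 23023706) (nat_lit 0) (nat_lit 1023313595) (nat_lit 924) (nat_lit 4319678519) (nat_lit 212) (nat_lit 1) (nat_lit 211) (nat_lit 1) (nat_lit 222) (nat_lit 1) (nat_lit 185) (nat_lit 218) (nat_lit 197)) (XT.nd (nat_lit 94) (nat_lit 0) (nat_lit 0) (XT.lf (nat_lit 924) (nat_lit 3292642212) (nat_lit 0) (nat_lit 406847428) (nat_lit 840) (nat_lit 1585643930) (nat_lit 212) (nat_lit 1) (nat_lit 201) (nat_lit 1) (nat_lit 211) (nat_lit 1) (nat_lit 186) (nat_lit 218) (nat_lit 196)) (XT.lf (nat_lit 84) (nat_lit 2045578391) (nat_lit 0) (nat_lit 2973843083) (nat_lit 924) (nat_lit 186576136) (nat_lit 202) (nat_lit 1) (nat_lit 201) (nat_lit 1) (nat_lit 212) (nat_lit 1) (nat_lit 187) (nat_lit 218) (nat_lit 195)))) (XT.nd (nat_lit 188) (nat_lit 1596) (nat_lit 0) (XT.nd (nat_lit 94) (nat_lit 756) (nat_lit 0) (XT.lf (nat_lit 84) (nat_lit 428405433) (nat_lit 0) (nat_lit 3967352753) (nat_lit 840) (nat_lit 732781997)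 (nat_lit 193) (nat_lit 1) (nat_lit 192) (nat_lit 1) (nat_lit 202) (nat_lit 1) (nat_lit 188) (nat_lit 218) (nat_lit 194)) (XT.lf (nat_lit 840) (nat_lit 75164537) (nat_lit 0) (nat_lit 3805140808) (nat_lit 756) (nat_lit 1172293039) (nat_lit 193) (nat_lit 1) (nat_lit 183) (nat_lit 1) (nat_lit 192) (nat_lit 1) (nat_lit 189) (nat_lit 218) (nat_lit 193))) (XT.nd (nat_lit 94) (nat_lit 756) (nat_lit 0) (XT.lf (nat_lit 84) (nat_lit 2239618566) (nat_lit 0) (nat_lit 1004670687) (nat_lit 840) (nat_lit 1733802253) (nat_lit 174) (nat_lit 1) (nat_lit 173) (nat_lit 1) (nat_lit 183) (nat_lit 1) (nat_lit 190) (nat_lit 218) (nat_lit 192)) (XT.lf (nat_lit 84) (nat_lit 633990691) (nat_lit 0) (nat_lit 2087789506) (nat_lit 840) (nat_lit 2183413997) (nat_lit 165) (nat_lit 1) (nat_lit 164) (nat_lit 1) (nat_lit 174) (nat_lit 1) (nat_lit 191) (nat_lit 218) (nat_lit 191)))))) (XT.nd (nat_lit 564) (nat_lit 3444) (nat_lit 0) (XT.nd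 (nat_lit 282) (nat_lit 1848) (nat_lit 0) (XT.nd (nat_lit 94) (nat_lit 1428) (nat_lit 0) (XT.lf (nat_lit 756) (nat_lit 1652522422) (nat_lit 0) (nat_lit 2229857281) (nat_lit 672) (nat_lit 951349934) (nat_lit 165) (nat_lit 1) (nat_lit 156) (nat_lit 1) (nat_lit 164) (nat_lit 1) (nat_lit 192) (nat_lit 218) (nat_lit 190)) (XT.nd (nat_lit 94) (nat_lit 756) (nat_lit 0) (XT.lf (nat_lit 756) (nat_lit 482028377) (nat_lit 0) (nat_lit 1769676110) (nat_lit 672) (nat_lit 2512008494) (nat_lit 157) (nat_lit 1) (nat_lit 148) (nat_lit 1) (nat_lit 156) (nat_lit 1) (nat_lit 193) (nat_lit 218) (nat_lit 189)) (XT.lf (nat_lit 84) (nat_lit 660856058) (nat_lit 0) (nat_lit 678753658) (nat_lit 756) (nat_lit 3355489885) (nat_lit 140) (nat_lit 1) (nat_lit 139) (nat_lit 1) (nat_lit 148) (nat_lit 1) (nat_lit 194) (nat_lit 218) (nat_lit 188)))) (XT.nd (nat_lit 94) (nat_lit 1176) (nat_lit 0) (XT.lf (nat_lit 756) (nat_lit 2789173207)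 (nat_lit 0) (nat_lit 933320160) (nat_lit 672) (nat_lit 905250213) (nat_lit 140) (nat_lit 1) (nat_lit 131) (nat_lit 1) (nat_lit 139) (nat_lit 1) (nat_lit 195) (nat_lit 218) (nat_lit 187)) (XT.nd (nat_lit 94) (nat_lit 588) (nat_lit 0) (XT.lf (nat_lit 672) (nat_lit 1559918835) (nat_lit 0) (nat_lit 555063531) (nat_lit 588) (nat_lit 2446744807) (nat_lit 132) (nat_lit 1) (nat_lit 124) (nat_lit 1) (nat_lit 131) (nat_lit 1) (nat_lit 196) (nat_lit 218) (nat_lit 186)) (XT.lf (nat_lit 672) (nat_lit 334031843) (nat_lit 0) (nat_lit 208543557) (nat_lit 588) (nat_lit 3954545461) (nat_lit 125) (nat_lit 1) (nat_lit 117) (nat_lit 1) (nat_lit 124) (nat_lit 1) (nat_lit 197) (nat_lit 218) (nat_lit 185))))) (XT.nd (nat_lit 282) (nat_lit 2184) (nat_lit 0) (XT.nd (nat_lit 94) (nat_lit 1176) (nat_lit 0) (XT.lf (nat_lit 84) (nat_lit 3430997826) (nat_lit 0) (nat_lit 883172860) (nat_lit 672) (nat_lit 119404881) (nat_lit 117) (nat_lit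 1) (nat_lit 116) (nat_lit 1) (nat_lit 124) (nat_lit 1) (nat_lit 198) (nat_lit 218) (nat_lit 184)) (XT.nd (nat_lit 94) (nat_lit 588) (nat_lit 0) (XT.lf (nat_lit 84) (nat_lit 1853680002) (nat_lit 0) (nat_lit 2096198232) (nat_lit 672) (nat_lit 421334465) (nat_lit 110) (nat_lit 1) (nat_lit 109) (nat_lit 1) (nat_lit 117) (nat_lit 1) (nat_lit 199) (nat_lit 218) (nat_lit 183)) (XT.lf (nat_lit 84) (nat_lit 311235637) (nat_lit 0) (nat_lit 3303961060) (nat_lit 672) (nat_lit 694975355) (nat_lit 103) (nat_lit 1) (nat_lit 102) (nat_lit 1) (nat_lit 110) (nat_lit 1) (nat_lit 200) (nat_lit 218) (nat_lit 182)))) (XT.nd (nat_lit 188) (nat_lit 1008) (nat_lit 0) (XT.nd (nat_lit 94) (nat_lit 588) (nat_lit 0) (XT.lf (nat_lit 84) (nat_lit 3037666471) (nat_lit 0) (nat_lit 260639197) (nat_lit 588) (nat_lit 951884905) (nat_lit 96) (nat_lit 1) (nat_lit 95) (nat_lit 1) (nat_lit 102) (nat_lit 1) (nat_lit 201) (nat_lit 218) (nat_lit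 181)) (XT.lf (nat_lit 84) (nat_lit 1491850829) (nat_lit 0) (nat_lit 1507762330) (nat_lit 672) (nat_lit 1191655394) (nat_lit 89) (nat_lit 1) (nat_lit 88) (nat_lit 1) (nat_lit 96) (nat_lit 1) (nat_lit 202) (nat_lit 218) (nat_lit 180))) (XT.nd (nat_lit 94) (nat_lit 504) (nat_lit 0) (XT.lf (nat_lit 588) (nat_lit 1386398632) (nat_lit 0) (nat_lit 2727626066) (nat_lit 504) (nat_lit 19556030) (nat_lit 89) (nat_lit 1) (nat_lit 82) (nat_lit 1) (nat_lit 88) (nat_lit 1) (nat_lit 203) (nat_lit 218) (nat_lit 179)) (XT.lf (nat_lit 588) (nat_lit 87894219) (nat_lit 0) (nat_lit 2470758115) (nat_lit 504) (nat_lit 1518217072) (nat_lit 83) (nat_lit 1) (nat_lit 76) (nat_lit 1) (nat_lit 82) (nat_lit 1) (nat_lit 204) (nat_lit 218) (nat_lit 178))))))))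
noncomputable def ec14 : XT := (XT.nd (nat_lit 36660) (nat_lit 0) (nat_lit 588) (XT.nd (nat_lit 35438) (nat_lit 0) (nat_lit 6720) (XT.nd (nat_lit 34874) (nat_lit 0) (nat_lit 16044) (XT.nd (nat_lit 282) (nat_lit 588) (nat_lit 0) (XT.nd (nat_lit 94) (nat_lit 924) (nat_lit 0) (XT.lf (nat_lit 84) (nat_lit 1046923836) (nat_lit 0) (nat_lit 1183427849) (nat_lit 588) (nat_lit 1790803620) (nat_lit 70) (nat_lit 1) (nat_lit 69) (nat_lit 1) (nat_lit 76) (nat_lit 1) (nat_lit 205) (nat_lit 218) (nat_lit 177)) (XT.nd (nat_lit 94) (nat_lit 420) (nat_lit 0) (XT.lf (nat_lit 588) (nat_lit 1519916081) (nat_lit 0) (nat_lit 2010500275) (nat_lit 504) (nat_lit 436102113) (nat_lit 70) (nat_lit 1) (nat_lit 63) (nat_lit 1) (nat_lit 69) (nat_lit 1) (nat_lit 206) (nat_lit 218) (nat_lit 176)) (XT.lf (nat_lit 504) (nat_lit 205964994) (nat_lit 0) (nat_lit 1806657475) (nat_lit 420) (nat_lit 1900230589) (nat_lit 64) (nat_lit 1) (nat_lit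 58) (nat_lit 1) (nat_lit 63) (nat_lit 1) (nat_lit 207) (nat_lit 218) (nat_lit 175)))) (XT.nd (nat_lit 34404) (nat_lit 0) (nat_lit 20664) (XT.lf (nat_lit 84) (nat_lit 537292171) (nat_lit 0) (nat_lit 1080428866) (nat_lit 588) (nat_lit 2242406435) (nat_lit 52) (nat_lit 1) (nat_lit 51) (nat_lit 1) (nat_lit 58) (nat_lit 1) (nat_lit 208) (nat_lit 218) (nat_lit 174)) (XT.nd (nat_lit 94) (nat_lit 0) (nat_lit 84) (XT.lf (nat_lit 1932) (nat_lit 1429007670) (nat_lit 84) (nat_lit 3800483499) (nat_lit 0) (nat_lit 1266053612) (nat_lit 320) (nat_lit 1) (nat_lit 298) (nat_lit 1) (nat_lit 297) (nat_lit 1) (nat_lit 173) (nat_lit 219) (nat_lit 208)) (XT.lf (nat_lit 1932) (nat_lit 743179038) (nat_lit 84) (nat_lit 2728601184) (nat_lit 0) (nat_lit 2920131794) (nat_lit 321) (nat_lit 1) (nat_lit 299) (nat_lit 1) (nat_lit 298) (nat_lit 1) (nat_lit 174) (nat_lit 219) (nat_lit 207))))) (XT.nd (nat_lit 282) (nat_lit 2940) (nat_lit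 0) (XT.nd (nat_lit 94) (nat_lit 1848) (nat_lit 0) (XT.lf (nat_lit 1932) (nat_lit 27145372) (nat_lit 84) (nat_lit 1719115917) (nat_lit 0) (nat_lit 4544372999) (nat_lit 322) (nat_lit 1) (nat_lit 300) (nat_lit 1) (nat_lit 299) (nat_lit 1) (nat_lit 175) (nat_lit 219) (nat_lit 206)) (XT.nd (nat_lit 94) (nat_lit 0) (nat_lit 0) (XT.lf (nat_lit 84) (nat_lit 57775110) (nat_lit 0) (nat_lit 706832492) (nat_lit 1932) (nat_lit 5426931557) (nat_lit 278) (nat_lit 1) (nat_lit 277) (nat_lit 1) (nat_lit 300) (nat_lit 1) (nat_lit 176) (nat_lit 219) (nat_lit 205)) (XT.lf (nat_lit 84) (nat_lit 4473396800) (nat_lit 0) (nat_lit 1479043060) (nat_lit 1932) (nat_lit 141955622) (nat_lit 278) (nat_lit 1) (nat_lit 277) (nat_lit 1) (nat_lit 300) (nat_lit 1) (nat_lit 177) (nat_lit 219) (nat_lit 204)))) (XT.nd (nat_lit 94) (nat_lit 1848) (nat_lit 0) (XT.lf (nat_lit 84) (nat_lit 2735848304) (nat_lit 0) (nat_lit 2280791769) (nat_lit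 1176) (nat_lit 982672450) (nat_lit 265) (nat_lit 1) (nat_lit 264) (nat_lit 1) (nat_lit 278) (nat_lit 1) (nat_lit 178) (nat_lit 219) (nat_lit 203)) (XT.nd (nat_lit 94) (nat_lit 924) (nat_lit 0) (XT.lf (nat_lit 84) (nat_lit 1031715428) (nat_lit 0) (nat_lit 3104557451) (nat_lit 1008) (nat_lit 1770091206) (nat_lit 254) (nat_lit 1) (nat_lit 253) (nat_lit 1) (nat_lit 265) (nat_lit 1) (nat_lit 179) (nat_lit 219) (nat_lit 202)) (XT.lf (nat_lit 1008) (nat_lit 1862016310) (nat_lit 0) (nat_lit 3304668208) (nat_lit 924) (nat_lit 648710248) (nat_lit 254) (nat_lit 1) (nat_lit 242) (nat_lit 1) (nat_lit 253) (nat_lit 1) (nat_lit 180) (nat_lit 219) (nat_lit 201)))))) (XT.nd (nat_lit 564) (nat_lit 5124) (nat_lit 0) (XT.nd (nat_lit 282) (nat_lit 1596) (nat_lit 0) (XT.nd (nat_lit 94) (nat_lit 1764) (nat_lit 0) (XT.lf (nat_lit 924) (nat_lit 897954644) (nat_lit 0) (nat_lit 2517283832) (nat_lit 840) (nat_lit 2311056636) (nat_lit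 243) (nat_lit 1) (nat_lit 232) (nat_lit 1) (nat_lit 242) (nat_lit 1) (nat_lit 181) (nat_lit 219) (nat_lit 200)) (XT.nd (nat_lit 94) (nat_lit 840) (nat_lit 0) (XT.lf (nat_lit 84) (nat_lit 1699127719) (nat_lit 0) (nat_lit 80191899) (nat_lit 924) (nat_lit 3859845910) (nat_lit 222) (nat_lit 1) (nat_lit 221) (nat_lit 1) (nat_lit 232) (nat_lit 1) (nat_lit 182) (nat_lit 219) (nat_lit 199)) (XT.lf (nat_lit 84) (nat_lit 23829536) (nat_lit 0) (nat_lit 1059129571) (nat_lit 924) (nat_lit 4470867268) (nat_lit 212) (nat_lit 1) (nat_lit 211) (nat_lit 1) (nat_lit 222) (nat_lit 1) (nat_lit 183) (nat_lit 219) (nat_lit 198)))) (XT.nd (nat_lit 94) (nat_lit 756) (nat_lit 0) (XT.lf (nat_lit 924) (nat_lit 3407884689) (nat_lit 0) (nat_lit 421087088) (nat_lit 840) (nat_lit 1641141468) (nat_lit 212) (nat_lit 1) (nat_lit 201) (nat_lit 1) (nat_lit 211) (nat_lit 1) (nat_lit 184) (nat_lit 219) (nat_lit 197)) (XT.nd (nat_lit 94)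 (nat_lit 756) (nat_lit 0) (XT.lf (nat_lit 84) (nat_lit 2117173635) (nat_lit 0) (nat_lit 3077927591) (nat_lit 924) (nat_lit 193106301) (nat_lit 202) (nat_lit 1) (nat_lit 201) (nat_lit 1) (nat_lit 212) (nat_lit 1) (nat_lit 185) (nat_lit 219) (nat_lit 196)) (XT.lf (nat_lit 84) (nat_lit 443399623) (nat_lit 0) (nat_lit 4106210099) (nat_lit 840) (nat_lit 758429367) (nat_lit 193) (nat_lit 1) (nat_lit 192) (nat_lit 1) (nat_lit 202) (nat_lit 1) (nat_lit 186) (nat_lit 219) (nat_lit 195))))) (XT.nd (nat_lit 282) (nat_lit 2772) (nat_lit 0) (XT.nd (nat_lit 94) (nat_lit 1596) (nat_lit 0) (XT.lf (nat_lit 840) (nat_lit 77795296) (nat_lit 0) (nat_lit 3938320737) (nat_lit 756) (nat_lit 1213323296) (nat_lit 193) (nat_lit 1) (nat_lit 183) (nat_lit 1) (nat_lit 192) (nat_lit 1) (nat_lit 187) (nat_lit 219) (nat_lit 194)) (XT.nd (nat_lit 94) (nat_lit 756) (nat_lit 0) (XT.lf (nat_lit 84) (nat_lit 2318005216) (nat_lit 0) (nat_lit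 1039834161) (nat_lit 840) (nat_lit 1794485332) (nat_lit 174) (nat_lit 1) (nat_lit 173) (nat_lit 1) (nat_lit 183) (nat_lit 1) (nat_lit 188) (nat_lit 219) (nat_lit 193)) (XT.lf (nat_lit 84) (nat_lit 656180366) (nat_lit 0) (nat_lit 2160862139) (nat_lit 840) (nat_lit 2259833487) (nat_lit 165) (nat_lit 1) (nat_lit 164) (nat_lit 1) (nat_lit 174) (nat_lit 1) (nat_lit 189) (nat_lit 219) (nat_lit 192)))) (XT.nd (nat_lit 188) (nat_lit 1428) (nat_lit 0) (XT.nd (nat_lit 94) (nat_lit 672) (nat_lit 0) (XT.lf (nat_lit 756) (nat_lit 1710360706) (nat_lit 0) (nat_lit 2307902286) (nat_lit 672) (nat_lit 984647182) (nat_lit 165) (nat_lit 1) (nat_lit 156) (nat_lit 1) (nat_lit 164) (nat_lit 1) (nat_lit 190) (nat_lit 219) (nat_lit 191)) (XT.lf (nat_lit 756) (nat_lit 498899370) (nat_lit 0) (nat_lit 1831614774) (nat_lit 672) (nat_lit 2599928791) (nat_lit 157) (nat_lit 1) (nat_lit 148) (nat_lit 1) (nat_lit 156) (nat_lit 1) (nat_lit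 191) (nat_lit 219) (nat_lit 190))) (XT.nd (nat_lit 94) (nat_lit 672) (nat_lit 0) (XT.lf (nat_lit 84) (nat_lit 683986020) (nat_lit 0) (nat_lit 702510036) (nat_lit 756) (nat_lit 3472932031) (nat_lit 140) (nat_lit 1) (nat_lit 139) (nat_lit 1) (nat_lit 148) (nat_lit 1) (nat_lit 192) (nat_lit 219) (nat_lit 189)) (XT.lf (nat_lit 756) (nat_lit 2886794269) (nat_lit 0) (nat_lit 965986366) (nat_lit 672) (nat_lit 936933970) (nat_lit 140) (nat_lit 1) (nat_lit 131) (nat_lit 1) (nat_lit 139) (nat_lit 1) (nat_lit 193) (nat_lit 219) (nat_lit 188))))))) (XT.nd (nat_lit 35908) (nat_lit 0) (nat_lit 8904) (XT.nd (nat_lit 564) (nat_lit 3108) (nat_lit 0) (XT.nd (nat_lit 282) (nat_lit 1764) (nat_lit 0) (XT.nd (nat_lit 94) (nat_lit 672) (nat_lit 0) (XT.lf (nat_lit 672) (nat_lit 1614515994) (nat_lit 0) (nat_lit 574490754) (nat_lit 588) (nat_lit 2532380875) (nat_lit 132) (nat_lit 1) (nat_lit 124) (nat_lit 1) (nat_lit 131) (nat_lit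 1) (nat_lit 194) (nat_lit 219) (nat_lit 187)) (XT.nd (nat_lit 94) (nat_lit 84) (nat_lit 0) (XT.lf (nat_lit 672) (nat_lit 345722957) (nat_lit 0) (nat_lit 215842582) (nat_lit 588) (nat_lit 4092954552) (nat_lit 125) (nat_lit 1) (nat_lit 117) (nat_lit 1) (nat_lit 124) (nat_lit 1) (nat_lit 195) (nat_lit 219) (nat_lit 186)) (XT.lf (nat_lit 84) (nat_lit 3551082750) (nat_lit 0) (nat_lit 914083910) (nat_lit 672) (nat_lit 123584052) (nat_lit 117) (nat_lit 1) (nat_lit 116) (nat_lit 1) (nat_lit 124) (nat_lit 1) (nat_lit 196) (nat_lit 219) (nat_lit 185)))) (XT.nd (nat_lit 94) (nat_lit 1176) (nat_lit 0) (XT.lf (nat_lit 84) (nat_lit 1918558802) (nat_lit 0) (nat_lit 2169565170) (nat_lit 672) (nat_lit 436081171) (nat_lit 110) (nat_lit 1) (nat_lit 109) (nat_lit 1) (nat_lit 117) (nat_lit 1) (nat_lit 197) (nat_lit 219) (nat_lit 184)) (XT.nd (nat_lit 94) (nat_lit 588) (nat_lit 0) (XT.lf (nat_lit 84) (nat_lit 322128884)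 (nat_lit 0) (nat_lit 3419599697) (nat_lit 672) (nat_lit 719299492) (nat_lit 103) (nat_lit 1) (nat_lit 102) (nat_lit 1) (nat_lit 110) (nat_lit 1) (nat_lit 198) (nat_lit 219) (nat_lit 183)) (XT.lf (nat_lit 84) (nat_lit 3143984798) (nat_lit 0) (nat_lit 269761568) (nat_lit 588) (nat_lit 985200877) (nat_lit 96) (nat_lit 1) (nat_lit 95) (nat_lit 1) (nat_lit 102) (nat_lit 1) (nat_lit 199) (nat_lit 219) (nat_lit 182))))) (XT.nd (nat_lit 282) (nat_lit 1512) (nat_lit 0) (XT.nd (nat_lit 94) (nat_lit 1008) (nat_lit 0) (XT.lf (nat_lit 84) (nat_lit 1544065608) (nat_lit 0) (nat_lit 1560534012) (nat_lit 672) (nat_lit 1233363332) (nat_lit 89) (nat_lit 1) (nat_lit 88) (nat_lit 1) (nat_lit 96) (nat_lit 1) (nat_lit 200) (nat_lit 219) (nat_lit 181)) (XT.nd (nat_lit 94) (nat_lit 504) (nat_lit 0) (XT.lf (nat_lit 588) (nat_lit 1434922584) (nat_lit 0) (nat_lit 2823092978) (nat_lit 504) (nat_lit 20240491) (nat_lit 89) (nat_lit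 1) (nat_lit 82) (nat_lit 1) (nat_lit 88) (nat_lit 1) (nat_lit 201) (nat_lit 219) (nat_lit 180)) (XT.lf (nat_lit 588) (nat_lit 90970516) (nat_lit 0) (nat_lit 2557234649) (nat_lit 504) (nat_lit 1571354670) (nat_lit 83) (nat_lit 1) (nat_lit 76) (nat_lit 1) (nat_lit 82) (nat_lit 1) (nat_lit 202) (nat_lit 219) (nat_lit 179)))) (XT.nd (nat_lit 188) (nat_lit 420) (nat_lit 0) (XT.nd (nat_lit 94) (nat_lit 504) (nat_lit 0) (XT.lf (nat_lit 84) (nat_lit 1083566170) (nat_lit 0) (nat_lit 1224847824) (nat_lit 588) (nat_lit 1853481746) (nat_lit 70) (nat_lit 1) (nat_lit 69) (nat_lit 1) (nat_lit 76) (nat_lit 1) (nat_lit 203) (nat_lit 219) (nat_lit 178)) (XT.lf (nat_lit 588) (nat_lit 1573113144) (nat_lit 0) (nat_lit 2080867784) (nat_lit 504) (nat_lit 451365687) (nat_lit 70) (nat_lit 1) (nat_lit 63) (nat_lit 1) (nat_lit 69) (nat_lit 1) (nat_lit 204) (nat_lit 219) (nat_lit 177))) (XT.nd (nat_lit 34780) (nat_lit 0) (nat_lit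 18396) (XT.lf (nat_lit 504) (nat_lit 213173768) (nat_lit 0) (nat_lit 1869890487) (nat_lit 420) (nat_lit 1966738660) (nat_lit 64) (nat_lit 1) (nat_lit 58) (nat_lit 1) (nat_lit 63) (nat_lit 1) (nat_lit 205) (nat_lit 219) (nat_lit 176)) (XT.lf (nat_lit 84) (nat_lit 59797239) (nat_lit 0) (nat_lit 731571629) (nat_lit 1932) (nat_lit 5616874162) (nat_lit 278) (nat_lit 1) (nat_lit 277) (nat_lit 1) (nat_lit 300) (nat_lit 1) (nat_lit 174) (nat_lit 220) (nat_lit 206)))))) (XT.nd (nat_lit 564) (nat_lit 4788) (nat_lit 0) (XT.nd (nat_lit 282) (nat_lit 2688) (nat_lit 0) (XT.nd (nat_lit 94) (nat_lit 2016) (nat_lit 0) (XT.lf (nat_lit 84) (nat_lit 4629965688) (nat_lit 0) (nat_lit 1530809567) (nat_lit 1932) (nat_lit 146924069) (nat_lit 278) (nat_lit 1) (nat_lit 277) (nat_lit 1) (nat_lit 300) (nat_lit 1) (nat_lit 175) (nat_lit 220) (nat_lit 205)) (XT.nd (nat_lit 94) (nat_lit 924) (nat_lit 0) (XT.lf (nat_lit 84) (nat_lit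 2831602995) (nat_lit 0) (nat_lit 2360619480) (nat_lit 1176) (nat_lit 1017065986) (nat_lit 265) (nat_lit 1) (nat_lit 264) (nat_lit 1) (nat_lit 278) (nat_lit 1) (nat_lit 176) (nat_lit 220) (nat_lit 204)) (XT.lf (nat_lit 84) (nat_lit 1067825468) (nat_lit 0) (nat_lit 3213216962) (nat_lit 1008) (nat_lit 1832044399) (nat_lit 254) (nat_lit 1) (nat_lit 253) (nat_lit 1) (nat_lit 265) (nat_lit 1) (nat_lit 177) (nat_lit 220) (nat_lit 203)))) (XT.nd (nat_lit 94) (nat_lit 1764) (nat_lit 0) (XT.lf (nat_lit 1008) (nat_lit 1927186881) (nat_lit 0) (nat_lit 3420331595) (nat_lit 924) (nat_lit 671415106) (nat_lit 254) (nat_lit 1) (nat_lit 242) (nat_lit 1) (nat_lit 253) (nat_lit 1) (nat_lit 178) (nat_lit 220) (nat_lit 202)) (XT.nd (nat_lit 94) (nat_lit 924) (nat_lit 0) (XT.lf (nat_lit 924) (nat_lit 929383056) (nat_lit 0) (nat_lit 2605388766) (nat_lit 840) (nat_lit 2391943618) (nat_lit 243) (nat_lit 1) (nat_lit 232) (nat_lit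 1) (nat_lit 242) (nat_lit 1) (nat_lit 179) (nat_lit 220) (nat_lit 201)) (XT.lf (nat_lit 84) (nat_lit 1758597190) (nat_lit 0) (nat_lit 82998615) (nat_lit 924) (nat_lit 3994940517) (nat_lit 222) (nat_lit 1) (nat_lit 221) (nat_lit 1) (nat_lit 232) (nat_lit 1) (nat_lit 180) (nat_lit 220) (nat_lit 200))))) (XT.nd (nat_lit 282) (nat_lit 3108) (nat_lit 0) (XT.nd (nat_lit 94) (nat_lit 840) (nat_lit 0) (XT.lf (nat_lit 84) (nat_lit 24663570) (nat_lit 0) (nat_lit 1096199106) (nat_lit 924) (nat_lit 4627347622) (nat_lit 212) (nat_lit 1) (nat_lit 211) (nat_lit 1) (nat_lit 222) (nat_lit 1) (nat_lit 181) (nat_lit 220) (nat_lit 199)) (XT.nd (nat_lit 94) (nat_lit 0) (nat_lit 0) (XT.lf (nat_lit 924) (nat_lit 3527160654) (nat_lit 0) (nat_lit 435825136) (nat_lit 840) (nat_lit 1698581419) (nat_lit 212) (nat_lit 1) (nat_lit 201) (nat_lit 1) (nat_lit 211) (nat_lit 1) (nat_lit 182) (nat_lit 220) (nat_lit 198)) (XT.lf (nat_lit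 84) (nat_lit 2191274712) (nat_lit 0) (nat_lit 3185655056) (nat_lit 924) (nat_lit 199865022) (nat_lit 202) (nat_lit 1) (nat_lit 201) (nat_lit 1) (nat_lit 212) (nat_lit 1) (nat_lit 183) (nat_lit 220) (nat_lit 197)))) (XT.nd (nat_lit 188) (nat_lit 1596) (nat_lit 0) (XT.nd (nat_lit 94) (nat_lit 756) (nat_lit 0) (XT.lf (nat_lit 84) (nat_lit 458918610) (nat_lit 0) (nat_lit 4249927453) (nat_lit 840) (nat_lit 784974395) (nat_lit 193) (nat_lit 1) (nat_lit 192) (nat_lit 1) (nat_lit 202) (nat_lit 1) (nat_lit 184) (nat_lit 220) (nat_lit 196)) (XT.lf (nat_lit 840) (nat_lit 80518132) (nat_lit 0) (nat_lit 4076161962) (nat_lit 756) (nat_lit 1255789611) (nat_lit 193) (nat_lit 1) (nat_lit 183) (nat_lit 1) (nat_lit 192) (nat_lit 1) (nat_lit 185) (nat_lit 220) (nat_lit 195))) (XT.nd (nat_lit 94) (nat_lit 756) (nat_lit 0) (XT.lf (nat_lit 84) (nat_lit 2399135398) (nat_lit 0) (nat_lit 1076228357) (nat_lit 840) (nat_lit 1857292318)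 (nat_lit 174) (nat_lit 1) (nat_lit 173) (nat_lit 1) (nat_lit 183) (nat_lit 1) (nat_lit 186) (nat_lit 220) (nat_lit 194)) (XT.lf (nat_lit 84) (nat_lit 679146679) (nat_lit 0) (nat_lit 2236492314) (nat_lit 840) (nat_lit 2338927659) (nat_lit 165) (nat_lit 1) (nat_lit 164) (nat_lit 1) (nat_lit 174) (nat_lit 1) (nat_lit 187) (nat_lit 220) (nat_lit 193))))))))
noncomputable def ec15 : XT := (XT.nd (nat_lit 37506) (nat_lit 0) (nat_lit 924) (XT.nd (nat_lit 1128) (nat_lit 2016) (nat_lit 0) (XT.nd (nat_lit 564) (nat_lit 2940) (nat_lit 0) (XT.nd (nat_lit 282) (nat_lit 1848) (nat_lit 0) (XT.nd (nat_lit 94) (nat_lit 1428) (nat_lit 0) (XT.lf (nat_lit 756) (nat_lit 1770223331) (nat_lit 0) (nat_lit 2388678866) (nat_lit 672) (nat_lit 1019109833) (nat_lit 165) (nat_lit 1) (nat_lit 156) (nat_lit 1) (nat_lit 164) (nat_lit 1) (nat_lit 188) (nat_lit 220) (nat_lit 192)) (XT.nd (nat_lit 94) (nat_lit 756) (nat_lit 0) (XT.lf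 (nat_lit 756) (nat_lit 516360848) (nat_lit 0) (nat_lit 1895721291) (nat_lit 672) (nat_lit 2690926299) (nat_lit 157) (nat_lit 1) (nat_lit 148) (nat_lit 1) (nat_lit 156) (nat_lit 1) (nat_lit 189) (nat_lit 220) (nat_lit 191)) (XT.lf (nat_lit 84) (nat_lit 707925531) (nat_lit 0) (nat_lit 727097887) (nat_lit 756) (nat_lit 3594484652) (nat_lit 140) (nat_lit 1) (nat_lit 139) (nat_lit 1) (nat_lit 148) (nat_lit 1) (nat_lit 190) (nat_lit 220) (nat_lit 190)))) (XT.nd (nat_lit 94) (nat_lit 1176) (nat_lit 0) (XT.lf (nat_lit 756) (nat_lit 2987832069) (nat_lit 0) (nat_lit 999795889) (nat_lit 672) (nat_lit 969726659) (nat_lit 140) (nat_lit 1) (nat_lit 131) (nat_lit 1) (nat_lit 139) (nat_lit 1) (nat_lit 191) (nat_lit 220) (nat_lit 189)) (XT.nd (nat_lit 94) (nat_lit 588) (nat_lit 0) (XT.lf (nat_lit 672) (nat_lit 1671024054) (nat_lit 0) (nat_lit 594597931) (nat_lit 588) (nat_lit 2621014206) (nat_lit 132) (nat_lit 1) (nat_lit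 124) (nat_lit 1) (nat_lit 131) (nat_lit 1) (nat_lit 192) (nat_lit 220) (nat_lit 188)) (XT.lf (nat_lit 672) (nat_lit 357823261) (nat_lit 0) (nat_lit 223397072) (nat_lit 588) (nat_lit 4236207961) (nat_lit 125) (nat_lit 1) (nat_lit 117) (nat_lit 1) (nat_lit 124) (nat_lit 1) (nat_lit 193) (nat_lit 220) (nat_lit 187))))) (XT.nd (nat_lit 282) (nat_lit 1680) (nat_lit 0) (XT.nd (nat_lit 94) (nat_lit 1176) (nat_lit 0) (XT.lf (nat_lit 84) (nat_lit 3675370646) (nat_lit 0) (nat_lit 946076847) (nat_lit 672) (nat_lit 127909494) (nat_lit 117) (nat_lit 1) (nat_lit 116) (nat_lit 1) (nat_lit 124) (nat_lit 1) (nat_lit 194) (nat_lit 220) (nat_lit 186)) (XT.nd (nat_lit 94) (nat_lit 588) (nat_lit 0) (XT.lf (nat_lit 84) (nat_lit 1985708360) (nat_lit 0) (nat_lit 2245499951) (nat_lit 672) (nat_lit 451344012) (nat_lit 110) (nat_lit 1) (nat_lit 109) (nat_lit 1) (nat_lit 117) (nat_lit 1) (nat_lit 195) (nat_lit 220) (nat_lit 185))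 (XT.lf (nat_lit 84) (nat_lit 333403395) (nat_lit 0) (nat_lit 3539285687) (nat_lit 672) (nat_lit 744474974) (nat_lit 103) (nat_lit 1) (nat_lit 102) (nat_lit 1) (nat_lit 110) (nat_lit 1) (nat_lit 196) (nat_lit 220) (nat_lit 184)))) (XT.nd (nat_lit 94) (nat_lit 1092) (nat_lit 0) (XT.lf (nat_lit 84) (nat_lit 3254024266) (nat_lit 0) (nat_lit 279203223) (nat_lit 588) (nat_lit 1019682908) (nat_lit 96) (nat_lit 1) (nat_lit 95) (nat_lit 1) (nat_lit 102) (nat_lit 1) (nat_lit 197) (nat_lit 220) (nat_lit 183)) (XT.nd (nat_lit 94) (nat_lit 504) (nat_lit 0) (XT.lf (nat_lit 84) (nat_lit 1598107905) (nat_lit 0) (nat_lit 1615152702) (nat_lit 672) (nat_lit 1276531049) (nat_lit 89) (nat_lit 1) (nat_lit 88) (nat_lit 1) (nat_lit 96) (nat_lit 1) (nat_lit 198) (nat_lit 220) (nat_lit 182)) (XT.lf (nat_lit 588) (nat_lit 1485144875) (nat_lit 0) (nat_lit 2921901233) (nat_lit 504) (nat_lit 20948908) (nat_lit 89) (nat_lit 1) (nat_lit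 82) (nat_lit 1) (nat_lit 88) (nat_lit 1) (nat_lit 199) (nat_lit 220) (nat_lit 181)))))) (XT.nd (nat_lit 35720) (nat_lit 0) (nat_lit 8904) (XT.nd (nat_lit 282) (nat_lit 420) (nat_lit 0) (XT.nd (nat_lit 94) (nat_lit 1092) (nat_lit 0) (XT.lf (nat_lit 588) (nat_lit 94154484) (nat_lit 0) (nat_lit 2646737862) (nat_lit 504) (nat_lit 1626352083) (nat_lit 83) (nat_lit 1) (nat_lit 76) (nat_lit 1) (nat_lit 82) (nat_lit 1) (nat_lit 200) (nat_lit 220) (nat_lit 180)) (XT.nd (nat_lit 94) (nat_lit 504) (nat_lit 0) (XT.lf (nat_lit 84) (nat_lit 1121490986) (nat_lit 0) (nat_lit 1267717498) (nat_lit 588) (nat_lit 1918353608) (nat_lit 70) (nat_lit 1) (nat_lit 69) (nat_lit 1) (nat_lit 76) (nat_lit 1) (nat_lit 201) (nat_lit 220) (nat_lit 179)) (XT.lf (nat_lit 588) (nat_lit 1628172104) (nat_lit 0) (nat_lit 2153698157) (nat_lit 504) (nat_lit 467163486) (nat_lit 70) (nat_lit 1) (nat_lit 63) (nat_lit 1) (nat_lit 69) (nat_lit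 1) (nat_lit 202) (nat_lit 220) (nat_lit 178)))) (XT.nd (nat_lit 35250) (nat_lit 0) (nat_lit 13692) (XT.lf (nat_lit 504) (nat_lit 220634850) (nat_lit 0) (nat_lit 1935336654) (nat_lit 420) (nat_lit 2035574513) (nat_lit 64) (nat_lit 1) (nat_lit 58) (nat_lit 1) (nat_lit 63) (nat_lit 1) (nat_lit 203) (nat_lit 220) (nat_lit 177)) (XT.nd (nat_lit 94) (nat_lit 924) (nat_lit 0) (XT.lf (nat_lit 924) (nat_lit 961911463) (nat_lit 0) (nat_lit 2696577373) (nat_lit 840) (nat_lit 2475661645) (nat_lit 243) (nat_lit 1) (nat_lit 232) (nat_lit 1) (nat_lit 242) (nat_lit 1) (nat_lit 177) (nat_lit 221) (nat_lit 202)) (XT.lf (nat_lit 84) (nat_lit 1820148091) (nat_lit 0) (nat_lit 85903567) (nat_lit 924) (nat_lit 4134763435) (nat_lit 222) (nat_lit 1) (nat_lit 221) (nat_lit 1) (nat_lit 232) (nat_lit 1) (nat_lit 178) (nat_lit 221) (nat_lit 201))))) (XT.nd (nat_lit 282) (nat_lit 3108) (nat_lit 0) (XT.nd (nat_lit 94) (nat_lit 840)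 (nat_lit 0) (XT.lf (nat_lit 84) (nat_lit 25526795) (nat_lit 0) (nat_lit 1134566075) (nat_lit 924) (nat_lit 4789304789) (nat_lit 212) (nat_lit 1) (nat_lit 211) (nat_lit 1) (nat_lit 222) (nat_lit 1) (nat_lit 179) (nat_lit 221) (nat_lit 200)) (XT.nd (nat_lit 94) (nat_lit 0) (nat_lit 0) (XT.lf (nat_lit 924) (nat_lit 3650611276) (nat_lit 0) (nat_lit 451079016) (nat_lit 840) (nat_lit 1758031769) (nat_lit 212) (nat_lit 1) (nat_lit 201) (nat_lit 1) (nat_lit 211) (nat_lit 1) (nat_lit 180) (nat_lit 221) (nat_lit 199)) (XT.lf (nat_lit 84) (nat_lit 2267969327) (nat_lit 0) (nat_lit 3297152983) (nat_lit 924) (nat_lit 206860298) (nat_lit 202) (nat_lit 1) (nat_lit 201) (nat_lit 1) (nat_lit 212) (nat_lit 1) (nat_lit 181) (nat_lit 221) (nat_lit 198)))) (XT.nd (nat_lit 188) (nat_lit 1596) (nat_lit 0) (XT.nd (nat_lit 94) (nat_lit 756) (nat_lit 0) (XT.lf (nat_lit 84) (nat_lit 474980762) (nat_lit 0) (nat_lit 4398674914)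 (nat_lit 840) (nat_lit 812448499) (nat_lit 193) (nat_lit 1) (nat_lit 192) (nat_lit 1) (nat_lit 202) (nat_lit 1) (nat_lit 182) (nat_lit 221) (nat_lit 197)) (XT.lf (nat_lit 840) (nat_lit 83336266) (nat_lit 0) (nat_lit 4218827631) (nat_lit 756) (nat_lit 1299742248) (nat_lit 193) (nat_lit 1) (nat_lit 183) (nat_lit 1) (nat_lit 192) (nat_lit 1) (nat_lit 183) (nat_lit 221) (nat_lit 196))) (XT.nd (nat_lit 94) (nat_lit 756) (nat_lit 0) (XT.lf (nat_lit 84) (nat_lit 2483105137) (nat_lit 0) (nat_lit 1113896349) (nat_lit 840) (nat_lit 1922297550) (nat_lit 174) (nat_lit 1) (nat_lit 173) (nat_lit 1) (nat_lit 183) (nat_lit 1) (nat_lit 184) (nat_lit 221) (nat_lit 195)) (XT.lf (nat_lit 84) (nat_lit 702916812) (nat_lit 0) (nat_lit 2314769545) (nat_lit 840) (nat_lit 2420790127) (nat_lit 165) (nat_lit 1) (nat_lit 164) (nat_lit 1) (nat_lit 174) (nat_lit 1) (nat_lit 185) (nat_lit 221) (nat_lit 194))))))) (XT.nd (nat_lit 1222)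 (nat_lit 588) (nat_lit 0) (XT.nd (nat_lit 564) (nat_lit 3444) (nat_lit 0) (XT.nd (nat_lit 282) (nat_lit 1848) (nat_lit 0) (XT.nd (nat_lit 94) (nat_lit 1428) (nat_lit 0) (XT.lf (nat_lit 756) (nat_lit 1832181148) (nat_lit 0) (nat_lit 2472282626) (nat_lit 672) (nat_lit 1054778677) (nat_lit 165) (nat_lit 1) (nat_lit 156) (nat_lit 1) (nat_lit 164) (nat_lit 1) (nat_lit 186) (nat_lit 221) (nat_lit 193)) (XT.nd (nat_lit 94) (nat_lit 756) (nat_lit 0) (XT.lf (nat_lit 756) (nat_lit 534433478) (nat_lit 0) (nat_lit 1962071536) (nat_lit 672) (nat_lit 2785108719) (nat_lit 157) (nat_lit 1) (nat_lit 148) (nat_lit 1) (nat_lit 156) (nat_lit 1) (nat_lit 187) (nat_lit 221) (nat_lit 192)) (XT.lf (nat_lit 84) (nat_lit 732702924) (nat_lit 0) (nat_lit 752546313) (nat_lit 756) (nat_lit 3720291615) (nat_lit 140) (nat_lit 1) (nat_lit 139) (nat_lit 1) (nat_lit 148) (nat_lit 1) (nat_lit 188) (nat_lit 221) (nat_lit 191)))) (XT.nd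 (nat_lit 94) (nat_lit 1176) (nat_lit 0) (XT.lf (nat_lit 756) (nat_lit 3092406191) (nat_lit 0) (nat_lit 1034788745) (nat_lit 672) (nat_lit 1003667093) (nat_lit 140) (nat_lit 1) (nat_lit 131) (nat_lit 1) (nat_lit 139) (nat_lit 1) (nat_lit 189) (nat_lit 221) (nat_lit 190)) (XT.nd (nat_lit 94) (nat_lit 588) (nat_lit 0) (XT.lf (nat_lit 672) (nat_lit 1729509896) (nat_lit 0) (nat_lit 615408858) (nat_lit 588) (nat_lit 2712749703) (nat_lit 132) (nat_lit 1) (nat_lit 124) (nat_lit 1) (nat_lit 131) (nat_lit 1) (nat_lit 190) (nat_lit 221) (nat_lit 189)) (XT.lf (nat_lit 672) (nat_lit 370347075) (nat_lit 0) (nat_lit 231215969) (nat_lit 588) (nat_lit 4384475240) (nat_lit 125) (nat_lit 1) (nat_lit 117) (nat_lit 1) (nat_lit 124) (nat_lit 1) (nat_lit 191) (nat_lit 221) (nat_lit 188))))) (XT.nd (nat_lit 282) (nat_lit 2184) (nat_lit 0) (XT.nd (nat_lit 94) (nat_lit 1176) (nat_lit 0) (XT.lf (nat_lit 84) (nat_lit 3804008619)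 (nat_lit 0) (nat_lit 979189537) (nat_lit 672) (nat_lit 132386326) (nat_lit 117) (nat_lit 1) (nat_lit 116) (nat_lit 1) (nat_lit 124) (nat_lit 1) (nat_lit 192) (nat_lit 221) (nat_lit 187)) (XT.nd (nat_lit 94) (nat_lit 588) (nat_lit 0) (XT.lf (nat_lit 84) (nat_lit 2055208153) (nat_lit 0) (nat_lit 2324092449) (nat_lit 672) (nat_lit 467141052) (nat_lit 110) (nat_lit 1) (nat_lit 109) (nat_lit 1) (nat_lit 117) (nat_lit 1) (nat_lit 193) (nat_lit 221) (nat_lit 186)) (XT.lf (nat_lit 84) (nat_lit 345072514) (nat_lit 0) (nat_lit 3663160686) (nat_lit 672) (nat_lit 770531599) (nat_lit 103) (nat_lit 1) (nat_lit 102) (nat_lit 1) (nat_lit 110) (nat_lit 1) (nat_lit 194) (nat_lit 221) (nat_lit 185)))) (XT.nd (nat_lit 188) (nat_lit 1008) (nat_lit 0) (XT.nd (nat_lit 94) (nat_lit 588) (nat_lit 0) (XT.lf (nat_lit 84) (nat_lit 3367915115) (nat_lit 0) (nat_lit 288975336) (nat_lit 588) (nat_lit 1055371809) (nat_lit 96) (nat_lit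 1) (nat_lit 95) (nat_lit 1) (nat_lit 102) (nat_lit 1) (nat_lit 195) (nat_lit 221) (nat_lit 184)) (XT.lf (nat_lit 84) (nat_lit 1654041681) (nat_lit 0) (nat_lit 1671683047) (nat_lit 672) (nat_lit 1321209636) (nat_lit 89) (nat_lit 1) (nat_lit 88) (nat_lit 1) (nat_lit 96) (nat_lit 1) (nat_lit 196) (nat_lit 221) (nat_lit 183))) (XT.nd (nat_lit 94) (nat_lit 504) (nat_lit 0) (XT.lf (nat_lit 588) (nat_lit 1537124945) (nat_lit 0) (nat_lit 3024167776) (nat_lit 504) (nat_lit 21682120) (nat_lit 89) (nat_lit 1) (nat_lit 82) (nat_lit 1) (nat_lit 88) (nat_lit 1) (nat_lit 197) (nat_lit 221) (nat_lit 182)) (XT.lf (nat_lit 588) (nat_lit 97449891) (nat_lit 0) (nat_lit 2739373687) (nat_lit 504) (nat_lit 1683274406) (nat_lit 83) (nat_lit 1) (nat_lit 76) (nat_lit 1) (nat_lit 82) (nat_lit 1) (nat_lit 198) (nat_lit 221) (nat_lit 181)))))) (XT.nd (nat_lit 36566) (nat_lit 0) (nat_lit 2184) (XT.nd (nat_lit 36284) (nat_lit 0)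 (nat_lit 5880) (XT.nd (nat_lit 36096) (nat_lit 0) (nat_lit 7980) (XT.lf (nat_lit 84) (nat_lit 1160743170) (nat_lit 0) (nat_lit 1312087610) (nat_lit 588) (nat_lit 1985495984) (nat_lit 70) (nat_lit 1) (nat_lit 69) (nat_lit 1) (nat_lit 76) (nat_lit 1) (nat_lit 199) (nat_lit 221) (nat_lit 180)) (XT.nd (nat_lit 94) (nat_lit 756) (nat_lit 0) (XT.lf (nat_lit 84) (nat_lit 2570013817) (nat_lit 0) (nat_lit 1152882721) (nat_lit 840) (nat_lit 1989577964) (nat_lit 174) (nat_lit 1) (nat_lit 173) (nat_lit 1) (nat_lit 183) (nat_lit 1) (nat_lit 182) (nat_lit 222) (nat_lit 196)) (XT.lf (nat_lit 84) (nat_lit 727518901) (nat_lit 0) (nat_lit 2395786479) (nat_lit 840) (nat_lit 2505517782) (nat_lit 165) (nat_lit 1) (nat_lit 164) (nat_lit 1) (nat_lit 174) (nat_lit 1) (nat_lit 183) (nat_lit 222) (nat_lit 195)))) (XT.nd (nat_lit 94) (nat_lit 1428) (nat_lit 0) (XT.lf (nat_lit 756) (nat_lit 1896307488) (nat_lit 0) (nat_lit 2558812518)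 (nat_lit 672) (nat_lit 1091695931) (nat_lit 165) (nat_lit 1) (nat_lit 156) (nat_lit 1) (nat_lit 164) (nat_lit 1) (nat_lit 184) (nat_lit 222) (nat_lit 194)) (XT.nd (nat_lit 94) (nat_lit 756) (nat_lit 0) (XT.lf (nat_lit 756) (nat_lit 553138649) (nat_lit 0) (nat_lit 2030744040) (nat_lit 672) (nat_lit 2882587525) (nat_lit 157) (nat_lit 1) (nat_lit 148) (nat_lit 1) (nat_lit 156) (nat_lit 1) (nat_lit 185) (nat_lit 222) (nat_lit 193)) (XT.lf (nat_lit 84) (nat_lit 758347527) (nat_lit 0) (nat_lit 778885434) (nat_lit 756) (nat_lit 3850501821) (nat_lit 140) (nat_lit 1) (nat_lit 139) (nat_lit 1) (nat_lit 148) (nat_lit 1) (nat_lit 186) (nat_lit 222) (nat_lit 192))))) (XT.nd (nat_lit 282) (nat_lit 1848) (nat_lit 0) (XT.nd (nat_lit 94) (nat_lit 1176) (nat_lit 0) (XT.lf (nat_lit 756) (nat_lit 3200640408) (nat_lit 0) (nat_lit 1071006351) (nat_lit 672) (nat_lit 1038795441) (nat_lit 140) (nat_lit 1) (nat_lit 131) (nat_lit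 1) (nat_lit 139) (nat_lit 1) (nat_lit 187) (nat_lit 222) (nat_lit 191)) (XT.nd (nat_lit 94) (nat_lit 588) (nat_lit 0) (XT.lf (nat_lit 672) (nat_lit 1790042742) (nat_lit 0) (nat_lit 636948168) (nat_lit 588) (nat_lit 2807695943) (nat_lit 132) (nat_lit 1) (nat_lit 124) (nat_lit 1) (nat_lit 131) (nat_lit 1) (nat_lit 188) (nat_lit 222) (nat_lit 190)) (XT.lf (nat_lit 672) (nat_lit 383309222) (nat_lit 0) (nat_lit 239308528) (nat_lit 588) (nat_lit 4537931873) (nat_lit 125) (nat_lit 1) (nat_lit 117) (nat_lit 1) (nat_lit 124) (nat_lit 1) (nat_lit 189) (nat_lit 222) (nat_lit 189)))) (XT.nd (nat_lit 188) (nat_lit 1176) (nat_lit 0) (XT.nd (nat_lit 94) (nat_lit 588) (nat_lit 0) (XT.lf (nat_lit 84) (nat_lit 3937148920) (nat_lit 0) (nat_lit 1013461171) (nat_lit 672) (nat_lit 137019848) (nat_lit 117) (nat_lit 1) (nat_lit 116) (nat_lit 1) (nat_lit 124) (nat_lit 1) (nat_lit 190) (nat_lit 222) (nat_lit 188)) (XT.lf (nat_lit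 84) (nat_lit 2127140438) (nat_lit 0) (nat_lit 2405435685) (nat_lit 672) (nat_lit 483490989) (nat_lit 110) (nat_lit 1) (nat_lit 109) (nat_lit 1) (nat_lit 117) (nat_lit 1) (nat_lit 191) (nat_lit 222) (nat_lit 187))) (XT.nd (nat_lit 94) (nat_lit 588) (nat_lit 0) (XT.lf (nat_lit 84) (nat_lit 357150052) (nat_lit 0) (nat_lit 3791371310) (nat_lit 672) (nat_lit 797500204) (nat_lit 103) (nat_lit 1) (nat_lit 102) (nat_lit 1) (nat_lit 110) (nat_lit 1) (nat_lit 192) (nat_lit 222) (nat_lit 186)) (XT.lf (nat_lit 84) (nat_lit 3485792144) (nat_lit 0) (nat_lit 299089473) (nat_lit 588) (nat_lit 1092309823) (nat_lit 96) (nat_lit 1) (nat_lit 95) (nat_lit 1) (nat_lit 102) (nat_lit 1) (nat_lit 193) (nat_lit 222) (nat_lit 185))))))))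

set_option maxRecDepth 10000000 in
noncomputable def Tp : PT := (PT.nd (nat_lit 2002858) (PT.nd (nat_lit 1587378) (PT.nd (nat_lit 1211848) (PT.nd (nat_lit 948554) (PT.nd (nat_lit 797778) pc0 pc1) (PT.nd (nat_lit 150212) pc2 pc3)) (PT.nd (nat_lit 188564) (PT.nd (nat_lit 112518) pc4 pc5) (PT.nd (nat_lit 111672) pc6 pc7))) (PT.nd (nat_lit 227010) (PT.nd (nat_lit 113928) (PT.nd (nat_lit 39292) pc8 pc9) (PT.nd (nat_lit 74260) pc10 pc11)) (PT.nd (nat_lit 111954) (PT.nd (nat_lit 73602) pc12 pc13) (PT.nd (nat_lit 38258) pc14 pc15)))) (PT.nd (nat_lit 299202) (PT.nd (nat_lit 150964) (PT.nd (nat_lit 75764) (PT.nd (nat_lit 37976) pc16 pc17) (PT.nd (nat_lit 37694) pc18 pc19)) (PT.nd (nat_lit 74448) (PT.nd (nat_lit 37318) pc20 pc21) (PT.nd (nat_lit 36942) pc22 pc23))) (PT.nd (nat_lit 113176) (PT.nd (nat_lit 40232) (PT.nd (nat_lit 3666) pc24 pc25) (PT.nd (nat_lit 36472) pc26 pc27)) (PT.nd (nat_lit 74166) (PT.nd (nat_lit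 36472) pc28 pc29) (PT.nd (nat_lit 38446) pc30 pc31)))))

set_option maxRecDepth 10000000 in
noncomputable def Tx : XT := (XT.nd (nat_lit 6694962) (nat_lit 0) (nat_lit 1932) XT.nil (XT.nd (nat_lit 2298864) (nat_lit 0) (nat_lit 0) (XT.nd (nat_lit 1053740) (nat_lit 0) (nat_lit 6216) (XT.nd (nat_lit 714494) (nat_lit 0) (nat_lit 3024) (XT.nd (nat_lit 489082) (nat_lit 0) (nat_lit 1176) (XT.nd (nat_lit 338400) (nat_lit 0) (nat_lit 420) (XT.nd (nat_lit 225694) (nat_lit 0) (nat_lit 420) xc0 xc1) (XT.nd (nat_lit 75670) (nat_lit 0) (nat_lit 336) xc2 xc3)) (XT.nd (nat_lit 113458) (nat_lit 0) (nat_lit 924) (XT.nd (nat_lit 74166) (nat_lit 0) (nat_lit 924) xc4 xc5) (XT.nd (nat_lit 73226) (nat_lit 0) (nat_lit 420) xc6 xc7))) (XT.nd (nat_lit 186214) (nat_lit 0) (nat_lit 1512) (XT.nd (nat_lit 76798) (nat_lit 0) (nat_lit 504) (XT.nd (nat_lit 38446) (nat_lit 0) (nat_lit 84) xc8 xc9) (XT.nd (nat_lit 71346) (nat_lit 0) (nat_lit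 504) xc10 xc11)) (XT.nd (nat_lit 76328) (nat_lit 0) (nat_lit 504) (XT.nd (nat_lit 38070) (nat_lit 0) (nat_lit 504) xc12 xc13) (XT.nd (nat_lit 38258) (nat_lit 0) (nat_lit 588) xc14 xc15)))) (XT.nd (nat_lit 414634) (nat_lit 0) (nat_lit 5040) (XT.nd (nat_lit 188752) (nat_lit 0) (nat_lit 1764) (XT.nd (nat_lit 77080) (nat_lit 0) (nat_lit 504) (XT.nd (nat_lit 38446) (nat_lit 0) (nat_lit 0) xc16 xc17) (XT.nd (nat_lit 72756) (nat_lit 0) (nat_lit 672) xc18 xc19)) (XT.nd (nat_lit 112518) (nat_lit 0) (nat_lit 1848) (XT.nd (nat_lit 38916) (nat_lit 0) (nat_lit 588) xc20 xc21) (XT.nd (nat_lit 39198) (nat_lit 0) (nat_lit 0) xc22 xc23))) (XT.nd (nat_lit 265174) (nat_lit 0) (nat_lit 4620) (XT.nd (nat_lit 114304) (nat_lit 0) (nat_lit 2268) (XT.nd (nat_lit 74448) (nat_lit 0) (nat_lit 1428) xc24 xc25) (XT.nd (nat_lit 75200) (nat_lit 0) (nat_lit 1512) xc26 xc27)) (XT.nd (nat_lit 188470) (nat_lit 0) (nat_lit 4452) (XT.nd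 (nat_lit 111766) (nat_lit 0) (nat_lit 2520) xc28 xc29) (XT.nd (nat_lit 150118) (nat_lit 0) (nat_lit 2688) xc30 xc31))))) XT.nil))

set_option maxRecDepth 10000000 in
noncomputable def Te : XT := (XT.nd (nat_lit 7220140) (nat_lit 0) (nat_lit 4284) XT.nil (XT.nd (nat_lit 1166164) (nat_lit 0) (nat_lit 0) (XT.nd (nat_lit 750590) (nat_lit 4872) (nat_lit 0) (XT.nd (nat_lit 489740) (nat_lit 6972) (nat_lit 0) (XT.nd (nat_lit 338588) (nat_lit 5124) (nat_lit 0) (XT.nd (nat_lit 225788) (nat_lit 3024) (nat_lit 0) ec0 ec1) (XT.nd (nat_lit 75858) (nat_lit 1596) (nat_lit 0) ec2 ec3)) (XT.nd (nat_lit 148520) (nat_lit 1848) (nat_lit 0) (XT.nd (nat_lit 74542) (nat_lit 2100) (nat_lit 0) ec4 ec5) (XT.nd (nat_lit 39198) (nat_lit 1260) (nat_lit 0) ec6 ec7))) (XT.nd (nat_lit 188282) (nat_lit 1008) (nat_lit 0) (XT.nd (nat_lit 77456) (nat_lit 2100) (nat_lit 0) (XT.nd (nat_lit 38728) (nat_lit 588) (nat_lit 0) ec8 ec9) (XT.nd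 (nat_lit 72286) (nat_lit 504) (nat_lit 0) ec10 ec11)) (XT.nd (nat_lit 77550) (nat_lit 588) (nat_lit 0) (XT.nd (nat_lit 38634) (nat_lit 0) (nat_lit 0) ec12 ec13) (XT.nd (nat_lit 73790) (nat_lit 0) (nat_lit 588) ec14 ec15)))) XT.nil))

set_option maxRecDepth 10000000 in
noncomputable def Tz : ZL := (ZL.cons (nat_lit 3696) (nat_lit 3) (nat_lit 73875725565602469129) (ZL.cons (nat_lit 3948) (nat_lit 6) (nat_lit 145808289586275858510) (ZL.cons (nat_lit 4200) (nat_lit 6) (nat_lit 143956593564641733696) (ZL.cons (nat_lit 4284) (nat_lit 3) (nat_lit 71939113446358342838) (ZL.cons (nat_lit 4536) (nat_lit 6) (nat_lit 142194171445407392992) (ZL.cons (nat_lit 4620) (nat_lit 6) (nat_lit 142040088182250414514) (ZL.cons (nat_lit 4704) (nat_lit 6) (nat_lit 140897968413529731468) (ZL.cons (nat_lit 4788) (nat_lit 6) (nat_lit 140518937270025916530) (ZL.cons (nat_lit 4872) (nat_lit 6) (nat_lit 140291697880074802344) (ZL.cons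 (nat_lit 4956) (nat_lit 3) (nat_lit 70107990644421435943) (ZL.cons (nat_lit 5040) (nat_lit 6) (nat_lit 139376231444074002084) (ZL.cons (nat_lit 5124) (nat_lit 6) (nat_lit 138928908273410500146) (ZL.cons (nat_lit 5208) (nat_lit 6) (nat_lit 138630986635349109914) (ZL.cons (nat_lit 5292) (nat_lit 6) (nat_lit 138482113917323043748) (ZL.cons (nat_lit 5376) (nat_lit 6) (nat_lit 137935508342783904822) (ZL.cons (nat_lit 5460) (nat_lit 6) (nat_lit 137422202537183507232) (ZL.cons (nat_lit 5544) (nat_lit 6) (nat_lit 137055988871962430000) (ZL.cons (nat_lit 5628) (nat_lit 6) (nat_lit 136836433905826087788) (ZL.cons (nat_lit 5712) (nat_lit 3) (nat_lit 68381638889515976040) (ZL.cons (nat_lit 5796) (nat_lit 6) (nat_lit 135997036762285152220) (ZL.cons (nat_lit 5880) (nat_lit 6) (nat_lit 135564840462127179336) (ZL.cons (nat_lit 5964) (nat_lit 6) (nat_lit 135276993468831150124) (ZL.cons (nat_lit 6048) (nat_lit 6) (nat_lit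 135133155093926738370) (ZL.cons (nat_lit 6132) (nat_lit 6) (nat_lit 134651724158305531260) (ZL.cons (nat_lit 6216) (nat_lit 6) (nat_lit 134155776520044277552) (ZL.cons (nat_lit 6300) (nat_lit 6) (nat_lit 133801946891811352688) (ZL.cons (nat_lit 6384) (nat_lit 6) (nat_lit 133589816489747253934) (ZL.cons (nat_lit 6468) (nat_lit 3) (nat_lit 66759567120818488944) (ZL.cons (nat_lit 6552) (nat_lit 6) (nat_lit 133384672447041866538) (ZL.cons (nat_lit 6636) (nat_lit 6) (nat_lit 132827129313028650680) (ZL.cons (nat_lit 6720) (nat_lit 6) (nat_lit 132409548346692444992) (ZL.cons (nat_lit 6804) (nat_lit 6) (nat_lit 132131435309691450586) (ZL.cons (nat_lit 6888) (nat_lit 6) (nat_lit 131992461034421487540) (ZL.cons (nat_lit 6972) (nat_lit 6) (nat_lit 131577326287622719844) (ZL.cons (nat_lit 7056) (nat_lit 6) (nat_lit 131098149825534552006) (ZL.cons (nat_lit 7140) (nat_lit 6) (nat_lit 130756285450430276776) (ZL.cons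 (nat_lit 7224) (nat_lit 6) (nat_lit 130551328540223418078) (ZL.cons (nat_lit 7308) (nat_lit 3) (nat_lit 65241518256531865539) (ZL.cons (nat_lit 7392) (nat_lit 6) (nat_lit 130404888208361632608) (ZL.cons (nat_lit 7476) (nat_lit 6) (nat_lit 129866199189991375738) (ZL.cons (nat_lit 7560) (nat_lit 6) (nat_lit 129462739319135138358) (ZL.cons (nat_lit 7644) (nat_lit 6) (nat_lit 129194031070824998836) (ZL.cons (nat_lit 7728) (nat_lit 6) (nat_lit 129059756408728416184) (ZL.cons (nat_lit 7812) (nat_lit 6) (nat_lit 129308427406987326336) (ZL.cons (nat_lit 7896) (nat_lit 6) (nat_lit 128712238334238239482) (ZL.cons (nat_lit 7980) (nat_lit 6) (nat_lit 128249265907099913070) (ZL.cons (nat_lit 8064) (nat_lit 6) (nat_lit 127918962163037811398) (ZL.cons (nat_lit 8148) (nat_lit 6) (nat_lit 127720936162837947922) (ZL.cons (nat_lit 8232) (nat_lit 3) (nat_lit 63827476763950526135) (ZL.cons (nat_lit 8316) (nat_lit 6) (nat_lit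 127634901459194662472) (ZL.cons (nat_lit 8400) (nat_lit 6) (nat_lit 127114428977677506076) (ZL.cons (nat_lit 8484) (nat_lit 6) (nat_lit 126724612677333315372) (ZL.cons (nat_lit 8568) (nat_lit 6) (nat_lit 126464991181381489746) (ZL.cons (nat_lit 8652) (nat_lit 6) (nat_lit 126335257208341313270) (ZL.cons (nat_lit 8736) (nat_lit 6) (nat_lit 126632913455998878156) (ZL.cons (nat_lit 8820) (nat_lit 6) (nat_lit 126056885366386233856) (ZL.cons (nat_lit 8904) (nat_lit 6) (nat_lit 125609569011663213168) (ZL.cons (nat_lit 8988) (nat_lit 6) (nat_lit 125290434959429298510) (ZL.cons (nat_lit 9072) (nat_lit 6) (nat_lit 125099105490637159884) (ZL.cons (nat_lit 9156) (nat_lit 3) (nat_lit 62517677076266939530) (ZL.cons (nat_lit 9240) (nat_lit 6) (nat_lit 125705088396821017128) (ZL.cons (nat_lit 9324) (nat_lit 6) (nat_lit 125075383391174084994) (ZL.cons (nat_lit 9408) (nat_lit 6) (nat_lit 124572511428355576402) (ZL.cons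 (nat_lit 9492) (nat_lit 6) (nat_lit 124195877321742831760) (ZL.cons (nat_lit 9576) (nat_lit 6) (nat_lit 123945035296668604102) (ZL.cons (nat_lit 9660) (nat_lit 6) (nat_lit 123819688462813361128) (ZL.cons (nat_lit 9744) (nat_lit 6) (nat_lit 124850328131228719118) (ZL.cons (nat_lit 9828) (nat_lit 6) (nat_lit 124168761370959286662) (ZL.cons (nat_lit 9912) (nat_lit 6) (nat_lit 123612212492106490236) (ZL.cons (nat_lit 9996) (nat_lit 6) (nat_lit 123180022777398257690) (ZL.cons (nat_lit 10080) (nat_lit 6) (nat_lit 122871680697945200048) (ZL.cons (nat_lit 10164) (nat_lit 6) (nat_lit 122686821307807868042) (ZL.cons (nat_lit 10248) (nat_lit 3) (nat_lit 61312612906027952946) (ZL.cons (nat_lit 10332) (nat_lit 6) (nat_lit 123335946250693758544) (ZL.cons (nat_lit 10416) (nat_lit 6) (nat_lit 122727535617218461796) (ZL.cons (nat_lit 10500) (nat_lit 6) (nat_lit 122241668986475941416) (ZL.cons (nat_lit 10584) (nat_lit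 6) (nat_lit 121877771298927395870) (ZL.cons (nat_lit 10668) (nat_lit 6) (nat_lit 121635411854411233880) (ZL.cons (nat_lit 10752) (nat_lit 6) (nat_lit 121514303802377182698) (ZL.cons (nat_lit 10836) (nat_lit 6) (nat_lit 122575952331322113898) (ZL.cons (nat_lit 10920) (nat_lit 6) (nat_lit 121917433722366140514) (ZL.cons (nat_lit 11004) (nat_lit 6) (nat_lit 121379705337001119812) (ZL.cons (nat_lit 11088) (nat_lit 6) (nat_lit 120962130733418286432) (ZL.cons (nat_lit 11172) (nat_lit 6) (nat_lit 120664215680806636538) (ZL.cons (nat_lit 11256) (nat_lit 6) (nat_lit 120485607574393755372) (ZL.cons (nat_lit 11340) (nat_lit 3) (nat_lit 60213047509055833170) (ZL.cons (nat_lit 11424) (nat_lit 6) (nat_lit 121887880103133019140) (ZL.cons (nat_lit 11508) (nat_lit 6) (nat_lit 121180947991297164944) (ZL.cons (nat_lit 11592) (nat_lit 6) (nat_lit 120593111630451467606) (ZL.cons (nat_lit 11676) (nat_lit 6) (nat_lit 120123675272246133904)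 (ZL.cons (nat_lit 11760) (nat_lit 6) (nat_lit 119772083303600196176) (ZL.cons (nat_lit 11844) (nat_lit 6) (nat_lit 119537919589091827106) (ZL.cons (nat_lit 11928) (nat_lit 6) (nat_lit 119420906978430908090) (ZL.cons (nat_lit 12012) (nat_lit 6) (nat_lit 121270915181122095872) (ZL.cons (nat_lit 12096) (nat_lit 6) (nat_lit 120517206738001332680) (ZL.cons (nat_lit 12180) (nat_lit 6) (nat_lit 119880956874275754530) (ZL.cons (nat_lit 12264) (nat_lit 6) (nat_lit 119361412540589744192) (ZL.cons (nat_lit 12348) (nat_lit 6) (nat_lit 118957958817321306142) (ZL.cons (nat_lit 12432) (nat_lit 6) (nat_lit 118670118186778649238) (ZL.cons (nat_lit 12516) (nat_lit 6) (nat_lit 118497549968022242318) (ZL.cons (nat_lit 12600) (nat_lit 3) (nat_lit 59220024956821706167) (ZL.cons (nat_lit 12684) (nat_lit 6) (nat_lit 120724327341106287688) (ZL.cons (nat_lit 12768) (nat_lit 6) (nat_lit 119925424375004936094) (ZL.cons (nat_lit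 12852) (nat_lit 6) (nat_lit 119242398179994448948) (ZL.cons (nat_lit 12936) (nat_lit 6) (nat_lit 118674440343428557798) (ZL.cons (nat_lit 13020) (nat_lit 6) (nat_lit 118220878644679443112) (ZL.cons (nat_lit 13104) (nat_lit 6) (nat_lit 117881176259514285886) (ZL.cons (nat_lit 13188) (nat_lit 6) (nat_lit 117654931124723591132) (ZL.cons (nat_lit 13272) (nat_lit 6) (nat_lit 117541875462249273244) (ZL.cons (nat_lit 13356) (nat_lit 3) (nat_lit 58857591781410169795) (ZL.cons (nat_lit 13440) (nat_lit 6) (nat_lit 117749504805849479306) (ZL.cons (nat_lit 13524) (nat_lit 6) (nat_lit 117852509156697971584) (ZL.cons (nat_lit 13608) (nat_lit 6) (nat_lit 118024318528727931794) (ZL.cons (nat_lit 13692) (nat_lit 6) (nat_lit 118265136271196110370) (ZL.cons (nat_lit 13776) (nat_lit 6) (nat_lit 118575247409932964820) (ZL.cons (nat_lit 13860) (nat_lit 6) (nat_lit 118955018984692072578) (ZL.cons (nat_lit 13944) (nat_lit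 6) (nat_lit 119404900483569163024) (ZL.cons (nat_lit 14028) (nat_lit 6) (nat_lit 118676679765578087476) (ZL.cons (nat_lit 14112) (nat_lit 6) (nat_lit 118061945597727287330) (ZL.cons (nat_lit 14196) (nat_lit 6) (nat_lit 117559970396098291832) (ZL.cons (nat_lit 14280) (nat_lit 6) (nat_lit 117170160035452457970) (ZL.cons (nat_lit 14364) (nat_lit 6) (nat_lit 116892053146039262894) (ZL.cons (nat_lit 14448) (nat_lit 6) (nat_lit 116725320567530657172) (ZL.cons (nat_lit 14532) (nat_lit 3) (nat_lit 58334882479717584634) (ZL.cons (nat_lit 14616) (nat_lit 6) (nat_lit 116710618946388441270) (ZL.cons (nat_lit 14700) (nat_lit 6) (nat_lit 116780462675952740590) (ZL.cons (nat_lit 14784) (nat_lit 6) (nat_lit 116920232800365123058) (ZL.cons (nat_lit 14868) (nat_lit 6) (nat_lit 117130094748033709616) (ZL.cons (nat_lit 14952) (nat_lit 6) (nat_lit 117410296906287866462) (ZL.cons (nat_lit 15036) (nat_lit 6) (nat_lit 117761170915363208420)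 (ZL.cons (nat_lit 15120) (nat_lit 6) (nat_lit 118183132060922650750) (ZL.cons (nat_lit 15204) (nat_lit 6) (nat_lit 117523203370091262202) (ZL.cons (nat_lit 15288) (nat_lit 6) (nat_lit 116974451837177357708) (ZL.cons (nat_lit 15372) (nat_lit 6) (nat_lit 116536227973651643034) (ZL.cons (nat_lit 15456) (nat_lit 6) (nat_lit 116208013108757771322) (ZL.cons (nat_lit 15540) (nat_lit 6) (nat_lit 115989418775626665278) (ZL.cons (nat_lit 15624) (nat_lit 6) (nat_lit 115880186251496889540) (ZL.cons (nat_lit 15708) (nat_lit 3) (nat_lit 57887173178558114975) (ZL.cons (nat_lit 15792) (nat_lit 6) (nat_lit 115809868843651389554) (ZL.cons (nat_lit 15876) (nat_lit 6) (nat_lit 115916478346779579064) (ZL.cons (nat_lit 15960) (nat_lit 6) (nat_lit 116094301046830587880) (ZL.cons (nat_lit 16044) (nat_lit 6) (nat_lit 116343547410285152708) (ZL.cons (nat_lit 16128) (nat_lit 6) (nat_lit 116664512438877797062) (ZL.cons (nat_lit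 16212) (nat_lit 6) (nat_lit 117057576018753473592) (ZL.cons (nat_lit 16296) (nat_lit 6) (nat_lit 116463629962858980696) (ZL.cons (nat_lit 16380) (nat_lit 6) (nat_lit 115978629768048357026) (ZL.cons (nat_lit 16464) (nat_lit 6) (nat_lit 115602001400274604502) (ZL.cons (nat_lit 16548) (nat_lit 6) (nat_lit 115333299091662821822) (ZL.cons (nat_lit 16632) (nat_lit 6) (nat_lit 115172204812910545762) (ZL.cons (nat_lit 16716) (nat_lit 3) (nat_lit 57559263948438128964) (ZL.cons (nat_lit 16800) (nat_lit 6) (nat_lit 114939578889316073886) (ZL.cons (nat_lit 16884) (nat_lit 6) (nat_lit 115011867149415123680) (ZL.cons (nat_lit 16968) (nat_lit 6) (nat_lit 115156529228181939538) (ZL.cons (nat_lit 17052) (nat_lit 6) (nat_lit 115373736344018926624) (ZL.cons (nat_lit 17136) (nat_lit 6) (nat_lit 115663745577811978960) (ZL.cons (nat_lit 17220) (nat_lit 6) (nat_lit 116026900177204957886) (ZL.cons (nat_lit 17304) (nat_lit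 6) (nat_lit 115496705459413745814) (ZL.cons (nat_lit 17388) (nat_lit 6) (nat_lit 115073300760355084294) (ZL.cons (nat_lit 17472) (nat_lit 6) (nat_lit 114756184948863420802) (ZL.cons (nat_lit 17556) (nat_lit 6) (nat_lit 114544982694630468106) (ZL.cons (nat_lit 17640) (nat_lit 6) (nat_lit 114439444023973679950) (ZL.cons (nat_lit 17724) (nat_lit 3) (nat_lit 57084281379809599323) (ZL.cons (nat_lit 17808) (nat_lit 6) (nat_lit 114205328533183088836) (ZL.cons (nat_lit 17892) (nat_lit 6) (nat_lit 114315669368920764978) (ZL.cons (nat_lit 17976) (nat_lit 6) (nat_lit 114499715863473559106) (ZL.cons (nat_lit 18060) (nat_lit 6) (nat_lit 114757685849649033700) (ZL.cons (nat_lit 18144) (nat_lit 6) (nat_lit 115089884654242420608) (ZL.cons (nat_lit 18228) (nat_lit 6) (nat_lit 114621285432203170686) (ZL.cons (nat_lit 18312) (nat_lit 6) (nat_lit 114257393289426598198) (ZL.cons (nat_lit 18396) (nat_lit 6) (nat_lit 113997777532313764690)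 (ZL.cons (nat_lit 18480) (nat_lit 6) (nat_lit 113842130886176299898) (ZL.cons (nat_lit 18564) (nat_lit 3) (nat_lit 56895134565776899788) (ZL.cons (nat_lit 18648) (nat_lit 6) (nat_lit 113495907899238175746) (ZL.cons (nat_lit 18732) (nat_lit 6) (nat_lit 113570726248440692284) (ZL.cons (nat_lit 18816) (nat_lit 6) (nat_lit 113720451499964346696) (ZL.cons (nat_lit 18900) (nat_lit 6) (nat_lit 113945260864855628332) (ZL.cons (nat_lit 18984) (nat_lit 6) (nat_lit 114245420421831437498) (ZL.cons (nat_lit 19068) (nat_lit 6) (nat_lit 113836333756074276608) (ZL.cons (nat_lit 19152) (nat_lit 6) (nat_lit 113529941667676534104) (ZL.cons (nat_lit 19236) (nat_lit 6) (nat_lit 113325881518659188500) (ZL.cons (nat_lit 19320) (nat_lit 6) (nat_lit 113223911788556011542) (ZL.cons (nat_lit 19404) (nat_lit 3) (nat_lit 56441382797569620939) (ZL.cons (nat_lit 19488) (nat_lit 6) (nat_lit 112920818170777868226) (ZL.cons (nat_lit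 19572) (nat_lit 6) (nat_lit 113035020935766363034) (ZL.cons (nat_lit 19656) (nat_lit 6) (nat_lit 113225509057628504954) (ZL.cons (nat_lit 19740) (nat_lit 6) (nat_lit 113492507993320121162) (ZL.cons (nat_lit 19824) (nat_lit 6) (nat_lit 113140921381941790256) (ZL.cons (nat_lit 19908) (nat_lit 6) (nat_lit 112890084901639535656) (ZL.cons (nat_lit 19992) (nat_lit 6) (nat_lit 112739701668656477886) (ZL.cons (nat_lit 20076) (nat_lit 3) (nat_lit 56344796846587900625) (ZL.cons (nat_lit 20160) (nat_lit 6) (nat_lit 112365175921057764342) (ZL.cons (nat_lit 20244) (nat_lit 6) (nat_lit 112442612912482368960) (ZL.cons (nat_lit 20328) (nat_lit 6) (nat_lit 112597578547809351276) (ZL.cons (nat_lit 20412) (nat_lit 6) (nat_lit 112830256240471827768) (ZL.cons (nat_lit 20496) (nat_lit 6) (nat_lit 112534225237188984766) (ZL.cons (nat_lit 20580) (nat_lit 6) (nat_lit 112337065672921018000) (ZL.cons (nat_lit 20664) (nat_lit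 6) (nat_lit 112238544194560460552) (ZL.cons (nat_lit 20748) (nat_lit 3) (nat_lit 55951570927535887355) (ZL.cons (nat_lit 20832) (nat_lit 6) (nat_lit 111942526270857752980) (ZL.cons (nat_lit 20916) (nat_lit 6) (nat_lit 112060726132620845106) (ZL.cons (nat_lit 21000) (nat_lit 6) (nat_lit 112257881338748161994) (ZL.cons (nat_lit 21084) (nat_lit 6) (nat_lit 112015527251499606826) (ZL.cons (nat_lit 21168) (nat_lit 6) (nat_lit 111870229441854140382) (ZL.cons (nat_lit 21252) (nat_lit 3) (nat_lit 55910907969487129785) (ZL.cons (nat_lit 21336) (nat_lit 6) (nat_lit 111534169120906051182) (ZL.cons (nat_lit 21420) (nat_lit 6) (nat_lit 111614316407030516960) (ZL.cons (nat_lit 21504) (nat_lit 6) (nat_lit 111774705839593943658) (ZL.cons (nat_lit 21588) (nat_lit 6) (nat_lit 111584213506967888812) (ZL.cons (nat_lit 21672) (nat_lit 6) (nat_lit 111489023672803099004) (ZL.cons (nat_lit 21756) (nat_lit 3) (nat_lit 55608529070681413988)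 (ZL.cons (nat_lit 21840) (nat_lit 6) (nat_lit 111257821011701315484) (ZL.cons (nat_lit 21924) (nat_lit 6) (nat_lit 111380157868626115834) (ZL.cons (nat_lit 22008) (nat_lit 6) (nat_lit 111239773511480737624) (ZL.cons (nat_lit 22092) (nat_lit 3) (nat_lit 55596498590097914314) (ZL.cons (nat_lit 22176) (nat_lit 6) (nat_lit 110990818007638768914) (ZL.cons (nat_lit 22260) (nat_lit 6) (nat_lit 111073770448777590994) (ZL.cons (nat_lit 22344) (nat_lit 6) (nat_lit 110981799594512093596) (ZL.cons (nat_lit 22428) (nat_lit 3) (nat_lit 55406495688397295332) (ZL.cons (nat_lit 22512) (nat_lit 6) (nat_lit 110855180947594925236) (ZL.cons (nat_lit 22596) (nat_lit 3) (nat_lit 55404993212307168417) (ZL.cons (nat_lit 22680) (nat_lit 6) (nat_lit 110724130648035655982) (ZL.cons (nat_lit 22764) (nat_lit 1) (nat_lit 18446744073709551617) ZL.nil))))))))))))))))))))))))))))))))))))))))))))))))))))))))))))))))))))))))))))))))))))))))))))))))))))))))))))))))))))))))))))))))))))))))))))))))))))))))))))))))))))))))))))))))))))))))))))))))))))))))))))))))))))))))))))))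

noncomputable def vl : XL := ⟨(nat_lit 0), (nat_lit 0), (nat_lit 536870912), (nat_lit 0), (nat_lit 0), (nat_lit 0), (nat_lit 0), (nat_lit 0), (nat_lit 0), (nat_lit 1), (nat_lit 0), (nat_lit 1), (nat_lit 0), (nat_lit 0), (nat_lit 0), (nat_lit 0)⟩

noncomputable def cp0 : Nat := (nat_lit 15562420535332757974608069732290168826981026388128593650579667635162248538158184988450835274913797276808374810505520514508174131159563740491551001411332094200947121671869755057644195170699052221922797529820242093822470007868793013120730760814241773492555249437420864424230062763858947270916826898574852160639102288037116959843064616680837329565689543509463167114497476974056148413412605453038904843932665879753647330538499910842274465625566573450132225124700474206401584438577111404558282398694788539951607212967879466572849071492378334570409300192405788503715187399981012421368994866981673141411060731616640233320241028539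978554925532270877253431885360631836043727970586588106348255239783840324959977705337930091248725096727026385180226881350873384997970805927733894735901563448106475345786354904021376723195808671003957015372649551833648545502563496252295865763015357494168061381475844689701182125427707016571631900509033217524460932280554452430484889851422905589659371391812652724798262789479988037522076440435484281106256662595165430283178089400591575036092596274933006346420139514223153415294767034679640632524677356932260653745689622684118084283590985852623182345479196090927977805884038349918302347156486458491378580928805535630097471655971164088659889665858990197932259201443840211794772111925051161120190424370851597761876132722572735257020022013523514764418434162612025275843998911182890194232942131956151326377696455278468550123956562421634822372310709451218316368475702390598703541430988075621387614742959563064204370353086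164177463527066187312750799342911561277145075689755345693268412333526393335730413904614077447638176689436522186681075366924083430800138994181909015432976409837259555060680894608047897416407505753709123092984974744114309940547707217249174708391624733529239656075431064787938527445959635515004269466720758851031541526328207112610518921611142162901813124962295172253399745856735354105489788352799237962438844122552847781589584465827833258721543008128929677726974209684202903336396391076679067912123629941694039988874362211198577645273876836058334239504539297306674293613900305466417353570342582366417217348845276822025102946266115809077082999776400246767111331517531512457016109037401137171094427654080673161128229970809930233568550326844171862573237439562091732110957997772594391414437193326565341384174912722462240273593984104004456709575925986765067534634746686698794673792593666803246631144960474591060760451040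610415596414640723930707485399363079508522434280493932127521747794040351237680174623031568400608417284804016399225614844849852587845232381446252318482485408110491913331030970998457041099043971855375173983374593318572789036216177973190318879472266661518761195905949948518867574046029702179800445066463179789949160579065297518948854637909909243593362934307679189852989418663857896552790209854811672768239311437605902864850540419324364443246621450188128890943417523646523699163516128605490322972201888122141176294295876929696595483621869431046608001330303009626159201653560919283509006793060154171324064668458148436108003383161865458441271222405440923881062329371950089281835803180315285843134182944334134033642591323640237975912196665527228183436825437665993073290584157708066002655367447115956355466790673465153266059169556451805443565475826501525972170226902591680118663929152554627452712807854936045872665003125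409594971545359354696039190518181591319809586854116315752166005519749743334706878417117587364115991477601252529879072561762344438673687939956526008587878243688887410129878950883048414518748514039359309479622841476701532573234269128811097722687222674535660751807753613236445211426652152189367510418117526941187253595420753237348043204716980703481260190685253501234534370320946836289510346831779292190691018648552892389803495700564674452837362505408124655617613169484055275109889442902740645044122176528041000001177041059818381627446462279894245513371497843815876016604290007681956889860842710939895620107937667748958230839967883009482812224779318801688490781591095103726816240505643350601708635184882665843953898075138741716471327829707433583308879740640553440891281638694118058100615780369478768274768601818004725863930203436538093945168382042486854134141944493233027237135470360941962394426286826040092348433320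938628828312954779252005377010136480822870493370100112495500360206723535694408822964246632291613188244513452844180973530163772540047603135763884763226877175193135889495643495075097791363782985915777066653829990382788704142852249188354533964885053253262073624605463920943868038329442482209908136115547743981627908175441713515146007517947028669595587376058648143180000975116871015124980553764453024032986183591985687343273830383259761141132863649670172325906515891625410951963076858382788321871559945042345382911509803435479515430532606583496133463690154420115334576758555672936303210610633795305263156978920117272628740324173082265448781133542016589976975899436416081621304040037855214400429575867882718837107975115176121415534363718453161965241141257102855715899612910650918866016264423893892846210692079905914426128100724398002826758173807684914270723239115105597705178731808786774639254712097109663087641325753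363326320311768202875523856078121269939226853971778406517144767752324245069624598568510076482758379733570171327567718639801437914304242335926112958345206676061376497386064853400372982404858945361823237593720603713622984944299185984632044971221920048326731739125535332174520679728068687579940050685082156902209703697565733730141852443814546918721557152570047624986032257767904075938360127189047724939712154589031714744676319164583376043367269548147027711251917412082915243557392338326088445780158148124204635405859795974349412313363078650701677159059103375363031922657656459789540605925734513706928840429800530824463350887932841584004538203015373635385308360971237928564640643331664104223695781620860553487115312451499609540106153268795233928496607090068609844193092918784759415091321034127864547053708200000694563782750141146335016057271987123591612664038014575523174696933824368135725387264866428300043962916578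29314514245119175139338434544903557280739545319930627592359658331708937893237628238365866403467212867038300975107262240337907737319361315666744060115565145344879419986635463893225502839902165132933580808526411453060876014909514852406822926872453550921222320047167115391954553613736717476917913727700843718624112739018869410325002680462437026840954928610831520428030266903902002776001046265007411482696907569224684316796693473052772677822057725941173918808131207205383142480585817182305628579626977468730442184052065545139150124465389748822061867149020059407093316407613393574821255739909656887903191750619978054615473247336175554877275924082564692837748549320067809177688896805549655106148821247324838163083446614326456881461413813641082108628216156869064213655481214232348852224)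

noncomputable def cp1 : Nat := (nat_lit 547826764694184565153942896828789365248649639232498462145618143007007005261675354066108195504417150922169850432453659213263533427280143947558103162220079279603498485504803009209021559205189602019210238440079257923048765765901338945329456727145252774914506786595212112713159431404761916937742961706795759222831058480580170502743332297585699246905021355224124508571763581495795006557853597766067463007099912101716206394805924455574404050985811520384633943706393998757861035797729646651944617109190004853430606264091706043625221164350775271579486139728503044808436235023096848729048808466306226715485906793459427895841074877918937211238129682805918895758652184559101250298453798370681932526298071208844009963709128087984851817183221996611363804330453393394798755080009987059273775813770938855223720233660614299755271593173746626993903796932959304357872528520356708652400428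977529937237851160106217664302945901951086074740131161591760205503543206039746219300356206415479131035209015029467393956772144064345960982392830164061782257352839793229800772746343057191153481910212028795126937574983832449579551088081098868712347660224501888559934506590524753449504922047359575106539917240028477570079895918731332158995223744381099733592565651620493417001343512196111995666785675300531115231868672917099394887469004741454403370906583816190461456535484905966158962353351436743455672741022617785627072938673345801903232747366597971259398527055904926825260349027395242581908225186617480464676300138200579450600404484367628501347016325039130047614576293106349531460333179293632413402816535659976889020417677143667960924666515827369305289175360952328251740932032585574431496526811411028279512442921361624155016517390575687859333504917036319165449125857301679439473185738275512678102409720227818529567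389020795482351243786489474678128910882729623037251349370146505316650853846718545427558066046579750858032699869221915111778471568598960700838105491447792519384598505226067170792226495863741871974802118557915846680130341772413284684636069661081116231751194813000840931057986276474819973791760387285804474056725594507864034740051007804538482288299629495928728377610850559790335264329636585057399061189229418824882973265432308701475353524733627219755757236548472857900873746401677628699757023330679710685784211933068228466416646274591250909145691235444903023846531865129113923841417775840247688701332649960514209911492825588480080427648780263419999415752026337313359581792717251594911473841688481280002048658715426346395415375165930121385857839991572417187755243323096088930065151139610315528286011925011100736057733111244499521090128037037342603027744087969822835529500555945206579989185163769044479493924420356413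888016095998362731196937347775910858880267666983612319969015951426911557673554185806021831806518833447089551764663652076304906106319424783150733712955850915133678244493513910486939505000442613145453381691300613646935107139189625785950229695054234985998444708063124857855116886494903554741155606884838957471708471174551073419188313438837245031825771189684486083163597997904000309298430005013199361703288104747549998736797951768539727653936652331180448498372208870590940743020407312680451168496802992506796444904980624090151152368221724777101859608805152798606414120251067612912555767318371856852655621002193675682063366873079383446444884493731776485986886246414831459331048308736150953640776615423911180598211300145637404427052672551918636204825486646451833275147919128813119774390122748822303171823116198532789978556262858237474586612115844877428495012749084376761211842256232540365383706165280898334377784275032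590944098455459251638926811210111909221481363646181445553150963646921215586439921461793005169804161010808608472487470460179633948443969350794685194569465182820857458858629065841207099173517106007816669711611075448091046524354914375862692463987615913641887976328977873908354279156529657500498927216924903080523157925919431785568579702004318510482507763796357549834506506853610807017070287711764325732893836977768015474827283236897188197660579742203230791295650368094467178310060041413512840427490206130432919405660061915973920975022297408593599042132720812723972150172838697165925592914024380340641070664867870270577952517985848494444073623901143848308821058474350276175853478520703735477055530234903676820652893566502569089443020523129665519242006098515653596393711460237364159231860604340841234543018404071344450449926318438026293146095870425274929442226452701052937263613426926189043219526431799868609419370963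966255361640837819817052108860117592591796320584615689422923711184340942133991633601143935300435404928786634060342721477230789878808722226104457212870211120768006359676099119435085265000677548151893339519405983440542703245219018936709011672847248369241135452487936265808689146806799294745994537486928423125315971696063886951247705553966309093752531826909852891855875998280470106695366510591618373086921259768948025283871416141512424321438852269770643035944489961801825508674392781409674809338919906005239377199689637663027454539159184287904807796390218893450337623296400067161668088712896859572947088311294399105385201390291467232959621176779994199025903301486058829658499313343298534543187654923829056993580936497329569554787733335176588856077217940512097625516311794164493656530008568884499286773199780555698786259294052115759519037606934678048824055046846113686979365597050637767624221951527576008496266962314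839490785321188915732545636532446566916100165806662972285265761167469616783814913847887312074863261040909266488144187193463227732324262089837865418925815996585554187505887231188228847617335777907123503234826126791141746111991635124126868710551021420769849145607712938183463068501063269743935490046852185444217575943755825610956049808477652094968478854797800653927088896421036499801604790812427029252826124303916609207054405893967474541024912015882835996067517641910876691745555048001521998550793876600990115162854471304736166423779769666474355224120402598004761045946403603933922897084369860957896000418894089115666389830608679416172935428894583493822947518785044324088513440936201331826273614763190752854499455192648541343561921751543633395267143446958793523280194382968463113603665975204407065685279165130741066029290399154794487004870710127899933274874938159744492888864620749012273386429756265256577838330913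716741162750620968096608826286686917987968189778224180689921176156529733060490125601504579036881305114218390809161233065212162396830865141302718838178859703775135617733207919972338321898829773900534315596507650062650714862223930733416286465461115218111086666509027454092334695067573096310783753699700605116908613084696089501286930306410636478442267737916336418161236238429361128047450436513618612897847058683062958160558197375276058823602216808448961334926993538025521508288429514512253961835098599229578449005164767670432429714135995005217814575945533717589496219381804902105248527569876553953042962920706894678955266579965570447527753730695906929390182270898206893415633805968800005584087052053851274087530252971625937740384227523747804206287940511765419701001674708899343463858793725248762303997185507763310562861426761892575587394914251841736609583498625585407628579807081396202952266658241453737270003071317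733376520660241175223595228982109569797044665019272643992325751148843791094517450611927211547060663981957924824967849444029058169949363163634872183601853914744041960466982446861300281149061660082309674902752778220225029780290222889140449533305332149074538420240122823092253767993602371976652352384926717468162891442468434273432970539588754019675493521926069789681870146313200158752055903846228999051246375358982008164246341755516297488833512905892389216129494338683026426214812173909221084310111132849229263013694143543142303795682964475840653252059059887898384790233201805288731775842688041022593785956030552841729923452897192870183883189477108200263455194198783189667682358716720843221240457465555826152704426251724737517009565577546122257607356337797366072310804662935269427755782083824751627591991618799807684483660451406765370021824031191110598637028196961590700153132480841441393129327877355414076548813041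598586448221657101653139662212956117153769886190802095996007591244013184156665430287530064374928558425061320051800277078470961413887903405788182257975519872320895330481099201115151112081827747695565221761637649096799456295744055772270172716976694399400690821164822099963279373940953290238785115171020647666090536983756245782280603313514127377876894597136363339341368356823895217441819728033503806034820690590158678442116830995128439645264255545435678136631255866834670612408298625257631801408984167975610461828486822432306032486862423507300870607121458364954829373394137783495072104408900931119745066044834700117021725023398292632289083599871202653251267913970969655381465648138171694659605413615448478955770887545721231176906281675935979940699513718156050335583403985786539240128828392207594193860126596630076007593823248563049793731109869758362710378672052612078362516202753870476874319082397946840148868826439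942445026930003356325948333500282508446865481647896139501514048767587792797754601425161764755686894949855361602851544398232747341003561557832447500090886750236427046400052667358848063505596481192216425344424342050885744750739689066052333163376612212794681903395672038822412374006522512044793474292225894214340012596135240875074301505837314357218360169979208325153180988342004764551322181929442308059961629880194177466778957083404579670214767064253630495114969388652014660378445205486220933033402239244634138191071082388109069646906613164456856138559449768213678806098089398522157820746540390662138667808475320215652238158393399121035503010868190515162635082405255395324813195010893946000006817064482944943485834089826064901463803169386711181376981408116322454905493319193114483078023613043891215705655262381166394785674247441948671387924854486737379992438318602234065173919866262920264143744893603194432146614811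200298685242381447732614364964116933721054501295401515691126649118995581753088191249503520729069019061134384899321153908256996176226600359968548107273485279291793074543207956640389102258017467641710370376745583952328104887000708457116350554054630666881137109585087930591234831375546145212751651918259191616766655187835553007920711814461967304001860959585137754695579389511222480016438258247776293890318477287286222129531768488713846038462608834144497894920160271957665741244830534039142299800126929417873118038305608620605667754292699654679220774155840950807357157228405509936961878607884618277373111973531701023486850759921090475920641196955355009269477826374243761977333864645218155001298046062837874141159624455079753759801929821035698413352602269041720405516684265985752461721925689001539356963735894752271397041133310977242100339993114618453440035780760370641610698804566846681474483774550905692437115329198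242428572079534732856935792033111596177373035390004495551070084062678207969383314693511449102175032517136546812910508140479100077914900904275827508535071582997959310979464907221561737673973881393067010716439745141509664650130350572962141332500392879907056801409735854395327905140108521471836880976162718145370356460486601665235417130239972608768467417862220416778027834086389989164067495675051907601970654982197836802383281692120101771299264790046500167262864463137074987376114218954323460853189374510606874927855383499621303585544888192868339047237667000833300185333649254024945816639173926534889234909380015246188504376370694106412309440603291123276202006742045077379665747209139700218973979690376574642947003752411949091484429611274033698203699356037716742397298061284617727632060841849659438659265662100646632421182110790712498810781766331092929881687722419979245345872473240570084343042478296723304269320319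680487574205630817579525022020541391586507595757859251540904272143121656127996363635450604371051318250406657305102035900678451475361400872963091594963056676480408968670708688764317353746934355945006615112963936843715306994422007149452607441628233398862953529608952994505907756733631317290438301039250165643382194377141236664173458462613162472361693016706465427000129922904339238170717805771479970657921763775821245859528929162338124932710827976576089295975273011318355726778309137791655692829917615428613403765065825371423854426496755888014101919164035289310603799143443081482463950048515905146339440361224072210139445763110887727661275518857801563564754721374088457441117020870915132707277671551378887587095826575688160313153803946260090896025929719197498522219890646846930378485256528312797745169875608671300884219355720028161753146651234400101921804473574696505762736731601249620134536621099536632902129054012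296999352702135100181766632970494488295922582689812039479261740663545374778749935971425110586158613233979902200781750042678633659174597451979508504739020327843771135528746370361695232997155211436560972160054674810436978875329104312007982336021700817825660395820632286821908913098735963648513005551613717723225166026922971162171683277917183767856316989180209076105177493747837302879717771413166230661768711351236691099207211478560323229610895118619454449371796756843574907949783410231289685678424650924365756189931924145700784444644859075271133997976499554680633538984313156227799312249273251744788251839325437636785003484452050214353855017762051623003184158051005294907034311117998730099443343397426421228035669639739786197845388316737876426207004056271275827712291354249630238866861747892017293139541961681603563005846205556460183784222829787992328877046907677249169289672174638575334596204205899809469650827372465584313582240892714000920809590029233368206238615432961987924393731097165578244249800304436558668886635080152513804329129359696682053290769453938532196191988378477018981410235815256006760400071340483429263352916066889658969264865868167233903397658109634295777088292456465086968355334552145749818289919741671097179700421350764110829434301429464207268747864122064896)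

noncomputable def rc0 : Nat := (nat_lit 547826764694184565153942896828789365248649639232498462145618143007007005261675354066108195504417150922169850432453659213263533427280143947558103162220079279603498485504803009209021559205189602019210238440079257923048765765901338945329456727145252774914506786595212112713159431404761916937742961706795759222831058480580170502743332297585699246905021355224124508571763581495795006557853597766067463007099912101716206394805924455574404050985811520384633943706393998757861035797729646651944617109190004853430606264091706043625221164350775271579486139728503044808436235023096848729048808466306226715485906793459427895841074877918937211238129682805918895758652184559101250298453798370681932526298071208844009963709128087984851817183221996611363804330453393394798755080009987059273775813770938855223720233660614299755271593173746626993903796932959304357872528520356708652400428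977529937237851160106217664302945901951086074740131161591760205503543206039746219300356206415479131035209015029467393956772144064345960982392830164061782257352839793229800772746343057191153481910212028795126937574983832449579551088081098868712347660224501888559934506590524753449504922047359575106539917240028477570079895918731332158995223744381099733592565651620493417001343512196111995666785675300531115231868672917099394887469004741454403370906583816190461456535484905966158962353351436743455672741022617785627072938673345801903232747366597971259398527055904926825260349027395242581908225186617480464676300138200579450600404484367628501347016325039130047614576293106349531460333179293632413402816535659976889020417677143667960924666515827369305289175360952328251740932032585574431496526811411028279512442921361624155016517390575687859333504917036319165449125857301679439473185738275512678102409720227818529567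389020795482351243786489474678128910882729623037251349370146505316650853846718545427558066046579750858032699869221915111778471568598960700838105491447792519384598505226067170792226495863741871974802118557915846680130341772413284684636069661081116231751194813000840931057986276474819973791760387285804474056725594507864034740051007804538482288299629495928728377610850559790335264329636585057399061189229418824882973265432308701475353524733627219755757236548472857900873746401677628699757023330679710685784211933068228466416646274591250909145691235444903023846531865129113923841417775840247688701332649960514209911492825588480080427648780263419999415752026337313359581792717251594911473841688481280002048658715426346395415375165930121385857839991572417187755243323096088930065151139610315528286011925011100736057733111244499521090128037037342603027744087969822835529500555945206579989185163769044479493924420356413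888016095998362731196937347775910858880267666983612319969015951426911557673554185806021831806518833447089551764663652076304906106319424783150733712955850915133678244493513910486939505000442613145453381691300613646935107139189625785950229695054234985998444708063124857855116886494903554741155606884838957471708471174551073419188313438837245031825771189684486083163597997904000309298430005013199361703288104747549998736797951768539727653936652331180448498372208870590940743020407312680451168496802992506796444904980624090151152368221724777101859608805152798606414120251067612912555767318371856852655621002193675682063366873079383446444884493731776485986886246414831459331048308736150953640776615423911180598211300145637404427052672551918636204825486646451833275147919128813119774390122748822303171823116198532789978556262858237474586612115844877428495012749084376761211842256232540365383706165280898334377784275032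590944098455459251638926811210111909221481363646181445553150963646921215586439921461793005169804161010808608472487470460179633948443969350794685194569465182820857458858629065841207099173517106007816669711611075448091046524354914375862692463987615913641887976328977873908354279156529657500498927216924903080523157925919431785568579702004318510482507763796357549834506506853610807017070287711764325732893836977768015474827283236897188197660579742203230791295650368094467178310060041413512840427490206130432919405660061915973920975022297408593599042132720812723972150172838697165925592914024380340641070664867870270577952517985848494444073623901143848308821058474350276175853478520703735477055530234903676820652893566502569089443020523129665519242006098515653596393711460237364159231860604340841234543018404071344450449926318438026293146095870425274929442226452701052937263613426926189043219526431799868609419370963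966255361640837819817052108860117592591796320584615689422923711184340942133991633601143935300435404928786634060342721477230789878808722226104457212870211120768006359676099119435085265000677548151893339519405983440542703245219018936709011672847248369241135452487936265808689146806799294745994537486928423125315971696063886951247705553966309093752531826909852891855875998280470106695366510591618373086921259768948025283871416141512424321438852269770643035944489961801825508674392781409674809338919906005239377199689637663027454539159184287904807796390218893450337623296400067161668088712896859572947088311294399105385201390291467232959621176779994199025903301486058829658499313343298534543187654923829056993580936497329569554787733335176588856077217940512097625516311794164493656530008568884499286773199780555698786259294052115759519037606934678048824055046846113686979365597050637767624221951527576008496266962314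839490785321188915732545636532446566916100165806662972285265761167469616783814913847887312074863261040909266488144187193463227732324262089837865418925815996585554187505887231188228847617335777907123503234826126791141746111991635124126868710551021420769849145607712938183463068501063269743935490046852185444217575943755825610956049808477652094968478854797800653927088896421036499801604790812427029252826124303916609207054405893967474541024912015882835996067517641910876691745555048001521998550793876600990115162854471304736166423779769666474355224120402598004761045946403603933922897084369860957896000418894089115666389830608679416172935428894583493822947518785044324088513440936201331826273614763190752854499455192648541343561921751543633395267143446958793523280194382968463113603665975204407065685279165130741066029290399154794487004870710127899933274874938159744492888864620749012273386429756265256577838330913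716741162750620968096608826286686917987968189778224180689921176156529733060490125601504579036881305114218390809161233065212162396830865141302718838178859703775135617733207919972338321898829773900534315596507650062650714862223930733416286465461115218111086666509027454092334695067573096310783753699700605116908613084696089501286930306410636478442267737916336418161236238429361128047450436513618612897847058683062958160558197375276058823602216808448961334926993538025521508288429514512253961835098599229578449005164767670432429714135995005217814575945533717589496219381804902105248527569876553953042962920706894678955266579965570447527753730695906929390182270898206893415633805968800005584087052053851274087530252971625937740384227523747804206287940511765419701001674708899343463858793725248762303997185507763310562861426761892575587394914251841736609583498625585407628579807081396202952266658241453737270003071317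733376520660241175223595228982109569797044665019272643992325751148843791094517450611927211547060663981957924824967849444029058169949363163634872183601853914744041960466982446861300281149061660082309674902752778220225029780290222889140449533305332149074538420240122823092253767993602371976652352384926717468162891442468434273432970539588754019675493521926069789681870146313200158752055903846228999051246375358982008164246341755516297488833512905892389216129494338683026426214812173909221084310111132849229263013694143543142303795682964475840653252059059887898384790233201805288731775842688041022593785956030552841729923452897192870183883189477108200263455194198783189667682358716720843221240457465555826152704426251724737517009565577546122257607356337797366072310804662935269427755782083824751627591991618799807684483660451406765370021824031191110598637028196961590700153132480841441393129327877355414076548813041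598586448221657101653139662212956117153769886190802095996007591244013184156665430287530064374928558425061320051800277078470961413887903405788182257975519872320895330481099201115151112081827747695565221761637649096799456295744055772270172716976694399400690821164822099963279373940953290238785115171020647666090536983756245782280603313514127377876894597136363339341368356823895217441819728033503806034820690590158678442116830995128439645264255545435678136631255866834670612408298625257631801408984167975610461828486822432306032486862423507300870607121458364954829373394137783495072104408900931119745066044834700117021725023398292632289083599871202653251267913970969655381465648138171694659605413615448478955770887545721231176906281675935979940699513718156050335583403985786539240128828392207594193860126596630076007593823248563049793731109869758362710378672052612078362516202753870476874319082397946840148868826439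942445026930003356325948333500282508446865481647896139501514048767587792797754601425161764755686894949855361602851544398232747341003561557832447500090886750236427046400052667358848063505596481192216425344424342050885744750739689066052333163376612212794681903395672038822412374006522512044793474292225894214340012596135240875074301505837314357218360169979208325153180988342004764551322181929442308059961629880194177466778957083404579670214767064253630495114969388652014660378445205486220933033402239244634138191071082388109069646906613164456856138559449768213678806098089398522157820746540390662138667808475320215652238158393399121035503010868190515162635082405255395324813195010893946000006817064482944943485834089826064901463803169386711181376981408116322454905493319193114483078023613043891215705655262381166394785674247441948671387924854486737379992438318602234065173919866262920264143744893603194432146614811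200298685242381447732614364964116933721054501295401515691126649118995581753088191249503520729069019061134384899321153908256996176226600359968548107273485279291793074543207956640389102258017467641710370376745583952328104887000708457116350554054630666881137109585087930591234831375546145212751651918259191616766655187835553007920711814461967304001860959585137754695579389511222480016438258247776293890318477287286222129531768488713846038462608834144497894920160271957665741244830534039142299800126929417873118038305608620605667754292699654679220774155840950807357157228405509936961878607884618277373111973531701023486850759921090475920641196955355009269477826374243761977333864645218155001298046062837874141159624455079753759801929821035698413352602269041720405516684265985752461721925689001539356963735894752271397041133310977242100339993114618453440035780760370641610698804566846681474483774550905692437115329198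242428572079534732856935792033111596177373035390004495551070084062678207969383314693511449102175032517136546812910508140479100077914900904275827508535071582997959310979464907221561737673973881393067010716439745141509664650130350572962141332500392879907056801409735854395327905140108521471836880976162718145370356460486601665235417130239972608768467417862220416778027834086389989164067495675051907601970654982197836802383281692120101771299264790046500167262864463137074987376114218954323460853189374510606874927855383499621303585544888192868339047237667000833300185333649254024945816639173926534889234909380015246188504376370694106412309440603291123276202006742045077379665747209139700218973979690376574642947003752411949091484429611274033698203699356037716742397298061284617727632060841849659438659265662100646632421182110790712498810781766331092929881687722419979245345872473240570084343042478296723304269320319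680487574205630817579525022020541391586507595757859251540904272143121656127996363635450604371051318250406657305102035900678451475361400872963091594963056676480408968670708688764317353746934355945006615112963936843715306994422007149452607441628233398862953529608952994505907756733631317290438301039250165643382194377141236664173458462613162472361693016706465427000129922904339238170717805771479970657921763775821245859528929162338124932710827976576089295975273011318355726778309137791655692829917615428613403765065825371423854426496755888014101919164035289310603799143443081482463950048515905146339440361224072210139445763110887727661275518857801563564754721374088457441117020870915132707277671551378887587095826575688160313153803946260090896025929719197498522219890646846930378485256528312797745169875608671300884219355720028161753146651234400101921804473574696505762736731601249620134536621099536632902129054012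296999352702135100181766632970494488295922582689812039479261740663545374778749935971425110586158613233979902200781750042678633659174597451979508504739020327843771135528746370361695232997155211436560972160054674810436978875329104312007982336021700817825660395820632286821908913098735963648513005551613717723225166026922971162171683277917183767856316989180209076105177493747837302879717771413166230661768711351236691099207211478560323229610895118619454449371796756843574907949783410231289685678424650924365756189931924145700784444644859075271133997976499554680633538984313156227799312249273251744788251839325437636785003484452050214353855017762051623003184158051005294907034311117998730099443343397426421228035669639739786197845388316737876426207004056271275827712291354249630238866861747892017293139541961681603563005846205556460183784222829787992328877046907677249169289672174638575334596204205899809469650827372465584313582240892714000920809590029233368206238615432961987924393731097165578244249800304436558668886635080152513804329129359696682053290769453938532196191988378477018981410235815256006760400071340483429263352916066889658969264865868167233903397658109634295777088292456465086968355334552145749818289919741671097179700421350764110829434301429464207268747864122064896)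

end Vale.Agent.Lib.P154.Chain.D4.S6
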