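import Vale.Agent.Lib.P154.Chain.D4.R6_0

set_option linter.all false

namespace Vale.Agent.Lib.P154.Chain.D4.S7

noncomputable def pc0 : PT := (PT.nd (nat_lit 414728) (PT.nd (nat_lit 279650) (PT.nd (nat_lit 234342) (PT.nd (nat_lit 189222) (PT.nd (nat_lit 189128) (PT.nd (nat_lit 189034) PT.nil (PT.lf (nat_lit 1932) (nat_lit 6) (nat_lit 23) (nat_lit 3) (nat_lit 87) (nat_lit 4) (nat_lit 89))) (PT.lf (nat_lit 2016) (nat_lit 3) (nat_lit 24) (nat_lit 1) (nat_lit 88) (nat_lit 4) (nat_lit 88))) (PT.nd (nat_lit 44932) (PT.lf (nat_lit 1932) (nat_lit 6) (nat_lit 23) (nat_lit 1) (nat_lit 89) (nat_lit 4) (nat_lit 87)) (PT.nd (nat_lit 94) (PT.lf (nat_lit 2352) (nat_lit 6) (nat_lit 28) (nat_lit 3) (nat_lit 86) (nat_lit 5) (nat_lit 89)) (PT.lf (nat_lit 2436) (nat_lit 6) (nat_lit 29) (nat_lit 3) (nat_lit 87) (nat_lit 5) (nat_lit 88))))) (PT.nd (nat_lit 45026) (PT.nd (nat_lit 94) (PT.lf (nat_lit 2436) (nat_lit 6) (nat_lit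 29) (nat_lit 1) (nat_lit 88) (nat_lit 5) (nat_lit 87)) (PT.nd (nat_lit 44838) (PT.lf (nat_lit 2352) (nat_lit 6) (nat_lit 28) (nat_lit 1) (nat_lit 89) (nat_lit 5) (nat_lit 86)) (PT.lf (nat_lit 2688) (nat_lit 6) (nat_lit 32) (nat_lit 3) (nat_lit 85) (nat_lit 6) (nat_lit 89)))) (PT.nd (nat_lit 94) (PT.lf (nat_lit 2772) (nat_lit 6) (nat_lit 33) (nat_lit 3) (nat_lit 86) (nat_lit 6) (nat_lit 88)) (PT.nd (nat_lit 94) (PT.lf (nat_lit 2856) (nat_lit 3) (nat_lit 34) (nat_lit 1) (nat_lit 87) (nat_lit 6) (nat_lit 87)) (PT.lf (nat_lit 2772) (nat_lit 6) (nat_lit 33) (nat_lit 1) (nat_lit 88) (nat_lit 6) (nat_lit 86)))))) (PT.nd (nat_lit 45214) (PT.nd (nat_lit 44932) (PT.nd (nat_lit 44744) (PT.lf (nat_lit 2688) (nat_lit 6) (nat_lit 32) (nat_lit 1) (nat_lit 89) (nat_lit 6) (nat_lit 85)) (PT.nd (nat_lit 94) (PT.lf (nat_lit 3108) (nat_lit 6) (nat_lit 37) (nat_lit 3) (nat_lit 84) (nat_lit 7) (nat_lit 89)) (PT.lf (nat_lit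 3192) (nat_lit 6) (nat_lit 38) (nat_lit 3) (nat_lit 85) (nat_lit 7) (nat_lit 88)))) (PT.nd (nat_lit 94) (PT.lf (nat_lit 3276) (nat_lit 6) (nat_lit 39) (nat_lit 3) (nat_lit 86) (nat_lit 7) (nat_lit 87)) (PT.nd (nat_lit 94) (PT.lf (nat_lit 3276) (nat_lit 6) (nat_lit 39) (nat_lit 1) (nat_lit 87) (nat_lit 7) (nat_lit 86)) (PT.lf (nat_lit 3192) (nat_lit 6) (nat_lit 38) (nat_lit 1) (nat_lit 88) (nat_lit 7) (nat_lit 85))))) (PT.nd (nat_lit 44932) (PT.nd (nat_lit 44744) (PT.lf (nat_lit 3108) (nat_lit 6) (nat_lit 37) (nat_lit 1) (nat_lit 89) (nat_lit 7) (nat_lit 84)) (PT.nd (nat_lit 94) (PT.lf (nat_lit 3612) (nat_lit 6) (nat_lit 43) (nat_lit 3) (nat_lit 84) (nat_lit 8) (nat_lit 88)) (PT.lf (nat_lit 3696) (nat_lit 6) (nat_lit 44) (nat_lit 3) (nat_lit 85) (nat_lit 8) (nat_lit 87)))) (PT.nd (nat_lit 94) (PT.lf (nat_lit 3780) (nat_lit 3) (nat_lit 45) (nat_lit 1) (nat_lit 86) (nat_lit 8) (nat_lit 86)) (PT.nd (nat_lit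 94) (PT.lf (nat_lit 3696) (nat_lit 6) (nat_lit 44) (nat_lit 1) (nat_lit 87) (nat_lit 8) (nat_lit 85)) (PT.lf (nat_lit 3612) (nat_lit 6) (nat_lit 43) (nat_lit 1) (nat_lit 88) (nat_lit 8) (nat_lit 84))))))) (PT.nd (nat_lit 45402) (PT.nd (nat_lit 470) (PT.nd (nat_lit 188) (PT.nd (nat_lit 94) (PT.lf (nat_lit 4032) (nat_lit 6) (nat_lit 48) (nat_lit 3) (nat_lit 83) (nat_lit 9) (nat_lit 88)) (PT.lf (nat_lit 4116) (nat_lit 6) (nat_lit 49) (nat_lit 3) (nat_lit 84) (nat_lit 9) (nat_lit 87))) (PT.nd (nat_lit 94) (PT.lf (nat_lit 4200) (nat_lit 6) (nat_lit 50) (nat_lit 3) (nat_lit 85) (nat_lit 9) (nat_lit 86)) (PT.nd (nat_lit 94) (PT.lf (nat_lit 4200) (nat_lit 6) (nat_lit 50) (nat_lit 1) (nat_lit 86) (nat_lit 9) (nat_lit 85)) (PT.lf (nat_lit 4116) (nat_lit 6) (nat_lit 49) (nat_lit 1) (nat_lit 87) (nat_lit 9) (nat_lit 84))))) (PT.nd (nat_lit 44650) (PT.nd (nat_lit 44462) (PT.lf (nat_lit 4032) (nat_lit 6) (nat_lit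 48) (nat_lit 1) (nat_lit 88) (nat_lit 9) (nat_lit 83)) (PT.nd (nat_lit 94) (PT.lf (nat_lit 4284) (nat_lit 6) (nat_lit 51) (nat_lit 3) (nat_lit 80) (nat_lit 10) (nat_lit 90)) (PT.lf (nat_lit 4368) (nat_lit 6) (nat_lit 52) (nat_lit 3) (nat_lit 81) (nat_lit 10) (nat_lit 89)))) (PT.nd (nat_lit 94) (PT.lf (nat_lit 4452) (nat_lit 6) (nat_lit 53) (nat_lit 3) (nat_lit 82) (nat_lit 10) (nat_lit 88)) (PT.nd (nat_lit 94) (PT.lf (nat_lit 4536) (nat_lit 6) (nat_lit 54) (nat_lit 3) (nat_lit 83) (nat_lit 10) (nat_lit 87)) (PT.lf (nat_lit 4620) (nat_lit 6) (nat_lit 55) (nat_lit 3) (nat_lit 84) (nat_lit 10) (nat_lit 86)))))) (PT.nd (nat_lit 44744) (PT.nd (nat_lit 282) (PT.nd (nat_lit 94) (PT.lf (nat_lit 4704) (nat_lit 3) (nat_lit 56) (nat_lit 1) (nat_lit 85) (nat_lit 10) (nat_lit 85)) (PT.nd (nat_lit 94) (PT.lf (nat_lit 4620) (nat_lit 6) (nat_lit 55) (nat_lit 1) (nat_lit 86) (nat_lit 10) (nat_lit 84)) (PT.lf (nat_lit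 4536) (nat_lit 6) (nat_lit 54) (nat_lit 1) (nat_lit 87) (nat_lit 10) (nat_lit 83)))) (PT.nd (nat_lit 94) (PT.lf (nat_lit 4452) (nat_lit 6) (nat_lit 53) (nat_lit 1) (nat_lit 88) (nat_lit 10) (nat_lit 82)) (PT.nd (nat_lit 94) (PT.lf (nat_lit 4368) (nat_lit 6) (nat_lit 52) (nat_lit 1) (nat_lit 89) (nat_lit 10) (nat_lit 81)) (PT.lf (nat_lit 4284) (nat_lit 6) (nat_lit 51) (nat_lit 1) (nat_lit 90) (nat_lit 10) (nat_lit 80))))) (PT.nd (nat_lit 282) (PT.nd (nat_lit 94) (PT.lf (nat_lit 4872) (nat_lit 6) (nat_lit 58) (nat_lit 3) (nat_lit 80) (nat_lit 11) (nat_lit 89)) (PT.nd (nat_lit 94) (PT.lf (nat_lit 4956) (nat_lit 6) (nat_lit 59) (nat_lit 3) (nat_lit 81) (nat_lit 11) (nat_lit 88)) (PT.lf (nat_lit 5040) (nat_lit 6) (nat_lit 60) (nat_lit 3) (nat_lit 82) (nat_lit 11) (nat_lit 87)))) (PT.nd (nat_lit 94) (PT.lf (nat_lit 5124) (nat_lit 6) (nat_lit 61) (nat_lit 3) (nat_lit 83) (nat_lit 11) (nat_lit 86)) (PT.nd (nat_lit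 94) (PT.lf (nat_lit 5208) (nat_lit 6) (nat_lit 62) (nat_lit 3) (nat_lit 84) (nat_lit 11) (nat_lit 85)) (PT.lf (nat_lit 5208) (nat_lit 6) (nat_lit 62) (nat_lit 1) (nat_lit 85) (nat_lit 11) (nat_lit 84))))))))
noncomputable def pc1 : PT := (PT.nd (nat_lit 90428) (PT.nd (nat_lit 45214) (PT.nd (nat_lit 44650) (PT.nd (nat_lit 188) (PT.nd (nat_lit 94) (PT.lf (nat_lit 5124) (nat_lit 6) (nat_lit 61) (nat_lit 1) (nat_lit 86) (nat_lit 11) (nat_lit 83)) (PT.lf (nat_lit 5040) (nat_lit 6) (nat_lit 60) (nat_lit 1) (nat_lit 87) (nat_lit 11) (nat_lit 82))) (PT.nd (nat_lit 94) (PT.lf (nat_lit 4956) (nat_lit 6) (nat_lit 59) (nat_lit 1) (nat_lit 88) (nat_lit 11) (nat_lit 81)) (PT.nd (nat_lit 44274) (PT.lf (nat_lit 4872) (nat_lit 6) (nat_lit 58) (nat_lit 1) (nat_lit 89) (nat_lit 11) (nat_lit 80)) (PT.lf (nat_lit 5292) (nat_lit 6) (nat_lit 63) (nat_lit 3) (nat_lit 79) (nat_lit 12) (nat_lit 89))))) (PT.nd (nat_lit 282) (PT.nd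 (nat_lit 94) (PT.lf (nat_lit 5376) (nat_lit 6) (nat_lit 64) (nat_lit 3) (nat_lit 80) (nat_lit 12) (nat_lit 88)) (PT.nd (nat_lit 94) (PT.lf (nat_lit 5460) (nat_lit 6) (nat_lit 65) (nat_lit 3) (nat_lit 81) (nat_lit 12) (nat_lit 87)) (PT.lf (nat_lit 5544) (nat_lit 6) (nat_lit 66) (nat_lit 3) (nat_lit 82) (nat_lit 12) (nat_lit 86)))) (PT.nd (nat_lit 94) (PT.lf (nat_lit 5628) (nat_lit 6) (nat_lit 67) (nat_lit 3) (nat_lit 83) (nat_lit 12) (nat_lit 85)) (PT.nd (nat_lit 94) (PT.lf (nat_lit 5712) (nat_lit 3) (nat_lit 68) (nat_lit 1) (nat_lit 84) (nat_lit 12) (nat_lit 84)) (PT.lf (nat_lit 5628) (nat_lit 6) (nat_lit 67) (nat_lit 1) (nat_lit 85) (nat_lit 12) (nat_lit 83)))))) (PT.nd (nat_lit 44650) (PT.nd (nat_lit 282) (PT.nd (nat_lit 94) (PT.lf (nat_lit 5544) (nat_lit 6) (nat_lit 66) (nat_lit 1) (nat_lit 86) (nat_lit 12) (nat_lit 82)) (PT.nd (nat_lit 94) (PT.lf (nat_lit 5460) (nat_lit 6) (nat_lit 65) (nat_lit 1)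 (nat_lit 87) (nat_lit 12) (nat_lit 81)) (PT.lf (nat_lit 5376) (nat_lit 6) (nat_lit 64) (nat_lit 1) (nat_lit 88) (nat_lit 12) (nat_lit 80)))) (PT.nd (nat_lit 44180) (PT.lf (nat_lit 5292) (nat_lit 6) (nat_lit 63) (nat_lit 1) (nat_lit 89) (nat_lit 12) (nat_lit 79)) (PT.nd (nat_lit 94) (PT.lf (nat_lit 5796) (nat_lit 6) (nat_lit 69) (nat_lit 3) (nat_lit 78) (nat_lit 13) (nat_lit 89)) (PT.lf (nat_lit 5880) (nat_lit 6) (nat_lit 70) (nat_lit 3) (nat_lit 79) (nat_lit 13) (nat_lit 88))))) (PT.nd (nat_lit 282) (PT.nd (nat_lit 94) (PT.lf (nat_lit 5964) (nat_lit 6) (nat_lit 71) (nat_lit 3) (nat_lit 80) (nat_lit 13) (nat_lit 87)) (PT.nd (nat_lit 94) (PT.lf (nat_lit 6048) (nat_lit 6) (nat_lit 72) (nat_lit 3) (nat_lit 81) (nat_lit 13) (nat_lit 86)) (PT.lf (nat_lit 6132) (nat_lit 6) (nat_lit 73) (nat_lit 3) (nat_lit 82) (nat_lit 13) (nat_lit 85)))) (PT.nd (nat_lit 94) (PT.lf (nat_lit 6216) (nat_lit 6) (nat_lit 74) (nat_lit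 3) (nat_lit 83) (nat_lit 13) (nat_lit 84)) (PT.nd (nat_lit 94) (PT.lf (nat_lit 6216) (nat_lit 6) (nat_lit 74) (nat_lit 1) (nat_lit 84) (nat_lit 13) (nat_lit 83)) (PT.lf (nat_lit 6132) (nat_lit 6) (nat_lit 73) (nat_lit 1) (nat_lit 85) (nat_lit 13) (nat_lit 82))))))) (PT.nd (nat_lit 45120) (PT.nd (nat_lit 44556) (PT.nd (nat_lit 282) (PT.nd (nat_lit 94) (PT.lf (nat_lit 6048) (nat_lit 6) (nat_lit 72) (nat_lit 1) (nat_lit 86) (nat_lit 13) (nat_lit 81)) (PT.nd (nat_lit 94) (PT.lf (nat_lit 5964) (nat_lit 6) (nat_lit 71) (nat_lit 1) (nat_lit 87) (nat_lit 13) (nat_lit 80)) (PT.lf (nat_lit 5880) (nat_lit 6) (nat_lit 70) (nat_lit 1) (nat_lit 88) (nat_lit 13) (nat_lit 79)))) (PT.nd (nat_lit 44086) (PT.lf (nat_lit 5796) (nat_lit 6) (nat_lit 69) (nat_lit 1) (nat_lit 89) (nat_lit 13) (nat_lit 78)) (PT.nd (nat_lit 94) (PT.lf (nat_lit 6300) (nat_lit 6) (nat_lit 75) (nat_lit 3) (nat_lit 77) (nat_lit 14) (nat_lit 89))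 (PT.lf (nat_lit 6384) (nat_lit 6) (nat_lit 76) (nat_lit 3) (nat_lit 78) (nat_lit 14) (nat_lit 88))))) (PT.nd (nat_lit 282) (PT.nd (nat_lit 94) (PT.lf (nat_lit 6468) (nat_lit 6) (nat_lit 77) (nat_lit 3) (nat_lit 79) (nat_lit 14) (nat_lit 87)) (PT.nd (nat_lit 94) (PT.lf (nat_lit 6552) (nat_lit 6) (nat_lit 78) (nat_lit 3) (nat_lit 80) (nat_lit 14) (nat_lit 86)) (PT.lf (nat_lit 6636) (nat_lit 6) (nat_lit 79) (nat_lit 3) (nat_lit 81) (nat_lit 14) (nat_lit 85)))) (PT.nd (nat_lit 94) (PT.lf (nat_lit 6720) (nat_lit 6) (nat_lit 80) (nat_lit 3) (nat_lit 82) (nat_lit 14) (nat_lit 84)) (PT.nd (nat_lit 94) (PT.lf (nat_lit 6804) (nat_lit 3) (nat_lit 81) (nat_lit 1) (nat_lit 83) (nat_lit 14) (nat_lit 83)) (PT.lf (nat_lit 6720) (nat_lit 6) (nat_lit 80) (nat_lit 1) (nat_lit 84) (nat_lit 14) (nat_lit 82)))))) (PT.nd (nat_lit 44556) (PT.nd (nat_lit 282) (PT.nd (nat_lit 94) (PT.lf (nat_lit 6636) (nat_lit 6) (nat_lit 79)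 (nat_lit 1) (nat_lit 85) (nat_lit 14) (nat_lit 81)) (PT.nd (nat_lit 94) (PT.lf (nat_lit 6552) (nat_lit 6) (nat_lit 78) (nat_lit 1) (nat_lit 86) (nat_lit 14) (nat_lit 80)) (PT.lf (nat_lit 6468) (nat_lit 6) (nat_lit 77) (nat_lit 1) (nat_lit 87) (nat_lit 14) (nat_lit 79)))) (PT.nd (nat_lit 94) (PT.lf (nat_lit 6384) (nat_lit 6) (nat_lit 76) (nat_lit 1) (nat_lit 88) (nat_lit 14) (nat_lit 78)) (PT.nd (nat_lit 44086) (PT.lf (nat_lit 6300) (nat_lit 6) (nat_lit 75) (nat_lit 1) (nat_lit 89) (nat_lit 14) (nat_lit 77)) (PT.lf (nat_lit 6888) (nat_lit 6) (nat_lit 82) (nat_lit 3) (nat_lit 77) (nat_lit 15) (nat_lit 88))))) (PT.nd (nat_lit 282) (PT.nd (nat_lit 94) (PT.lf (nat_lit 6972) (nat_lit 6) (nat_lit 83) (nat_lit 3) (nat_lit 78) (nat_lit 15) (nat_lit 87)) (PT.nd (nat_lit 94) (PT.lf (nat_lit 7056) (nat_lit 6) (nat_lit 84) (nat_lit 3) (nat_lit 79) (nat_lit 15) (nat_lit 86)) (PT.lf (nat_lit 7140) (nat_lit 6) (nat_lit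 85) (nat_lit 3) (nat_lit 80) (nat_lit 15) (nat_lit 85)))) (PT.nd (nat_lit 94) (PT.lf (nat_lit 7224) (nat_lit 6) (nat_lit 86) (nat_lit 3) (nat_lit 81) (nat_lit 15) (nat_lit 84)) (PT.nd (nat_lit 94) (PT.lf (nat_lit 7308) (nat_lit 6) (nat_lit 87) (nat_lit 3) (nat_lit 82) (nat_lit 15) (nat_lit 83)) (PT.lf (nat_lit 7308) (nat_lit 6) (nat_lit 87) (nat_lit 1) (nat_lit 83) (nat_lit 15) (nat_lit 82))))))))
noncomputable def pc2 : PT := (PT.nd (nat_lit 90052) (PT.nd (nat_lit 45026) (PT.nd (nat_lit 44462) (PT.nd (nat_lit 188) (PT.nd (nat_lit 94) (PT.lf (nat_lit 7224) (nat_lit 6) (nat_lit 86) (nat_lit 1) (nat_lit 84) (nat_lit 15) (nat_lit 81)) (PT.lf (nat_lit 7140) (nat_lit 6) (nat_lit 85) (nat_lit 1) (nat_lit 85) (nat_lit 15) (nat_lit 80))) (PT.nd (nat_lit 94) (PT.lf (nat_lit 7056) (nat_lit 6) (nat_lit 84) (nat_lit 1) (nat_lit 86) (nat_lit 15) (nat_lit 79)) (PT.nd (nat_lit 94) (PT.lf (nat_lit 6972) (nat_lit 6)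 (nat_lit 83) (nat_lit 1) (nat_lit 87) (nat_lit 15) (nat_lit 78)) (PT.lf (nat_lit 6888) (nat_lit 6) (nat_lit 82) (nat_lit 1) (nat_lit 88) (nat_lit 15) (nat_lit 77))))) (PT.nd (nat_lit 282) (PT.nd (nat_lit 94) (PT.lf (nat_lit 7392) (nat_lit 6) (nat_lit 88) (nat_lit 3) (nat_lit 76) (nat_lit 16) (nat_lit 88)) (PT.nd (nat_lit 94) (PT.lf (nat_lit 7476) (nat_lit 6) (nat_lit 89) (nat_lit 3) (nat_lit 77) (nat_lit 16) (nat_lit 87)) (PT.lf (nat_lit 7560) (nat_lit 6) (nat_lit 90) (nat_lit 3) (nat_lit 78) (nat_lit 16) (nat_lit 86)))) (PT.nd (nat_lit 94) (PT.lf (nat_lit 7644) (nat_lit 6) (nat_lit 91) (nat_lit 3) (nat_lit 79) (nat_lit 16) (nat_lit 85)) (PT.nd (nat_lit 94) (PT.lf (nat_lit 7728) (nat_lit 6) (nat_lit 92) (nat_lit 3) (nat_lit 80) (nat_lit 16) (nat_lit 84)) (PT.lf (nat_lit 7812) (nat_lit 6) (nat_lit 93) (nat_lit 3) (nat_lit 81) (nat_lit 16) (nat_lit 83)))))) (PT.nd (nat_lit 564) (PT.nd (nat_lit 282) (PT.nd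 (nat_lit 94) (PT.lf (nat_lit 7896) (nat_lit 3) (nat_lit 94) (nat_lit 1) (nat_lit 82) (nat_lit 16) (nat_lit 82)) (PT.nd (nat_lit 94) (PT.lf (nat_lit 7812) (nat_lit 6) (nat_lit 93) (nat_lit 1) (nat_lit 83) (nat_lit 16) (nat_lit 81)) (PT.lf (nat_lit 7728) (nat_lit 6) (nat_lit 92) (nat_lit 1) (nat_lit 84) (nat_lit 16) (nat_lit 80)))) (PT.nd (nat_lit 94) (PT.lf (nat_lit 7644) (nat_lit 6) (nat_lit 91) (nat_lit 1) (nat_lit 85) (nat_lit 16) (nat_lit 79)) (PT.nd (nat_lit 94) (PT.lf (nat_lit 7560) (nat_lit 6) (nat_lit 90) (nat_lit 1) (nat_lit 86) (nat_lit 16) (nat_lit 78)) (PT.lf (nat_lit 7476) (nat_lit 6) (nat_lit 89) (nat_lit 1) (nat_lit 87) (nat_lit 16) (nat_lit 77))))) (PT.nd (nat_lit 44180) (PT.nd (nat_lit 43992) (PT.lf (nat_lit 7392) (nat_lit 6) (nat_lit 88) (nat_lit 1) (nat_lit 88) (nat_lit 16) (nat_lit 76)) (PT.nd (nat_lit 94) (PT.lf (nat_lit 7980) (nat_lit 6) (nat_lit 95) (nat_lit 3) (nat_lit 75) (nat_lit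 17) (nat_lit 88)) (PT.lf (nat_lit 8064) (nat_lit 6) (nat_lit 96) (nat_lit 3) (nat_lit 76) (nat_lit 17) (nat_lit 87)))) (PT.nd (nat_lit 94) (PT.lf (nat_lit 8148) (nat_lit 6) (nat_lit 97) (nat_lit 3) (nat_lit 77) (nat_lit 17) (nat_lit 86)) (PT.nd (nat_lit 94) (PT.lf (nat_lit 8232) (nat_lit 6) (nat_lit 98) (nat_lit 3) (nat_lit 78) (nat_lit 17) (nat_lit 85)) (PT.lf (nat_lit 8316) (nat_lit 6) (nat_lit 99) (nat_lit 3) (nat_lit 79) (nat_lit 17) (nat_lit 84))))))) (PT.nd (nat_lit 44932) (PT.nd (nat_lit 470) (PT.nd (nat_lit 188) (PT.nd (nat_lit 94) (PT.lf (nat_lit 8400) (nat_lit 6) (nat_lit 100) (nat_lit 3) (nat_lit 80) (nat_lit 17) (nat_lit 83)) (PT.lf (nat_lit 8484) (nat_lit 6) (nat_lit 101) (nat_lit 3) (nat_lit 81) (nat_lit 17) (nat_lit 82))) (PT.nd (nat_lit 94) (PT.lf (nat_lit 8484) (nat_lit 6) (nat_lit 101) (nat_lit 1) (nat_lit 82) (nat_lit 17) (nat_lit 81)) (PT.nd (nat_lit 94) (PT.lf (nat_lit 8400) (nat_lit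 6) (nat_lit 100) (nat_lit 1) (nat_lit 83) (nat_lit 17) (nat_lit 80)) (PT.lf (nat_lit 8316) (nat_lit 6) (nat_lit 99) (nat_lit 1) (nat_lit 84) (nat_lit 17) (nat_lit 79))))) (PT.nd (nat_lit 282) (PT.nd (nat_lit 94) (PT.lf (nat_lit 8232) (nat_lit 6) (nat_lit 98) (nat_lit 1) (nat_lit 85) (nat_lit 17) (nat_lit 78)) (PT.nd (nat_lit 94) (PT.lf (nat_lit 8148) (nat_lit 6) (nat_lit 97) (nat_lit 1) (nat_lit 86) (nat_lit 17) (nat_lit 77)) (PT.lf (nat_lit 8064) (nat_lit 6) (nat_lit 96) (nat_lit 1) (nat_lit 87) (nat_lit 17) (nat_lit 76)))) (PT.nd (nat_lit 43992) (PT.lf (nat_lit 7980) (nat_lit 6) (nat_lit 95) (nat_lit 1) (nat_lit 88) (nat_lit 17) (nat_lit 75)) (PT.nd (nat_lit 94) (PT.lf (nat_lit 8568) (nat_lit 6) (nat_lit 102) (nat_lit 3) (nat_lit 75) (nat_lit 18) (nat_lit 87)) (PT.lf (nat_lit 8652) (nat_lit 6) (nat_lit 103) (nat_lit 3) (nat_lit 76) (nat_lit 18) (nat_lit 86)))))) (PT.nd (nat_lit 564) (PT.nd (nat_lit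 282) (PT.nd (nat_lit 94) (PT.lf (nat_lit 8736) (nat_lit 6) (nat_lit 104) (nat_lit 3) (nat_lit 77) (nat_lit 18) (nat_lit 85)) (PT.nd (nat_lit 94) (PT.lf (nat_lit 8820) (nat_lit 6) (nat_lit 105) (nat_lit 3) (nat_lit 78) (nat_lit 18) (nat_lit 84)) (PT.lf (nat_lit 8904) (nat_lit 6) (nat_lit 106) (nat_lit 3) (nat_lit 79) (nat_lit 18) (nat_lit 83)))) (PT.nd (nat_lit 94) (PT.lf (nat_lit 8988) (nat_lit 6) (nat_lit 107) (nat_lit 3) (nat_lit 80) (nat_lit 18) (nat_lit 82)) (PT.nd (nat_lit 94) (PT.lf (nat_lit 9072) (nat_lit 3) (nat_lit 108) (nat_lit 1) (nat_lit 81) (nat_lit 18) (nat_lit 81)) (PT.lf (nat_lit 8988) (nat_lit 6) (nat_lit 107) (nat_lit 1) (nat_lit 82) (nat_lit 18) (nat_lit 80))))) (PT.nd (nat_lit 282) (PT.nd (nat_lit 94) (PT.lf (nat_lit 8904) (nat_lit 6) (nat_lit 106) (nat_lit 1) (nat_lit 83) (nat_lit 18) (nat_lit 79)) (PT.nd (nat_lit 94) (PT.lf (nat_lit 8820) (nat_lit 6) (nat_lit 105) (nat_lit 1) (nat_lit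 84) (nat_lit 18) (nat_lit 78)) (PT.lf (nat_lit 8736) (nat_lit 6) (nat_lit 104) (nat_lit 1) (nat_lit 85) (nat_lit 18) (nat_lit 77)))) (PT.nd (nat_lit 94) (PT.lf (nat_lit 8652) (nat_lit 6) (nat_lit 103) (nat_lit 1) (nat_lit 86) (nat_lit 18) (nat_lit 76)) (PT.nd (nat_lit 43992) (PT.lf (nat_lit 8568) (nat_lit 6) (nat_lit 102) (nat_lit 1) (nat_lit 87) (nat_lit 18) (nat_lit 75)) (PT.lf (nat_lit 9156) (nat_lit 6) (nat_lit 109) (nat_lit 3) (nat_lit 74) (nat_lit 19) (nat_lit 87))))))))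
noncomputable def pc3 : PT := (PT.nd (nat_lit 45966) (PT.nd (nat_lit 1034) (PT.nd (nat_lit 470) (PT.nd (nat_lit 188) (PT.nd (nat_lit 94) (PT.lf (nat_lit 9240) (nat_lit 6) (nat_lit 110) (nat_lit 3) (nat_lit 75) (nat_lit 19) (nat_lit 86)) (PT.lf (nat_lit 9324) (nat_lit 6) (nat_lit 111) (nat_lit 3) (nat_lit 76) (nat_lit 19) (nat_lit 85))) (PT.nd (nat_lit 94) (PT.lf (nat_lit 9408) (nat_lit 6) (nat_lit 112) (nat_lit 3) (nat_lit 77) (nat_lit 19) (nat_lit 84)) (PT.nd (nat_lit 94) (PT.lf (nat_lit 9492) (nat_lit 6) (nat_lit 113) (nat_lit 3) (nat_lit 78) (nat_lit 19) (nat_lit 83)) (PT.lf (nat_lit 9576) (nat_lit 6) (nat_lit 114) (nat_lit 3) (nat_lit 79) (nat_lit 19) (nat_lit 82))))) (PT.nd (nat_lit 282) (PT.nd (nat_lit 94) (PT.lf (nat_lit 9660) (nat_lit 6) (nat_lit 115) (nat_lit 3) (nat_lit 80) (nat_lit 19) (nat_lit 81)) (PT.nd (nat_lit 94) (PT.lf (nat_lit 9660) (nat_lit 6) (nat_lit 115) (nat_lit 1) (nat_lit 81)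 (nat_lit 19) (nat_lit 80)) (PT.lf (nat_lit 9576) (nat_lit 6) (nat_lit 114) (nat_lit 1) (nat_lit 82) (nat_lit 19) (nat_lit 79)))) (PT.nd (nat_lit 94) (PT.lf (nat_lit 9492) (nat_lit 6) (nat_lit 113) (nat_lit 1) (nat_lit 83) (nat_lit 19) (nat_lit 78)) (PT.nd (nat_lit 94) (PT.lf (nat_lit 9408) (nat_lit 6) (nat_lit 112) (nat_lit 1) (nat_lit 84) (nat_lit 19) (nat_lit 77)) (PT.lf (nat_lit 9324) (nat_lit 6) (nat_lit 111) (nat_lit 1) (nat_lit 85) (nat_lit 19) (nat_lit 76)))))) (PT.nd (nat_lit 44368) (PT.nd (nat_lit 44086) (PT.nd (nat_lit 94) (PT.lf (nat_lit 9240) (nat_lit 6) (nat_lit 110) (nat_lit 1) (nat_lit 86) (nat_lit 19) (nat_lit 75)) (PT.nd (nat_lit 43898) (PT.lf (nat_lit 9156) (nat_lit 6) (nat_lit 109) (nat_lit 1) (nat_lit 87) (nat_lit 19) (nat_lit 74)) (PT.lf (nat_lit 9744) (nat_lit 6) (nat_lit 116) (nat_lit 3) (nat_lit 73) (nat_lit 20) (nat_lit 87)))) (PT.nd (nat_lit 94) (PT.lf (nat_lit 9828) (nat_lit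 6) (nat_lit 117) (nat_lit 3) (nat_lit 74) (nat_lit 20) (nat_lit 86)) (PT.nd (nat_lit 94) (PT.lf (nat_lit 9912) (nat_lit 6) (nat_lit 118) (nat_lit 3) (nat_lit 75) (nat_lit 20) (nat_lit 85)) (PT.lf (nat_lit 9996) (nat_lit 6) (nat_lit 119) (nat_lit 3) (nat_lit 76) (nat_lit 20) (nat_lit 84))))) (PT.nd (nat_lit 282) (PT.nd (nat_lit 94) (PT.lf (nat_lit 10080) (nat_lit 6) (nat_lit 120) (nat_lit 3) (nat_lit 77) (nat_lit 20) (nat_lit 83)) (PT.nd (nat_lit 94) (PT.lf (nat_lit 10164) (nat_lit 6) (nat_lit 121) (nat_lit 3) (nat_lit 78) (nat_lit 20) (nat_lit 82)) (PT.lf (nat_lit 10248) (nat_lit 6) (nat_lit 122) (nat_lit 3) (nat_lit 79) (nat_lit 20) (nat_lit 81)))) (PT.nd (nat_lit 94) (PT.lf (nat_lit 10332) (nat_lit 3) (nat_lit 123) (nat_lit 1) (nat_lit 80) (nat_lit 20) (nat_lit 80)) (PT.nd (nat_lit 94) (PT.lf (nat_lit 10248) (nat_lit 6) (nat_lit 122) (nat_lit 1) (nat_lit 81) (nat_lit 20) (nat_lit 79)) (PT.lf (nat_lit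 10164) (nat_lit 6) (nat_lit 121) (nat_lit 1) (nat_lit 82) (nat_lit 20) (nat_lit 78))))))) (PT.nd (nat_lit 44932) (PT.nd (nat_lit 44368) (PT.nd (nat_lit 282) (PT.nd (nat_lit 94) (PT.lf (nat_lit 10080) (nat_lit 6) (nat_lit 120) (nat_lit 1) (nat_lit 83) (nat_lit 20) (nat_lit 77)) (PT.nd (nat_lit 94) (PT.lf (nat_lit 9996) (nat_lit 6) (nat_lit 119) (nat_lit 1) (nat_lit 84) (nat_lit 20) (nat_lit 76)) (PT.lf (nat_lit 9912) (nat_lit 6) (nat_lit 118) (nat_lit 1) (nat_lit 85) (nat_lit 20) (nat_lit 75)))) (PT.nd (nat_lit 94) (PT.lf (nat_lit 9828) (nat_lit 6) (nat_lit 117) (nat_lit 1) (nat_lit 86) (nat_lit 20) (nat_lit 74)) (PT.nd (nat_lit 43898) (PT.lf (nat_lit 9744) (nat_lit 6) (nat_lit 116) (nat_lit 1) (nat_lit 87) (nat_lit 20) (nat_lit 73)) (PT.lf (nat_lit 10416) (nat_lit 6) (nat_lit 124) (nat_lit 3) (nat_lit 73) (nat_lit 21) (nat_lit 86))))) (PT.nd (nat_lit 282) (PT.nd (nat_lit 94) (PT.lf (nat_lit 10500) (nat_lit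 6) (nat_lit 125) (nat_lit 3) (nat_lit 74) (nat_lit 21) (nat_lit 85)) (PT.nd (nat_lit 94) (PT.lf (nat_lit 10584) (nat_lit 6) (nat_lit 126) (nat_lit 3) (nat_lit 75) (nat_lit 21) (nat_lit 84)) (PT.lf (nat_lit 10668) (nat_lit 6) (nat_lit 127) (nat_lit 3) (nat_lit 76) (nat_lit 21) (nat_lit 83)))) (PT.nd (nat_lit 94) (PT.lf (nat_lit 10752) (nat_lit 6) (nat_lit 128) (nat_lit 3) (nat_lit 77) (nat_lit 21) (nat_lit 82)) (PT.nd (nat_lit 94) (PT.lf (nat_lit 10836) (nat_lit 6) (nat_lit 129) (nat_lit 3) (nat_lit 78) (nat_lit 21) (nat_lit 81)) (PT.lf (nat_lit 10920) (nat_lit 6) (nat_lit 130) (nat_lit 3) (nat_lit 79) (nat_lit 21) (nat_lit 80)))))) (PT.nd (nat_lit 564) (PT.nd (nat_lit 282) (PT.nd (nat_lit 94) (PT.lf (nat_lit 10920) (nat_lit 6) (nat_lit 130) (nat_lit 1) (nat_lit 80) (nat_lit 21) (nat_lit 79)) (PT.nd (nat_lit 94) (PT.lf (nat_lit 10836) (nat_lit 6) (nat_lit 129) (nat_lit 1) (nat_lit 81) (nat_lit 21) (nat_lit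 78)) (PT.lf (nat_lit 10752) (nat_lit 6) (nat_lit 128) (nat_lit 1) (nat_lit 82) (nat_lit 21) (nat_lit 77)))) (PT.nd (nat_lit 94) (PT.lf (nat_lit 10668) (nat_lit 6) (nat_lit 127) (nat_lit 1) (nat_lit 83) (nat_lit 21) (nat_lit 76)) (PT.nd (nat_lit 94) (PT.lf (nat_lit 10584) (nat_lit 6) (nat_lit 126) (nat_lit 1) (nat_lit 84) (nat_lit 21) (nat_lit 75)) (PT.lf (nat_lit 10500) (nat_lit 6) (nat_lit 125) (nat_lit 1) (nat_lit 85) (nat_lit 21) (nat_lit 74))))) (PT.nd (nat_lit 44086) (PT.nd (nat_lit 43898) (PT.lf (nat_lit 10416) (nat_lit 6) (nat_lit 124) (nat_lit 1) (nat_lit 86) (nat_lit 21) (nat_lit 73)) (PT.nd (nat_lit 94) (PT.lf (nat_lit 11004) (nat_lit 6) (nat_lit 131) (nat_lit 3) (nat_lit 72) (nat_lit 22) (nat_lit 86)) (PT.lf (nat_lit 11088) (nat_lit 6) (nat_lit 132) (nat_lit 3) (nat_lit 73) (nat_lit 22) (nat_lit 85)))) (PT.nd (nat_lit 94) (PT.lf (nat_lit 11172) (nat_lit 6) (nat_lit 133) (nat_lit 3) (nat_lit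 74) (nat_lit 22) (nat_lit 84)) (PT.nd (nat_lit 94) (PT.lf (nat_lit 11256) (nat_lit 6) (nat_lit 134) (nat_lit 3) (nat_lit 75) (nat_lit 22) (nat_lit 83)) (PT.lf (nat_lit 11340) (nat_lit 6) (nat_lit 135) (nat_lit 3) (nat_lit 76) (nat_lit 22) (nat_lit 82))))))))
noncomputable def pc4 : PT := (PT.nd (nat_lit 45872) (PT.nd (nat_lit 44744) (PT.nd (nat_lit 470) (PT.nd (nat_lit 188) (PT.nd (nat_lit 94) (PT.lf (nat_lit 11424) (nat_lit 6) (nat_lit 136) (nat_lit 3) (nat_lit 77) (nat_lit 22) (nat_lit 81)) (PT.lf (nat_lit 11508) (nat_lit 6) (nat_lit 137) (nat_lit 3) (nat_lit 78) (nat_lit 22) (nat_lit 80))) (PT.nd (nat_lit 94) (PT.lf (nat_lit 11592) (nat_lit 3) (nat_lit 138) (nat_lit 1) (nat_lit 79) (nat_lit 22) (nat_lit 79)) (PT.nd (nat_lit 94) (PT.lf (nat_lit 11508) (nat_lit 6) (nat_lit 137) (nat_lit 1) (nat_lit 80) (nat_lit 22) (nat_lit 78)) (PT.lf (nat_lit 11424) (nat_lit 6) (nat_lit 136) (nat_lit 1) (nat_lit 81)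 (nat_lit 22) (nat_lit 77))))) (PT.nd (nat_lit 282) (PT.nd (nat_lit 94) (PT.lf (nat_lit 11340) (nat_lit 6) (nat_lit 135) (nat_lit 1) (nat_lit 82) (nat_lit 22) (nat_lit 76)) (PT.nd (nat_lit 94) (PT.lf (nat_lit 11256) (nat_lit 6) (nat_lit 134) (nat_lit 1) (nat_lit 83) (nat_lit 22) (nat_lit 75)) (PT.lf (nat_lit 11172) (nat_lit 6) (nat_lit 133) (nat_lit 1) (nat_lit 84) (nat_lit 22) (nat_lit 74)))) (PT.nd (nat_lit 94) (PT.lf (nat_lit 11088) (nat_lit 6) (nat_lit 132) (nat_lit 1) (nat_lit 85) (nat_lit 22) (nat_lit 73)) (PT.nd (nat_lit 43804) (PT.lf (nat_lit 11004) (nat_lit 6) (nat_lit 131) (nat_lit 1) (nat_lit 86) (nat_lit 22) (nat_lit 72)) (PT.lf (nat_lit 11676) (nat_lit 6) (nat_lit 139) (nat_lit 3) (nat_lit 71) (nat_lit 23) (nat_lit 86)))))) (PT.nd (nat_lit 564) (PT.nd (nat_lit 282) (PT.nd (nat_lit 94) (PT.lf (nat_lit 11760) (nat_lit 6) (nat_lit 140) (nat_lit 3) (nat_lit 72) (nat_lit 23) (nat_lit 85)) (PT.nd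 (nat_lit 94) (PT.lf (nat_lit 11844) (nat_lit 6) (nat_lit 141) (nat_lit 3) (nat_lit 73) (nat_lit 23) (nat_lit 84)) (PT.lf (nat_lit 11928) (nat_lit 6) (nat_lit 142) (nat_lit 3) (nat_lit 74) (nat_lit 23) (nat_lit 83)))) (PT.nd (nat_lit 94) (PT.lf (nat_lit 12012) (nat_lit 6) (nat_lit 143) (nat_lit 3) (nat_lit 75) (nat_lit 23) (nat_lit 82)) (PT.nd (nat_lit 94) (PT.lf (nat_lit 12096) (nat_lit 6) (nat_lit 144) (nat_lit 3) (nat_lit 76) (nat_lit 23) (nat_lit 81)) (PT.lf (nat_lit 12180) (nat_lit 6) (nat_lit 145) (nat_lit 3) (nat_lit 77) (nat_lit 23) (nat_lit 80))))) (PT.nd (nat_lit 282) (PT.nd (nat_lit 94) (PT.lf (nat_lit 12264) (nat_lit 6) (nat_lit 146) (nat_lit 3) (nat_lit 78) (nat_lit 23) (nat_lit 79)) (PT.nd (nat_lit 94) (PT.lf (nat_lit 12264) (nat_lit 6) (nat_lit 146) (nat_lit 1) (nat_lit 79) (nat_lit 23) (nat_lit 78)) (PT.lf (nat_lit 12180) (nat_lit 6) (nat_lit 145) (nat_lit 1) (nat_lit 80) (nat_lit 23)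 (nat_lit 77)))) (PT.nd (nat_lit 94) (PT.lf (nat_lit 12096) (nat_lit 6) (nat_lit 144) (nat_lit 1) (nat_lit 81) (nat_lit 23) (nat_lit 76)) (PT.nd (nat_lit 94) (PT.lf (nat_lit 12012) (nat_lit 6) (nat_lit 143) (nat_lit 1) (nat_lit 82) (nat_lit 23) (nat_lit 75)) (PT.lf (nat_lit 11928) (nat_lit 6) (nat_lit 142) (nat_lit 1) (nat_lit 83) (nat_lit 23) (nat_lit 74))))))) (PT.nd (nat_lit 44650) (PT.nd (nat_lit 44086) (PT.nd (nat_lit 188) (PT.nd (nat_lit 94) (PT.lf (nat_lit 11844) (nat_lit 6) (nat_lit 141) (nat_lit 1) (nat_lit 84) (nat_lit 23) (nat_lit 73)) (PT.lf (nat_lit 11760) (nat_lit 6) (nat_lit 140) (nat_lit 1) (nat_lit 85) (nat_lit 23) (nat_lit 72))) (PT.nd (nat_lit 43710) (PT.lf (nat_lit 11676) (nat_lit 6) (nat_lit 139) (nat_lit 1) (nat_lit 86) (nat_lit 23) (nat_lit 71)) (PT.nd (nat_lit 94) (PT.lf (nat_lit 12348) (nat_lit 6) (nat_lit 147) (nat_lit 3) (nat_lit 70) (nat_lit 24) (nat_lit 86)) (PT.lf (nat_lit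 12432) (nat_lit 6) (nat_lit 148) (nat_lit 3) (nat_lit 71) (nat_lit 24) (nat_lit 85))))) (PT.nd (nat_lit 282) (PT.nd (nat_lit 94) (PT.lf (nat_lit 12516) (nat_lit 6) (nat_lit 149) (nat_lit 3) (nat_lit 72) (nat_lit 24) (nat_lit 84)) (PT.nd (nat_lit 94) (PT.lf (nat_lit 12600) (nat_lit 6) (nat_lit 150) (nat_lit 3) (nat_lit 73) (nat_lit 24) (nat_lit 83)) (PT.lf (nat_lit 12684) (nat_lit 6) (nat_lit 151) (nat_lit 3) (nat_lit 74) (nat_lit 24) (nat_lit 82)))) (PT.nd (nat_lit 94) (PT.lf (nat_lit 12768) (nat_lit 6) (nat_lit 152) (nat_lit 3) (nat_lit 75) (nat_lit 24) (nat_lit 81)) (PT.nd (nat_lit 94) (PT.lf (nat_lit 12852) (nat_lit 6) (nat_lit 153) (nat_lit 3) (nat_lit 76) (nat_lit 24) (nat_lit 80)) (PT.lf (nat_lit 12936) (nat_lit 6) (nat_lit 154) (nat_lit 3) (nat_lit 77) (nat_lit 24) (nat_lit 79)))))) (PT.nd (nat_lit 564) (PT.nd (nat_lit 282) (PT.nd (nat_lit 94) (PT.lf (nat_lit 13020) (nat_lit 3) (nat_lit 155) (nat_lit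 1) (nat_lit 78) (nat_lit 24) (nat_lit 78)) (PT.nd (nat_lit 94) (PT.lf (nat_lit 12936) (nat_lit 6) (nat_lit 154) (nat_lit 1) (nat_lit 79) (nat_lit 24) (nat_lit 77)) (PT.lf (nat_lit 12852) (nat_lit 6) (nat_lit 153) (nat_lit 1) (nat_lit 80) (nat_lit 24) (nat_lit 76)))) (PT.nd (nat_lit 94) (PT.lf (nat_lit 12768) (nat_lit 6) (nat_lit 152) (nat_lit 1) (nat_lit 81) (nat_lit 24) (nat_lit 75)) (PT.nd (nat_lit 94) (PT.lf (nat_lit 12684) (nat_lit 6) (nat_lit 151) (nat_lit 1) (nat_lit 82) (nat_lit 24) (nat_lit 74)) (PT.lf (nat_lit 12600) (nat_lit 6) (nat_lit 150) (nat_lit 1) (nat_lit 83) (nat_lit 24) (nat_lit 73))))) (PT.nd (nat_lit 43898) (PT.nd (nat_lit 94) (PT.lf (nat_lit 12516) (nat_lit 6) (nat_lit 149) (nat_lit 1) (nat_lit 84) (nat_lit 24) (nat_lit 72)) (PT.nd (nat_lit 94) (PT.lf (nat_lit 12432) (nat_lit 6) (nat_lit 148) (nat_lit 1) (nat_lit 85) (nat_lit 24) (nat_lit 71)) (PT.lf (nat_lit 12348) (nat_lit 6)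 (nat_lit 147) (nat_lit 1) (nat_lit 86) (nat_lit 24) (nat_lit 70)))) (PT.nd (nat_lit 94) (PT.lf (nat_lit 13104) (nat_lit 6) (nat_lit 156) (nat_lit 3) (nat_lit 70) (nat_lit 25) (nat_lit 85)) (PT.nd (nat_lit 94) (PT.lf (nat_lit 13188) (nat_lit 6) (nat_lit 157) (nat_lit 3) (nat_lit 71) (nat_lit 25) (nat_lit 84)) (PT.lf (nat_lit 13272) (nat_lit 6) (nat_lit 158) (nat_lit 3) (nat_lit 72) (nat_lit 25) (nat_lit 83))))))))
noncomputable def pc5 : PT := (PT.nd (nat_lit 45778) (PT.nd (nat_lit 1034) (PT.nd (nat_lit 470) (PT.nd (nat_lit 188) (PT.nd (nat_lit 94) (PT.lf (nat_lit 13356) (nat_lit 6) (nat_lit 159) (nat_lit 3) (nat_lit 73) (nat_lit 25) (nat_lit 82)) (PT.lf (nat_lit 13440) (nat_lit 6) (nat_lit 160) (nat_lit 3) (nat_lit 74) (nat_lit 25) (nat_lit 81))) (PT.nd (nat_lit 94) (PT.lf (nat_lit 13524) (nat_lit 6) (nat_lit 161) (nat_lit 3) (nat_lit 75) (nat_lit 25) (nat_lit 80)) (PT.nd (nat_lit 94) (PT.lf (nat_lit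 13608) (nat_lit 6) (nat_lit 162) (nat_lit 3) (nat_lit 76) (nat_lit 25) (nat_lit 79)) (PT.lf (nat_lit 13692) (nat_lit 6) (nat_lit 163) (nat_lit 3) (nat_lit 77) (nat_lit 25) (nat_lit 78))))) (PT.nd (nat_lit 282) (PT.nd (nat_lit 94) (PT.lf (nat_lit 13692) (nat_lit 6) (nat_lit 163) (nat_lit 1) (nat_lit 78) (nat_lit 25) (nat_lit 77)) (PT.nd (nat_lit 94) (PT.lf (nat_lit 13608) (nat_lit 6) (nat_lit 162) (nat_lit 1) (nat_lit 79) (nat_lit 25) (nat_lit 76)) (PT.lf (nat_lit 13524) (nat_lit 6) (nat_lit 161) (nat_lit 1) (nat_lit 80) (nat_lit 25) (nat_lit 75)))) (PT.nd (nat_lit 94) (PT.lf (nat_lit 13440) (nat_lit 6) (nat_lit 160) (nat_lit 1) (nat_lit 81) (nat_lit 25) (nat_lit 74)) (PT.nd (nat_lit 94) (PT.lf (nat_lit 13356) (nat_lit 6) (nat_lit 159) (nat_lit 1) (nat_lit 82) (nat_lit 25) (nat_lit 73)) (PT.lf (nat_lit 13272) (nat_lit 6) (nat_lit 158) (nat_lit 1) (nat_lit 83) (nat_lit 25) (nat_lit 72)))))) (PT.nd (nat_lit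 44180) (PT.nd (nat_lit 43898) (PT.nd (nat_lit 94) (PT.lf (nat_lit 13188) (nat_lit 6) (nat_lit 157) (nat_lit 1) (nat_lit 84) (nat_lit 25) (nat_lit 71)) (PT.nd (nat_lit 43710) (PT.lf (nat_lit 13104) (nat_lit 6) (nat_lit 156) (nat_lit 1) (nat_lit 85) (nat_lit 25) (nat_lit 70)) (PT.lf (nat_lit 13776) (nat_lit 6) (nat_lit 164) (nat_lit 3) (nat_lit 69) (nat_lit 26) (nat_lit 85)))) (PT.nd (nat_lit 94) (PT.lf (nat_lit 13860) (nat_lit 6) (nat_lit 165) (nat_lit 3) (nat_lit 70) (nat_lit 26) (nat_lit 84)) (PT.nd (nat_lit 94) (PT.lf (nat_lit 13944) (nat_lit 6) (nat_lit 166) (nat_lit 3) (nat_lit 71) (nat_lit 26) (nat_lit 83)) (PT.lf (nat_lit 14028) (nat_lit 6) (nat_lit 167) (nat_lit 3) (nat_lit 72) (nat_lit 26) (nat_lit 82))))) (PT.nd (nat_lit 282) (PT.nd (nat_lit 94) (PT.lf (nat_lit 14112) (nat_lit 6) (nat_lit 168) (nat_lit 3) (nat_lit 73) (nat_lit 26) (nat_lit 81)) (PT.nd (nat_lit 94) (PT.lf (nat_lit 14196) (nat_lit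 6) (nat_lit 169) (nat_lit 3) (nat_lit 74) (nat_lit 26) (nat_lit 80)) (PT.lf (nat_lit 14280) (nat_lit 6) (nat_lit 170) (nat_lit 3) (nat_lit 75) (nat_lit 26) (nat_lit 79)))) (PT.nd (nat_lit 94) (PT.lf (nat_lit 14364) (nat_lit 6) (nat_lit 171) (nat_lit 3) (nat_lit 76) (nat_lit 26) (nat_lit 78)) (PT.nd (nat_lit 94) (PT.lf (nat_lit 14448) (nat_lit 3) (nat_lit 172) (nat_lit 1) (nat_lit 77) (nat_lit 26) (nat_lit 77)) (PT.lf (nat_lit 14364) (nat_lit 6) (nat_lit 171) (nat_lit 1) (nat_lit 78) (nat_lit 26) (nat_lit 76))))))) (PT.nd (nat_lit 44650) (PT.nd (nat_lit 564) (PT.nd (nat_lit 282) (PT.nd (nat_lit 94) (PT.lf (nat_lit 14280) (nat_lit 6) (nat_lit 170) (nat_lit 1) (nat_lit 79) (nat_lit 26) (nat_lit 75)) (PT.nd (nat_lit 94) (PT.lf (nat_lit 14196) (nat_lit 6) (nat_lit 169) (nat_lit 1) (nat_lit 80) (nat_lit 26) (nat_lit 74)) (PT.lf (nat_lit 14112) (nat_lit 6) (nat_lit 168) (nat_lit 1) (nat_lit 81) (nat_lit 26)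 (nat_lit 73)))) (PT.nd (nat_lit 94) (PT.lf (nat_lit 14028) (nat_lit 6) (nat_lit 167) (nat_lit 1) (nat_lit 82) (nat_lit 26) (nat_lit 72)) (PT.nd (nat_lit 94) (PT.lf (nat_lit 13944) (nat_lit 6) (nat_lit 166) (nat_lit 1) (nat_lit 83) (nat_lit 26) (nat_lit 71)) (PT.lf (nat_lit 13860) (nat_lit 6) (nat_lit 165) (nat_lit 1) (nat_lit 84) (nat_lit 26) (nat_lit 70))))) (PT.nd (nat_lit 43804) (PT.nd (nat_lit 43616) (PT.lf (nat_lit 13776) (nat_lit 6) (nat_lit 164) (nat_lit 1) (nat_lit 85) (nat_lit 26) (nat_lit 69)) (PT.nd (nat_lit 94) (PT.lf (nat_lit 14532) (nat_lit 6) (nat_lit 173) (nat_lit 3) (nat_lit 68) (nat_lit 27) (nat_lit 85)) (PT.lf (nat_lit 14616) (nat_lit 6) (nat_lit 174) (nat_lit 3) (nat_lit 69) (nat_lit 27) (nat_lit 84)))) (PT.nd (nat_lit 94) (PT.lf (nat_lit 14700) (nat_lit 6) (nat_lit 175) (nat_lit 3) (nat_lit 70) (nat_lit 27) (nat_lit 83)) (PT.nd (nat_lit 94) (PT.lf (nat_lit 14784) (nat_lit 6) (nat_lit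 176) (nat_lit 3) (nat_lit 71) (nat_lit 27) (nat_lit 82)) (PT.lf (nat_lit 14868) (nat_lit 6) (nat_lit 177) (nat_lit 3) (nat_lit 72) (nat_lit 27) (nat_lit 81)))))) (PT.nd (nat_lit 564) (PT.nd (nat_lit 282) (PT.nd (nat_lit 94) (PT.lf (nat_lit 14952) (nat_lit 6) (nat_lit 178) (nat_lit 3) (nat_lit 73) (nat_lit 27) (nat_lit 80)) (PT.nd (nat_lit 94) (PT.lf (nat_lit 15036) (nat_lit 6) (nat_lit 179) (nat_lit 3) (nat_lit 74) (nat_lit 27) (nat_lit 79)) (PT.lf (nat_lit 15120) (nat_lit 6) (nat_lit 180) (nat_lit 3) (nat_lit 75) (nat_lit 27) (nat_lit 78)))) (PT.nd (nat_lit 94) (PT.lf (nat_lit 15204) (nat_lit 6) (nat_lit 181) (nat_lit 3) (nat_lit 76) (nat_lit 27) (nat_lit 77)) (PT.nd (nat_lit 94) (PT.lf (nat_lit 15204) (nat_lit 6) (nat_lit 181) (nat_lit 1) (nat_lit 77) (nat_lit 27) (nat_lit 76)) (PT.lf (nat_lit 15120) (nat_lit 6) (nat_lit 180) (nat_lit 1) (nat_lit 78) (nat_lit 27) (nat_lit 75))))) (PT.nd (nat_lit 282)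 (PT.nd (nat_lit 94) (PT.lf (nat_lit 15036) (nat_lit 6) (nat_lit 179) (nat_lit 1) (nat_lit 79) (nat_lit 27) (nat_lit 74)) (PT.nd (nat_lit 94) (PT.lf (nat_lit 14952) (nat_lit 6) (nat_lit 178) (nat_lit 1) (nat_lit 80) (nat_lit 27) (nat_lit 73)) (PT.lf (nat_lit 14868) (nat_lit 6) (nat_lit 177) (nat_lit 1) (nat_lit 81) (nat_lit 27) (nat_lit 72)))) (PT.nd (nat_lit 94) (PT.lf (nat_lit 14784) (nat_lit 6) (nat_lit 176) (nat_lit 1) (nat_lit 82) (nat_lit 27) (nat_lit 71)) (PT.nd (nat_lit 94) (PT.lf (nat_lit 14700) (nat_lit 6) (nat_lit 175) (nat_lit 1) (nat_lit 83) (nat_lit 27) (nat_lit 70)) (PT.lf (nat_lit 14616) (nat_lit 6) (nat_lit 174) (nat_lit 1) (nat_lit 84) (nat_lit 27) (nat_lit 69))))))))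
noncomputable def pc6 : PT := (PT.nd (nat_lit 89018) (PT.nd (nat_lit 44462) (PT.nd (nat_lit 43898) (PT.nd (nat_lit 43616) (PT.nd (nat_lit 43522) (PT.lf (nat_lit 14532) (nat_lit 6) (nat_lit 173) (nat_lit 1) (nat_lit 85) (nat_lit 27) (nat_lit 68)) (PT.lf (nat_lit 15288) (nat_lit 6) (nat_lit 182) (nat_lit 3) (nat_lit 67) (nat_lit 28) (nat_lit 85))) (PT.nd (nat_lit 94) (PT.lf (nat_lit 15372) (nat_lit 6) (nat_lit 183) (nat_lit 3) (nat_lit 68) (nat_lit 28) (nat_lit 84)) (PT.nd (nat_lit 94) (PT.lf (nat_lit 15456) (nat_lit 6) (nat_lit 184) (nat_lit 3) (nat_lit 69) (nat_lit 28) (nat_lit 83)) (PT.lf (nat_lit 15540) (nat_lit 6) (nat_lit 185) (nat_lit 3) (nat_lit 70) (nat_lit 28) (nat_lit 82))))) (PT.nd (nat_lit 282) (PT.nd (nat_lit 94) (PT.lf (nat_lit 15624) (nat_lit 6) (nat_lit 186) (nat_lit 3) (nat_lit 71) (nat_lit 28) (nat_lit 81)) (PT.nd (nat_lit 94) (PT.lf (nat_lit 15708) (nat_lit 6) (nat_lit 187) (nat_lit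 3) (nat_lit 72) (nat_lit 28) (nat_lit 80)) (PT.lf (nat_lit 15792) (nat_lit 6) (nat_lit 188) (nat_lit 3) (nat_lit 73) (nat_lit 28) (nat_lit 79)))) (PT.nd (nat_lit 94) (PT.lf (nat_lit 15876) (nat_lit 6) (nat_lit 189) (nat_lit 3) (nat_lit 74) (nat_lit 28) (nat_lit 78)) (PT.nd (nat_lit 94) (PT.lf (nat_lit 15960) (nat_lit 6) (nat_lit 190) (nat_lit 3) (nat_lit 75) (nat_lit 28) (nat_lit 77)) (PT.lf (nat_lit 16044) (nat_lit 3) (nat_lit 191) (nat_lit 1) (nat_lit 76) (nat_lit 28) (nat_lit 76)))))) (PT.nd (nat_lit 564) (PT.nd (nat_lit 282) (PT.nd (nat_lit 94) (PT.lf (nat_lit 15960) (nat_lit 6) (nat_lit 190) (nat_lit 1) (nat_lit 77) (nat_lit 28) (nat_lit 75)) (PT.nd (nat_lit 94) (PT.lf (nat_lit 15876) (nat_lit 6) (nat_lit 189) (nat_lit 1) (nat_lit 78) (nat_lit 28) (nat_lit 74)) (PT.lf (nat_lit 15792) (nat_lit 6) (nat_lit 188) (nat_lit 1) (nat_lit 79) (nat_lit 28) (nat_lit 73)))) (PT.nd (nat_lit 94) (PT.lf (nat_lit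 15708) (nat_lit 6) (nat_lit 187) (nat_lit 1) (nat_lit 80) (nat_lit 28) (nat_lit 72)) (PT.nd (nat_lit 94) (PT.lf (nat_lit 15624) (nat_lit 6) (nat_lit 186) (nat_lit 1) (nat_lit 81) (nat_lit 28) (nat_lit 71)) (PT.lf (nat_lit 15540) (nat_lit 6) (nat_lit 185) (nat_lit 1) (nat_lit 82) (nat_lit 28) (nat_lit 70))))) (PT.nd (nat_lit 43710) (PT.nd (nat_lit 94) (PT.lf (nat_lit 15456) (nat_lit 6) (nat_lit 184) (nat_lit 1) (nat_lit 83) (nat_lit 28) (nat_lit 69)) (PT.nd (nat_lit 94) (PT.lf (nat_lit 15372) (nat_lit 6) (nat_lit 183) (nat_lit 1) (nat_lit 84) (nat_lit 28) (nat_lit 68)) (PT.lf (nat_lit 15288) (nat_lit 6) (nat_lit 182) (nat_lit 1) (nat_lit 85) (nat_lit 28) (nat_lit 67)))) (PT.nd (nat_lit 94) (PT.lf (nat_lit 16128) (nat_lit 6) (nat_lit 192) (nat_lit 3) (nat_lit 67) (nat_lit 29) (nat_lit 84)) (PT.nd (nat_lit 94) (PT.lf (nat_lit 16212) (nat_lit 6) (nat_lit 193) (nat_lit 3) (nat_lit 68) (nat_lit 29) (nat_lit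 83)) (PT.lf (nat_lit 16296) (nat_lit 6) (nat_lit 194) (nat_lit 3) (nat_lit 69) (nat_lit 29) (nat_lit 82))))))) (PT.nd (nat_lit 1128) (PT.nd (nat_lit 564) (PT.nd (nat_lit 282) (PT.nd (nat_lit 94) (PT.lf (nat_lit 16380) (nat_lit 6) (nat_lit 195) (nat_lit 3) (nat_lit 70) (nat_lit 29) (nat_lit 81)) (PT.nd (nat_lit 94) (PT.lf (nat_lit 16464) (nat_lit 6) (nat_lit 196) (nat_lit 3) (nat_lit 71) (nat_lit 29) (nat_lit 80)) (PT.lf (nat_lit 16548) (nat_lit 6) (nat_lit 197) (nat_lit 3) (nat_lit 72) (nat_lit 29) (nat_lit 79)))) (PT.nd (nat_lit 94) (PT.lf (nat_lit 16632) (nat_lit 6) (nat_lit 198) (nat_lit 3) (nat_lit 73) (nat_lit 29) (nat_lit 78)) (PT.nd (nat_lit 94) (PT.lf (nat_lit 16716) (nat_lit 6) (nat_lit 199) (nat_lit 3) (nat_lit 74) (nat_lit 29) (nat_lit 77)) (PT.lf (nat_lit 16800) (nat_lit 6) (nat_lit 200) (nat_lit 3) (nat_lit 75) (nat_lit 29) (nat_lit 76))))) (PT.nd (nat_lit 282) (PT.nd (nat_lit 94) (PT.lf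 (nat_lit 16800) (nat_lit 6) (nat_lit 200) (nat_lit 1) (nat_lit 76) (nat_lit 29) (nat_lit 75)) (PT.nd (nat_lit 94) (PT.lf (nat_lit 16716) (nat_lit 6) (nat_lit 199) (nat_lit 1) (nat_lit 77) (nat_lit 29) (nat_lit 74)) (PT.lf (nat_lit 16632) (nat_lit 6) (nat_lit 198) (nat_lit 1) (nat_lit 78) (nat_lit 29) (nat_lit 73)))) (PT.nd (nat_lit 94) (PT.lf (nat_lit 16548) (nat_lit 6) (nat_lit 197) (nat_lit 1) (nat_lit 79) (nat_lit 29) (nat_lit 72)) (PT.nd (nat_lit 94) (PT.lf (nat_lit 16464) (nat_lit 6) (nat_lit 196) (nat_lit 1) (nat_lit 80) (nat_lit 29) (nat_lit 71)) (PT.lf (nat_lit 16380) (nat_lit 6) (nat_lit 195) (nat_lit 1) (nat_lit 81) (nat_lit 29) (nat_lit 70)))))) (PT.nd (nat_lit 43992) (PT.nd (nat_lit 43710) (PT.nd (nat_lit 94) (PT.lf (nat_lit 16296) (nat_lit 6) (nat_lit 194) (nat_lit 1) (nat_lit 82) (nat_lit 29) (nat_lit 69)) (PT.nd (nat_lit 94) (PT.lf (nat_lit 16212) (nat_lit 6) (nat_lit 193) (nat_lit 1)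 (nat_lit 83) (nat_lit 29) (nat_lit 68)) (PT.lf (nat_lit 16128) (nat_lit 6) (nat_lit 192) (nat_lit 1) (nat_lit 84) (nat_lit 29) (nat_lit 67)))) (PT.nd (nat_lit 94) (PT.lf (nat_lit 16884) (nat_lit 6) (nat_lit 201) (nat_lit 3) (nat_lit 66) (nat_lit 30) (nat_lit 84)) (PT.nd (nat_lit 94) (PT.lf (nat_lit 16968) (nat_lit 6) (nat_lit 202) (nat_lit 3) (nat_lit 67) (nat_lit 30) (nat_lit 83)) (PT.lf (nat_lit 17052) (nat_lit 6) (nat_lit 203) (nat_lit 3) (nat_lit 68) (nat_lit 30) (nat_lit 82))))) (PT.nd (nat_lit 282) (PT.nd (nat_lit 94) (PT.lf (nat_lit 17136) (nat_lit 6) (nat_lit 204) (nat_lit 3) (nat_lit 69) (nat_lit 30) (nat_lit 81)) (PT.nd (nat_lit 94) (PT.lf (nat_lit 17220) (nat_lit 6) (nat_lit 205) (nat_lit 3) (nat_lit 70) (nat_lit 30) (nat_lit 80)) (PT.lf (nat_lit 17304) (nat_lit 6) (nat_lit 206) (nat_lit 3) (nat_lit 71) (nat_lit 30) (nat_lit 79)))) (PT.nd (nat_lit 94) (PT.lf (nat_lit 17388) (nat_lit 6) (nat_lit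 207) (nat_lit 3) (nat_lit 72) (nat_lit 30) (nat_lit 78)) (PT.nd (nat_lit 94) (PT.lf (nat_lit 17472) (nat_lit 6) (nat_lit 208) (nat_lit 3) (nat_lit 73) (nat_lit 30) (nat_lit 77)) (PT.lf (nat_lit 17556) (nat_lit 6) (nat_lit 209) (nat_lit 3) (nat_lit 74) (nat_lit 30) (nat_lit 76))))))))
noncomputable def pc7 : PT := (PT.nd (nat_lit 45496) (PT.nd (nat_lit 44368) (PT.nd (nat_lit 470) (PT.nd (nat_lit 188) (PT.nd (nat_lit 94) (PT.lf (nat_lit 17640) (nat_lit 3) (nat_lit 210) (nat_lit 1) (nat_lit 75) (nat_lit 30) (nat_lit 75)) (PT.lf (nat_lit 17556) (nat_lit 6) (nat_lit 209) (nat_lit 1) (nat_lit 76) (nat_lit 30) (nat_lit 74))) (PT.nd (nat_lit 94) (PT.lf (nat_lit 17472) (nat_lit 6) (nat_lit 208) (nat_lit 1) (nat_lit 77) (nat_lit 30) (nat_lit 73)) (PT.nd (nat_lit 94) (PT.lf (nat_lit 17388) (nat_lit 6) (nat_lit 207) (nat_lit 1) (nat_lit 78) (nat_lit 30) (nat_lit 72)) (PT.lf (nat_lit 17304) (nat_lit 6) (nat_lit 206)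 (nat_lit 1) (nat_lit 79) (nat_lit 30) (nat_lit 71))))) (PT.nd (nat_lit 282) (PT.nd (nat_lit 94) (PT.lf (nat_lit 17220) (nat_lit 6) (nat_lit 205) (nat_lit 1) (nat_lit 80) (nat_lit 30) (nat_lit 70)) (PT.nd (nat_lit 94) (PT.lf (nat_lit 17136) (nat_lit 6) (nat_lit 204) (nat_lit 1) (nat_lit 81) (nat_lit 30) (nat_lit 69)) (PT.lf (nat_lit 17052) (nat_lit 6) (nat_lit 203) (nat_lit 1) (nat_lit 82) (nat_lit 30) (nat_lit 68)))) (PT.nd (nat_lit 94) (PT.lf (nat_lit 16968) (nat_lit 6) (nat_lit 202) (nat_lit 1) (nat_lit 83) (nat_lit 30) (nat_lit 67)) (PT.nd (nat_lit 43428) (PT.lf (nat_lit 16884) (nat_lit 6) (nat_lit 201) (nat_lit 1) (nat_lit 84) (nat_lit 30) (nat_lit 66)) (PT.lf (nat_lit 17724) (nat_lit 6) (nat_lit 211) (nat_lit 3) (nat_lit 65) (nat_lit 31) (nat_lit 84)))))) (PT.nd (nat_lit 564) (PT.nd (nat_lit 282) (PT.nd (nat_lit 94) (PT.lf (nat_lit 17808) (nat_lit 6) (nat_lit 212) (nat_lit 3) (nat_lit 66) (nat_lit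 31) (nat_lit 83)) (PT.nd (nat_lit 94) (PT.lf (nat_lit 17892) (nat_lit 6) (nat_lit 213) (nat_lit 3) (nat_lit 67) (nat_lit 31) (nat_lit 82)) (PT.lf (nat_lit 17976) (nat_lit 6) (nat_lit 214) (nat_lit 3) (nat_lit 68) (nat_lit 31) (nat_lit 81)))) (PT.nd (nat_lit 94) (PT.lf (nat_lit 18060) (nat_lit 6) (nat_lit 215) (nat_lit 3) (nat_lit 69) (nat_lit 31) (nat_lit 80)) (PT.nd (nat_lit 94) (PT.lf (nat_lit 18144) (nat_lit 6) (nat_lit 216) (nat_lit 3) (nat_lit 70) (nat_lit 31) (nat_lit 79)) (PT.lf (nat_lit 18228) (nat_lit 6) (nat_lit 217) (nat_lit 3) (nat_lit 71) (nat_lit 31) (nat_lit 78))))) (PT.nd (nat_lit 282) (PT.nd (nat_lit 94) (PT.lf (nat_lit 18312) (nat_lit 6) (nat_lit 218) (nat_lit 3) (nat_lit 72) (nat_lit 31) (nat_lit 77)) (PT.nd (nat_lit 94) (PT.lf (nat_lit 18396) (nat_lit 6) (nat_lit 219) (nat_lit 3) (nat_lit 73) (nat_lit 31) (nat_lit 76)) (PT.lf (nat_lit 18480) (nat_lit 6) (nat_lit 220) (nat_lit 3) (nat_lit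 74) (nat_lit 31) (nat_lit 75)))) (PT.nd (nat_lit 94) (PT.lf (nat_lit 18480) (nat_lit 6) (nat_lit 220) (nat_lit 1) (nat_lit 75) (nat_lit 31) (nat_lit 74)) (PT.nd (nat_lit 94) (PT.lf (nat_lit 18396) (nat_lit 6) (nat_lit 219) (nat_lit 1) (nat_lit 76) (nat_lit 31) (nat_lit 73)) (PT.lf (nat_lit 18312) (nat_lit 6) (nat_lit 218) (nat_lit 1) (nat_lit 77) (nat_lit 31) (nat_lit 72))))))) (PT.nd (nat_lit 44368) (PT.nd (nat_lit 564) (PT.nd (nat_lit 282) (PT.nd (nat_lit 94) (PT.lf (nat_lit 18228) (nat_lit 6) (nat_lit 217) (nat_lit 1) (nat_lit 78) (nat_lit 31) (nat_lit 71)) (PT.nd (nat_lit 94) (PT.lf (nat_lit 18144) (nat_lit 6) (nat_lit 216) (nat_lit 1) (nat_lit 79) (nat_lit 31) (nat_lit 70)) (PT.lf (nat_lit 18060) (nat_lit 6) (nat_lit 215) (nat_lit 1) (nat_lit 80) (nat_lit 31) (nat_lit 69)))) (PT.nd (nat_lit 94) (PT.lf (nat_lit 17976) (nat_lit 6) (nat_lit 214) (nat_lit 1) (nat_lit 81) (nat_lit 31) (nat_lit 68)) (PT.nd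 (nat_lit 94) (PT.lf (nat_lit 17892) (nat_lit 6) (nat_lit 213) (nat_lit 1) (nat_lit 82) (nat_lit 31) (nat_lit 67)) (PT.lf (nat_lit 17808) (nat_lit 6) (nat_lit 212) (nat_lit 1) (nat_lit 83) (nat_lit 31) (nat_lit 66))))) (PT.nd (nat_lit 43522) (PT.nd (nat_lit 43334) (PT.lf (nat_lit 17724) (nat_lit 6) (nat_lit 211) (nat_lit 1) (nat_lit 84) (nat_lit 31) (nat_lit 65)) (PT.nd (nat_lit 94) (PT.lf (nat_lit 18564) (nat_lit 6) (nat_lit 221) (nat_lit 3) (nat_lit 64) (nat_lit 32) (nat_lit 84)) (PT.lf (nat_lit 18648) (nat_lit 6) (nat_lit 222) (nat_lit 3) (nat_lit 65) (nat_lit 32) (nat_lit 83)))) (PT.nd (nat_lit 94) (PT.lf (nat_lit 18732) (nat_lit 6) (nat_lit 223) (nat_lit 3) (nat_lit 66) (nat_lit 32) (nat_lit 82)) (PT.nd (nat_lit 94) (PT.lf (nat_lit 18816) (nat_lit 6) (nat_lit 224) (nat_lit 3) (nat_lit 67) (nat_lit 32) (nat_lit 81)) (PT.lf (nat_lit 18900) (nat_lit 6) (nat_lit 225) (nat_lit 3) (nat_lit 68) (nat_lit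 32) (nat_lit 80)))))) (PT.nd (nat_lit 564) (PT.nd (nat_lit 282) (PT.nd (nat_lit 94) (PT.lf (nat_lit 18984) (nat_lit 6) (nat_lit 226) (nat_lit 3) (nat_lit 69) (nat_lit 32) (nat_lit 79)) (PT.nd (nat_lit 94) (PT.lf (nat_lit 19068) (nat_lit 6) (nat_lit 227) (nat_lit 3) (nat_lit 70) (nat_lit 32) (nat_lit 78)) (PT.lf (nat_lit 19152) (nat_lit 6) (nat_lit 228) (nat_lit 3) (nat_lit 71) (nat_lit 32) (nat_lit 77)))) (PT.nd (nat_lit 94) (PT.lf (nat_lit 19236) (nat_lit 6) (nat_lit 229) (nat_lit 3) (nat_lit 72) (nat_lit 32) (nat_lit 76)) (PT.nd (nat_lit 94) (PT.lf (nat_lit 19320) (nat_lit 6) (nat_lit 230) (nat_lit 3) (nat_lit 73) (nat_lit 32) (nat_lit 75)) (PT.lf (nat_lit 19404) (nat_lit 3) (nat_lit 231) (nat_lit 1) (nat_lit 74) (nat_lit 32) (nat_lit 74))))) (PT.nd (nat_lit 282) (PT.nd (nat_lit 94) (PT.lf (nat_lit 19320) (nat_lit 6) (nat_lit 230) (nat_lit 1) (nat_lit 75) (nat_lit 32) (nat_lit 73)) (PT.nd (nat_lit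 94) (PT.lf (nat_lit 19236) (nat_lit 6) (nat_lit 229) (nat_lit 1) (nat_lit 76) (nat_lit 32) (nat_lit 72)) (PT.lf (nat_lit 19152) (nat_lit 6) (nat_lit 228) (nat_lit 1) (nat_lit 77) (nat_lit 32) (nat_lit 71)))) (PT.nd (nat_lit 94) (PT.lf (nat_lit 19068) (nat_lit 6) (nat_lit 227) (nat_lit 1) (nat_lit 78) (nat_lit 32) (nat_lit 70)) (PT.nd (nat_lit 94) (PT.lf (nat_lit 18984) (nat_lit 6) (nat_lit 226) (nat_lit 1) (nat_lit 79) (nat_lit 32) (nat_lit 69)) (PT.lf (nat_lit 18900) (nat_lit 6) (nat_lit 225) (nat_lit 1) (nat_lit 80) (nat_lit 32) (nat_lit 68))))))))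
noncomputable def pc8 : PT := (PT.nd (nat_lit 45402) (PT.nd (nat_lit 44274) (PT.nd (nat_lit 43710) (PT.nd (nat_lit 188) (PT.nd (nat_lit 94) (PT.lf (nat_lit 18816) (nat_lit 6) (nat_lit 224) (nat_lit 1) (nat_lit 81) (nat_lit 32) (nat_lit 67)) (PT.lf (nat_lit 18732) (nat_lit 6) (nat_lit 223) (nat_lit 1) (nat_lit 82) (nat_lit 32) (nat_lit 66))) (PT.nd (nat_lit 94) (PT.lf (nat_lit 18648) (nat_lit 6) (nat_lit 222) (nat_lit 1) (nat_lit 83) (nat_lit 32) (nat_lit 65)) (PT.nd (nat_lit 43334) (PT.lf (nat_lit 18564) (nat_lit 6) (nat_lit 221) (nat_lit 1) (nat_lit 84) (nat_lit 32) (nat_lit 64)) (PT.lf (nat_lit 19488) (nat_lit 6) (nat_lit 232) (nat_lit 3) (nat_lit 64) (nat_lit 33) (nat_lit 83))))) (PT.nd (nat_lit 282) (PT.nd (nat_lit 94) (PT.lf (nat_lit 19572) (nat_lit 6) (nat_lit 233) (nat_lit 3) (nat_lit 65) (nat_lit 33) (nat_lit 82)) (PT.nd (nat_lit 94) (PT.lf (nat_lit 19656) (nat_lit 6) (nat_lit 234) (nat_lit 3)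 (nat_lit 66) (nat_lit 33) (nat_lit 81)) (PT.lf (nat_lit 19740) (nat_lit 6) (nat_lit 235) (nat_lit 3) (nat_lit 67) (nat_lit 33) (nat_lit 80)))) (PT.nd (nat_lit 94) (PT.lf (nat_lit 19824) (nat_lit 6) (nat_lit 236) (nat_lit 3) (nat_lit 68) (nat_lit 33) (nat_lit 79)) (PT.nd (nat_lit 94) (PT.lf (nat_lit 19908) (nat_lit 6) (nat_lit 237) (nat_lit 3) (nat_lit 69) (nat_lit 33) (nat_lit 78)) (PT.lf (nat_lit 19992) (nat_lit 6) (nat_lit 238) (nat_lit 3) (nat_lit 70) (nat_lit 33) (nat_lit 77)))))) (PT.nd (nat_lit 564) (PT.nd (nat_lit 282) (PT.nd (nat_lit 94) (PT.lf (nat_lit 20076) (nat_lit 6) (nat_lit 239) (nat_lit 3) (nat_lit 71) (nat_lit 33) (nat_lit 76)) (PT.nd (nat_lit 94) (PT.lf (nat_lit 20160) (nat_lit 6) (nat_lit 240) (nat_lit 3) (nat_lit 72) (nat_lit 33) (nat_lit 75)) (PT.lf (nat_lit 20244) (nat_lit 6) (nat_lit 241) (nat_lit 3) (nat_lit 73) (nat_lit 33) (nat_lit 74)))) (PT.nd (nat_lit 94) (PT.lf (nat_lit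 20244) (nat_lit 6) (nat_lit 241) (nat_lit 1) (nat_lit 74) (nat_lit 33) (nat_lit 73)) (PT.nd (nat_lit 94) (PT.lf (nat_lit 20160) (nat_lit 6) (nat_lit 240) (nat_lit 1) (nat_lit 75) (nat_lit 33) (nat_lit 72)) (PT.lf (nat_lit 20076) (nat_lit 6) (nat_lit 239) (nat_lit 1) (nat_lit 76) (nat_lit 33) (nat_lit 71))))) (PT.nd (nat_lit 282) (PT.nd (nat_lit 94) (PT.lf (nat_lit 19992) (nat_lit 6) (nat_lit 238) (nat_lit 1) (nat_lit 77) (nat_lit 33) (nat_lit 70)) (PT.nd (nat_lit 94) (PT.lf (nat_lit 19908) (nat_lit 6) (nat_lit 237) (nat_lit 1) (nat_lit 78) (nat_lit 33) (nat_lit 69)) (PT.lf (nat_lit 19824) (nat_lit 6) (nat_lit 236) (nat_lit 1) (nat_lit 79) (nat_lit 33) (nat_lit 68)))) (PT.nd (nat_lit 94) (PT.lf (nat_lit 19740) (nat_lit 6) (nat_lit 235) (nat_lit 1) (nat_lit 80) (nat_lit 33) (nat_lit 67)) (PT.nd (nat_lit 94) (PT.lf (nat_lit 19656) (nat_lit 6) (nat_lit 234) (nat_lit 1) (nat_lit 81) (nat_lit 33) (nat_lit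 66)) (PT.lf (nat_lit 19572) (nat_lit 6) (nat_lit 233) (nat_lit 1) (nat_lit 82) (nat_lit 33) (nat_lit 65))))))) (PT.nd (nat_lit 44274) (PT.nd (nat_lit 43710) (PT.nd (nat_lit 43428) (PT.nd (nat_lit 43334) (PT.lf (nat_lit 19488) (nat_lit 6) (nat_lit 232) (nat_lit 1) (nat_lit 83) (nat_lit 33) (nat_lit 64)) (PT.lf (nat_lit 20328) (nat_lit 6) (nat_lit 242) (nat_lit 3) (nat_lit 63) (nat_lit 34) (nat_lit 83))) (PT.nd (nat_lit 94) (PT.lf (nat_lit 20412) (nat_lit 6) (nat_lit 243) (nat_lit 3) (nat_lit 64) (nat_lit 34) (nat_lit 82)) (PT.nd (nat_lit 94) (PT.lf (nat_lit 20496) (nat_lit 6) (nat_lit 244) (nat_lit 3) (nat_lit 65) (nat_lit 34) (nat_lit 81)) (PT.lf (nat_lit 20580) (nat_lit 6) (nat_lit 245) (nat_lit 3) (nat_lit 66) (nat_lit 34) (nat_lit 80))))) (PT.nd (nat_lit 282) (PT.nd (nat_lit 94) (PT.lf (nat_lit 20664) (nat_lit 6) (nat_lit 246) (nat_lit 3) (nat_lit 67) (nat_lit 34) (nat_lit 79)) (PT.nd (nat_lit 94)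 (PT.lf (nat_lit 20748) (nat_lit 6) (nat_lit 247) (nat_lit 3) (nat_lit 68) (nat_lit 34) (nat_lit 78)) (PT.lf (nat_lit 20832) (nat_lit 6) (nat_lit 248) (nat_lit 3) (nat_lit 69) (nat_lit 34) (nat_lit 77)))) (PT.nd (nat_lit 94) (PT.lf (nat_lit 20916) (nat_lit 6) (nat_lit 249) (nat_lit 3) (nat_lit 70) (nat_lit 34) (nat_lit 76)) (PT.nd (nat_lit 94) (PT.lf (nat_lit 21000) (nat_lit 6) (nat_lit 250) (nat_lit 3) (nat_lit 71) (nat_lit 34) (nat_lit 75)) (PT.lf (nat_lit 21084) (nat_lit 6) (nat_lit 251) (nat_lit 3) (nat_lit 72) (nat_lit 34) (nat_lit 74)))))) (PT.nd (nat_lit 564) (PT.nd (nat_lit 282) (PT.nd (nat_lit 94) (PT.lf (nat_lit 21168) (nat_lit 3) (nat_lit 252) (nat_lit 1) (nat_lit 73) (nat_lit 34) (nat_lit 73)) (PT.nd (nat_lit 94) (PT.lf (nat_lit 21084) (nat_lit 6) (nat_lit 251) (nat_lit 1) (nat_lit 74) (nat_lit 34) (nat_lit 72)) (PT.lf (nat_lit 21000) (nat_lit 6) (nat_lit 250) (nat_lit 1) (nat_lit 75) (nat_lit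 34) (nat_lit 71)))) (PT.nd (nat_lit 94) (PT.lf (nat_lit 20916) (nat_lit 6) (nat_lit 249) (nat_lit 1) (nat_lit 76) (nat_lit 34) (nat_lit 70)) (PT.nd (nat_lit 94) (PT.lf (nat_lit 20832) (nat_lit 6) (nat_lit 248) (nat_lit 1) (nat_lit 77) (nat_lit 34) (nat_lit 69)) (PT.lf (nat_lit 20748) (nat_lit 6) (nat_lit 247) (nat_lit 1) (nat_lit 78) (nat_lit 34) (nat_lit 68))))) (PT.nd (nat_lit 282) (PT.nd (nat_lit 94) (PT.lf (nat_lit 20664) (nat_lit 6) (nat_lit 246) (nat_lit 1) (nat_lit 79) (nat_lit 34) (nat_lit 67)) (PT.nd (nat_lit 94) (PT.lf (nat_lit 20580) (nat_lit 6) (nat_lit 245) (nat_lit 1) (nat_lit 80) (nat_lit 34) (nat_lit 66)) (PT.lf (nat_lit 20496) (nat_lit 6) (nat_lit 244) (nat_lit 1) (nat_lit 81) (nat_lit 34) (nat_lit 65)))) (PT.nd (nat_lit 94) (PT.lf (nat_lit 20412) (nat_lit 6) (nat_lit 243) (nat_lit 1) (nat_lit 82) (nat_lit 34) (nat_lit 64)) (PT.nd (nat_lit 43240) (PT.lf (nat_lit 20328) (nat_lit 6) (nat_lit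 242) (nat_lit 1) (nat_lit 83) (nat_lit 34) (nat_lit 63)) (PT.lf (nat_lit 21252) (nat_lit 6) (nat_lit 253) (nat_lit 3) (nat_lit 62) (nat_lit 35) (nat_lit 83))))))))
noncomputable def pc9 : PT := (PT.nd (nat_lit 45214) (PT.nd (nat_lit 1034) (PT.nd (nat_lit 470) (PT.nd (nat_lit 188) (PT.nd (nat_lit 94) (PT.lf (nat_lit 21336) (nat_lit 6) (nat_lit 254) (nat_lit 3) (nat_lit 63) (nat_lit 35) (nat_lit 82)) (PT.lf (nat_lit 21420) (nat_lit 6) (nat_lit 255) (nat_lit 3) (nat_lit 64) (nat_lit 35) (nat_lit 81))) (PT.nd (nat_lit 94) (PT.lf (nat_lit 21504) (nat_lit 6) (nat_lit 256) (nat_lit 3) (nat_lit 65) (nat_lit 35) (nat_lit 80)) (PT.nd (nat_lit 94) (PT.lf (nat_lit 21588) (nat_lit 6) (nat_lit 257) (nat_lit 3) (nat_lit 66) (nat_lit 35) (nat_lit 79)) (PT.lf (nat_lit 21672) (nat_lit 6) (nat_lit 258) (nat_lit 3) (nat_lit 67) (nat_lit 35) (nat_lit 78))))) (PT.nd (nat_lit 282) (PT.nd (nat_lit 94) (PT.lf (nat_lit 21756)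 (nat_lit 6) (nat_lit 259) (nat_lit 3) (nat_lit 68) (nat_lit 35) (nat_lit 77)) (PT.nd (nat_lit 94) (PT.lf (nat_lit 21840) (nat_lit 6) (nat_lit 260) (nat_lit 3) (nat_lit 69) (nat_lit 35) (nat_lit 76)) (PT.lf (nat_lit 21924) (nat_lit 6) (nat_lit 261) (nat_lit 3) (nat_lit 70) (nat_lit 35) (nat_lit 75)))) (PT.nd (nat_lit 94) (PT.lf (nat_lit 22008) (nat_lit 6) (nat_lit 262) (nat_lit 3) (nat_lit 71) (nat_lit 35) (nat_lit 74)) (PT.nd (nat_lit 94) (PT.lf (nat_lit 22092) (nat_lit 6) (nat_lit 263) (nat_lit 3) (nat_lit 72) (nat_lit 35) (nat_lit 73)) (PT.lf (nat_lit 22092) (nat_lit 6) (nat_lit 263) (nat_lit 1) (nat_lit 73) (nat_lit 35) (nat_lit 72)))))) (PT.nd (nat_lit 564) (PT.nd (nat_lit 282) (PT.nd (nat_lit 94) (PT.lf (nat_lit 22008) (nat_lit 6) (nat_lit 262) (nat_lit 1) (nat_lit 74) (nat_lit 35) (nat_lit 71)) (PT.nd (nat_lit 94) (PT.lf (nat_lit 21924) (nat_lit 6) (nat_lit 261) (nat_lit 1) (nat_lit 75) (nat_lit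 35) (nat_lit 70)) (PT.lf (nat_lit 21840) (nat_lit 6) (nat_lit 260) (nat_lit 1) (nat_lit 76) (nat_lit 35) (nat_lit 69)))) (PT.nd (nat_lit 94) (PT.lf (nat_lit 21756) (nat_lit 6) (nat_lit 259) (nat_lit 1) (nat_lit 77) (nat_lit 35) (nat_lit 68)) (PT.nd (nat_lit 94) (PT.lf (nat_lit 21672) (nat_lit 6) (nat_lit 258) (nat_lit 1) (nat_lit 78) (nat_lit 35) (nat_lit 67)) (PT.lf (nat_lit 21588) (nat_lit 6) (nat_lit 257) (nat_lit 1) (nat_lit 79) (nat_lit 35) (nat_lit 66))))) (PT.nd (nat_lit 282) (PT.nd (nat_lit 94) (PT.lf (nat_lit 21504) (nat_lit 6) (nat_lit 256) (nat_lit 1) (nat_lit 80) (nat_lit 35) (nat_lit 65)) (PT.nd (nat_lit 94) (PT.lf (nat_lit 21420) (nat_lit 6) (nat_lit 255) (nat_lit 1) (nat_lit 81) (nat_lit 35) (nat_lit 64)) (PT.lf (nat_lit 21336) (nat_lit 6) (nat_lit 254) (nat_lit 1) (nat_lit 82) (nat_lit 35) (nat_lit 63)))) (PT.nd (nat_lit 43146) (PT.lf (nat_lit 21252) (nat_lit 6) (nat_lit 253) (nat_lit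 1) (nat_lit 83) (nat_lit 35) (nat_lit 62)) (PT.nd (nat_lit 94) (PT.lf (nat_lit 22176) (nat_lit 6) (nat_lit 264) (nat_lit 3) (nat_lit 61) (nat_lit 36) (nat_lit 83)) (PT.lf (nat_lit 22260) (nat_lit 6) (nat_lit 265) (nat_lit 3) (nat_lit 62) (nat_lit 36) (nat_lit 82))))))) (PT.nd (nat_lit 1128) (PT.nd (nat_lit 564) (PT.nd (nat_lit 282) (PT.nd (nat_lit 94) (PT.lf (nat_lit 22344) (nat_lit 6) (nat_lit 266) (nat_lit 3) (nat_lit 63) (nat_lit 36) (nat_lit 81)) (PT.nd (nat_lit 94) (PT.lf (nat_lit 22428) (nat_lit 6) (nat_lit 267) (nat_lit 3) (nat_lit 64) (nat_lit 36) (nat_lit 80)) (PT.lf (nat_lit 22512) (nat_lit 6) (nat_lit 268) (nat_lit 3) (nat_lit 65) (nat_lit 36) (nat_lit 79)))) (PT.nd (nat_lit 94) (PT.lf (nat_lit 22596) (nat_lit 6) (nat_lit 269) (nat_lit 3) (nat_lit 66) (nat_lit 36) (nat_lit 78)) (PT.nd (nat_lit 94) (PT.lf (nat_lit 22680) (nat_lit 6) (nat_lit 270) (nat_lit 3) (nat_lit 67) (nat_lit 36) (nat_lit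 77)) (PT.lf (nat_lit 22764) (nat_lit 6) (nat_lit 271) (nat_lit 3) (nat_lit 68) (nat_lit 36) (nat_lit 76))))) (PT.nd (nat_lit 282) (PT.nd (nat_lit 94) (PT.lf (nat_lit 22848) (nat_lit 6) (nat_lit 272) (nat_lit 3) (nat_lit 69) (nat_lit 36) (nat_lit 75)) (PT.nd (nat_lit 94) (PT.lf (nat_lit 22932) (nat_lit 6) (nat_lit 273) (nat_lit 3) (nat_lit 70) (nat_lit 36) (nat_lit 74)) (PT.lf (nat_lit 23016) (nat_lit 6) (nat_lit 274) (nat_lit 3) (nat_lit 71) (nat_lit 36) (nat_lit 73)))) (PT.nd (nat_lit 94) (PT.lf (nat_lit 23100) (nat_lit 3) (nat_lit 275) (nat_lit 1) (nat_lit 72) (nat_lit 36) (nat_lit 72)) (PT.nd (nat_lit 94) (PT.lf (nat_lit 23016) (nat_lit 6) (nat_lit 274) (nat_lit 1) (nat_lit 73) (nat_lit 36) (nat_lit 71)) (PT.lf (nat_lit 22932) (nat_lit 6) (nat_lit 273) (nat_lit 1) (nat_lit 74) (nat_lit 36) (nat_lit 70)))))) (PT.nd (nat_lit 564) (PT.nd (nat_lit 282) (PT.nd (nat_lit 94) (PT.lf (nat_lit 22848) (nat_lit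 6) (nat_lit 272) (nat_lit 1) (nat_lit 75) (nat_lit 36) (nat_lit 69)) (PT.nd (nat_lit 94) (PT.lf (nat_lit 22764) (nat_lit 6) (nat_lit 271) (nat_lit 1) (nat_lit 76) (nat_lit 36) (nat_lit 68)) (PT.lf (nat_lit 22680) (nat_lit 6) (nat_lit 270) (nat_lit 1) (nat_lit 77) (nat_lit 36) (nat_lit 67)))) (PT.nd (nat_lit 94) (PT.lf (nat_lit 22596) (nat_lit 6) (nat_lit 269) (nat_lit 1) (nat_lit 78) (nat_lit 36) (nat_lit 66)) (PT.nd (nat_lit 94) (PT.lf (nat_lit 22512) (nat_lit 6) (nat_lit 268) (nat_lit 1) (nat_lit 79) (nat_lit 36) (nat_lit 65)) (PT.lf (nat_lit 22428) (nat_lit 6) (nat_lit 267) (nat_lit 1) (nat_lit 80) (nat_lit 36) (nat_lit 64))))) (PT.nd (nat_lit 43240) (PT.nd (nat_lit 94) (PT.lf (nat_lit 22344) (nat_lit 6) (nat_lit 266) (nat_lit 1) (nat_lit 81) (nat_lit 36) (nat_lit 63)) (PT.nd (nat_lit 94) (PT.lf (nat_lit 22260) (nat_lit 6) (nat_lit 265) (nat_lit 1) (nat_lit 82) (nat_lit 36) (nat_lit 62)) (PT.lf (nat_lit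 22176) (nat_lit 6) (nat_lit 264) (nat_lit 1) (nat_lit 83) (nat_lit 36) (nat_lit 61)))) (PT.nd (nat_lit 94) (PT.lf (nat_lit 23268) (nat_lit 6) (nat_lit 277) (nat_lit 3) (nat_lit 60) (nat_lit 37) (nat_lit 83)) (PT.nd (nat_lit 94) (PT.lf (nat_lit 23352) (nat_lit 6) (nat_lit 278) (nat_lit 3) (nat_lit 61) (nat_lit 37) (nat_lit 82)) (PT.lf (nat_lit 23436) (nat_lit 6) (nat_lit 279) (nat_lit 3) (nat_lit 62) (nat_lit 37) (nat_lit 81))))))))
noncomputable def pc10 : PT := (PT.nd (nat_lit 45026) (PT.nd (nat_lit 1034) (PT.nd (nat_lit 470) (PT.nd (nat_lit 188) (PT.nd (nat_lit 94) (PT.lf (nat_lit 23520) (nat_lit 6) (nat_lit 280) (nat_lit 3) (nat_lit 63) (nat_lit 37) (nat_lit 80)) (PT.lf (nat_lit 23604) (nat_lit 6) (nat_lit 281) (nat_lit 3) (nat_lit 64) (nat_lit 37) (nat_lit 79))) (PT.nd (nat_lit 94) (PT.lf (nat_lit 23688) (nat_lit 6) (nat_lit 282) (nat_lit 3) (nat_lit 65) (nat_lit 37) (nat_lit 78)) (PT.nd (nat_lit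 94) (PT.lf (nat_lit 23772) (nat_lit 6) (nat_lit 283) (nat_lit 3) (nat_lit 66) (nat_lit 37) (nat_lit 77)) (PT.lf (nat_lit 23856) (nat_lit 6) (nat_lit 284) (nat_lit 3) (nat_lit 67) (nat_lit 37) (nat_lit 76))))) (PT.nd (nat_lit 282) (PT.nd (nat_lit 94) (PT.lf (nat_lit 23940) (nat_lit 6) (nat_lit 285) (nat_lit 3) (nat_lit 68) (nat_lit 37) (nat_lit 75)) (PT.nd (nat_lit 94) (PT.lf (nat_lit 24024) (nat_lit 6) (nat_lit 286) (nat_lit 3) (nat_lit 69) (nat_lit 37) (nat_lit 74)) (PT.lf (nat_lit 24108) (nat_lit 6) (nat_lit 287) (nat_lit 3) (nat_lit 70) (nat_lit 37) (nat_lit 73)))) (PT.nd (nat_lit 94) (PT.lf (nat_lit 24192) (nat_lit 6) (nat_lit 288) (nat_lit 3) (nat_lit 71) (nat_lit 37) (nat_lit 72)) (PT.nd (nat_lit 94) (PT.lf (nat_lit 24192) (nat_lit 6) (nat_lit 288) (nat_lit 1) (nat_lit 72) (nat_lit 37) (nat_lit 71)) (PT.lf (nat_lit 24108) (nat_lit 6) (nat_lit 287) (nat_lit 1) (nat_lit 73) (nat_lit 37) (nat_lit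 70)))))) (PT.nd (nat_lit 564) (PT.nd (nat_lit 282) (PT.nd (nat_lit 94) (PT.lf (nat_lit 24024) (nat_lit 6) (nat_lit 286) (nat_lit 1) (nat_lit 74) (nat_lit 37) (nat_lit 69)) (PT.nd (nat_lit 94) (PT.lf (nat_lit 23940) (nat_lit 6) (nat_lit 285) (nat_lit 1) (nat_lit 75) (nat_lit 37) (nat_lit 68)) (PT.lf (nat_lit 23856) (nat_lit 6) (nat_lit 284) (nat_lit 1) (nat_lit 76) (nat_lit 37) (nat_lit 67)))) (PT.nd (nat_lit 94) (PT.lf (nat_lit 23772) (nat_lit 6) (nat_lit 283) (nat_lit 1) (nat_lit 77) (nat_lit 37) (nat_lit 66)) (PT.nd (nat_lit 94) (PT.lf (nat_lit 23688) (nat_lit 6) (nat_lit 282) (nat_lit 1) (nat_lit 78) (nat_lit 37) (nat_lit 65)) (PT.lf (nat_lit 23604) (nat_lit 6) (nat_lit 281) (nat_lit 1) (nat_lit 79) (nat_lit 37) (nat_lit 64))))) (PT.nd (nat_lit 282) (PT.nd (nat_lit 94) (PT.lf (nat_lit 23520) (nat_lit 6) (nat_lit 280) (nat_lit 1) (nat_lit 80) (nat_lit 37) (nat_lit 63)) (PT.nd (nat_lit 94) (PT.lf (nat_lit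 23436) (nat_lit 6) (nat_lit 279) (nat_lit 1) (nat_lit 81) (nat_lit 37) (nat_lit 62)) (PT.lf (nat_lit 23352) (nat_lit 6) (nat_lit 278) (nat_lit 1) (nat_lit 82) (nat_lit 37) (nat_lit 61)))) (PT.nd (nat_lit 42958) (PT.lf (nat_lit 23268) (nat_lit 6) (nat_lit 277) (nat_lit 1) (nat_lit 83) (nat_lit 37) (nat_lit 60)) (PT.nd (nat_lit 94) (PT.lf (nat_lit 23184) (nat_lit 6) (nat_lit 276) (nat_lit 3) (nat_lit 59) (nat_lit 38) (nat_lit 83)) (PT.lf (nat_lit 25200) (nat_lit 6) (nat_lit 300) (nat_lit 3) (nat_lit 60) (nat_lit 38) (nat_lit 82))))))) (PT.nd (nat_lit 1034) (PT.nd (nat_lit 470) (PT.nd (nat_lit 188) (PT.nd (nat_lit 94) (PT.lf (nat_lit 25284) (nat_lit 6) (nat_lit 301) (nat_lit 3) (nat_lit 61) (nat_lit 38) (nat_lit 81)) (PT.lf (nat_lit 25368) (nat_lit 6) (nat_lit 302) (nat_lit 3) (nat_lit 62) (nat_lit 38) (nat_lit 80))) (PT.nd (nat_lit 94) (PT.lf (nat_lit 25452) (nat_lit 6) (nat_lit 303) (nat_lit 3) (nat_lit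 63) (nat_lit 38) (nat_lit 79)) (PT.nd (nat_lit 94) (PT.lf (nat_lit 25536) (nat_lit 6) (nat_lit 304) (nat_lit 3) (nat_lit 64) (nat_lit 38) (nat_lit 78)) (PT.lf (nat_lit 25620) (nat_lit 6) (nat_lit 305) (nat_lit 3) (nat_lit 65) (nat_lit 38) (nat_lit 77))))) (PT.nd (nat_lit 282) (PT.nd (nat_lit 94) (PT.lf (nat_lit 25704) (nat_lit 6) (nat_lit 306) (nat_lit 3) (nat_lit 66) (nat_lit 38) (nat_lit 76)) (PT.nd (nat_lit 94) (PT.lf (nat_lit 25788) (nat_lit 6) (nat_lit 307) (nat_lit 3) (nat_lit 67) (nat_lit 38) (nat_lit 75)) (PT.lf (nat_lit 25872) (nat_lit 6) (nat_lit 308) (nat_lit 3) (nat_lit 68) (nat_lit 38) (nat_lit 74)))) (PT.nd (nat_lit 94) (PT.lf (nat_lit 25956) (nat_lit 6) (nat_lit 309) (nat_lit 3) (nat_lit 69) (nat_lit 38) (nat_lit 73)) (PT.nd (nat_lit 94) (PT.lf (nat_lit 26040) (nat_lit 6) (nat_lit 310) (nat_lit 3) (nat_lit 70) (nat_lit 38) (nat_lit 72)) (PT.lf (nat_lit 26124) (nat_lit 3) (nat_lit 311)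 (nat_lit 1) (nat_lit 71) (nat_lit 38) (nat_lit 71)))))) (PT.nd (nat_lit 564) (PT.nd (nat_lit 282) (PT.nd (nat_lit 94) (PT.lf (nat_lit 26040) (nat_lit 6) (nat_lit 310) (nat_lit 1) (nat_lit 72) (nat_lit 38) (nat_lit 70)) (PT.nd (nat_lit 94) (PT.lf (nat_lit 25956) (nat_lit 6) (nat_lit 309) (nat_lit 1) (nat_lit 73) (nat_lit 38) (nat_lit 69)) (PT.lf (nat_lit 25872) (nat_lit 6) (nat_lit 308) (nat_lit 1) (nat_lit 74) (nat_lit 38) (nat_lit 68)))) (PT.nd (nat_lit 94) (PT.lf (nat_lit 25788) (nat_lit 6) (nat_lit 307) (nat_lit 1) (nat_lit 75) (nat_lit 38) (nat_lit 67)) (PT.nd (nat_lit 94) (PT.lf (nat_lit 25704) (nat_lit 6) (nat_lit 306) (nat_lit 1) (nat_lit 76) (nat_lit 38) (nat_lit 66)) (PT.lf (nat_lit 25620) (nat_lit 6) (nat_lit 305) (nat_lit 1) (nat_lit 77) (nat_lit 38) (nat_lit 65))))) (PT.nd (nat_lit 282) (PT.nd (nat_lit 94) (PT.lf (nat_lit 25536) (nat_lit 6) (nat_lit 304) (nat_lit 1) (nat_lit 78) (nat_lit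 38) (nat_lit 64)) (PT.nd (nat_lit 94) (PT.lf (nat_lit 25452) (nat_lit 6) (nat_lit 303) (nat_lit 1) (nat_lit 79) (nat_lit 38) (nat_lit 63)) (PT.lf (nat_lit 25368) (nat_lit 6) (nat_lit 302) (nat_lit 1) (nat_lit 80) (nat_lit 38) (nat_lit 62)))) (PT.nd (nat_lit 94) (PT.lf (nat_lit 25284) (nat_lit 6) (nat_lit 301) (nat_lit 1) (nat_lit 81) (nat_lit 38) (nat_lit 61)) (PT.nd (nat_lit 94) (PT.lf (nat_lit 25200) (nat_lit 6) (nat_lit 300) (nat_lit 1) (nat_lit 82) (nat_lit 38) (nat_lit 60)) (PT.lf (nat_lit 23184) (nat_lit 6) (nat_lit 276) (nat_lit 1) (nat_lit 83) (nat_lit 38) (nat_lit 59))))))))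
noncomputable def pc11 : PT := (PT.nd (nat_lit 2162) (PT.nd (nat_lit 1034) (PT.nd (nat_lit 470) (PT.nd (nat_lit 188) (PT.nd (nat_lit 94) (PT.lf (nat_lit 25116) (nat_lit 6) (nat_lit 299) (nat_lit 3) (nat_lit 59) (nat_lit 39) (nat_lit 82)) (PT.lf (nat_lit 27048) (nat_lit 6) (nat_lit 322) (nat_lit 3) (nat_lit 60) (nat_lit 39) (nat_lit 81))) (PT.nd (nat_lit 94) (PT.lf (nat_lit 27132) (nat_lit 6) (nat_lit 323) (nat_lit 3) (nat_lit 61) (nat_lit 39) (nat_lit 80)) (PT.nd (nat_lit 94) (PT.lf (nat_lit 27216) (nat_lit 6) (nat_lit 324) (nat_lit 3) (nat_lit 62) (nat_lit 39) (nat_lit 79)) (PT.lf (nat_lit 27300) (nat_lit 6) (nat_lit 325) (nat_lit 3) (nat_lit 63) (nat_lit 39) (nat_lit 78))))) (PT.nd (nat_lit 282) (PT.nd (nat_lit 94) (PT.lf (nat_lit 27384) (nat_lit 6) (nat_lit 326) (nat_lit 3) (nat_lit 64) (nat_lit 39) (nat_lit 77)) (PT.nd (nat_lit 94) (PT.lf (nat_lit 27468) (nat_lit 6) (nat_lit 327) (nat_lit 3) (nat_lit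 65) (nat_lit 39) (nat_lit 76)) (PT.lf (nat_lit 27552) (nat_lit 6) (nat_lit 328) (nat_lit 3) (nat_lit 66) (nat_lit 39) (nat_lit 75)))) (PT.nd (nat_lit 94) (PT.lf (nat_lit 27636) (nat_lit 6) (nat_lit 329) (nat_lit 3) (nat_lit 67) (nat_lit 39) (nat_lit 74)) (PT.nd (nat_lit 94) (PT.lf (nat_lit 27720) (nat_lit 6) (nat_lit 330) (nat_lit 3) (nat_lit 68) (nat_lit 39) (nat_lit 73)) (PT.lf (nat_lit 27804) (nat_lit 6) (nat_lit 331) (nat_lit 3) (nat_lit 69) (nat_lit 39) (nat_lit 72)))))) (PT.nd (nat_lit 564) (PT.nd (nat_lit 282) (PT.nd (nat_lit 94) (PT.lf (nat_lit 27888) (nat_lit 6) (nat_lit 332) (nat_lit 3) (nat_lit 70) (nat_lit 39) (nat_lit 71)) (PT.nd (nat_lit 94) (PT.lf (nat_lit 27888) (nat_lit 6) (nat_lit 332) (nat_lit 1) (nat_lit 71) (nat_lit 39) (nat_lit 70)) (PT.lf (nat_lit 27804) (nat_lit 6) (nat_lit 331) (nat_lit 1) (nat_lit 72) (nat_lit 39) (nat_lit 69)))) (PT.nd (nat_lit 94) (PT.lf (nat_lit 27720) (nat_lit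 6) (nat_lit 330) (nat_lit 1) (nat_lit 73) (nat_lit 39) (nat_lit 68)) (PT.nd (nat_lit 94) (PT.lf (nat_lit 27636) (nat_lit 6) (nat_lit 329) (nat_lit 1) (nat_lit 74) (nat_lit 39) (nat_lit 67)) (PT.lf (nat_lit 27552) (nat_lit 6) (nat_lit 328) (nat_lit 1) (nat_lit 75) (nat_lit 39) (nat_lit 66))))) (PT.nd (nat_lit 282) (PT.nd (nat_lit 94) (PT.lf (nat_lit 27468) (nat_lit 6) (nat_lit 327) (nat_lit 1) (nat_lit 76) (nat_lit 39) (nat_lit 65)) (PT.nd (nat_lit 94) (PT.lf (nat_lit 27384) (nat_lit 6) (nat_lit 326) (nat_lit 1) (nat_lit 77) (nat_lit 39) (nat_lit 64)) (PT.lf (nat_lit 27300) (nat_lit 6) (nat_lit 325) (nat_lit 1) (nat_lit 78) (nat_lit 39) (nat_lit 63)))) (PT.nd (nat_lit 94) (PT.lf (nat_lit 27216) (nat_lit 6) (nat_lit 324) (nat_lit 1) (nat_lit 79) (nat_lit 39) (nat_lit 62)) (PT.nd (nat_lit 94) (PT.lf (nat_lit 27132) (nat_lit 6) (nat_lit 323) (nat_lit 1) (nat_lit 80) (nat_lit 39) (nat_lit 61)) (PT.lf (nat_lit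 27048) (nat_lit 6) (nat_lit 322) (nat_lit 1) (nat_lit 81) (nat_lit 39) (nat_lit 60))))))) (PT.nd (nat_lit 43992) (PT.nd (nat_lit 43428) (PT.nd (nat_lit 43146) (PT.nd (nat_lit 42958) (PT.lf (nat_lit 25116) (nat_lit 6) (nat_lit 299) (nat_lit 1) (nat_lit 82) (nat_lit 39) (nat_lit 59)) (PT.nd (nat_lit 94) (PT.lf (nat_lit 25032) (nat_lit 6) (nat_lit 298) (nat_lit 3) (nat_lit 58) (nat_lit 40) (nat_lit 82)) (PT.lf (nat_lit 26964) (nat_lit 6) (nat_lit 321) (nat_lit 3) (nat_lit 59) (nat_lit 40) (nat_lit 81)))) (PT.nd (nat_lit 94) (PT.lf (nat_lit 28812) (nat_lit 6) (nat_lit 343) (nat_lit 3) (nat_lit 60) (nat_lit 40) (nat_lit 80)) (PT.nd (nat_lit 94) (PT.lf (nat_lit 28896) (nat_lit 6) (nat_lit 344) (nat_lit 3) (nat_lit 61) (nat_lit 40) (nat_lit 79)) (PT.lf (nat_lit 28980) (nat_lit 6) (nat_lit 345) (nat_lit 3) (nat_lit 62) (nat_lit 40) (nat_lit 78))))) (PT.nd (nat_lit 282) (PT.nd (nat_lit 94) (PT.lf (nat_lit 29064)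 (nat_lit 6) (nat_lit 346) (nat_lit 3) (nat_lit 63) (nat_lit 40) (nat_lit 77)) (PT.nd (nat_lit 94) (PT.lf (nat_lit 29148) (nat_lit 6) (nat_lit 347) (nat_lit 3) (nat_lit 64) (nat_lit 40) (nat_lit 76)) (PT.lf (nat_lit 29232) (nat_lit 6) (nat_lit 348) (nat_lit 3) (nat_lit 65) (nat_lit 40) (nat_lit 75)))) (PT.nd (nat_lit 94) (PT.lf (nat_lit 29316) (nat_lit 6) (nat_lit 349) (nat_lit 3) (nat_lit 66) (nat_lit 40) (nat_lit 74)) (PT.nd (nat_lit 94) (PT.lf (nat_lit 29400) (nat_lit 6) (nat_lit 350) (nat_lit 3) (nat_lit 67) (nat_lit 40) (nat_lit 73)) (PT.lf (nat_lit 29484) (nat_lit 6) (nat_lit 351) (nat_lit 3) (nat_lit 68) (nat_lit 40) (nat_lit 72)))))) (PT.nd (nat_lit 564) (PT.nd (nat_lit 282) (PT.nd (nat_lit 94) (PT.lf (nat_lit 29568) (nat_lit 6) (nat_lit 352) (nat_lit 3) (nat_lit 69) (nat_lit 40) (nat_lit 71)) (PT.nd (nat_lit 94) (PT.lf (nat_lit 29652) (nat_lit 3) (nat_lit 353) (nat_lit 1) (nat_lit 70) (nat_lit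 40) (nat_lit 70)) (PT.lf (nat_lit 29568) (nat_lit 6) (nat_lit 352) (nat_lit 1) (nat_lit 71) (nat_lit 40) (nat_lit 69)))) (PT.nd (nat_lit 94) (PT.lf (nat_lit 29484) (nat_lit 6) (nat_lit 351) (nat_lit 1) (nat_lit 72) (nat_lit 40) (nat_lit 68)) (PT.nd (nat_lit 94) (PT.lf (nat_lit 29400) (nat_lit 6) (nat_lit 350) (nat_lit 1) (nat_lit 73) (nat_lit 40) (nat_lit 67)) (PT.lf (nat_lit 29316) (nat_lit 6) (nat_lit 349) (nat_lit 1) (nat_lit 74) (nat_lit 40) (nat_lit 66))))) (PT.nd (nat_lit 282) (PT.nd (nat_lit 94) (PT.lf (nat_lit 29232) (nat_lit 6) (nat_lit 348) (nat_lit 1) (nat_lit 75) (nat_lit 40) (nat_lit 65)) (PT.nd (nat_lit 94) (PT.lf (nat_lit 29148) (nat_lit 6) (nat_lit 347) (nat_lit 1) (nat_lit 76) (nat_lit 40) (nat_lit 64)) (PT.lf (nat_lit 29064) (nat_lit 6) (nat_lit 346) (nat_lit 1) (nat_lit 77) (nat_lit 40) (nat_lit 63)))) (PT.nd (nat_lit 94) (PT.lf (nat_lit 28980) (nat_lit 6) (nat_lit 345) (nat_lit 1)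 (nat_lit 78) (nat_lit 40) (nat_lit 62)) (PT.nd (nat_lit 94) (PT.lf (nat_lit 28896) (nat_lit 6) (nat_lit 344) (nat_lit 1) (nat_lit 79) (nat_lit 40) (nat_lit 61)) (PT.lf (nat_lit 28812) (nat_lit 6) (nat_lit 343) (nat_lit 1) (nat_lit 80) (nat_lit 40) (nat_lit 60))))))))
noncomputable def pc12 : PT := (PT.nd (nat_lit 44932) (PT.nd (nat_lit 43804) (PT.nd (nat_lit 43240) (PT.nd (nat_lit 42958) (PT.nd (nat_lit 94) (PT.lf (nat_lit 26964) (nat_lit 6) (nat_lit 321) (nat_lit 1) (nat_lit 81) (nat_lit 40) (nat_lit 59)) (PT.lf (nat_lit 25032) (nat_lit 6) (nat_lit 298) (nat_lit 1) (nat_lit 82) (nat_lit 40) (nat_lit 58))) (PT.nd (nat_lit 94) (PT.lf (nat_lit 24948) (nat_lit 6) (nat_lit 297) (nat_lit 3) (nat_lit 57) (nat_lit 41) (nat_lit 82)) (PT.nd (nat_lit 94) (PT.lf (nat_lit 26880) (nat_lit 6) (nat_lit 320) (nat_lit 3) (nat_lit 58) (nat_lit 41) (nat_lit 81)) (PT.lf (nat_lit 28728) (nat_lit 6) (nat_lit 342) (nat_lit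 3) (nat_lit 59) (nat_lit 41) (nat_lit 80))))) (PT.nd (nat_lit 282) (PT.nd (nat_lit 94) (PT.lf (nat_lit 30492) (nat_lit 6) (nat_lit 363) (nat_lit 3) (nat_lit 60) (nat_lit 41) (nat_lit 79)) (PT.nd (nat_lit 94) (PT.lf (nat_lit 30576) (nat_lit 6) (nat_lit 364) (nat_lit 3) (nat_lit 61) (nat_lit 41) (nat_lit 78)) (PT.lf (nat_lit 30660) (nat_lit 6) (nat_lit 365) (nat_lit 3) (nat_lit 62) (nat_lit 41) (nat_lit 77)))) (PT.nd (nat_lit 94) (PT.lf (nat_lit 30744) (nat_lit 6) (nat_lit 366) (nat_lit 3) (nat_lit 63) (nat_lit 41) (nat_lit 76)) (PT.nd (nat_lit 94) (PT.lf (nat_lit 30828) (nat_lit 6) (nat_lit 367) (nat_lit 3) (nat_lit 64) (nat_lit 41) (nat_lit 75)) (PT.lf (nat_lit 30912) (nat_lit 6) (nat_lit 368) (nat_lit 3) (nat_lit 65) (nat_lit 41) (nat_lit 74)))))) (PT.nd (nat_lit 564) (PT.nd (nat_lit 282) (PT.nd (nat_lit 94) (PT.lf (nat_lit 30996) (nat_lit 6) (nat_lit 369) (nat_lit 3) (nat_lit 66) (nat_lit 41) (nat_lit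 73)) (PT.nd (nat_lit 94) (PT.lf (nat_lit 31080) (nat_lit 6) (nat_lit 370) (nat_lit 3) (nat_lit 67) (nat_lit 41) (nat_lit 72)) (PT.lf (nat_lit 31164) (nat_lit 6) (nat_lit 371) (nat_lit 3) (nat_lit 68) (nat_lit 41) (nat_lit 71)))) (PT.nd (nat_lit 94) (PT.lf (nat_lit 31248) (nat_lit 6) (nat_lit 372) (nat_lit 3) (nat_lit 69) (nat_lit 41) (nat_lit 70)) (PT.nd (nat_lit 94) (PT.lf (nat_lit 31248) (nat_lit 6) (nat_lit 372) (nat_lit 1) (nat_lit 70) (nat_lit 41) (nat_lit 69)) (PT.lf (nat_lit 31164) (nat_lit 6) (nat_lit 371) (nat_lit 1) (nat_lit 71) (nat_lit 41) (nat_lit 68))))) (PT.nd (nat_lit 282) (PT.nd (nat_lit 94) (PT.lf (nat_lit 31080) (nat_lit 6) (nat_lit 370) (nat_lit 1) (nat_lit 72) (nat_lit 41) (nat_lit 67)) (PT.nd (nat_lit 94) (PT.lf (nat_lit 30996) (nat_lit 6) (nat_lit 369) (nat_lit 1) (nat_lit 73) (nat_lit 41) (nat_lit 66)) (PT.lf (nat_lit 30912) (nat_lit 6) (nat_lit 368) (nat_lit 1) (nat_lit 74) (nat_lit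 41) (nat_lit 65)))) (PT.nd (nat_lit 94) (PT.lf (nat_lit 30828) (nat_lit 6) (nat_lit 367) (nat_lit 1) (nat_lit 75) (nat_lit 41) (nat_lit 64)) (PT.nd (nat_lit 94) (PT.lf (nat_lit 30744) (nat_lit 6) (nat_lit 366) (nat_lit 1) (nat_lit 76) (nat_lit 41) (nat_lit 63)) (PT.lf (nat_lit 30660) (nat_lit 6) (nat_lit 365) (nat_lit 1) (nat_lit 77) (nat_lit 41) (nat_lit 62))))))) (PT.nd (nat_lit 43710) (PT.nd (nat_lit 43146) (PT.nd (nat_lit 188) (PT.nd (nat_lit 94) (PT.lf (nat_lit 30576) (nat_lit 6) (nat_lit 364) (nat_lit 1) (nat_lit 78) (nat_lit 41) (nat_lit 61)) (PT.lf (nat_lit 30492) (nat_lit 6) (nat_lit 363) (nat_lit 1) (nat_lit 79) (nat_lit 41) (nat_lit 60))) (PT.nd (nat_lit 94) (PT.lf (nat_lit 28728) (nat_lit 6) (nat_lit 342) (nat_lit 1) (nat_lit 80) (nat_lit 41) (nat_lit 59)) (PT.nd (nat_lit 94) (PT.lf (nat_lit 26880) (nat_lit 6) (nat_lit 320) (nat_lit 1) (nat_lit 81) (nat_lit 41) (nat_lit 58)) (PT.lf (nat_lit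 24948) (nat_lit 6) (nat_lit 297) (nat_lit 1) (nat_lit 82) (nat_lit 41) (nat_lit 57))))) (PT.nd (nat_lit 282) (PT.nd (nat_lit 94) (PT.lf (nat_lit 24864) (nat_lit 6) (nat_lit 296) (nat_lit 3) (nat_lit 56) (nat_lit 42) (nat_lit 82)) (PT.nd (nat_lit 94) (PT.lf (nat_lit 26796) (nat_lit 6) (nat_lit 319) (nat_lit 3) (nat_lit 57) (nat_lit 42) (nat_lit 81)) (PT.lf (nat_lit 28644) (nat_lit 6) (nat_lit 341) (nat_lit 3) (nat_lit 58) (nat_lit 42) (nat_lit 80)))) (PT.nd (nat_lit 94) (PT.lf (nat_lit 30408) (nat_lit 6) (nat_lit 362) (nat_lit 3) (nat_lit 59) (nat_lit 42) (nat_lit 79)) (PT.nd (nat_lit 94) (PT.lf (nat_lit 32088) (nat_lit 6) (nat_lit 382) (nat_lit 3) (nat_lit 60) (nat_lit 42) (nat_lit 78)) (PT.lf (nat_lit 32172) (nat_lit 6) (nat_lit 383) (nat_lit 3) (nat_lit 61) (nat_lit 42) (nat_lit 77)))))) (PT.nd (nat_lit 564) (PT.nd (nat_lit 282) (PT.nd (nat_lit 94) (PT.lf (nat_lit 32256) (nat_lit 6) (nat_lit 384) (nat_lit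 3) (nat_lit 62) (nat_lit 42) (nat_lit 76)) (PT.nd (nat_lit 94) (PT.lf (nat_lit 32340) (nat_lit 6) (nat_lit 385) (nat_lit 3) (nat_lit 63) (nat_lit 42) (nat_lit 75)) (PT.lf (nat_lit 32424) (nat_lit 6) (nat_lit 386) (nat_lit 3) (nat_lit 64) (nat_lit 42) (nat_lit 74)))) (PT.nd (nat_lit 94) (PT.lf (nat_lit 32508) (nat_lit 6) (nat_lit 387) (nat_lit 3) (nat_lit 65) (nat_lit 42) (nat_lit 73)) (PT.nd (nat_lit 94) (PT.lf (nat_lit 32592) (nat_lit 6) (nat_lit 388) (nat_lit 3) (nat_lit 66) (nat_lit 42) (nat_lit 72)) (PT.lf (nat_lit 32676) (nat_lit 6) (nat_lit 389) (nat_lit 3) (nat_lit 67) (nat_lit 42) (nat_lit 71))))) (PT.nd (nat_lit 282) (PT.nd (nat_lit 94) (PT.lf (nat_lit 32760) (nat_lit 6) (nat_lit 390) (nat_lit 3) (nat_lit 68) (nat_lit 42) (nat_lit 70)) (PT.nd (nat_lit 94) (PT.lf (nat_lit 32844) (nat_lit 3) (nat_lit 391) (nat_lit 1) (nat_lit 69) (nat_lit 42) (nat_lit 69)) (PT.lf (nat_lit 32760) (nat_lit 6) (nat_lit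 390) (nat_lit 1) (nat_lit 70) (nat_lit 42) (nat_lit 68)))) (PT.nd (nat_lit 94) (PT.lf (nat_lit 32676) (nat_lit 6) (nat_lit 389) (nat_lit 1) (nat_lit 71) (nat_lit 42) (nat_lit 67)) (PT.nd (nat_lit 94) (PT.lf (nat_lit 32592) (nat_lit 6) (nat_lit 388) (nat_lit 1) (nat_lit 72) (nat_lit 42) (nat_lit 66)) (PT.lf (nat_lit 32508) (nat_lit 6) (nat_lit 387) (nat_lit 1) (nat_lit 73) (nat_lit 42) (nat_lit 65))))))))
noncomputable def pc13 : PT := (PT.nd (nat_lit 44744) (PT.nd (nat_lit 43616) (PT.nd (nat_lit 470) (PT.nd (nat_lit 188) (PT.nd (nat_lit 94) (PT.lf (nat_lit 32424) (nat_lit 6) (nat_lit 386) (nat_lit 1) (nat_lit 74) (nat_lit 42) (nat_lit 64)) (PT.lf (nat_lit 32340) (nat_lit 6) (nat_lit 385) (nat_lit 1) (nat_lit 75) (nat_lit 42) (nat_lit 63))) (PT.nd (nat_lit 94) (PT.lf (nat_lit 32256) (nat_lit 6) (nat_lit 384) (nat_lit 1) (nat_lit 76) (nat_lit 42) (nat_lit 62)) (PT.nd (nat_lit 94) (PT.lf (nat_lit 32172)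 (nat_lit 6) (nat_lit 383) (nat_lit 1) (nat_lit 77) (nat_lit 42) (nat_lit 61)) (PT.lf (nat_lit 32088) (nat_lit 6) (nat_lit 382) (nat_lit 1) (nat_lit 78) (nat_lit 42) (nat_lit 60))))) (PT.nd (nat_lit 282) (PT.nd (nat_lit 94) (PT.lf (nat_lit 30408) (nat_lit 6) (nat_lit 362) (nat_lit 1) (nat_lit 79) (nat_lit 42) (nat_lit 59)) (PT.nd (nat_lit 94) (PT.lf (nat_lit 28644) (nat_lit 6) (nat_lit 341) (nat_lit 1) (nat_lit 80) (nat_lit 42) (nat_lit 58)) (PT.lf (nat_lit 26796) (nat_lit 6) (nat_lit 319) (nat_lit 1) (nat_lit 81) (nat_lit 42) (nat_lit 57)))) (PT.nd (nat_lit 42676) (PT.lf (nat_lit 24864) (nat_lit 6) (nat_lit 296) (nat_lit 1) (nat_lit 82) (nat_lit 42) (nat_lit 56)) (PT.nd (nat_lit 94) (PT.lf (nat_lit 24780) (nat_lit 6) (nat_lit 295) (nat_lit 3) (nat_lit 55) (nat_lit 43) (nat_lit 82)) (PT.lf (nat_lit 26712) (nat_lit 6) (nat_lit 318) (nat_lit 3) (nat_lit 56) (nat_lit 43) (nat_lit 81)))))) (PT.nd (nat_lit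 564) (PT.nd (nat_lit 282) (PT.nd (nat_lit 94) (PT.lf (nat_lit 28560) (nat_lit 6) (nat_lit 340) (nat_lit 3) (nat_lit 57) (nat_lit 43) (nat_lit 80)) (PT.nd (nat_lit 94) (PT.lf (nat_lit 30324) (nat_lit 6) (nat_lit 361) (nat_lit 3) (nat_lit 58) (nat_lit 43) (nat_lit 79)) (PT.lf (nat_lit 32004) (nat_lit 6) (nat_lit 381) (nat_lit 3) (nat_lit 59) (nat_lit 43) (nat_lit 78)))) (PT.nd (nat_lit 94) (PT.lf (nat_lit 33600) (nat_lit 6) (nat_lit 400) (nat_lit 3) (nat_lit 60) (nat_lit 43) (nat_lit 77)) (PT.nd (nat_lit 94) (PT.lf (nat_lit 33684) (nat_lit 6) (nat_lit 401) (nat_lit 3) (nat_lit 61) (nat_lit 43) (nat_lit 76)) (PT.lf (nat_lit 33768) (nat_lit 6) (nat_lit 402) (nat_lit 3) (nat_lit 62) (nat_lit 43) (nat_lit 75))))) (PT.nd (nat_lit 282) (PT.nd (nat_lit 94) (PT.lf (nat_lit 33852) (nat_lit 6) (nat_lit 403) (nat_lit 3) (nat_lit 63) (nat_lit 43) (nat_lit 74)) (PT.nd (nat_lit 94) (PT.lf (nat_lit 33936) (nat_lit 6)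 (nat_lit 404) (nat_lit 3) (nat_lit 64) (nat_lit 43) (nat_lit 73)) (PT.lf (nat_lit 34020) (nat_lit 6) (nat_lit 405) (nat_lit 3) (nat_lit 65) (nat_lit 43) (nat_lit 72)))) (PT.nd (nat_lit 94) (PT.lf (nat_lit 34104) (nat_lit 6) (nat_lit 406) (nat_lit 3) (nat_lit 66) (nat_lit 43) (nat_lit 71)) (PT.nd (nat_lit 94) (PT.lf (nat_lit 34188) (nat_lit 6) (nat_lit 407) (nat_lit 3) (nat_lit 67) (nat_lit 43) (nat_lit 70)) (PT.lf (nat_lit 34272) (nat_lit 6) (nat_lit 408) (nat_lit 3) (nat_lit 68) (nat_lit 43) (nat_lit 69))))))) (PT.nd (nat_lit 1128) (PT.nd (nat_lit 564) (PT.nd (nat_lit 282) (PT.nd (nat_lit 94) (PT.lf (nat_lit 34272) (nat_lit 6) (nat_lit 408) (nat_lit 1) (nat_lit 69) (nat_lit 43) (nat_lit 68)) (PT.nd (nat_lit 94) (PT.lf (nat_lit 34188) (nat_lit 6) (nat_lit 407) (nat_lit 1) (nat_lit 70) (nat_lit 43) (nat_lit 67)) (PT.lf (nat_lit 34104) (nat_lit 6) (nat_lit 406) (nat_lit 1) (nat_lit 71) (nat_lit 43) (nat_lit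 66)))) (PT.nd (nat_lit 94) (PT.lf (nat_lit 34020) (nat_lit 6) (nat_lit 405) (nat_lit 1) (nat_lit 72) (nat_lit 43) (nat_lit 65)) (PT.nd (nat_lit 94) (PT.lf (nat_lit 33936) (nat_lit 6) (nat_lit 404) (nat_lit 1) (nat_lit 73) (nat_lit 43) (nat_lit 64)) (PT.lf (nat_lit 33852) (nat_lit 6) (nat_lit 403) (nat_lit 1) (nat_lit 74) (nat_lit 43) (nat_lit 63))))) (PT.nd (nat_lit 282) (PT.nd (nat_lit 94) (PT.lf (nat_lit 33768) (nat_lit 6) (nat_lit 402) (nat_lit 1) (nat_lit 75) (nat_lit 43) (nat_lit 62)) (PT.nd (nat_lit 94) (PT.lf (nat_lit 33684) (nat_lit 6) (nat_lit 401) (nat_lit 1) (nat_lit 76) (nat_lit 43) (nat_lit 61)) (PT.lf (nat_lit 33600) (nat_lit 6) (nat_lit 400) (nat_lit 1) (nat_lit 77) (nat_lit 43) (nat_lit 60)))) (PT.nd (nat_lit 94) (PT.lf (nat_lit 32004) (nat_lit 6) (nat_lit 381) (nat_lit 1) (nat_lit 78) (nat_lit 43) (nat_lit 59)) (PT.nd (nat_lit 94) (PT.lf (nat_lit 30324) (nat_lit 6) (nat_lit 361) (nat_lit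 1) (nat_lit 79) (nat_lit 43) (nat_lit 58)) (PT.lf (nat_lit 28560) (nat_lit 6) (nat_lit 340) (nat_lit 1) (nat_lit 80) (nat_lit 43) (nat_lit 57)))))) (PT.nd (nat_lit 43052) (PT.nd (nat_lit 42770) (PT.nd (nat_lit 94) (PT.lf (nat_lit 26712) (nat_lit 6) (nat_lit 318) (nat_lit 1) (nat_lit 81) (nat_lit 43) (nat_lit 56)) (PT.nd (nat_lit 42582) (PT.lf (nat_lit 24780) (nat_lit 6) (nat_lit 295) (nat_lit 1) (nat_lit 82) (nat_lit 43) (nat_lit 55)) (PT.lf (nat_lit 24696) (nat_lit 6) (nat_lit 294) (nat_lit 3) (nat_lit 54) (nat_lit 44) (nat_lit 82)))) (PT.nd (nat_lit 94) (PT.lf (nat_lit 26628) (nat_lit 6) (nat_lit 317) (nat_lit 3) (nat_lit 55) (nat_lit 44) (nat_lit 81)) (PT.nd (nat_lit 94) (PT.lf (nat_lit 28476) (nat_lit 6) (nat_lit 339) (nat_lit 3) (nat_lit 56) (nat_lit 44) (nat_lit 80)) (PT.lf (nat_lit 30240) (nat_lit 6) (nat_lit 360) (nat_lit 3) (nat_lit 57) (nat_lit 44) (nat_lit 79))))) (PT.nd (nat_lit 282) (PT.nd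 (nat_lit 94) (PT.lf (nat_lit 31920) (nat_lit 6) (nat_lit 380) (nat_lit 3) (nat_lit 58) (nat_lit 44) (nat_lit 78)) (PT.nd (nat_lit 94) (PT.lf (nat_lit 33516) (nat_lit 6) (nat_lit 399) (nat_lit 3) (nat_lit 59) (nat_lit 44) (nat_lit 77)) (PT.lf (nat_lit 35028) (nat_lit 6) (nat_lit 417) (nat_lit 3) (nat_lit 60) (nat_lit 44) (nat_lit 76)))) (PT.nd (nat_lit 94) (PT.lf (nat_lit 35112) (nat_lit 6) (nat_lit 418) (nat_lit 3) (nat_lit 61) (nat_lit 44) (nat_lit 75)) (PT.nd (nat_lit 94) (PT.lf (nat_lit 35196) (nat_lit 6) (nat_lit 419) (nat_lit 3) (nat_lit 62) (nat_lit 44) (nat_lit 74)) (PT.lf (nat_lit 35280) (nat_lit 6) (nat_lit 420) (nat_lit 3) (nat_lit 63) (nat_lit 44) (nat_lit 73))))))))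
noncomputable def pc14 : PT := (PT.nd (nat_lit 44556) (PT.nd (nat_lit 1034) (PT.nd (nat_lit 470) (PT.nd (nat_lit 188) (PT.nd (nat_lit 94) (PT.lf (nat_lit 35364) (nat_lit 6) (nat_lit 421) (nat_lit 3) (nat_lit 64) (nat_lit 44) (nat_lit 72)) (PT.lf (nat_lit 35448) (nat_lit 6) (nat_lit 422) (nat_lit 3) (nat_lit 65) (nat_lit 44) (nat_lit 71))) (PT.nd (nat_lit 94) (PT.lf (nat_lit 35532) (nat_lit 6) (nat_lit 423) (nat_lit 3) (nat_lit 66) (nat_lit 44) (nat_lit 70)) (PT.nd (nat_lit 94) (PT.lf (nat_lit 35616) (nat_lit 6) (nat_lit 424) (nat_lit 3) (nat_lit 67) (nat_lit 44) (nat_lit 69)) (PT.lf (nat_lit 35700) (nat_lit 3) (nat_lit 425) (nat_lit 1) (nat_lit 68) (nat_lit 44) (nat_lit 68))))) (PT.nd (nat_lit 282) (PT.nd (nat_lit 94) (PT.lf (nat_lit 35616) (nat_lit 6) (nat_lit 424) (nat_lit 1) (nat_lit 69) (nat_lit 44) (nat_lit 67)) (PT.nd (nat_lit 94) (PT.lf (nat_lit 35532) (nat_lit 6) (nat_lit 423) (nat_lit 1) (nat_lit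 70) (nat_lit 44) (nat_lit 66)) (PT.lf (nat_lit 35448) (nat_lit 6) (nat_lit 422) (nat_lit 1) (nat_lit 71) (nat_lit 44) (nat_lit 65)))) (PT.nd (nat_lit 94) (PT.lf (nat_lit 35364) (nat_lit 6) (nat_lit 421) (nat_lit 1) (nat_lit 72) (nat_lit 44) (nat_lit 64)) (PT.nd (nat_lit 94) (PT.lf (nat_lit 35280) (nat_lit 6) (nat_lit 420) (nat_lit 1) (nat_lit 73) (nat_lit 44) (nat_lit 63)) (PT.lf (nat_lit 35196) (nat_lit 6) (nat_lit 419) (nat_lit 1) (nat_lit 74) (nat_lit 44) (nat_lit 62)))))) (PT.nd (nat_lit 564) (PT.nd (nat_lit 282) (PT.nd (nat_lit 94) (PT.lf (nat_lit 35112) (nat_lit 6) (nat_lit 418) (nat_lit 1) (nat_lit 75) (nat_lit 44) (nat_lit 61)) (PT.nd (nat_lit 94) (PT.lf (nat_lit 35028) (nat_lit 6) (nat_lit 417) (nat_lit 1) (nat_lit 76) (nat_lit 44) (nat_lit 60)) (PT.lf (nat_lit 33516) (nat_lit 6) (nat_lit 399) (nat_lit 1) (nat_lit 77) (nat_lit 44) (nat_lit 59)))) (PT.nd (nat_lit 94) (PT.lf (nat_lit 31920) (nat_lit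 6) (nat_lit 380) (nat_lit 1) (nat_lit 78) (nat_lit 44) (nat_lit 58)) (PT.nd (nat_lit 94) (PT.lf (nat_lit 30240) (nat_lit 6) (nat_lit 360) (nat_lit 1) (nat_lit 79) (nat_lit 44) (nat_lit 57)) (PT.lf (nat_lit 28476) (nat_lit 6) (nat_lit 339) (nat_lit 1) (nat_lit 80) (nat_lit 44) (nat_lit 56))))) (PT.nd (nat_lit 42676) (PT.nd (nat_lit 94) (PT.lf (nat_lit 26628) (nat_lit 6) (nat_lit 317) (nat_lit 1) (nat_lit 81) (nat_lit 44) (nat_lit 55)) (PT.nd (nat_lit 42488) (PT.lf (nat_lit 24696) (nat_lit 6) (nat_lit 294) (nat_lit 1) (nat_lit 82) (nat_lit 44) (nat_lit 54)) (PT.lf (nat_lit 24612) (nat_lit 6) (nat_lit 293) (nat_lit 3) (nat_lit 53) (nat_lit 45) (nat_lit 82)))) (PT.nd (nat_lit 94) (PT.lf (nat_lit 26544) (nat_lit 6) (nat_lit 316) (nat_lit 3) (nat_lit 54) (nat_lit 45) (nat_lit 81)) (PT.nd (nat_lit 94) (PT.lf (nat_lit 28392) (nat_lit 6) (nat_lit 338) (nat_lit 3) (nat_lit 55) (nat_lit 45) (nat_lit 80)) (PT.lf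 (nat_lit 30156) (nat_lit 6) (nat_lit 359) (nat_lit 3) (nat_lit 56) (nat_lit 45) (nat_lit 79))))))) (PT.nd (nat_lit 1128) (PT.nd (nat_lit 564) (PT.nd (nat_lit 282) (PT.nd (nat_lit 94) (PT.lf (nat_lit 31836) (nat_lit 6) (nat_lit 379) (nat_lit 3) (nat_lit 57) (nat_lit 45) (nat_lit 78)) (PT.nd (nat_lit 94) (PT.lf (nat_lit 33432) (nat_lit 6) (nat_lit 398) (nat_lit 3) (nat_lit 58) (nat_lit 45) (nat_lit 77)) (PT.lf (nat_lit 34944) (nat_lit 6) (nat_lit 416) (nat_lit 3) (nat_lit 59) (nat_lit 45) (nat_lit 76)))) (PT.nd (nat_lit 94) (PT.lf (nat_lit 36372) (nat_lit 6) (nat_lit 433) (nat_lit 3) (nat_lit 60) (nat_lit 45) (nat_lit 75)) (PT.nd (nat_lit 94) (PT.lf (nat_lit 36456) (nat_lit 6) (nat_lit 434) (nat_lit 3) (nat_lit 61) (nat_lit 45) (nat_lit 74)) (PT.lf (nat_lit 36540) (nat_lit 6) (nat_lit 435) (nat_lit 3) (nat_lit 62) (nat_lit 45) (nat_lit 73))))) (PT.nd (nat_lit 282) (PT.nd (nat_lit 94) (PT.lf (nat_lit 36624)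 (nat_lit 6) (nat_lit 436) (nat_lit 3) (nat_lit 63) (nat_lit 45) (nat_lit 72)) (PT.nd (nat_lit 94) (PT.lf (nat_lit 36708) (nat_lit 6) (nat_lit 437) (nat_lit 3) (nat_lit 64) (nat_lit 45) (nat_lit 71)) (PT.lf (nat_lit 36792) (nat_lit 6) (nat_lit 438) (nat_lit 3) (nat_lit 65) (nat_lit 45) (nat_lit 70)))) (PT.nd (nat_lit 94) (PT.lf (nat_lit 36876) (nat_lit 6) (nat_lit 439) (nat_lit 3) (nat_lit 66) (nat_lit 45) (nat_lit 69)) (PT.nd (nat_lit 94) (PT.lf (nat_lit 36960) (nat_lit 6) (nat_lit 440) (nat_lit 3) (nat_lit 67) (nat_lit 45) (nat_lit 68)) (PT.lf (nat_lit 36960) (nat_lit 6) (nat_lit 440) (nat_lit 1) (nat_lit 68) (nat_lit 45) (nat_lit 67)))))) (PT.nd (nat_lit 564) (PT.nd (nat_lit 282) (PT.nd (nat_lit 94) (PT.lf (nat_lit 36876) (nat_lit 6) (nat_lit 439) (nat_lit 1) (nat_lit 69) (nat_lit 45) (nat_lit 66)) (PT.nd (nat_lit 94) (PT.lf (nat_lit 36792) (nat_lit 6) (nat_lit 438) (nat_lit 1) (nat_lit 70) (nat_lit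 45) (nat_lit 65)) (PT.lf (nat_lit 36708) (nat_lit 6) (nat_lit 437) (nat_lit 1) (nat_lit 71) (nat_lit 45) (nat_lit 64)))) (PT.nd (nat_lit 94) (PT.lf (nat_lit 36624) (nat_lit 6) (nat_lit 436) (nat_lit 1) (nat_lit 72) (nat_lit 45) (nat_lit 63)) (PT.nd (nat_lit 94) (PT.lf (nat_lit 36540) (nat_lit 6) (nat_lit 435) (nat_lit 1) (nat_lit 73) (nat_lit 45) (nat_lit 62)) (PT.lf (nat_lit 36456) (nat_lit 6) (nat_lit 434) (nat_lit 1) (nat_lit 74) (nat_lit 45) (nat_lit 61))))) (PT.nd (nat_lit 282) (PT.nd (nat_lit 94) (PT.lf (nat_lit 36372) (nat_lit 6) (nat_lit 433) (nat_lit 1) (nat_lit 75) (nat_lit 45) (nat_lit 60)) (PT.nd (nat_lit 94) (PT.lf (nat_lit 34944) (nat_lit 6) (nat_lit 416) (nat_lit 1) (nat_lit 76) (nat_lit 45) (nat_lit 59)) (PT.lf (nat_lit 33432) (nat_lit 6) (nat_lit 398) (nat_lit 1) (nat_lit 77) (nat_lit 45) (nat_lit 58)))) (PT.nd (nat_lit 94) (PT.lf (nat_lit 31836) (nat_lit 6) (nat_lit 379) (nat_lit 1)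 (nat_lit 78) (nat_lit 45) (nat_lit 57)) (PT.nd (nat_lit 94) (PT.lf (nat_lit 30156) (nat_lit 6) (nat_lit 359) (nat_lit 1) (nat_lit 79) (nat_lit 45) (nat_lit 56)) (PT.lf (nat_lit 28392) (nat_lit 6) (nat_lit 338) (nat_lit 1) (nat_lit 80) (nat_lit 45) (nat_lit 55))))))))
noncomputable def pc15 : PT := (PT.nd (nat_lit 44462) (PT.nd (nat_lit 43334) (PT.nd (nat_lit 42770) (PT.nd (nat_lit 42488) (PT.nd (nat_lit 94) (PT.lf (nat_lit 26544) (nat_lit 6) (nat_lit 316) (nat_lit 1) (nat_lit 81) (nat_lit 45) (nat_lit 54)) (PT.lf (nat_lit 24612) (nat_lit 6) (nat_lit 293) (nat_lit 1) (nat_lit 82) (nat_lit 45) (nat_lit 53))) (PT.nd (nat_lit 94) (PT.lf (nat_lit 24528) (nat_lit 6) (nat_lit 292) (nat_lit 3) (nat_lit 52) (nat_lit 46) (nat_lit 82)) (PT.nd (nat_lit 94) (PT.lf (nat_lit 26460) (nat_lit 6) (nat_lit 315) (nat_lit 3) (nat_lit 53) (nat_lit 46) (nat_lit 81)) (PT.lf (nat_lit 28308) (nat_lit 6) (nat_lit 337) (nat_lit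 3) (nat_lit 54) (nat_lit 46) (nat_lit 80))))) (PT.nd (nat_lit 282) (PT.nd (nat_lit 94) (PT.lf (nat_lit 30072) (nat_lit 6) (nat_lit 358) (nat_lit 3) (nat_lit 55) (nat_lit 46) (nat_lit 79)) (PT.nd (nat_lit 94) (PT.lf (nat_lit 31752) (nat_lit 6) (nat_lit 378) (nat_lit 3) (nat_lit 56) (nat_lit 46) (nat_lit 78)) (PT.lf (nat_lit 33348) (nat_lit 6) (nat_lit 397) (nat_lit 3) (nat_lit 57) (nat_lit 46) (nat_lit 77)))) (PT.nd (nat_lit 94) (PT.lf (nat_lit 34860) (nat_lit 6) (nat_lit 415) (nat_lit 3) (nat_lit 58) (nat_lit 46) (nat_lit 76)) (PT.nd (nat_lit 94) (PT.lf (nat_lit 36288) (nat_lit 6) (nat_lit 432) (nat_lit 3) (nat_lit 59) (nat_lit 46) (nat_lit 75)) (PT.lf (nat_lit 37632) (nat_lit 6) (nat_lit 448) (nat_lit 3) (nat_lit 60) (nat_lit 46) (nat_lit 74)))))) (PT.nd (nat_lit 564) (PT.nd (nat_lit 282) (PT.nd (nat_lit 94) (PT.lf (nat_lit 37716) (nat_lit 6) (nat_lit 449) (nat_lit 3) (nat_lit 61) (nat_lit 46) (nat_lit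 73)) (PT.nd (nat_lit 94) (PT.lf (nat_lit 37800) (nat_lit 6) (nat_lit 450) (nat_lit 3) (nat_lit 62) (nat_lit 46) (nat_lit 72)) (PT.lf (nat_lit 37884) (nat_lit 6) (nat_lit 451) (nat_lit 3) (nat_lit 63) (nat_lit 46) (nat_lit 71)))) (PT.nd (nat_lit 94) (PT.lf (nat_lit 37968) (nat_lit 6) (nat_lit 452) (nat_lit 3) (nat_lit 64) (nat_lit 46) (nat_lit 70)) (PT.nd (nat_lit 94) (PT.lf (nat_lit 38052) (nat_lit 6) (nat_lit 453) (nat_lit 3) (nat_lit 65) (nat_lit 46) (nat_lit 69)) (PT.lf (nat_lit 38136) (nat_lit 6) (nat_lit 454) (nat_lit 3) (nat_lit 66) (nat_lit 46) (nat_lit 68))))) (PT.nd (nat_lit 282) (PT.nd (nat_lit 94) (PT.lf (nat_lit 38220) (nat_lit 3) (nat_lit 455) (nat_lit 1) (nat_lit 67) (nat_lit 46) (nat_lit 67)) (PT.nd (nat_lit 94) (PT.lf (nat_lit 38136) (nat_lit 6) (nat_lit 454) (nat_lit 1) (nat_lit 68) (nat_lit 46) (nat_lit 66)) (PT.lf (nat_lit 38052) (nat_lit 6) (nat_lit 453) (nat_lit 1) (nat_lit 69) (nat_lit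 46) (nat_lit 65)))) (PT.nd (nat_lit 94) (PT.lf (nat_lit 37968) (nat_lit 6) (nat_lit 452) (nat_lit 1) (nat_lit 70) (nat_lit 46) (nat_lit 64)) (PT.nd (nat_lit 94) (PT.lf (nat_lit 37884) (nat_lit 6) (nat_lit 451) (nat_lit 1) (nat_lit 71) (nat_lit 46) (nat_lit 63)) (PT.lf (nat_lit 37800) (nat_lit 6) (nat_lit 450) (nat_lit 1) (nat_lit 72) (nat_lit 46) (nat_lit 62))))))) (PT.nd (nat_lit 43334) (PT.nd (nat_lit 564) (PT.nd (nat_lit 282) (PT.nd (nat_lit 94) (PT.lf (nat_lit 37716) (nat_lit 6) (nat_lit 449) (nat_lit 1) (nat_lit 73) (nat_lit 46) (nat_lit 61)) (PT.nd (nat_lit 94) (PT.lf (nat_lit 37632) (nat_lit 6) (nat_lit 448) (nat_lit 1) (nat_lit 74) (nat_lit 46) (nat_lit 60)) (PT.lf (nat_lit 36288) (nat_lit 6) (nat_lit 432) (nat_lit 1) (nat_lit 75) (nat_lit 46) (nat_lit 59)))) (PT.nd (nat_lit 94) (PT.lf (nat_lit 34860) (nat_lit 6) (nat_lit 415) (nat_lit 1) (nat_lit 76) (nat_lit 46) (nat_lit 58)) (PT.nd (nat_lit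 94) (PT.lf (nat_lit 33348) (nat_lit 6) (nat_lit 397) (nat_lit 1) (nat_lit 77) (nat_lit 46) (nat_lit 57)) (PT.lf (nat_lit 31752) (nat_lit 6) (nat_lit 378) (nat_lit 1) (nat_lit 78) (nat_lit 46) (nat_lit 56))))) (PT.nd (nat_lit 282) (PT.nd (nat_lit 94) (PT.lf (nat_lit 30072) (nat_lit 6) (nat_lit 358) (nat_lit 1) (nat_lit 79) (nat_lit 46) (nat_lit 55)) (PT.nd (nat_lit 94) (PT.lf (nat_lit 28308) (nat_lit 6) (nat_lit 337) (nat_lit 1) (nat_lit 80) (nat_lit 46) (nat_lit 54)) (PT.lf (nat_lit 26460) (nat_lit 6) (nat_lit 315) (nat_lit 1) (nat_lit 81) (nat_lit 46) (nat_lit 53)))) (PT.nd (nat_lit 42300) (PT.lf (nat_lit 24528) (nat_lit 6) (nat_lit 292) (nat_lit 1) (nat_lit 82) (nat_lit 46) (nat_lit 52)) (PT.nd (nat_lit 94) (PT.lf (nat_lit 24444) (nat_lit 6) (nat_lit 291) (nat_lit 3) (nat_lit 51) (nat_lit 47) (nat_lit 82)) (PT.lf (nat_lit 26376) (nat_lit 6) (nat_lit 314) (nat_lit 3) (nat_lit 52) (nat_lit 47) (nat_lit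 81)))))) (PT.nd (nat_lit 564) (PT.nd (nat_lit 282) (PT.nd (nat_lit 94) (PT.lf (nat_lit 28224) (nat_lit 6) (nat_lit 336) (nat_lit 3) (nat_lit 53) (nat_lit 47) (nat_lit 80)) (PT.nd (nat_lit 94) (PT.lf (nat_lit 29988) (nat_lit 6) (nat_lit 357) (nat_lit 3) (nat_lit 54) (nat_lit 47) (nat_lit 79)) (PT.lf (nat_lit 31668) (nat_lit 6) (nat_lit 377) (nat_lit 3) (nat_lit 55) (nat_lit 47) (nat_lit 78)))) (PT.nd (nat_lit 94) (PT.lf (nat_lit 33264) (nat_lit 6) (nat_lit 396) (nat_lit 3) (nat_lit 56) (nat_lit 47) (nat_lit 77)) (PT.nd (nat_lit 94) (PT.lf (nat_lit 34776) (nat_lit 6) (nat_lit 414) (nat_lit 3) (nat_lit 57) (nat_lit 47) (nat_lit 76)) (PT.lf (nat_lit 36204) (nat_lit 6) (nat_lit 431) (nat_lit 3) (nat_lit 58) (nat_lit 47) (nat_lit 75))))) (PT.nd (nat_lit 282) (PT.nd (nat_lit 94) (PT.lf (nat_lit 37548) (nat_lit 6) (nat_lit 447) (nat_lit 3) (nat_lit 59) (nat_lit 47) (nat_lit 74)) (PT.nd (nat_lit 94) (PT.lf (nat_lit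 38808) (nat_lit 6) (nat_lit 462) (nat_lit 3) (nat_lit 60) (nat_lit 47) (nat_lit 73)) (PT.lf (nat_lit 38892) (nat_lit 6) (nat_lit 463) (nat_lit 3) (nat_lit 61) (nat_lit 47) (nat_lit 72)))) (PT.nd (nat_lit 94) (PT.lf (nat_lit 38976) (nat_lit 6) (nat_lit 464) (nat_lit 3) (nat_lit 62) (nat_lit 47) (nat_lit 71)) (PT.nd (nat_lit 94) (PT.lf (nat_lit 39060) (nat_lit 6) (nat_lit 465) (nat_lit 3) (nat_lit 63) (nat_lit 47) (nat_lit 70)) (PT.lf (nat_lit 39144) (nat_lit 6) (nat_lit 466) (nat_lit 3) (nat_lit 64) (nat_lit 47) (nat_lit 69))))))))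
noncomputable def pc16 : PT := (PT.nd (nat_lit 44274) (PT.nd (nat_lit 1034) (PT.nd (nat_lit 470) (PT.nd (nat_lit 188) (PT.nd (nat_lit 94) (PT.lf (nat_lit 39228) (nat_lit 6) (nat_lit 467) (nat_lit 3) (nat_lit 65) (nat_lit 47) (nat_lit 68)) (PT.lf (nat_lit 39312) (nat_lit 6) (nat_lit 468) (nat_lit 3) (nat_lit 66) (nat_lit 47) (nat_lit 67))) (PT.nd (nat_lit 94) (PT.lf (nat_lit 39312) (nat_lit 6) (nat_lit 468) (nat_lit 1) (nat_lit 67) (nat_lit 47) (nat_lit 66)) (PT.nd (nat_lit 94) (PT.lf (nat_lit 39228) (nat_lit 6) (nat_lit 467) (nat_lit 1) (nat_lit 68) (nat_lit 47) (nat_lit 65)) (PT.lf (nat_lit 39144) (nat_lit 6) (nat_lit 466) (nat_lit 1) (nat_lit 69) (nat_lit 47) (nat_lit 64))))) (PT.nd (nat_lit 282) (PT.nd (nat_lit 94) (PT.lf (nat_lit 39060) (nat_lit 6) (nat_lit 465) (nat_lit 1) (nat_lit 70) (nat_lit 47) (nat_lit 63)) (PT.nd (nat_lit 94) (PT.lf (nat_lit 38976) (nat_lit 6) (nat_lit 464) (nat_lit 1) (nat_lit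 71) (nat_lit 47) (nat_lit 62)) (PT.lf (nat_lit 38892) (nat_lit 6) (nat_lit 463) (nat_lit 1) (nat_lit 72) (nat_lit 47) (nat_lit 61)))) (PT.nd (nat_lit 94) (PT.lf (nat_lit 38808) (nat_lit 6) (nat_lit 462) (nat_lit 1) (nat_lit 73) (nat_lit 47) (nat_lit 60)) (PT.nd (nat_lit 94) (PT.lf (nat_lit 37548) (nat_lit 6) (nat_lit 447) (nat_lit 1) (nat_lit 74) (nat_lit 47) (nat_lit 59)) (PT.lf (nat_lit 36204) (nat_lit 6) (nat_lit 431) (nat_lit 1) (nat_lit 75) (nat_lit 47) (nat_lit 58)))))) (PT.nd (nat_lit 564) (PT.nd (nat_lit 282) (PT.nd (nat_lit 94) (PT.lf (nat_lit 34776) (nat_lit 6) (nat_lit 414) (nat_lit 1) (nat_lit 76) (nat_lit 47) (nat_lit 57)) (PT.nd (nat_lit 94) (PT.lf (nat_lit 33264) (nat_lit 6) (nat_lit 396) (nat_lit 1) (nat_lit 77) (nat_lit 47) (nat_lit 56)) (PT.lf (nat_lit 31668) (nat_lit 6) (nat_lit 377) (nat_lit 1) (nat_lit 78) (nat_lit 47) (nat_lit 55)))) (PT.nd (nat_lit 94) (PT.lf (nat_lit 29988) (nat_lit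 6) (nat_lit 357) (nat_lit 1) (nat_lit 79) (nat_lit 47) (nat_lit 54)) (PT.nd (nat_lit 94) (PT.lf (nat_lit 28224) (nat_lit 6) (nat_lit 336) (nat_lit 1) (nat_lit 80) (nat_lit 47) (nat_lit 53)) (PT.lf (nat_lit 26376) (nat_lit 6) (nat_lit 314) (nat_lit 1) (nat_lit 81) (nat_lit 47) (nat_lit 52))))) (PT.nd (nat_lit 42394) (PT.nd (nat_lit 42206) (PT.lf (nat_lit 24444) (nat_lit 6) (nat_lit 291) (nat_lit 1) (nat_lit 82) (nat_lit 47) (nat_lit 51)) (PT.nd (nat_lit 94) (PT.lf (nat_lit 24360) (nat_lit 6) (nat_lit 290) (nat_lit 3) (nat_lit 50) (nat_lit 48) (nat_lit 82)) (PT.lf (nat_lit 26292) (nat_lit 6) (nat_lit 313) (nat_lit 3) (nat_lit 51) (nat_lit 48) (nat_lit 81)))) (PT.nd (nat_lit 94) (PT.lf (nat_lit 28140) (nat_lit 6) (nat_lit 335) (nat_lit 3) (nat_lit 52) (nat_lit 48) (nat_lit 80)) (PT.nd (nat_lit 94) (PT.lf (nat_lit 29904) (nat_lit 6) (nat_lit 356) (nat_lit 3) (nat_lit 53) (nat_lit 48) (nat_lit 79)) (PT.lf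 (nat_lit 31584) (nat_lit 6) (nat_lit 376) (nat_lit 3) (nat_lit 54) (nat_lit 48) (nat_lit 78))))))) (PT.nd (nat_lit 1034) (PT.nd (nat_lit 470) (PT.nd (nat_lit 188) (PT.nd (nat_lit 94) (PT.lf (nat_lit 33180) (nat_lit 6) (nat_lit 395) (nat_lit 3) (nat_lit 55) (nat_lit 48) (nat_lit 77)) (PT.lf (nat_lit 34692) (nat_lit 6) (nat_lit 413) (nat_lit 3) (nat_lit 56) (nat_lit 48) (nat_lit 76))) (PT.nd (nat_lit 94) (PT.lf (nat_lit 36120) (nat_lit 6) (nat_lit 430) (nat_lit 3) (nat_lit 57) (nat_lit 48) (nat_lit 75)) (PT.nd (nat_lit 94) (PT.lf (nat_lit 37464) (nat_lit 6) (nat_lit 446) (nat_lit 3) (nat_lit 58) (nat_lit 48) (nat_lit 74)) (PT.lf (nat_lit 38724) (nat_lit 6) (nat_lit 461) (nat_lit 3) (nat_lit 59) (nat_lit 48) (nat_lit 73))))) (PT.nd (nat_lit 282) (PT.nd (nat_lit 94) (PT.lf (nat_lit 39900) (nat_lit 6) (nat_lit 475) (nat_lit 3) (nat_lit 60) (nat_lit 48) (nat_lit 72)) (PT.nd (nat_lit 94) (PT.lf (nat_lit 39984)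 (nat_lit 6) (nat_lit 476) (nat_lit 3) (nat_lit 61) (nat_lit 48) (nat_lit 71)) (PT.lf (nat_lit 40068) (nat_lit 6) (nat_lit 477) (nat_lit 3) (nat_lit 62) (nat_lit 48) (nat_lit 70)))) (PT.nd (nat_lit 94) (PT.lf (nat_lit 40152) (nat_lit 6) (nat_lit 478) (nat_lit 3) (nat_lit 63) (nat_lit 48) (nat_lit 69)) (PT.nd (nat_lit 94) (PT.lf (nat_lit 40236) (nat_lit 6) (nat_lit 479) (nat_lit 3) (nat_lit 64) (nat_lit 48) (nat_lit 68)) (PT.lf (nat_lit 40320) (nat_lit 6) (nat_lit 480) (nat_lit 3) (nat_lit 65) (nat_lit 48) (nat_lit 67)))))) (PT.nd (nat_lit 564) (PT.nd (nat_lit 282) (PT.nd (nat_lit 94) (PT.lf (nat_lit 40404) (nat_lit 3) (nat_lit 481) (nat_lit 1) (nat_lit 66) (nat_lit 48) (nat_lit 66)) (PT.nd (nat_lit 94) (PT.lf (nat_lit 40320) (nat_lit 6) (nat_lit 480) (nat_lit 1) (nat_lit 67) (nat_lit 48) (nat_lit 65)) (PT.lf (nat_lit 40236) (nat_lit 6) (nat_lit 479) (nat_lit 1) (nat_lit 68) (nat_lit 48) (nat_lit 64))))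 (PT.nd (nat_lit 94) (PT.lf (nat_lit 40152) (nat_lit 6) (nat_lit 478) (nat_lit 1) (nat_lit 69) (nat_lit 48) (nat_lit 63)) (PT.nd (nat_lit 94) (PT.lf (nat_lit 40068) (nat_lit 6) (nat_lit 477) (nat_lit 1) (nat_lit 70) (nat_lit 48) (nat_lit 62)) (PT.lf (nat_lit 39984) (nat_lit 6) (nat_lit 476) (nat_lit 1) (nat_lit 71) (nat_lit 48) (nat_lit 61))))) (PT.nd (nat_lit 282) (PT.nd (nat_lit 94) (PT.lf (nat_lit 39900) (nat_lit 6) (nat_lit 475) (nat_lit 1) (nat_lit 72) (nat_lit 48) (nat_lit 60)) (PT.nd (nat_lit 94) (PT.lf (nat_lit 38724) (nat_lit 6) (nat_lit 461) (nat_lit 1) (nat_lit 73) (nat_lit 48) (nat_lit 59)) (PT.lf (nat_lit 37464) (nat_lit 6) (nat_lit 446) (nat_lit 1) (nat_lit 74) (nat_lit 48) (nat_lit 58)))) (PT.nd (nat_lit 94) (PT.lf (nat_lit 36120) (nat_lit 6) (nat_lit 430) (nat_lit 1) (nat_lit 75) (nat_lit 48) (nat_lit 57)) (PT.nd (nat_lit 94) (PT.lf (nat_lit 34692) (nat_lit 6) (nat_lit 413) (nat_lit 1)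 (nat_lit 76) (nat_lit 48) (nat_lit 56)) (PT.lf (nat_lit 33180) (nat_lit 6) (nat_lit 395) (nat_lit 1) (nat_lit 77) (nat_lit 48) (nat_lit 55))))))))
noncomputable def pc17 : PT := (PT.nd (nat_lit 44180) (PT.nd (nat_lit 43052) (PT.nd (nat_lit 42488) (PT.nd (nat_lit 188) (PT.nd (nat_lit 94) (PT.lf (nat_lit 31584) (nat_lit 6) (nat_lit 376) (nat_lit 1) (nat_lit 78) (nat_lit 48) (nat_lit 54)) (PT.lf (nat_lit 29904) (nat_lit 6) (nat_lit 356) (nat_lit 1) (nat_lit 79) (nat_lit 48) (nat_lit 53))) (PT.nd (nat_lit 94) (PT.lf (nat_lit 28140) (nat_lit 6) (nat_lit 335) (nat_lit 1) (nat_lit 80) (nat_lit 48) (nat_lit 52)) (PT.nd (nat_lit 94) (PT.lf (nat_lit 26292) (nat_lit 6) (nat_lit 313) (nat_lit 1) (nat_lit 81) (nat_lit 48) (nat_lit 51)) (PT.lf (nat_lit 24360) (nat_lit 6) (nat_lit 290) (nat_lit 1) (nat_lit 82) (nat_lit 48) (nat_lit 50))))) (PT.nd (nat_lit 282) (PT.nd (nat_lit 94) (PT.lf (nat_lit 24276) (nat_lit 3)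 (nat_lit 289) (nat_lit 3) (nat_lit 49) (nat_lit 49) (nat_lit 82)) (PT.nd (nat_lit 94) (PT.lf (nat_lit 26208) (nat_lit 6) (nat_lit 312) (nat_lit 3) (nat_lit 50) (nat_lit 49) (nat_lit 81)) (PT.lf (nat_lit 28056) (nat_lit 6) (nat_lit 334) (nat_lit 3) (nat_lit 51) (nat_lit 49) (nat_lit 80)))) (PT.nd (nat_lit 94) (PT.lf (nat_lit 29820) (nat_lit 6) (nat_lit 355) (nat_lit 3) (nat_lit 52) (nat_lit 49) (nat_lit 79)) (PT.nd (nat_lit 94) (PT.lf (nat_lit 31500) (nat_lit 6) (nat_lit 375) (nat_lit 3) (nat_lit 53) (nat_lit 49) (nat_lit 78)) (PT.lf (nat_lit 33096) (nat_lit 6) (nat_lit 394) (nat_lit 3) (nat_lit 54) (nat_lit 49) (nat_lit 77)))))) (PT.nd (nat_lit 564) (PT.nd (nat_lit 282) (PT.nd (nat_lit 94) (PT.lf (nat_lit 34608) (nat_lit 6) (nat_lit 412) (nat_lit 3) (nat_lit 55) (nat_lit 49) (nat_lit 76)) (PT.nd (nat_lit 94) (PT.lf (nat_lit 36036) (nat_lit 6) (nat_lit 429) (nat_lit 3) (nat_lit 56) (nat_lit 49) (nat_lit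 75)) (PT.lf (nat_lit 37380) (nat_lit 6) (nat_lit 445) (nat_lit 3) (nat_lit 57) (nat_lit 49) (nat_lit 74)))) (PT.nd (nat_lit 94) (PT.lf (nat_lit 38640) (nat_lit 6) (nat_lit 460) (nat_lit 3) (nat_lit 58) (nat_lit 49) (nat_lit 73)) (PT.nd (nat_lit 94) (PT.lf (nat_lit 39816) (nat_lit 6) (nat_lit 474) (nat_lit 3) (nat_lit 59) (nat_lit 49) (nat_lit 72)) (PT.lf (nat_lit 40908) (nat_lit 6) (nat_lit 487) (nat_lit 3) (nat_lit 60) (nat_lit 49) (nat_lit 71))))) (PT.nd (nat_lit 282) (PT.nd (nat_lit 94) (PT.lf (nat_lit 40992) (nat_lit 6) (nat_lit 488) (nat_lit 3) (nat_lit 61) (nat_lit 49) (nat_lit 70)) (PT.nd (nat_lit 94) (PT.lf (nat_lit 41076) (nat_lit 6) (nat_lit 489) (nat_lit 3) (nat_lit 62) (nat_lit 49) (nat_lit 69)) (PT.lf (nat_lit 41160) (nat_lit 6) (nat_lit 490) (nat_lit 3) (nat_lit 63) (nat_lit 49) (nat_lit 68)))) (PT.nd (nat_lit 94) (PT.lf (nat_lit 41244) (nat_lit 6) (nat_lit 491) (nat_lit 3) (nat_lit 64)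 (nat_lit 49) (nat_lit 67)) (PT.nd (nat_lit 94) (PT.lf (nat_lit 41328) (nat_lit 6) (nat_lit 492) (nat_lit 3) (nat_lit 65) (nat_lit 49) (nat_lit 66)) (PT.lf (nat_lit 41328) (nat_lit 6) (nat_lit 492) (nat_lit 1) (nat_lit 66) (nat_lit 49) (nat_lit 65))))))) (PT.nd (nat_lit 1128) (PT.nd (nat_lit 564) (PT.nd (nat_lit 282) (PT.nd (nat_lit 94) (PT.lf (nat_lit 41244) (nat_lit 6) (nat_lit 491) (nat_lit 1) (nat_lit 67) (nat_lit 49) (nat_lit 64)) (PT.nd (nat_lit 94) (PT.lf (nat_lit 41160) (nat_lit 6) (nat_lit 490) (nat_lit 1) (nat_lit 68) (nat_lit 49) (nat_lit 63)) (PT.lf (nat_lit 41076) (nat_lit 6) (nat_lit 489) (nat_lit 1) (nat_lit 69) (nat_lit 49) (nat_lit 62)))) (PT.nd (nat_lit 94) (PT.lf (nat_lit 40992) (nat_lit 6) (nat_lit 488) (nat_lit 1) (nat_lit 70) (nat_lit 49) (nat_lit 61)) (PT.nd (nat_lit 94) (PT.lf (nat_lit 40908) (nat_lit 6) (nat_lit 487) (nat_lit 1) (nat_lit 71) (nat_lit 49) (nat_lit 60)) (PT.lf (nat_lit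 39816) (nat_lit 6) (nat_lit 474) (nat_lit 1) (nat_lit 72) (nat_lit 49) (nat_lit 59))))) (PT.nd (nat_lit 282) (PT.nd (nat_lit 94) (PT.lf (nat_lit 38640) (nat_lit 6) (nat_lit 460) (nat_lit 1) (nat_lit 73) (nat_lit 49) (nat_lit 58)) (PT.nd (nat_lit 94) (PT.lf (nat_lit 37380) (nat_lit 6) (nat_lit 445) (nat_lit 1) (nat_lit 74) (nat_lit 49) (nat_lit 57)) (PT.lf (nat_lit 36036) (nat_lit 6) (nat_lit 429) (nat_lit 1) (nat_lit 75) (nat_lit 49) (nat_lit 56)))) (PT.nd (nat_lit 94) (PT.lf (nat_lit 34608) (nat_lit 6) (nat_lit 412) (nat_lit 1) (nat_lit 76) (nat_lit 49) (nat_lit 55)) (PT.nd (nat_lit 94) (PT.lf (nat_lit 33096) (nat_lit 6) (nat_lit 394) (nat_lit 1) (nat_lit 77) (nat_lit 49) (nat_lit 54)) (PT.lf (nat_lit 31500) (nat_lit 6) (nat_lit 375) (nat_lit 1) (nat_lit 78) (nat_lit 49) (nat_lit 53)))))) (PT.nd (nat_lit 42488) (PT.nd (nat_lit 282) (PT.nd (nat_lit 94) (PT.lf (nat_lit 29820) (nat_lit 6) (nat_lit 355)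 (nat_lit 1) (nat_lit 79) (nat_lit 49) (nat_lit 52)) (PT.nd (nat_lit 94) (PT.lf (nat_lit 28056) (nat_lit 6) (nat_lit 334) (nat_lit 1) (nat_lit 80) (nat_lit 49) (nat_lit 51)) (PT.lf (nat_lit 26208) (nat_lit 6) (nat_lit 312) (nat_lit 1) (nat_lit 81) (nat_lit 49) (nat_lit 50)))) (PT.nd (nat_lit 42018) (PT.lf (nat_lit 24276) (nat_lit 3) (nat_lit 289) (nat_lit 0) (nat_lit 82) (nat_lit 49) (nat_lit 49)) (PT.nd (nat_lit 94) (PT.lf (nat_lit 24360) (nat_lit 6) (nat_lit 290) (nat_lit 5) (nat_lit 48) (nat_lit 50) (nat_lit 82)) (PT.lf (nat_lit 26208) (nat_lit 6) (nat_lit 312) (nat_lit 5) (nat_lit 49) (nat_lit 50) (nat_lit 81))))) (PT.nd (nat_lit 282) (PT.nd (nat_lit 94) (PT.lf (nat_lit 27972) (nat_lit 3) (nat_lit 333) (nat_lit 3) (nat_lit 50) (nat_lit 50) (nat_lit 80)) (PT.nd (nat_lit 94) (PT.lf (nat_lit 29736) (nat_lit 6) (nat_lit 354) (nat_lit 3) (nat_lit 51) (nat_lit 50) (nat_lit 79)) (PT.lf (nat_lit 31416) (nat_lit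 6) (nat_lit 374) (nat_lit 3) (nat_lit 52) (nat_lit 50) (nat_lit 78)))) (PT.nd (nat_lit 94) (PT.lf (nat_lit 33012) (nat_lit 6) (nat_lit 393) (nat_lit 3) (nat_lit 53) (nat_lit 50) (nat_lit 77)) (PT.nd (nat_lit 94) (PT.lf (nat_lit 34524) (nat_lit 6) (nat_lit 411) (nat_lit 3) (nat_lit 54) (nat_lit 50) (nat_lit 76)) (PT.lf (nat_lit 35952) (nat_lit 6) (nat_lit 428) (nat_lit 3) (nat_lit 55) (nat_lit 50) (nat_lit 75))))))))
noncomputable def pc18 : PT := (PT.nd (nat_lit 2162) (PT.nd (nat_lit 1034) (PT.nd (nat_lit 470) (PT.nd (nat_lit 188) (PT.nd (nat_lit 94) (PT.lf (nat_lit 37296) (nat_lit 6) (nat_lit 444) (nat_lit 3) (nat_lit 56) (nat_lit 50) (nat_lit 74)) (PT.lf (nat_lit 38556) (nat_lit 6) (nat_lit 459) (nat_lit 3) (nat_lit 57) (nat_lit 50) (nat_lit 73))) (PT.nd (nat_lit 94) (PT.lf (nat_lit 39732) (nat_lit 6) (nat_lit 473) (nat_lit 3) (nat_lit 58) (nat_lit 50) (nat_lit 72)) (PT.nd (nat_lit 94) (PT.lf (nat_lit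 40824) (nat_lit 6) (nat_lit 486) (nat_lit 3) (nat_lit 59) (nat_lit 50) (nat_lit 71)) (PT.lf (nat_lit 41832) (nat_lit 6) (nat_lit 498) (nat_lit 3) (nat_lit 60) (nat_lit 50) (nat_lit 70))))) (PT.nd (nat_lit 282) (PT.nd (nat_lit 94) (PT.lf (nat_lit 41916) (nat_lit 6) (nat_lit 499) (nat_lit 3) (nat_lit 61) (nat_lit 50) (nat_lit 69)) (PT.nd (nat_lit 94) (PT.lf (nat_lit 42000) (nat_lit 6) (nat_lit 500) (nat_lit 3) (nat_lit 62) (nat_lit 50) (nat_lit 68)) (PT.lf (nat_lit 42084) (nat_lit 6) (nat_lit 501) (nat_lit 3) (nat_lit 63) (nat_lit 50) (nat_lit 67)))) (PT.nd (nat_lit 94) (PT.lf (nat_lit 42168) (nat_lit 6) (nat_lit 502) (nat_lit 3) (nat_lit 64) (nat_lit 50) (nat_lit 66)) (PT.nd (nat_lit 94) (PT.lf (nat_lit 42252) (nat_lit 3) (nat_lit 503) (nat_lit 1) (nat_lit 65) (nat_lit 50) (nat_lit 65)) (PT.lf (nat_lit 42168) (nat_lit 6) (nat_lit 502) (nat_lit 1) (nat_lit 66) (nat_lit 50) (nat_lit 64)))))) (PT.nd (nat_lit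 564) (PT.nd (nat_lit 282) (PT.nd (nat_lit 94) (PT.lf (nat_lit 42084) (nat_lit 6) (nat_lit 501) (nat_lit 1) (nat_lit 67) (nat_lit 50) (nat_lit 63)) (PT.nd (nat_lit 94) (PT.lf (nat_lit 42000) (nat_lit 6) (nat_lit 500) (nat_lit 1) (nat_lit 68) (nat_lit 50) (nat_lit 62)) (PT.lf (nat_lit 41916) (nat_lit 6) (nat_lit 499) (nat_lit 1) (nat_lit 69) (nat_lit 50) (nat_lit 61)))) (PT.nd (nat_lit 94) (PT.lf (nat_lit 41832) (nat_lit 6) (nat_lit 498) (nat_lit 1) (nat_lit 70) (nat_lit 50) (nat_lit 60)) (PT.nd (nat_lit 94) (PT.lf (nat_lit 40824) (nat_lit 6) (nat_lit 486) (nat_lit 1) (nat_lit 71) (nat_lit 50) (nat_lit 59)) (PT.lf (nat_lit 39732) (nat_lit 6) (nat_lit 473) (nat_lit 1) (nat_lit 72) (nat_lit 50) (nat_lit 58))))) (PT.nd (nat_lit 282) (PT.nd (nat_lit 94) (PT.lf (nat_lit 38556) (nat_lit 6) (nat_lit 459) (nat_lit 1) (nat_lit 73) (nat_lit 50) (nat_lit 57)) (PT.nd (nat_lit 94) (PT.lf (nat_lit 37296) (nat_lit 6)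 (nat_lit 444) (nat_lit 1) (nat_lit 74) (nat_lit 50) (nat_lit 56)) (PT.lf (nat_lit 35952) (nat_lit 6) (nat_lit 428) (nat_lit 1) (nat_lit 75) (nat_lit 50) (nat_lit 55)))) (PT.nd (nat_lit 94) (PT.lf (nat_lit 34524) (nat_lit 6) (nat_lit 411) (nat_lit 1) (nat_lit 76) (nat_lit 50) (nat_lit 54)) (PT.nd (nat_lit 94) (PT.lf (nat_lit 33012) (nat_lit 6) (nat_lit 393) (nat_lit 1) (nat_lit 77) (nat_lit 50) (nat_lit 53)) (PT.lf (nat_lit 31416) (nat_lit 6) (nat_lit 374) (nat_lit 1) (nat_lit 78) (nat_lit 50) (nat_lit 52))))))) (PT.nd (nat_lit 42864) (PT.nd (nat_lit 42300) (PT.nd (nat_lit 188) (PT.nd (nat_lit 94) (PT.lf (nat_lit 29736) (nat_lit 6) (nat_lit 354) (nat_lit 1) (nat_lit 79) (nat_lit 50) (nat_lit 51)) (PT.lf (nat_lit 27972) (nat_lit 3) (nat_lit 333) (nat_lit 0) (nat_lit 80) (nat_lit 50) (nat_lit 50))) (PT.nd (nat_lit 94) (PT.lf (nat_lit 26208) (nat_lit 6) (nat_lit 312) (nat_lit 0) (nat_lit 81) (nat_lit 50)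 (nat_lit 49)) (PT.nd (nat_lit 41924) (PT.lf (nat_lit 24360) (nat_lit 6) (nat_lit 290) (nat_lit 0) (nat_lit 82) (nat_lit 50) (nat_lit 48)) (PT.lf (nat_lit 24444) (nat_lit 6) (nat_lit 291) (nat_lit 5) (nat_lit 47) (nat_lit 51) (nat_lit 82))))) (PT.nd (nat_lit 282) (PT.nd (nat_lit 94) (PT.lf (nat_lit 26292) (nat_lit 6) (nat_lit 313) (nat_lit 5) (nat_lit 48) (nat_lit 51) (nat_lit 81)) (PT.nd (nat_lit 94) (PT.lf (nat_lit 28056) (nat_lit 6) (nat_lit 334) (nat_lit 5) (nat_lit 49) (nat_lit 51) (nat_lit 80)) (PT.lf (nat_lit 29736) (nat_lit 6) (nat_lit 354) (nat_lit 5) (nat_lit 50) (nat_lit 51) (nat_lit 79)))) (PT.nd (nat_lit 94) (PT.lf (nat_lit 31332) (nat_lit 3) (nat_lit 373) (nat_lit 3) (nat_lit 51) (nat_lit 51) (nat_lit 78)) (PT.nd (nat_lit 94) (PT.lf (nat_lit 32928) (nat_lit 6) (nat_lit 392) (nat_lit 3) (nat_lit 52) (nat_lit 51) (nat_lit 77)) (PT.lf (nat_lit 34440) (nat_lit 6) (nat_lit 410) (nat_lit 3) (nat_lit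 53) (nat_lit 51) (nat_lit 76)))))) (PT.nd (nat_lit 564) (PT.nd (nat_lit 282) (PT.nd (nat_lit 94) (PT.lf (nat_lit 35868) (nat_lit 6) (nat_lit 427) (nat_lit 3) (nat_lit 54) (nat_lit 51) (nat_lit 75)) (PT.nd (nat_lit 94) (PT.lf (nat_lit 37212) (nat_lit 6) (nat_lit 443) (nat_lit 3) (nat_lit 55) (nat_lit 51) (nat_lit 74)) (PT.lf (nat_lit 38472) (nat_lit 6) (nat_lit 458) (nat_lit 3) (nat_lit 56) (nat_lit 51) (nat_lit 73)))) (PT.nd (nat_lit 94) (PT.lf (nat_lit 39648) (nat_lit 6) (nat_lit 472) (nat_lit 3) (nat_lit 57) (nat_lit 51) (nat_lit 72)) (PT.nd (nat_lit 94) (PT.lf (nat_lit 40740) (nat_lit 6) (nat_lit 485) (nat_lit 3) (nat_lit 58) (nat_lit 51) (nat_lit 71)) (PT.lf (nat_lit 41748) (nat_lit 6) (nat_lit 497) (nat_lit 3) (nat_lit 59) (nat_lit 51) (nat_lit 70))))) (PT.nd (nat_lit 282) (PT.nd (nat_lit 94) (PT.lf (nat_lit 42672) (nat_lit 6) (nat_lit 508) (nat_lit 3) (nat_lit 60) (nat_lit 51) (nat_lit 69)) (PT.nd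 (nat_lit 94) (PT.lf (nat_lit 42756) (nat_lit 6) (nat_lit 509) (nat_lit 3) (nat_lit 61) (nat_lit 51) (nat_lit 68)) (PT.lf (nat_lit 42840) (nat_lit 6) (nat_lit 510) (nat_lit 3) (nat_lit 62) (nat_lit 51) (nat_lit 67)))) (PT.nd (nat_lit 94) (PT.lf (nat_lit 42924) (nat_lit 6) (nat_lit 511) (nat_lit 3) (nat_lit 63) (nat_lit 51) (nat_lit 66)) (PT.nd (nat_lit 94) (PT.lf (nat_lit 43008) (nat_lit 6) (nat_lit 512) (nat_lit 3) (nat_lit 64) (nat_lit 51) (nat_lit 65)) (PT.lf (nat_lit 43008) (nat_lit 6) (nat_lit 512) (nat_lit 1) (nat_lit 65) (nat_lit 51) (nat_lit 64))))))))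
noncomputable def pc19 : PT := (PT.nd (nat_lit 43898) (PT.nd (nat_lit 1034) (PT.nd (nat_lit 470) (PT.nd (nat_lit 188) (PT.nd (nat_lit 94) (PT.lf (nat_lit 42924) (nat_lit 6) (nat_lit 511) (nat_lit 1) (nat_lit 66) (nat_lit 51) (nat_lit 63)) (PT.lf (nat_lit 42840) (nat_lit 6) (nat_lit 510) (nat_lit 1) (nat_lit 67) (nat_lit 51) (nat_lit 62))) (PT.nd (nat_lit 94) (PT.lf (nat_lit 42756) (nat_lit 6) (nat_lit 509) (nat_lit 1) (nat_lit 68) (nat_lit 51) (nat_lit 61)) (PT.nd (nat_lit 94) (PT.lf (nat_lit 42672) (nat_lit 6) (nat_lit 508) (nat_lit 1) (nat_lit 69) (nat_lit 51) (nat_lit 60)) (PT.lf (nat_lit 41748) (nat_lit 6) (nat_lit 497) (nat_lit 1) (nat_lit 70) (nat_lit 51) (nat_lit 59))))) (PT.nd (nat_lit 282) (PT.nd (nat_lit 94) (PT.lf (nat_lit 40740) (nat_lit 6) (nat_lit 485) (nat_lit 1) (nat_lit 71) (nat_lit 51) (nat_lit 58)) (PT.nd (nat_lit 94) (PT.lf (nat_lit 39648) (nat_lit 6) (nat_lit 472) (nat_lit 1) (nat_lit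 72) (nat_lit 51) (nat_lit 57)) (PT.lf (nat_lit 38472) (nat_lit 6) (nat_lit 458) (nat_lit 1) (nat_lit 73) (nat_lit 51) (nat_lit 56)))) (PT.nd (nat_lit 94) (PT.lf (nat_lit 37212) (nat_lit 6) (nat_lit 443) (nat_lit 1) (nat_lit 74) (nat_lit 51) (nat_lit 55)) (PT.nd (nat_lit 94) (PT.lf (nat_lit 35868) (nat_lit 6) (nat_lit 427) (nat_lit 1) (nat_lit 75) (nat_lit 51) (nat_lit 54)) (PT.lf (nat_lit 34440) (nat_lit 6) (nat_lit 410) (nat_lit 1) (nat_lit 76) (nat_lit 51) (nat_lit 53)))))) (PT.nd (nat_lit 42300) (PT.nd (nat_lit 282) (PT.nd (nat_lit 94) (PT.lf (nat_lit 32928) (nat_lit 6) (nat_lit 392) (nat_lit 1) (nat_lit 77) (nat_lit 51) (nat_lit 52)) (PT.nd (nat_lit 94) (PT.lf (nat_lit 31332) (nat_lit 3) (nat_lit 373) (nat_lit 0) (nat_lit 78) (nat_lit 51) (nat_lit 51)) (PT.lf (nat_lit 29736) (nat_lit 6) (nat_lit 354) (nat_lit 0) (nat_lit 79) (nat_lit 51) (nat_lit 50)))) (PT.nd (nat_lit 94) (PT.lf (nat_lit 28056)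 (nat_lit 6) (nat_lit 334) (nat_lit 0) (nat_lit 80) (nat_lit 51) (nat_lit 49)) (PT.nd (nat_lit 94) (PT.lf (nat_lit 26292) (nat_lit 6) (nat_lit 313) (nat_lit 0) (nat_lit 81) (nat_lit 51) (nat_lit 48)) (PT.lf (nat_lit 24444) (nat_lit 6) (nat_lit 291) (nat_lit 0) (nat_lit 82) (nat_lit 51) (nat_lit 47))))) (PT.nd (nat_lit 282) (PT.nd (nat_lit 94) (PT.lf (nat_lit 24528) (nat_lit 6) (nat_lit 292) (nat_lit 5) (nat_lit 46) (nat_lit 52) (nat_lit 82)) (PT.nd (nat_lit 94) (PT.lf (nat_lit 26376) (nat_lit 6) (nat_lit 314) (nat_lit 5) (nat_lit 47) (nat_lit 52) (nat_lit 81)) (PT.lf (nat_lit 28140) (nat_lit 6) (nat_lit 335) (nat_lit 5) (nat_lit 48) (nat_lit 52) (nat_lit 80)))) (PT.nd (nat_lit 94) (PT.lf (nat_lit 29820) (nat_lit 6) (nat_lit 355) (nat_lit 5) (nat_lit 49) (nat_lit 52) (nat_lit 79)) (PT.nd (nat_lit 94) (PT.lf (nat_lit 31416) (nat_lit 6) (nat_lit 374) (nat_lit 5) (nat_lit 50) (nat_lit 52) (nat_lit 78)) (PT.lf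 (nat_lit 32928) (nat_lit 6) (nat_lit 392) (nat_lit 5) (nat_lit 51) (nat_lit 52) (nat_lit 77))))))) (PT.nd (nat_lit 1128) (PT.nd (nat_lit 564) (PT.nd (nat_lit 282) (PT.nd (nat_lit 94) (PT.lf (nat_lit 34356) (nat_lit 3) (nat_lit 409) (nat_lit 3) (nat_lit 52) (nat_lit 52) (nat_lit 76)) (PT.nd (nat_lit 94) (PT.lf (nat_lit 35784) (nat_lit 6) (nat_lit 426) (nat_lit 3) (nat_lit 53) (nat_lit 52) (nat_lit 75)) (PT.lf (nat_lit 37128) (nat_lit 6) (nat_lit 442) (nat_lit 3) (nat_lit 54) (nat_lit 52) (nat_lit 74)))) (PT.nd (nat_lit 94) (PT.lf (nat_lit 38388) (nat_lit 6) (nat_lit 457) (nat_lit 3) (nat_lit 55) (nat_lit 52) (nat_lit 73)) (PT.nd (nat_lit 94) (PT.lf (nat_lit 39564) (nat_lit 6) (nat_lit 471) (nat_lit 3) (nat_lit 56) (nat_lit 52) (nat_lit 72)) (PT.lf (nat_lit 40656) (nat_lit 6) (nat_lit 484) (nat_lit 3) (nat_lit 57) (nat_lit 52) (nat_lit 71))))) (PT.nd (nat_lit 282) (PT.nd (nat_lit 94) (PT.lf (nat_lit 41664)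 (nat_lit 6) (nat_lit 496) (nat_lit 3) (nat_lit 58) (nat_lit 52) (nat_lit 70)) (PT.nd (nat_lit 94) (PT.lf (nat_lit 42588) (nat_lit 6) (nat_lit 507) (nat_lit 3) (nat_lit 59) (nat_lit 52) (nat_lit 69)) (PT.lf (nat_lit 43428) (nat_lit 6) (nat_lit 517) (nat_lit 3) (nat_lit 60) (nat_lit 52) (nat_lit 68)))) (PT.nd (nat_lit 94) (PT.lf (nat_lit 43512) (nat_lit 6) (nat_lit 518) (nat_lit 3) (nat_lit 61) (nat_lit 52) (nat_lit 67)) (PT.nd (nat_lit 94) (PT.lf (nat_lit 43596) (nat_lit 6) (nat_lit 519) (nat_lit 3) (nat_lit 62) (nat_lit 52) (nat_lit 66)) (PT.lf (nat_lit 43680) (nat_lit 6) (nat_lit 520) (nat_lit 3) (nat_lit 63) (nat_lit 52) (nat_lit 65)))))) (PT.nd (nat_lit 564) (PT.nd (nat_lit 282) (PT.nd (nat_lit 94) (PT.lf (nat_lit 43764) (nat_lit 3) (nat_lit 521) (nat_lit 1) (nat_lit 64) (nat_lit 52) (nat_lit 64)) (PT.nd (nat_lit 94) (PT.lf (nat_lit 43680) (nat_lit 6) (nat_lit 520) (nat_lit 1) (nat_lit 65) (nat_lit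 52) (nat_lit 63)) (PT.lf (nat_lit 43596) (nat_lit 6) (nat_lit 519) (nat_lit 1) (nat_lit 66) (nat_lit 52) (nat_lit 62)))) (PT.nd (nat_lit 94) (PT.lf (nat_lit 43512) (nat_lit 6) (nat_lit 518) (nat_lit 1) (nat_lit 67) (nat_lit 52) (nat_lit 61)) (PT.nd (nat_lit 94) (PT.lf (nat_lit 43428) (nat_lit 6) (nat_lit 517) (nat_lit 1) (nat_lit 68) (nat_lit 52) (nat_lit 60)) (PT.lf (nat_lit 42588) (nat_lit 6) (nat_lit 507) (nat_lit 1) (nat_lit 69) (nat_lit 52) (nat_lit 59))))) (PT.nd (nat_lit 282) (PT.nd (nat_lit 94) (PT.lf (nat_lit 41664) (nat_lit 6) (nat_lit 496) (nat_lit 1) (nat_lit 70) (nat_lit 52) (nat_lit 58)) (PT.nd (nat_lit 94) (PT.lf (nat_lit 40656) (nat_lit 6) (nat_lit 484) (nat_lit 1) (nat_lit 71) (nat_lit 52) (nat_lit 57)) (PT.lf (nat_lit 39564) (nat_lit 6) (nat_lit 471) (nat_lit 1) (nat_lit 72) (nat_lit 52) (nat_lit 56)))) (PT.nd (nat_lit 94) (PT.lf (nat_lit 38388) (nat_lit 6) (nat_lit 457) (nat_lit 1)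 (nat_lit 73) (nat_lit 52) (nat_lit 55)) (PT.nd (nat_lit 94) (PT.lf (nat_lit 37128) (nat_lit 6) (nat_lit 442) (nat_lit 1) (nat_lit 74) (nat_lit 52) (nat_lit 54)) (PT.lf (nat_lit 35784) (nat_lit 6) (nat_lit 426) (nat_lit 1) (nat_lit 75) (nat_lit 52) (nat_lit 53))))))))
noncomputable def pc20 : PT := (PT.nd (nat_lit 43804) (PT.nd (nat_lit 42676) (PT.nd (nat_lit 470) (PT.nd (nat_lit 188) (PT.nd (nat_lit 94) (PT.lf (nat_lit 34356) (nat_lit 3) (nat_lit 409) (nat_lit 0) (nat_lit 76) (nat_lit 52) (nat_lit 52)) (PT.lf (nat_lit 32928) (nat_lit 6) (nat_lit 392) (nat_lit 0) (nat_lit 77) (nat_lit 52) (nat_lit 51))) (PT.nd (nat_lit 94) (PT.lf (nat_lit 31416) (nat_lit 6) (nat_lit 374) (nat_lit 0) (nat_lit 78) (nat_lit 52) (nat_lit 50)) (PT.nd (nat_lit 94) (PT.lf (nat_lit 29820) (nat_lit 6) (nat_lit 355) (nat_lit 0) (nat_lit 79) (nat_lit 52) (nat_lit 49)) (PT.lf (nat_lit 28140) (nat_lit 6) (nat_lit 335) (nat_lit 0)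 (nat_lit 80) (nat_lit 52) (nat_lit 48))))) (PT.nd (nat_lit 41924) (PT.nd (nat_lit 94) (PT.lf (nat_lit 26376) (nat_lit 6) (nat_lit 314) (nat_lit 0) (nat_lit 81) (nat_lit 52) (nat_lit 47)) (PT.nd (nat_lit 41736) (PT.lf (nat_lit 24528) (nat_lit 6) (nat_lit 292) (nat_lit 0) (nat_lit 82) (nat_lit 52) (nat_lit 46)) (PT.lf (nat_lit 24612) (nat_lit 6) (nat_lit 293) (nat_lit 5) (nat_lit 45) (nat_lit 53) (nat_lit 82)))) (PT.nd (nat_lit 94) (PT.lf (nat_lit 26460) (nat_lit 6) (nat_lit 315) (nat_lit 5) (nat_lit 46) (nat_lit 53) (nat_lit 81)) (PT.nd (nat_lit 94) (PT.lf (nat_lit 28224) (nat_lit 6) (nat_lit 336) (nat_lit 5) (nat_lit 47) (nat_lit 53) (nat_lit 80)) (PT.lf (nat_lit 29904) (nat_lit 6) (nat_lit 356) (nat_lit 5) (nat_lit 48) (nat_lit 53) (nat_lit 79)))))) (PT.nd (nat_lit 564) (PT.nd (nat_lit 282) (PT.nd (nat_lit 94) (PT.lf (nat_lit 31500) (nat_lit 6) (nat_lit 375) (nat_lit 5) (nat_lit 49) (nat_lit 53) (nat_lit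 78)) (PT.nd (nat_lit 94) (PT.lf (nat_lit 33012) (nat_lit 6) (nat_lit 393) (nat_lit 5) (nat_lit 50) (nat_lit 53) (nat_lit 77)) (PT.lf (nat_lit 34440) (nat_lit 6) (nat_lit 410) (nat_lit 5) (nat_lit 51) (nat_lit 53) (nat_lit 76)))) (PT.nd (nat_lit 94) (PT.lf (nat_lit 35784) (nat_lit 6) (nat_lit 426) (nat_lit 5) (nat_lit 52) (nat_lit 53) (nat_lit 75)) (PT.nd (nat_lit 94) (PT.lf (nat_lit 37044) (nat_lit 3) (nat_lit 441) (nat_lit 3) (nat_lit 53) (nat_lit 53) (nat_lit 74)) (PT.lf (nat_lit 38304) (nat_lit 6) (nat_lit 456) (nat_lit 3) (nat_lit 54) (nat_lit 53) (nat_lit 73))))) (PT.nd (nat_lit 282) (PT.nd (nat_lit 94) (PT.lf (nat_lit 39480) (nat_lit 6) (nat_lit 470) (nat_lit 3) (nat_lit 55) (nat_lit 53) (nat_lit 72)) (PT.nd (nat_lit 94) (PT.lf (nat_lit 40572) (nat_lit 6) (nat_lit 483) (nat_lit 3) (nat_lit 56) (nat_lit 53) (nat_lit 71)) (PT.lf (nat_lit 41580) (nat_lit 6) (nat_lit 495) (nat_lit 3) (nat_lit 57) (nat_lit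 53) (nat_lit 70)))) (PT.nd (nat_lit 94) (PT.lf (nat_lit 42504) (nat_lit 6) (nat_lit 506) (nat_lit 3) (nat_lit 58) (nat_lit 53) (nat_lit 69)) (PT.nd (nat_lit 94) (PT.lf (nat_lit 43344) (nat_lit 6) (nat_lit 516) (nat_lit 3) (nat_lit 59) (nat_lit 53) (nat_lit 68)) (PT.lf (nat_lit 44100) (nat_lit 6) (nat_lit 525) (nat_lit 3) (nat_lit 60) (nat_lit 53) (nat_lit 67))))))) (PT.nd (nat_lit 1034) (PT.nd (nat_lit 470) (PT.nd (nat_lit 188) (PT.nd (nat_lit 94) (PT.lf (nat_lit 44184) (nat_lit 6) (nat_lit 526) (nat_lit 3) (nat_lit 61) (nat_lit 53) (nat_lit 66)) (PT.lf (nat_lit 44268) (nat_lit 6) (nat_lit 527) (nat_lit 3) (nat_lit 62) (nat_lit 53) (nat_lit 65))) (PT.nd (nat_lit 94) (PT.lf (nat_lit 44352) (nat_lit 6) (nat_lit 528) (nat_lit 3) (nat_lit 63) (nat_lit 53) (nat_lit 64)) (PT.nd (nat_lit 94) (PT.lf (nat_lit 44352) (nat_lit 6) (nat_lit 528) (nat_lit 1) (nat_lit 64) (nat_lit 53) (nat_lit 63)) (PT.lf (nat_lit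 44268) (nat_lit 6) (nat_lit 527) (nat_lit 1) (nat_lit 65) (nat_lit 53) (nat_lit 62))))) (PT.nd (nat_lit 282) (PT.nd (nat_lit 94) (PT.lf (nat_lit 44184) (nat_lit 6) (nat_lit 526) (nat_lit 1) (nat_lit 66) (nat_lit 53) (nat_lit 61)) (PT.nd (nat_lit 94) (PT.lf (nat_lit 44100) (nat_lit 6) (nat_lit 525) (nat_lit 1) (nat_lit 67) (nat_lit 53) (nat_lit 60)) (PT.lf (nat_lit 43344) (nat_lit 6) (nat_lit 516) (nat_lit 1) (nat_lit 68) (nat_lit 53) (nat_lit 59)))) (PT.nd (nat_lit 94) (PT.lf (nat_lit 42504) (nat_lit 6) (nat_lit 506) (nat_lit 1) (nat_lit 69) (nat_lit 53) (nat_lit 58)) (PT.nd (nat_lit 94) (PT.lf (nat_lit 41580) (nat_lit 6) (nat_lit 495) (nat_lit 1) (nat_lit 70) (nat_lit 53) (nat_lit 57)) (PT.lf (nat_lit 40572) (nat_lit 6) (nat_lit 483) (nat_lit 1) (nat_lit 71) (nat_lit 53) (nat_lit 56)))))) (PT.nd (nat_lit 564) (PT.nd (nat_lit 282) (PT.nd (nat_lit 94) (PT.lf (nat_lit 39480) (nat_lit 6) (nat_lit 470) (nat_lit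 1) (nat_lit 72) (nat_lit 53) (nat_lit 55)) (PT.nd (nat_lit 94) (PT.lf (nat_lit 38304) (nat_lit 6) (nat_lit 456) (nat_lit 1) (nat_lit 73) (nat_lit 53) (nat_lit 54)) (PT.lf (nat_lit 37044) (nat_lit 3) (nat_lit 441) (nat_lit 0) (nat_lit 74) (nat_lit 53) (nat_lit 53)))) (PT.nd (nat_lit 94) (PT.lf (nat_lit 35784) (nat_lit 6) (nat_lit 426) (nat_lit 0) (nat_lit 75) (nat_lit 53) (nat_lit 52)) (PT.nd (nat_lit 94) (PT.lf (nat_lit 34440) (nat_lit 6) (nat_lit 410) (nat_lit 0) (nat_lit 76) (nat_lit 53) (nat_lit 51)) (PT.lf (nat_lit 33012) (nat_lit 6) (nat_lit 393) (nat_lit 0) (nat_lit 77) (nat_lit 53) (nat_lit 50))))) (PT.nd (nat_lit 282) (PT.nd (nat_lit 94) (PT.lf (nat_lit 31500) (nat_lit 6) (nat_lit 375) (nat_lit 0) (nat_lit 78) (nat_lit 53) (nat_lit 49)) (PT.nd (nat_lit 94) (PT.lf (nat_lit 29904) (nat_lit 6) (nat_lit 356) (nat_lit 0) (nat_lit 79) (nat_lit 53) (nat_lit 48)) (PT.lf (nat_lit 28224) (nat_lit 6) (nat_lit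 336) (nat_lit 0) (nat_lit 80) (nat_lit 53) (nat_lit 47)))) (PT.nd (nat_lit 94) (PT.lf (nat_lit 26460) (nat_lit 6) (nat_lit 315) (nat_lit 0) (nat_lit 81) (nat_lit 53) (nat_lit 46)) (PT.nd (nat_lit 41642) (PT.lf (nat_lit 24612) (nat_lit 6) (nat_lit 293) (nat_lit 0) (nat_lit 82) (nat_lit 53) (nat_lit 45)) (PT.lf (nat_lit 24696) (nat_lit 6) (nat_lit 294) (nat_lit 5) (nat_lit 44) (nat_lit 54) (nat_lit 82))))))))
noncomputable def pc21 : PT := (PT.nd (nat_lit 2162) (PT.nd (nat_lit 1034) (PT.nd (nat_lit 470) (PT.nd (nat_lit 188) (PT.nd (nat_lit 94) (PT.lf (nat_lit 26544) (nat_lit 6) (nat_lit 316) (nat_lit 5) (nat_lit 45) (nat_lit 54) (nat_lit 81)) (PT.lf (nat_lit 28308) (nat_lit 6) (nat_lit 337) (nat_lit 5) (nat_lit 46) (nat_lit 54) (nat_lit 80))) (PT.nd (nat_lit 94) (PT.lf (nat_lit 29988) (nat_lit 6) (nat_lit 357) (nat_lit 5) (nat_lit 47) (nat_lit 54) (nat_lit 79)) (PT.nd (nat_lit 94) (PT.lf (nat_lit 31584)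 (nat_lit 6) (nat_lit 376) (nat_lit 5) (nat_lit 48) (nat_lit 54) (nat_lit 78)) (PT.lf (nat_lit 33096) (nat_lit 6) (nat_lit 394) (nat_lit 5) (nat_lit 49) (nat_lit 54) (nat_lit 77))))) (PT.nd (nat_lit 282) (PT.nd (nat_lit 94) (PT.lf (nat_lit 34524) (nat_lit 6) (nat_lit 411) (nat_lit 5) (nat_lit 50) (nat_lit 54) (nat_lit 76)) (PT.nd (nat_lit 94) (PT.lf (nat_lit 35868) (nat_lit 6) (nat_lit 427) (nat_lit 5) (nat_lit 51) (nat_lit 54) (nat_lit 75)) (PT.lf (nat_lit 37128) (nat_lit 6) (nat_lit 442) (nat_lit 5) (nat_lit 52) (nat_lit 54) (nat_lit 74)))) (PT.nd (nat_lit 94) (PT.lf (nat_lit 38304) (nat_lit 6) (nat_lit 456) (nat_lit 5) (nat_lit 53) (nat_lit 54) (nat_lit 73)) (PT.nd (nat_lit 94) (PT.lf (nat_lit 39396) (nat_lit 3) (nat_lit 469) (nat_lit 3) (nat_lit 54) (nat_lit 54) (nat_lit 72)) (PT.lf (nat_lit 40488) (nat_lit 6) (nat_lit 482) (nat_lit 3) (nat_lit 55) (nat_lit 54) (nat_lit 71)))))) (PT.nd (nat_lit 564)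 (PT.nd (nat_lit 282) (PT.nd (nat_lit 94) (PT.lf (nat_lit 41496) (nat_lit 6) (nat_lit 494) (nat_lit 3) (nat_lit 56) (nat_lit 54) (nat_lit 70)) (PT.nd (nat_lit 94) (PT.lf (nat_lit 42420) (nat_lit 6) (nat_lit 505) (nat_lit 3) (nat_lit 57) (nat_lit 54) (nat_lit 69)) (PT.lf (nat_lit 43260) (nat_lit 6) (nat_lit 515) (nat_lit 3) (nat_lit 58) (nat_lit 54) (nat_lit 68)))) (PT.nd (nat_lit 94) (PT.lf (nat_lit 44016) (nat_lit 6) (nat_lit 524) (nat_lit 3) (nat_lit 59) (nat_lit 54) (nat_lit 67)) (PT.nd (nat_lit 94) (PT.lf (nat_lit 44688) (nat_lit 6) (nat_lit 532) (nat_lit 3) (nat_lit 60) (nat_lit 54) (nat_lit 66)) (PT.lf (nat_lit 44772) (nat_lit 6) (nat_lit 533) (nat_lit 3) (nat_lit 61) (nat_lit 54) (nat_lit 65))))) (PT.nd (nat_lit 282) (PT.nd (nat_lit 94) (PT.lf (nat_lit 44856) (nat_lit 6) (nat_lit 534) (nat_lit 3) (nat_lit 62) (nat_lit 54) (nat_lit 64)) (PT.nd (nat_lit 94) (PT.lf (nat_lit 44940) (nat_lit 3) (nat_lit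 535) (nat_lit 1) (nat_lit 63) (nat_lit 54) (nat_lit 63)) (PT.lf (nat_lit 44856) (nat_lit 6) (nat_lit 534) (nat_lit 1) (nat_lit 64) (nat_lit 54) (nat_lit 62)))) (PT.nd (nat_lit 94) (PT.lf (nat_lit 44772) (nat_lit 6) (nat_lit 533) (nat_lit 1) (nat_lit 65) (nat_lit 54) (nat_lit 61)) (PT.nd (nat_lit 94) (PT.lf (nat_lit 44688) (nat_lit 6) (nat_lit 532) (nat_lit 1) (nat_lit 66) (nat_lit 54) (nat_lit 60)) (PT.lf (nat_lit 44016) (nat_lit 6) (nat_lit 524) (nat_lit 1) (nat_lit 67) (nat_lit 54) (nat_lit 59))))))) (PT.nd (nat_lit 1128) (PT.nd (nat_lit 564) (PT.nd (nat_lit 282) (PT.nd (nat_lit 94) (PT.lf (nat_lit 43260) (nat_lit 6) (nat_lit 515) (nat_lit 1) (nat_lit 68) (nat_lit 54) (nat_lit 58)) (PT.nd (nat_lit 94) (PT.lf (nat_lit 42420) (nat_lit 6) (nat_lit 505) (nat_lit 1) (nat_lit 69) (nat_lit 54) (nat_lit 57)) (PT.lf (nat_lit 41496) (nat_lit 6) (nat_lit 494) (nat_lit 1) (nat_lit 70) (nat_lit 54) (nat_lit 56))))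 (PT.nd (nat_lit 94) (PT.lf (nat_lit 40488) (nat_lit 6) (nat_lit 482) (nat_lit 1) (nat_lit 71) (nat_lit 54) (nat_lit 55)) (PT.nd (nat_lit 94) (PT.lf (nat_lit 39396) (nat_lit 3) (nat_lit 469) (nat_lit 0) (nat_lit 72) (nat_lit 54) (nat_lit 54)) (PT.lf (nat_lit 38304) (nat_lit 6) (nat_lit 456) (nat_lit 0) (nat_lit 73) (nat_lit 54) (nat_lit 53))))) (PT.nd (nat_lit 282) (PT.nd (nat_lit 94) (PT.lf (nat_lit 37128) (nat_lit 6) (nat_lit 442) (nat_lit 0) (nat_lit 74) (nat_lit 54) (nat_lit 52)) (PT.nd (nat_lit 94) (PT.lf (nat_lit 35868) (nat_lit 6) (nat_lit 427) (nat_lit 0) (nat_lit 75) (nat_lit 54) (nat_lit 51)) (PT.lf (nat_lit 34524) (nat_lit 6) (nat_lit 411) (nat_lit 0) (nat_lit 76) (nat_lit 54) (nat_lit 50)))) (PT.nd (nat_lit 94) (PT.lf (nat_lit 33096) (nat_lit 6) (nat_lit 394) (nat_lit 0) (nat_lit 77) (nat_lit 54) (nat_lit 49)) (PT.nd (nat_lit 94) (PT.lf (nat_lit 31584) (nat_lit 6) (nat_lit 376) (nat_lit 0)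 (nat_lit 78) (nat_lit 54) (nat_lit 48)) (PT.lf (nat_lit 29988) (nat_lit 6) (nat_lit 357) (nat_lit 0) (nat_lit 79) (nat_lit 54) (nat_lit 47)))))) (PT.nd (nat_lit 42018) (PT.nd (nat_lit 41736) (PT.nd (nat_lit 94) (PT.lf (nat_lit 28308) (nat_lit 6) (nat_lit 337) (nat_lit 0) (nat_lit 80) (nat_lit 54) (nat_lit 46)) (PT.nd (nat_lit 94) (PT.lf (nat_lit 26544) (nat_lit 6) (nat_lit 316) (nat_lit 0) (nat_lit 81) (nat_lit 54) (nat_lit 45)) (PT.lf (nat_lit 24696) (nat_lit 6) (nat_lit 294) (nat_lit 0) (nat_lit 82) (nat_lit 54) (nat_lit 44)))) (PT.nd (nat_lit 94) (PT.lf (nat_lit 24780) (nat_lit 6) (nat_lit 295) (nat_lit 5) (nat_lit 43) (nat_lit 55) (nat_lit 82)) (PT.nd (nat_lit 94) (PT.lf (nat_lit 26628) (nat_lit 6) (nat_lit 317) (nat_lit 5) (nat_lit 44) (nat_lit 55) (nat_lit 81)) (PT.lf (nat_lit 28392) (nat_lit 6) (nat_lit 338) (nat_lit 5) (nat_lit 45) (nat_lit 55) (nat_lit 80))))) (PT.nd (nat_lit 282) (PT.nd (nat_lit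 94) (PT.lf (nat_lit 30072) (nat_lit 6) (nat_lit 358) (nat_lit 5) (nat_lit 46) (nat_lit 55) (nat_lit 79)) (PT.nd (nat_lit 94) (PT.lf (nat_lit 31668) (nat_lit 6) (nat_lit 377) (nat_lit 5) (nat_lit 47) (nat_lit 55) (nat_lit 78)) (PT.lf (nat_lit 33180) (nat_lit 6) (nat_lit 395) (nat_lit 5) (nat_lit 48) (nat_lit 55) (nat_lit 77)))) (PT.nd (nat_lit 94) (PT.lf (nat_lit 34608) (nat_lit 6) (nat_lit 412) (nat_lit 5) (nat_lit 49) (nat_lit 55) (nat_lit 76)) (PT.nd (nat_lit 94) (PT.lf (nat_lit 35952) (nat_lit 6) (nat_lit 428) (nat_lit 5) (nat_lit 50) (nat_lit 55) (nat_lit 75)) (PT.lf (nat_lit 37212) (nat_lit 6) (nat_lit 443) (nat_lit 5) (nat_lit 51) (nat_lit 55) (nat_lit 74))))))))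
noncomputable def pc22 : PT := (PT.nd (nat_lit 2162) (PT.nd (nat_lit 1034) (PT.nd (nat_lit 470) (PT.nd (nat_lit 188) (PT.nd (nat_lit 94) (PT.lf (nat_lit 38388) (nat_lit 6) (nat_lit 457) (nat_lit 5) (nat_lit 52) (nat_lit 55) (nat_lit 73)) (PT.lf (nat_lit 39480) (nat_lit 6) (nat_lit 470) (nat_lit 5) (nat_lit 53) (nat_lit 55) (nat_lit 72))) (PT.nd (nat_lit 94) (PT.lf (nat_lit 40488) (nat_lit 6) (nat_lit 482) (nat_lit 5) (nat_lit 54) (nat_lit 55) (nat_lit 71)) (PT.nd (nat_lit 94) (PT.lf (nat_lit 41412) (nat_lit 3) (nat_lit 493) (nat_lit 3) (nat_lit 55) (nat_lit 55) (nat_lit 70)) (PT.lf (nat_lit 42336) (nat_lit 6) (nat_lit 504) (nat_lit 3) (nat_lit 56) (nat_lit 55) (nat_lit 69))))) (PT.nd (nat_lit 282) (PT.nd (nat_lit 94) (PT.lf (nat_lit 43176) (nat_lit 6) (nat_lit 514) (nat_lit 3) (nat_lit 57) (nat_lit 55) (nat_lit 68)) (PT.nd (nat_lit 94) (PT.lf (nat_lit 43932) (nat_lit 6) (nat_lit 523) (nat_lit 3) (nat_lit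 58) (nat_lit 55) (nat_lit 67)) (PT.lf (nat_lit 44604) (nat_lit 6) (nat_lit 531) (nat_lit 3) (nat_lit 59) (nat_lit 55) (nat_lit 66)))) (PT.nd (nat_lit 94) (PT.lf (nat_lit 45192) (nat_lit 6) (nat_lit 538) (nat_lit 3) (nat_lit 60) (nat_lit 55) (nat_lit 65)) (PT.nd (nat_lit 94) (PT.lf (nat_lit 45276) (nat_lit 6) (nat_lit 539) (nat_lit 3) (nat_lit 61) (nat_lit 55) (nat_lit 64)) (PT.lf (nat_lit 45360) (nat_lit 6) (nat_lit 540) (nat_lit 3) (nat_lit 62) (nat_lit 55) (nat_lit 63)))))) (PT.nd (nat_lit 564) (PT.nd (nat_lit 282) (PT.nd (nat_lit 94) (PT.lf (nat_lit 45360) (nat_lit 6) (nat_lit 540) (nat_lit 1) (nat_lit 63) (nat_lit 55) (nat_lit 62)) (PT.nd (nat_lit 94) (PT.lf (nat_lit 45276) (nat_lit 6) (nat_lit 539) (nat_lit 1) (nat_lit 64) (nat_lit 55) (nat_lit 61)) (PT.lf (nat_lit 45192) (nat_lit 6) (nat_lit 538) (nat_lit 1) (nat_lit 65) (nat_lit 55) (nat_lit 60)))) (PT.nd (nat_lit 94) (PT.lf (nat_lit 44604) (nat_lit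 6) (nat_lit 531) (nat_lit 1) (nat_lit 66) (nat_lit 55) (nat_lit 59)) (PT.nd (nat_lit 94) (PT.lf (nat_lit 43932) (nat_lit 6) (nat_lit 523) (nat_lit 1) (nat_lit 67) (nat_lit 55) (nat_lit 58)) (PT.lf (nat_lit 43176) (nat_lit 6) (nat_lit 514) (nat_lit 1) (nat_lit 68) (nat_lit 55) (nat_lit 57))))) (PT.nd (nat_lit 282) (PT.nd (nat_lit 94) (PT.lf (nat_lit 42336) (nat_lit 6) (nat_lit 504) (nat_lit 1) (nat_lit 69) (nat_lit 55) (nat_lit 56)) (PT.nd (nat_lit 94) (PT.lf (nat_lit 41412) (nat_lit 3) (nat_lit 493) (nat_lit 0) (nat_lit 70) (nat_lit 55) (nat_lit 55)) (PT.lf (nat_lit 40488) (nat_lit 6) (nat_lit 482) (nat_lit 0) (nat_lit 71) (nat_lit 55) (nat_lit 54)))) (PT.nd (nat_lit 94) (PT.lf (nat_lit 39480) (nat_lit 6) (nat_lit 470) (nat_lit 0) (nat_lit 72) (nat_lit 55) (nat_lit 53)) (PT.nd (nat_lit 94) (PT.lf (nat_lit 38388) (nat_lit 6) (nat_lit 457) (nat_lit 0) (nat_lit 73) (nat_lit 55) (nat_lit 52)) (PT.lf (nat_lit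 37212) (nat_lit 6) (nat_lit 443) (nat_lit 0) (nat_lit 74) (nat_lit 55) (nat_lit 51))))))) (PT.nd (nat_lit 42488) (PT.nd (nat_lit 564) (PT.nd (nat_lit 282) (PT.nd (nat_lit 94) (PT.lf (nat_lit 35952) (nat_lit 6) (nat_lit 428) (nat_lit 0) (nat_lit 75) (nat_lit 55) (nat_lit 50)) (PT.nd (nat_lit 94) (PT.lf (nat_lit 34608) (nat_lit 6) (nat_lit 412) (nat_lit 0) (nat_lit 76) (nat_lit 55) (nat_lit 49)) (PT.lf (nat_lit 33180) (nat_lit 6) (nat_lit 395) (nat_lit 0) (nat_lit 77) (nat_lit 55) (nat_lit 48)))) (PT.nd (nat_lit 94) (PT.lf (nat_lit 31668) (nat_lit 6) (nat_lit 377) (nat_lit 0) (nat_lit 78) (nat_lit 55) (nat_lit 47)) (PT.nd (nat_lit 94) (PT.lf (nat_lit 30072) (nat_lit 6) (nat_lit 358) (nat_lit 0) (nat_lit 79) (nat_lit 55) (nat_lit 46)) (PT.lf (nat_lit 28392) (nat_lit 6) (nat_lit 338) (nat_lit 0) (nat_lit 80) (nat_lit 55) (nat_lit 45))))) (PT.nd (nat_lit 41642) (PT.nd (nat_lit 94) (PT.lf (nat_lit 26628) (nat_lit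 6) (nat_lit 317) (nat_lit 0) (nat_lit 81) (nat_lit 55) (nat_lit 44)) (PT.nd (nat_lit 41454) (PT.lf (nat_lit 24780) (nat_lit 6) (nat_lit 295) (nat_lit 0) (nat_lit 82) (nat_lit 55) (nat_lit 43)) (PT.lf (nat_lit 24864) (nat_lit 6) (nat_lit 296) (nat_lit 5) (nat_lit 42) (nat_lit 56) (nat_lit 82)))) (PT.nd (nat_lit 94) (PT.lf (nat_lit 26712) (nat_lit 6) (nat_lit 318) (nat_lit 5) (nat_lit 43) (nat_lit 56) (nat_lit 81)) (PT.nd (nat_lit 94) (PT.lf (nat_lit 28476) (nat_lit 6) (nat_lit 339) (nat_lit 5) (nat_lit 44) (nat_lit 56) (nat_lit 80)) (PT.lf (nat_lit 30156) (nat_lit 6) (nat_lit 359) (nat_lit 5) (nat_lit 45) (nat_lit 56) (nat_lit 79)))))) (PT.nd (nat_lit 564) (PT.nd (nat_lit 282) (PT.nd (nat_lit 94) (PT.lf (nat_lit 31752) (nat_lit 6) (nat_lit 378) (nat_lit 5) (nat_lit 46) (nat_lit 56) (nat_lit 78)) (PT.nd (nat_lit 94) (PT.lf (nat_lit 33264) (nat_lit 6) (nat_lit 396) (nat_lit 5) (nat_lit 47) (nat_lit 56)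 (nat_lit 77)) (PT.lf (nat_lit 34692) (nat_lit 6) (nat_lit 413) (nat_lit 5) (nat_lit 48) (nat_lit 56) (nat_lit 76)))) (PT.nd (nat_lit 94) (PT.lf (nat_lit 36036) (nat_lit 6) (nat_lit 429) (nat_lit 5) (nat_lit 49) (nat_lit 56) (nat_lit 75)) (PT.nd (nat_lit 94) (PT.lf (nat_lit 37296) (nat_lit 6) (nat_lit 444) (nat_lit 5) (nat_lit 50) (nat_lit 56) (nat_lit 74)) (PT.lf (nat_lit 38472) (nat_lit 6) (nat_lit 458) (nat_lit 5) (nat_lit 51) (nat_lit 56) (nat_lit 73))))) (PT.nd (nat_lit 282) (PT.nd (nat_lit 94) (PT.lf (nat_lit 39564) (nat_lit 6) (nat_lit 471) (nat_lit 5) (nat_lit 52) (nat_lit 56) (nat_lit 72)) (PT.nd (nat_lit 94) (PT.lf (nat_lit 40572) (nat_lit 6) (nat_lit 483) (nat_lit 5) (nat_lit 53) (nat_lit 56) (nat_lit 71)) (PT.lf (nat_lit 41496) (nat_lit 6) (nat_lit 494) (nat_lit 5) (nat_lit 54) (nat_lit 56) (nat_lit 70)))) (PT.nd (nat_lit 94) (PT.lf (nat_lit 42336) (nat_lit 6) (nat_lit 504) (nat_lit 5) (nat_lit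 55) (nat_lit 56) (nat_lit 69)) (PT.nd (nat_lit 94) (PT.lf (nat_lit 43092) (nat_lit 3) (nat_lit 513) (nat_lit 3) (nat_lit 56) (nat_lit 56) (nat_lit 68)) (PT.lf (nat_lit 43848) (nat_lit 6) (nat_lit 522) (nat_lit 3) (nat_lit 57) (nat_lit 56) (nat_lit 67))))))))
noncomputable def pc23 : PT := (PT.nd (nat_lit 2162) (PT.nd (nat_lit 1034) (PT.nd (nat_lit 470) (PT.nd (nat_lit 188) (PT.nd (nat_lit 94) (PT.lf (nat_lit 44520) (nat_lit 6) (nat_lit 530) (nat_lit 3) (nat_lit 58) (nat_lit 56) (nat_lit 66)) (PT.lf (nat_lit 45108) (nat_lit 6) (nat_lit 537) (nat_lit 3) (nat_lit 59) (nat_lit 56) (nat_lit 65))) (PT.nd (nat_lit 94) (PT.lf (nat_lit 45612) (nat_lit 6) (nat_lit 543) (nat_lit 3) (nat_lit 60) (nat_lit 56) (nat_lit 64)) (PT.nd (nat_lit 94) (PT.lf (nat_lit 45696) (nat_lit 6) (nat_lit 544) (nat_lit 3) (nat_lit 61) (nat_lit 56) (nat_lit 63)) (PT.lf (nat_lit 45780) (nat_lit 3) (nat_lit 545) (nat_lit 1) (nat_lit 62)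 (nat_lit 56) (nat_lit 62))))) (PT.nd (nat_lit 282) (PT.nd (nat_lit 94) (PT.lf (nat_lit 45696) (nat_lit 6) (nat_lit 544) (nat_lit 1) (nat_lit 63) (nat_lit 56) (nat_lit 61)) (PT.nd (nat_lit 94) (PT.lf (nat_lit 45612) (nat_lit 6) (nat_lit 543) (nat_lit 1) (nat_lit 64) (nat_lit 56) (nat_lit 60)) (PT.lf (nat_lit 45108) (nat_lit 6) (nat_lit 537) (nat_lit 1) (nat_lit 65) (nat_lit 56) (nat_lit 59)))) (PT.nd (nat_lit 94) (PT.lf (nat_lit 44520) (nat_lit 6) (nat_lit 530) (nat_lit 1) (nat_lit 66) (nat_lit 56) (nat_lit 58)) (PT.nd (nat_lit 94) (PT.lf (nat_lit 43848) (nat_lit 6) (nat_lit 522) (nat_lit 1) (nat_lit 67) (nat_lit 56) (nat_lit 57)) (PT.lf (nat_lit 43092) (nat_lit 3) (nat_lit 513) (nat_lit 0) (nat_lit 68) (nat_lit 56) (nat_lit 56)))))) (PT.nd (nat_lit 564) (PT.nd (nat_lit 282) (PT.nd (nat_lit 94) (PT.lf (nat_lit 42336) (nat_lit 6) (nat_lit 504) (nat_lit 0) (nat_lit 69) (nat_lit 56) (nat_lit 55)) (PT.nd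 (nat_lit 94) (PT.lf (nat_lit 41496) (nat_lit 6) (nat_lit 494) (nat_lit 0) (nat_lit 70) (nat_lit 56) (nat_lit 54)) (PT.lf (nat_lit 40572) (nat_lit 6) (nat_lit 483) (nat_lit 0) (nat_lit 71) (nat_lit 56) (nat_lit 53)))) (PT.nd (nat_lit 94) (PT.lf (nat_lit 39564) (nat_lit 6) (nat_lit 471) (nat_lit 0) (nat_lit 72) (nat_lit 56) (nat_lit 52)) (PT.nd (nat_lit 94) (PT.lf (nat_lit 38472) (nat_lit 6) (nat_lit 458) (nat_lit 0) (nat_lit 73) (nat_lit 56) (nat_lit 51)) (PT.lf (nat_lit 37296) (nat_lit 6) (nat_lit 444) (nat_lit 0) (nat_lit 74) (nat_lit 56) (nat_lit 50))))) (PT.nd (nat_lit 282) (PT.nd (nat_lit 94) (PT.lf (nat_lit 36036) (nat_lit 6) (nat_lit 429) (nat_lit 0) (nat_lit 75) (nat_lit 56) (nat_lit 49)) (PT.nd (nat_lit 94) (PT.lf (nat_lit 34692) (nat_lit 6) (nat_lit 413) (nat_lit 0) (nat_lit 76) (nat_lit 56) (nat_lit 48)) (PT.lf (nat_lit 33264) (nat_lit 6) (nat_lit 396) (nat_lit 0) (nat_lit 77) (nat_lit 56)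 (nat_lit 47)))) (PT.nd (nat_lit 94) (PT.lf (nat_lit 31752) (nat_lit 6) (nat_lit 378) (nat_lit 0) (nat_lit 78) (nat_lit 56) (nat_lit 46)) (PT.nd (nat_lit 94) (PT.lf (nat_lit 30156) (nat_lit 6) (nat_lit 359) (nat_lit 0) (nat_lit 79) (nat_lit 56) (nat_lit 45)) (PT.lf (nat_lit 28476) (nat_lit 6) (nat_lit 339) (nat_lit 0) (nat_lit 80) (nat_lit 56) (nat_lit 44))))))) (PT.nd (nat_lit 42394) (PT.nd (nat_lit 41830) (PT.nd (nat_lit 41548) (PT.nd (nat_lit 94) (PT.lf (nat_lit 26712) (nat_lit 6) (nat_lit 318) (nat_lit 0) (nat_lit 81) (nat_lit 56) (nat_lit 43)) (PT.nd (nat_lit 41360) (PT.lf (nat_lit 24864) (nat_lit 6) (nat_lit 296) (nat_lit 0) (nat_lit 82) (nat_lit 56) (nat_lit 42)) (PT.lf (nat_lit 24948) (nat_lit 6) (nat_lit 297) (nat_lit 5) (nat_lit 41) (nat_lit 57) (nat_lit 82)))) (PT.nd (nat_lit 94) (PT.lf (nat_lit 26796) (nat_lit 6) (nat_lit 319) (nat_lit 5) (nat_lit 42) (nat_lit 57) (nat_lit 81)) (PT.nd (nat_lit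 94) (PT.lf (nat_lit 28560) (nat_lit 6) (nat_lit 340) (nat_lit 5) (nat_lit 43) (nat_lit 57) (nat_lit 80)) (PT.lf (nat_lit 30240) (nat_lit 6) (nat_lit 360) (nat_lit 5) (nat_lit 44) (nat_lit 57) (nat_lit 79))))) (PT.nd (nat_lit 282) (PT.nd (nat_lit 94) (PT.lf (nat_lit 31836) (nat_lit 6) (nat_lit 379) (nat_lit 5) (nat_lit 45) (nat_lit 57) (nat_lit 78)) (PT.nd (nat_lit 94) (PT.lf (nat_lit 33348) (nat_lit 6) (nat_lit 397) (nat_lit 5) (nat_lit 46) (nat_lit 57) (nat_lit 77)) (PT.lf (nat_lit 34776) (nat_lit 6) (nat_lit 414) (nat_lit 5) (nat_lit 47) (nat_lit 57) (nat_lit 76)))) (PT.nd (nat_lit 94) (PT.lf (nat_lit 36120) (nat_lit 6) (nat_lit 430) (nat_lit 5) (nat_lit 48) (nat_lit 57) (nat_lit 75)) (PT.nd (nat_lit 94) (PT.lf (nat_lit 37380) (nat_lit 6) (nat_lit 445) (nat_lit 5) (nat_lit 49) (nat_lit 57) (nat_lit 74)) (PT.lf (nat_lit 38556) (nat_lit 6) (nat_lit 459) (nat_lit 5) (nat_lit 50) (nat_lit 57) (nat_lit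 73)))))) (PT.nd (nat_lit 564) (PT.nd (nat_lit 282) (PT.nd (nat_lit 94) (PT.lf (nat_lit 39648) (nat_lit 6) (nat_lit 472) (nat_lit 5) (nat_lit 51) (nat_lit 57) (nat_lit 72)) (PT.nd (nat_lit 94) (PT.lf (nat_lit 40656) (nat_lit 6) (nat_lit 484) (nat_lit 5) (nat_lit 52) (nat_lit 57) (nat_lit 71)) (PT.lf (nat_lit 41580) (nat_lit 6) (nat_lit 495) (nat_lit 5) (nat_lit 53) (nat_lit 57) (nat_lit 70)))) (PT.nd (nat_lit 94) (PT.lf (nat_lit 42420) (nat_lit 6) (nat_lit 505) (nat_lit 5) (nat_lit 54) (nat_lit 57) (nat_lit 69)) (PT.nd (nat_lit 94) (PT.lf (nat_lit 43176) (nat_lit 6) (nat_lit 514) (nat_lit 5) (nat_lit 55) (nat_lit 57) (nat_lit 68)) (PT.lf (nat_lit 43848) (nat_lit 6) (nat_lit 522) (nat_lit 5) (nat_lit 56) (nat_lit 57) (nat_lit 67))))) (PT.nd (nat_lit 282) (PT.nd (nat_lit 94) (PT.lf (nat_lit 44436) (nat_lit 3) (nat_lit 529) (nat_lit 3) (nat_lit 57) (nat_lit 57) (nat_lit 66)) (PT.nd (nat_lit 94) (PT.lf (nat_lit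 45024) (nat_lit 6) (nat_lit 536) (nat_lit 3) (nat_lit 58) (nat_lit 57) (nat_lit 65)) (PT.lf (nat_lit 45528) (nat_lit 6) (nat_lit 542) (nat_lit 3) (nat_lit 59) (nat_lit 57) (nat_lit 64)))) (PT.nd (nat_lit 94) (PT.lf (nat_lit 45948) (nat_lit 6) (nat_lit 547) (nat_lit 3) (nat_lit 60) (nat_lit 57) (nat_lit 63)) (PT.nd (nat_lit 94) (PT.lf (nat_lit 46032) (nat_lit 6) (nat_lit 548) (nat_lit 3) (nat_lit 61) (nat_lit 57) (nat_lit 62)) (PT.lf (nat_lit 46032) (nat_lit 6) (nat_lit 548) (nat_lit 1) (nat_lit 62) (nat_lit 57) (nat_lit 61))))))))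
noncomputable def pc24 : PT := (PT.nd (nat_lit 43334) (PT.nd (nat_lit 1034) (PT.nd (nat_lit 470) (PT.nd (nat_lit 188) (PT.nd (nat_lit 94) (PT.lf (nat_lit 45948) (nat_lit 6) (nat_lit 547) (nat_lit 1) (nat_lit 63) (nat_lit 57) (nat_lit 60)) (PT.lf (nat_lit 45528) (nat_lit 6) (nat_lit 542) (nat_lit 1) (nat_lit 64) (nat_lit 57) (nat_lit 59))) (PT.nd (nat_lit 94) (PT.lf (nat_lit 45024) (nat_lit 6) (nat_lit 536) (nat_lit 1) (nat_lit 65) (nat_lit 57) (nat_lit 58)) (PT.nd (nat_lit 94) (PT.lf (nat_lit 44436) (nat_lit 3) (nat_lit 529) (nat_lit 0) (nat_lit 66) (nat_lit 57) (nat_lit 57)) (PT.lf (nat_lit 43848) (nat_lit 6) (nat_lit 522) (nat_lit 0) (nat_lit 67) (nat_lit 57) (nat_lit 56))))) (PT.nd (nat_lit 282) (PT.nd (nat_lit 94) (PT.lf (nat_lit 43176) (nat_lit 6) (nat_lit 514) (nat_lit 0) (nat_lit 68) (nat_lit 57) (nat_lit 55)) (PT.nd (nat_lit 94) (PT.lf (nat_lit 42420) (nat_lit 6) (nat_lit 505) (nat_lit 0) (nat_lit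 69) (nat_lit 57) (nat_lit 54)) (PT.lf (nat_lit 41580) (nat_lit 6) (nat_lit 495) (nat_lit 0) (nat_lit 70) (nat_lit 57) (nat_lit 53)))) (PT.nd (nat_lit 94) (PT.lf (nat_lit 40656) (nat_lit 6) (nat_lit 484) (nat_lit 0) (nat_lit 71) (nat_lit 57) (nat_lit 52)) (PT.nd (nat_lit 94) (PT.lf (nat_lit 39648) (nat_lit 6) (nat_lit 472) (nat_lit 0) (nat_lit 72) (nat_lit 57) (nat_lit 51)) (PT.lf (nat_lit 38556) (nat_lit 6) (nat_lit 459) (nat_lit 0) (nat_lit 73) (nat_lit 57) (nat_lit 50)))))) (PT.nd (nat_lit 564) (PT.nd (nat_lit 282) (PT.nd (nat_lit 94) (PT.lf (nat_lit 37380) (nat_lit 6) (nat_lit 445) (nat_lit 0) (nat_lit 74) (nat_lit 57) (nat_lit 49)) (PT.nd (nat_lit 94) (PT.lf (nat_lit 36120) (nat_lit 6) (nat_lit 430) (nat_lit 0) (nat_lit 75) (nat_lit 57) (nat_lit 48)) (PT.lf (nat_lit 34776) (nat_lit 6) (nat_lit 414) (nat_lit 0) (nat_lit 76) (nat_lit 57) (nat_lit 47)))) (PT.nd (nat_lit 94) (PT.lf (nat_lit 33348) (nat_lit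 6) (nat_lit 397) (nat_lit 0) (nat_lit 77) (nat_lit 57) (nat_lit 46)) (PT.nd (nat_lit 94) (PT.lf (nat_lit 31836) (nat_lit 6) (nat_lit 379) (nat_lit 0) (nat_lit 78) (nat_lit 57) (nat_lit 45)) (PT.lf (nat_lit 30240) (nat_lit 6) (nat_lit 360) (nat_lit 0) (nat_lit 79) (nat_lit 57) (nat_lit 44))))) (PT.nd (nat_lit 41454) (PT.nd (nat_lit 94) (PT.lf (nat_lit 28560) (nat_lit 6) (nat_lit 340) (nat_lit 0) (nat_lit 80) (nat_lit 57) (nat_lit 43)) (PT.nd (nat_lit 94) (PT.lf (nat_lit 26796) (nat_lit 6) (nat_lit 319) (nat_lit 0) (nat_lit 81) (nat_lit 57) (nat_lit 42)) (PT.lf (nat_lit 24948) (nat_lit 6) (nat_lit 297) (nat_lit 0) (nat_lit 82) (nat_lit 57) (nat_lit 41)))) (PT.nd (nat_lit 94) (PT.lf (nat_lit 25032) (nat_lit 6) (nat_lit 298) (nat_lit 5) (nat_lit 40) (nat_lit 58) (nat_lit 82)) (PT.nd (nat_lit 94) (PT.lf (nat_lit 26880) (nat_lit 6) (nat_lit 320) (nat_lit 5) (nat_lit 41) (nat_lit 58) (nat_lit 81)) (PT.lf (nat_lit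 28644) (nat_lit 6) (nat_lit 341) (nat_lit 5) (nat_lit 42) (nat_lit 58) (nat_lit 80))))))) (PT.nd (nat_lit 1034) (PT.nd (nat_lit 470) (PT.nd (nat_lit 188) (PT.nd (nat_lit 94) (PT.lf (nat_lit 30324) (nat_lit 6) (nat_lit 361) (nat_lit 5) (nat_lit 43) (nat_lit 58) (nat_lit 79)) (PT.lf (nat_lit 31920) (nat_lit 6) (nat_lit 380) (nat_lit 5) (nat_lit 44) (nat_lit 58) (nat_lit 78))) (PT.nd (nat_lit 94) (PT.lf (nat_lit 33432) (nat_lit 6) (nat_lit 398) (nat_lit 5) (nat_lit 45) (nat_lit 58) (nat_lit 77)) (PT.nd (nat_lit 94) (PT.lf (nat_lit 34860) (nat_lit 6) (nat_lit 415) (nat_lit 5) (nat_lit 46) (nat_lit 58) (nat_lit 76)) (PT.lf (nat_lit 36204) (nat_lit 6) (nat_lit 431) (nat_lit 5) (nat_lit 47) (nat_lit 58) (nat_lit 75))))) (PT.nd (nat_lit 282) (PT.nd (nat_lit 94) (PT.lf (nat_lit 37464) (nat_lit 6) (nat_lit 446) (nat_lit 5) (nat_lit 48) (nat_lit 58) (nat_lit 74)) (PT.nd (nat_lit 94) (PT.lf (nat_lit 38640) (nat_lit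 6) (nat_lit 460) (nat_lit 5) (nat_lit 49) (nat_lit 58) (nat_lit 73)) (PT.lf (nat_lit 39732) (nat_lit 6) (nat_lit 473) (nat_lit 5) (nat_lit 50) (nat_lit 58) (nat_lit 72)))) (PT.nd (nat_lit 94) (PT.lf (nat_lit 40740) (nat_lit 6) (nat_lit 485) (nat_lit 5) (nat_lit 51) (nat_lit 58) (nat_lit 71)) (PT.nd (nat_lit 94) (PT.lf (nat_lit 41664) (nat_lit 6) (nat_lit 496) (nat_lit 5) (nat_lit 52) (nat_lit 58) (nat_lit 70)) (PT.lf (nat_lit 42504) (nat_lit 6) (nat_lit 506) (nat_lit 5) (nat_lit 53) (nat_lit 58) (nat_lit 69)))))) (PT.nd (nat_lit 564) (PT.nd (nat_lit 282) (PT.nd (nat_lit 94) (PT.lf (nat_lit 43260) (nat_lit 6) (nat_lit 515) (nat_lit 5) (nat_lit 54) (nat_lit 58) (nat_lit 68)) (PT.nd (nat_lit 94) (PT.lf (nat_lit 43932) (nat_lit 6) (nat_lit 523) (nat_lit 5) (nat_lit 55) (nat_lit 58) (nat_lit 67)) (PT.lf (nat_lit 44520) (nat_lit 6) (nat_lit 530) (nat_lit 5) (nat_lit 56) (nat_lit 58) (nat_lit 66)))) (PT.nd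 (nat_lit 94) (PT.lf (nat_lit 45024) (nat_lit 6) (nat_lit 536) (nat_lit 5) (nat_lit 57) (nat_lit 58) (nat_lit 65)) (PT.nd (nat_lit 94) (PT.lf (nat_lit 45444) (nat_lit 3) (nat_lit 541) (nat_lit 3) (nat_lit 58) (nat_lit 58) (nat_lit 64)) (PT.lf (nat_lit 45864) (nat_lit 6) (nat_lit 546) (nat_lit 3) (nat_lit 59) (nat_lit 58) (nat_lit 63))))) (PT.nd (nat_lit 282) (PT.nd (nat_lit 94) (PT.lf (nat_lit 46200) (nat_lit 6) (nat_lit 550) (nat_lit 3) (nat_lit 60) (nat_lit 58) (nat_lit 62)) (PT.nd (nat_lit 94) (PT.lf (nat_lit 46284) (nat_lit 3) (nat_lit 551) (nat_lit 1) (nat_lit 61) (nat_lit 58) (nat_lit 61)) (PT.lf (nat_lit 46200) (nat_lit 6) (nat_lit 550) (nat_lit 1) (nat_lit 62) (nat_lit 58) (nat_lit 60)))) (PT.nd (nat_lit 94) (PT.lf (nat_lit 45864) (nat_lit 6) (nat_lit 546) (nat_lit 1) (nat_lit 63) (nat_lit 58) (nat_lit 59)) (PT.nd (nat_lit 94) (PT.lf (nat_lit 45444) (nat_lit 3) (nat_lit 541) (nat_lit 0) (nat_lit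 64) (nat_lit 58) (nat_lit 58)) (PT.lf (nat_lit 45024) (nat_lit 6) (nat_lit 536) (nat_lit 0) (nat_lit 65) (nat_lit 58) (nat_lit 57))))))))
noncomputable def pc25 : PT := (PT.nd (nat_lit 43146) (PT.nd (nat_lit 1034) (PT.nd (nat_lit 470) (PT.nd (nat_lit 188) (PT.nd (nat_lit 94) (PT.lf (nat_lit 44520) (nat_lit 6) (nat_lit 530) (nat_lit 0) (nat_lit 66) (nat_lit 58) (nat_lit 56)) (PT.lf (nat_lit 43932) (nat_lit 6) (nat_lit 523) (nat_lit 0) (nat_lit 67) (nat_lit 58) (nat_lit 55))) (PT.nd (nat_lit 94) (PT.lf (nat_lit 43260) (nat_lit 6) (nat_lit 515) (nat_lit 0) (nat_lit 68) (nat_lit 58) (nat_lit 54)) (PT.nd (nat_lit 94) (PT.lf (nat_lit 42504) (nat_lit 6) (nat_lit 506) (nat_lit 0) (nat_lit 69) (nat_lit 58) (nat_lit 53)) (PT.lf (nat_lit 41664) (nat_lit 6) (nat_lit 496) (nat_lit 0) (nat_lit 70) (nat_lit 58) (nat_lit 52))))) (PT.nd (nat_lit 282) (PT.nd (nat_lit 94) (PT.lf (nat_lit 40740) (nat_lit 6) (nat_lit 485)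 (nat_lit 0) (nat_lit 71) (nat_lit 58) (nat_lit 51)) (PT.nd (nat_lit 94) (PT.lf (nat_lit 39732) (nat_lit 6) (nat_lit 473) (nat_lit 0) (nat_lit 72) (nat_lit 58) (nat_lit 50)) (PT.lf (nat_lit 38640) (nat_lit 6) (nat_lit 460) (nat_lit 0) (nat_lit 73) (nat_lit 58) (nat_lit 49)))) (PT.nd (nat_lit 94) (PT.lf (nat_lit 37464) (nat_lit 6) (nat_lit 446) (nat_lit 0) (nat_lit 74) (nat_lit 58) (nat_lit 48)) (PT.nd (nat_lit 94) (PT.lf (nat_lit 36204) (nat_lit 6) (nat_lit 431) (nat_lit 0) (nat_lit 75) (nat_lit 58) (nat_lit 47)) (PT.lf (nat_lit 34860) (nat_lit 6) (nat_lit 415) (nat_lit 0) (nat_lit 76) (nat_lit 58) (nat_lit 46)))))) (PT.nd (nat_lit 41548) (PT.nd (nat_lit 282) (PT.nd (nat_lit 94) (PT.lf (nat_lit 33432) (nat_lit 6) (nat_lit 398) (nat_lit 0) (nat_lit 77) (nat_lit 58) (nat_lit 45)) (PT.nd (nat_lit 94) (PT.lf (nat_lit 31920) (nat_lit 6) (nat_lit 380) (nat_lit 0) (nat_lit 78) (nat_lit 58) (nat_lit 44)) (PT.lf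 (nat_lit 30324) (nat_lit 6) (nat_lit 361) (nat_lit 0) (nat_lit 79) (nat_lit 58) (nat_lit 43)))) (PT.nd (nat_lit 94) (PT.lf (nat_lit 28644) (nat_lit 6) (nat_lit 341) (nat_lit 0) (nat_lit 80) (nat_lit 58) (nat_lit 42)) (PT.nd (nat_lit 94) (PT.lf (nat_lit 26880) (nat_lit 6) (nat_lit 320) (nat_lit 0) (nat_lit 81) (nat_lit 58) (nat_lit 41)) (PT.lf (nat_lit 25032) (nat_lit 6) (nat_lit 298) (nat_lit 0) (nat_lit 82) (nat_lit 58) (nat_lit 40))))) (PT.nd (nat_lit 282) (PT.nd (nat_lit 94) (PT.lf (nat_lit 23184) (nat_lit 6) (nat_lit 276) (nat_lit 5) (nat_lit 38) (nat_lit 59) (nat_lit 83)) (PT.nd (nat_lit 94) (PT.lf (nat_lit 25116) (nat_lit 6) (nat_lit 299) (nat_lit 5) (nat_lit 39) (nat_lit 59) (nat_lit 82)) (PT.lf (nat_lit 26964) (nat_lit 6) (nat_lit 321) (nat_lit 5) (nat_lit 40) (nat_lit 59) (nat_lit 81)))) (PT.nd (nat_lit 94) (PT.lf (nat_lit 28728) (nat_lit 6) (nat_lit 342) (nat_lit 5) (nat_lit 41) (nat_lit 59)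 (nat_lit 80)) (PT.nd (nat_lit 94) (PT.lf (nat_lit 30408) (nat_lit 6) (nat_lit 362) (nat_lit 5) (nat_lit 42) (nat_lit 59) (nat_lit 79)) (PT.lf (nat_lit 32004) (nat_lit 6) (nat_lit 381) (nat_lit 5) (nat_lit 43) (nat_lit 59) (nat_lit 78))))))) (PT.nd (nat_lit 1128) (PT.nd (nat_lit 564) (PT.nd (nat_lit 282) (PT.nd (nat_lit 94) (PT.lf (nat_lit 33516) (nat_lit 6) (nat_lit 399) (nat_lit 5) (nat_lit 44) (nat_lit 59) (nat_lit 77)) (PT.nd (nat_lit 94) (PT.lf (nat_lit 34944) (nat_lit 6) (nat_lit 416) (nat_lit 5) (nat_lit 45) (nat_lit 59) (nat_lit 76)) (PT.lf (nat_lit 36288) (nat_lit 6) (nat_lit 432) (nat_lit 5) (nat_lit 46) (nat_lit 59) (nat_lit 75)))) (PT.nd (nat_lit 94) (PT.lf (nat_lit 37548) (nat_lit 6) (nat_lit 447) (nat_lit 5) (nat_lit 47) (nat_lit 59) (nat_lit 74)) (PT.nd (nat_lit 94) (PT.lf (nat_lit 38724) (nat_lit 6) (nat_lit 461) (nat_lit 5) (nat_lit 48) (nat_lit 59) (nat_lit 73)) (PT.lf (nat_lit 39816)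 (nat_lit 6) (nat_lit 474) (nat_lit 5) (nat_lit 49) (nat_lit 59) (nat_lit 72))))) (PT.nd (nat_lit 282) (PT.nd (nat_lit 94) (PT.lf (nat_lit 40824) (nat_lit 6) (nat_lit 486) (nat_lit 5) (nat_lit 50) (nat_lit 59) (nat_lit 71)) (PT.nd (nat_lit 94) (PT.lf (nat_lit 41748) (nat_lit 6) (nat_lit 497) (nat_lit 5) (nat_lit 51) (nat_lit 59) (nat_lit 70)) (PT.lf (nat_lit 42588) (nat_lit 6) (nat_lit 507) (nat_lit 5) (nat_lit 52) (nat_lit 59) (nat_lit 69)))) (PT.nd (nat_lit 94) (PT.lf (nat_lit 43344) (nat_lit 6) (nat_lit 516) (nat_lit 5) (nat_lit 53) (nat_lit 59) (nat_lit 68)) (PT.nd (nat_lit 94) (PT.lf (nat_lit 44016) (nat_lit 6) (nat_lit 524) (nat_lit 5) (nat_lit 54) (nat_lit 59) (nat_lit 67)) (PT.lf (nat_lit 44604) (nat_lit 6) (nat_lit 531) (nat_lit 5) (nat_lit 55) (nat_lit 59) (nat_lit 66)))))) (PT.nd (nat_lit 564) (PT.nd (nat_lit 282) (PT.nd (nat_lit 94) (PT.lf (nat_lit 45108) (nat_lit 6) (nat_lit 537) (nat_lit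 5) (nat_lit 56) (nat_lit 59) (nat_lit 65)) (PT.nd (nat_lit 94) (PT.lf (nat_lit 45528) (nat_lit 6) (nat_lit 542) (nat_lit 5) (nat_lit 57) (nat_lit 59) (nat_lit 64)) (PT.lf (nat_lit 45864) (nat_lit 6) (nat_lit 546) (nat_lit 5) (nat_lit 58) (nat_lit 59) (nat_lit 63)))) (PT.nd (nat_lit 94) (PT.lf (nat_lit 46116) (nat_lit 3) (nat_lit 549) (nat_lit 3) (nat_lit 59) (nat_lit 59) (nat_lit 62)) (PT.nd (nat_lit 94) (PT.lf (nat_lit 46368) (nat_lit 6) (nat_lit 552) (nat_lit 3) (nat_lit 60) (nat_lit 59) (nat_lit 61)) (PT.lf (nat_lit 46368) (nat_lit 6) (nat_lit 552) (nat_lit 1) (nat_lit 61) (nat_lit 59) (nat_lit 60))))) (PT.nd (nat_lit 282) (PT.nd (nat_lit 94) (PT.lf (nat_lit 46116) (nat_lit 3) (nat_lit 549) (nat_lit 0) (nat_lit 62) (nat_lit 59) (nat_lit 59)) (PT.nd (nat_lit 94) (PT.lf (nat_lit 45864) (nat_lit 6) (nat_lit 546) (nat_lit 0) (nat_lit 63) (nat_lit 59) (nat_lit 58)) (PT.lf (nat_lit 45528) (nat_lit 6) (nat_lit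 542) (nat_lit 0) (nat_lit 64) (nat_lit 59) (nat_lit 57)))) (PT.nd (nat_lit 94) (PT.lf (nat_lit 45108) (nat_lit 6) (nat_lit 537) (nat_lit 0) (nat_lit 65) (nat_lit 59) (nat_lit 56)) (PT.nd (nat_lit 94) (PT.lf (nat_lit 44604) (nat_lit 6) (nat_lit 531) (nat_lit 0) (nat_lit 66) (nat_lit 59) (nat_lit 55)) (PT.lf (nat_lit 44016) (nat_lit 6) (nat_lit 524) (nat_lit 0) (nat_lit 67) (nat_lit 59) (nat_lit 54))))))))
noncomputable def pc26 : PT := (PT.nd (nat_lit 42958) (PT.nd (nat_lit 1034) (PT.nd (nat_lit 470) (PT.nd (nat_lit 188) (PT.nd (nat_lit 94) (PT.lf (nat_lit 43344) (nat_lit 6) (nat_lit 516) (nat_lit 0) (nat_lit 68) (nat_lit 59) (nat_lit 53)) (PT.lf (nat_lit 42588) (nat_lit 6) (nat_lit 507) (nat_lit 0) (nat_lit 69) (nat_lit 59) (nat_lit 52))) (PT.nd (nat_lit 94) (PT.lf (nat_lit 41748) (nat_lit 6) (nat_lit 497) (nat_lit 0) (nat_lit 70) (nat_lit 59) (nat_lit 51)) (PT.nd (nat_lit 94) (PT.lf (nat_lit 40824)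 (nat_lit 6) (nat_lit 486) (nat_lit 0) (nat_lit 71) (nat_lit 59) (nat_lit 50)) (PT.lf (nat_lit 39816) (nat_lit 6) (nat_lit 474) (nat_lit 0) (nat_lit 72) (nat_lit 59) (nat_lit 49))))) (PT.nd (nat_lit 282) (PT.nd (nat_lit 94) (PT.lf (nat_lit 38724) (nat_lit 6) (nat_lit 461) (nat_lit 0) (nat_lit 73) (nat_lit 59) (nat_lit 48)) (PT.nd (nat_lit 94) (PT.lf (nat_lit 37548) (nat_lit 6) (nat_lit 447) (nat_lit 0) (nat_lit 74) (nat_lit 59) (nat_lit 47)) (PT.lf (nat_lit 36288) (nat_lit 6) (nat_lit 432) (nat_lit 0) (nat_lit 75) (nat_lit 59) (nat_lit 46)))) (PT.nd (nat_lit 94) (PT.lf (nat_lit 34944) (nat_lit 6) (nat_lit 416) (nat_lit 0) (nat_lit 76) (nat_lit 59) (nat_lit 45)) (PT.nd (nat_lit 94) (PT.lf (nat_lit 33516) (nat_lit 6) (nat_lit 399) (nat_lit 0) (nat_lit 77) (nat_lit 59) (nat_lit 44)) (PT.lf (nat_lit 32004) (nat_lit 6) (nat_lit 381) (nat_lit 0) (nat_lit 78) (nat_lit 59) (nat_lit 43)))))) (PT.nd (nat_lit 41360)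 (PT.nd (nat_lit 282) (PT.nd (nat_lit 94) (PT.lf (nat_lit 30408) (nat_lit 6) (nat_lit 362) (nat_lit 0) (nat_lit 79) (nat_lit 59) (nat_lit 42)) (PT.nd (nat_lit 94) (PT.lf (nat_lit 28728) (nat_lit 6) (nat_lit 342) (nat_lit 0) (nat_lit 80) (nat_lit 59) (nat_lit 41)) (PT.lf (nat_lit 26964) (nat_lit 6) (nat_lit 321) (nat_lit 0) (nat_lit 81) (nat_lit 59) (nat_lit 40)))) (PT.nd (nat_lit 94) (PT.lf (nat_lit 25116) (nat_lit 6) (nat_lit 299) (nat_lit 0) (nat_lit 82) (nat_lit 59) (nat_lit 39)) (PT.nd (nat_lit 40890) (PT.lf (nat_lit 23184) (nat_lit 6) (nat_lit 276) (nat_lit 0) (nat_lit 83) (nat_lit 59) (nat_lit 38)) (PT.lf (nat_lit 23268) (nat_lit 6) (nat_lit 277) (nat_lit 5) (nat_lit 37) (nat_lit 60) (nat_lit 83))))) (PT.nd (nat_lit 282) (PT.nd (nat_lit 94) (PT.lf (nat_lit 25200) (nat_lit 6) (nat_lit 300) (nat_lit 5) (nat_lit 38) (nat_lit 60) (nat_lit 82)) (PT.nd (nat_lit 94) (PT.lf (nat_lit 27048) (nat_lit 6) (nat_lit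 322) (nat_lit 5) (nat_lit 39) (nat_lit 60) (nat_lit 81)) (PT.lf (nat_lit 28812) (nat_lit 6) (nat_lit 343) (nat_lit 5) (nat_lit 40) (nat_lit 60) (nat_lit 80)))) (PT.nd (nat_lit 94) (PT.lf (nat_lit 30492) (nat_lit 6) (nat_lit 363) (nat_lit 5) (nat_lit 41) (nat_lit 60) (nat_lit 79)) (PT.nd (nat_lit 94) (PT.lf (nat_lit 32088) (nat_lit 6) (nat_lit 382) (nat_lit 5) (nat_lit 42) (nat_lit 60) (nat_lit 78)) (PT.lf (nat_lit 33600) (nat_lit 6) (nat_lit 400) (nat_lit 5) (nat_lit 43) (nat_lit 60) (nat_lit 77))))))) (PT.nd (nat_lit 1128) (PT.nd (nat_lit 564) (PT.nd (nat_lit 282) (PT.nd (nat_lit 94) (PT.lf (nat_lit 35028) (nat_lit 6) (nat_lit 417) (nat_lit 5) (nat_lit 44) (nat_lit 60) (nat_lit 76)) (PT.nd (nat_lit 94) (PT.lf (nat_lit 36372) (nat_lit 6) (nat_lit 433) (nat_lit 5) (nat_lit 45) (nat_lit 60) (nat_lit 75)) (PT.lf (nat_lit 37632) (nat_lit 6) (nat_lit 448) (nat_lit 5) (nat_lit 46) (nat_lit 60) (nat_lit 74))))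 (PT.nd (nat_lit 94) (PT.lf (nat_lit 38808) (nat_lit 6) (nat_lit 462) (nat_lit 5) (nat_lit 47) (nat_lit 60) (nat_lit 73)) (PT.nd (nat_lit 94) (PT.lf (nat_lit 39900) (nat_lit 6) (nat_lit 475) (nat_lit 5) (nat_lit 48) (nat_lit 60) (nat_lit 72)) (PT.lf (nat_lit 40908) (nat_lit 6) (nat_lit 487) (nat_lit 5) (nat_lit 49) (nat_lit 60) (nat_lit 71))))) (PT.nd (nat_lit 282) (PT.nd (nat_lit 94) (PT.lf (nat_lit 41832) (nat_lit 6) (nat_lit 498) (nat_lit 5) (nat_lit 50) (nat_lit 60) (nat_lit 70)) (PT.nd (nat_lit 94) (PT.lf (nat_lit 42672) (nat_lit 6) (nat_lit 508) (nat_lit 5) (nat_lit 51) (nat_lit 60) (nat_lit 69)) (PT.lf (nat_lit 43428) (nat_lit 6) (nat_lit 517) (nat_lit 5) (nat_lit 52) (nat_lit 60) (nat_lit 68)))) (PT.nd (nat_lit 94) (PT.lf (nat_lit 44100) (nat_lit 6) (nat_lit 525) (nat_lit 5) (nat_lit 53) (nat_lit 60) (nat_lit 67)) (PT.nd (nat_lit 94) (PT.lf (nat_lit 44688) (nat_lit 6) (nat_lit 532) (nat_lit 5)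 (nat_lit 54) (nat_lit 60) (nat_lit 66)) (PT.lf (nat_lit 45192) (nat_lit 6) (nat_lit 538) (nat_lit 5) (nat_lit 55) (nat_lit 60) (nat_lit 65)))))) (PT.nd (nat_lit 564) (PT.nd (nat_lit 282) (PT.nd (nat_lit 94) (PT.lf (nat_lit 45612) (nat_lit 6) (nat_lit 543) (nat_lit 5) (nat_lit 56) (nat_lit 60) (nat_lit 64)) (PT.nd (nat_lit 94) (PT.lf (nat_lit 45948) (nat_lit 6) (nat_lit 547) (nat_lit 5) (nat_lit 57) (nat_lit 60) (nat_lit 63)) (PT.lf (nat_lit 46200) (nat_lit 6) (nat_lit 550) (nat_lit 5) (nat_lit 58) (nat_lit 60) (nat_lit 62)))) (PT.nd (nat_lit 94) (PT.lf (nat_lit 46368) (nat_lit 6) (nat_lit 552) (nat_lit 5) (nat_lit 59) (nat_lit 60) (nat_lit 61)) (PT.nd (nat_lit 94) (PT.lf (nat_lit 46452) (nat_lit 1) (nat_lit 553) (nat_lit 0) (nat_lit 60) (nat_lit 60) (nat_lit 60)) (PT.lf (nat_lit 46368) (nat_lit 6) (nat_lit 552) (nat_lit 0) (nat_lit 61) (nat_lit 60) (nat_lit 59))))) (PT.nd (nat_lit 282) (PT.nd (nat_lit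 94) (PT.lf (nat_lit 46200) (nat_lit 6) (nat_lit 550) (nat_lit 0) (nat_lit 62) (nat_lit 60) (nat_lit 58)) (PT.nd (nat_lit 94) (PT.lf (nat_lit 45948) (nat_lit 6) (nat_lit 547) (nat_lit 0) (nat_lit 63) (nat_lit 60) (nat_lit 57)) (PT.lf (nat_lit 45612) (nat_lit 6) (nat_lit 543) (nat_lit 0) (nat_lit 64) (nat_lit 60) (nat_lit 56)))) (PT.nd (nat_lit 94) (PT.lf (nat_lit 45192) (nat_lit 6) (nat_lit 538) (nat_lit 0) (nat_lit 65) (nat_lit 60) (nat_lit 55)) (PT.nd (nat_lit 94) (PT.lf (nat_lit 44688) (nat_lit 6) (nat_lit 532) (nat_lit 0) (nat_lit 66) (nat_lit 60) (nat_lit 54)) (PT.lf (nat_lit 44100) (nat_lit 6) (nat_lit 525) (nat_lit 0) (nat_lit 67) (nat_lit 60) (nat_lit 53))))))))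
noncomputable def pc27 : PT := (PT.nd (nat_lit 42864) (PT.nd (nat_lit 1034) (PT.nd (nat_lit 470) (PT.nd (nat_lit 188) (PT.nd (nat_lit 94) (PT.lf (nat_lit 43428) (nat_lit 6) (nat_lit 517) (nat_lit 0) (nat_lit 68) (nat_lit 60) (nat_lit 52)) (PT.lf (nat_lit 42672) (nat_lit 6) (nat_lit 508) (nat_lit 0) (nat_lit 69) (nat_lit 60) (nat_lit 51))) (PT.nd (nat_lit 94) (PT.lf (nat_lit 41832) (nat_lit 6) (nat_lit 498) (nat_lit 0) (nat_lit 70) (nat_lit 60) (nat_lit 50)) (PT.nd (nat_lit 94) (PT.lf (nat_lit 40908) (nat_lit 6) (nat_lit 487) (nat_lit 0) (nat_lit 71) (nat_lit 60) (nat_lit 49)) (PT.lf (nat_lit 39900) (nat_lit 6) (nat_lit 475) (nat_lit 0) (nat_lit 72) (nat_lit 60) (nat_lit 48))))) (PT.nd (nat_lit 282) (PT.nd (nat_lit 94) (PT.lf (nat_lit 38808) (nat_lit 6) (nat_lit 462) (nat_lit 0) (nat_lit 73) (nat_lit 60) (nat_lit 47)) (PT.nd (nat_lit 94) (PT.lf (nat_lit 37632) (nat_lit 6) (nat_lit 448) (nat_lit 0) (nat_lit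 74) (nat_lit 60) (nat_lit 46)) (PT.lf (nat_lit 36372) (nat_lit 6) (nat_lit 433) (nat_lit 0) (nat_lit 75) (nat_lit 60) (nat_lit 45)))) (PT.nd (nat_lit 94) (PT.lf (nat_lit 35028) (nat_lit 6) (nat_lit 417) (nat_lit 0) (nat_lit 76) (nat_lit 60) (nat_lit 44)) (PT.nd (nat_lit 94) (PT.lf (nat_lit 33600) (nat_lit 6) (nat_lit 400) (nat_lit 0) (nat_lit 77) (nat_lit 60) (nat_lit 43)) (PT.lf (nat_lit 32088) (nat_lit 6) (nat_lit 382) (nat_lit 0) (nat_lit 78) (nat_lit 60) (nat_lit 42)))))) (PT.nd (nat_lit 41266) (PT.nd (nat_lit 282) (PT.nd (nat_lit 94) (PT.lf (nat_lit 30492) (nat_lit 6) (nat_lit 363) (nat_lit 0) (nat_lit 79) (nat_lit 60) (nat_lit 41)) (PT.nd (nat_lit 94) (PT.lf (nat_lit 28812) (nat_lit 6) (nat_lit 343) (nat_lit 0) (nat_lit 80) (nat_lit 60) (nat_lit 40)) (PT.lf (nat_lit 27048) (nat_lit 6) (nat_lit 322) (nat_lit 0) (nat_lit 81) (nat_lit 60) (nat_lit 39)))) (PT.nd (nat_lit 94) (PT.lf (nat_lit 25200)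 (nat_lit 6) (nat_lit 300) (nat_lit 0) (nat_lit 82) (nat_lit 60) (nat_lit 38)) (PT.nd (nat_lit 40796) (PT.lf (nat_lit 23268) (nat_lit 6) (nat_lit 277) (nat_lit 0) (nat_lit 83) (nat_lit 60) (nat_lit 37)) (PT.lf (nat_lit 22176) (nat_lit 6) (nat_lit 264) (nat_lit 5) (nat_lit 36) (nat_lit 61) (nat_lit 83))))) (PT.nd (nat_lit 282) (PT.nd (nat_lit 94) (PT.lf (nat_lit 23352) (nat_lit 6) (nat_lit 278) (nat_lit 5) (nat_lit 37) (nat_lit 61) (nat_lit 82)) (PT.nd (nat_lit 94) (PT.lf (nat_lit 25284) (nat_lit 6) (nat_lit 301) (nat_lit 5) (nat_lit 38) (nat_lit 61) (nat_lit 81)) (PT.lf (nat_lit 27132) (nat_lit 6) (nat_lit 323) (nat_lit 5) (nat_lit 39) (nat_lit 61) (nat_lit 80)))) (PT.nd (nat_lit 94) (PT.lf (nat_lit 28896) (nat_lit 6) (nat_lit 344) (nat_lit 5) (nat_lit 40) (nat_lit 61) (nat_lit 79)) (PT.nd (nat_lit 94) (PT.lf (nat_lit 30576) (nat_lit 6) (nat_lit 364) (nat_lit 5) (nat_lit 41) (nat_lit 61) (nat_lit 78))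 (PT.lf (nat_lit 32172) (nat_lit 6) (nat_lit 383) (nat_lit 5) (nat_lit 42) (nat_lit 61) (nat_lit 77))))))) (PT.nd (nat_lit 1128) (PT.nd (nat_lit 564) (PT.nd (nat_lit 282) (PT.nd (nat_lit 94) (PT.lf (nat_lit 33684) (nat_lit 6) (nat_lit 401) (nat_lit 5) (nat_lit 43) (nat_lit 61) (nat_lit 76)) (PT.nd (nat_lit 94) (PT.lf (nat_lit 35112) (nat_lit 6) (nat_lit 418) (nat_lit 5) (nat_lit 44) (nat_lit 61) (nat_lit 75)) (PT.lf (nat_lit 36456) (nat_lit 6) (nat_lit 434) (nat_lit 5) (nat_lit 45) (nat_lit 61) (nat_lit 74)))) (PT.nd (nat_lit 94) (PT.lf (nat_lit 37716) (nat_lit 6) (nat_lit 449) (nat_lit 5) (nat_lit 46) (nat_lit 61) (nat_lit 73)) (PT.nd (nat_lit 94) (PT.lf (nat_lit 38892) (nat_lit 6) (nat_lit 463) (nat_lit 5) (nat_lit 47) (nat_lit 61) (nat_lit 72)) (PT.lf (nat_lit 39984) (nat_lit 6) (nat_lit 476) (nat_lit 5) (nat_lit 48) (nat_lit 61) (nat_lit 71))))) (PT.nd (nat_lit 282) (PT.nd (nat_lit 94) (PT.lf (nat_lit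 40992) (nat_lit 6) (nat_lit 488) (nat_lit 5) (nat_lit 49) (nat_lit 61) (nat_lit 70)) (PT.nd (nat_lit 94) (PT.lf (nat_lit 41916) (nat_lit 6) (nat_lit 499) (nat_lit 5) (nat_lit 50) (nat_lit 61) (nat_lit 69)) (PT.lf (nat_lit 42756) (nat_lit 6) (nat_lit 509) (nat_lit 5) (nat_lit 51) (nat_lit 61) (nat_lit 68)))) (PT.nd (nat_lit 94) (PT.lf (nat_lit 43512) (nat_lit 6) (nat_lit 518) (nat_lit 5) (nat_lit 52) (nat_lit 61) (nat_lit 67)) (PT.nd (nat_lit 94) (PT.lf (nat_lit 44184) (nat_lit 6) (nat_lit 526) (nat_lit 5) (nat_lit 53) (nat_lit 61) (nat_lit 66)) (PT.lf (nat_lit 44772) (nat_lit 6) (nat_lit 533) (nat_lit 5) (nat_lit 54) (nat_lit 61) (nat_lit 65)))))) (PT.nd (nat_lit 564) (PT.nd (nat_lit 282) (PT.nd (nat_lit 94) (PT.lf (nat_lit 45276) (nat_lit 6) (nat_lit 539) (nat_lit 5) (nat_lit 55) (nat_lit 61) (nat_lit 64)) (PT.nd (nat_lit 94) (PT.lf (nat_lit 45696) (nat_lit 6) (nat_lit 544) (nat_lit 5) (nat_lit 56)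 (nat_lit 61) (nat_lit 63)) (PT.lf (nat_lit 46032) (nat_lit 6) (nat_lit 548) (nat_lit 5) (nat_lit 57) (nat_lit 61) (nat_lit 62)))) (PT.nd (nat_lit 94) (PT.lf (nat_lit 46284) (nat_lit 3) (nat_lit 551) (nat_lit 4) (nat_lit 58) (nat_lit 61) (nat_lit 61)) (PT.nd (nat_lit 94) (PT.lf (nat_lit 46368) (nat_lit 6) (nat_lit 552) (nat_lit 4) (nat_lit 59) (nat_lit 61) (nat_lit 60)) (PT.lf (nat_lit 46368) (nat_lit 6) (nat_lit 552) (nat_lit 2) (nat_lit 60) (nat_lit 61) (nat_lit 59))))) (PT.nd (nat_lit 282) (PT.nd (nat_lit 94) (PT.lf (nat_lit 46284) (nat_lit 3) (nat_lit 551) (nat_lit 0) (nat_lit 61) (nat_lit 61) (nat_lit 58)) (PT.nd (nat_lit 94) (PT.lf (nat_lit 46032) (nat_lit 6) (nat_lit 548) (nat_lit 0) (nat_lit 62) (nat_lit 61) (nat_lit 57)) (PT.lf (nat_lit 45696) (nat_lit 6) (nat_lit 544) (nat_lit 0) (nat_lit 63) (nat_lit 61) (nat_lit 56)))) (PT.nd (nat_lit 94) (PT.lf (nat_lit 45276) (nat_lit 6) (nat_lit 539) (nat_lit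 0) (nat_lit 64) (nat_lit 61) (nat_lit 55)) (PT.nd (nat_lit 94) (PT.lf (nat_lit 44772) (nat_lit 6) (nat_lit 533) (nat_lit 0) (nat_lit 65) (nat_lit 61) (nat_lit 54)) (PT.lf (nat_lit 44184) (nat_lit 6) (nat_lit 526) (nat_lit 0) (nat_lit 66) (nat_lit 61) (nat_lit 53))))))))
noncomputable def pc28 : PT := (PT.nd (nat_lit 42770) (PT.nd (nat_lit 1034) (PT.nd (nat_lit 470) (PT.nd (nat_lit 188) (PT.nd (nat_lit 94) (PT.lf (nat_lit 43512) (nat_lit 6) (nat_lit 518) (nat_lit 0) (nat_lit 67) (nat_lit 61) (nat_lit 52)) (PT.lf (nat_lit 42756) (nat_lit 6) (nat_lit 509) (nat_lit 0) (nat_lit 68) (nat_lit 61) (nat_lit 51))) (PT.nd (nat_lit 94) (PT.lf (nat_lit 41916) (nat_lit 6) (nat_lit 499) (nat_lit 0) (nat_lit 69) (nat_lit 61) (nat_lit 50)) (PT.nd (nat_lit 94) (PT.lf (nat_lit 40992) (nat_lit 6) (nat_lit 488) (nat_lit 0) (nat_lit 70) (nat_lit 61) (nat_lit 49)) (PT.lf (nat_lit 39984) (nat_lit 6) (nat_lit 476) (nat_lit 0)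 (nat_lit 71) (nat_lit 61) (nat_lit 48))))) (PT.nd (nat_lit 282) (PT.nd (nat_lit 94) (PT.lf (nat_lit 38892) (nat_lit 6) (nat_lit 463) (nat_lit 0) (nat_lit 72) (nat_lit 61) (nat_lit 47)) (PT.nd (nat_lit 94) (PT.lf (nat_lit 37716) (nat_lit 6) (nat_lit 449) (nat_lit 0) (nat_lit 73) (nat_lit 61) (nat_lit 46)) (PT.lf (nat_lit 36456) (nat_lit 6) (nat_lit 434) (nat_lit 0) (nat_lit 74) (nat_lit 61) (nat_lit 45)))) (PT.nd (nat_lit 94) (PT.lf (nat_lit 35112) (nat_lit 6) (nat_lit 418) (nat_lit 0) (nat_lit 75) (nat_lit 61) (nat_lit 44)) (PT.nd (nat_lit 94) (PT.lf (nat_lit 33684) (nat_lit 6) (nat_lit 401) (nat_lit 0) (nat_lit 76) (nat_lit 61) (nat_lit 43)) (PT.lf (nat_lit 32172) (nat_lit 6) (nat_lit 383) (nat_lit 0) (nat_lit 77) (nat_lit 61) (nat_lit 42)))))) (PT.nd (nat_lit 41172) (PT.nd (nat_lit 282) (PT.nd (nat_lit 94) (PT.lf (nat_lit 30576) (nat_lit 6) (nat_lit 364) (nat_lit 0) (nat_lit 78) (nat_lit 61) (nat_lit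 41)) (PT.nd (nat_lit 94) (PT.lf (nat_lit 28896) (nat_lit 6) (nat_lit 344) (nat_lit 0) (nat_lit 79) (nat_lit 61) (nat_lit 40)) (PT.lf (nat_lit 27132) (nat_lit 6) (nat_lit 323) (nat_lit 0) (nat_lit 80) (nat_lit 61) (nat_lit 39)))) (PT.nd (nat_lit 94) (PT.lf (nat_lit 25284) (nat_lit 6) (nat_lit 301) (nat_lit 0) (nat_lit 81) (nat_lit 61) (nat_lit 38)) (PT.nd (nat_lit 94) (PT.lf (nat_lit 23352) (nat_lit 6) (nat_lit 278) (nat_lit 0) (nat_lit 82) (nat_lit 61) (nat_lit 37)) (PT.lf (nat_lit 22176) (nat_lit 6) (nat_lit 264) (nat_lit 0) (nat_lit 83) (nat_lit 61) (nat_lit 36))))) (PT.nd (nat_lit 282) (PT.nd (nat_lit 94) (PT.lf (nat_lit 21252) (nat_lit 6) (nat_lit 253) (nat_lit 5) (nat_lit 35) (nat_lit 62) (nat_lit 83)) (PT.nd (nat_lit 94) (PT.lf (nat_lit 22260) (nat_lit 6) (nat_lit 265) (nat_lit 5) (nat_lit 36) (nat_lit 62) (nat_lit 82)) (PT.lf (nat_lit 23436) (nat_lit 6) (nat_lit 279) (nat_lit 5) (nat_lit 37) (nat_lit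 62) (nat_lit 81)))) (PT.nd (nat_lit 94) (PT.lf (nat_lit 25368) (nat_lit 6) (nat_lit 302) (nat_lit 5) (nat_lit 38) (nat_lit 62) (nat_lit 80)) (PT.nd (nat_lit 94) (PT.lf (nat_lit 27216) (nat_lit 6) (nat_lit 324) (nat_lit 5) (nat_lit 39) (nat_lit 62) (nat_lit 79)) (PT.lf (nat_lit 28980) (nat_lit 6) (nat_lit 345) (nat_lit 5) (nat_lit 40) (nat_lit 62) (nat_lit 78))))))) (PT.nd (nat_lit 1034) (PT.nd (nat_lit 470) (PT.nd (nat_lit 188) (PT.nd (nat_lit 94) (PT.lf (nat_lit 30660) (nat_lit 6) (nat_lit 365) (nat_lit 5) (nat_lit 41) (nat_lit 62) (nat_lit 77)) (PT.lf (nat_lit 32256) (nat_lit 6) (nat_lit 384) (nat_lit 5) (nat_lit 42) (nat_lit 62) (nat_lit 76))) (PT.nd (nat_lit 94) (PT.lf (nat_lit 33768) (nat_lit 6) (nat_lit 402) (nat_lit 5) (nat_lit 43) (nat_lit 62) (nat_lit 75)) (PT.nd (nat_lit 94) (PT.lf (nat_lit 35196) (nat_lit 6) (nat_lit 419) (nat_lit 5) (nat_lit 44) (nat_lit 62) (nat_lit 74)) (PT.lf (nat_lit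 36540) (nat_lit 6) (nat_lit 435) (nat_lit 5) (nat_lit 45) (nat_lit 62) (nat_lit 73))))) (PT.nd (nat_lit 282) (PT.nd (nat_lit 94) (PT.lf (nat_lit 37800) (nat_lit 6) (nat_lit 450) (nat_lit 5) (nat_lit 46) (nat_lit 62) (nat_lit 72)) (PT.nd (nat_lit 94) (PT.lf (nat_lit 38976) (nat_lit 6) (nat_lit 464) (nat_lit 5) (nat_lit 47) (nat_lit 62) (nat_lit 71)) (PT.lf (nat_lit 40068) (nat_lit 6) (nat_lit 477) (nat_lit 5) (nat_lit 48) (nat_lit 62) (nat_lit 70)))) (PT.nd (nat_lit 94) (PT.lf (nat_lit 41076) (nat_lit 6) (nat_lit 489) (nat_lit 5) (nat_lit 49) (nat_lit 62) (nat_lit 69)) (PT.nd (nat_lit 94) (PT.lf (nat_lit 42000) (nat_lit 6) (nat_lit 500) (nat_lit 5) (nat_lit 50) (nat_lit 62) (nat_lit 68)) (PT.lf (nat_lit 42840) (nat_lit 6) (nat_lit 510) (nat_lit 5) (nat_lit 51) (nat_lit 62) (nat_lit 67)))))) (PT.nd (nat_lit 564) (PT.nd (nat_lit 282) (PT.nd (nat_lit 94) (PT.lf (nat_lit 43596) (nat_lit 6) (nat_lit 519) (nat_lit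 5) (nat_lit 52) (nat_lit 62) (nat_lit 66)) (PT.nd (nat_lit 94) (PT.lf (nat_lit 44268) (nat_lit 6) (nat_lit 527) (nat_lit 5) (nat_lit 53) (nat_lit 62) (nat_lit 65)) (PT.lf (nat_lit 44856) (nat_lit 6) (nat_lit 534) (nat_lit 5) (nat_lit 54) (nat_lit 62) (nat_lit 64)))) (PT.nd (nat_lit 94) (PT.lf (nat_lit 45360) (nat_lit 6) (nat_lit 540) (nat_lit 5) (nat_lit 55) (nat_lit 62) (nat_lit 63)) (PT.nd (nat_lit 94) (PT.lf (nat_lit 45780) (nat_lit 3) (nat_lit 545) (nat_lit 4) (nat_lit 56) (nat_lit 62) (nat_lit 62)) (PT.lf (nat_lit 46032) (nat_lit 6) (nat_lit 548) (nat_lit 4) (nat_lit 57) (nat_lit 62) (nat_lit 61))))) (PT.nd (nat_lit 282) (PT.nd (nat_lit 94) (PT.lf (nat_lit 46200) (nat_lit 6) (nat_lit 550) (nat_lit 4) (nat_lit 58) (nat_lit 62) (nat_lit 60)) (PT.nd (nat_lit 94) (PT.lf (nat_lit 46116) (nat_lit 3) (nat_lit 549) (nat_lit 2) (nat_lit 59) (nat_lit 62) (nat_lit 59)) (PT.lf (nat_lit 46200) (nat_lit 6) (nat_lit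 550) (nat_lit 2) (nat_lit 60) (nat_lit 62) (nat_lit 58)))) (PT.nd (nat_lit 94) (PT.lf (nat_lit 46032) (nat_lit 6) (nat_lit 548) (nat_lit 2) (nat_lit 61) (nat_lit 62) (nat_lit 57)) (PT.nd (nat_lit 94) (PT.lf (nat_lit 45780) (nat_lit 3) (nat_lit 545) (nat_lit 0) (nat_lit 62) (nat_lit 62) (nat_lit 56)) (PT.lf (nat_lit 45360) (nat_lit 6) (nat_lit 540) (nat_lit 0) (nat_lit 63) (nat_lit 62) (nat_lit 55))))))))
noncomputable def pc29 : PT := (PT.nd (nat_lit 42676) (PT.nd (nat_lit 1034) (PT.nd (nat_lit 470) (PT.nd (nat_lit 188) (PT.nd (nat_lit 94) (PT.lf (nat_lit 44856) (nat_lit 6) (nat_lit 534) (nat_lit 0) (nat_lit 64) (nat_lit 62) (nat_lit 54)) (PT.lf (nat_lit 44268) (nat_lit 6) (nat_lit 527) (nat_lit 0) (nat_lit 65) (nat_lit 62) (nat_lit 53))) (PT.nd (nat_lit 94) (PT.lf (nat_lit 43596) (nat_lit 6) (nat_lit 519) (nat_lit 0) (nat_lit 66) (nat_lit 62) (nat_lit 52)) (PT.nd (nat_lit 94) (PT.lf (nat_lit 42840)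 (nat_lit 6) (nat_lit 510) (nat_lit 0) (nat_lit 67) (nat_lit 62) (nat_lit 51)) (PT.lf (nat_lit 42000) (nat_lit 6) (nat_lit 500) (nat_lit 0) (nat_lit 68) (nat_lit 62) (nat_lit 50))))) (PT.nd (nat_lit 282) (PT.nd (nat_lit 94) (PT.lf (nat_lit 41076) (nat_lit 6) (nat_lit 489) (nat_lit 0) (nat_lit 69) (nat_lit 62) (nat_lit 49)) (PT.nd (nat_lit 94) (PT.lf (nat_lit 40068) (nat_lit 6) (nat_lit 477) (nat_lit 0) (nat_lit 70) (nat_lit 62) (nat_lit 48)) (PT.lf (nat_lit 38976) (nat_lit 6) (nat_lit 464) (nat_lit 0) (nat_lit 71) (nat_lit 62) (nat_lit 47)))) (PT.nd (nat_lit 94) (PT.lf (nat_lit 37800) (nat_lit 6) (nat_lit 450) (nat_lit 0) (nat_lit 72) (nat_lit 62) (nat_lit 46)) (PT.nd (nat_lit 94) (PT.lf (nat_lit 36540) (nat_lit 6) (nat_lit 435) (nat_lit 0) (nat_lit 73) (nat_lit 62) (nat_lit 45)) (PT.lf (nat_lit 35196) (nat_lit 6) (nat_lit 419) (nat_lit 0) (nat_lit 74) (nat_lit 62) (nat_lit 44)))))) (PT.nd (nat_lit 564)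 (PT.nd (nat_lit 282) (PT.nd (nat_lit 94) (PT.lf (nat_lit 33768) (nat_lit 6) (nat_lit 402) (nat_lit 0) (nat_lit 75) (nat_lit 62) (nat_lit 43)) (PT.nd (nat_lit 94) (PT.lf (nat_lit 32256) (nat_lit 6) (nat_lit 384) (nat_lit 0) (nat_lit 76) (nat_lit 62) (nat_lit 42)) (PT.lf (nat_lit 30660) (nat_lit 6) (nat_lit 365) (nat_lit 0) (nat_lit 77) (nat_lit 62) (nat_lit 41)))) (PT.nd (nat_lit 94) (PT.lf (nat_lit 28980) (nat_lit 6) (nat_lit 345) (nat_lit 0) (nat_lit 78) (nat_lit 62) (nat_lit 40)) (PT.nd (nat_lit 94) (PT.lf (nat_lit 27216) (nat_lit 6) (nat_lit 324) (nat_lit 0) (nat_lit 79) (nat_lit 62) (nat_lit 39)) (PT.lf (nat_lit 25368) (nat_lit 6) (nat_lit 302) (nat_lit 0) (nat_lit 80) (nat_lit 62) (nat_lit 38))))) (PT.nd (nat_lit 40796) (PT.nd (nat_lit 94) (PT.lf (nat_lit 23436) (nat_lit 6) (nat_lit 279) (nat_lit 0) (nat_lit 81) (nat_lit 62) (nat_lit 37)) (PT.nd (nat_lit 94) (PT.lf (nat_lit 22260) (nat_lit 6) (nat_lit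 265) (nat_lit 0) (nat_lit 82) (nat_lit 62) (nat_lit 36)) (PT.lf (nat_lit 21252) (nat_lit 6) (nat_lit 253) (nat_lit 0) (nat_lit 83) (nat_lit 62) (nat_lit 35)))) (PT.nd (nat_lit 94) (PT.lf (nat_lit 20328) (nat_lit 6) (nat_lit 242) (nat_lit 5) (nat_lit 34) (nat_lit 63) (nat_lit 83)) (PT.nd (nat_lit 94) (PT.lf (nat_lit 21336) (nat_lit 6) (nat_lit 254) (nat_lit 5) (nat_lit 35) (nat_lit 63) (nat_lit 82)) (PT.lf (nat_lit 22344) (nat_lit 6) (nat_lit 266) (nat_lit 5) (nat_lit 36) (nat_lit 63) (nat_lit 81))))))) (PT.nd (nat_lit 1128) (PT.nd (nat_lit 564) (PT.nd (nat_lit 282) (PT.nd (nat_lit 94) (PT.lf (nat_lit 23520) (nat_lit 6) (nat_lit 280) (nat_lit 5) (nat_lit 37) (nat_lit 63) (nat_lit 80)) (PT.nd (nat_lit 94) (PT.lf (nat_lit 25452) (nat_lit 6) (nat_lit 303) (nat_lit 5) (nat_lit 38) (nat_lit 63) (nat_lit 79)) (PT.lf (nat_lit 27300) (nat_lit 6) (nat_lit 325) (nat_lit 5) (nat_lit 39) (nat_lit 63) (nat_lit 78))))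 (PT.nd (nat_lit 94) (PT.lf (nat_lit 29064) (nat_lit 6) (nat_lit 346) (nat_lit 5) (nat_lit 40) (nat_lit 63) (nat_lit 77)) (PT.nd (nat_lit 94) (PT.lf (nat_lit 30744) (nat_lit 6) (nat_lit 366) (nat_lit 5) (nat_lit 41) (nat_lit 63) (nat_lit 76)) (PT.lf (nat_lit 32340) (nat_lit 6) (nat_lit 385) (nat_lit 5) (nat_lit 42) (nat_lit 63) (nat_lit 75))))) (PT.nd (nat_lit 282) (PT.nd (nat_lit 94) (PT.lf (nat_lit 33852) (nat_lit 6) (nat_lit 403) (nat_lit 5) (nat_lit 43) (nat_lit 63) (nat_lit 74)) (PT.nd (nat_lit 94) (PT.lf (nat_lit 35280) (nat_lit 6) (nat_lit 420) (nat_lit 5) (nat_lit 44) (nat_lit 63) (nat_lit 73)) (PT.lf (nat_lit 36624) (nat_lit 6) (nat_lit 436) (nat_lit 5) (nat_lit 45) (nat_lit 63) (nat_lit 72)))) (PT.nd (nat_lit 94) (PT.lf (nat_lit 37884) (nat_lit 6) (nat_lit 451) (nat_lit 5) (nat_lit 46) (nat_lit 63) (nat_lit 71)) (PT.nd (nat_lit 94) (PT.lf (nat_lit 39060) (nat_lit 6) (nat_lit 465) (nat_lit 5)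 (nat_lit 47) (nat_lit 63) (nat_lit 70)) (PT.lf (nat_lit 40152) (nat_lit 6) (nat_lit 478) (nat_lit 5) (nat_lit 48) (nat_lit 63) (nat_lit 69)))))) (PT.nd (nat_lit 564) (PT.nd (nat_lit 282) (PT.nd (nat_lit 94) (PT.lf (nat_lit 41160) (nat_lit 6) (nat_lit 490) (nat_lit 5) (nat_lit 49) (nat_lit 63) (nat_lit 68)) (PT.nd (nat_lit 94) (PT.lf (nat_lit 42084) (nat_lit 6) (nat_lit 501) (nat_lit 5) (nat_lit 50) (nat_lit 63) (nat_lit 67)) (PT.lf (nat_lit 42924) (nat_lit 6) (nat_lit 511) (nat_lit 5) (nat_lit 51) (nat_lit 63) (nat_lit 66)))) (PT.nd (nat_lit 94) (PT.lf (nat_lit 43680) (nat_lit 6) (nat_lit 520) (nat_lit 5) (nat_lit 52) (nat_lit 63) (nat_lit 65)) (PT.nd (nat_lit 94) (PT.lf (nat_lit 44352) (nat_lit 6) (nat_lit 528) (nat_lit 5) (nat_lit 53) (nat_lit 63) (nat_lit 64)) (PT.lf (nat_lit 44940) (nat_lit 3) (nat_lit 535) (nat_lit 4) (nat_lit 54) (nat_lit 63) (nat_lit 63))))) (PT.nd (nat_lit 282) (PT.nd (nat_lit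 94) (PT.lf (nat_lit 45360) (nat_lit 6) (nat_lit 540) (nat_lit 4) (nat_lit 55) (nat_lit 63) (nat_lit 62)) (PT.nd (nat_lit 94) (PT.lf (nat_lit 45696) (nat_lit 6) (nat_lit 544) (nat_lit 4) (nat_lit 56) (nat_lit 63) (nat_lit 61)) (PT.lf (nat_lit 45948) (nat_lit 6) (nat_lit 547) (nat_lit 4) (nat_lit 57) (nat_lit 63) (nat_lit 60)))) (PT.nd (nat_lit 94) (PT.lf (nat_lit 45864) (nat_lit 6) (nat_lit 546) (nat_lit 4) (nat_lit 58) (nat_lit 63) (nat_lit 59)) (PT.nd (nat_lit 94) (PT.lf (nat_lit 45864) (nat_lit 6) (nat_lit 546) (nat_lit 2) (nat_lit 59) (nat_lit 63) (nat_lit 58)) (PT.lf (nat_lit 45948) (nat_lit 6) (nat_lit 547) (nat_lit 2) (nat_lit 60) (nat_lit 63) (nat_lit 57))))))))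
noncomputable def pc30 : PT := (PT.nd (nat_lit 42488) (PT.nd (nat_lit 1034) (PT.nd (nat_lit 470) (PT.nd (nat_lit 188) (PT.nd (nat_lit 94) (PT.lf (nat_lit 45696) (nat_lit 6) (nat_lit 544) (nat_lit 2) (nat_lit 61) (nat_lit 63) (nat_lit 56)) (PT.lf (nat_lit 45360) (nat_lit 6) (nat_lit 540) (nat_lit 2) (nat_lit 62) (nat_lit 63) (nat_lit 55))) (PT.nd (nat_lit 94) (PT.lf (nat_lit 44940) (nat_lit 3) (nat_lit 535) (nat_lit 0) (nat_lit 63) (nat_lit 63) (nat_lit 54)) (PT.nd (nat_lit 94) (PT.lf (nat_lit 44352) (nat_lit 6) (nat_lit 528) (nat_lit 0) (nat_lit 64) (nat_lit 63) (nat_lit 53)) (PT.lf (nat_lit 43680) (nat_lit 6) (nat_lit 520) (nat_lit 0) (nat_lit 65) (nat_lit 63) (nat_lit 52))))) (PT.nd (nat_lit 282) (PT.nd (nat_lit 94) (PT.lf (nat_lit 42924) (nat_lit 6) (nat_lit 511) (nat_lit 0) (nat_lit 66) (nat_lit 63) (nat_lit 51)) (PT.nd (nat_lit 94) (PT.lf (nat_lit 42084) (nat_lit 6) (nat_lit 501) (nat_lit 0) (nat_lit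 67) (nat_lit 63) (nat_lit 50)) (PT.lf (nat_lit 41160) (nat_lit 6) (nat_lit 490) (nat_lit 0) (nat_lit 68) (nat_lit 63) (nat_lit 49)))) (PT.nd (nat_lit 94) (PT.lf (nat_lit 40152) (nat_lit 6) (nat_lit 478) (nat_lit 0) (nat_lit 69) (nat_lit 63) (nat_lit 48)) (PT.nd (nat_lit 94) (PT.lf (nat_lit 39060) (nat_lit 6) (nat_lit 465) (nat_lit 0) (nat_lit 70) (nat_lit 63) (nat_lit 47)) (PT.lf (nat_lit 37884) (nat_lit 6) (nat_lit 451) (nat_lit 0) (nat_lit 71) (nat_lit 63) (nat_lit 46)))))) (PT.nd (nat_lit 564) (PT.nd (nat_lit 282) (PT.nd (nat_lit 94) (PT.lf (nat_lit 36624) (nat_lit 6) (nat_lit 436) (nat_lit 0) (nat_lit 72) (nat_lit 63) (nat_lit 45)) (PT.nd (nat_lit 94) (PT.lf (nat_lit 35280) (nat_lit 6) (nat_lit 420) (nat_lit 0) (nat_lit 73) (nat_lit 63) (nat_lit 44)) (PT.lf (nat_lit 33852) (nat_lit 6) (nat_lit 403) (nat_lit 0) (nat_lit 74) (nat_lit 63) (nat_lit 43)))) (PT.nd (nat_lit 94) (PT.lf (nat_lit 32340) (nat_lit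 6) (nat_lit 385) (nat_lit 0) (nat_lit 75) (nat_lit 63) (nat_lit 42)) (PT.nd (nat_lit 94) (PT.lf (nat_lit 30744) (nat_lit 6) (nat_lit 366) (nat_lit 0) (nat_lit 76) (nat_lit 63) (nat_lit 41)) (PT.lf (nat_lit 29064) (nat_lit 6) (nat_lit 346) (nat_lit 0) (nat_lit 77) (nat_lit 63) (nat_lit 40))))) (PT.nd (nat_lit 282) (PT.nd (nat_lit 94) (PT.lf (nat_lit 27300) (nat_lit 6) (nat_lit 325) (nat_lit 0) (nat_lit 78) (nat_lit 63) (nat_lit 39)) (PT.nd (nat_lit 94) (PT.lf (nat_lit 25452) (nat_lit 6) (nat_lit 303) (nat_lit 0) (nat_lit 79) (nat_lit 63) (nat_lit 38)) (PT.lf (nat_lit 23520) (nat_lit 6) (nat_lit 280) (nat_lit 0) (nat_lit 80) (nat_lit 63) (nat_lit 37)))) (PT.nd (nat_lit 94) (PT.lf (nat_lit 22344) (nat_lit 6) (nat_lit 266) (nat_lit 0) (nat_lit 81) (nat_lit 63) (nat_lit 36)) (PT.nd (nat_lit 94) (PT.lf (nat_lit 21336) (nat_lit 6) (nat_lit 254) (nat_lit 0) (nat_lit 82) (nat_lit 63) (nat_lit 35)) (PT.lf (nat_lit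 20328) (nat_lit 6) (nat_lit 242) (nat_lit 0) (nat_lit 83) (nat_lit 63) (nat_lit 34))))))) (PT.nd (nat_lit 1128) (PT.nd (nat_lit 564) (PT.nd (nat_lit 282) (PT.nd (nat_lit 94) (PT.lf (nat_lit 18564) (nat_lit 6) (nat_lit 221) (nat_lit 5) (nat_lit 32) (nat_lit 64) (nat_lit 84)) (PT.nd (nat_lit 94) (PT.lf (nat_lit 19488) (nat_lit 6) (nat_lit 232) (nat_lit 5) (nat_lit 33) (nat_lit 64) (nat_lit 83)) (PT.lf (nat_lit 20412) (nat_lit 6) (nat_lit 243) (nat_lit 5) (nat_lit 34) (nat_lit 64) (nat_lit 82)))) (PT.nd (nat_lit 94) (PT.lf (nat_lit 21420) (nat_lit 6) (nat_lit 255) (nat_lit 5) (nat_lit 35) (nat_lit 64) (nat_lit 81)) (PT.nd (nat_lit 94) (PT.lf (nat_lit 22428) (nat_lit 6) (nat_lit 267) (nat_lit 5) (nat_lit 36) (nat_lit 64) (nat_lit 80)) (PT.lf (nat_lit 23604) (nat_lit 6) (nat_lit 281) (nat_lit 5) (nat_lit 37) (nat_lit 64) (nat_lit 79))))) (PT.nd (nat_lit 282) (PT.nd (nat_lit 94) (PT.lf (nat_lit 25536) (nat_lit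 6) (nat_lit 304) (nat_lit 5) (nat_lit 38) (nat_lit 64) (nat_lit 78)) (PT.nd (nat_lit 94) (PT.lf (nat_lit 27384) (nat_lit 6) (nat_lit 326) (nat_lit 5) (nat_lit 39) (nat_lit 64) (nat_lit 77)) (PT.lf (nat_lit 29148) (nat_lit 6) (nat_lit 347) (nat_lit 5) (nat_lit 40) (nat_lit 64) (nat_lit 76)))) (PT.nd (nat_lit 94) (PT.lf (nat_lit 30828) (nat_lit 6) (nat_lit 367) (nat_lit 5) (nat_lit 41) (nat_lit 64) (nat_lit 75)) (PT.nd (nat_lit 94) (PT.lf (nat_lit 32424) (nat_lit 6) (nat_lit 386) (nat_lit 5) (nat_lit 42) (nat_lit 64) (nat_lit 74)) (PT.lf (nat_lit 33936) (nat_lit 6) (nat_lit 404) (nat_lit 5) (nat_lit 43) (nat_lit 64) (nat_lit 73)))))) (PT.nd (nat_lit 564) (PT.nd (nat_lit 282) (PT.nd (nat_lit 94) (PT.lf (nat_lit 35364) (nat_lit 6) (nat_lit 421) (nat_lit 5) (nat_lit 44) (nat_lit 64) (nat_lit 72)) (PT.nd (nat_lit 94) (PT.lf (nat_lit 36708) (nat_lit 6) (nat_lit 437) (nat_lit 5) (nat_lit 45) (nat_lit 64) (nat_lit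 71)) (PT.lf (nat_lit 37968) (nat_lit 6) (nat_lit 452) (nat_lit 5) (nat_lit 46) (nat_lit 64) (nat_lit 70)))) (PT.nd (nat_lit 94) (PT.lf (nat_lit 39144) (nat_lit 6) (nat_lit 466) (nat_lit 5) (nat_lit 47) (nat_lit 64) (nat_lit 69)) (PT.nd (nat_lit 94) (PT.lf (nat_lit 40236) (nat_lit 6) (nat_lit 479) (nat_lit 5) (nat_lit 48) (nat_lit 64) (nat_lit 68)) (PT.lf (nat_lit 41244) (nat_lit 6) (nat_lit 491) (nat_lit 5) (nat_lit 49) (nat_lit 64) (nat_lit 67))))) (PT.nd (nat_lit 282) (PT.nd (nat_lit 94) (PT.lf (nat_lit 42168) (nat_lit 6) (nat_lit 502) (nat_lit 5) (nat_lit 50) (nat_lit 64) (nat_lit 66)) (PT.nd (nat_lit 94) (PT.lf (nat_lit 43008) (nat_lit 6) (nat_lit 512) (nat_lit 5) (nat_lit 51) (nat_lit 64) (nat_lit 65)) (PT.lf (nat_lit 43764) (nat_lit 3) (nat_lit 521) (nat_lit 4) (nat_lit 52) (nat_lit 64) (nat_lit 64)))) (PT.nd (nat_lit 94) (PT.lf (nat_lit 44352) (nat_lit 6) (nat_lit 528) (nat_lit 4) (nat_lit 53)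 (nat_lit 64) (nat_lit 63)) (PT.nd (nat_lit 94) (PT.lf (nat_lit 44856) (nat_lit 6) (nat_lit 534) (nat_lit 4) (nat_lit 54) (nat_lit 64) (nat_lit 62)) (PT.lf (nat_lit 45276) (nat_lit 6) (nat_lit 539) (nat_lit 4) (nat_lit 55) (nat_lit 64) (nat_lit 61))))))))
noncomputable def pc31 : PT := (PT.nd (nat_lit 2162) (PT.nd (nat_lit 1034) (PT.nd (nat_lit 470) (PT.nd (nat_lit 188) (PT.nd (nat_lit 94) (PT.lf (nat_lit 45612) (nat_lit 6) (nat_lit 543) (nat_lit 4) (nat_lit 56) (nat_lit 64) (nat_lit 60)) (PT.lf (nat_lit 45528) (nat_lit 6) (nat_lit 542) (nat_lit 4) (nat_lit 57) (nat_lit 64) (nat_lit 59))) (PT.nd (nat_lit 94) (PT.lf (nat_lit 45444) (nat_lit 3) (nat_lit 541) (nat_lit 2) (nat_lit 58) (nat_lit 64) (nat_lit 58)) (PT.nd (nat_lit 94) (PT.lf (nat_lit 45528) (nat_lit 6) (nat_lit 542) (nat_lit 2) (nat_lit 59) (nat_lit 64) (nat_lit 57)) (PT.lf (nat_lit 45612) (nat_lit 6) (nat_lit 543) (nat_lit 2) (nat_lit 60) (nat_lit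 64) (nat_lit 56))))) (PT.nd (nat_lit 282) (PT.nd (nat_lit 94) (PT.lf (nat_lit 45276) (nat_lit 6) (nat_lit 539) (nat_lit 2) (nat_lit 61) (nat_lit 64) (nat_lit 55)) (PT.nd (nat_lit 94) (PT.lf (nat_lit 44856) (nat_lit 6) (nat_lit 534) (nat_lit 2) (nat_lit 62) (nat_lit 64) (nat_lit 54)) (PT.lf (nat_lit 44352) (nat_lit 6) (nat_lit 528) (nat_lit 2) (nat_lit 63) (nat_lit 64) (nat_lit 53)))) (PT.nd (nat_lit 94) (PT.lf (nat_lit 43764) (nat_lit 3) (nat_lit 521) (nat_lit 0) (nat_lit 64) (nat_lit 64) (nat_lit 52)) (PT.nd (nat_lit 94) (PT.lf (nat_lit 43008) (nat_lit 6) (nat_lit 512) (nat_lit 0) (nat_lit 65) (nat_lit 64) (nat_lit 51)) (PT.lf (nat_lit 42168) (nat_lit 6) (nat_lit 502) (nat_lit 0) (nat_lit 66) (nat_lit 64) (nat_lit 50)))))) (PT.nd (nat_lit 564) (PT.nd (nat_lit 282) (PT.nd (nat_lit 94) (PT.lf (nat_lit 41244) (nat_lit 6) (nat_lit 491) (nat_lit 0) (nat_lit 67) (nat_lit 64) (nat_lit 49)) (PT.nd (nat_lit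 94) (PT.lf (nat_lit 40236) (nat_lit 6) (nat_lit 479) (nat_lit 0) (nat_lit 68) (nat_lit 64) (nat_lit 48)) (PT.lf (nat_lit 39144) (nat_lit 6) (nat_lit 466) (nat_lit 0) (nat_lit 69) (nat_lit 64) (nat_lit 47)))) (PT.nd (nat_lit 94) (PT.lf (nat_lit 37968) (nat_lit 6) (nat_lit 452) (nat_lit 0) (nat_lit 70) (nat_lit 64) (nat_lit 46)) (PT.nd (nat_lit 94) (PT.lf (nat_lit 36708) (nat_lit 6) (nat_lit 437) (nat_lit 0) (nat_lit 71) (nat_lit 64) (nat_lit 45)) (PT.lf (nat_lit 35364) (nat_lit 6) (nat_lit 421) (nat_lit 0) (nat_lit 72) (nat_lit 64) (nat_lit 44))))) (PT.nd (nat_lit 282) (PT.nd (nat_lit 94) (PT.lf (nat_lit 33936) (nat_lit 6) (nat_lit 404) (nat_lit 0) (nat_lit 73) (nat_lit 64) (nat_lit 43)) (PT.nd (nat_lit 94) (PT.lf (nat_lit 32424) (nat_lit 6) (nat_lit 386) (nat_lit 0) (nat_lit 74) (nat_lit 64) (nat_lit 42)) (PT.lf (nat_lit 30828) (nat_lit 6) (nat_lit 367) (nat_lit 0) (nat_lit 75) (nat_lit 64) (nat_lit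 41)))) (PT.nd (nat_lit 94) (PT.lf (nat_lit 29148) (nat_lit 6) (nat_lit 347) (nat_lit 0) (nat_lit 76) (nat_lit 64) (nat_lit 40)) (PT.nd (nat_lit 94) (PT.lf (nat_lit 27384) (nat_lit 6) (nat_lit 326) (nat_lit 0) (nat_lit 77) (nat_lit 64) (nat_lit 39)) (PT.lf (nat_lit 25536) (nat_lit 6) (nat_lit 304) (nat_lit 0) (nat_lit 78) (nat_lit 64) (nat_lit 38))))))) (PT.nd (nat_lit 41266) (PT.nd (nat_lit 40702) (PT.nd (nat_lit 282) (PT.nd (nat_lit 94) (PT.lf (nat_lit 23604) (nat_lit 6) (nat_lit 281) (nat_lit 0) (nat_lit 79) (nat_lit 64) (nat_lit 37)) (PT.nd (nat_lit 94) (PT.lf (nat_lit 22428) (nat_lit 6) (nat_lit 267) (nat_lit 0) (nat_lit 80) (nat_lit 64) (nat_lit 36)) (PT.lf (nat_lit 21420) (nat_lit 6) (nat_lit 255) (nat_lit 0) (nat_lit 81) (nat_lit 64) (nat_lit 35)))) (PT.nd (nat_lit 94) (PT.lf (nat_lit 20412) (nat_lit 6) (nat_lit 243) (nat_lit 0) (nat_lit 82) (nat_lit 64) (nat_lit 34)) (PT.nd (nat_lit 94) (PT.lf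 (nat_lit 19488) (nat_lit 6) (nat_lit 232) (nat_lit 0) (nat_lit 83) (nat_lit 64) (nat_lit 33)) (PT.lf (nat_lit 18564) (nat_lit 6) (nat_lit 221) (nat_lit 0) (nat_lit 84) (nat_lit 64) (nat_lit 32))))) (PT.nd (nat_lit 282) (PT.nd (nat_lit 94) (PT.lf (nat_lit 17724) (nat_lit 6) (nat_lit 211) (nat_lit 5) (nat_lit 31) (nat_lit 65) (nat_lit 84)) (PT.nd (nat_lit 94) (PT.lf (nat_lit 18648) (nat_lit 6) (nat_lit 222) (nat_lit 5) (nat_lit 32) (nat_lit 65) (nat_lit 83)) (PT.lf (nat_lit 19572) (nat_lit 6) (nat_lit 233) (nat_lit 5) (nat_lit 33) (nat_lit 65) (nat_lit 82)))) (PT.nd (nat_lit 94) (PT.lf (nat_lit 20496) (nat_lit 6) (nat_lit 244) (nat_lit 5) (nat_lit 34) (nat_lit 65) (nat_lit 81)) (PT.nd (nat_lit 94) (PT.lf (nat_lit 21504) (nat_lit 6) (nat_lit 256) (nat_lit 5) (nat_lit 35) (nat_lit 65) (nat_lit 80)) (PT.lf (nat_lit 22512) (nat_lit 6) (nat_lit 268) (nat_lit 5) (nat_lit 36) (nat_lit 65) (nat_lit 79)))))) (PT.nd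 (nat_lit 564) (PT.nd (nat_lit 282) (PT.nd (nat_lit 94) (PT.lf (nat_lit 23688) (nat_lit 6) (nat_lit 282) (nat_lit 5) (nat_lit 37) (nat_lit 65) (nat_lit 78)) (PT.nd (nat_lit 94) (PT.lf (nat_lit 25620) (nat_lit 6) (nat_lit 305) (nat_lit 5) (nat_lit 38) (nat_lit 65) (nat_lit 77)) (PT.lf (nat_lit 27468) (nat_lit 6) (nat_lit 327) (nat_lit 5) (nat_lit 39) (nat_lit 65) (nat_lit 76)))) (PT.nd (nat_lit 94) (PT.lf (nat_lit 29232) (nat_lit 6) (nat_lit 348) (nat_lit 5) (nat_lit 40) (nat_lit 65) (nat_lit 75)) (PT.nd (nat_lit 94) (PT.lf (nat_lit 30912) (nat_lit 6) (nat_lit 368) (nat_lit 5) (nat_lit 41) (nat_lit 65) (nat_lit 74)) (PT.lf (nat_lit 32508) (nat_lit 6) (nat_lit 387) (nat_lit 5) (nat_lit 42) (nat_lit 65) (nat_lit 73))))) (PT.nd (nat_lit 282) (PT.nd (nat_lit 94) (PT.lf (nat_lit 34020) (nat_lit 6) (nat_lit 405) (nat_lit 5) (nat_lit 43) (nat_lit 65) (nat_lit 72)) (PT.nd (nat_lit 94) (PT.lf (nat_lit 35448) (nat_lit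 6) (nat_lit 422) (nat_lit 5) (nat_lit 44) (nat_lit 65) (nat_lit 71)) (PT.lf (nat_lit 36792) (nat_lit 6) (nat_lit 438) (nat_lit 5) (nat_lit 45) (nat_lit 65) (nat_lit 70)))) (PT.nd (nat_lit 94) (PT.lf (nat_lit 38052) (nat_lit 6) (nat_lit 453) (nat_lit 5) (nat_lit 46) (nat_lit 65) (nat_lit 69)) (PT.nd (nat_lit 94) (PT.lf (nat_lit 39228) (nat_lit 6) (nat_lit 467) (nat_lit 5) (nat_lit 47) (nat_lit 65) (nat_lit 68)) (PT.lf (nat_lit 40320) (nat_lit 6) (nat_lit 480) (nat_lit 5) (nat_lit 48) (nat_lit 65) (nat_lit 67))))))))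
noncomputable def pc32 : PT := (PT.nd (nat_lit 2162) (PT.nd (nat_lit 1034) (PT.nd (nat_lit 470) (PT.nd (nat_lit 188) (PT.nd (nat_lit 94) (PT.lf (nat_lit 41328) (nat_lit 6) (nat_lit 492) (nat_lit 5) (nat_lit 49) (nat_lit 65) (nat_lit 66)) (PT.lf (nat_lit 42252) (nat_lit 3) (nat_lit 503) (nat_lit 4) (nat_lit 50) (nat_lit 65) (nat_lit 65))) (PT.nd (nat_lit 94) (PT.lf (nat_lit 43008) (nat_lit 6) (nat_lit 512) (nat_lit 4) (nat_lit 51) (nat_lit 65) (nat_lit 64)) (PT.nd (nat_lit 94) (PT.lf (nat_lit 43680) (nat_lit 6) (nat_lit 520) (nat_lit 4) (nat_lit 52) (nat_lit 65) (nat_lit 63)) (PT.lf (nat_lit 44268) (nat_lit 6) (nat_lit 527) (nat_lit 4) (nat_lit 53) (nat_lit 65) (nat_lit 62))))) (PT.nd (nat_lit 282) (PT.nd (nat_lit 94) (PT.lf (nat_lit 44772) (nat_lit 6) (nat_lit 533) (nat_lit 4) (nat_lit 54) (nat_lit 65) (nat_lit 61)) (PT.nd (nat_lit 94) (PT.lf (nat_lit 45192) (nat_lit 6) (nat_lit 538) (nat_lit 4) (nat_lit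 55) (nat_lit 65) (nat_lit 60)) (PT.lf (nat_lit 45108) (nat_lit 6) (nat_lit 537) (nat_lit 4) (nat_lit 56) (nat_lit 65) (nat_lit 59)))) (PT.nd (nat_lit 94) (PT.lf (nat_lit 45024) (nat_lit 6) (nat_lit 536) (nat_lit 4) (nat_lit 57) (nat_lit 65) (nat_lit 58)) (PT.nd (nat_lit 94) (PT.lf (nat_lit 45024) (nat_lit 6) (nat_lit 536) (nat_lit 2) (nat_lit 58) (nat_lit 65) (nat_lit 57)) (PT.lf (nat_lit 45108) (nat_lit 6) (nat_lit 537) (nat_lit 2) (nat_lit 59) (nat_lit 65) (nat_lit 56)))))) (PT.nd (nat_lit 564) (PT.nd (nat_lit 282) (PT.nd (nat_lit 94) (PT.lf (nat_lit 45192) (nat_lit 6) (nat_lit 538) (nat_lit 2) (nat_lit 60) (nat_lit 65) (nat_lit 55)) (PT.nd (nat_lit 94) (PT.lf (nat_lit 44772) (nat_lit 6) (nat_lit 533) (nat_lit 2) (nat_lit 61) (nat_lit 65) (nat_lit 54)) (PT.lf (nat_lit 44268) (nat_lit 6) (nat_lit 527) (nat_lit 2) (nat_lit 62) (nat_lit 65) (nat_lit 53)))) (PT.nd (nat_lit 94) (PT.lf (nat_lit 43680) (nat_lit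 6) (nat_lit 520) (nat_lit 2) (nat_lit 63) (nat_lit 65) (nat_lit 52)) (PT.nd (nat_lit 94) (PT.lf (nat_lit 43008) (nat_lit 6) (nat_lit 512) (nat_lit 2) (nat_lit 64) (nat_lit 65) (nat_lit 51)) (PT.lf (nat_lit 42252) (nat_lit 3) (nat_lit 503) (nat_lit 0) (nat_lit 65) (nat_lit 65) (nat_lit 50))))) (PT.nd (nat_lit 282) (PT.nd (nat_lit 94) (PT.lf (nat_lit 41328) (nat_lit 6) (nat_lit 492) (nat_lit 0) (nat_lit 66) (nat_lit 65) (nat_lit 49)) (PT.nd (nat_lit 94) (PT.lf (nat_lit 40320) (nat_lit 6) (nat_lit 480) (nat_lit 0) (nat_lit 67) (nat_lit 65) (nat_lit 48)) (PT.lf (nat_lit 39228) (nat_lit 6) (nat_lit 467) (nat_lit 0) (nat_lit 68) (nat_lit 65) (nat_lit 47)))) (PT.nd (nat_lit 94) (PT.lf (nat_lit 38052) (nat_lit 6) (nat_lit 453) (nat_lit 0) (nat_lit 69) (nat_lit 65) (nat_lit 46)) (PT.nd (nat_lit 94) (PT.lf (nat_lit 36792) (nat_lit 6) (nat_lit 438) (nat_lit 0) (nat_lit 70) (nat_lit 65) (nat_lit 45)) (PT.lf (nat_lit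 35448) (nat_lit 6) (nat_lit 422) (nat_lit 0) (nat_lit 71) (nat_lit 65) (nat_lit 44))))))) (PT.nd (nat_lit 1034) (PT.nd (nat_lit 470) (PT.nd (nat_lit 188) (PT.nd (nat_lit 94) (PT.lf (nat_lit 34020) (nat_lit 6) (nat_lit 405) (nat_lit 0) (nat_lit 72) (nat_lit 65) (nat_lit 43)) (PT.lf (nat_lit 32508) (nat_lit 6) (nat_lit 387) (nat_lit 0) (nat_lit 73) (nat_lit 65) (nat_lit 42))) (PT.nd (nat_lit 94) (PT.lf (nat_lit 30912) (nat_lit 6) (nat_lit 368) (nat_lit 0) (nat_lit 74) (nat_lit 65) (nat_lit 41)) (PT.nd (nat_lit 94) (PT.lf (nat_lit 29232) (nat_lit 6) (nat_lit 348) (nat_lit 0) (nat_lit 75) (nat_lit 65) (nat_lit 40)) (PT.lf (nat_lit 27468) (nat_lit 6) (nat_lit 327) (nat_lit 0) (nat_lit 76) (nat_lit 65) (nat_lit 39))))) (PT.nd (nat_lit 282) (PT.nd (nat_lit 94) (PT.lf (nat_lit 25620) (nat_lit 6) (nat_lit 305) (nat_lit 0) (nat_lit 77) (nat_lit 65) (nat_lit 38)) (PT.nd (nat_lit 94) (PT.lf (nat_lit 23688) (nat_lit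 6) (nat_lit 282) (nat_lit 0) (nat_lit 78) (nat_lit 65) (nat_lit 37)) (PT.lf (nat_lit 22512) (nat_lit 6) (nat_lit 268) (nat_lit 0) (nat_lit 79) (nat_lit 65) (nat_lit 36)))) (PT.nd (nat_lit 94) (PT.lf (nat_lit 21504) (nat_lit 6) (nat_lit 256) (nat_lit 0) (nat_lit 80) (nat_lit 65) (nat_lit 35)) (PT.nd (nat_lit 94) (PT.lf (nat_lit 20496) (nat_lit 6) (nat_lit 244) (nat_lit 0) (nat_lit 81) (nat_lit 65) (nat_lit 34)) (PT.lf (nat_lit 19572) (nat_lit 6) (nat_lit 233) (nat_lit 0) (nat_lit 82) (nat_lit 65) (nat_lit 33)))))) (PT.nd (nat_lit 40608) (PT.nd (nat_lit 40326) (PT.nd (nat_lit 94) (PT.lf (nat_lit 18648) (nat_lit 6) (nat_lit 222) (nat_lit 0) (nat_lit 83) (nat_lit 65) (nat_lit 32)) (PT.nd (nat_lit 40138) (PT.lf (nat_lit 17724) (nat_lit 6) (nat_lit 211) (nat_lit 0) (nat_lit 84) (nat_lit 65) (nat_lit 31)) (PT.lf (nat_lit 16884) (nat_lit 6) (nat_lit 201) (nat_lit 5) (nat_lit 30) (nat_lit 66) (nat_lit 84))))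 (PT.nd (nat_lit 94) (PT.lf (nat_lit 17808) (nat_lit 6) (nat_lit 212) (nat_lit 5) (nat_lit 31) (nat_lit 66) (nat_lit 83)) (PT.nd (nat_lit 94) (PT.lf (nat_lit 18732) (nat_lit 6) (nat_lit 223) (nat_lit 5) (nat_lit 32) (nat_lit 66) (nat_lit 82)) (PT.lf (nat_lit 19656) (nat_lit 6) (nat_lit 234) (nat_lit 5) (nat_lit 33) (nat_lit 66) (nat_lit 81))))) (PT.nd (nat_lit 282) (PT.nd (nat_lit 94) (PT.lf (nat_lit 20580) (nat_lit 6) (nat_lit 245) (nat_lit 5) (nat_lit 34) (nat_lit 66) (nat_lit 80)) (PT.nd (nat_lit 94) (PT.lf (nat_lit 21588) (nat_lit 6) (nat_lit 257) (nat_lit 5) (nat_lit 35) (nat_lit 66) (nat_lit 79)) (PT.lf (nat_lit 22596) (nat_lit 6) (nat_lit 269) (nat_lit 5) (nat_lit 36) (nat_lit 66) (nat_lit 78)))) (PT.nd (nat_lit 94) (PT.lf (nat_lit 23772) (nat_lit 6) (nat_lit 283) (nat_lit 5) (nat_lit 37) (nat_lit 66) (nat_lit 77)) (PT.nd (nat_lit 94) (PT.lf (nat_lit 25704) (nat_lit 6) (nat_lit 306) (nat_lit 5)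 (nat_lit 38) (nat_lit 66) (nat_lit 76)) (PT.lf (nat_lit 27552) (nat_lit 6) (nat_lit 328) (nat_lit 5) (nat_lit 39) (nat_lit 66) (nat_lit 75))))))))
noncomputable def pc33 : PT := (PT.nd (nat_lit 2162) (PT.nd (nat_lit 1034) (PT.nd (nat_lit 470) (PT.nd (nat_lit 188) (PT.nd (nat_lit 94) (PT.lf (nat_lit 29316) (nat_lit 6) (nat_lit 349) (nat_lit 5) (nat_lit 40) (nat_lit 66) (nat_lit 74)) (PT.lf (nat_lit 30996) (nat_lit 6) (nat_lit 369) (nat_lit 5) (nat_lit 41) (nat_lit 66) (nat_lit 73))) (PT.nd (nat_lit 94) (PT.lf (nat_lit 32592) (nat_lit 6) (nat_lit 388) (nat_lit 5) (nat_lit 42) (nat_lit 66) (nat_lit 72)) (PT.nd (nat_lit 94) (PT.lf (nat_lit 34104) (nat_lit 6) (nat_lit 406) (nat_lit 5) (nat_lit 43) (nat_lit 66) (nat_lit 71)) (PT.lf (nat_lit 35532) (nat_lit 6) (nat_lit 423) (nat_lit 5) (nat_lit 44) (nat_lit 66) (nat_lit 70))))) (PT.nd (nat_lit 282) (PT.nd (nat_lit 94) (PT.lf (nat_lit 36876) (nat_lit 6) (nat_lit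 439) (nat_lit 5) (nat_lit 45) (nat_lit 66) (nat_lit 69)) (PT.nd (nat_lit 94) (PT.lf (nat_lit 38136) (nat_lit 6) (nat_lit 454) (nat_lit 5) (nat_lit 46) (nat_lit 66) (nat_lit 68)) (PT.lf (nat_lit 39312) (nat_lit 6) (nat_lit 468) (nat_lit 5) (nat_lit 47) (nat_lit 66) (nat_lit 67)))) (PT.nd (nat_lit 94) (PT.lf (nat_lit 40404) (nat_lit 3) (nat_lit 481) (nat_lit 4) (nat_lit 48) (nat_lit 66) (nat_lit 66)) (PT.nd (nat_lit 94) (PT.lf (nat_lit 41328) (nat_lit 6) (nat_lit 492) (nat_lit 4) (nat_lit 49) (nat_lit 66) (nat_lit 65)) (PT.lf (nat_lit 42168) (nat_lit 6) (nat_lit 502) (nat_lit 4) (nat_lit 50) (nat_lit 66) (nat_lit 64)))))) (PT.nd (nat_lit 564) (PT.nd (nat_lit 282) (PT.nd (nat_lit 94) (PT.lf (nat_lit 42924) (nat_lit 6) (nat_lit 511) (nat_lit 4) (nat_lit 51) (nat_lit 66) (nat_lit 63)) (PT.nd (nat_lit 94) (PT.lf (nat_lit 43596) (nat_lit 6) (nat_lit 519) (nat_lit 4) (nat_lit 52) (nat_lit 66) (nat_lit 62)) (PT.lf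 (nat_lit 44184) (nat_lit 6) (nat_lit 526) (nat_lit 4) (nat_lit 53) (nat_lit 66) (nat_lit 61)))) (PT.nd (nat_lit 94) (PT.lf (nat_lit 44688) (nat_lit 6) (nat_lit 532) (nat_lit 4) (nat_lit 54) (nat_lit 66) (nat_lit 60)) (PT.nd (nat_lit 94) (PT.lf (nat_lit 44604) (nat_lit 6) (nat_lit 531) (nat_lit 4) (nat_lit 55) (nat_lit 66) (nat_lit 59)) (PT.lf (nat_lit 44520) (nat_lit 6) (nat_lit 530) (nat_lit 4) (nat_lit 56) (nat_lit 66) (nat_lit 58))))) (PT.nd (nat_lit 282) (PT.nd (nat_lit 94) (PT.lf (nat_lit 44436) (nat_lit 3) (nat_lit 529) (nat_lit 2) (nat_lit 57) (nat_lit 66) (nat_lit 57)) (PT.nd (nat_lit 94) (PT.lf (nat_lit 44520) (nat_lit 6) (nat_lit 530) (nat_lit 2) (nat_lit 58) (nat_lit 66) (nat_lit 56)) (PT.lf (nat_lit 44604) (nat_lit 6) (nat_lit 531) (nat_lit 2) (nat_lit 59) (nat_lit 66) (nat_lit 55)))) (PT.nd (nat_lit 94) (PT.lf (nat_lit 44688) (nat_lit 6) (nat_lit 532) (nat_lit 2) (nat_lit 60) (nat_lit 66)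 (nat_lit 54)) (PT.nd (nat_lit 94) (PT.lf (nat_lit 44184) (nat_lit 6) (nat_lit 526) (nat_lit 2) (nat_lit 61) (nat_lit 66) (nat_lit 53)) (PT.lf (nat_lit 43596) (nat_lit 6) (nat_lit 519) (nat_lit 2) (nat_lit 62) (nat_lit 66) (nat_lit 52))))))) (PT.nd (nat_lit 1128) (PT.nd (nat_lit 564) (PT.nd (nat_lit 282) (PT.nd (nat_lit 94) (PT.lf (nat_lit 42924) (nat_lit 6) (nat_lit 511) (nat_lit 2) (nat_lit 63) (nat_lit 66) (nat_lit 51)) (PT.nd (nat_lit 94) (PT.lf (nat_lit 42168) (nat_lit 6) (nat_lit 502) (nat_lit 2) (nat_lit 64) (nat_lit 66) (nat_lit 50)) (PT.lf (nat_lit 41328) (nat_lit 6) (nat_lit 492) (nat_lit 2) (nat_lit 65) (nat_lit 66) (nat_lit 49)))) (PT.nd (nat_lit 94) (PT.lf (nat_lit 40404) (nat_lit 3) (nat_lit 481) (nat_lit 0) (nat_lit 66) (nat_lit 66) (nat_lit 48)) (PT.nd (nat_lit 94) (PT.lf (nat_lit 39312) (nat_lit 6) (nat_lit 468) (nat_lit 0) (nat_lit 67) (nat_lit 66) (nat_lit 47)) (PT.lf (nat_lit 38136)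 (nat_lit 6) (nat_lit 454) (nat_lit 0) (nat_lit 68) (nat_lit 66) (nat_lit 46))))) (PT.nd (nat_lit 282) (PT.nd (nat_lit 94) (PT.lf (nat_lit 36876) (nat_lit 6) (nat_lit 439) (nat_lit 0) (nat_lit 69) (nat_lit 66) (nat_lit 45)) (PT.nd (nat_lit 94) (PT.lf (nat_lit 35532) (nat_lit 6) (nat_lit 423) (nat_lit 0) (nat_lit 70) (nat_lit 66) (nat_lit 44)) (PT.lf (nat_lit 34104) (nat_lit 6) (nat_lit 406) (nat_lit 0) (nat_lit 71) (nat_lit 66) (nat_lit 43)))) (PT.nd (nat_lit 94) (PT.lf (nat_lit 32592) (nat_lit 6) (nat_lit 388) (nat_lit 0) (nat_lit 72) (nat_lit 66) (nat_lit 42)) (PT.nd (nat_lit 94) (PT.lf (nat_lit 30996) (nat_lit 6) (nat_lit 369) (nat_lit 0) (nat_lit 73) (nat_lit 66) (nat_lit 41)) (PT.lf (nat_lit 29316) (nat_lit 6) (nat_lit 349) (nat_lit 0) (nat_lit 74) (nat_lit 66) (nat_lit 40)))))) (PT.nd (nat_lit 564) (PT.nd (nat_lit 282) (PT.nd (nat_lit 94) (PT.lf (nat_lit 27552) (nat_lit 6) (nat_lit 328) (nat_lit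 0) (nat_lit 75) (nat_lit 66) (nat_lit 39)) (PT.nd (nat_lit 94) (PT.lf (nat_lit 25704) (nat_lit 6) (nat_lit 306) (nat_lit 0) (nat_lit 76) (nat_lit 66) (nat_lit 38)) (PT.lf (nat_lit 23772) (nat_lit 6) (nat_lit 283) (nat_lit 0) (nat_lit 77) (nat_lit 66) (nat_lit 37)))) (PT.nd (nat_lit 94) (PT.lf (nat_lit 22596) (nat_lit 6) (nat_lit 269) (nat_lit 0) (nat_lit 78) (nat_lit 66) (nat_lit 36)) (PT.nd (nat_lit 94) (PT.lf (nat_lit 21588) (nat_lit 6) (nat_lit 257) (nat_lit 0) (nat_lit 79) (nat_lit 66) (nat_lit 35)) (PT.lf (nat_lit 20580) (nat_lit 6) (nat_lit 245) (nat_lit 0) (nat_lit 80) (nat_lit 66) (nat_lit 34))))) (PT.nd (nat_lit 282) (PT.nd (nat_lit 94) (PT.lf (nat_lit 19656) (nat_lit 6) (nat_lit 234) (nat_lit 0) (nat_lit 81) (nat_lit 66) (nat_lit 33)) (PT.nd (nat_lit 94) (PT.lf (nat_lit 18732) (nat_lit 6) (nat_lit 223) (nat_lit 0) (nat_lit 82) (nat_lit 66) (nat_lit 32)) (PT.lf (nat_lit 17808) (nat_lit 6) (nat_lit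 212) (nat_lit 0) (nat_lit 83) (nat_lit 66) (nat_lit 31)))) (PT.nd (nat_lit 39950) (PT.lf (nat_lit 16884) (nat_lit 6) (nat_lit 201) (nat_lit 0) (nat_lit 84) (nat_lit 66) (nat_lit 30)) (PT.nd (nat_lit 94) (PT.lf (nat_lit 15288) (nat_lit 6) (nat_lit 182) (nat_lit 5) (nat_lit 28) (nat_lit 67) (nat_lit 85)) (PT.lf (nat_lit 16128) (nat_lit 6) (nat_lit 192) (nat_lit 5) (nat_lit 29) (nat_lit 67) (nat_lit 84))))))))
noncomputable def pc34 : PT := (PT.nd (nat_lit 2162) (PT.nd (nat_lit 1034) (PT.nd (nat_lit 470) (PT.nd (nat_lit 188) (PT.nd (nat_lit 94) (PT.lf (nat_lit 16968) (nat_lit 6) (nat_lit 202) (nat_lit 5) (nat_lit 30) (nat_lit 67) (nat_lit 83)) (PT.lf (nat_lit 17892) (nat_lit 6) (nat_lit 213) (nat_lit 5) (nat_lit 31) (nat_lit 67) (nat_lit 82))) (PT.nd (nat_lit 94) (PT.lf (nat_lit 18816) (nat_lit 6) (nat_lit 224) (nat_lit 5) (nat_lit 32) (nat_lit 67) (nat_lit 81)) (PT.nd (nat_lit 94) (PT.lf (nat_lit 19740)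 (nat_lit 6) (nat_lit 235) (nat_lit 5) (nat_lit 33) (nat_lit 67) (nat_lit 80)) (PT.lf (nat_lit 20664) (nat_lit 6) (nat_lit 246) (nat_lit 5) (nat_lit 34) (nat_lit 67) (nat_lit 79))))) (PT.nd (nat_lit 282) (PT.nd (nat_lit 94) (PT.lf (nat_lit 21672) (nat_lit 6) (nat_lit 258) (nat_lit 5) (nat_lit 35) (nat_lit 67) (nat_lit 78)) (PT.nd (nat_lit 94) (PT.lf (nat_lit 22680) (nat_lit 6) (nat_lit 270) (nat_lit 5) (nat_lit 36) (nat_lit 67) (nat_lit 77)) (PT.lf (nat_lit 23856) (nat_lit 6) (nat_lit 284) (nat_lit 5) (nat_lit 37) (nat_lit 67) (nat_lit 76)))) (PT.nd (nat_lit 94) (PT.lf (nat_lit 25788) (nat_lit 6) (nat_lit 307) (nat_lit 5) (nat_lit 38) (nat_lit 67) (nat_lit 75)) (PT.nd (nat_lit 94) (PT.lf (nat_lit 27636) (nat_lit 6) (nat_lit 329) (nat_lit 5) (nat_lit 39) (nat_lit 67) (nat_lit 74)) (PT.lf (nat_lit 29400) (nat_lit 6) (nat_lit 350) (nat_lit 5) (nat_lit 40) (nat_lit 67) (nat_lit 73)))))) (PT.nd (nat_lit 564)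 (PT.nd (nat_lit 282) (PT.nd (nat_lit 94) (PT.lf (nat_lit 31080) (nat_lit 6) (nat_lit 370) (nat_lit 5) (nat_lit 41) (nat_lit 67) (nat_lit 72)) (PT.nd (nat_lit 94) (PT.lf (nat_lit 32676) (nat_lit 6) (nat_lit 389) (nat_lit 5) (nat_lit 42) (nat_lit 67) (nat_lit 71)) (PT.lf (nat_lit 34188) (nat_lit 6) (nat_lit 407) (nat_lit 5) (nat_lit 43) (nat_lit 67) (nat_lit 70)))) (PT.nd (nat_lit 94) (PT.lf (nat_lit 35616) (nat_lit 6) (nat_lit 424) (nat_lit 5) (nat_lit 44) (nat_lit 67) (nat_lit 69)) (PT.nd (nat_lit 94) (PT.lf (nat_lit 36960) (nat_lit 6) (nat_lit 440) (nat_lit 5) (nat_lit 45) (nat_lit 67) (nat_lit 68)) (PT.lf (nat_lit 38220) (nat_lit 3) (nat_lit 455) (nat_lit 4) (nat_lit 46) (nat_lit 67) (nat_lit 67))))) (PT.nd (nat_lit 282) (PT.nd (nat_lit 94) (PT.lf (nat_lit 39312) (nat_lit 6) (nat_lit 468) (nat_lit 4) (nat_lit 47) (nat_lit 67) (nat_lit 66)) (PT.nd (nat_lit 94) (PT.lf (nat_lit 40320) (nat_lit 6) (nat_lit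 480) (nat_lit 4) (nat_lit 48) (nat_lit 67) (nat_lit 65)) (PT.lf (nat_lit 41244) (nat_lit 6) (nat_lit 491) (nat_lit 4) (nat_lit 49) (nat_lit 67) (nat_lit 64)))) (PT.nd (nat_lit 94) (PT.lf (nat_lit 42084) (nat_lit 6) (nat_lit 501) (nat_lit 4) (nat_lit 50) (nat_lit 67) (nat_lit 63)) (PT.nd (nat_lit 94) (PT.lf (nat_lit 42840) (nat_lit 6) (nat_lit 510) (nat_lit 4) (nat_lit 51) (nat_lit 67) (nat_lit 62)) (PT.lf (nat_lit 43512) (nat_lit 6) (nat_lit 518) (nat_lit 4) (nat_lit 52) (nat_lit 67) (nat_lit 61))))))) (PT.nd (nat_lit 1034) (PT.nd (nat_lit 470) (PT.nd (nat_lit 188) (PT.nd (nat_lit 94) (PT.lf (nat_lit 44100) (nat_lit 6) (nat_lit 525) (nat_lit 4) (nat_lit 53) (nat_lit 67) (nat_lit 60)) (PT.lf (nat_lit 44016) (nat_lit 6) (nat_lit 524) (nat_lit 4) (nat_lit 54) (nat_lit 67) (nat_lit 59))) (PT.nd (nat_lit 94) (PT.lf (nat_lit 43932) (nat_lit 6) (nat_lit 523) (nat_lit 4) (nat_lit 55) (nat_lit 67) (nat_lit 58))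 (PT.nd (nat_lit 94) (PT.lf (nat_lit 43848) (nat_lit 6) (nat_lit 522) (nat_lit 4) (nat_lit 56) (nat_lit 67) (nat_lit 57)) (PT.lf (nat_lit 43848) (nat_lit 6) (nat_lit 522) (nat_lit 2) (nat_lit 57) (nat_lit 67) (nat_lit 56))))) (PT.nd (nat_lit 282) (PT.nd (nat_lit 94) (PT.lf (nat_lit 43932) (nat_lit 6) (nat_lit 523) (nat_lit 2) (nat_lit 58) (nat_lit 67) (nat_lit 55)) (PT.nd (nat_lit 94) (PT.lf (nat_lit 44016) (nat_lit 6) (nat_lit 524) (nat_lit 2) (nat_lit 59) (nat_lit 67) (nat_lit 54)) (PT.lf (nat_lit 44100) (nat_lit 6) (nat_lit 525) (nat_lit 2) (nat_lit 60) (nat_lit 67) (nat_lit 53)))) (PT.nd (nat_lit 94) (PT.lf (nat_lit 43512) (nat_lit 6) (nat_lit 518) (nat_lit 2) (nat_lit 61) (nat_lit 67) (nat_lit 52)) (PT.nd (nat_lit 94) (PT.lf (nat_lit 42840) (nat_lit 6) (nat_lit 510) (nat_lit 2) (nat_lit 62) (nat_lit 67) (nat_lit 51)) (PT.lf (nat_lit 42084) (nat_lit 6) (nat_lit 501) (nat_lit 2) (nat_lit 63) (nat_lit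 67) (nat_lit 50)))))) (PT.nd (nat_lit 564) (PT.nd (nat_lit 282) (PT.nd (nat_lit 94) (PT.lf (nat_lit 41244) (nat_lit 6) (nat_lit 491) (nat_lit 2) (nat_lit 64) (nat_lit 67) (nat_lit 49)) (PT.nd (nat_lit 94) (PT.lf (nat_lit 40320) (nat_lit 6) (nat_lit 480) (nat_lit 2) (nat_lit 65) (nat_lit 67) (nat_lit 48)) (PT.lf (nat_lit 39312) (nat_lit 6) (nat_lit 468) (nat_lit 2) (nat_lit 66) (nat_lit 67) (nat_lit 47)))) (PT.nd (nat_lit 94) (PT.lf (nat_lit 38220) (nat_lit 3) (nat_lit 455) (nat_lit 0) (nat_lit 67) (nat_lit 67) (nat_lit 46)) (PT.nd (nat_lit 94) (PT.lf (nat_lit 36960) (nat_lit 6) (nat_lit 440) (nat_lit 0) (nat_lit 68) (nat_lit 67) (nat_lit 45)) (PT.lf (nat_lit 35616) (nat_lit 6) (nat_lit 424) (nat_lit 0) (nat_lit 69) (nat_lit 67) (nat_lit 44))))) (PT.nd (nat_lit 282) (PT.nd (nat_lit 94) (PT.lf (nat_lit 34188) (nat_lit 6) (nat_lit 407) (nat_lit 0) (nat_lit 70) (nat_lit 67) (nat_lit 43)) (PT.nd (nat_lit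 94) (PT.lf (nat_lit 32676) (nat_lit 6) (nat_lit 389) (nat_lit 0) (nat_lit 71) (nat_lit 67) (nat_lit 42)) (PT.lf (nat_lit 31080) (nat_lit 6) (nat_lit 370) (nat_lit 0) (nat_lit 72) (nat_lit 67) (nat_lit 41)))) (PT.nd (nat_lit 94) (PT.lf (nat_lit 29400) (nat_lit 6) (nat_lit 350) (nat_lit 0) (nat_lit 73) (nat_lit 67) (nat_lit 40)) (PT.nd (nat_lit 94) (PT.lf (nat_lit 27636) (nat_lit 6) (nat_lit 329) (nat_lit 0) (nat_lit 74) (nat_lit 67) (nat_lit 39)) (PT.lf (nat_lit 25788) (nat_lit 6) (nat_lit 307) (nat_lit 0) (nat_lit 75) (nat_lit 67) (nat_lit 38))))))))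
noncomputable def pc35 : PT := (PT.nd (nat_lit 41830) (PT.nd (nat_lit 40702) (PT.nd (nat_lit 470) (PT.nd (nat_lit 188) (PT.nd (nat_lit 94) (PT.lf (nat_lit 23856) (nat_lit 6) (nat_lit 284) (nat_lit 0) (nat_lit 76) (nat_lit 67) (nat_lit 37)) (PT.lf (nat_lit 22680) (nat_lit 6) (nat_lit 270) (nat_lit 0) (nat_lit 77) (nat_lit 67) (nat_lit 36))) (PT.nd (nat_lit 94) (PT.lf (nat_lit 21672) (nat_lit 6) (nat_lit 258) (nat_lit 0) (nat_lit 78) (nat_lit 67) (nat_lit 35)) (PT.nd (nat_lit 94) (PT.lf (nat_lit 20664) (nat_lit 6) (nat_lit 246) (nat_lit 0) (nat_lit 79) (nat_lit 67) (nat_lit 34)) (PT.lf (nat_lit 19740) (nat_lit 6) (nat_lit 235) (nat_lit 0) (nat_lit 80) (nat_lit 67) (nat_lit 33))))) (PT.nd (nat_lit 282) (PT.nd (nat_lit 94) (PT.lf (nat_lit 18816) (nat_lit 6) (nat_lit 224) (nat_lit 0) (nat_lit 81) (nat_lit 67) (nat_lit 32)) (PT.nd (nat_lit 94) (PT.lf (nat_lit 17892) (nat_lit 6) (nat_lit 213) (nat_lit 0) (nat_lit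 82) (nat_lit 67) (nat_lit 31)) (PT.lf (nat_lit 16968) (nat_lit 6) (nat_lit 202) (nat_lit 0) (nat_lit 83) (nat_lit 67) (nat_lit 30)))) (PT.nd (nat_lit 94) (PT.lf (nat_lit 16128) (nat_lit 6) (nat_lit 192) (nat_lit 0) (nat_lit 84) (nat_lit 67) (nat_lit 29)) (PT.nd (nat_lit 39762) (PT.lf (nat_lit 15288) (nat_lit 6) (nat_lit 182) (nat_lit 0) (nat_lit 85) (nat_lit 67) (nat_lit 28)) (PT.lf (nat_lit 14532) (nat_lit 6) (nat_lit 173) (nat_lit 5) (nat_lit 27) (nat_lit 68) (nat_lit 85)))))) (PT.nd (nat_lit 564) (PT.nd (nat_lit 282) (PT.nd (nat_lit 94) (PT.lf (nat_lit 15372) (nat_lit 6) (nat_lit 183) (nat_lit 5) (nat_lit 28) (nat_lit 68) (nat_lit 84)) (PT.nd (nat_lit 94) (PT.lf (nat_lit 16212) (nat_lit 6) (nat_lit 193) (nat_lit 5) (nat_lit 29) (nat_lit 68) (nat_lit 83)) (PT.lf (nat_lit 17052) (nat_lit 6) (nat_lit 203) (nat_lit 5) (nat_lit 30) (nat_lit 68) (nat_lit 82)))) (PT.nd (nat_lit 94) (PT.lf (nat_lit 17976)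 (nat_lit 6) (nat_lit 214) (nat_lit 5) (nat_lit 31) (nat_lit 68) (nat_lit 81)) (PT.nd (nat_lit 94) (PT.lf (nat_lit 18900) (nat_lit 6) (nat_lit 225) (nat_lit 5) (nat_lit 32) (nat_lit 68) (nat_lit 80)) (PT.lf (nat_lit 19824) (nat_lit 6) (nat_lit 236) (nat_lit 5) (nat_lit 33) (nat_lit 68) (nat_lit 79))))) (PT.nd (nat_lit 282) (PT.nd (nat_lit 94) (PT.lf (nat_lit 20748) (nat_lit 6) (nat_lit 247) (nat_lit 5) (nat_lit 34) (nat_lit 68) (nat_lit 78)) (PT.nd (nat_lit 94) (PT.lf (nat_lit 21756) (nat_lit 6) (nat_lit 259) (nat_lit 5) (nat_lit 35) (nat_lit 68) (nat_lit 77)) (PT.lf (nat_lit 22764) (nat_lit 6) (nat_lit 271) (nat_lit 5) (nat_lit 36) (nat_lit 68) (nat_lit 76)))) (PT.nd (nat_lit 94) (PT.lf (nat_lit 23940) (nat_lit 6) (nat_lit 285) (nat_lit 5) (nat_lit 37) (nat_lit 68) (nat_lit 75)) (PT.nd (nat_lit 94) (PT.lf (nat_lit 25872) (nat_lit 6) (nat_lit 308) (nat_lit 5) (nat_lit 38) (nat_lit 68) (nat_lit 74)) (PT.lf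 (nat_lit 27720) (nat_lit 6) (nat_lit 330) (nat_lit 5) (nat_lit 39) (nat_lit 68) (nat_lit 73))))))) (PT.nd (nat_lit 1128) (PT.nd (nat_lit 564) (PT.nd (nat_lit 282) (PT.nd (nat_lit 94) (PT.lf (nat_lit 29484) (nat_lit 6) (nat_lit 351) (nat_lit 5) (nat_lit 40) (nat_lit 68) (nat_lit 72)) (PT.nd (nat_lit 94) (PT.lf (nat_lit 31164) (nat_lit 6) (nat_lit 371) (nat_lit 5) (nat_lit 41) (nat_lit 68) (nat_lit 71)) (PT.lf (nat_lit 32760) (nat_lit 6) (nat_lit 390) (nat_lit 5) (nat_lit 42) (nat_lit 68) (nat_lit 70)))) (PT.nd (nat_lit 94) (PT.lf (nat_lit 34272) (nat_lit 6) (nat_lit 408) (nat_lit 5) (nat_lit 43) (nat_lit 68) (nat_lit 69)) (PT.nd (nat_lit 94) (PT.lf (nat_lit 35700) (nat_lit 3) (nat_lit 425) (nat_lit 4) (nat_lit 44) (nat_lit 68) (nat_lit 68)) (PT.lf (nat_lit 36960) (nat_lit 6) (nat_lit 440) (nat_lit 4) (nat_lit 45) (nat_lit 68) (nat_lit 67))))) (PT.nd (nat_lit 282) (PT.nd (nat_lit 94) (PT.lf (nat_lit 38136)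 (nat_lit 6) (nat_lit 454) (nat_lit 4) (nat_lit 46) (nat_lit 68) (nat_lit 66)) (PT.nd (nat_lit 94) (PT.lf (nat_lit 39228) (nat_lit 6) (nat_lit 467) (nat_lit 4) (nat_lit 47) (nat_lit 68) (nat_lit 65)) (PT.lf (nat_lit 40236) (nat_lit 6) (nat_lit 479) (nat_lit 4) (nat_lit 48) (nat_lit 68) (nat_lit 64)))) (PT.nd (nat_lit 94) (PT.lf (nat_lit 41160) (nat_lit 6) (nat_lit 490) (nat_lit 4) (nat_lit 49) (nat_lit 68) (nat_lit 63)) (PT.nd (nat_lit 94) (PT.lf (nat_lit 42000) (nat_lit 6) (nat_lit 500) (nat_lit 4) (nat_lit 50) (nat_lit 68) (nat_lit 62)) (PT.lf (nat_lit 42756) (nat_lit 6) (nat_lit 509) (nat_lit 4) (nat_lit 51) (nat_lit 68) (nat_lit 61)))))) (PT.nd (nat_lit 564) (PT.nd (nat_lit 282) (PT.nd (nat_lit 94) (PT.lf (nat_lit 43428) (nat_lit 6) (nat_lit 517) (nat_lit 4) (nat_lit 52) (nat_lit 68) (nat_lit 60)) (PT.nd (nat_lit 94) (PT.lf (nat_lit 43344) (nat_lit 6) (nat_lit 516) (nat_lit 4) (nat_lit 53) (nat_lit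 68) (nat_lit 59)) (PT.lf (nat_lit 43260) (nat_lit 6) (nat_lit 515) (nat_lit 4) (nat_lit 54) (nat_lit 68) (nat_lit 58)))) (PT.nd (nat_lit 94) (PT.lf (nat_lit 43176) (nat_lit 6) (nat_lit 514) (nat_lit 4) (nat_lit 55) (nat_lit 68) (nat_lit 57)) (PT.nd (nat_lit 94) (PT.lf (nat_lit 43092) (nat_lit 3) (nat_lit 513) (nat_lit 2) (nat_lit 56) (nat_lit 68) (nat_lit 56)) (PT.lf (nat_lit 43176) (nat_lit 6) (nat_lit 514) (nat_lit 2) (nat_lit 57) (nat_lit 68) (nat_lit 55))))) (PT.nd (nat_lit 282) (PT.nd (nat_lit 94) (PT.lf (nat_lit 43260) (nat_lit 6) (nat_lit 515) (nat_lit 2) (nat_lit 58) (nat_lit 68) (nat_lit 54)) (PT.nd (nat_lit 94) (PT.lf (nat_lit 43344) (nat_lit 6) (nat_lit 516) (nat_lit 2) (nat_lit 59) (nat_lit 68) (nat_lit 53)) (PT.lf (nat_lit 43428) (nat_lit 6) (nat_lit 517) (nat_lit 2) (nat_lit 60) (nat_lit 68) (nat_lit 52)))) (PT.nd (nat_lit 94) (PT.lf (nat_lit 42756) (nat_lit 6) (nat_lit 509) (nat_lit 2)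 (nat_lit 61) (nat_lit 68) (nat_lit 51)) (PT.nd (nat_lit 94) (PT.lf (nat_lit 42000) (nat_lit 6) (nat_lit 500) (nat_lit 2) (nat_lit 62) (nat_lit 68) (nat_lit 50)) (PT.lf (nat_lit 41160) (nat_lit 6) (nat_lit 490) (nat_lit 2) (nat_lit 63) (nat_lit 68) (nat_lit 49))))))))
noncomputable def pc36 : PT := (PT.nd (nat_lit 41736) (PT.nd (nat_lit 1034) (PT.nd (nat_lit 470) (PT.nd (nat_lit 188) (PT.nd (nat_lit 94) (PT.lf (nat_lit 40236) (nat_lit 6) (nat_lit 479) (nat_lit 2) (nat_lit 64) (nat_lit 68) (nat_lit 48)) (PT.lf (nat_lit 39228) (nat_lit 6) (nat_lit 467) (nat_lit 2) (nat_lit 65) (nat_lit 68) (nat_lit 47))) (PT.nd (nat_lit 94) (PT.lf (nat_lit 38136) (nat_lit 6) (nat_lit 454) (nat_lit 2) (nat_lit 66) (nat_lit 68) (nat_lit 46)) (PT.nd (nat_lit 94) (PT.lf (nat_lit 36960) (nat_lit 6) (nat_lit 440) (nat_lit 2) (nat_lit 67) (nat_lit 68) (nat_lit 45)) (PT.lf (nat_lit 35700) (nat_lit 3) (nat_lit 425) (nat_lit 0) (nat_lit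 68) (nat_lit 68) (nat_lit 44))))) (PT.nd (nat_lit 282) (PT.nd (nat_lit 94) (PT.lf (nat_lit 34272) (nat_lit 6) (nat_lit 408) (nat_lit 0) (nat_lit 69) (nat_lit 68) (nat_lit 43)) (PT.nd (nat_lit 94) (PT.lf (nat_lit 32760) (nat_lit 6) (nat_lit 390) (nat_lit 0) (nat_lit 70) (nat_lit 68) (nat_lit 42)) (PT.lf (nat_lit 31164) (nat_lit 6) (nat_lit 371) (nat_lit 0) (nat_lit 71) (nat_lit 68) (nat_lit 41)))) (PT.nd (nat_lit 94) (PT.lf (nat_lit 29484) (nat_lit 6) (nat_lit 351) (nat_lit 0) (nat_lit 72) (nat_lit 68) (nat_lit 40)) (PT.nd (nat_lit 94) (PT.lf (nat_lit 27720) (nat_lit 6) (nat_lit 330) (nat_lit 0) (nat_lit 73) (nat_lit 68) (nat_lit 39)) (PT.lf (nat_lit 25872) (nat_lit 6) (nat_lit 308) (nat_lit 0) (nat_lit 74) (nat_lit 68) (nat_lit 38)))))) (PT.nd (nat_lit 564) (PT.nd (nat_lit 282) (PT.nd (nat_lit 94) (PT.lf (nat_lit 23940) (nat_lit 6) (nat_lit 285) (nat_lit 0) (nat_lit 75) (nat_lit 68) (nat_lit 37)) (PT.nd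 (nat_lit 94) (PT.lf (nat_lit 22764) (nat_lit 6) (nat_lit 271) (nat_lit 0) (nat_lit 76) (nat_lit 68) (nat_lit 36)) (PT.lf (nat_lit 21756) (nat_lit 6) (nat_lit 259) (nat_lit 0) (nat_lit 77) (nat_lit 68) (nat_lit 35)))) (PT.nd (nat_lit 94) (PT.lf (nat_lit 20748) (nat_lit 6) (nat_lit 247) (nat_lit 0) (nat_lit 78) (nat_lit 68) (nat_lit 34)) (PT.nd (nat_lit 94) (PT.lf (nat_lit 19824) (nat_lit 6) (nat_lit 236) (nat_lit 0) (nat_lit 79) (nat_lit 68) (nat_lit 33)) (PT.lf (nat_lit 18900) (nat_lit 6) (nat_lit 225) (nat_lit 0) (nat_lit 80) (nat_lit 68) (nat_lit 32))))) (PT.nd (nat_lit 282) (PT.nd (nat_lit 94) (PT.lf (nat_lit 17976) (nat_lit 6) (nat_lit 214) (nat_lit 0) (nat_lit 81) (nat_lit 68) (nat_lit 31)) (PT.nd (nat_lit 94) (PT.lf (nat_lit 17052) (nat_lit 6) (nat_lit 203) (nat_lit 0) (nat_lit 82) (nat_lit 68) (nat_lit 30)) (PT.lf (nat_lit 16212) (nat_lit 6) (nat_lit 193) (nat_lit 0) (nat_lit 83) (nat_lit 68)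 (nat_lit 29)))) (PT.nd (nat_lit 94) (PT.lf (nat_lit 15372) (nat_lit 6) (nat_lit 183) (nat_lit 0) (nat_lit 84) (nat_lit 68) (nat_lit 28)) (PT.nd (nat_lit 39668) (PT.lf (nat_lit 14532) (nat_lit 6) (nat_lit 173) (nat_lit 0) (nat_lit 85) (nat_lit 68) (nat_lit 27)) (PT.lf (nat_lit 13776) (nat_lit 6) (nat_lit 164) (nat_lit 5) (nat_lit 26) (nat_lit 69) (nat_lit 85))))))) (PT.nd (nat_lit 1034) (PT.nd (nat_lit 470) (PT.nd (nat_lit 188) (PT.nd (nat_lit 94) (PT.lf (nat_lit 14616) (nat_lit 6) (nat_lit 174) (nat_lit 5) (nat_lit 27) (nat_lit 69) (nat_lit 84)) (PT.lf (nat_lit 15456) (nat_lit 6) (nat_lit 184) (nat_lit 5) (nat_lit 28) (nat_lit 69) (nat_lit 83))) (PT.nd (nat_lit 94) (PT.lf (nat_lit 16296) (nat_lit 6) (nat_lit 194) (nat_lit 5) (nat_lit 29) (nat_lit 69) (nat_lit 82)) (PT.nd (nat_lit 94) (PT.lf (nat_lit 17136) (nat_lit 6) (nat_lit 204) (nat_lit 5) (nat_lit 30) (nat_lit 69) (nat_lit 81)) (PT.lf (nat_lit 18060)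 (nat_lit 6) (nat_lit 215) (nat_lit 5) (nat_lit 31) (nat_lit 69) (nat_lit 80))))) (PT.nd (nat_lit 282) (PT.nd (nat_lit 94) (PT.lf (nat_lit 18984) (nat_lit 6) (nat_lit 226) (nat_lit 5) (nat_lit 32) (nat_lit 69) (nat_lit 79)) (PT.nd (nat_lit 94) (PT.lf (nat_lit 19908) (nat_lit 6) (nat_lit 237) (nat_lit 5) (nat_lit 33) (nat_lit 69) (nat_lit 78)) (PT.lf (nat_lit 20832) (nat_lit 6) (nat_lit 248) (nat_lit 5) (nat_lit 34) (nat_lit 69) (nat_lit 77)))) (PT.nd (nat_lit 94) (PT.lf (nat_lit 21840) (nat_lit 6) (nat_lit 260) (nat_lit 5) (nat_lit 35) (nat_lit 69) (nat_lit 76)) (PT.nd (nat_lit 94) (PT.lf (nat_lit 22848) (nat_lit 6) (nat_lit 272) (nat_lit 5) (nat_lit 36) (nat_lit 69) (nat_lit 75)) (PT.lf (nat_lit 24024) (nat_lit 6) (nat_lit 286) (nat_lit 5) (nat_lit 37) (nat_lit 69) (nat_lit 74)))))) (PT.nd (nat_lit 564) (PT.nd (nat_lit 282) (PT.nd (nat_lit 94) (PT.lf (nat_lit 25956) (nat_lit 6) (nat_lit 309) (nat_lit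 5) (nat_lit 38) (nat_lit 69) (nat_lit 73)) (PT.nd (nat_lit 94) (PT.lf (nat_lit 27804) (nat_lit 6) (nat_lit 331) (nat_lit 5) (nat_lit 39) (nat_lit 69) (nat_lit 72)) (PT.lf (nat_lit 29568) (nat_lit 6) (nat_lit 352) (nat_lit 5) (nat_lit 40) (nat_lit 69) (nat_lit 71)))) (PT.nd (nat_lit 94) (PT.lf (nat_lit 31248) (nat_lit 6) (nat_lit 372) (nat_lit 5) (nat_lit 41) (nat_lit 69) (nat_lit 70)) (PT.nd (nat_lit 94) (PT.lf (nat_lit 32844) (nat_lit 3) (nat_lit 391) (nat_lit 4) (nat_lit 42) (nat_lit 69) (nat_lit 69)) (PT.lf (nat_lit 34272) (nat_lit 6) (nat_lit 408) (nat_lit 4) (nat_lit 43) (nat_lit 69) (nat_lit 68))))) (PT.nd (nat_lit 282) (PT.nd (nat_lit 94) (PT.lf (nat_lit 35616) (nat_lit 6) (nat_lit 424) (nat_lit 4) (nat_lit 44) (nat_lit 69) (nat_lit 67)) (PT.nd (nat_lit 94) (PT.lf (nat_lit 36876) (nat_lit 6) (nat_lit 439) (nat_lit 4) (nat_lit 45) (nat_lit 69) (nat_lit 66)) (PT.lf (nat_lit 38052) (nat_lit 6) (nat_lit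 453) (nat_lit 4) (nat_lit 46) (nat_lit 69) (nat_lit 65)))) (PT.nd (nat_lit 94) (PT.lf (nat_lit 39144) (nat_lit 6) (nat_lit 466) (nat_lit 4) (nat_lit 47) (nat_lit 69) (nat_lit 64)) (PT.nd (nat_lit 94) (PT.lf (nat_lit 40152) (nat_lit 6) (nat_lit 478) (nat_lit 4) (nat_lit 48) (nat_lit 69) (nat_lit 63)) (PT.lf (nat_lit 41076) (nat_lit 6) (nat_lit 489) (nat_lit 4) (nat_lit 49) (nat_lit 69) (nat_lit 62))))))))
noncomputable def pc37 : PT := (PT.nd (nat_lit 2162) (PT.nd (nat_lit 1034) (PT.nd (nat_lit 470) (PT.nd (nat_lit 188) (PT.nd (nat_lit 94) (PT.lf (nat_lit 41916) (nat_lit 6) (nat_lit 499) (nat_lit 4) (nat_lit 50) (nat_lit 69) (nat_lit 61)) (PT.lf (nat_lit 42672) (nat_lit 6) (nat_lit 508) (nat_lit 4) (nat_lit 51) (nat_lit 69) (nat_lit 60))) (PT.nd (nat_lit 94) (PT.lf (nat_lit 42588) (nat_lit 6) (nat_lit 507) (nat_lit 4) (nat_lit 52) (nat_lit 69) (nat_lit 59)) (PT.nd (nat_lit 94) (PT.lf (nat_lit 42504) (nat_lit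 6) (nat_lit 506) (nat_lit 4) (nat_lit 53) (nat_lit 69) (nat_lit 58)) (PT.lf (nat_lit 42420) (nat_lit 6) (nat_lit 505) (nat_lit 4) (nat_lit 54) (nat_lit 69) (nat_lit 57))))) (PT.nd (nat_lit 282) (PT.nd (nat_lit 94) (PT.lf (nat_lit 42336) (nat_lit 6) (nat_lit 504) (nat_lit 4) (nat_lit 55) (nat_lit 69) (nat_lit 56)) (PT.nd (nat_lit 94) (PT.lf (nat_lit 42336) (nat_lit 6) (nat_lit 504) (nat_lit 2) (nat_lit 56) (nat_lit 69) (nat_lit 55)) (PT.lf (nat_lit 42420) (nat_lit 6) (nat_lit 505) (nat_lit 2) (nat_lit 57) (nat_lit 69) (nat_lit 54)))) (PT.nd (nat_lit 94) (PT.lf (nat_lit 42504) (nat_lit 6) (nat_lit 506) (nat_lit 2) (nat_lit 58) (nat_lit 69) (nat_lit 53)) (PT.nd (nat_lit 94) (PT.lf (nat_lit 42588) (nat_lit 6) (nat_lit 507) (nat_lit 2) (nat_lit 59) (nat_lit 69) (nat_lit 52)) (PT.lf (nat_lit 42672) (nat_lit 6) (nat_lit 508) (nat_lit 2) (nat_lit 60) (nat_lit 69) (nat_lit 51)))))) (PT.nd (nat_lit 564) (PT.nd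 (nat_lit 282) (PT.nd (nat_lit 94) (PT.lf (nat_lit 41916) (nat_lit 6) (nat_lit 499) (nat_lit 2) (nat_lit 61) (nat_lit 69) (nat_lit 50)) (PT.nd (nat_lit 94) (PT.lf (nat_lit 41076) (nat_lit 6) (nat_lit 489) (nat_lit 2) (nat_lit 62) (nat_lit 69) (nat_lit 49)) (PT.lf (nat_lit 40152) (nat_lit 6) (nat_lit 478) (nat_lit 2) (nat_lit 63) (nat_lit 69) (nat_lit 48)))) (PT.nd (nat_lit 94) (PT.lf (nat_lit 39144) (nat_lit 6) (nat_lit 466) (nat_lit 2) (nat_lit 64) (nat_lit 69) (nat_lit 47)) (PT.nd (nat_lit 94) (PT.lf (nat_lit 38052) (nat_lit 6) (nat_lit 453) (nat_lit 2) (nat_lit 65) (nat_lit 69) (nat_lit 46)) (PT.lf (nat_lit 36876) (nat_lit 6) (nat_lit 439) (nat_lit 2) (nat_lit 66) (nat_lit 69) (nat_lit 45))))) (PT.nd (nat_lit 282) (PT.nd (nat_lit 94) (PT.lf (nat_lit 35616) (nat_lit 6) (nat_lit 424) (nat_lit 2) (nat_lit 67) (nat_lit 69) (nat_lit 44)) (PT.nd (nat_lit 94) (PT.lf (nat_lit 34272) (nat_lit 6) (nat_lit 408)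 (nat_lit 2) (nat_lit 68) (nat_lit 69) (nat_lit 43)) (PT.lf (nat_lit 32844) (nat_lit 3) (nat_lit 391) (nat_lit 0) (nat_lit 69) (nat_lit 69) (nat_lit 42)))) (PT.nd (nat_lit 94) (PT.lf (nat_lit 31248) (nat_lit 6) (nat_lit 372) (nat_lit 0) (nat_lit 70) (nat_lit 69) (nat_lit 41)) (PT.nd (nat_lit 94) (PT.lf (nat_lit 29568) (nat_lit 6) (nat_lit 352) (nat_lit 0) (nat_lit 71) (nat_lit 69) (nat_lit 40)) (PT.lf (nat_lit 27804) (nat_lit 6) (nat_lit 331) (nat_lit 0) (nat_lit 72) (nat_lit 69) (nat_lit 39))))))) (PT.nd (nat_lit 1128) (PT.nd (nat_lit 564) (PT.nd (nat_lit 282) (PT.nd (nat_lit 94) (PT.lf (nat_lit 25956) (nat_lit 6) (nat_lit 309) (nat_lit 0) (nat_lit 73) (nat_lit 69) (nat_lit 38)) (PT.nd (nat_lit 94) (PT.lf (nat_lit 24024) (nat_lit 6) (nat_lit 286) (nat_lit 0) (nat_lit 74) (nat_lit 69) (nat_lit 37)) (PT.lf (nat_lit 22848) (nat_lit 6) (nat_lit 272) (nat_lit 0) (nat_lit 75) (nat_lit 69) (nat_lit 36)))) (PT.nd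 (nat_lit 94) (PT.lf (nat_lit 21840) (nat_lit 6) (nat_lit 260) (nat_lit 0) (nat_lit 76) (nat_lit 69) (nat_lit 35)) (PT.nd (nat_lit 94) (PT.lf (nat_lit 20832) (nat_lit 6) (nat_lit 248) (nat_lit 0) (nat_lit 77) (nat_lit 69) (nat_lit 34)) (PT.lf (nat_lit 19908) (nat_lit 6) (nat_lit 237) (nat_lit 0) (nat_lit 78) (nat_lit 69) (nat_lit 33))))) (PT.nd (nat_lit 282) (PT.nd (nat_lit 94) (PT.lf (nat_lit 18984) (nat_lit 6) (nat_lit 226) (nat_lit 0) (nat_lit 79) (nat_lit 69) (nat_lit 32)) (PT.nd (nat_lit 94) (PT.lf (nat_lit 18060) (nat_lit 6) (nat_lit 215) (nat_lit 0) (nat_lit 80) (nat_lit 69) (nat_lit 31)) (PT.lf (nat_lit 17136) (nat_lit 6) (nat_lit 204) (nat_lit 0) (nat_lit 81) (nat_lit 69) (nat_lit 30)))) (PT.nd (nat_lit 94) (PT.lf (nat_lit 16296) (nat_lit 6) (nat_lit 194) (nat_lit 0) (nat_lit 82) (nat_lit 69) (nat_lit 29)) (PT.nd (nat_lit 94) (PT.lf (nat_lit 15456) (nat_lit 6) (nat_lit 184) (nat_lit 0) (nat_lit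 83) (nat_lit 69) (nat_lit 28)) (PT.lf (nat_lit 14616) (nat_lit 6) (nat_lit 174) (nat_lit 0) (nat_lit 84) (nat_lit 69) (nat_lit 27)))))) (PT.nd (nat_lit 39950) (PT.nd (nat_lit 39668) (PT.nd (nat_lit 39480) (PT.lf (nat_lit 13776) (nat_lit 6) (nat_lit 164) (nat_lit 0) (nat_lit 85) (nat_lit 69) (nat_lit 26)) (PT.nd (nat_lit 94) (PT.lf (nat_lit 12348) (nat_lit 6) (nat_lit 147) (nat_lit 5) (nat_lit 24) (nat_lit 70) (nat_lit 86)) (PT.lf (nat_lit 13104) (nat_lit 6) (nat_lit 156) (nat_lit 5) (nat_lit 25) (nat_lit 70) (nat_lit 85)))) (PT.nd (nat_lit 94) (PT.lf (nat_lit 13860) (nat_lit 6) (nat_lit 165) (nat_lit 5) (nat_lit 26) (nat_lit 70) (nat_lit 84)) (PT.nd (nat_lit 94) (PT.lf (nat_lit 14700) (nat_lit 6) (nat_lit 175) (nat_lit 5) (nat_lit 27) (nat_lit 70) (nat_lit 83)) (PT.lf (nat_lit 15540) (nat_lit 6) (nat_lit 185) (nat_lit 5) (nat_lit 28) (nat_lit 70) (nat_lit 82))))) (PT.nd (nat_lit 282) (PT.nd (nat_lit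 94) (PT.lf (nat_lit 16380) (nat_lit 6) (nat_lit 195) (nat_lit 5) (nat_lit 29) (nat_lit 70) (nat_lit 81)) (PT.nd (nat_lit 94) (PT.lf (nat_lit 17220) (nat_lit 6) (nat_lit 205) (nat_lit 5) (nat_lit 30) (nat_lit 70) (nat_lit 80)) (PT.lf (nat_lit 18144) (nat_lit 6) (nat_lit 216) (nat_lit 5) (nat_lit 31) (nat_lit 70) (nat_lit 79)))) (PT.nd (nat_lit 94) (PT.lf (nat_lit 19068) (nat_lit 6) (nat_lit 227) (nat_lit 5) (nat_lit 32) (nat_lit 70) (nat_lit 78)) (PT.nd (nat_lit 94) (PT.lf (nat_lit 19992) (nat_lit 6) (nat_lit 238) (nat_lit 5) (nat_lit 33) (nat_lit 70) (nat_lit 77)) (PT.lf (nat_lit 20916) (nat_lit 6) (nat_lit 249) (nat_lit 5) (nat_lit 34) (nat_lit 70) (nat_lit 76))))))))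
noncomputable def pc38 : PT := (PT.nd (nat_lit 2162) (PT.nd (nat_lit 1034) (PT.nd (nat_lit 470) (PT.nd (nat_lit 188) (PT.nd (nat_lit 94) (PT.lf (nat_lit 21924) (nat_lit 6) (nat_lit 261) (nat_lit 5) (nat_lit 35) (nat_lit 70) (nat_lit 75)) (PT.lf (nat_lit 22932) (nat_lit 6) (nat_lit 273) (nat_lit 5) (nat_lit 36) (nat_lit 70) (nat_lit 74))) (PT.nd (nat_lit 94) (PT.lf (nat_lit 24108) (nat_lit 6) (nat_lit 287) (nat_lit 5) (nat_lit 37) (nat_lit 70) (nat_lit 73)) (PT.nd (nat_lit 94) (PT.lf (nat_lit 26040) (nat_lit 6) (nat_lit 310) (nat_lit 5) (nat_lit 38) (nat_lit 70) (nat_lit 72)) (PT.lf (nat_lit 27888) (nat_lit 6) (nat_lit 332) (nat_lit 5) (nat_lit 39) (nat_lit 70) (nat_lit 71))))) (PT.nd (nat_lit 282) (PT.nd (nat_lit 94) (PT.lf (nat_lit 29652) (nat_lit 3) (nat_lit 353) (nat_lit 4) (nat_lit 40) (nat_lit 70) (nat_lit 70)) (PT.nd (nat_lit 94) (PT.lf (nat_lit 31248) (nat_lit 6) (nat_lit 372) (nat_lit 4) (nat_lit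 41) (nat_lit 70) (nat_lit 69)) (PT.lf (nat_lit 32760) (nat_lit 6) (nat_lit 390) (nat_lit 4) (nat_lit 42) (nat_lit 70) (nat_lit 68)))) (PT.nd (nat_lit 94) (PT.lf (nat_lit 34188) (nat_lit 6) (nat_lit 407) (nat_lit 4) (nat_lit 43) (nat_lit 70) (nat_lit 67)) (PT.nd (nat_lit 94) (PT.lf (nat_lit 35532) (nat_lit 6) (nat_lit 423) (nat_lit 4) (nat_lit 44) (nat_lit 70) (nat_lit 66)) (PT.lf (nat_lit 36792) (nat_lit 6) (nat_lit 438) (nat_lit 4) (nat_lit 45) (nat_lit 70) (nat_lit 65)))))) (PT.nd (nat_lit 564) (PT.nd (nat_lit 282) (PT.nd (nat_lit 94) (PT.lf (nat_lit 37968) (nat_lit 6) (nat_lit 452) (nat_lit 4) (nat_lit 46) (nat_lit 70) (nat_lit 64)) (PT.nd (nat_lit 94) (PT.lf (nat_lit 39060) (nat_lit 6) (nat_lit 465) (nat_lit 4) (nat_lit 47) (nat_lit 70) (nat_lit 63)) (PT.lf (nat_lit 40068) (nat_lit 6) (nat_lit 477) (nat_lit 4) (nat_lit 48) (nat_lit 70) (nat_lit 62)))) (PT.nd (nat_lit 94) (PT.lf (nat_lit 40992) (nat_lit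 6) (nat_lit 488) (nat_lit 4) (nat_lit 49) (nat_lit 70) (nat_lit 61)) (PT.nd (nat_lit 94) (PT.lf (nat_lit 41832) (nat_lit 6) (nat_lit 498) (nat_lit 4) (nat_lit 50) (nat_lit 70) (nat_lit 60)) (PT.lf (nat_lit 41748) (nat_lit 6) (nat_lit 497) (nat_lit 4) (nat_lit 51) (nat_lit 70) (nat_lit 59))))) (PT.nd (nat_lit 282) (PT.nd (nat_lit 94) (PT.lf (nat_lit 41664) (nat_lit 6) (nat_lit 496) (nat_lit 4) (nat_lit 52) (nat_lit 70) (nat_lit 58)) (PT.nd (nat_lit 94) (PT.lf (nat_lit 41580) (nat_lit 6) (nat_lit 495) (nat_lit 4) (nat_lit 53) (nat_lit 70) (nat_lit 57)) (PT.lf (nat_lit 41496) (nat_lit 6) (nat_lit 494) (nat_lit 4) (nat_lit 54) (nat_lit 70) (nat_lit 56)))) (PT.nd (nat_lit 94) (PT.lf (nat_lit 41412) (nat_lit 3) (nat_lit 493) (nat_lit 2) (nat_lit 55) (nat_lit 70) (nat_lit 55)) (PT.nd (nat_lit 94) (PT.lf (nat_lit 41496) (nat_lit 6) (nat_lit 494) (nat_lit 2) (nat_lit 56) (nat_lit 70) (nat_lit 54)) (PT.lf (nat_lit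 41580) (nat_lit 6) (nat_lit 495) (nat_lit 2) (nat_lit 57) (nat_lit 70) (nat_lit 53))))))) (PT.nd (nat_lit 1128) (PT.nd (nat_lit 564) (PT.nd (nat_lit 282) (PT.nd (nat_lit 94) (PT.lf (nat_lit 41664) (nat_lit 6) (nat_lit 496) (nat_lit 2) (nat_lit 58) (nat_lit 70) (nat_lit 52)) (PT.nd (nat_lit 94) (PT.lf (nat_lit 41748) (nat_lit 6) (nat_lit 497) (nat_lit 2) (nat_lit 59) (nat_lit 70) (nat_lit 51)) (PT.lf (nat_lit 41832) (nat_lit 6) (nat_lit 498) (nat_lit 2) (nat_lit 60) (nat_lit 70) (nat_lit 50)))) (PT.nd (nat_lit 94) (PT.lf (nat_lit 40992) (nat_lit 6) (nat_lit 488) (nat_lit 2) (nat_lit 61) (nat_lit 70) (nat_lit 49)) (PT.nd (nat_lit 94) (PT.lf (nat_lit 40068) (nat_lit 6) (nat_lit 477) (nat_lit 2) (nat_lit 62) (nat_lit 70) (nat_lit 48)) (PT.lf (nat_lit 39060) (nat_lit 6) (nat_lit 465) (nat_lit 2) (nat_lit 63) (nat_lit 70) (nat_lit 47))))) (PT.nd (nat_lit 282) (PT.nd (nat_lit 94) (PT.lf (nat_lit 37968) (nat_lit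 6) (nat_lit 452) (nat_lit 2) (nat_lit 64) (nat_lit 70) (nat_lit 46)) (PT.nd (nat_lit 94) (PT.lf (nat_lit 36792) (nat_lit 6) (nat_lit 438) (nat_lit 2) (nat_lit 65) (nat_lit 70) (nat_lit 45)) (PT.lf (nat_lit 35532) (nat_lit 6) (nat_lit 423) (nat_lit 2) (nat_lit 66) (nat_lit 70) (nat_lit 44)))) (PT.nd (nat_lit 94) (PT.lf (nat_lit 34188) (nat_lit 6) (nat_lit 407) (nat_lit 2) (nat_lit 67) (nat_lit 70) (nat_lit 43)) (PT.nd (nat_lit 94) (PT.lf (nat_lit 32760) (nat_lit 6) (nat_lit 390) (nat_lit 2) (nat_lit 68) (nat_lit 70) (nat_lit 42)) (PT.lf (nat_lit 31248) (nat_lit 6) (nat_lit 372) (nat_lit 2) (nat_lit 69) (nat_lit 70) (nat_lit 41)))))) (PT.nd (nat_lit 564) (PT.nd (nat_lit 282) (PT.nd (nat_lit 94) (PT.lf (nat_lit 29652) (nat_lit 3) (nat_lit 353) (nat_lit 0) (nat_lit 70) (nat_lit 70) (nat_lit 40)) (PT.nd (nat_lit 94) (PT.lf (nat_lit 27888) (nat_lit 6) (nat_lit 332) (nat_lit 0) (nat_lit 71) (nat_lit 70) (nat_lit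 39)) (PT.lf (nat_lit 26040) (nat_lit 6) (nat_lit 310) (nat_lit 0) (nat_lit 72) (nat_lit 70) (nat_lit 38)))) (PT.nd (nat_lit 94) (PT.lf (nat_lit 24108) (nat_lit 6) (nat_lit 287) (nat_lit 0) (nat_lit 73) (nat_lit 70) (nat_lit 37)) (PT.nd (nat_lit 94) (PT.lf (nat_lit 22932) (nat_lit 6) (nat_lit 273) (nat_lit 0) (nat_lit 74) (nat_lit 70) (nat_lit 36)) (PT.lf (nat_lit 21924) (nat_lit 6) (nat_lit 261) (nat_lit 0) (nat_lit 75) (nat_lit 70) (nat_lit 35))))) (PT.nd (nat_lit 282) (PT.nd (nat_lit 94) (PT.lf (nat_lit 20916) (nat_lit 6) (nat_lit 249) (nat_lit 0) (nat_lit 76) (nat_lit 70) (nat_lit 34)) (PT.nd (nat_lit 94) (PT.lf (nat_lit 19992) (nat_lit 6) (nat_lit 238) (nat_lit 0) (nat_lit 77) (nat_lit 70) (nat_lit 33)) (PT.lf (nat_lit 19068) (nat_lit 6) (nat_lit 227) (nat_lit 0) (nat_lit 78) (nat_lit 70) (nat_lit 32)))) (PT.nd (nat_lit 94) (PT.lf (nat_lit 18144) (nat_lit 6) (nat_lit 216) (nat_lit 0) (nat_lit 79)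 (nat_lit 70) (nat_lit 31)) (PT.nd (nat_lit 94) (PT.lf (nat_lit 17220) (nat_lit 6) (nat_lit 205) (nat_lit 0) (nat_lit 80) (nat_lit 70) (nat_lit 30)) (PT.lf (nat_lit 16380) (nat_lit 6) (nat_lit 195) (nat_lit 0) (nat_lit 81) (nat_lit 70) (nat_lit 29))))))))
noncomputable def pc39 : PT := (PT.nd (nat_lit 41360) (PT.nd (nat_lit 40232) (PT.nd (nat_lit 39668) (PT.nd (nat_lit 188) (PT.nd (nat_lit 94) (PT.lf (nat_lit 15540) (nat_lit 6) (nat_lit 185) (nat_lit 0) (nat_lit 82) (nat_lit 70) (nat_lit 28)) (PT.lf (nat_lit 14700) (nat_lit 6) (nat_lit 175) (nat_lit 0) (nat_lit 83) (nat_lit 70) (nat_lit 27))) (PT.nd (nat_lit 94) (PT.lf (nat_lit 13860) (nat_lit 6) (nat_lit 165) (nat_lit 0) (nat_lit 84) (nat_lit 70) (nat_lit 26)) (PT.nd (nat_lit 94) (PT.lf (nat_lit 13104) (nat_lit 6) (nat_lit 156) (nat_lit 0) (nat_lit 85) (nat_lit 70) (nat_lit 25)) (PT.lf (nat_lit 12348) (nat_lit 6) (nat_lit 147) (nat_lit 0) (nat_lit 86)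 (nat_lit 70) (nat_lit 24))))) (PT.nd (nat_lit 282) (PT.nd (nat_lit 94) (PT.lf (nat_lit 11676) (nat_lit 6) (nat_lit 139) (nat_lit 5) (nat_lit 23) (nat_lit 71) (nat_lit 86)) (PT.nd (nat_lit 94) (PT.lf (nat_lit 12432) (nat_lit 6) (nat_lit 148) (nat_lit 5) (nat_lit 24) (nat_lit 71) (nat_lit 85)) (PT.lf (nat_lit 13188) (nat_lit 6) (nat_lit 157) (nat_lit 5) (nat_lit 25) (nat_lit 71) (nat_lit 84)))) (PT.nd (nat_lit 94) (PT.lf (nat_lit 13944) (nat_lit 6) (nat_lit 166) (nat_lit 5) (nat_lit 26) (nat_lit 71) (nat_lit 83)) (PT.nd (nat_lit 94) (PT.lf (nat_lit 14784) (nat_lit 6) (nat_lit 176) (nat_lit 5) (nat_lit 27) (nat_lit 71) (nat_lit 82)) (PT.lf (nat_lit 15624) (nat_lit 6) (nat_lit 186) (nat_lit 5) (nat_lit 28) (nat_lit 71) (nat_lit 81)))))) (PT.nd (nat_lit 564) (PT.nd (nat_lit 282) (PT.nd (nat_lit 94) (PT.lf (nat_lit 16464) (nat_lit 6) (nat_lit 196) (nat_lit 5) (nat_lit 29) (nat_lit 71) (nat_lit 80)) (PT.nd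 (nat_lit 94) (PT.lf (nat_lit 17304) (nat_lit 6) (nat_lit 206) (nat_lit 5) (nat_lit 30) (nat_lit 71) (nat_lit 79)) (PT.lf (nat_lit 18228) (nat_lit 6) (nat_lit 217) (nat_lit 5) (nat_lit 31) (nat_lit 71) (nat_lit 78)))) (PT.nd (nat_lit 94) (PT.lf (nat_lit 19152) (nat_lit 6) (nat_lit 228) (nat_lit 5) (nat_lit 32) (nat_lit 71) (nat_lit 77)) (PT.nd (nat_lit 94) (PT.lf (nat_lit 20076) (nat_lit 6) (nat_lit 239) (nat_lit 5) (nat_lit 33) (nat_lit 71) (nat_lit 76)) (PT.lf (nat_lit 21000) (nat_lit 6) (nat_lit 250) (nat_lit 5) (nat_lit 34) (nat_lit 71) (nat_lit 75))))) (PT.nd (nat_lit 282) (PT.nd (nat_lit 94) (PT.lf (nat_lit 22008) (nat_lit 6) (nat_lit 262) (nat_lit 5) (nat_lit 35) (nat_lit 71) (nat_lit 74)) (PT.nd (nat_lit 94) (PT.lf (nat_lit 23016) (nat_lit 6) (nat_lit 274) (nat_lit 5) (nat_lit 36) (nat_lit 71) (nat_lit 73)) (PT.lf (nat_lit 24192) (nat_lit 6) (nat_lit 288) (nat_lit 5) (nat_lit 37) (nat_lit 71)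 (nat_lit 72)))) (PT.nd (nat_lit 94) (PT.lf (nat_lit 26124) (nat_lit 3) (nat_lit 311) (nat_lit 4) (nat_lit 38) (nat_lit 71) (nat_lit 71)) (PT.nd (nat_lit 94) (PT.lf (nat_lit 27888) (nat_lit 6) (nat_lit 332) (nat_lit 4) (nat_lit 39) (nat_lit 71) (nat_lit 70)) (PT.lf (nat_lit 29568) (nat_lit 6) (nat_lit 352) (nat_lit 4) (nat_lit 40) (nat_lit 71) (nat_lit 69))))))) (PT.nd (nat_lit 1128) (PT.nd (nat_lit 564) (PT.nd (nat_lit 282) (PT.nd (nat_lit 94) (PT.lf (nat_lit 31164) (nat_lit 6) (nat_lit 371) (nat_lit 4) (nat_lit 41) (nat_lit 71) (nat_lit 68)) (PT.nd (nat_lit 94) (PT.lf (nat_lit 32676) (nat_lit 6) (nat_lit 389) (nat_lit 4) (nat_lit 42) (nat_lit 71) (nat_lit 67)) (PT.lf (nat_lit 34104) (nat_lit 6) (nat_lit 406) (nat_lit 4) (nat_lit 43) (nat_lit 71) (nat_lit 66)))) (PT.nd (nat_lit 94) (PT.lf (nat_lit 35448) (nat_lit 6) (nat_lit 422) (nat_lit 4) (nat_lit 44) (nat_lit 71) (nat_lit 65)) (PT.nd (nat_lit 94)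 (PT.lf (nat_lit 36708) (nat_lit 6) (nat_lit 437) (nat_lit 4) (nat_lit 45) (nat_lit 71) (nat_lit 64)) (PT.lf (nat_lit 37884) (nat_lit 6) (nat_lit 451) (nat_lit 4) (nat_lit 46) (nat_lit 71) (nat_lit 63))))) (PT.nd (nat_lit 282) (PT.nd (nat_lit 94) (PT.lf (nat_lit 38976) (nat_lit 6) (nat_lit 464) (nat_lit 4) (nat_lit 47) (nat_lit 71) (nat_lit 62)) (PT.nd (nat_lit 94) (PT.lf (nat_lit 39984) (nat_lit 6) (nat_lit 476) (nat_lit 4) (nat_lit 48) (nat_lit 71) (nat_lit 61)) (PT.lf (nat_lit 40908) (nat_lit 6) (nat_lit 487) (nat_lit 4) (nat_lit 49) (nat_lit 71) (nat_lit 60)))) (PT.nd (nat_lit 94) (PT.lf (nat_lit 40824) (nat_lit 6) (nat_lit 486) (nat_lit 4) (nat_lit 50) (nat_lit 71) (nat_lit 59)) (PT.nd (nat_lit 94) (PT.lf (nat_lit 40740) (nat_lit 6) (nat_lit 485) (nat_lit 4) (nat_lit 51) (nat_lit 71) (nat_lit 58)) (PT.lf (nat_lit 40656) (nat_lit 6) (nat_lit 484) (nat_lit 4) (nat_lit 52) (nat_lit 71) (nat_lit 57))))))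 (PT.nd (nat_lit 564) (PT.nd (nat_lit 282) (PT.nd (nat_lit 94) (PT.lf (nat_lit 40572) (nat_lit 6) (nat_lit 483) (nat_lit 4) (nat_lit 53) (nat_lit 71) (nat_lit 56)) (PT.nd (nat_lit 94) (PT.lf (nat_lit 40488) (nat_lit 6) (nat_lit 482) (nat_lit 4) (nat_lit 54) (nat_lit 71) (nat_lit 55)) (PT.lf (nat_lit 40488) (nat_lit 6) (nat_lit 482) (nat_lit 2) (nat_lit 55) (nat_lit 71) (nat_lit 54)))) (PT.nd (nat_lit 94) (PT.lf (nat_lit 40572) (nat_lit 6) (nat_lit 483) (nat_lit 2) (nat_lit 56) (nat_lit 71) (nat_lit 53)) (PT.nd (nat_lit 94) (PT.lf (nat_lit 40656) (nat_lit 6) (nat_lit 484) (nat_lit 2) (nat_lit 57) (nat_lit 71) (nat_lit 52)) (PT.lf (nat_lit 40740) (nat_lit 6) (nat_lit 485) (nat_lit 2) (nat_lit 58) (nat_lit 71) (nat_lit 51))))) (PT.nd (nat_lit 282) (PT.nd (nat_lit 94) (PT.lf (nat_lit 40824) (nat_lit 6) (nat_lit 486) (nat_lit 2) (nat_lit 59) (nat_lit 71) (nat_lit 50)) (PT.nd (nat_lit 94) (PT.lf (nat_lit 40908)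 (nat_lit 6) (nat_lit 487) (nat_lit 2) (nat_lit 60) (nat_lit 71) (nat_lit 49)) (PT.lf (nat_lit 39984) (nat_lit 6) (nat_lit 476) (nat_lit 2) (nat_lit 61) (nat_lit 71) (nat_lit 48)))) (PT.nd (nat_lit 94) (PT.lf (nat_lit 38976) (nat_lit 6) (nat_lit 464) (nat_lit 2) (nat_lit 62) (nat_lit 71) (nat_lit 47)) (PT.nd (nat_lit 94) (PT.lf (nat_lit 37884) (nat_lit 6) (nat_lit 451) (nat_lit 2) (nat_lit 63) (nat_lit 71) (nat_lit 46)) (PT.lf (nat_lit 36708) (nat_lit 6) (nat_lit 437) (nat_lit 2) (nat_lit 64) (nat_lit 71) (nat_lit 45))))))))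
noncomputable def pc40 : PT := (PT.nd (nat_lit 41266) (PT.nd (nat_lit 1034) (PT.nd (nat_lit 470) (PT.nd (nat_lit 188) (PT.nd (nat_lit 94) (PT.lf (nat_lit 35448) (nat_lit 6) (nat_lit 422) (nat_lit 2) (nat_lit 65) (nat_lit 71) (nat_lit 44)) (PT.lf (nat_lit 34104) (nat_lit 6) (nat_lit 406) (nat_lit 2) (nat_lit 66) (nat_lit 71) (nat_lit 43))) (PT.nd (nat_lit 94) (PT.lf (nat_lit 32676) (nat_lit 6) (nat_lit 389) (nat_lit 2) (nat_lit 67) (nat_lit 71) (nat_lit 42)) (PT.nd (nat_lit 94) (PT.lf (nat_lit 31164) (nat_lit 6) (nat_lit 371) (nat_lit 2) (nat_lit 68) (nat_lit 71) (nat_lit 41)) (PT.lf (nat_lit 29568) (nat_lit 6) (nat_lit 352) (nat_lit 2) (nat_lit 69) (nat_lit 71) (nat_lit 40))))) (PT.nd (nat_lit 282) (PT.nd (nat_lit 94) (PT.lf (nat_lit 27888) (nat_lit 6) (nat_lit 332) (nat_lit 2) (nat_lit 70) (nat_lit 71) (nat_lit 39)) (PT.nd (nat_lit 94) (PT.lf (nat_lit 26124) (nat_lit 3) (nat_lit 311) (nat_lit 0) (nat_lit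 71) (nat_lit 71) (nat_lit 38)) (PT.lf (nat_lit 24192) (nat_lit 6) (nat_lit 288) (nat_lit 0) (nat_lit 72) (nat_lit 71) (nat_lit 37)))) (PT.nd (nat_lit 94) (PT.lf (nat_lit 23016) (nat_lit 6) (nat_lit 274) (nat_lit 0) (nat_lit 73) (nat_lit 71) (nat_lit 36)) (PT.nd (nat_lit 94) (PT.lf (nat_lit 22008) (nat_lit 6) (nat_lit 262) (nat_lit 0) (nat_lit 74) (nat_lit 71) (nat_lit 35)) (PT.lf (nat_lit 21000) (nat_lit 6) (nat_lit 250) (nat_lit 0) (nat_lit 75) (nat_lit 71) (nat_lit 34)))))) (PT.nd (nat_lit 564) (PT.nd (nat_lit 282) (PT.nd (nat_lit 94) (PT.lf (nat_lit 20076) (nat_lit 6) (nat_lit 239) (nat_lit 0) (nat_lit 76) (nat_lit 71) (nat_lit 33)) (PT.nd (nat_lit 94) (PT.lf (nat_lit 19152) (nat_lit 6) (nat_lit 228) (nat_lit 0) (nat_lit 77) (nat_lit 71) (nat_lit 32)) (PT.lf (nat_lit 18228) (nat_lit 6) (nat_lit 217) (nat_lit 0) (nat_lit 78) (nat_lit 71) (nat_lit 31)))) (PT.nd (nat_lit 94) (PT.lf (nat_lit 17304) (nat_lit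 6) (nat_lit 206) (nat_lit 0) (nat_lit 79) (nat_lit 71) (nat_lit 30)) (PT.nd (nat_lit 94) (PT.lf (nat_lit 16464) (nat_lit 6) (nat_lit 196) (nat_lit 0) (nat_lit 80) (nat_lit 71) (nat_lit 29)) (PT.lf (nat_lit 15624) (nat_lit 6) (nat_lit 186) (nat_lit 0) (nat_lit 81) (nat_lit 71) (nat_lit 28))))) (PT.nd (nat_lit 282) (PT.nd (nat_lit 94) (PT.lf (nat_lit 14784) (nat_lit 6) (nat_lit 176) (nat_lit 0) (nat_lit 82) (nat_lit 71) (nat_lit 27)) (PT.nd (nat_lit 94) (PT.lf (nat_lit 13944) (nat_lit 6) (nat_lit 166) (nat_lit 0) (nat_lit 83) (nat_lit 71) (nat_lit 26)) (PT.lf (nat_lit 13188) (nat_lit 6) (nat_lit 157) (nat_lit 0) (nat_lit 84) (nat_lit 71) (nat_lit 25)))) (PT.nd (nat_lit 94) (PT.lf (nat_lit 12432) (nat_lit 6) (nat_lit 148) (nat_lit 0) (nat_lit 85) (nat_lit 71) (nat_lit 24)) (PT.nd (nat_lit 39198) (PT.lf (nat_lit 11676) (nat_lit 6) (nat_lit 139) (nat_lit 0) (nat_lit 86) (nat_lit 71) (nat_lit 23)) (PT.lf (nat_lit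 11004) (nat_lit 6) (nat_lit 131) (nat_lit 5) (nat_lit 22) (nat_lit 72) (nat_lit 86))))))) (PT.nd (nat_lit 1034) (PT.nd (nat_lit 470) (PT.nd (nat_lit 188) (PT.nd (nat_lit 94) (PT.lf (nat_lit 11760) (nat_lit 6) (nat_lit 140) (nat_lit 5) (nat_lit 23) (nat_lit 72) (nat_lit 85)) (PT.lf (nat_lit 12516) (nat_lit 6) (nat_lit 149) (nat_lit 5) (nat_lit 24) (nat_lit 72) (nat_lit 84))) (PT.nd (nat_lit 94) (PT.lf (nat_lit 13272) (nat_lit 6) (nat_lit 158) (nat_lit 5) (nat_lit 25) (nat_lit 72) (nat_lit 83)) (PT.nd (nat_lit 94) (PT.lf (nat_lit 14028) (nat_lit 6) (nat_lit 167) (nat_lit 5) (nat_lit 26) (nat_lit 72) (nat_lit 82)) (PT.lf (nat_lit 14868) (nat_lit 6) (nat_lit 177) (nat_lit 5) (nat_lit 27) (nat_lit 72) (nat_lit 81))))) (PT.nd (nat_lit 282) (PT.nd (nat_lit 94) (PT.lf (nat_lit 15708) (nat_lit 6) (nat_lit 187) (nat_lit 5) (nat_lit 28) (nat_lit 72) (nat_lit 80)) (PT.nd (nat_lit 94) (PT.lf (nat_lit 16548) (nat_lit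 6) (nat_lit 197) (nat_lit 5) (nat_lit 29) (nat_lit 72) (nat_lit 79)) (PT.lf (nat_lit 17388) (nat_lit 6) (nat_lit 207) (nat_lit 5) (nat_lit 30) (nat_lit 72) (nat_lit 78)))) (PT.nd (nat_lit 94) (PT.lf (nat_lit 18312) (nat_lit 6) (nat_lit 218) (nat_lit 5) (nat_lit 31) (nat_lit 72) (nat_lit 77)) (PT.nd (nat_lit 94) (PT.lf (nat_lit 19236) (nat_lit 6) (nat_lit 229) (nat_lit 5) (nat_lit 32) (nat_lit 72) (nat_lit 76)) (PT.lf (nat_lit 20160) (nat_lit 6) (nat_lit 240) (nat_lit 5) (nat_lit 33) (nat_lit 72) (nat_lit 75)))))) (PT.nd (nat_lit 564) (PT.nd (nat_lit 282) (PT.nd (nat_lit 94) (PT.lf (nat_lit 21084) (nat_lit 6) (nat_lit 251) (nat_lit 5) (nat_lit 34) (nat_lit 72) (nat_lit 74)) (PT.nd (nat_lit 94) (PT.lf (nat_lit 22092) (nat_lit 6) (nat_lit 263) (nat_lit 5) (nat_lit 35) (nat_lit 72) (nat_lit 73)) (PT.lf (nat_lit 23100) (nat_lit 3) (nat_lit 275) (nat_lit 4) (nat_lit 36) (nat_lit 72) (nat_lit 72)))) (PT.nd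 (nat_lit 94) (PT.lf (nat_lit 24192) (nat_lit 6) (nat_lit 288) (nat_lit 4) (nat_lit 37) (nat_lit 72) (nat_lit 71)) (PT.nd (nat_lit 94) (PT.lf (nat_lit 26040) (nat_lit 6) (nat_lit 310) (nat_lit 4) (nat_lit 38) (nat_lit 72) (nat_lit 70)) (PT.lf (nat_lit 27804) (nat_lit 6) (nat_lit 331) (nat_lit 4) (nat_lit 39) (nat_lit 72) (nat_lit 69))))) (PT.nd (nat_lit 282) (PT.nd (nat_lit 94) (PT.lf (nat_lit 29484) (nat_lit 6) (nat_lit 351) (nat_lit 4) (nat_lit 40) (nat_lit 72) (nat_lit 68)) (PT.nd (nat_lit 94) (PT.lf (nat_lit 31080) (nat_lit 6) (nat_lit 370) (nat_lit 4) (nat_lit 41) (nat_lit 72) (nat_lit 67)) (PT.lf (nat_lit 32592) (nat_lit 6) (nat_lit 388) (nat_lit 4) (nat_lit 42) (nat_lit 72) (nat_lit 66)))) (PT.nd (nat_lit 94) (PT.lf (nat_lit 34020) (nat_lit 6) (nat_lit 405) (nat_lit 4) (nat_lit 43) (nat_lit 72) (nat_lit 65)) (PT.nd (nat_lit 94) (PT.lf (nat_lit 35364) (nat_lit 6) (nat_lit 421) (nat_lit 4) (nat_lit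 44) (nat_lit 72) (nat_lit 64)) (PT.lf (nat_lit 36624) (nat_lit 6) (nat_lit 436) (nat_lit 4) (nat_lit 45) (nat_lit 72) (nat_lit 63))))))))
noncomputable def pc41 : PT := (PT.nd (nat_lit 2162) (PT.nd (nat_lit 1034) (PT.nd (nat_lit 470) (PT.nd (nat_lit 188) (PT.nd (nat_lit 94) (PT.lf (nat_lit 37800) (nat_lit 6) (nat_lit 450) (nat_lit 4) (nat_lit 46) (nat_lit 72) (nat_lit 62)) (PT.lf (nat_lit 38892) (nat_lit 6) (nat_lit 463) (nat_lit 4) (nat_lit 47) (nat_lit 72) (nat_lit 61))) (PT.nd (nat_lit 94) (PT.lf (nat_lit 39900) (nat_lit 6) (nat_lit 475) (nat_lit 4) (nat_lit 48) (nat_lit 72) (nat_lit 60)) (PT.nd (nat_lit 94) (PT.lf (nat_lit 39816) (nat_lit 6) (nat_lit 474) (nat_lit 4) (nat_lit 49) (nat_lit 72) (nat_lit 59)) (PT.lf (nat_lit 39732) (nat_lit 6) (nat_lit 473) (nat_lit 4) (nat_lit 50) (nat_lit 72) (nat_lit 58))))) (PT.nd (nat_lit 282) (PT.nd (nat_lit 94) (PT.lf (nat_lit 39648) (nat_lit 6) (nat_lit 472)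 (nat_lit 4) (nat_lit 51) (nat_lit 72) (nat_lit 57)) (PT.nd (nat_lit 94) (PT.lf (nat_lit 39564) (nat_lit 6) (nat_lit 471) (nat_lit 4) (nat_lit 52) (nat_lit 72) (nat_lit 56)) (PT.lf (nat_lit 39480) (nat_lit 6) (nat_lit 470) (nat_lit 4) (nat_lit 53) (nat_lit 72) (nat_lit 55)))) (PT.nd (nat_lit 94) (PT.lf (nat_lit 39396) (nat_lit 3) (nat_lit 469) (nat_lit 2) (nat_lit 54) (nat_lit 72) (nat_lit 54)) (PT.nd (nat_lit 94) (PT.lf (nat_lit 39480) (nat_lit 6) (nat_lit 470) (nat_lit 2) (nat_lit 55) (nat_lit 72) (nat_lit 53)) (PT.lf (nat_lit 39564) (nat_lit 6) (nat_lit 471) (nat_lit 2) (nat_lit 56) (nat_lit 72) (nat_lit 52)))))) (PT.nd (nat_lit 564) (PT.nd (nat_lit 282) (PT.nd (nat_lit 94) (PT.lf (nat_lit 39648) (nat_lit 6) (nat_lit 472) (nat_lit 2) (nat_lit 57) (nat_lit 72) (nat_lit 51)) (PT.nd (nat_lit 94) (PT.lf (nat_lit 39732) (nat_lit 6) (nat_lit 473) (nat_lit 2) (nat_lit 58) (nat_lit 72) (nat_lit 50)) (PT.lf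 (nat_lit 39816) (nat_lit 6) (nat_lit 474) (nat_lit 2) (nat_lit 59) (nat_lit 72) (nat_lit 49)))) (PT.nd (nat_lit 94) (PT.lf (nat_lit 39900) (nat_lit 6) (nat_lit 475) (nat_lit 2) (nat_lit 60) (nat_lit 72) (nat_lit 48)) (PT.nd (nat_lit 94) (PT.lf (nat_lit 38892) (nat_lit 6) (nat_lit 463) (nat_lit 2) (nat_lit 61) (nat_lit 72) (nat_lit 47)) (PT.lf (nat_lit 37800) (nat_lit 6) (nat_lit 450) (nat_lit 2) (nat_lit 62) (nat_lit 72) (nat_lit 46))))) (PT.nd (nat_lit 282) (PT.nd (nat_lit 94) (PT.lf (nat_lit 36624) (nat_lit 6) (nat_lit 436) (nat_lit 2) (nat_lit 63) (nat_lit 72) (nat_lit 45)) (PT.nd (nat_lit 94) (PT.lf (nat_lit 35364) (nat_lit 6) (nat_lit 421) (nat_lit 2) (nat_lit 64) (nat_lit 72) (nat_lit 44)) (PT.lf (nat_lit 34020) (nat_lit 6) (nat_lit 405) (nat_lit 2) (nat_lit 65) (nat_lit 72) (nat_lit 43)))) (PT.nd (nat_lit 94) (PT.lf (nat_lit 32592) (nat_lit 6) (nat_lit 388) (nat_lit 2) (nat_lit 66) (nat_lit 72)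 (nat_lit 42)) (PT.nd (nat_lit 94) (PT.lf (nat_lit 31080) (nat_lit 6) (nat_lit 370) (nat_lit 2) (nat_lit 67) (nat_lit 72) (nat_lit 41)) (PT.lf (nat_lit 29484) (nat_lit 6) (nat_lit 351) (nat_lit 2) (nat_lit 68) (nat_lit 72) (nat_lit 40))))))) (PT.nd (nat_lit 1128) (PT.nd (nat_lit 564) (PT.nd (nat_lit 282) (PT.nd (nat_lit 94) (PT.lf (nat_lit 27804) (nat_lit 6) (nat_lit 331) (nat_lit 2) (nat_lit 69) (nat_lit 72) (nat_lit 39)) (PT.nd (nat_lit 94) (PT.lf (nat_lit 26040) (nat_lit 6) (nat_lit 310) (nat_lit 2) (nat_lit 70) (nat_lit 72) (nat_lit 38)) (PT.lf (nat_lit 24192) (nat_lit 6) (nat_lit 288) (nat_lit 2) (nat_lit 71) (nat_lit 72) (nat_lit 37)))) (PT.nd (nat_lit 94) (PT.lf (nat_lit 23100) (nat_lit 3) (nat_lit 275) (nat_lit 0) (nat_lit 72) (nat_lit 72) (nat_lit 36)) (PT.nd (nat_lit 94) (PT.lf (nat_lit 22092) (nat_lit 6) (nat_lit 263) (nat_lit 0) (nat_lit 73) (nat_lit 72) (nat_lit 35)) (PT.lf (nat_lit 21084)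 (nat_lit 6) (nat_lit 251) (nat_lit 0) (nat_lit 74) (nat_lit 72) (nat_lit 34))))) (PT.nd (nat_lit 282) (PT.nd (nat_lit 94) (PT.lf (nat_lit 20160) (nat_lit 6) (nat_lit 240) (nat_lit 0) (nat_lit 75) (nat_lit 72) (nat_lit 33)) (PT.nd (nat_lit 94) (PT.lf (nat_lit 19236) (nat_lit 6) (nat_lit 229) (nat_lit 0) (nat_lit 76) (nat_lit 72) (nat_lit 32)) (PT.lf (nat_lit 18312) (nat_lit 6) (nat_lit 218) (nat_lit 0) (nat_lit 77) (nat_lit 72) (nat_lit 31)))) (PT.nd (nat_lit 94) (PT.lf (nat_lit 17388) (nat_lit 6) (nat_lit 207) (nat_lit 0) (nat_lit 78) (nat_lit 72) (nat_lit 30)) (PT.nd (nat_lit 94) (PT.lf (nat_lit 16548) (nat_lit 6) (nat_lit 197) (nat_lit 0) (nat_lit 79) (nat_lit 72) (nat_lit 29)) (PT.lf (nat_lit 15708) (nat_lit 6) (nat_lit 187) (nat_lit 0) (nat_lit 80) (nat_lit 72) (nat_lit 28)))))) (PT.nd (nat_lit 39480) (PT.nd (nat_lit 282) (PT.nd (nat_lit 94) (PT.lf (nat_lit 14868) (nat_lit 6) (nat_lit 177) (nat_lit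 0) (nat_lit 81) (nat_lit 72) (nat_lit 27)) (PT.nd (nat_lit 94) (PT.lf (nat_lit 14028) (nat_lit 6) (nat_lit 167) (nat_lit 0) (nat_lit 82) (nat_lit 72) (nat_lit 26)) (PT.lf (nat_lit 13272) (nat_lit 6) (nat_lit 158) (nat_lit 0) (nat_lit 83) (nat_lit 72) (nat_lit 25)))) (PT.nd (nat_lit 94) (PT.lf (nat_lit 12516) (nat_lit 6) (nat_lit 149) (nat_lit 0) (nat_lit 84) (nat_lit 72) (nat_lit 24)) (PT.nd (nat_lit 94) (PT.lf (nat_lit 11760) (nat_lit 6) (nat_lit 140) (nat_lit 0) (nat_lit 85) (nat_lit 72) (nat_lit 23)) (PT.lf (nat_lit 11004) (nat_lit 6) (nat_lit 131) (nat_lit 0) (nat_lit 86) (nat_lit 72) (nat_lit 22))))) (PT.nd (nat_lit 282) (PT.nd (nat_lit 94) (PT.lf (nat_lit 9744) (nat_lit 6) (nat_lit 116) (nat_lit 5) (nat_lit 20) (nat_lit 73) (nat_lit 87)) (PT.nd (nat_lit 94) (PT.lf (nat_lit 10416) (nat_lit 6) (nat_lit 124) (nat_lit 5) (nat_lit 21) (nat_lit 73) (nat_lit 86)) (PT.lf (nat_lit 11088) (nat_lit 6) (nat_lit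 132) (nat_lit 5) (nat_lit 22) (nat_lit 73) (nat_lit 85)))) (PT.nd (nat_lit 94) (PT.lf (nat_lit 11844) (nat_lit 6) (nat_lit 141) (nat_lit 5) (nat_lit 23) (nat_lit 73) (nat_lit 84)) (PT.nd (nat_lit 94) (PT.lf (nat_lit 12600) (nat_lit 6) (nat_lit 150) (nat_lit 5) (nat_lit 24) (nat_lit 73) (nat_lit 83)) (PT.lf (nat_lit 13356) (nat_lit 6) (nat_lit 159) (nat_lit 5) (nat_lit 25) (nat_lit 73) (nat_lit 82))))))))
noncomputable def pc42 : PT := (PT.nd (nat_lit 2162) (PT.nd (nat_lit 1034) (PT.nd (nat_lit 470) (PT.nd (nat_lit 188) (PT.nd (nat_lit 94) (PT.lf (nat_lit 14112) (nat_lit 6) (nat_lit 168) (nat_lit 5) (nat_lit 26) (nat_lit 73) (nat_lit 81)) (PT.lf (nat_lit 14952) (nat_lit 6) (nat_lit 178) (nat_lit 5) (nat_lit 27) (nat_lit 73) (nat_lit 80))) (PT.nd (nat_lit 94) (PT.lf (nat_lit 15792) (nat_lit 6) (nat_lit 188) (nat_lit 5) (nat_lit 28) (nat_lit 73) (nat_lit 79)) (PT.nd (nat_lit 94) (PT.lf (nat_lit 16632) (nat_lit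 6) (nat_lit 198) (nat_lit 5) (nat_lit 29) (nat_lit 73) (nat_lit 78)) (PT.lf (nat_lit 17472) (nat_lit 6) (nat_lit 208) (nat_lit 5) (nat_lit 30) (nat_lit 73) (nat_lit 77))))) (PT.nd (nat_lit 282) (PT.nd (nat_lit 94) (PT.lf (nat_lit 18396) (nat_lit 6) (nat_lit 219) (nat_lit 5) (nat_lit 31) (nat_lit 73) (nat_lit 76)) (PT.nd (nat_lit 94) (PT.lf (nat_lit 19320) (nat_lit 6) (nat_lit 230) (nat_lit 5) (nat_lit 32) (nat_lit 73) (nat_lit 75)) (PT.lf (nat_lit 20244) (nat_lit 6) (nat_lit 241) (nat_lit 5) (nat_lit 33) (nat_lit 73) (nat_lit 74)))) (PT.nd (nat_lit 94) (PT.lf (nat_lit 21168) (nat_lit 3) (nat_lit 252) (nat_lit 4) (nat_lit 34) (nat_lit 73) (nat_lit 73)) (PT.nd (nat_lit 94) (PT.lf (nat_lit 22092) (nat_lit 6) (nat_lit 263) (nat_lit 4) (nat_lit 35) (nat_lit 73) (nat_lit 72)) (PT.lf (nat_lit 23016) (nat_lit 6) (nat_lit 274) (nat_lit 4) (nat_lit 36) (nat_lit 73) (nat_lit 71)))))) (PT.nd (nat_lit 564) (PT.nd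 (nat_lit 282) (PT.nd (nat_lit 94) (PT.lf (nat_lit 24108) (nat_lit 6) (nat_lit 287) (nat_lit 4) (nat_lit 37) (nat_lit 73) (nat_lit 70)) (PT.nd (nat_lit 94) (PT.lf (nat_lit 25956) (nat_lit 6) (nat_lit 309) (nat_lit 4) (nat_lit 38) (nat_lit 73) (nat_lit 69)) (PT.lf (nat_lit 27720) (nat_lit 6) (nat_lit 330) (nat_lit 4) (nat_lit 39) (nat_lit 73) (nat_lit 68)))) (PT.nd (nat_lit 94) (PT.lf (nat_lit 29400) (nat_lit 6) (nat_lit 350) (nat_lit 4) (nat_lit 40) (nat_lit 73) (nat_lit 67)) (PT.nd (nat_lit 94) (PT.lf (nat_lit 30996) (nat_lit 6) (nat_lit 369) (nat_lit 4) (nat_lit 41) (nat_lit 73) (nat_lit 66)) (PT.lf (nat_lit 32508) (nat_lit 6) (nat_lit 387) (nat_lit 4) (nat_lit 42) (nat_lit 73) (nat_lit 65))))) (PT.nd (nat_lit 282) (PT.nd (nat_lit 94) (PT.lf (nat_lit 33936) (nat_lit 6) (nat_lit 404) (nat_lit 4) (nat_lit 43) (nat_lit 73) (nat_lit 64)) (PT.nd (nat_lit 94) (PT.lf (nat_lit 35280) (nat_lit 6) (nat_lit 420)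 (nat_lit 4) (nat_lit 44) (nat_lit 73) (nat_lit 63)) (PT.lf (nat_lit 36540) (nat_lit 6) (nat_lit 435) (nat_lit 4) (nat_lit 45) (nat_lit 73) (nat_lit 62)))) (PT.nd (nat_lit 94) (PT.lf (nat_lit 37716) (nat_lit 6) (nat_lit 449) (nat_lit 4) (nat_lit 46) (nat_lit 73) (nat_lit 61)) (PT.nd (nat_lit 94) (PT.lf (nat_lit 38808) (nat_lit 6) (nat_lit 462) (nat_lit 4) (nat_lit 47) (nat_lit 73) (nat_lit 60)) (PT.lf (nat_lit 38724) (nat_lit 6) (nat_lit 461) (nat_lit 4) (nat_lit 48) (nat_lit 73) (nat_lit 59))))))) (PT.nd (nat_lit 1034) (PT.nd (nat_lit 470) (PT.nd (nat_lit 188) (PT.nd (nat_lit 94) (PT.lf (nat_lit 38640) (nat_lit 6) (nat_lit 460) (nat_lit 4) (nat_lit 49) (nat_lit 73) (nat_lit 58)) (PT.lf (nat_lit 38556) (nat_lit 6) (nat_lit 459) (nat_lit 4) (nat_lit 50) (nat_lit 73) (nat_lit 57))) (PT.nd (nat_lit 94) (PT.lf (nat_lit 38472) (nat_lit 6) (nat_lit 458) (nat_lit 4) (nat_lit 51) (nat_lit 73) (nat_lit 56)) (PT.nd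 (nat_lit 94) (PT.lf (nat_lit 38388) (nat_lit 6) (nat_lit 457) (nat_lit 4) (nat_lit 52) (nat_lit 73) (nat_lit 55)) (PT.lf (nat_lit 38304) (nat_lit 6) (nat_lit 456) (nat_lit 4) (nat_lit 53) (nat_lit 73) (nat_lit 54))))) (PT.nd (nat_lit 282) (PT.nd (nat_lit 94) (PT.lf (nat_lit 38304) (nat_lit 6) (nat_lit 456) (nat_lit 2) (nat_lit 54) (nat_lit 73) (nat_lit 53)) (PT.nd (nat_lit 94) (PT.lf (nat_lit 38388) (nat_lit 6) (nat_lit 457) (nat_lit 2) (nat_lit 55) (nat_lit 73) (nat_lit 52)) (PT.lf (nat_lit 38472) (nat_lit 6) (nat_lit 458) (nat_lit 2) (nat_lit 56) (nat_lit 73) (nat_lit 51)))) (PT.nd (nat_lit 94) (PT.lf (nat_lit 38556) (nat_lit 6) (nat_lit 459) (nat_lit 2) (nat_lit 57) (nat_lit 73) (nat_lit 50)) (PT.nd (nat_lit 94) (PT.lf (nat_lit 38640) (nat_lit 6) (nat_lit 460) (nat_lit 2) (nat_lit 58) (nat_lit 73) (nat_lit 49)) (PT.lf (nat_lit 38724) (nat_lit 6) (nat_lit 461) (nat_lit 2) (nat_lit 59) (nat_lit 73)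 (nat_lit 48)))))) (PT.nd (nat_lit 564) (PT.nd (nat_lit 282) (PT.nd (nat_lit 94) (PT.lf (nat_lit 38808) (nat_lit 6) (nat_lit 462) (nat_lit 2) (nat_lit 60) (nat_lit 73) (nat_lit 47)) (PT.nd (nat_lit 94) (PT.lf (nat_lit 37716) (nat_lit 6) (nat_lit 449) (nat_lit 2) (nat_lit 61) (nat_lit 73) (nat_lit 46)) (PT.lf (nat_lit 36540) (nat_lit 6) (nat_lit 435) (nat_lit 2) (nat_lit 62) (nat_lit 73) (nat_lit 45)))) (PT.nd (nat_lit 94) (PT.lf (nat_lit 35280) (nat_lit 6) (nat_lit 420) (nat_lit 2) (nat_lit 63) (nat_lit 73) (nat_lit 44)) (PT.nd (nat_lit 94) (PT.lf (nat_lit 33936) (nat_lit 6) (nat_lit 404) (nat_lit 2) (nat_lit 64) (nat_lit 73) (nat_lit 43)) (PT.lf (nat_lit 32508) (nat_lit 6) (nat_lit 387) (nat_lit 2) (nat_lit 65) (nat_lit 73) (nat_lit 42))))) (PT.nd (nat_lit 282) (PT.nd (nat_lit 94) (PT.lf (nat_lit 30996) (nat_lit 6) (nat_lit 369) (nat_lit 2) (nat_lit 66) (nat_lit 73) (nat_lit 41)) (PT.nd (nat_lit 94)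 (PT.lf (nat_lit 29400) (nat_lit 6) (nat_lit 350) (nat_lit 2) (nat_lit 67) (nat_lit 73) (nat_lit 40)) (PT.lf (nat_lit 27720) (nat_lit 6) (nat_lit 330) (nat_lit 2) (nat_lit 68) (nat_lit 73) (nat_lit 39)))) (PT.nd (nat_lit 94) (PT.lf (nat_lit 25956) (nat_lit 6) (nat_lit 309) (nat_lit 2) (nat_lit 69) (nat_lit 73) (nat_lit 38)) (PT.nd (nat_lit 94) (PT.lf (nat_lit 24108) (nat_lit 6) (nat_lit 287) (nat_lit 2) (nat_lit 70) (nat_lit 73) (nat_lit 37)) (PT.lf (nat_lit 23016) (nat_lit 6) (nat_lit 274) (nat_lit 2) (nat_lit 71) (nat_lit 73) (nat_lit 36))))))))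
noncomputable def pc43 : PT := (PT.nd (nat_lit 40890) (PT.nd (nat_lit 1034) (PT.nd (nat_lit 470) (PT.nd (nat_lit 188) (PT.nd (nat_lit 94) (PT.lf (nat_lit 22092) (nat_lit 6) (nat_lit 263) (nat_lit 2) (nat_lit 72) (nat_lit 73) (nat_lit 35)) (PT.lf (nat_lit 21168) (nat_lit 3) (nat_lit 252) (nat_lit 0) (nat_lit 73) (nat_lit 73) (nat_lit 34))) (PT.nd (nat_lit 94) (PT.lf (nat_lit 20244) (nat_lit 6) (nat_lit 241) (nat_lit 0) (nat_lit 74) (nat_lit 73) (nat_lit 33)) (PT.nd (nat_lit 94) (PT.lf (nat_lit 19320) (nat_lit 6) (nat_lit 230) (nat_lit 0) (nat_lit 75) (nat_lit 73) (nat_lit 32)) (PT.lf (nat_lit 18396) (nat_lit 6) (nat_lit 219) (nat_lit 0) (nat_lit 76) (nat_lit 73) (nat_lit 31))))) (PT.nd (nat_lit 282) (PT.nd (nat_lit 94) (PT.lf (nat_lit 17472) (nat_lit 6) (nat_lit 208) (nat_lit 0) (nat_lit 77) (nat_lit 73) (nat_lit 30)) (PT.nd (nat_lit 94) (PT.lf (nat_lit 16632) (nat_lit 6) (nat_lit 198) (nat_lit 0) (nat_lit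 78) (nat_lit 73) (nat_lit 29)) (PT.lf (nat_lit 15792) (nat_lit 6) (nat_lit 188) (nat_lit 0) (nat_lit 79) (nat_lit 73) (nat_lit 28)))) (PT.nd (nat_lit 94) (PT.lf (nat_lit 14952) (nat_lit 6) (nat_lit 178) (nat_lit 0) (nat_lit 80) (nat_lit 73) (nat_lit 27)) (PT.nd (nat_lit 94) (PT.lf (nat_lit 14112) (nat_lit 6) (nat_lit 168) (nat_lit 0) (nat_lit 81) (nat_lit 73) (nat_lit 26)) (PT.lf (nat_lit 13356) (nat_lit 6) (nat_lit 159) (nat_lit 0) (nat_lit 82) (nat_lit 73) (nat_lit 25)))))) (PT.nd (nat_lit 39292) (PT.nd (nat_lit 282) (PT.nd (nat_lit 94) (PT.lf (nat_lit 12600) (nat_lit 6) (nat_lit 150) (nat_lit 0) (nat_lit 83) (nat_lit 73) (nat_lit 24)) (PT.nd (nat_lit 94) (PT.lf (nat_lit 11844) (nat_lit 6) (nat_lit 141) (nat_lit 0) (nat_lit 84) (nat_lit 73) (nat_lit 23)) (PT.lf (nat_lit 11088) (nat_lit 6) (nat_lit 132) (nat_lit 0) (nat_lit 85) (nat_lit 73) (nat_lit 22)))) (PT.nd (nat_lit 94) (PT.lf (nat_lit 10416)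 (nat_lit 6) (nat_lit 124) (nat_lit 0) (nat_lit 86) (nat_lit 73) (nat_lit 21)) (PT.nd (nat_lit 38822) (PT.lf (nat_lit 9744) (nat_lit 6) (nat_lit 116) (nat_lit 0) (nat_lit 87) (nat_lit 73) (nat_lit 20)) (PT.lf (nat_lit 9156) (nat_lit 6) (nat_lit 109) (nat_lit 5) (nat_lit 19) (nat_lit 74) (nat_lit 87))))) (PT.nd (nat_lit 282) (PT.nd (nat_lit 94) (PT.lf (nat_lit 9828) (nat_lit 6) (nat_lit 117) (nat_lit 5) (nat_lit 20) (nat_lit 74) (nat_lit 86)) (PT.nd (nat_lit 94) (PT.lf (nat_lit 10500) (nat_lit 6) (nat_lit 125) (nat_lit 5) (nat_lit 21) (nat_lit 74) (nat_lit 85)) (PT.lf (nat_lit 11172) (nat_lit 6) (nat_lit 133) (nat_lit 5) (nat_lit 22) (nat_lit 74) (nat_lit 84)))) (PT.nd (nat_lit 94) (PT.lf (nat_lit 11928) (nat_lit 6) (nat_lit 142) (nat_lit 5) (nat_lit 23) (nat_lit 74) (nat_lit 83)) (PT.nd (nat_lit 94) (PT.lf (nat_lit 12684) (nat_lit 6) (nat_lit 151) (nat_lit 5) (nat_lit 24) (nat_lit 74) (nat_lit 82)) (PT.lf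 (nat_lit 13440) (nat_lit 6) (nat_lit 160) (nat_lit 5) (nat_lit 25) (nat_lit 74) (nat_lit 81))))))) (PT.nd (nat_lit 1128) (PT.nd (nat_lit 564) (PT.nd (nat_lit 282) (PT.nd (nat_lit 94) (PT.lf (nat_lit 14196) (nat_lit 6) (nat_lit 169) (nat_lit 5) (nat_lit 26) (nat_lit 74) (nat_lit 80)) (PT.nd (nat_lit 94) (PT.lf (nat_lit 15036) (nat_lit 6) (nat_lit 179) (nat_lit 5) (nat_lit 27) (nat_lit 74) (nat_lit 79)) (PT.lf (nat_lit 15876) (nat_lit 6) (nat_lit 189) (nat_lit 5) (nat_lit 28) (nat_lit 74) (nat_lit 78)))) (PT.nd (nat_lit 94) (PT.lf (nat_lit 16716) (nat_lit 6) (nat_lit 199) (nat_lit 5) (nat_lit 29) (nat_lit 74) (nat_lit 77)) (PT.nd (nat_lit 94) (PT.lf (nat_lit 17556) (nat_lit 6) (nat_lit 209) (nat_lit 5) (nat_lit 30) (nat_lit 74) (nat_lit 76)) (PT.lf (nat_lit 18480) (nat_lit 6) (nat_lit 220) (nat_lit 5) (nat_lit 31) (nat_lit 74) (nat_lit 75))))) (PT.nd (nat_lit 282) (PT.nd (nat_lit 94) (PT.lf (nat_lit 19404)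 (nat_lit 3) (nat_lit 231) (nat_lit 4) (nat_lit 32) (nat_lit 74) (nat_lit 74)) (PT.nd (nat_lit 94) (PT.lf (nat_lit 20244) (nat_lit 6) (nat_lit 241) (nat_lit 4) (nat_lit 33) (nat_lit 74) (nat_lit 73)) (PT.lf (nat_lit 21084) (nat_lit 6) (nat_lit 251) (nat_lit 4) (nat_lit 34) (nat_lit 74) (nat_lit 72)))) (PT.nd (nat_lit 94) (PT.lf (nat_lit 22008) (nat_lit 6) (nat_lit 262) (nat_lit 4) (nat_lit 35) (nat_lit 74) (nat_lit 71)) (PT.nd (nat_lit 94) (PT.lf (nat_lit 22932) (nat_lit 6) (nat_lit 273) (nat_lit 4) (nat_lit 36) (nat_lit 74) (nat_lit 70)) (PT.lf (nat_lit 24024) (nat_lit 6) (nat_lit 286) (nat_lit 4) (nat_lit 37) (nat_lit 74) (nat_lit 69)))))) (PT.nd (nat_lit 564) (PT.nd (nat_lit 282) (PT.nd (nat_lit 94) (PT.lf (nat_lit 25872) (nat_lit 6) (nat_lit 308) (nat_lit 4) (nat_lit 38) (nat_lit 74) (nat_lit 68)) (PT.nd (nat_lit 94) (PT.lf (nat_lit 27636) (nat_lit 6) (nat_lit 329) (nat_lit 4) (nat_lit 39) (nat_lit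 74) (nat_lit 67)) (PT.lf (nat_lit 29316) (nat_lit 6) (nat_lit 349) (nat_lit 4) (nat_lit 40) (nat_lit 74) (nat_lit 66)))) (PT.nd (nat_lit 94) (PT.lf (nat_lit 30912) (nat_lit 6) (nat_lit 368) (nat_lit 4) (nat_lit 41) (nat_lit 74) (nat_lit 65)) (PT.nd (nat_lit 94) (PT.lf (nat_lit 32424) (nat_lit 6) (nat_lit 386) (nat_lit 4) (nat_lit 42) (nat_lit 74) (nat_lit 64)) (PT.lf (nat_lit 33852) (nat_lit 6) (nat_lit 403) (nat_lit 4) (nat_lit 43) (nat_lit 74) (nat_lit 63))))) (PT.nd (nat_lit 282) (PT.nd (nat_lit 94) (PT.lf (nat_lit 35196) (nat_lit 6) (nat_lit 419) (nat_lit 4) (nat_lit 44) (nat_lit 74) (nat_lit 62)) (PT.nd (nat_lit 94) (PT.lf (nat_lit 36456) (nat_lit 6) (nat_lit 434) (nat_lit 4) (nat_lit 45) (nat_lit 74) (nat_lit 61)) (PT.lf (nat_lit 37632) (nat_lit 6) (nat_lit 448) (nat_lit 4) (nat_lit 46) (nat_lit 74) (nat_lit 60)))) (PT.nd (nat_lit 94) (PT.lf (nat_lit 37548) (nat_lit 6) (nat_lit 447) (nat_lit 4)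 (nat_lit 47) (nat_lit 74) (nat_lit 59)) (PT.nd (nat_lit 94) (PT.lf (nat_lit 37464) (nat_lit 6) (nat_lit 446) (nat_lit 4) (nat_lit 48) (nat_lit 74) (nat_lit 58)) (PT.lf (nat_lit 37380) (nat_lit 6) (nat_lit 445) (nat_lit 4) (nat_lit 49) (nat_lit 74) (nat_lit 57))))))))
noncomputable def pc44 : PT := (PT.nd (nat_lit 2162) (PT.nd (nat_lit 1034) (PT.nd (nat_lit 470) (PT.nd (nat_lit 188) (PT.nd (nat_lit 94) (PT.lf (nat_lit 37296) (nat_lit 6) (nat_lit 444) (nat_lit 4) (nat_lit 50) (nat_lit 74) (nat_lit 56)) (PT.lf (nat_lit 37212) (nat_lit 6) (nat_lit 443) (nat_lit 4) (nat_lit 51) (nat_lit 74) (nat_lit 55))) (PT.nd (nat_lit 94) (PT.lf (nat_lit 37128) (nat_lit 6) (nat_lit 442) (nat_lit 4) (nat_lit 52) (nat_lit 74) (nat_lit 54)) (PT.nd (nat_lit 94) (PT.lf (nat_lit 37044) (nat_lit 3) (nat_lit 441) (nat_lit 2) (nat_lit 53) (nat_lit 74) (nat_lit 53)) (PT.lf (nat_lit 37128) (nat_lit 6) (nat_lit 442) (nat_lit 2) (nat_lit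 54) (nat_lit 74) (nat_lit 52))))) (PT.nd (nat_lit 282) (PT.nd (nat_lit 94) (PT.lf (nat_lit 37212) (nat_lit 6) (nat_lit 443) (nat_lit 2) (nat_lit 55) (nat_lit 74) (nat_lit 51)) (PT.nd (nat_lit 94) (PT.lf (nat_lit 37296) (nat_lit 6) (nat_lit 444) (nat_lit 2) (nat_lit 56) (nat_lit 74) (nat_lit 50)) (PT.lf (nat_lit 37380) (nat_lit 6) (nat_lit 445) (nat_lit 2) (nat_lit 57) (nat_lit 74) (nat_lit 49)))) (PT.nd (nat_lit 94) (PT.lf (nat_lit 37464) (nat_lit 6) (nat_lit 446) (nat_lit 2) (nat_lit 58) (nat_lit 74) (nat_lit 48)) (PT.nd (nat_lit 94) (PT.lf (nat_lit 37548) (nat_lit 6) (nat_lit 447) (nat_lit 2) (nat_lit 59) (nat_lit 74) (nat_lit 47)) (PT.lf (nat_lit 37632) (nat_lit 6) (nat_lit 448) (nat_lit 2) (nat_lit 60) (nat_lit 74) (nat_lit 46)))))) (PT.nd (nat_lit 564) (PT.nd (nat_lit 282) (PT.nd (nat_lit 94) (PT.lf (nat_lit 36456) (nat_lit 6) (nat_lit 434) (nat_lit 2) (nat_lit 61) (nat_lit 74) (nat_lit 45)) (PT.nd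 (nat_lit 94) (PT.lf (nat_lit 35196) (nat_lit 6) (nat_lit 419) (nat_lit 2) (nat_lit 62) (nat_lit 74) (nat_lit 44)) (PT.lf (nat_lit 33852) (nat_lit 6) (nat_lit 403) (nat_lit 2) (nat_lit 63) (nat_lit 74) (nat_lit 43)))) (PT.nd (nat_lit 94) (PT.lf (nat_lit 32424) (nat_lit 6) (nat_lit 386) (nat_lit 2) (nat_lit 64) (nat_lit 74) (nat_lit 42)) (PT.nd (nat_lit 94) (PT.lf (nat_lit 30912) (nat_lit 6) (nat_lit 368) (nat_lit 2) (nat_lit 65) (nat_lit 74) (nat_lit 41)) (PT.lf (nat_lit 29316) (nat_lit 6) (nat_lit 349) (nat_lit 2) (nat_lit 66) (nat_lit 74) (nat_lit 40))))) (PT.nd (nat_lit 282) (PT.nd (nat_lit 94) (PT.lf (nat_lit 27636) (nat_lit 6) (nat_lit 329) (nat_lit 2) (nat_lit 67) (nat_lit 74) (nat_lit 39)) (PT.nd (nat_lit 94) (PT.lf (nat_lit 25872) (nat_lit 6) (nat_lit 308) (nat_lit 2) (nat_lit 68) (nat_lit 74) (nat_lit 38)) (PT.lf (nat_lit 24024) (nat_lit 6) (nat_lit 286) (nat_lit 2) (nat_lit 69) (nat_lit 74)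 (nat_lit 37)))) (PT.nd (nat_lit 94) (PT.lf (nat_lit 22932) (nat_lit 6) (nat_lit 273) (nat_lit 2) (nat_lit 70) (nat_lit 74) (nat_lit 36)) (PT.nd (nat_lit 94) (PT.lf (nat_lit 22008) (nat_lit 6) (nat_lit 262) (nat_lit 2) (nat_lit 71) (nat_lit 74) (nat_lit 35)) (PT.lf (nat_lit 21084) (nat_lit 6) (nat_lit 251) (nat_lit 2) (nat_lit 72) (nat_lit 74) (nat_lit 34))))))) (PT.nd (nat_lit 1034) (PT.nd (nat_lit 470) (PT.nd (nat_lit 188) (PT.nd (nat_lit 94) (PT.lf (nat_lit 20244) (nat_lit 6) (nat_lit 241) (nat_lit 2) (nat_lit 73) (nat_lit 74) (nat_lit 33)) (PT.lf (nat_lit 19404) (nat_lit 3) (nat_lit 231) (nat_lit 0) (nat_lit 74) (nat_lit 74) (nat_lit 32))) (PT.nd (nat_lit 94) (PT.lf (nat_lit 18480) (nat_lit 6) (nat_lit 220) (nat_lit 0) (nat_lit 75) (nat_lit 74) (nat_lit 31)) (PT.nd (nat_lit 94) (PT.lf (nat_lit 17556) (nat_lit 6) (nat_lit 209) (nat_lit 0) (nat_lit 76) (nat_lit 74) (nat_lit 30)) (PT.lf (nat_lit 16716)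 (nat_lit 6) (nat_lit 199) (nat_lit 0) (nat_lit 77) (nat_lit 74) (nat_lit 29))))) (PT.nd (nat_lit 282) (PT.nd (nat_lit 94) (PT.lf (nat_lit 15876) (nat_lit 6) (nat_lit 189) (nat_lit 0) (nat_lit 78) (nat_lit 74) (nat_lit 28)) (PT.nd (nat_lit 94) (PT.lf (nat_lit 15036) (nat_lit 6) (nat_lit 179) (nat_lit 0) (nat_lit 79) (nat_lit 74) (nat_lit 27)) (PT.lf (nat_lit 14196) (nat_lit 6) (nat_lit 169) (nat_lit 0) (nat_lit 80) (nat_lit 74) (nat_lit 26)))) (PT.nd (nat_lit 94) (PT.lf (nat_lit 13440) (nat_lit 6) (nat_lit 160) (nat_lit 0) (nat_lit 81) (nat_lit 74) (nat_lit 25)) (PT.nd (nat_lit 94) (PT.lf (nat_lit 12684) (nat_lit 6) (nat_lit 151) (nat_lit 0) (nat_lit 82) (nat_lit 74) (nat_lit 24)) (PT.lf (nat_lit 11928) (nat_lit 6) (nat_lit 142) (nat_lit 0) (nat_lit 83) (nat_lit 74) (nat_lit 23)))))) (PT.nd (nat_lit 39104) (PT.nd (nat_lit 282) (PT.nd (nat_lit 94) (PT.lf (nat_lit 11172) (nat_lit 6) (nat_lit 133) (nat_lit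 0) (nat_lit 84) (nat_lit 74) (nat_lit 22)) (PT.nd (nat_lit 94) (PT.lf (nat_lit 10500) (nat_lit 6) (nat_lit 125) (nat_lit 0) (nat_lit 85) (nat_lit 74) (nat_lit 21)) (PT.lf (nat_lit 9828) (nat_lit 6) (nat_lit 117) (nat_lit 0) (nat_lit 86) (nat_lit 74) (nat_lit 20)))) (PT.nd (nat_lit 38634) (PT.lf (nat_lit 9156) (nat_lit 6) (nat_lit 109) (nat_lit 0) (nat_lit 87) (nat_lit 74) (nat_lit 19)) (PT.nd (nat_lit 94) (PT.lf (nat_lit 7980) (nat_lit 6) (nat_lit 95) (nat_lit 5) (nat_lit 17) (nat_lit 75) (nat_lit 88)) (PT.lf (nat_lit 8568) (nat_lit 6) (nat_lit 102) (nat_lit 5) (nat_lit 18) (nat_lit 75) (nat_lit 87))))) (PT.nd (nat_lit 282) (PT.nd (nat_lit 94) (PT.lf (nat_lit 9240) (nat_lit 6) (nat_lit 110) (nat_lit 5) (nat_lit 19) (nat_lit 75) (nat_lit 86)) (PT.nd (nat_lit 94) (PT.lf (nat_lit 9912) (nat_lit 6) (nat_lit 118) (nat_lit 5) (nat_lit 20) (nat_lit 75) (nat_lit 85)) (PT.lf (nat_lit 10584) (nat_lit 6) (nat_lit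 126) (nat_lit 5) (nat_lit 21) (nat_lit 75) (nat_lit 84)))) (PT.nd (nat_lit 94) (PT.lf (nat_lit 11256) (nat_lit 6) (nat_lit 134) (nat_lit 5) (nat_lit 22) (nat_lit 75) (nat_lit 83)) (PT.nd (nat_lit 94) (PT.lf (nat_lit 12012) (nat_lit 6) (nat_lit 143) (nat_lit 5) (nat_lit 23) (nat_lit 75) (nat_lit 82)) (PT.lf (nat_lit 12768) (nat_lit 6) (nat_lit 152) (nat_lit 5) (nat_lit 24) (nat_lit 75) (nat_lit 81))))))))
noncomputable def pc45 : PT := (PT.nd (nat_lit 2162) (PT.nd (nat_lit 1034) (PT.nd (nat_lit 470) (PT.nd (nat_lit 188) (PT.nd (nat_lit 94) (PT.lf (nat_lit 13524) (nat_lit 6) (nat_lit 161) (nat_lit 5) (nat_lit 25) (nat_lit 75) (nat_lit 80)) (PT.lf (nat_lit 14280) (nat_lit 6) (nat_lit 170) (nat_lit 5) (nat_lit 26) (nat_lit 75) (nat_lit 79))) (PT.nd (nat_lit 94) (PT.lf (nat_lit 15120) (nat_lit 6) (nat_lit 180) (nat_lit 5) (nat_lit 27) (nat_lit 75) (nat_lit 78)) (PT.nd (nat_lit 94) (PT.lf (nat_lit 15960) (nat_lit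 6) (nat_lit 190) (nat_lit 5) (nat_lit 28) (nat_lit 75) (nat_lit 77)) (PT.lf (nat_lit 16800) (nat_lit 6) (nat_lit 200) (nat_lit 5) (nat_lit 29) (nat_lit 75) (nat_lit 76))))) (PT.nd (nat_lit 282) (PT.nd (nat_lit 94) (PT.lf (nat_lit 17640) (nat_lit 3) (nat_lit 210) (nat_lit 4) (nat_lit 30) (nat_lit 75) (nat_lit 75)) (PT.nd (nat_lit 94) (PT.lf (nat_lit 18480) (nat_lit 6) (nat_lit 220) (nat_lit 4) (nat_lit 31) (nat_lit 75) (nat_lit 74)) (PT.lf (nat_lit 19320) (nat_lit 6) (nat_lit 230) (nat_lit 4) (nat_lit 32) (nat_lit 75) (nat_lit 73)))) (PT.nd (nat_lit 94) (PT.lf (nat_lit 20160) (nat_lit 6) (nat_lit 240) (nat_lit 4) (nat_lit 33) (nat_lit 75) (nat_lit 72)) (PT.nd (nat_lit 94) (PT.lf (nat_lit 21000) (nat_lit 6) (nat_lit 250) (nat_lit 4) (nat_lit 34) (nat_lit 75) (nat_lit 71)) (PT.lf (nat_lit 21924) (nat_lit 6) (nat_lit 261) (nat_lit 4) (nat_lit 35) (nat_lit 75) (nat_lit 70)))))) (PT.nd (nat_lit 564) (PT.nd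 (nat_lit 282) (PT.nd (nat_lit 94) (PT.lf (nat_lit 22848) (nat_lit 6) (nat_lit 272) (nat_lit 4) (nat_lit 36) (nat_lit 75) (nat_lit 69)) (PT.nd (nat_lit 94) (PT.lf (nat_lit 23940) (nat_lit 6) (nat_lit 285) (nat_lit 4) (nat_lit 37) (nat_lit 75) (nat_lit 68)) (PT.lf (nat_lit 25788) (nat_lit 6) (nat_lit 307) (nat_lit 4) (nat_lit 38) (nat_lit 75) (nat_lit 67)))) (PT.nd (nat_lit 94) (PT.lf (nat_lit 27552) (nat_lit 6) (nat_lit 328) (nat_lit 4) (nat_lit 39) (nat_lit 75) (nat_lit 66)) (PT.nd (nat_lit 94) (PT.lf (nat_lit 29232) (nat_lit 6) (nat_lit 348) (nat_lit 4) (nat_lit 40) (nat_lit 75) (nat_lit 65)) (PT.lf (nat_lit 30828) (nat_lit 6) (nat_lit 367) (nat_lit 4) (nat_lit 41) (nat_lit 75) (nat_lit 64))))) (PT.nd (nat_lit 282) (PT.nd (nat_lit 94) (PT.lf (nat_lit 32340) (nat_lit 6) (nat_lit 385) (nat_lit 4) (nat_lit 42) (nat_lit 75) (nat_lit 63)) (PT.nd (nat_lit 94) (PT.lf (nat_lit 33768) (nat_lit 6) (nat_lit 402)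 (nat_lit 4) (nat_lit 43) (nat_lit 75) (nat_lit 62)) (PT.lf (nat_lit 35112) (nat_lit 6) (nat_lit 418) (nat_lit 4) (nat_lit 44) (nat_lit 75) (nat_lit 61)))) (PT.nd (nat_lit 94) (PT.lf (nat_lit 36372) (nat_lit 6) (nat_lit 433) (nat_lit 4) (nat_lit 45) (nat_lit 75) (nat_lit 60)) (PT.nd (nat_lit 94) (PT.lf (nat_lit 36288) (nat_lit 6) (nat_lit 432) (nat_lit 4) (nat_lit 46) (nat_lit 75) (nat_lit 59)) (PT.lf (nat_lit 36204) (nat_lit 6) (nat_lit 431) (nat_lit 4) (nat_lit 47) (nat_lit 75) (nat_lit 58))))))) (PT.nd (nat_lit 1128) (PT.nd (nat_lit 564) (PT.nd (nat_lit 282) (PT.nd (nat_lit 94) (PT.lf (nat_lit 36120) (nat_lit 6) (nat_lit 430) (nat_lit 4) (nat_lit 48) (nat_lit 75) (nat_lit 57)) (PT.nd (nat_lit 94) (PT.lf (nat_lit 36036) (nat_lit 6) (nat_lit 429) (nat_lit 4) (nat_lit 49) (nat_lit 75) (nat_lit 56)) (PT.lf (nat_lit 35952) (nat_lit 6) (nat_lit 428) (nat_lit 4) (nat_lit 50) (nat_lit 75) (nat_lit 55)))) (PT.nd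 (nat_lit 94) (PT.lf (nat_lit 35868) (nat_lit 6) (nat_lit 427) (nat_lit 4) (nat_lit 51) (nat_lit 75) (nat_lit 54)) (PT.nd (nat_lit 94) (PT.lf (nat_lit 35784) (nat_lit 6) (nat_lit 426) (nat_lit 4) (nat_lit 52) (nat_lit 75) (nat_lit 53)) (PT.lf (nat_lit 35784) (nat_lit 6) (nat_lit 426) (nat_lit 2) (nat_lit 53) (nat_lit 75) (nat_lit 52))))) (PT.nd (nat_lit 282) (PT.nd (nat_lit 94) (PT.lf (nat_lit 35868) (nat_lit 6) (nat_lit 427) (nat_lit 2) (nat_lit 54) (nat_lit 75) (nat_lit 51)) (PT.nd (nat_lit 94) (PT.lf (nat_lit 35952) (nat_lit 6) (nat_lit 428) (nat_lit 2) (nat_lit 55) (nat_lit 75) (nat_lit 50)) (PT.lf (nat_lit 36036) (nat_lit 6) (nat_lit 429) (nat_lit 2) (nat_lit 56) (nat_lit 75) (nat_lit 49)))) (PT.nd (nat_lit 94) (PT.lf (nat_lit 36120) (nat_lit 6) (nat_lit 430) (nat_lit 2) (nat_lit 57) (nat_lit 75) (nat_lit 48)) (PT.nd (nat_lit 94) (PT.lf (nat_lit 36204) (nat_lit 6) (nat_lit 431) (nat_lit 2) (nat_lit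 58) (nat_lit 75) (nat_lit 47)) (PT.lf (nat_lit 36288) (nat_lit 6) (nat_lit 432) (nat_lit 2) (nat_lit 59) (nat_lit 75) (nat_lit 46)))))) (PT.nd (nat_lit 564) (PT.nd (nat_lit 282) (PT.nd (nat_lit 94) (PT.lf (nat_lit 36372) (nat_lit 6) (nat_lit 433) (nat_lit 2) (nat_lit 60) (nat_lit 75) (nat_lit 45)) (PT.nd (nat_lit 94) (PT.lf (nat_lit 35112) (nat_lit 6) (nat_lit 418) (nat_lit 2) (nat_lit 61) (nat_lit 75) (nat_lit 44)) (PT.lf (nat_lit 33768) (nat_lit 6) (nat_lit 402) (nat_lit 2) (nat_lit 62) (nat_lit 75) (nat_lit 43)))) (PT.nd (nat_lit 94) (PT.lf (nat_lit 32340) (nat_lit 6) (nat_lit 385) (nat_lit 2) (nat_lit 63) (nat_lit 75) (nat_lit 42)) (PT.nd (nat_lit 94) (PT.lf (nat_lit 30828) (nat_lit 6) (nat_lit 367) (nat_lit 2) (nat_lit 64) (nat_lit 75) (nat_lit 41)) (PT.lf (nat_lit 29232) (nat_lit 6) (nat_lit 348) (nat_lit 2) (nat_lit 65) (nat_lit 75) (nat_lit 40))))) (PT.nd (nat_lit 282) (PT.nd (nat_lit 94) (PT.lf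 (nat_lit 27552) (nat_lit 6) (nat_lit 328) (nat_lit 2) (nat_lit 66) (nat_lit 75) (nat_lit 39)) (PT.nd (nat_lit 94) (PT.lf (nat_lit 25788) (nat_lit 6) (nat_lit 307) (nat_lit 2) (nat_lit 67) (nat_lit 75) (nat_lit 38)) (PT.lf (nat_lit 23940) (nat_lit 6) (nat_lit 285) (nat_lit 2) (nat_lit 68) (nat_lit 75) (nat_lit 37)))) (PT.nd (nat_lit 94) (PT.lf (nat_lit 22848) (nat_lit 6) (nat_lit 272) (nat_lit 2) (nat_lit 69) (nat_lit 75) (nat_lit 36)) (PT.nd (nat_lit 94) (PT.lf (nat_lit 21924) (nat_lit 6) (nat_lit 261) (nat_lit 2) (nat_lit 70) (nat_lit 75) (nat_lit 35)) (PT.lf (nat_lit 21000) (nat_lit 6) (nat_lit 250) (nat_lit 2) (nat_lit 71) (nat_lit 75) (nat_lit 34))))))))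
noncomputable def pc46 : PT := (PT.nd (nat_lit 40514) (PT.nd (nat_lit 1034) (PT.nd (nat_lit 470) (PT.nd (nat_lit 188) (PT.nd (nat_lit 94) (PT.lf (nat_lit 20160) (nat_lit 6) (nat_lit 240) (nat_lit 2) (nat_lit 72) (nat_lit 75) (nat_lit 33)) (PT.lf (nat_lit 19320) (nat_lit 6) (nat_lit 230) (nat_lit 2) (nat_lit 73) (nat_lit 75) (nat_lit 32))) (PT.nd (nat_lit 94) (PT.lf (nat_lit 18480) (nat_lit 6) (nat_lit 220) (nat_lit 2) (nat_lit 74) (nat_lit 75) (nat_lit 31)) (PT.nd (nat_lit 94) (PT.lf (nat_lit 17640) (nat_lit 3) (nat_lit 210) (nat_lit 0) (nat_lit 75) (nat_lit 75) (nat_lit 30)) (PT.lf (nat_lit 16800) (nat_lit 6) (nat_lit 200) (nat_lit 0) (nat_lit 76) (nat_lit 75) (nat_lit 29))))) (PT.nd (nat_lit 282) (PT.nd (nat_lit 94) (PT.lf (nat_lit 15960) (nat_lit 6) (nat_lit 190) (nat_lit 0) (nat_lit 77) (nat_lit 75) (nat_lit 28)) (PT.nd (nat_lit 94) (PT.lf (nat_lit 15120) (nat_lit 6) (nat_lit 180) (nat_lit 0) (nat_lit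 78) (nat_lit 75) (nat_lit 27)) (PT.lf (nat_lit 14280) (nat_lit 6) (nat_lit 170) (nat_lit 0) (nat_lit 79) (nat_lit 75) (nat_lit 26)))) (PT.nd (nat_lit 94) (PT.lf (nat_lit 13524) (nat_lit 6) (nat_lit 161) (nat_lit 0) (nat_lit 80) (nat_lit 75) (nat_lit 25)) (PT.nd (nat_lit 94) (PT.lf (nat_lit 12768) (nat_lit 6) (nat_lit 152) (nat_lit 0) (nat_lit 81) (nat_lit 75) (nat_lit 24)) (PT.lf (nat_lit 12012) (nat_lit 6) (nat_lit 143) (nat_lit 0) (nat_lit 82) (nat_lit 75) (nat_lit 23)))))) (PT.nd (nat_lit 38916) (PT.nd (nat_lit 282) (PT.nd (nat_lit 94) (PT.lf (nat_lit 11256) (nat_lit 6) (nat_lit 134) (nat_lit 0) (nat_lit 83) (nat_lit 75) (nat_lit 22)) (PT.nd (nat_lit 94) (PT.lf (nat_lit 10584) (nat_lit 6) (nat_lit 126) (nat_lit 0) (nat_lit 84) (nat_lit 75) (nat_lit 21)) (PT.lf (nat_lit 9912) (nat_lit 6) (nat_lit 118) (nat_lit 0) (nat_lit 85) (nat_lit 75) (nat_lit 20)))) (PT.nd (nat_lit 94) (PT.lf (nat_lit 9240) (nat_lit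 6) (nat_lit 110) (nat_lit 0) (nat_lit 86) (nat_lit 75) (nat_lit 19)) (PT.nd (nat_lit 94) (PT.lf (nat_lit 8568) (nat_lit 6) (nat_lit 102) (nat_lit 0) (nat_lit 87) (nat_lit 75) (nat_lit 18)) (PT.lf (nat_lit 7980) (nat_lit 6) (nat_lit 95) (nat_lit 0) (nat_lit 88) (nat_lit 75) (nat_lit 17))))) (PT.nd (nat_lit 282) (PT.nd (nat_lit 94) (PT.lf (nat_lit 7392) (nat_lit 6) (nat_lit 88) (nat_lit 5) (nat_lit 16) (nat_lit 76) (nat_lit 88)) (PT.nd (nat_lit 94) (PT.lf (nat_lit 8064) (nat_lit 6) (nat_lit 96) (nat_lit 5) (nat_lit 17) (nat_lit 76) (nat_lit 87)) (PT.lf (nat_lit 8652) (nat_lit 6) (nat_lit 103) (nat_lit 5) (nat_lit 18) (nat_lit 76) (nat_lit 86)))) (PT.nd (nat_lit 94) (PT.lf (nat_lit 9324) (nat_lit 6) (nat_lit 111) (nat_lit 5) (nat_lit 19) (nat_lit 76) (nat_lit 85)) (PT.nd (nat_lit 94) (PT.lf (nat_lit 9996) (nat_lit 6) (nat_lit 119) (nat_lit 5) (nat_lit 20) (nat_lit 76) (nat_lit 84)) (PT.lf (nat_lit 10668)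 (nat_lit 6) (nat_lit 127) (nat_lit 5) (nat_lit 21) (nat_lit 76) (nat_lit 83))))))) (PT.nd (nat_lit 1128) (PT.nd (nat_lit 564) (PT.nd (nat_lit 282) (PT.nd (nat_lit 94) (PT.lf (nat_lit 11340) (nat_lit 6) (nat_lit 135) (nat_lit 5) (nat_lit 22) (nat_lit 76) (nat_lit 82)) (PT.nd (nat_lit 94) (PT.lf (nat_lit 12096) (nat_lit 6) (nat_lit 144) (nat_lit 5) (nat_lit 23) (nat_lit 76) (nat_lit 81)) (PT.lf (nat_lit 12852) (nat_lit 6) (nat_lit 153) (nat_lit 5) (nat_lit 24) (nat_lit 76) (nat_lit 80)))) (PT.nd (nat_lit 94) (PT.lf (nat_lit 13608) (nat_lit 6) (nat_lit 162) (nat_lit 5) (nat_lit 25) (nat_lit 76) (nat_lit 79)) (PT.nd (nat_lit 94) (PT.lf (nat_lit 14364) (nat_lit 6) (nat_lit 171) (nat_lit 5) (nat_lit 26) (nat_lit 76) (nat_lit 78)) (PT.lf (nat_lit 15204) (nat_lit 6) (nat_lit 181) (nat_lit 5) (nat_lit 27) (nat_lit 76) (nat_lit 77))))) (PT.nd (nat_lit 282) (PT.nd (nat_lit 94) (PT.lf (nat_lit 16044) (nat_lit 3)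 (nat_lit 191) (nat_lit 4) (nat_lit 28) (nat_lit 76) (nat_lit 76)) (PT.nd (nat_lit 94) (PT.lf (nat_lit 16800) (nat_lit 6) (nat_lit 200) (nat_lit 4) (nat_lit 29) (nat_lit 76) (nat_lit 75)) (PT.lf (nat_lit 17556) (nat_lit 6) (nat_lit 209) (nat_lit 4) (nat_lit 30) (nat_lit 76) (nat_lit 74)))) (PT.nd (nat_lit 94) (PT.lf (nat_lit 18396) (nat_lit 6) (nat_lit 219) (nat_lit 4) (nat_lit 31) (nat_lit 76) (nat_lit 73)) (PT.nd (nat_lit 94) (PT.lf (nat_lit 19236) (nat_lit 6) (nat_lit 229) (nat_lit 4) (nat_lit 32) (nat_lit 76) (nat_lit 72)) (PT.lf (nat_lit 20076) (nat_lit 6) (nat_lit 239) (nat_lit 4) (nat_lit 33) (nat_lit 76) (nat_lit 71)))))) (PT.nd (nat_lit 564) (PT.nd (nat_lit 282) (PT.nd (nat_lit 94) (PT.lf (nat_lit 20916) (nat_lit 6) (nat_lit 249) (nat_lit 4) (nat_lit 34) (nat_lit 76) (nat_lit 70)) (PT.nd (nat_lit 94) (PT.lf (nat_lit 21840) (nat_lit 6) (nat_lit 260) (nat_lit 4) (nat_lit 35) (nat_lit 76) (nat_lit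 69)) (PT.lf (nat_lit 22764) (nat_lit 6) (nat_lit 271) (nat_lit 4) (nat_lit 36) (nat_lit 76) (nat_lit 68)))) (PT.nd (nat_lit 94) (PT.lf (nat_lit 23856) (nat_lit 6) (nat_lit 284) (nat_lit 4) (nat_lit 37) (nat_lit 76) (nat_lit 67)) (PT.nd (nat_lit 94) (PT.lf (nat_lit 25704) (nat_lit 6) (nat_lit 306) (nat_lit 4) (nat_lit 38) (nat_lit 76) (nat_lit 66)) (PT.lf (nat_lit 27468) (nat_lit 6) (nat_lit 327) (nat_lit 4) (nat_lit 39) (nat_lit 76) (nat_lit 65))))) (PT.nd (nat_lit 282) (PT.nd (nat_lit 94) (PT.lf (nat_lit 29148) (nat_lit 6) (nat_lit 347) (nat_lit 4) (nat_lit 40) (nat_lit 76) (nat_lit 64)) (PT.nd (nat_lit 94) (PT.lf (nat_lit 30744) (nat_lit 6) (nat_lit 366) (nat_lit 4) (nat_lit 41) (nat_lit 76) (nat_lit 63)) (PT.lf (nat_lit 32256) (nat_lit 6) (nat_lit 384) (nat_lit 4) (nat_lit 42) (nat_lit 76) (nat_lit 62)))) (PT.nd (nat_lit 94) (PT.lf (nat_lit 33684) (nat_lit 6) (nat_lit 401) (nat_lit 4) (nat_lit 43)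 (nat_lit 76) (nat_lit 61)) (PT.nd (nat_lit 94) (PT.lf (nat_lit 35028) (nat_lit 6) (nat_lit 417) (nat_lit 4) (nat_lit 44) (nat_lit 76) (nat_lit 60)) (PT.lf (nat_lit 34944) (nat_lit 6) (nat_lit 416) (nat_lit 4) (nat_lit 45) (nat_lit 76) (nat_lit 59))))))))
noncomputable def pc47 : PT := (PT.nd (nat_lit 2162) (PT.nd (nat_lit 1034) (PT.nd (nat_lit 470) (PT.nd (nat_lit 188) (PT.nd (nat_lit 94) (PT.lf (nat_lit 34860) (nat_lit 6) (nat_lit 415) (nat_lit 4) (nat_lit 46) (nat_lit 76) (nat_lit 58)) (PT.lf (nat_lit 34776) (nat_lit 6) (nat_lit 414) (nat_lit 4) (nat_lit 47) (nat_lit 76) (nat_lit 57))) (PT.nd (nat_lit 94) (PT.lf (nat_lit 34692) (nat_lit 6) (nat_lit 413) (nat_lit 4) (nat_lit 48) (nat_lit 76) (nat_lit 56)) (PT.nd (nat_lit 94) (PT.lf (nat_lit 34608) (nat_lit 6) (nat_lit 412) (nat_lit 4) (nat_lit 49) (nat_lit 76) (nat_lit 55)) (PT.lf (nat_lit 34524) (nat_lit 6) (nat_lit 411) (nat_lit 4) (nat_lit 50) (nat_lit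 76) (nat_lit 54))))) (PT.nd (nat_lit 282) (PT.nd (nat_lit 94) (PT.lf (nat_lit 34440) (nat_lit 6) (nat_lit 410) (nat_lit 4) (nat_lit 51) (nat_lit 76) (nat_lit 53)) (PT.nd (nat_lit 94) (PT.lf (nat_lit 34356) (nat_lit 3) (nat_lit 409) (nat_lit 2) (nat_lit 52) (nat_lit 76) (nat_lit 52)) (PT.lf (nat_lit 34440) (nat_lit 6) (nat_lit 410) (nat_lit 2) (nat_lit 53) (nat_lit 76) (nat_lit 51)))) (PT.nd (nat_lit 94) (PT.lf (nat_lit 34524) (nat_lit 6) (nat_lit 411) (nat_lit 2) (nat_lit 54) (nat_lit 76) (nat_lit 50)) (PT.nd (nat_lit 94) (PT.lf (nat_lit 34608) (nat_lit 6) (nat_lit 412) (nat_lit 2) (nat_lit 55) (nat_lit 76) (nat_lit 49)) (PT.lf (nat_lit 34692) (nat_lit 6) (nat_lit 413) (nat_lit 2) (nat_lit 56) (nat_lit 76) (nat_lit 48)))))) (PT.nd (nat_lit 564) (PT.nd (nat_lit 282) (PT.nd (nat_lit 94) (PT.lf (nat_lit 34776) (nat_lit 6) (nat_lit 414) (nat_lit 2) (nat_lit 57) (nat_lit 76) (nat_lit 47)) (PT.nd (nat_lit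 94) (PT.lf (nat_lit 34860) (nat_lit 6) (nat_lit 415) (nat_lit 2) (nat_lit 58) (nat_lit 76) (nat_lit 46)) (PT.lf (nat_lit 34944) (nat_lit 6) (nat_lit 416) (nat_lit 2) (nat_lit 59) (nat_lit 76) (nat_lit 45)))) (PT.nd (nat_lit 94) (PT.lf (nat_lit 35028) (nat_lit 6) (nat_lit 417) (nat_lit 2) (nat_lit 60) (nat_lit 76) (nat_lit 44)) (PT.nd (nat_lit 94) (PT.lf (nat_lit 33684) (nat_lit 6) (nat_lit 401) (nat_lit 2) (nat_lit 61) (nat_lit 76) (nat_lit 43)) (PT.lf (nat_lit 32256) (nat_lit 6) (nat_lit 384) (nat_lit 2) (nat_lit 62) (nat_lit 76) (nat_lit 42))))) (PT.nd (nat_lit 282) (PT.nd (nat_lit 94) (PT.lf (nat_lit 30744) (nat_lit 6) (nat_lit 366) (nat_lit 2) (nat_lit 63) (nat_lit 76) (nat_lit 41)) (PT.nd (nat_lit 94) (PT.lf (nat_lit 29148) (nat_lit 6) (nat_lit 347) (nat_lit 2) (nat_lit 64) (nat_lit 76) (nat_lit 40)) (PT.lf (nat_lit 27468) (nat_lit 6) (nat_lit 327) (nat_lit 2) (nat_lit 65) (nat_lit 76) (nat_lit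 39)))) (PT.nd (nat_lit 94) (PT.lf (nat_lit 25704) (nat_lit 6) (nat_lit 306) (nat_lit 2) (nat_lit 66) (nat_lit 76) (nat_lit 38)) (PT.nd (nat_lit 94) (PT.lf (nat_lit 23856) (nat_lit 6) (nat_lit 284) (nat_lit 2) (nat_lit 67) (nat_lit 76) (nat_lit 37)) (PT.lf (nat_lit 22764) (nat_lit 6) (nat_lit 271) (nat_lit 2) (nat_lit 68) (nat_lit 76) (nat_lit 36))))))) (PT.nd (nat_lit 1128) (PT.nd (nat_lit 564) (PT.nd (nat_lit 282) (PT.nd (nat_lit 94) (PT.lf (nat_lit 21840) (nat_lit 6) (nat_lit 260) (nat_lit 2) (nat_lit 69) (nat_lit 76) (nat_lit 35)) (PT.nd (nat_lit 94) (PT.lf (nat_lit 20916) (nat_lit 6) (nat_lit 249) (nat_lit 2) (nat_lit 70) (nat_lit 76) (nat_lit 34)) (PT.lf (nat_lit 20076) (nat_lit 6) (nat_lit 239) (nat_lit 2) (nat_lit 71) (nat_lit 76) (nat_lit 33)))) (PT.nd (nat_lit 94) (PT.lf (nat_lit 19236) (nat_lit 6) (nat_lit 229) (nat_lit 2) (nat_lit 72) (nat_lit 76) (nat_lit 32)) (PT.nd (nat_lit 94) (PT.lf (nat_lit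 18396) (nat_lit 6) (nat_lit 219) (nat_lit 2) (nat_lit 73) (nat_lit 76) (nat_lit 31)) (PT.lf (nat_lit 17556) (nat_lit 6) (nat_lit 209) (nat_lit 2) (nat_lit 74) (nat_lit 76) (nat_lit 30))))) (PT.nd (nat_lit 282) (PT.nd (nat_lit 94) (PT.lf (nat_lit 16800) (nat_lit 6) (nat_lit 200) (nat_lit 2) (nat_lit 75) (nat_lit 76) (nat_lit 29)) (PT.nd (nat_lit 94) (PT.lf (nat_lit 16044) (nat_lit 3) (nat_lit 191) (nat_lit 0) (nat_lit 76) (nat_lit 76) (nat_lit 28)) (PT.lf (nat_lit 15204) (nat_lit 6) (nat_lit 181) (nat_lit 0) (nat_lit 77) (nat_lit 76) (nat_lit 27)))) (PT.nd (nat_lit 94) (PT.lf (nat_lit 14364) (nat_lit 6) (nat_lit 171) (nat_lit 0) (nat_lit 78) (nat_lit 76) (nat_lit 26)) (PT.nd (nat_lit 94) (PT.lf (nat_lit 13608) (nat_lit 6) (nat_lit 162) (nat_lit 0) (nat_lit 79) (nat_lit 76) (nat_lit 25)) (PT.lf (nat_lit 12852) (nat_lit 6) (nat_lit 153) (nat_lit 0) (nat_lit 80) (nat_lit 76) (nat_lit 24)))))) (PT.nd (nat_lit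 564) (PT.nd (nat_lit 282) (PT.nd (nat_lit 94) (PT.lf (nat_lit 12096) (nat_lit 6) (nat_lit 144) (nat_lit 0) (nat_lit 81) (nat_lit 76) (nat_lit 23)) (PT.nd (nat_lit 94) (PT.lf (nat_lit 11340) (nat_lit 6) (nat_lit 135) (nat_lit 0) (nat_lit 82) (nat_lit 76) (nat_lit 22)) (PT.lf (nat_lit 10668) (nat_lit 6) (nat_lit 127) (nat_lit 0) (nat_lit 83) (nat_lit 76) (nat_lit 21)))) (PT.nd (nat_lit 94) (PT.lf (nat_lit 9996) (nat_lit 6) (nat_lit 119) (nat_lit 0) (nat_lit 84) (nat_lit 76) (nat_lit 20)) (PT.nd (nat_lit 94) (PT.lf (nat_lit 9324) (nat_lit 6) (nat_lit 111) (nat_lit 0) (nat_lit 85) (nat_lit 76) (nat_lit 19)) (PT.lf (nat_lit 8652) (nat_lit 6) (nat_lit 103) (nat_lit 0) (nat_lit 86) (nat_lit 76) (nat_lit 18))))) (PT.nd (nat_lit 38446) (PT.nd (nat_lit 94) (PT.lf (nat_lit 8064) (nat_lit 6) (nat_lit 96) (nat_lit 0) (nat_lit 87) (nat_lit 76) (nat_lit 17)) (PT.nd (nat_lit 38258) (PT.lf (nat_lit 7392) (nat_lit 6)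 (nat_lit 88) (nat_lit 0) (nat_lit 88) (nat_lit 76) (nat_lit 16)) (PT.lf (nat_lit 6300) (nat_lit 6) (nat_lit 75) (nat_lit 5) (nat_lit 14) (nat_lit 77) (nat_lit 89)))) (PT.nd (nat_lit 94) (PT.lf (nat_lit 6888) (nat_lit 6) (nat_lit 82) (nat_lit 5) (nat_lit 15) (nat_lit 77) (nat_lit 88)) (PT.nd (nat_lit 94) (PT.lf (nat_lit 7476) (nat_lit 6) (nat_lit 89) (nat_lit 5) (nat_lit 16) (nat_lit 77) (nat_lit 87)) (PT.lf (nat_lit 8148) (nat_lit 6) (nat_lit 97) (nat_lit 5) (nat_lit 17) (nat_lit 77) (nat_lit 86))))))))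
noncomputable def pc48 : PT := (PT.nd (nat_lit 2162) (PT.nd (nat_lit 1034) (PT.nd (nat_lit 470) (PT.nd (nat_lit 188) (PT.nd (nat_lit 94) (PT.lf (nat_lit 8736) (nat_lit 6) (nat_lit 104) (nat_lit 5) (nat_lit 18) (nat_lit 77) (nat_lit 85)) (PT.lf (nat_lit 9408) (nat_lit 6) (nat_lit 112) (nat_lit 5) (nat_lit 19) (nat_lit 77) (nat_lit 84))) (PT.nd (nat_lit 94) (PT.lf (nat_lit 10080) (nat_lit 6) (nat_lit 120) (nat_lit 5) (nat_lit 20) (nat_lit 77) (nat_lit 83)) (PT.nd (nat_lit 94) (PT.lf (nat_lit 10752) (nat_lit 6) (nat_lit 128) (nat_lit 5) (nat_lit 21) (nat_lit 77) (nat_lit 82)) (PT.lf (nat_lit 11424) (nat_lit 6) (nat_lit 136) (nat_lit 5) (nat_lit 22) (nat_lit 77) (nat_lit 81))))) (PT.nd (nat_lit 282) (PT.nd (nat_lit 94) (PT.lf (nat_lit 12180) (nat_lit 6) (nat_lit 145) (nat_lit 5) (nat_lit 23) (nat_lit 77) (nat_lit 80)) (PT.nd (nat_lit 94) (PT.lf (nat_lit 12936) (nat_lit 6) (nat_lit 154) (nat_lit 5) (nat_lit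 24) (nat_lit 77) (nat_lit 79)) (PT.lf (nat_lit 13692) (nat_lit 6) (nat_lit 163) (nat_lit 5) (nat_lit 25) (nat_lit 77) (nat_lit 78)))) (PT.nd (nat_lit 94) (PT.lf (nat_lit 14448) (nat_lit 3) (nat_lit 172) (nat_lit 4) (nat_lit 26) (nat_lit 77) (nat_lit 77)) (PT.nd (nat_lit 94) (PT.lf (nat_lit 15204) (nat_lit 6) (nat_lit 181) (nat_lit 4) (nat_lit 27) (nat_lit 77) (nat_lit 76)) (PT.lf (nat_lit 15960) (nat_lit 6) (nat_lit 190) (nat_lit 4) (nat_lit 28) (nat_lit 77) (nat_lit 75)))))) (PT.nd (nat_lit 564) (PT.nd (nat_lit 282) (PT.nd (nat_lit 94) (PT.lf (nat_lit 16716) (nat_lit 6) (nat_lit 199) (nat_lit 4) (nat_lit 29) (nat_lit 77) (nat_lit 74)) (PT.nd (nat_lit 94) (PT.lf (nat_lit 17472) (nat_lit 6) (nat_lit 208) (nat_lit 4) (nat_lit 30) (nat_lit 77) (nat_lit 73)) (PT.lf (nat_lit 18312) (nat_lit 6) (nat_lit 218) (nat_lit 4) (nat_lit 31) (nat_lit 77) (nat_lit 72)))) (PT.nd (nat_lit 94) (PT.lf (nat_lit 19152) (nat_lit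 6) (nat_lit 228) (nat_lit 4) (nat_lit 32) (nat_lit 77) (nat_lit 71)) (PT.nd (nat_lit 94) (PT.lf (nat_lit 19992) (nat_lit 6) (nat_lit 238) (nat_lit 4) (nat_lit 33) (nat_lit 77) (nat_lit 70)) (PT.lf (nat_lit 20832) (nat_lit 6) (nat_lit 248) (nat_lit 4) (nat_lit 34) (nat_lit 77) (nat_lit 69))))) (PT.nd (nat_lit 282) (PT.nd (nat_lit 94) (PT.lf (nat_lit 21756) (nat_lit 6) (nat_lit 259) (nat_lit 4) (nat_lit 35) (nat_lit 77) (nat_lit 68)) (PT.nd (nat_lit 94) (PT.lf (nat_lit 22680) (nat_lit 6) (nat_lit 270) (nat_lit 4) (nat_lit 36) (nat_lit 77) (nat_lit 67)) (PT.lf (nat_lit 23772) (nat_lit 6) (nat_lit 283) (nat_lit 4) (nat_lit 37) (nat_lit 77) (nat_lit 66)))) (PT.nd (nat_lit 94) (PT.lf (nat_lit 25620) (nat_lit 6) (nat_lit 305) (nat_lit 4) (nat_lit 38) (nat_lit 77) (nat_lit 65)) (PT.nd (nat_lit 94) (PT.lf (nat_lit 27384) (nat_lit 6) (nat_lit 326) (nat_lit 4) (nat_lit 39) (nat_lit 77) (nat_lit 64)) (PT.lf (nat_lit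 29064) (nat_lit 6) (nat_lit 346) (nat_lit 4) (nat_lit 40) (nat_lit 77) (nat_lit 63))))))) (PT.nd (nat_lit 1034) (PT.nd (nat_lit 470) (PT.nd (nat_lit 188) (PT.nd (nat_lit 94) (PT.lf (nat_lit 30660) (nat_lit 6) (nat_lit 365) (nat_lit 4) (nat_lit 41) (nat_lit 77) (nat_lit 62)) (PT.lf (nat_lit 32172) (nat_lit 6) (nat_lit 383) (nat_lit 4) (nat_lit 42) (nat_lit 77) (nat_lit 61))) (PT.nd (nat_lit 94) (PT.lf (nat_lit 33600) (nat_lit 6) (nat_lit 400) (nat_lit 4) (nat_lit 43) (nat_lit 77) (nat_lit 60)) (PT.nd (nat_lit 94) (PT.lf (nat_lit 33516) (nat_lit 6) (nat_lit 399) (nat_lit 4) (nat_lit 44) (nat_lit 77) (nat_lit 59)) (PT.lf (nat_lit 33432) (nat_lit 6) (nat_lit 398) (nat_lit 4) (nat_lit 45) (nat_lit 77) (nat_lit 58))))) (PT.nd (nat_lit 282) (PT.nd (nat_lit 94) (PT.lf (nat_lit 33348) (nat_lit 6) (nat_lit 397) (nat_lit 4) (nat_lit 46) (nat_lit 77) (nat_lit 57)) (PT.nd (nat_lit 94) (PT.lf (nat_lit 33264) (nat_lit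 6) (nat_lit 396) (nat_lit 4) (nat_lit 47) (nat_lit 77) (nat_lit 56)) (PT.lf (nat_lit 33180) (nat_lit 6) (nat_lit 395) (nat_lit 4) (nat_lit 48) (nat_lit 77) (nat_lit 55)))) (PT.nd (nat_lit 94) (PT.lf (nat_lit 33096) (nat_lit 6) (nat_lit 394) (nat_lit 4) (nat_lit 49) (nat_lit 77) (nat_lit 54)) (PT.nd (nat_lit 94) (PT.lf (nat_lit 33012) (nat_lit 6) (nat_lit 393) (nat_lit 4) (nat_lit 50) (nat_lit 77) (nat_lit 53)) (PT.lf (nat_lit 32928) (nat_lit 6) (nat_lit 392) (nat_lit 4) (nat_lit 51) (nat_lit 77) (nat_lit 52)))))) (PT.nd (nat_lit 564) (PT.nd (nat_lit 282) (PT.nd (nat_lit 94) (PT.lf (nat_lit 32928) (nat_lit 6) (nat_lit 392) (nat_lit 2) (nat_lit 52) (nat_lit 77) (nat_lit 51)) (PT.nd (nat_lit 94) (PT.lf (nat_lit 33012) (nat_lit 6) (nat_lit 393) (nat_lit 2) (nat_lit 53) (nat_lit 77) (nat_lit 50)) (PT.lf (nat_lit 33096) (nat_lit 6) (nat_lit 394) (nat_lit 2) (nat_lit 54) (nat_lit 77) (nat_lit 49)))) (PT.nd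 (nat_lit 94) (PT.lf (nat_lit 33180) (nat_lit 6) (nat_lit 395) (nat_lit 2) (nat_lit 55) (nat_lit 77) (nat_lit 48)) (PT.nd (nat_lit 94) (PT.lf (nat_lit 33264) (nat_lit 6) (nat_lit 396) (nat_lit 2) (nat_lit 56) (nat_lit 77) (nat_lit 47)) (PT.lf (nat_lit 33348) (nat_lit 6) (nat_lit 397) (nat_lit 2) (nat_lit 57) (nat_lit 77) (nat_lit 46))))) (PT.nd (nat_lit 282) (PT.nd (nat_lit 94) (PT.lf (nat_lit 33432) (nat_lit 6) (nat_lit 398) (nat_lit 2) (nat_lit 58) (nat_lit 77) (nat_lit 45)) (PT.nd (nat_lit 94) (PT.lf (nat_lit 33516) (nat_lit 6) (nat_lit 399) (nat_lit 2) (nat_lit 59) (nat_lit 77) (nat_lit 44)) (PT.lf (nat_lit 33600) (nat_lit 6) (nat_lit 400) (nat_lit 2) (nat_lit 60) (nat_lit 77) (nat_lit 43)))) (PT.nd (nat_lit 94) (PT.lf (nat_lit 32172) (nat_lit 6) (nat_lit 383) (nat_lit 2) (nat_lit 61) (nat_lit 77) (nat_lit 42)) (PT.nd (nat_lit 94) (PT.lf (nat_lit 30660) (nat_lit 6) (nat_lit 365) (nat_lit 2) (nat_lit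 62) (nat_lit 77) (nat_lit 41)) (PT.lf (nat_lit 29064) (nat_lit 6) (nat_lit 346) (nat_lit 2) (nat_lit 63) (nat_lit 77) (nat_lit 40))))))))
noncomputable def pc49 : PT := (PT.nd (nat_lit 2162) (PT.nd (nat_lit 1034) (PT.nd (nat_lit 470) (PT.nd (nat_lit 188) (PT.nd (nat_lit 94) (PT.lf (nat_lit 27384) (nat_lit 6) (nat_lit 326) (nat_lit 2) (nat_lit 64) (nat_lit 77) (nat_lit 39)) (PT.lf (nat_lit 25620) (nat_lit 6) (nat_lit 305) (nat_lit 2) (nat_lit 65) (nat_lit 77) (nat_lit 38))) (PT.nd (nat_lit 94) (PT.lf (nat_lit 23772) (nat_lit 6) (nat_lit 283) (nat_lit 2) (nat_lit 66) (nat_lit 77) (nat_lit 37)) (PT.nd (nat_lit 94) (PT.lf (nat_lit 22680) (nat_lit 6) (nat_lit 270) (nat_lit 2) (nat_lit 67) (nat_lit 77) (nat_lit 36)) (PT.lf (nat_lit 21756) (nat_lit 6) (nat_lit 259) (nat_lit 2) (nat_lit 68) (nat_lit 77) (nat_lit 35))))) (PT.nd (nat_lit 282) (PT.nd (nat_lit 94) (PT.lf (nat_lit 20832) (nat_lit 6) (nat_lit 248)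 (nat_lit 2) (nat_lit 69) (nat_lit 77) (nat_lit 34)) (PT.nd (nat_lit 94) (PT.lf (nat_lit 19992) (nat_lit 6) (nat_lit 238) (nat_lit 2) (nat_lit 70) (nat_lit 77) (nat_lit 33)) (PT.lf (nat_lit 19152) (nat_lit 6) (nat_lit 228) (nat_lit 2) (nat_lit 71) (nat_lit 77) (nat_lit 32)))) (PT.nd (nat_lit 94) (PT.lf (nat_lit 18312) (nat_lit 6) (nat_lit 218) (nat_lit 2) (nat_lit 72) (nat_lit 77) (nat_lit 31)) (PT.nd (nat_lit 94) (PT.lf (nat_lit 17472) (nat_lit 6) (nat_lit 208) (nat_lit 2) (nat_lit 73) (nat_lit 77) (nat_lit 30)) (PT.lf (nat_lit 16716) (nat_lit 6) (nat_lit 199) (nat_lit 2) (nat_lit 74) (nat_lit 77) (nat_lit 29)))))) (PT.nd (nat_lit 564) (PT.nd (nat_lit 282) (PT.nd (nat_lit 94) (PT.lf (nat_lit 15960) (nat_lit 6) (nat_lit 190) (nat_lit 2) (nat_lit 75) (nat_lit 77) (nat_lit 28)) (PT.nd (nat_lit 94) (PT.lf (nat_lit 15204) (nat_lit 6) (nat_lit 181) (nat_lit 2) (nat_lit 76) (nat_lit 77) (nat_lit 27)) (PT.lf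 (nat_lit 14448) (nat_lit 3) (nat_lit 172) (nat_lit 0) (nat_lit 77) (nat_lit 77) (nat_lit 26)))) (PT.nd (nat_lit 94) (PT.lf (nat_lit 13692) (nat_lit 6) (nat_lit 163) (nat_lit 0) (nat_lit 78) (nat_lit 77) (nat_lit 25)) (PT.nd (nat_lit 94) (PT.lf (nat_lit 12936) (nat_lit 6) (nat_lit 154) (nat_lit 0) (nat_lit 79) (nat_lit 77) (nat_lit 24)) (PT.lf (nat_lit 12180) (nat_lit 6) (nat_lit 145) (nat_lit 0) (nat_lit 80) (nat_lit 77) (nat_lit 23))))) (PT.nd (nat_lit 282) (PT.nd (nat_lit 94) (PT.lf (nat_lit 11424) (nat_lit 6) (nat_lit 136) (nat_lit 0) (nat_lit 81) (nat_lit 77) (nat_lit 22)) (PT.nd (nat_lit 94) (PT.lf (nat_lit 10752) (nat_lit 6) (nat_lit 128) (nat_lit 0) (nat_lit 82) (nat_lit 77) (nat_lit 21)) (PT.lf (nat_lit 10080) (nat_lit 6) (nat_lit 120) (nat_lit 0) (nat_lit 83) (nat_lit 77) (nat_lit 20)))) (PT.nd (nat_lit 94) (PT.lf (nat_lit 9408) (nat_lit 6) (nat_lit 112) (nat_lit 0) (nat_lit 84) (nat_lit 77)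 (nat_lit 19)) (PT.nd (nat_lit 94) (PT.lf (nat_lit 8736) (nat_lit 6) (nat_lit 104) (nat_lit 0) (nat_lit 85) (nat_lit 77) (nat_lit 18)) (PT.lf (nat_lit 8148) (nat_lit 6) (nat_lit 97) (nat_lit 0) (nat_lit 86) (nat_lit 77) (nat_lit 17))))))) (PT.nd (nat_lit 39104) (PT.nd (nat_lit 38540) (PT.nd (nat_lit 38258) (PT.nd (nat_lit 94) (PT.lf (nat_lit 7476) (nat_lit 6) (nat_lit 89) (nat_lit 0) (nat_lit 87) (nat_lit 77) (nat_lit 16)) (PT.nd (nat_lit 94) (PT.lf (nat_lit 6888) (nat_lit 6) (nat_lit 82) (nat_lit 0) (nat_lit 88) (nat_lit 77) (nat_lit 15)) (PT.lf (nat_lit 6300) (nat_lit 6) (nat_lit 75) (nat_lit 0) (nat_lit 89) (nat_lit 77) (nat_lit 14)))) (PT.nd (nat_lit 94) (PT.lf (nat_lit 5796) (nat_lit 6) (nat_lit 69) (nat_lit 5) (nat_lit 13) (nat_lit 78) (nat_lit 89)) (PT.nd (nat_lit 94) (PT.lf (nat_lit 6384) (nat_lit 6) (nat_lit 76) (nat_lit 5) (nat_lit 14) (nat_lit 78) (nat_lit 88)) (PT.lf (nat_lit 6972) (nat_lit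 6) (nat_lit 83) (nat_lit 5) (nat_lit 15) (nat_lit 78) (nat_lit 87))))) (PT.nd (nat_lit 282) (PT.nd (nat_lit 94) (PT.lf (nat_lit 7560) (nat_lit 6) (nat_lit 90) (nat_lit 5) (nat_lit 16) (nat_lit 78) (nat_lit 86)) (PT.nd (nat_lit 94) (PT.lf (nat_lit 8232) (nat_lit 6) (nat_lit 98) (nat_lit 5) (nat_lit 17) (nat_lit 78) (nat_lit 85)) (PT.lf (nat_lit 8820) (nat_lit 6) (nat_lit 105) (nat_lit 5) (nat_lit 18) (nat_lit 78) (nat_lit 84)))) (PT.nd (nat_lit 94) (PT.lf (nat_lit 9492) (nat_lit 6) (nat_lit 113) (nat_lit 5) (nat_lit 19) (nat_lit 78) (nat_lit 83)) (PT.nd (nat_lit 94) (PT.lf (nat_lit 10164) (nat_lit 6) (nat_lit 121) (nat_lit 5) (nat_lit 20) (nat_lit 78) (nat_lit 82)) (PT.lf (nat_lit 10836) (nat_lit 6) (nat_lit 129) (nat_lit 5) (nat_lit 21) (nat_lit 78) (nat_lit 81)))))) (PT.nd (nat_lit 564) (PT.nd (nat_lit 282) (PT.nd (nat_lit 94) (PT.lf (nat_lit 11508) (nat_lit 6) (nat_lit 137) (nat_lit 5) (nat_lit 22)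 (nat_lit 78) (nat_lit 80)) (PT.nd (nat_lit 94) (PT.lf (nat_lit 12264) (nat_lit 6) (nat_lit 146) (nat_lit 5) (nat_lit 23) (nat_lit 78) (nat_lit 79)) (PT.lf (nat_lit 13020) (nat_lit 3) (nat_lit 155) (nat_lit 4) (nat_lit 24) (nat_lit 78) (nat_lit 78)))) (PT.nd (nat_lit 94) (PT.lf (nat_lit 13692) (nat_lit 6) (nat_lit 163) (nat_lit 4) (nat_lit 25) (nat_lit 78) (nat_lit 77)) (PT.nd (nat_lit 94) (PT.lf (nat_lit 14364) (nat_lit 6) (nat_lit 171) (nat_lit 4) (nat_lit 26) (nat_lit 78) (nat_lit 76)) (PT.lf (nat_lit 15120) (nat_lit 6) (nat_lit 180) (nat_lit 4) (nat_lit 27) (nat_lit 78) (nat_lit 75))))) (PT.nd (nat_lit 282) (PT.nd (nat_lit 94) (PT.lf (nat_lit 15876) (nat_lit 6) (nat_lit 189) (nat_lit 4) (nat_lit 28) (nat_lit 78) (nat_lit 74)) (PT.nd (nat_lit 94) (PT.lf (nat_lit 16632) (nat_lit 6) (nat_lit 198) (nat_lit 4) (nat_lit 29) (nat_lit 78) (nat_lit 73)) (PT.lf (nat_lit 17388) (nat_lit 6) (nat_lit 207) (nat_lit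 4) (nat_lit 30) (nat_lit 78) (nat_lit 72)))) (PT.nd (nat_lit 94) (PT.lf (nat_lit 18228) (nat_lit 6) (nat_lit 217) (nat_lit 4) (nat_lit 31) (nat_lit 78) (nat_lit 71)) (PT.nd (nat_lit 94) (PT.lf (nat_lit 19068) (nat_lit 6) (nat_lit 227) (nat_lit 4) (nat_lit 32) (nat_lit 78) (nat_lit 70)) (PT.lf (nat_lit 19908) (nat_lit 6) (nat_lit 237) (nat_lit 4) (nat_lit 33) (nat_lit 78) (nat_lit 69))))))))
noncomputable def pc50 : PT := (PT.nd (nat_lit 2162) (PT.nd (nat_lit 1034) (PT.nd (nat_lit 470) (PT.nd (nat_lit 188) (PT.nd (nat_lit 94) (PT.lf (nat_lit 20748) (nat_lit 6) (nat_lit 247) (nat_lit 4) (nat_lit 34) (nat_lit 78) (nat_lit 68)) (PT.lf (nat_lit 21672) (nat_lit 6) (nat_lit 258) (nat_lit 4) (nat_lit 35) (nat_lit 78) (nat_lit 67))) (PT.nd (nat_lit 94) (PT.lf (nat_lit 22596) (nat_lit 6) (nat_lit 269) (nat_lit 4) (nat_lit 36) (nat_lit 78) (nat_lit 66)) (PT.nd (nat_lit 94) (PT.lf (nat_lit 23688) (nat_lit 6) (nat_lit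 282) (nat_lit 4) (nat_lit 37) (nat_lit 78) (nat_lit 65)) (PT.lf (nat_lit 25536) (nat_lit 6) (nat_lit 304) (nat_lit 4) (nat_lit 38) (nat_lit 78) (nat_lit 64))))) (PT.nd (nat_lit 282) (PT.nd (nat_lit 94) (PT.lf (nat_lit 27300) (nat_lit 6) (nat_lit 325) (nat_lit 4) (nat_lit 39) (nat_lit 78) (nat_lit 63)) (PT.nd (nat_lit 94) (PT.lf (nat_lit 28980) (nat_lit 6) (nat_lit 345) (nat_lit 4) (nat_lit 40) (nat_lit 78) (nat_lit 62)) (PT.lf (nat_lit 30576) (nat_lit 6) (nat_lit 364) (nat_lit 4) (nat_lit 41) (nat_lit 78) (nat_lit 61)))) (PT.nd (nat_lit 94) (PT.lf (nat_lit 32088) (nat_lit 6) (nat_lit 382) (nat_lit 4) (nat_lit 42) (nat_lit 78) (nat_lit 60)) (PT.nd (nat_lit 94) (PT.lf (nat_lit 32004) (nat_lit 6) (nat_lit 381) (nat_lit 4) (nat_lit 43) (nat_lit 78) (nat_lit 59)) (PT.lf (nat_lit 31920) (nat_lit 6) (nat_lit 380) (nat_lit 4) (nat_lit 44) (nat_lit 78) (nat_lit 58)))))) (PT.nd (nat_lit 564) (PT.nd (nat_lit 282)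 (PT.nd (nat_lit 94) (PT.lf (nat_lit 31836) (nat_lit 6) (nat_lit 379) (nat_lit 4) (nat_lit 45) (nat_lit 78) (nat_lit 57)) (PT.nd (nat_lit 94) (PT.lf (nat_lit 31752) (nat_lit 6) (nat_lit 378) (nat_lit 4) (nat_lit 46) (nat_lit 78) (nat_lit 56)) (PT.lf (nat_lit 31668) (nat_lit 6) (nat_lit 377) (nat_lit 4) (nat_lit 47) (nat_lit 78) (nat_lit 55)))) (PT.nd (nat_lit 94) (PT.lf (nat_lit 31584) (nat_lit 6) (nat_lit 376) (nat_lit 4) (nat_lit 48) (nat_lit 78) (nat_lit 54)) (PT.nd (nat_lit 94) (PT.lf (nat_lit 31500) (nat_lit 6) (nat_lit 375) (nat_lit 4) (nat_lit 49) (nat_lit 78) (nat_lit 53)) (PT.lf (nat_lit 31416) (nat_lit 6) (nat_lit 374) (nat_lit 4) (nat_lit 50) (nat_lit 78) (nat_lit 52))))) (PT.nd (nat_lit 282) (PT.nd (nat_lit 94) (PT.lf (nat_lit 31332) (nat_lit 3) (nat_lit 373) (nat_lit 2) (nat_lit 51) (nat_lit 78) (nat_lit 51)) (PT.nd (nat_lit 94) (PT.lf (nat_lit 31416) (nat_lit 6) (nat_lit 374) (nat_lit 2)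 (nat_lit 52) (nat_lit 78) (nat_lit 50)) (PT.lf (nat_lit 31500) (nat_lit 6) (nat_lit 375) (nat_lit 2) (nat_lit 53) (nat_lit 78) (nat_lit 49)))) (PT.nd (nat_lit 94) (PT.lf (nat_lit 31584) (nat_lit 6) (nat_lit 376) (nat_lit 2) (nat_lit 54) (nat_lit 78) (nat_lit 48)) (PT.nd (nat_lit 94) (PT.lf (nat_lit 31668) (nat_lit 6) (nat_lit 377) (nat_lit 2) (nat_lit 55) (nat_lit 78) (nat_lit 47)) (PT.lf (nat_lit 31752) (nat_lit 6) (nat_lit 378) (nat_lit 2) (nat_lit 56) (nat_lit 78) (nat_lit 46))))))) (PT.nd (nat_lit 1034) (PT.nd (nat_lit 470) (PT.nd (nat_lit 188) (PT.nd (nat_lit 94) (PT.lf (nat_lit 31836) (nat_lit 6) (nat_lit 379) (nat_lit 2) (nat_lit 57) (nat_lit 78) (nat_lit 45)) (PT.lf (nat_lit 31920) (nat_lit 6) (nat_lit 380) (nat_lit 2) (nat_lit 58) (nat_lit 78) (nat_lit 44))) (PT.nd (nat_lit 94) (PT.lf (nat_lit 32004) (nat_lit 6) (nat_lit 381) (nat_lit 2) (nat_lit 59) (nat_lit 78) (nat_lit 43)) (PT.nd (nat_lit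 94) (PT.lf (nat_lit 32088) (nat_lit 6) (nat_lit 382) (nat_lit 2) (nat_lit 60) (nat_lit 78) (nat_lit 42)) (PT.lf (nat_lit 30576) (nat_lit 6) (nat_lit 364) (nat_lit 2) (nat_lit 61) (nat_lit 78) (nat_lit 41))))) (PT.nd (nat_lit 282) (PT.nd (nat_lit 94) (PT.lf (nat_lit 28980) (nat_lit 6) (nat_lit 345) (nat_lit 2) (nat_lit 62) (nat_lit 78) (nat_lit 40)) (PT.nd (nat_lit 94) (PT.lf (nat_lit 27300) (nat_lit 6) (nat_lit 325) (nat_lit 2) (nat_lit 63) (nat_lit 78) (nat_lit 39)) (PT.lf (nat_lit 25536) (nat_lit 6) (nat_lit 304) (nat_lit 2) (nat_lit 64) (nat_lit 78) (nat_lit 38)))) (PT.nd (nat_lit 94) (PT.lf (nat_lit 23688) (nat_lit 6) (nat_lit 282) (nat_lit 2) (nat_lit 65) (nat_lit 78) (nat_lit 37)) (PT.nd (nat_lit 94) (PT.lf (nat_lit 22596) (nat_lit 6) (nat_lit 269) (nat_lit 2) (nat_lit 66) (nat_lit 78) (nat_lit 36)) (PT.lf (nat_lit 21672) (nat_lit 6) (nat_lit 258) (nat_lit 2) (nat_lit 67) (nat_lit 78) (nat_lit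 35)))))) (PT.nd (nat_lit 564) (PT.nd (nat_lit 282) (PT.nd (nat_lit 94) (PT.lf (nat_lit 20748) (nat_lit 6) (nat_lit 247) (nat_lit 2) (nat_lit 68) (nat_lit 78) (nat_lit 34)) (PT.nd (nat_lit 94) (PT.lf (nat_lit 19908) (nat_lit 6) (nat_lit 237) (nat_lit 2) (nat_lit 69) (nat_lit 78) (nat_lit 33)) (PT.lf (nat_lit 19068) (nat_lit 6) (nat_lit 227) (nat_lit 2) (nat_lit 70) (nat_lit 78) (nat_lit 32)))) (PT.nd (nat_lit 94) (PT.lf (nat_lit 18228) (nat_lit 6) (nat_lit 217) (nat_lit 2) (nat_lit 71) (nat_lit 78) (nat_lit 31)) (PT.nd (nat_lit 94) (PT.lf (nat_lit 17388) (nat_lit 6) (nat_lit 207) (nat_lit 2) (nat_lit 72) (nat_lit 78) (nat_lit 30)) (PT.lf (nat_lit 16632) (nat_lit 6) (nat_lit 198) (nat_lit 2) (nat_lit 73) (nat_lit 78) (nat_lit 29))))) (PT.nd (nat_lit 282) (PT.nd (nat_lit 94) (PT.lf (nat_lit 15876) (nat_lit 6) (nat_lit 189) (nat_lit 2) (nat_lit 74) (nat_lit 78) (nat_lit 28)) (PT.nd (nat_lit 94) (PT.lf (nat_lit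 15120) (nat_lit 6) (nat_lit 180) (nat_lit 2) (nat_lit 75) (nat_lit 78) (nat_lit 27)) (PT.lf (nat_lit 14364) (nat_lit 6) (nat_lit 171) (nat_lit 2) (nat_lit 76) (nat_lit 78) (nat_lit 26)))) (PT.nd (nat_lit 94) (PT.lf (nat_lit 13692) (nat_lit 6) (nat_lit 163) (nat_lit 2) (nat_lit 77) (nat_lit 78) (nat_lit 25)) (PT.nd (nat_lit 94) (PT.lf (nat_lit 13020) (nat_lit 3) (nat_lit 155) (nat_lit 0) (nat_lit 78) (nat_lit 78) (nat_lit 24)) (PT.lf (nat_lit 12264) (nat_lit 6) (nat_lit 146) (nat_lit 0) (nat_lit 79) (nat_lit 78) (nat_lit 23))))))))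
noncomputable def pc51 : PT := (PT.nd (nat_lit 40044) (PT.nd (nat_lit 38916) (PT.nd (nat_lit 470) (PT.nd (nat_lit 188) (PT.nd (nat_lit 94) (PT.lf (nat_lit 11508) (nat_lit 6) (nat_lit 137) (nat_lit 0) (nat_lit 80) (nat_lit 78) (nat_lit 22)) (PT.lf (nat_lit 10836) (nat_lit 6) (nat_lit 129) (nat_lit 0) (nat_lit 81) (nat_lit 78) (nat_lit 21))) (PT.nd (nat_lit 94) (PT.lf (nat_lit 10164) (nat_lit 6) (nat_lit 121) (nat_lit 0) (nat_lit 82) (nat_lit 78) (nat_lit 20)) (PT.nd (nat_lit 94) (PT.lf (nat_lit 9492) (nat_lit 6) (nat_lit 113) (nat_lit 0) (nat_lit 83) (nat_lit 78) (nat_lit 19)) (PT.lf (nat_lit 8820) (nat_lit 6) (nat_lit 105) (nat_lit 0) (nat_lit 84) (nat_lit 78) (nat_lit 18))))) (PT.nd (nat_lit 282) (PT.nd (nat_lit 94) (PT.lf (nat_lit 8232) (nat_lit 6) (nat_lit 98) (nat_lit 0) (nat_lit 85) (nat_lit 78) (nat_lit 17)) (PT.nd (nat_lit 94) (PT.lf (nat_lit 7560) (nat_lit 6) (nat_lit 90) (nat_lit 0) (nat_lit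 86) (nat_lit 78) (nat_lit 16)) (PT.lf (nat_lit 6972) (nat_lit 6) (nat_lit 83) (nat_lit 0) (nat_lit 87) (nat_lit 78) (nat_lit 15)))) (PT.nd (nat_lit 94) (PT.lf (nat_lit 6384) (nat_lit 6) (nat_lit 76) (nat_lit 0) (nat_lit 88) (nat_lit 78) (nat_lit 14)) (PT.nd (nat_lit 37976) (PT.lf (nat_lit 5796) (nat_lit 6) (nat_lit 69) (nat_lit 0) (nat_lit 89) (nat_lit 78) (nat_lit 13)) (PT.lf (nat_lit 5292) (nat_lit 6) (nat_lit 63) (nat_lit 5) (nat_lit 12) (nat_lit 79) (nat_lit 89)))))) (PT.nd (nat_lit 564) (PT.nd (nat_lit 282) (PT.nd (nat_lit 94) (PT.lf (nat_lit 5880) (nat_lit 6) (nat_lit 70) (nat_lit 5) (nat_lit 13) (nat_lit 79) (nat_lit 88)) (PT.nd (nat_lit 94) (PT.lf (nat_lit 6468) (nat_lit 6) (nat_lit 77) (nat_lit 5) (nat_lit 14) (nat_lit 79) (nat_lit 87)) (PT.lf (nat_lit 7056) (nat_lit 6) (nat_lit 84) (nat_lit 5) (nat_lit 15) (nat_lit 79) (nat_lit 86)))) (PT.nd (nat_lit 94) (PT.lf (nat_lit 7644) (nat_lit 6) (nat_lit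 91) (nat_lit 5) (nat_lit 16) (nat_lit 79) (nat_lit 85)) (PT.nd (nat_lit 94) (PT.lf (nat_lit 8316) (nat_lit 6) (nat_lit 99) (nat_lit 5) (nat_lit 17) (nat_lit 79) (nat_lit 84)) (PT.lf (nat_lit 8904) (nat_lit 6) (nat_lit 106) (nat_lit 5) (nat_lit 18) (nat_lit 79) (nat_lit 83))))) (PT.nd (nat_lit 282) (PT.nd (nat_lit 94) (PT.lf (nat_lit 9576) (nat_lit 6) (nat_lit 114) (nat_lit 5) (nat_lit 19) (nat_lit 79) (nat_lit 82)) (PT.nd (nat_lit 94) (PT.lf (nat_lit 10248) (nat_lit 6) (nat_lit 122) (nat_lit 5) (nat_lit 20) (nat_lit 79) (nat_lit 81)) (PT.lf (nat_lit 10920) (nat_lit 6) (nat_lit 130) (nat_lit 5) (nat_lit 21) (nat_lit 79) (nat_lit 80)))) (PT.nd (nat_lit 94) (PT.lf (nat_lit 11592) (nat_lit 3) (nat_lit 138) (nat_lit 4) (nat_lit 22) (nat_lit 79) (nat_lit 79)) (PT.nd (nat_lit 94) (PT.lf (nat_lit 12264) (nat_lit 6) (nat_lit 146) (nat_lit 4) (nat_lit 23) (nat_lit 79) (nat_lit 78)) (PT.lf (nat_lit 12936) (nat_lit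 6) (nat_lit 154) (nat_lit 4) (nat_lit 24) (nat_lit 79) (nat_lit 77))))))) (PT.nd (nat_lit 1128) (PT.nd (nat_lit 564) (PT.nd (nat_lit 282) (PT.nd (nat_lit 94) (PT.lf (nat_lit 13608) (nat_lit 6) (nat_lit 162) (nat_lit 4) (nat_lit 25) (nat_lit 79) (nat_lit 76)) (PT.nd (nat_lit 94) (PT.lf (nat_lit 14280) (nat_lit 6) (nat_lit 170) (nat_lit 4) (nat_lit 26) (nat_lit 79) (nat_lit 75)) (PT.lf (nat_lit 15036) (nat_lit 6) (nat_lit 179) (nat_lit 4) (nat_lit 27) (nat_lit 79) (nat_lit 74)))) (PT.nd (nat_lit 94) (PT.lf (nat_lit 15792) (nat_lit 6) (nat_lit 188) (nat_lit 4) (nat_lit 28) (nat_lit 79) (nat_lit 73)) (PT.nd (nat_lit 94) (PT.lf (nat_lit 16548) (nat_lit 6) (nat_lit 197) (nat_lit 4) (nat_lit 29) (nat_lit 79) (nat_lit 72)) (PT.lf (nat_lit 17304) (nat_lit 6) (nat_lit 206) (nat_lit 4) (nat_lit 30) (nat_lit 79) (nat_lit 71))))) (PT.nd (nat_lit 282) (PT.nd (nat_lit 94) (PT.lf (nat_lit 18144) (nat_lit 6) (nat_lit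 216) (nat_lit 4) (nat_lit 31) (nat_lit 79) (nat_lit 70)) (PT.nd (nat_lit 94) (PT.lf (nat_lit 18984) (nat_lit 6) (nat_lit 226) (nat_lit 4) (nat_lit 32) (nat_lit 79) (nat_lit 69)) (PT.lf (nat_lit 19824) (nat_lit 6) (nat_lit 236) (nat_lit 4) (nat_lit 33) (nat_lit 79) (nat_lit 68)))) (PT.nd (nat_lit 94) (PT.lf (nat_lit 20664) (nat_lit 6) (nat_lit 246) (nat_lit 4) (nat_lit 34) (nat_lit 79) (nat_lit 67)) (PT.nd (nat_lit 94) (PT.lf (nat_lit 21588) (nat_lit 6) (nat_lit 257) (nat_lit 4) (nat_lit 35) (nat_lit 79) (nat_lit 66)) (PT.lf (nat_lit 22512) (nat_lit 6) (nat_lit 268) (nat_lit 4) (nat_lit 36) (nat_lit 79) (nat_lit 65)))))) (PT.nd (nat_lit 564) (PT.nd (nat_lit 282) (PT.nd (nat_lit 94) (PT.lf (nat_lit 23604) (nat_lit 6) (nat_lit 281) (nat_lit 4) (nat_lit 37) (nat_lit 79) (nat_lit 64)) (PT.nd (nat_lit 94) (PT.lf (nat_lit 25452) (nat_lit 6) (nat_lit 303) (nat_lit 4) (nat_lit 38) (nat_lit 79) (nat_lit 63)) (PT.lf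 (nat_lit 27216) (nat_lit 6) (nat_lit 324) (nat_lit 4) (nat_lit 39) (nat_lit 79) (nat_lit 62)))) (PT.nd (nat_lit 94) (PT.lf (nat_lit 28896) (nat_lit 6) (nat_lit 344) (nat_lit 4) (nat_lit 40) (nat_lit 79) (nat_lit 61)) (PT.nd (nat_lit 94) (PT.lf (nat_lit 30492) (nat_lit 6) (nat_lit 363) (nat_lit 4) (nat_lit 41) (nat_lit 79) (nat_lit 60)) (PT.lf (nat_lit 30408) (nat_lit 6) (nat_lit 362) (nat_lit 4) (nat_lit 42) (nat_lit 79) (nat_lit 59))))) (PT.nd (nat_lit 282) (PT.nd (nat_lit 94) (PT.lf (nat_lit 30324) (nat_lit 6) (nat_lit 361) (nat_lit 4) (nat_lit 43) (nat_lit 79) (nat_lit 58)) (PT.nd (nat_lit 94) (PT.lf (nat_lit 30240) (nat_lit 6) (nat_lit 360) (nat_lit 4) (nat_lit 44) (nat_lit 79) (nat_lit 57)) (PT.lf (nat_lit 30156) (nat_lit 6) (nat_lit 359) (nat_lit 4) (nat_lit 45) (nat_lit 79) (nat_lit 56)))) (PT.nd (nat_lit 94) (PT.lf (nat_lit 30072) (nat_lit 6) (nat_lit 358) (nat_lit 4) (nat_lit 46) (nat_lit 79)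 (nat_lit 55)) (PT.nd (nat_lit 94) (PT.lf (nat_lit 29988) (nat_lit 6) (nat_lit 357) (nat_lit 4) (nat_lit 47) (nat_lit 79) (nat_lit 54)) (PT.lf (nat_lit 29904) (nat_lit 6) (nat_lit 356) (nat_lit 4) (nat_lit 48) (nat_lit 79) (nat_lit 53))))))))
noncomputable def pc52 : PT := (PT.nd (nat_lit 2162) (PT.nd (nat_lit 1034) (PT.nd (nat_lit 470) (PT.nd (nat_lit 188) (PT.nd (nat_lit 94) (PT.lf (nat_lit 29820) (nat_lit 6) (nat_lit 355) (nat_lit 4) (nat_lit 49) (nat_lit 79) (nat_lit 52)) (PT.lf (nat_lit 29736) (nat_lit 6) (nat_lit 354) (nat_lit 4) (nat_lit 50) (nat_lit 79) (nat_lit 51))) (PT.nd (nat_lit 94) (PT.lf (nat_lit 29736) (nat_lit 6) (nat_lit 354) (nat_lit 2) (nat_lit 51) (nat_lit 79) (nat_lit 50)) (PT.nd (nat_lit 94) (PT.lf (nat_lit 29820) (nat_lit 6) (nat_lit 355) (nat_lit 2) (nat_lit 52) (nat_lit 79) (nat_lit 49)) (PT.lf (nat_lit 29904) (nat_lit 6) (nat_lit 356) (nat_lit 2) (nat_lit 53) (nat_lit 79) (nat_lit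 48))))) (PT.nd (nat_lit 282) (PT.nd (nat_lit 94) (PT.lf (nat_lit 29988) (nat_lit 6) (nat_lit 357) (nat_lit 2) (nat_lit 54) (nat_lit 79) (nat_lit 47)) (PT.nd (nat_lit 94) (PT.lf (nat_lit 30072) (nat_lit 6) (nat_lit 358) (nat_lit 2) (nat_lit 55) (nat_lit 79) (nat_lit 46)) (PT.lf (nat_lit 30156) (nat_lit 6) (nat_lit 359) (nat_lit 2) (nat_lit 56) (nat_lit 79) (nat_lit 45)))) (PT.nd (nat_lit 94) (PT.lf (nat_lit 30240) (nat_lit 6) (nat_lit 360) (nat_lit 2) (nat_lit 57) (nat_lit 79) (nat_lit 44)) (PT.nd (nat_lit 94) (PT.lf (nat_lit 30324) (nat_lit 6) (nat_lit 361) (nat_lit 2) (nat_lit 58) (nat_lit 79) (nat_lit 43)) (PT.lf (nat_lit 30408) (nat_lit 6) (nat_lit 362) (nat_lit 2) (nat_lit 59) (nat_lit 79) (nat_lit 42)))))) (PT.nd (nat_lit 564) (PT.nd (nat_lit 282) (PT.nd (nat_lit 94) (PT.lf (nat_lit 30492) (nat_lit 6) (nat_lit 363) (nat_lit 2) (nat_lit 60) (nat_lit 79) (nat_lit 41)) (PT.nd (nat_lit 94) (PT.lf (nat_lit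 28896) (nat_lit 6) (nat_lit 344) (nat_lit 2) (nat_lit 61) (nat_lit 79) (nat_lit 40)) (PT.lf (nat_lit 27216) (nat_lit 6) (nat_lit 324) (nat_lit 2) (nat_lit 62) (nat_lit 79) (nat_lit 39)))) (PT.nd (nat_lit 94) (PT.lf (nat_lit 25452) (nat_lit 6) (nat_lit 303) (nat_lit 2) (nat_lit 63) (nat_lit 79) (nat_lit 38)) (PT.nd (nat_lit 94) (PT.lf (nat_lit 23604) (nat_lit 6) (nat_lit 281) (nat_lit 2) (nat_lit 64) (nat_lit 79) (nat_lit 37)) (PT.lf (nat_lit 22512) (nat_lit 6) (nat_lit 268) (nat_lit 2) (nat_lit 65) (nat_lit 79) (nat_lit 36))))) (PT.nd (nat_lit 282) (PT.nd (nat_lit 94) (PT.lf (nat_lit 21588) (nat_lit 6) (nat_lit 257) (nat_lit 2) (nat_lit 66) (nat_lit 79) (nat_lit 35)) (PT.nd (nat_lit 94) (PT.lf (nat_lit 20664) (nat_lit 6) (nat_lit 246) (nat_lit 2) (nat_lit 67) (nat_lit 79) (nat_lit 34)) (PT.lf (nat_lit 19824) (nat_lit 6) (nat_lit 236) (nat_lit 2) (nat_lit 68) (nat_lit 79) (nat_lit 33)))) (PT.nd (nat_lit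 94) (PT.lf (nat_lit 18984) (nat_lit 6) (nat_lit 226) (nat_lit 2) (nat_lit 69) (nat_lit 79) (nat_lit 32)) (PT.nd (nat_lit 94) (PT.lf (nat_lit 18144) (nat_lit 6) (nat_lit 216) (nat_lit 2) (nat_lit 70) (nat_lit 79) (nat_lit 31)) (PT.lf (nat_lit 17304) (nat_lit 6) (nat_lit 206) (nat_lit 2) (nat_lit 71) (nat_lit 79) (nat_lit 30))))))) (PT.nd (nat_lit 1034) (PT.nd (nat_lit 470) (PT.nd (nat_lit 188) (PT.nd (nat_lit 94) (PT.lf (nat_lit 16548) (nat_lit 6) (nat_lit 197) (nat_lit 2) (nat_lit 72) (nat_lit 79) (nat_lit 29)) (PT.lf (nat_lit 15792) (nat_lit 6) (nat_lit 188) (nat_lit 2) (nat_lit 73) (nat_lit 79) (nat_lit 28))) (PT.nd (nat_lit 94) (PT.lf (nat_lit 15036) (nat_lit 6) (nat_lit 179) (nat_lit 2) (nat_lit 74) (nat_lit 79) (nat_lit 27)) (PT.nd (nat_lit 94) (PT.lf (nat_lit 14280) (nat_lit 6) (nat_lit 170) (nat_lit 2) (nat_lit 75) (nat_lit 79) (nat_lit 26)) (PT.lf (nat_lit 13608) (nat_lit 6) (nat_lit 162) (nat_lit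 2) (nat_lit 76) (nat_lit 79) (nat_lit 25))))) (PT.nd (nat_lit 282) (PT.nd (nat_lit 94) (PT.lf (nat_lit 12936) (nat_lit 6) (nat_lit 154) (nat_lit 2) (nat_lit 77) (nat_lit 79) (nat_lit 24)) (PT.nd (nat_lit 94) (PT.lf (nat_lit 12264) (nat_lit 6) (nat_lit 146) (nat_lit 2) (nat_lit 78) (nat_lit 79) (nat_lit 23)) (PT.lf (nat_lit 11592) (nat_lit 3) (nat_lit 138) (nat_lit 0) (nat_lit 79) (nat_lit 79) (nat_lit 22)))) (PT.nd (nat_lit 94) (PT.lf (nat_lit 10920) (nat_lit 6) (nat_lit 130) (nat_lit 0) (nat_lit 80) (nat_lit 79) (nat_lit 21)) (PT.nd (nat_lit 94) (PT.lf (nat_lit 10248) (nat_lit 6) (nat_lit 122) (nat_lit 0) (nat_lit 81) (nat_lit 79) (nat_lit 20)) (PT.lf (nat_lit 9576) (nat_lit 6) (nat_lit 114) (nat_lit 0) (nat_lit 82) (nat_lit 79) (nat_lit 19)))))) (PT.nd (nat_lit 564) (PT.nd (nat_lit 282) (PT.nd (nat_lit 94) (PT.lf (nat_lit 8904) (nat_lit 6) (nat_lit 106) (nat_lit 0) (nat_lit 83) (nat_lit 79) (nat_lit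 18)) (PT.nd (nat_lit 94) (PT.lf (nat_lit 8316) (nat_lit 6) (nat_lit 99) (nat_lit 0) (nat_lit 84) (nat_lit 79) (nat_lit 17)) (PT.lf (nat_lit 7644) (nat_lit 6) (nat_lit 91) (nat_lit 0) (nat_lit 85) (nat_lit 79) (nat_lit 16)))) (PT.nd (nat_lit 94) (PT.lf (nat_lit 7056) (nat_lit 6) (nat_lit 84) (nat_lit 0) (nat_lit 86) (nat_lit 79) (nat_lit 15)) (PT.nd (nat_lit 94) (PT.lf (nat_lit 6468) (nat_lit 6) (nat_lit 77) (nat_lit 0) (nat_lit 87) (nat_lit 79) (nat_lit 14)) (PT.lf (nat_lit 5880) (nat_lit 6) (nat_lit 70) (nat_lit 0) (nat_lit 88) (nat_lit 79) (nat_lit 13))))) (PT.nd (nat_lit 37976) (PT.nd (nat_lit 37788) (PT.lf (nat_lit 5292) (nat_lit 6) (nat_lit 63) (nat_lit 0) (nat_lit 89) (nat_lit 79) (nat_lit 12)) (PT.nd (nat_lit 94) (PT.lf (nat_lit 4284) (nat_lit 6) (nat_lit 51) (nat_lit 5) (nat_lit 10) (nat_lit 80) (nat_lit 90)) (PT.lf (nat_lit 4872) (nat_lit 6) (nat_lit 58) (nat_lit 5) (nat_lit 11) (nat_lit 80)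 (nat_lit 89)))) (PT.nd (nat_lit 94) (PT.lf (nat_lit 5376) (nat_lit 6) (nat_lit 64) (nat_lit 5) (nat_lit 12) (nat_lit 80) (nat_lit 88)) (PT.nd (nat_lit 94) (PT.lf (nat_lit 5964) (nat_lit 6) (nat_lit 71) (nat_lit 5) (nat_lit 13) (nat_lit 80) (nat_lit 87)) (PT.lf (nat_lit 6552) (nat_lit 6) (nat_lit 78) (nat_lit 5) (nat_lit 14) (nat_lit 80) (nat_lit 86))))))))
noncomputable def pc53 : PT := (PT.nd (nat_lit 2162) (PT.nd (nat_lit 1034) (PT.nd (nat_lit 470) (PT.nd (nat_lit 188) (PT.nd (nat_lit 94) (PT.lf (nat_lit 7140) (nat_lit 6) (nat_lit 85) (nat_lit 5) (nat_lit 15) (nat_lit 80) (nat_lit 85)) (PT.lf (nat_lit 7728) (nat_lit 6) (nat_lit 92) (nat_lit 5) (nat_lit 16) (nat_lit 80) (nat_lit 84))) (PT.nd (nat_lit 94) (PT.lf (nat_lit 8400) (nat_lit 6) (nat_lit 100) (nat_lit 5) (nat_lit 17) (nat_lit 80) (nat_lit 83)) (PT.nd (nat_lit 94) (PT.lf (nat_lit 8988) (nat_lit 6) (nat_lit 107) (nat_lit 5) (nat_lit 18) (nat_lit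 80) (nat_lit 82)) (PT.lf (nat_lit 9660) (nat_lit 6) (nat_lit 115) (nat_lit 5) (nat_lit 19) (nat_lit 80) (nat_lit 81))))) (PT.nd (nat_lit 282) (PT.nd (nat_lit 94) (PT.lf (nat_lit 10332) (nat_lit 3) (nat_lit 123) (nat_lit 4) (nat_lit 20) (nat_lit 80) (nat_lit 80)) (PT.nd (nat_lit 94) (PT.lf (nat_lit 10920) (nat_lit 6) (nat_lit 130) (nat_lit 4) (nat_lit 21) (nat_lit 80) (nat_lit 79)) (PT.lf (nat_lit 11508) (nat_lit 6) (nat_lit 137) (nat_lit 4) (nat_lit 22) (nat_lit 80) (nat_lit 78)))) (PT.nd (nat_lit 94) (PT.lf (nat_lit 12180) (nat_lit 6) (nat_lit 145) (nat_lit 4) (nat_lit 23) (nat_lit 80) (nat_lit 77)) (PT.nd (nat_lit 94) (PT.lf (nat_lit 12852) (nat_lit 6) (nat_lit 153) (nat_lit 4) (nat_lit 24) (nat_lit 80) (nat_lit 76)) (PT.lf (nat_lit 13524) (nat_lit 6) (nat_lit 161) (nat_lit 4) (nat_lit 25) (nat_lit 80) (nat_lit 75)))))) (PT.nd (nat_lit 564) (PT.nd (nat_lit 282) (PT.nd (nat_lit 94) (PT.lf (nat_lit 14196)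 (nat_lit 6) (nat_lit 169) (nat_lit 4) (nat_lit 26) (nat_lit 80) (nat_lit 74)) (PT.nd (nat_lit 94) (PT.lf (nat_lit 14952) (nat_lit 6) (nat_lit 178) (nat_lit 4) (nat_lit 27) (nat_lit 80) (nat_lit 73)) (PT.lf (nat_lit 15708) (nat_lit 6) (nat_lit 187) (nat_lit 4) (nat_lit 28) (nat_lit 80) (nat_lit 72)))) (PT.nd (nat_lit 94) (PT.lf (nat_lit 16464) (nat_lit 6) (nat_lit 196) (nat_lit 4) (nat_lit 29) (nat_lit 80) (nat_lit 71)) (PT.nd (nat_lit 94) (PT.lf (nat_lit 17220) (nat_lit 6) (nat_lit 205) (nat_lit 4) (nat_lit 30) (nat_lit 80) (nat_lit 70)) (PT.lf (nat_lit 18060) (nat_lit 6) (nat_lit 215) (nat_lit 4) (nat_lit 31) (nat_lit 80) (nat_lit 69))))) (PT.nd (nat_lit 282) (PT.nd (nat_lit 94) (PT.lf (nat_lit 18900) (nat_lit 6) (nat_lit 225) (nat_lit 4) (nat_lit 32) (nat_lit 80) (nat_lit 68)) (PT.nd (nat_lit 94) (PT.lf (nat_lit 19740) (nat_lit 6) (nat_lit 235) (nat_lit 4) (nat_lit 33) (nat_lit 80) (nat_lit 67)) (PT.lf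 (nat_lit 20580) (nat_lit 6) (nat_lit 245) (nat_lit 4) (nat_lit 34) (nat_lit 80) (nat_lit 66)))) (PT.nd (nat_lit 94) (PT.lf (nat_lit 21504) (nat_lit 6) (nat_lit 256) (nat_lit 4) (nat_lit 35) (nat_lit 80) (nat_lit 65)) (PT.nd (nat_lit 94) (PT.lf (nat_lit 22428) (nat_lit 6) (nat_lit 267) (nat_lit 4) (nat_lit 36) (nat_lit 80) (nat_lit 64)) (PT.lf (nat_lit 23520) (nat_lit 6) (nat_lit 280) (nat_lit 4) (nat_lit 37) (nat_lit 80) (nat_lit 63))))))) (PT.nd (nat_lit 1128) (PT.nd (nat_lit 564) (PT.nd (nat_lit 282) (PT.nd (nat_lit 94) (PT.lf (nat_lit 25368) (nat_lit 6) (nat_lit 302) (nat_lit 4) (nat_lit 38) (nat_lit 80) (nat_lit 62)) (PT.nd (nat_lit 94) (PT.lf (nat_lit 27132) (nat_lit 6) (nat_lit 323) (nat_lit 4) (nat_lit 39) (nat_lit 80) (nat_lit 61)) (PT.lf (nat_lit 28812) (nat_lit 6) (nat_lit 343) (nat_lit 4) (nat_lit 40) (nat_lit 80) (nat_lit 60)))) (PT.nd (nat_lit 94) (PT.lf (nat_lit 28728) (nat_lit 6) (nat_lit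 342) (nat_lit 4) (nat_lit 41) (nat_lit 80) (nat_lit 59)) (PT.nd (nat_lit 94) (PT.lf (nat_lit 28644) (nat_lit 6) (nat_lit 341) (nat_lit 4) (nat_lit 42) (nat_lit 80) (nat_lit 58)) (PT.lf (nat_lit 28560) (nat_lit 6) (nat_lit 340) (nat_lit 4) (nat_lit 43) (nat_lit 80) (nat_lit 57))))) (PT.nd (nat_lit 282) (PT.nd (nat_lit 94) (PT.lf (nat_lit 28476) (nat_lit 6) (nat_lit 339) (nat_lit 4) (nat_lit 44) (nat_lit 80) (nat_lit 56)) (PT.nd (nat_lit 94) (PT.lf (nat_lit 28392) (nat_lit 6) (nat_lit 338) (nat_lit 4) (nat_lit 45) (nat_lit 80) (nat_lit 55)) (PT.lf (nat_lit 28308) (nat_lit 6) (nat_lit 337) (nat_lit 4) (nat_lit 46) (nat_lit 80) (nat_lit 54)))) (PT.nd (nat_lit 94) (PT.lf (nat_lit 28224) (nat_lit 6) (nat_lit 336) (nat_lit 4) (nat_lit 47) (nat_lit 80) (nat_lit 53)) (PT.nd (nat_lit 94) (PT.lf (nat_lit 28140) (nat_lit 6) (nat_lit 335) (nat_lit 4) (nat_lit 48) (nat_lit 80) (nat_lit 52)) (PT.lf (nat_lit 28056)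 (nat_lit 6) (nat_lit 334) (nat_lit 4) (nat_lit 49) (nat_lit 80) (nat_lit 51)))))) (PT.nd (nat_lit 564) (PT.nd (nat_lit 282) (PT.nd (nat_lit 94) (PT.lf (nat_lit 27972) (nat_lit 3) (nat_lit 333) (nat_lit 2) (nat_lit 50) (nat_lit 80) (nat_lit 50)) (PT.nd (nat_lit 94) (PT.lf (nat_lit 28056) (nat_lit 6) (nat_lit 334) (nat_lit 2) (nat_lit 51) (nat_lit 80) (nat_lit 49)) (PT.lf (nat_lit 28140) (nat_lit 6) (nat_lit 335) (nat_lit 2) (nat_lit 52) (nat_lit 80) (nat_lit 48)))) (PT.nd (nat_lit 94) (PT.lf (nat_lit 28224) (nat_lit 6) (nat_lit 336) (nat_lit 2) (nat_lit 53) (nat_lit 80) (nat_lit 47)) (PT.nd (nat_lit 94) (PT.lf (nat_lit 28308) (nat_lit 6) (nat_lit 337) (nat_lit 2) (nat_lit 54) (nat_lit 80) (nat_lit 46)) (PT.lf (nat_lit 28392) (nat_lit 6) (nat_lit 338) (nat_lit 2) (nat_lit 55) (nat_lit 80) (nat_lit 45))))) (PT.nd (nat_lit 282) (PT.nd (nat_lit 94) (PT.lf (nat_lit 28476) (nat_lit 6) (nat_lit 339) (nat_lit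 2) (nat_lit 56) (nat_lit 80) (nat_lit 44)) (PT.nd (nat_lit 94) (PT.lf (nat_lit 28560) (nat_lit 6) (nat_lit 340) (nat_lit 2) (nat_lit 57) (nat_lit 80) (nat_lit 43)) (PT.lf (nat_lit 28644) (nat_lit 6) (nat_lit 341) (nat_lit 2) (nat_lit 58) (nat_lit 80) (nat_lit 42)))) (PT.nd (nat_lit 94) (PT.lf (nat_lit 28728) (nat_lit 6) (nat_lit 342) (nat_lit 2) (nat_lit 59) (nat_lit 80) (nat_lit 41)) (PT.nd (nat_lit 94) (PT.lf (nat_lit 28812) (nat_lit 6) (nat_lit 343) (nat_lit 2) (nat_lit 60) (nat_lit 80) (nat_lit 40)) (PT.lf (nat_lit 27132) (nat_lit 6) (nat_lit 323) (nat_lit 2) (nat_lit 61) (nat_lit 80) (nat_lit 39))))))))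
noncomputable def pc54 : PT := (PT.nd (nat_lit 2162) (PT.nd (nat_lit 1034) (PT.nd (nat_lit 470) (PT.nd (nat_lit 188) (PT.nd (nat_lit 94) (PT.lf (nat_lit 25368) (nat_lit 6) (nat_lit 302) (nat_lit 2) (nat_lit 62) (nat_lit 80) (nat_lit 38)) (PT.lf (nat_lit 23520) (nat_lit 6) (nat_lit 280) (nat_lit 2) (nat_lit 63) (nat_lit 80) (nat_lit 37))) (PT.nd (nat_lit 94) (PT.lf (nat_lit 22428) (nat_lit 6) (nat_lit 267) (nat_lit 2) (nat_lit 64) (nat_lit 80) (nat_lit 36)) (PT.nd (nat_lit 94) (PT.lf (nat_lit 21504) (nat_lit 6) (nat_lit 256) (nat_lit 2) (nat_lit 65) (nat_lit 80) (nat_lit 35)) (PT.lf (nat_lit 20580) (nat_lit 6) (nat_lit 245) (nat_lit 2) (nat_lit 66) (nat_lit 80) (nat_lit 34))))) (PT.nd (nat_lit 282) (PT.nd (nat_lit 94) (PT.lf (nat_lit 19740) (nat_lit 6) (nat_lit 235) (nat_lit 2) (nat_lit 67) (nat_lit 80) (nat_lit 33)) (PT.nd (nat_lit 94) (PT.lf (nat_lit 18900) (nat_lit 6) (nat_lit 225) (nat_lit 2) (nat_lit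 68) (nat_lit 80) (nat_lit 32)) (PT.lf (nat_lit 18060) (nat_lit 6) (nat_lit 215) (nat_lit 2) (nat_lit 69) (nat_lit 80) (nat_lit 31)))) (PT.nd (nat_lit 94) (PT.lf (nat_lit 17220) (nat_lit 6) (nat_lit 205) (nat_lit 2) (nat_lit 70) (nat_lit 80) (nat_lit 30)) (PT.nd (nat_lit 94) (PT.lf (nat_lit 16464) (nat_lit 6) (nat_lit 196) (nat_lit 2) (nat_lit 71) (nat_lit 80) (nat_lit 29)) (PT.lf (nat_lit 15708) (nat_lit 6) (nat_lit 187) (nat_lit 2) (nat_lit 72) (nat_lit 80) (nat_lit 28)))))) (PT.nd (nat_lit 564) (PT.nd (nat_lit 282) (PT.nd (nat_lit 94) (PT.lf (nat_lit 14952) (nat_lit 6) (nat_lit 178) (nat_lit 2) (nat_lit 73) (nat_lit 80) (nat_lit 27)) (PT.nd (nat_lit 94) (PT.lf (nat_lit 14196) (nat_lit 6) (nat_lit 169) (nat_lit 2) (nat_lit 74) (nat_lit 80) (nat_lit 26)) (PT.lf (nat_lit 13524) (nat_lit 6) (nat_lit 161) (nat_lit 2) (nat_lit 75) (nat_lit 80) (nat_lit 25)))) (PT.nd (nat_lit 94) (PT.lf (nat_lit 12852) (nat_lit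 6) (nat_lit 153) (nat_lit 2) (nat_lit 76) (nat_lit 80) (nat_lit 24)) (PT.nd (nat_lit 94) (PT.lf (nat_lit 12180) (nat_lit 6) (nat_lit 145) (nat_lit 2) (nat_lit 77) (nat_lit 80) (nat_lit 23)) (PT.lf (nat_lit 11508) (nat_lit 6) (nat_lit 137) (nat_lit 2) (nat_lit 78) (nat_lit 80) (nat_lit 22))))) (PT.nd (nat_lit 282) (PT.nd (nat_lit 94) (PT.lf (nat_lit 10920) (nat_lit 6) (nat_lit 130) (nat_lit 2) (nat_lit 79) (nat_lit 80) (nat_lit 21)) (PT.nd (nat_lit 94) (PT.lf (nat_lit 10332) (nat_lit 3) (nat_lit 123) (nat_lit 0) (nat_lit 80) (nat_lit 80) (nat_lit 20)) (PT.lf (nat_lit 9660) (nat_lit 6) (nat_lit 115) (nat_lit 0) (nat_lit 81) (nat_lit 80) (nat_lit 19)))) (PT.nd (nat_lit 94) (PT.lf (nat_lit 8988) (nat_lit 6) (nat_lit 107) (nat_lit 0) (nat_lit 82) (nat_lit 80) (nat_lit 18)) (PT.nd (nat_lit 94) (PT.lf (nat_lit 8400) (nat_lit 6) (nat_lit 100) (nat_lit 0) (nat_lit 83) (nat_lit 80) (nat_lit 17)) (PT.lf (nat_lit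 7728) (nat_lit 6) (nat_lit 92) (nat_lit 0) (nat_lit 84) (nat_lit 80) (nat_lit 16))))))) (PT.nd (nat_lit 38728) (PT.nd (nat_lit 38164) (PT.nd (nat_lit 282) (PT.nd (nat_lit 94) (PT.lf (nat_lit 7140) (nat_lit 6) (nat_lit 85) (nat_lit 0) (nat_lit 85) (nat_lit 80) (nat_lit 15)) (PT.nd (nat_lit 94) (PT.lf (nat_lit 6552) (nat_lit 6) (nat_lit 78) (nat_lit 0) (nat_lit 86) (nat_lit 80) (nat_lit 14)) (PT.lf (nat_lit 5964) (nat_lit 6) (nat_lit 71) (nat_lit 0) (nat_lit 87) (nat_lit 80) (nat_lit 13)))) (PT.nd (nat_lit 94) (PT.lf (nat_lit 5376) (nat_lit 6) (nat_lit 64) (nat_lit 0) (nat_lit 88) (nat_lit 80) (nat_lit 12)) (PT.nd (nat_lit 94) (PT.lf (nat_lit 4872) (nat_lit 6) (nat_lit 58) (nat_lit 0) (nat_lit 89) (nat_lit 80) (nat_lit 11)) (PT.lf (nat_lit 4284) (nat_lit 6) (nat_lit 51) (nat_lit 0) (nat_lit 90) (nat_lit 80) (nat_lit 10))))) (PT.nd (nat_lit 282) (PT.nd (nat_lit 94) (PT.lf (nat_lit 4368) (nat_lit 6) (nat_lit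 52) (nat_lit 5) (nat_lit 10) (nat_lit 81) (nat_lit 89)) (PT.nd (nat_lit 94) (PT.lf (nat_lit 4956) (nat_lit 6) (nat_lit 59) (nat_lit 5) (nat_lit 11) (nat_lit 81) (nat_lit 88)) (PT.lf (nat_lit 5460) (nat_lit 6) (nat_lit 65) (nat_lit 5) (nat_lit 12) (nat_lit 81) (nat_lit 87)))) (PT.nd (nat_lit 94) (PT.lf (nat_lit 6048) (nat_lit 6) (nat_lit 72) (nat_lit 5) (nat_lit 13) (nat_lit 81) (nat_lit 86)) (PT.nd (nat_lit 94) (PT.lf (nat_lit 6636) (nat_lit 6) (nat_lit 79) (nat_lit 5) (nat_lit 14) (nat_lit 81) (nat_lit 85)) (PT.lf (nat_lit 7224) (nat_lit 6) (nat_lit 86) (nat_lit 5) (nat_lit 15) (nat_lit 81) (nat_lit 84)))))) (PT.nd (nat_lit 564) (PT.nd (nat_lit 282) (PT.nd (nat_lit 94) (PT.lf (nat_lit 7812) (nat_lit 6) (nat_lit 93) (nat_lit 5) (nat_lit 16) (nat_lit 81) (nat_lit 83)) (PT.nd (nat_lit 94) (PT.lf (nat_lit 8484) (nat_lit 6) (nat_lit 101) (nat_lit 5) (nat_lit 17) (nat_lit 81) (nat_lit 82)) (PT.lf (nat_lit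 9072) (nat_lit 3) (nat_lit 108) (nat_lit 4) (nat_lit 18) (nat_lit 81) (nat_lit 81)))) (PT.nd (nat_lit 94) (PT.lf (nat_lit 9660) (nat_lit 6) (nat_lit 115) (nat_lit 4) (nat_lit 19) (nat_lit 81) (nat_lit 80)) (PT.nd (nat_lit 94) (PT.lf (nat_lit 10248) (nat_lit 6) (nat_lit 122) (nat_lit 4) (nat_lit 20) (nat_lit 81) (nat_lit 79)) (PT.lf (nat_lit 10836) (nat_lit 6) (nat_lit 129) (nat_lit 4) (nat_lit 21) (nat_lit 81) (nat_lit 78))))) (PT.nd (nat_lit 282) (PT.nd (nat_lit 94) (PT.lf (nat_lit 11424) (nat_lit 6) (nat_lit 136) (nat_lit 4) (nat_lit 22) (nat_lit 81) (nat_lit 77)) (PT.nd (nat_lit 94) (PT.lf (nat_lit 12096) (nat_lit 6) (nat_lit 144) (nat_lit 4) (nat_lit 23) (nat_lit 81) (nat_lit 76)) (PT.lf (nat_lit 12768) (nat_lit 6) (nat_lit 152) (nat_lit 4) (nat_lit 24) (nat_lit 81) (nat_lit 75)))) (PT.nd (nat_lit 94) (PT.lf (nat_lit 13440) (nat_lit 6) (nat_lit 160) (nat_lit 4) (nat_lit 25) (nat_lit 81) (nat_lit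 74)) (PT.nd (nat_lit 94) (PT.lf (nat_lit 14112) (nat_lit 6) (nat_lit 168) (nat_lit 4) (nat_lit 26) (nat_lit 81) (nat_lit 73)) (PT.lf (nat_lit 14868) (nat_lit 6) (nat_lit 177) (nat_lit 4) (nat_lit 27) (nat_lit 81) (nat_lit 72))))))))
noncomputable def pc55 : PT := (PT.nd (nat_lit 2162) (PT.nd (nat_lit 1034) (PT.nd (nat_lit 470) (PT.nd (nat_lit 188) (PT.nd (nat_lit 94) (PT.lf (nat_lit 15624) (nat_lit 6) (nat_lit 186) (nat_lit 4) (nat_lit 28) (nat_lit 81) (nat_lit 71)) (PT.lf (nat_lit 16380) (nat_lit 6) (nat_lit 195) (nat_lit 4) (nat_lit 29) (nat_lit 81) (nat_lit 70))) (PT.nd (nat_lit 94) (PT.lf (nat_lit 17136) (nat_lit 6) (nat_lit 204) (nat_lit 4) (nat_lit 30) (nat_lit 81) (nat_lit 69)) (PT.nd (nat_lit 94) (PT.lf (nat_lit 17976) (nat_lit 6) (nat_lit 214) (nat_lit 4) (nat_lit 31) (nat_lit 81) (nat_lit 68)) (PT.lf (nat_lit 18816) (nat_lit 6) (nat_lit 224) (nat_lit 4) (nat_lit 32) (nat_lit 81) (nat_lit 67)))))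 (PT.nd (nat_lit 282) (PT.nd (nat_lit 94) (PT.lf (nat_lit 19656) (nat_lit 6) (nat_lit 234) (nat_lit 4) (nat_lit 33) (nat_lit 81) (nat_lit 66)) (PT.nd (nat_lit 94) (PT.lf (nat_lit 20496) (nat_lit 6) (nat_lit 244) (nat_lit 4) (nat_lit 34) (nat_lit 81) (nat_lit 65)) (PT.lf (nat_lit 21420) (nat_lit 6) (nat_lit 255) (nat_lit 4) (nat_lit 35) (nat_lit 81) (nat_lit 64)))) (PT.nd (nat_lit 94) (PT.lf (nat_lit 22344) (nat_lit 6) (nat_lit 266) (nat_lit 4) (nat_lit 36) (nat_lit 81) (nat_lit 63)) (PT.nd (nat_lit 94) (PT.lf (nat_lit 23436) (nat_lit 6) (nat_lit 279) (nat_lit 4) (nat_lit 37) (nat_lit 81) (nat_lit 62)) (PT.lf (nat_lit 25284) (nat_lit 6) (nat_lit 301) (nat_lit 4) (nat_lit 38) (nat_lit 81) (nat_lit 61)))))) (PT.nd (nat_lit 564) (PT.nd (nat_lit 282) (PT.nd (nat_lit 94) (PT.lf (nat_lit 27048) (nat_lit 6) (nat_lit 322) (nat_lit 4) (nat_lit 39) (nat_lit 81) (nat_lit 60)) (PT.nd (nat_lit 94) (PT.lf (nat_lit 26964)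 (nat_lit 6) (nat_lit 321) (nat_lit 4) (nat_lit 40) (nat_lit 81) (nat_lit 59)) (PT.lf (nat_lit 26880) (nat_lit 6) (nat_lit 320) (nat_lit 4) (nat_lit 41) (nat_lit 81) (nat_lit 58)))) (PT.nd (nat_lit 94) (PT.lf (nat_lit 26796) (nat_lit 6) (nat_lit 319) (nat_lit 4) (nat_lit 42) (nat_lit 81) (nat_lit 57)) (PT.nd (nat_lit 94) (PT.lf (nat_lit 26712) (nat_lit 6) (nat_lit 318) (nat_lit 4) (nat_lit 43) (nat_lit 81) (nat_lit 56)) (PT.lf (nat_lit 26628) (nat_lit 6) (nat_lit 317) (nat_lit 4) (nat_lit 44) (nat_lit 81) (nat_lit 55))))) (PT.nd (nat_lit 282) (PT.nd (nat_lit 94) (PT.lf (nat_lit 26544) (nat_lit 6) (nat_lit 316) (nat_lit 4) (nat_lit 45) (nat_lit 81) (nat_lit 54)) (PT.nd (nat_lit 94) (PT.lf (nat_lit 26460) (nat_lit 6) (nat_lit 315) (nat_lit 4) (nat_lit 46) (nat_lit 81) (nat_lit 53)) (PT.lf (nat_lit 26376) (nat_lit 6) (nat_lit 314) (nat_lit 4) (nat_lit 47) (nat_lit 81) (nat_lit 52)))) (PT.nd (nat_lit 94)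 (PT.lf (nat_lit 26292) (nat_lit 6) (nat_lit 313) (nat_lit 4) (nat_lit 48) (nat_lit 81) (nat_lit 51)) (PT.nd (nat_lit 94) (PT.lf (nat_lit 26208) (nat_lit 6) (nat_lit 312) (nat_lit 4) (nat_lit 49) (nat_lit 81) (nat_lit 50)) (PT.lf (nat_lit 26208) (nat_lit 6) (nat_lit 312) (nat_lit 2) (nat_lit 50) (nat_lit 81) (nat_lit 49))))))) (PT.nd (nat_lit 1128) (PT.nd (nat_lit 564) (PT.nd (nat_lit 282) (PT.nd (nat_lit 94) (PT.lf (nat_lit 26292) (nat_lit 6) (nat_lit 313) (nat_lit 2) (nat_lit 51) (nat_lit 81) (nat_lit 48)) (PT.nd (nat_lit 94) (PT.lf (nat_lit 26376) (nat_lit 6) (nat_lit 314) (nat_lit 2) (nat_lit 52) (nat_lit 81) (nat_lit 47)) (PT.lf (nat_lit 26460) (nat_lit 6) (nat_lit 315) (nat_lit 2) (nat_lit 53) (nat_lit 81) (nat_lit 46)))) (PT.nd (nat_lit 94) (PT.lf (nat_lit 26544) (nat_lit 6) (nat_lit 316) (nat_lit 2) (nat_lit 54) (nat_lit 81) (nat_lit 45)) (PT.nd (nat_lit 94) (PT.lf (nat_lit 26628) (nat_lit 6)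 (nat_lit 317) (nat_lit 2) (nat_lit 55) (nat_lit 81) (nat_lit 44)) (PT.lf (nat_lit 26712) (nat_lit 6) (nat_lit 318) (nat_lit 2) (nat_lit 56) (nat_lit 81) (nat_lit 43))))) (PT.nd (nat_lit 282) (PT.nd (nat_lit 94) (PT.lf (nat_lit 26796) (nat_lit 6) (nat_lit 319) (nat_lit 2) (nat_lit 57) (nat_lit 81) (nat_lit 42)) (PT.nd (nat_lit 94) (PT.lf (nat_lit 26880) (nat_lit 6) (nat_lit 320) (nat_lit 2) (nat_lit 58) (nat_lit 81) (nat_lit 41)) (PT.lf (nat_lit 26964) (nat_lit 6) (nat_lit 321) (nat_lit 2) (nat_lit 59) (nat_lit 81) (nat_lit 40)))) (PT.nd (nat_lit 94) (PT.lf (nat_lit 27048) (nat_lit 6) (nat_lit 322) (nat_lit 2) (nat_lit 60) (nat_lit 81) (nat_lit 39)) (PT.nd (nat_lit 94) (PT.lf (nat_lit 25284) (nat_lit 6) (nat_lit 301) (nat_lit 2) (nat_lit 61) (nat_lit 81) (nat_lit 38)) (PT.lf (nat_lit 23436) (nat_lit 6) (nat_lit 279) (nat_lit 2) (nat_lit 62) (nat_lit 81) (nat_lit 37)))))) (PT.nd (nat_lit 564) (PT.nd (nat_lit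 282) (PT.nd (nat_lit 94) (PT.lf (nat_lit 22344) (nat_lit 6) (nat_lit 266) (nat_lit 2) (nat_lit 63) (nat_lit 81) (nat_lit 36)) (PT.nd (nat_lit 94) (PT.lf (nat_lit 21420) (nat_lit 6) (nat_lit 255) (nat_lit 2) (nat_lit 64) (nat_lit 81) (nat_lit 35)) (PT.lf (nat_lit 20496) (nat_lit 6) (nat_lit 244) (nat_lit 2) (nat_lit 65) (nat_lit 81) (nat_lit 34)))) (PT.nd (nat_lit 94) (PT.lf (nat_lit 19656) (nat_lit 6) (nat_lit 234) (nat_lit 2) (nat_lit 66) (nat_lit 81) (nat_lit 33)) (PT.nd (nat_lit 94) (PT.lf (nat_lit 18816) (nat_lit 6) (nat_lit 224) (nat_lit 2) (nat_lit 67) (nat_lit 81) (nat_lit 32)) (PT.lf (nat_lit 17976) (nat_lit 6) (nat_lit 214) (nat_lit 2) (nat_lit 68) (nat_lit 81) (nat_lit 31))))) (PT.nd (nat_lit 282) (PT.nd (nat_lit 94) (PT.lf (nat_lit 17136) (nat_lit 6) (nat_lit 204) (nat_lit 2) (nat_lit 69) (nat_lit 81) (nat_lit 30)) (PT.nd (nat_lit 94) (PT.lf (nat_lit 16380) (nat_lit 6) (nat_lit 195) (nat_lit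 2) (nat_lit 70) (nat_lit 81) (nat_lit 29)) (PT.lf (nat_lit 15624) (nat_lit 6) (nat_lit 186) (nat_lit 2) (nat_lit 71) (nat_lit 81) (nat_lit 28)))) (PT.nd (nat_lit 94) (PT.lf (nat_lit 14868) (nat_lit 6) (nat_lit 177) (nat_lit 2) (nat_lit 72) (nat_lit 81) (nat_lit 27)) (PT.nd (nat_lit 94) (PT.lf (nat_lit 14112) (nat_lit 6) (nat_lit 168) (nat_lit 2) (nat_lit 73) (nat_lit 81) (nat_lit 26)) (PT.lf (nat_lit 13440) (nat_lit 6) (nat_lit 160) (nat_lit 2) (nat_lit 74) (nat_lit 81) (nat_lit 25))))))))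
noncomputable def pc56 : PT := (PT.nd (nat_lit 39856) (PT.nd (nat_lit 1034) (PT.nd (nat_lit 470) (PT.nd (nat_lit 188) (PT.nd (nat_lit 94) (PT.lf (nat_lit 12768) (nat_lit 6) (nat_lit 152) (nat_lit 2) (nat_lit 75) (nat_lit 81) (nat_lit 24)) (PT.lf (nat_lit 12096) (nat_lit 6) (nat_lit 144) (nat_lit 2) (nat_lit 76) (nat_lit 81) (nat_lit 23))) (PT.nd (nat_lit 94) (PT.lf (nat_lit 11424) (nat_lit 6) (nat_lit 136) (nat_lit 2) (nat_lit 77) (nat_lit 81) (nat_lit 22)) (PT.nd (nat_lit 94) (PT.lf (nat_lit 10836) (nat_lit 6) (nat_lit 129) (nat_lit 2) (nat_lit 78) (nat_lit 81) (nat_lit 21)) (PT.lf (nat_lit 10248) (nat_lit 6) (nat_lit 122) (nat_lit 2) (nat_lit 79) (nat_lit 81) (nat_lit 20))))) (PT.nd (nat_lit 282) (PT.nd (nat_lit 94) (PT.lf (nat_lit 9660) (nat_lit 6) (nat_lit 115) (nat_lit 2) (nat_lit 80) (nat_lit 81) (nat_lit 19)) (PT.nd (nat_lit 94) (PT.lf (nat_lit 9072) (nat_lit 3) (nat_lit 108) (nat_lit 0) (nat_lit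 81) (nat_lit 81) (nat_lit 18)) (PT.lf (nat_lit 8484) (nat_lit 6) (nat_lit 101) (nat_lit 0) (nat_lit 82) (nat_lit 81) (nat_lit 17)))) (PT.nd (nat_lit 94) (PT.lf (nat_lit 7812) (nat_lit 6) (nat_lit 93) (nat_lit 0) (nat_lit 83) (nat_lit 81) (nat_lit 16)) (PT.nd (nat_lit 94) (PT.lf (nat_lit 7224) (nat_lit 6) (nat_lit 86) (nat_lit 0) (nat_lit 84) (nat_lit 81) (nat_lit 15)) (PT.lf (nat_lit 6636) (nat_lit 6) (nat_lit 79) (nat_lit 0) (nat_lit 85) (nat_lit 81) (nat_lit 14)))))) (PT.nd (nat_lit 38258) (PT.nd (nat_lit 282) (PT.nd (nat_lit 94) (PT.lf (nat_lit 6048) (nat_lit 6) (nat_lit 72) (nat_lit 0) (nat_lit 86) (nat_lit 81) (nat_lit 13)) (PT.nd (nat_lit 94) (PT.lf (nat_lit 5460) (nat_lit 6) (nat_lit 65) (nat_lit 0) (nat_lit 87) (nat_lit 81) (nat_lit 12)) (PT.lf (nat_lit 4956) (nat_lit 6) (nat_lit 59) (nat_lit 0) (nat_lit 88) (nat_lit 81) (nat_lit 11)))) (PT.nd (nat_lit 37788) (PT.lf (nat_lit 4368) (nat_lit 6)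 (nat_lit 52) (nat_lit 0) (nat_lit 89) (nat_lit 81) (nat_lit 10)) (PT.nd (nat_lit 94) (PT.lf (nat_lit 4452) (nat_lit 6) (nat_lit 53) (nat_lit 5) (nat_lit 10) (nat_lit 82) (nat_lit 88)) (PT.lf (nat_lit 5040) (nat_lit 6) (nat_lit 60) (nat_lit 5) (nat_lit 11) (nat_lit 82) (nat_lit 87))))) (PT.nd (nat_lit 282) (PT.nd (nat_lit 94) (PT.lf (nat_lit 5544) (nat_lit 6) (nat_lit 66) (nat_lit 5) (nat_lit 12) (nat_lit 82) (nat_lit 86)) (PT.nd (nat_lit 94) (PT.lf (nat_lit 6132) (nat_lit 6) (nat_lit 73) (nat_lit 5) (nat_lit 13) (nat_lit 82) (nat_lit 85)) (PT.lf (nat_lit 6720) (nat_lit 6) (nat_lit 80) (nat_lit 5) (nat_lit 14) (nat_lit 82) (nat_lit 84)))) (PT.nd (nat_lit 94) (PT.lf (nat_lit 7308) (nat_lit 6) (nat_lit 87) (nat_lit 5) (nat_lit 15) (nat_lit 82) (nat_lit 83)) (PT.nd (nat_lit 94) (PT.lf (nat_lit 7896) (nat_lit 3) (nat_lit 94) (nat_lit 4) (nat_lit 16) (nat_lit 82) (nat_lit 82)) (PT.lf (nat_lit 8484) (nat_lit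 6) (nat_lit 101) (nat_lit 4) (nat_lit 17) (nat_lit 82) (nat_lit 81))))))) (PT.nd (nat_lit 1034) (PT.nd (nat_lit 470) (PT.nd (nat_lit 188) (PT.nd (nat_lit 94) (PT.lf (nat_lit 8988) (nat_lit 6) (nat_lit 107) (nat_lit 4) (nat_lit 18) (nat_lit 82) (nat_lit 80)) (PT.lf (nat_lit 9576) (nat_lit 6) (nat_lit 114) (nat_lit 4) (nat_lit 19) (nat_lit 82) (nat_lit 79))) (PT.nd (nat_lit 94) (PT.lf (nat_lit 10164) (nat_lit 6) (nat_lit 121) (nat_lit 4) (nat_lit 20) (nat_lit 82) (nat_lit 78)) (PT.nd (nat_lit 94) (PT.lf (nat_lit 10752) (nat_lit 6) (nat_lit 128) (nat_lit 4) (nat_lit 21) (nat_lit 82) (nat_lit 77)) (PT.lf (nat_lit 11340) (nat_lit 6) (nat_lit 135) (nat_lit 4) (nat_lit 22) (nat_lit 82) (nat_lit 76))))) (PT.nd (nat_lit 282) (PT.nd (nat_lit 94) (PT.lf (nat_lit 12012) (nat_lit 6) (nat_lit 143) (nat_lit 4) (nat_lit 23) (nat_lit 82) (nat_lit 75)) (PT.nd (nat_lit 94) (PT.lf (nat_lit 12684) (nat_lit 6) (nat_lit 151)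 (nat_lit 4) (nat_lit 24) (nat_lit 82) (nat_lit 74)) (PT.lf (nat_lit 13356) (nat_lit 6) (nat_lit 159) (nat_lit 4) (nat_lit 25) (nat_lit 82) (nat_lit 73)))) (PT.nd (nat_lit 94) (PT.lf (nat_lit 14028) (nat_lit 6) (nat_lit 167) (nat_lit 4) (nat_lit 26) (nat_lit 82) (nat_lit 72)) (PT.nd (nat_lit 94) (PT.lf (nat_lit 14784) (nat_lit 6) (nat_lit 176) (nat_lit 4) (nat_lit 27) (nat_lit 82) (nat_lit 71)) (PT.lf (nat_lit 15540) (nat_lit 6) (nat_lit 185) (nat_lit 4) (nat_lit 28) (nat_lit 82) (nat_lit 70)))))) (PT.nd (nat_lit 564) (PT.nd (nat_lit 282) (PT.nd (nat_lit 94) (PT.lf (nat_lit 16296) (nat_lit 6) (nat_lit 194) (nat_lit 4) (nat_lit 29) (nat_lit 82) (nat_lit 69)) (PT.nd (nat_lit 94) (PT.lf (nat_lit 17052) (nat_lit 6) (nat_lit 203) (nat_lit 4) (nat_lit 30) (nat_lit 82) (nat_lit 68)) (PT.lf (nat_lit 17892) (nat_lit 6) (nat_lit 213) (nat_lit 4) (nat_lit 31) (nat_lit 82) (nat_lit 67)))) (PT.nd (nat_lit 94) (PT.lf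 (nat_lit 18732) (nat_lit 6) (nat_lit 223) (nat_lit 4) (nat_lit 32) (nat_lit 82) (nat_lit 66)) (PT.nd (nat_lit 94) (PT.lf (nat_lit 19572) (nat_lit 6) (nat_lit 233) (nat_lit 4) (nat_lit 33) (nat_lit 82) (nat_lit 65)) (PT.lf (nat_lit 20412) (nat_lit 6) (nat_lit 243) (nat_lit 4) (nat_lit 34) (nat_lit 82) (nat_lit 64))))) (PT.nd (nat_lit 282) (PT.nd (nat_lit 94) (PT.lf (nat_lit 21336) (nat_lit 6) (nat_lit 254) (nat_lit 4) (nat_lit 35) (nat_lit 82) (nat_lit 63)) (PT.nd (nat_lit 94) (PT.lf (nat_lit 22260) (nat_lit 6) (nat_lit 265) (nat_lit 4) (nat_lit 36) (nat_lit 82) (nat_lit 62)) (PT.lf (nat_lit 23352) (nat_lit 6) (nat_lit 278) (nat_lit 4) (nat_lit 37) (nat_lit 82) (nat_lit 61)))) (PT.nd (nat_lit 94) (PT.lf (nat_lit 25200) (nat_lit 6) (nat_lit 300) (nat_lit 4) (nat_lit 38) (nat_lit 82) (nat_lit 60)) (PT.nd (nat_lit 94) (PT.lf (nat_lit 25116) (nat_lit 6) (nat_lit 299) (nat_lit 4) (nat_lit 39) (nat_lit 82)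 (nat_lit 59)) (PT.lf (nat_lit 25032) (nat_lit 6) (nat_lit 298) (nat_lit 4) (nat_lit 40) (nat_lit 82) (nat_lit 58))))))))
noncomputable def pc57 : PT := (PT.nd (nat_lit 2162) (PT.nd (nat_lit 1034) (PT.nd (nat_lit 470) (PT.nd (nat_lit 188) (PT.nd (nat_lit 94) (PT.lf (nat_lit 24948) (nat_lit 6) (nat_lit 297) (nat_lit 4) (nat_lit 41) (nat_lit 82) (nat_lit 57)) (PT.lf (nat_lit 24864) (nat_lit 6) (nat_lit 296) (nat_lit 4) (nat_lit 42) (nat_lit 82) (nat_lit 56))) (PT.nd (nat_lit 94) (PT.lf (nat_lit 24780) (nat_lit 6) (nat_lit 295) (nat_lit 4) (nat_lit 43) (nat_lit 82) (nat_lit 55)) (PT.nd (nat_lit 94) (PT.lf (nat_lit 24696) (nat_lit 6) (nat_lit 294) (nat_lit 4) (nat_lit 44) (nat_lit 82) (nat_lit 54)) (PT.lf (nat_lit 24612) (nat_lit 6) (nat_lit 293) (nat_lit 4) (nat_lit 45) (nat_lit 82) (nat_lit 53))))) (PT.nd (nat_lit 282) (PT.nd (nat_lit 94) (PT.lf (nat_lit 24528) (nat_lit 6) (nat_lit 292) (nat_lit 4) (nat_lit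 46) (nat_lit 82) (nat_lit 52)) (PT.nd (nat_lit 94) (PT.lf (nat_lit 24444) (nat_lit 6) (nat_lit 291) (nat_lit 4) (nat_lit 47) (nat_lit 82) (nat_lit 51)) (PT.lf (nat_lit 24360) (nat_lit 6) (nat_lit 290) (nat_lit 4) (nat_lit 48) (nat_lit 82) (nat_lit 50)))) (PT.nd (nat_lit 94) (PT.lf (nat_lit 24276) (nat_lit 3) (nat_lit 289) (nat_lit 2) (nat_lit 49) (nat_lit 82) (nat_lit 49)) (PT.nd (nat_lit 94) (PT.lf (nat_lit 24360) (nat_lit 6) (nat_lit 290) (nat_lit 2) (nat_lit 50) (nat_lit 82) (nat_lit 48)) (PT.lf (nat_lit 24444) (nat_lit 6) (nat_lit 291) (nat_lit 2) (nat_lit 51) (nat_lit 82) (nat_lit 47)))))) (PT.nd (nat_lit 564) (PT.nd (nat_lit 282) (PT.nd (nat_lit 94) (PT.lf (nat_lit 24528) (nat_lit 6) (nat_lit 292) (nat_lit 2) (nat_lit 52) (nat_lit 82) (nat_lit 46)) (PT.nd (nat_lit 94) (PT.lf (nat_lit 24612) (nat_lit 6) (nat_lit 293) (nat_lit 2) (nat_lit 53) (nat_lit 82) (nat_lit 45)) (PT.lf (nat_lit 24696) (nat_lit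 6) (nat_lit 294) (nat_lit 2) (nat_lit 54) (nat_lit 82) (nat_lit 44)))) (PT.nd (nat_lit 94) (PT.lf (nat_lit 24780) (nat_lit 6) (nat_lit 295) (nat_lit 2) (nat_lit 55) (nat_lit 82) (nat_lit 43)) (PT.nd (nat_lit 94) (PT.lf (nat_lit 24864) (nat_lit 6) (nat_lit 296) (nat_lit 2) (nat_lit 56) (nat_lit 82) (nat_lit 42)) (PT.lf (nat_lit 24948) (nat_lit 6) (nat_lit 297) (nat_lit 2) (nat_lit 57) (nat_lit 82) (nat_lit 41))))) (PT.nd (nat_lit 282) (PT.nd (nat_lit 94) (PT.lf (nat_lit 25032) (nat_lit 6) (nat_lit 298) (nat_lit 2) (nat_lit 58) (nat_lit 82) (nat_lit 40)) (PT.nd (nat_lit 94) (PT.lf (nat_lit 25116) (nat_lit 6) (nat_lit 299) (nat_lit 2) (nat_lit 59) (nat_lit 82) (nat_lit 39)) (PT.lf (nat_lit 25200) (nat_lit 6) (nat_lit 300) (nat_lit 2) (nat_lit 60) (nat_lit 82) (nat_lit 38)))) (PT.nd (nat_lit 94) (PT.lf (nat_lit 23352) (nat_lit 6) (nat_lit 278) (nat_lit 2) (nat_lit 61) (nat_lit 82) (nat_lit 37)) (PT.nd (nat_lit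 94) (PT.lf (nat_lit 22260) (nat_lit 6) (nat_lit 265) (nat_lit 2) (nat_lit 62) (nat_lit 82) (nat_lit 36)) (PT.lf (nat_lit 21336) (nat_lit 6) (nat_lit 254) (nat_lit 2) (nat_lit 63) (nat_lit 82) (nat_lit 35))))))) (PT.nd (nat_lit 1128) (PT.nd (nat_lit 564) (PT.nd (nat_lit 282) (PT.nd (nat_lit 94) (PT.lf (nat_lit 20412) (nat_lit 6) (nat_lit 243) (nat_lit 2) (nat_lit 64) (nat_lit 82) (nat_lit 34)) (PT.nd (nat_lit 94) (PT.lf (nat_lit 19572) (nat_lit 6) (nat_lit 233) (nat_lit 2) (nat_lit 65) (nat_lit 82) (nat_lit 33)) (PT.lf (nat_lit 18732) (nat_lit 6) (nat_lit 223) (nat_lit 2) (nat_lit 66) (nat_lit 82) (nat_lit 32)))) (PT.nd (nat_lit 94) (PT.lf (nat_lit 17892) (nat_lit 6) (nat_lit 213) (nat_lit 2) (nat_lit 67) (nat_lit 82) (nat_lit 31)) (PT.nd (nat_lit 94) (PT.lf (nat_lit 17052) (nat_lit 6) (nat_lit 203) (nat_lit 2) (nat_lit 68) (nat_lit 82) (nat_lit 30)) (PT.lf (nat_lit 16296) (nat_lit 6) (nat_lit 194) (nat_lit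 2) (nat_lit 69) (nat_lit 82) (nat_lit 29))))) (PT.nd (nat_lit 282) (PT.nd (nat_lit 94) (PT.lf (nat_lit 15540) (nat_lit 6) (nat_lit 185) (nat_lit 2) (nat_lit 70) (nat_lit 82) (nat_lit 28)) (PT.nd (nat_lit 94) (PT.lf (nat_lit 14784) (nat_lit 6) (nat_lit 176) (nat_lit 2) (nat_lit 71) (nat_lit 82) (nat_lit 27)) (PT.lf (nat_lit 14028) (nat_lit 6) (nat_lit 167) (nat_lit 2) (nat_lit 72) (nat_lit 82) (nat_lit 26)))) (PT.nd (nat_lit 94) (PT.lf (nat_lit 13356) (nat_lit 6) (nat_lit 159) (nat_lit 2) (nat_lit 73) (nat_lit 82) (nat_lit 25)) (PT.nd (nat_lit 94) (PT.lf (nat_lit 12684) (nat_lit 6) (nat_lit 151) (nat_lit 2) (nat_lit 74) (nat_lit 82) (nat_lit 24)) (PT.lf (nat_lit 12012) (nat_lit 6) (nat_lit 143) (nat_lit 2) (nat_lit 75) (nat_lit 82) (nat_lit 23)))))) (PT.nd (nat_lit 564) (PT.nd (nat_lit 282) (PT.nd (nat_lit 94) (PT.lf (nat_lit 11340) (nat_lit 6) (nat_lit 135) (nat_lit 2) (nat_lit 76) (nat_lit 82) (nat_lit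 22)) (PT.nd (nat_lit 94) (PT.lf (nat_lit 10752) (nat_lit 6) (nat_lit 128) (nat_lit 2) (nat_lit 77) (nat_lit 82) (nat_lit 21)) (PT.lf (nat_lit 10164) (nat_lit 6) (nat_lit 121) (nat_lit 2) (nat_lit 78) (nat_lit 82) (nat_lit 20)))) (PT.nd (nat_lit 94) (PT.lf (nat_lit 9576) (nat_lit 6) (nat_lit 114) (nat_lit 2) (nat_lit 79) (nat_lit 82) (nat_lit 19)) (PT.nd (nat_lit 94) (PT.lf (nat_lit 8988) (nat_lit 6) (nat_lit 107) (nat_lit 2) (nat_lit 80) (nat_lit 82) (nat_lit 18)) (PT.lf (nat_lit 8484) (nat_lit 6) (nat_lit 101) (nat_lit 2) (nat_lit 81) (nat_lit 82) (nat_lit 17))))) (PT.nd (nat_lit 282) (PT.nd (nat_lit 94) (PT.lf (nat_lit 7896) (nat_lit 3) (nat_lit 94) (nat_lit 0) (nat_lit 82) (nat_lit 82) (nat_lit 16)) (PT.nd (nat_lit 94) (PT.lf (nat_lit 7308) (nat_lit 6) (nat_lit 87) (nat_lit 0) (nat_lit 83) (nat_lit 82) (nat_lit 15)) (PT.lf (nat_lit 6720) (nat_lit 6) (nat_lit 80) (nat_lit 0) (nat_lit 84) (nat_lit 82)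 (nat_lit 14)))) (PT.nd (nat_lit 94) (PT.lf (nat_lit 6132) (nat_lit 6) (nat_lit 73) (nat_lit 0) (nat_lit 85) (nat_lit 82) (nat_lit 13)) (PT.nd (nat_lit 94) (PT.lf (nat_lit 5544) (nat_lit 6) (nat_lit 66) (nat_lit 0) (nat_lit 86) (nat_lit 82) (nat_lit 12)) (PT.lf (nat_lit 5040) (nat_lit 6) (nat_lit 60) (nat_lit 0) (nat_lit 87) (nat_lit 82) (nat_lit 11))))))))
noncomputable def pc58 : PT := (PT.nd (nat_lit 39856) (PT.nd (nat_lit 38728) (PT.nd (nat_lit 38164) (PT.nd (nat_lit 37882) (PT.nd (nat_lit 37788) (PT.lf (nat_lit 4452) (nat_lit 6) (nat_lit 53) (nat_lit 0) (nat_lit 88) (nat_lit 82) (nat_lit 10)) (PT.lf (nat_lit 4032) (nat_lit 6) (nat_lit 48) (nat_lit 5) (nat_lit 9) (nat_lit 83) (nat_lit 88))) (PT.nd (nat_lit 94) (PT.lf (nat_lit 4536) (nat_lit 6) (nat_lit 54) (nat_lit 5) (nat_lit 10) (nat_lit 83) (nat_lit 87)) (PT.nd (nat_lit 94) (PT.lf (nat_lit 5124) (nat_lit 6) (nat_lit 61) (nat_lit 5) (nat_lit 11)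 (nat_lit 83) (nat_lit 86)) (PT.lf (nat_lit 5628) (nat_lit 6) (nat_lit 67) (nat_lit 5) (nat_lit 12) (nat_lit 83) (nat_lit 85))))) (PT.nd (nat_lit 282) (PT.nd (nat_lit 94) (PT.lf (nat_lit 6216) (nat_lit 6) (nat_lit 74) (nat_lit 5) (nat_lit 13) (nat_lit 83) (nat_lit 84)) (PT.nd (nat_lit 94) (PT.lf (nat_lit 6804) (nat_lit 3) (nat_lit 81) (nat_lit 4) (nat_lit 14) (nat_lit 83) (nat_lit 83)) (PT.lf (nat_lit 7308) (nat_lit 6) (nat_lit 87) (nat_lit 4) (nat_lit 15) (nat_lit 83) (nat_lit 82)))) (PT.nd (nat_lit 94) (PT.lf (nat_lit 7812) (nat_lit 6) (nat_lit 93) (nat_lit 4) (nat_lit 16) (nat_lit 83) (nat_lit 81)) (PT.nd (nat_lit 94) (PT.lf (nat_lit 8400) (nat_lit 6) (nat_lit 100) (nat_lit 4) (nat_lit 17) (nat_lit 83) (nat_lit 80)) (PT.lf (nat_lit 8904) (nat_lit 6) (nat_lit 106) (nat_lit 4) (nat_lit 18) (nat_lit 83) (nat_lit 79)))))) (PT.nd (nat_lit 564) (PT.nd (nat_lit 282) (PT.nd (nat_lit 94) (PT.lf (nat_lit 9492)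 (nat_lit 6) (nat_lit 113) (nat_lit 4) (nat_lit 19) (nat_lit 83) (nat_lit 78)) (PT.nd (nat_lit 94) (PT.lf (nat_lit 10080) (nat_lit 6) (nat_lit 120) (nat_lit 4) (nat_lit 20) (nat_lit 83) (nat_lit 77)) (PT.lf (nat_lit 10668) (nat_lit 6) (nat_lit 127) (nat_lit 4) (nat_lit 21) (nat_lit 83) (nat_lit 76)))) (PT.nd (nat_lit 94) (PT.lf (nat_lit 11256) (nat_lit 6) (nat_lit 134) (nat_lit 4) (nat_lit 22) (nat_lit 83) (nat_lit 75)) (PT.nd (nat_lit 94) (PT.lf (nat_lit 11928) (nat_lit 6) (nat_lit 142) (nat_lit 4) (nat_lit 23) (nat_lit 83) (nat_lit 74)) (PT.lf (nat_lit 12600) (nat_lit 6) (nat_lit 150) (nat_lit 4) (nat_lit 24) (nat_lit 83) (nat_lit 73))))) (PT.nd (nat_lit 282) (PT.nd (nat_lit 94) (PT.lf (nat_lit 13272) (nat_lit 6) (nat_lit 158) (nat_lit 4) (nat_lit 25) (nat_lit 83) (nat_lit 72)) (PT.nd (nat_lit 94) (PT.lf (nat_lit 13944) (nat_lit 6) (nat_lit 166) (nat_lit 4) (nat_lit 26) (nat_lit 83) (nat_lit 71)) (PT.lf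 (nat_lit 14700) (nat_lit 6) (nat_lit 175) (nat_lit 4) (nat_lit 27) (nat_lit 83) (nat_lit 70)))) (PT.nd (nat_lit 94) (PT.lf (nat_lit 15456) (nat_lit 6) (nat_lit 184) (nat_lit 4) (nat_lit 28) (nat_lit 83) (nat_lit 69)) (PT.nd (nat_lit 94) (PT.lf (nat_lit 16212) (nat_lit 6) (nat_lit 193) (nat_lit 4) (nat_lit 29) (nat_lit 83) (nat_lit 68)) (PT.lf (nat_lit 16968) (nat_lit 6) (nat_lit 202) (nat_lit 4) (nat_lit 30) (nat_lit 83) (nat_lit 67))))))) (PT.nd (nat_lit 3008) (PT.nd (nat_lit 564) (PT.nd (nat_lit 282) (PT.nd (nat_lit 94) (PT.lf (nat_lit 17808) (nat_lit 6) (nat_lit 212) (nat_lit 4) (nat_lit 31) (nat_lit 83) (nat_lit 66)) (PT.nd (nat_lit 94) (PT.lf (nat_lit 18648) (nat_lit 6) (nat_lit 222) (nat_lit 4) (nat_lit 32) (nat_lit 83) (nat_lit 65)) (PT.lf (nat_lit 19488) (nat_lit 6) (nat_lit 232) (nat_lit 4) (nat_lit 33) (nat_lit 83) (nat_lit 64)))) (PT.nd (nat_lit 94) (PT.lf (nat_lit 20328) (nat_lit 6) (nat_lit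 242) (nat_lit 4) (nat_lit 34) (nat_lit 83) (nat_lit 63)) (PT.nd (nat_lit 94) (PT.lf (nat_lit 21252) (nat_lit 6) (nat_lit 253) (nat_lit 4) (nat_lit 35) (nat_lit 83) (nat_lit 62)) (PT.lf (nat_lit 22176) (nat_lit 6) (nat_lit 264) (nat_lit 4) (nat_lit 36) (nat_lit 83) (nat_lit 61))))) (PT.nd (nat_lit 2162) (PT.nd (nat_lit 94) (PT.lf (nat_lit 23268) (nat_lit 6) (nat_lit 277) (nat_lit 4) (nat_lit 37) (nat_lit 83) (nat_lit 60)) (PT.nd (nat_lit 1974) (PT.lf (nat_lit 23184) (nat_lit 6) (nat_lit 276) (nat_lit 4) (nat_lit 38) (nat_lit 83) (nat_lit 59)) (PT.lf (nat_lit 23184) (nat_lit 6) (nat_lit 276) (nat_lit 2) (nat_lit 59) (nat_lit 83) (nat_lit 38)))) (PT.nd (nat_lit 94) (PT.lf (nat_lit 23268) (nat_lit 6) (nat_lit 277) (nat_lit 2) (nat_lit 60) (nat_lit 83) (nat_lit 37)) (PT.nd (nat_lit 94) (PT.lf (nat_lit 22176) (nat_lit 6) (nat_lit 264) (nat_lit 2) (nat_lit 61) (nat_lit 83) (nat_lit 36)) (PT.lf (nat_lit 21252)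 (nat_lit 6) (nat_lit 253) (nat_lit 2) (nat_lit 62) (nat_lit 83) (nat_lit 35)))))) (PT.nd (nat_lit 564) (PT.nd (nat_lit 282) (PT.nd (nat_lit 94) (PT.lf (nat_lit 20328) (nat_lit 6) (nat_lit 242) (nat_lit 2) (nat_lit 63) (nat_lit 83) (nat_lit 34)) (PT.nd (nat_lit 94) (PT.lf (nat_lit 19488) (nat_lit 6) (nat_lit 232) (nat_lit 2) (nat_lit 64) (nat_lit 83) (nat_lit 33)) (PT.lf (nat_lit 18648) (nat_lit 6) (nat_lit 222) (nat_lit 2) (nat_lit 65) (nat_lit 83) (nat_lit 32)))) (PT.nd (nat_lit 94) (PT.lf (nat_lit 17808) (nat_lit 6) (nat_lit 212) (nat_lit 2) (nat_lit 66) (nat_lit 83) (nat_lit 31)) (PT.nd (nat_lit 94) (PT.lf (nat_lit 16968) (nat_lit 6) (nat_lit 202) (nat_lit 2) (nat_lit 67) (nat_lit 83) (nat_lit 30)) (PT.lf (nat_lit 16212) (nat_lit 6) (nat_lit 193) (nat_lit 2) (nat_lit 68) (nat_lit 83) (nat_lit 29))))) (PT.nd (nat_lit 282) (PT.nd (nat_lit 94) (PT.lf (nat_lit 15456) (nat_lit 6) (nat_lit 184) (nat_lit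 2) (nat_lit 69) (nat_lit 83) (nat_lit 28)) (PT.nd (nat_lit 94) (PT.lf (nat_lit 14700) (nat_lit 6) (nat_lit 175) (nat_lit 2) (nat_lit 70) (nat_lit 83) (nat_lit 27)) (PT.lf (nat_lit 13944) (nat_lit 6) (nat_lit 166) (nat_lit 2) (nat_lit 71) (nat_lit 83) (nat_lit 26)))) (PT.nd (nat_lit 94) (PT.lf (nat_lit 13272) (nat_lit 6) (nat_lit 158) (nat_lit 2) (nat_lit 72) (nat_lit 83) (nat_lit 25)) (PT.nd (nat_lit 94) (PT.lf (nat_lit 12600) (nat_lit 6) (nat_lit 150) (nat_lit 2) (nat_lit 73) (nat_lit 83) (nat_lit 24)) (PT.lf (nat_lit 11928) (nat_lit 6) (nat_lit 142) (nat_lit 2) (nat_lit 74) (nat_lit 83) (nat_lit 23))))))))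
noncomputable def pc59 : PT := (PT.nd (nat_lit 39668) (PT.nd (nat_lit 1034) (PT.nd (nat_lit 470) (PT.nd (nat_lit 188) (PT.nd (nat_lit 94) (PT.lf (nat_lit 11256) (nat_lit 6) (nat_lit 134) (nat_lit 2) (nat_lit 75) (nat_lit 83) (nat_lit 22)) (PT.lf (nat_lit 10668) (nat_lit 6) (nat_lit 127) (nat_lit 2) (nat_lit 76) (nat_lit 83) (nat_lit 21))) (PT.nd (nat_lit 94) (PT.lf (nat_lit 10080) (nat_lit 6) (nat_lit 120) (nat_lit 2) (nat_lit 77) (nat_lit 83) (nat_lit 20)) (PT.nd (nat_lit 94) (PT.lf (nat_lit 9492) (nat_lit 6) (nat_lit 113) (nat_lit 2) (nat_lit 78) (nat_lit 83) (nat_lit 19)) (PT.lf (nat_lit 8904) (nat_lit 6) (nat_lit 106) (nat_lit 2) (nat_lit 79) (nat_lit 83) (nat_lit 18))))) (PT.nd (nat_lit 282) (PT.nd (nat_lit 94) (PT.lf (nat_lit 8400) (nat_lit 6) (nat_lit 100) (nat_lit 2) (nat_lit 80) (nat_lit 83) (nat_lit 17)) (PT.nd (nat_lit 94) (PT.lf (nat_lit 7812) (nat_lit 6) (nat_lit 93) (nat_lit 2) (nat_lit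 81) (nat_lit 83) (nat_lit 16)) (PT.lf (nat_lit 7308) (nat_lit 6) (nat_lit 87) (nat_lit 2) (nat_lit 82) (nat_lit 83) (nat_lit 15)))) (PT.nd (nat_lit 94) (PT.lf (nat_lit 6804) (nat_lit 3) (nat_lit 81) (nat_lit 0) (nat_lit 83) (nat_lit 83) (nat_lit 14)) (PT.nd (nat_lit 94) (PT.lf (nat_lit 6216) (nat_lit 6) (nat_lit 74) (nat_lit 0) (nat_lit 84) (nat_lit 83) (nat_lit 13)) (PT.lf (nat_lit 5628) (nat_lit 6) (nat_lit 67) (nat_lit 0) (nat_lit 85) (nat_lit 83) (nat_lit 12)))))) (PT.nd (nat_lit 38070) (PT.nd (nat_lit 37788) (PT.nd (nat_lit 94) (PT.lf (nat_lit 5124) (nat_lit 6) (nat_lit 61) (nat_lit 0) (nat_lit 86) (nat_lit 83) (nat_lit 11)) (PT.nd (nat_lit 94) (PT.lf (nat_lit 4536) (nat_lit 6) (nat_lit 54) (nat_lit 0) (nat_lit 87) (nat_lit 83) (nat_lit 10)) (PT.lf (nat_lit 4032) (nat_lit 6) (nat_lit 48) (nat_lit 0) (nat_lit 88) (nat_lit 83) (nat_lit 9)))) (PT.nd (nat_lit 94) (PT.lf (nat_lit 3108) (nat_lit 6) (nat_lit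 37) (nat_lit 5) (nat_lit 7) (nat_lit 84) (nat_lit 89)) (PT.nd (nat_lit 94) (PT.lf (nat_lit 3612) (nat_lit 6) (nat_lit 43) (nat_lit 5) (nat_lit 8) (nat_lit 84) (nat_lit 88)) (PT.lf (nat_lit 4116) (nat_lit 6) (nat_lit 49) (nat_lit 5) (nat_lit 9) (nat_lit 84) (nat_lit 87))))) (PT.nd (nat_lit 282) (PT.nd (nat_lit 94) (PT.lf (nat_lit 4620) (nat_lit 6) (nat_lit 55) (nat_lit 5) (nat_lit 10) (nat_lit 84) (nat_lit 86)) (PT.nd (nat_lit 94) (PT.lf (nat_lit 5208) (nat_lit 6) (nat_lit 62) (nat_lit 5) (nat_lit 11) (nat_lit 84) (nat_lit 85)) (PT.lf (nat_lit 5712) (nat_lit 3) (nat_lit 68) (nat_lit 4) (nat_lit 12) (nat_lit 84) (nat_lit 84)))) (PT.nd (nat_lit 94) (PT.lf (nat_lit 6216) (nat_lit 6) (nat_lit 74) (nat_lit 4) (nat_lit 13) (nat_lit 84) (nat_lit 83)) (PT.nd (nat_lit 94) (PT.lf (nat_lit 6720) (nat_lit 6) (nat_lit 80) (nat_lit 4) (nat_lit 14) (nat_lit 84) (nat_lit 82)) (PT.lf (nat_lit 7224) (nat_lit 6) (nat_lit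 86) (nat_lit 4) (nat_lit 15) (nat_lit 84) (nat_lit 81))))))) (PT.nd (nat_lit 1128) (PT.nd (nat_lit 564) (PT.nd (nat_lit 282) (PT.nd (nat_lit 94) (PT.lf (nat_lit 7728) (nat_lit 6) (nat_lit 92) (nat_lit 4) (nat_lit 16) (nat_lit 84) (nat_lit 80)) (PT.nd (nat_lit 94) (PT.lf (nat_lit 8316) (nat_lit 6) (nat_lit 99) (nat_lit 4) (nat_lit 17) (nat_lit 84) (nat_lit 79)) (PT.lf (nat_lit 8820) (nat_lit 6) (nat_lit 105) (nat_lit 4) (nat_lit 18) (nat_lit 84) (nat_lit 78)))) (PT.nd (nat_lit 94) (PT.lf (nat_lit 9408) (nat_lit 6) (nat_lit 112) (nat_lit 4) (nat_lit 19) (nat_lit 84) (nat_lit 77)) (PT.nd (nat_lit 94) (PT.lf (nat_lit 9996) (nat_lit 6) (nat_lit 119) (nat_lit 4) (nat_lit 20) (nat_lit 84) (nat_lit 76)) (PT.lf (nat_lit 10584) (nat_lit 6) (nat_lit 126) (nat_lit 4) (nat_lit 21) (nat_lit 84) (nat_lit 75))))) (PT.nd (nat_lit 282) (PT.nd (nat_lit 94) (PT.lf (nat_lit 11172) (nat_lit 6) (nat_lit 133) (nat_lit 4) (nat_lit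 22) (nat_lit 84) (nat_lit 74)) (PT.nd (nat_lit 94) (PT.lf (nat_lit 11844) (nat_lit 6) (nat_lit 141) (nat_lit 4) (nat_lit 23) (nat_lit 84) (nat_lit 73)) (PT.lf (nat_lit 12516) (nat_lit 6) (nat_lit 149) (nat_lit 4) (nat_lit 24) (nat_lit 84) (nat_lit 72)))) (PT.nd (nat_lit 94) (PT.lf (nat_lit 13188) (nat_lit 6) (nat_lit 157) (nat_lit 4) (nat_lit 25) (nat_lit 84) (nat_lit 71)) (PT.nd (nat_lit 94) (PT.lf (nat_lit 13860) (nat_lit 6) (nat_lit 165) (nat_lit 4) (nat_lit 26) (nat_lit 84) (nat_lit 70)) (PT.lf (nat_lit 14616) (nat_lit 6) (nat_lit 174) (nat_lit 4) (nat_lit 27) (nat_lit 84) (nat_lit 69)))))) (PT.nd (nat_lit 3478) (PT.nd (nat_lit 282) (PT.nd (nat_lit 94) (PT.lf (nat_lit 15372) (nat_lit 6) (nat_lit 183) (nat_lit 4) (nat_lit 28) (nat_lit 84) (nat_lit 68)) (PT.nd (nat_lit 94) (PT.lf (nat_lit 16128) (nat_lit 6) (nat_lit 192) (nat_lit 4) (nat_lit 29) (nat_lit 84) (nat_lit 67)) (PT.lf (nat_lit 16884) (nat_lit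 6) (nat_lit 201) (nat_lit 4) (nat_lit 30) (nat_lit 84) (nat_lit 66)))) (PT.nd (nat_lit 94) (PT.lf (nat_lit 17724) (nat_lit 6) (nat_lit 211) (nat_lit 4) (nat_lit 31) (nat_lit 84) (nat_lit 65)) (PT.nd (nat_lit 3008) (PT.lf (nat_lit 18564) (nat_lit 6) (nat_lit 221) (nat_lit 4) (nat_lit 32) (nat_lit 84) (nat_lit 64)) (PT.lf (nat_lit 18564) (nat_lit 6) (nat_lit 221) (nat_lit 2) (nat_lit 64) (nat_lit 84) (nat_lit 32))))) (PT.nd (nat_lit 282) (PT.nd (nat_lit 94) (PT.lf (nat_lit 17724) (nat_lit 6) (nat_lit 211) (nat_lit 2) (nat_lit 65) (nat_lit 84) (nat_lit 31)) (PT.nd (nat_lit 94) (PT.lf (nat_lit 16884) (nat_lit 6) (nat_lit 201) (nat_lit 2) (nat_lit 66) (nat_lit 84) (nat_lit 30)) (PT.lf (nat_lit 16128) (nat_lit 6) (nat_lit 192) (nat_lit 2) (nat_lit 67) (nat_lit 84) (nat_lit 29)))) (PT.nd (nat_lit 94) (PT.lf (nat_lit 15372) (nat_lit 6) (nat_lit 183) (nat_lit 2) (nat_lit 68) (nat_lit 84) (nat_lit 28)) (PT.nd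 (nat_lit 94) (PT.lf (nat_lit 14616) (nat_lit 6) (nat_lit 174) (nat_lit 2) (nat_lit 69) (nat_lit 84) (nat_lit 27)) (PT.lf (nat_lit 13860) (nat_lit 6) (nat_lit 165) (nat_lit 2) (nat_lit 70) (nat_lit 84) (nat_lit 26))))))))
noncomputable def pc60 : PT := (PT.nd (nat_lit 39480) (PT.nd (nat_lit 1034) (PT.nd (nat_lit 470) (PT.nd (nat_lit 188) (PT.nd (nat_lit 94) (PT.lf (nat_lit 13188) (nat_lit 6) (nat_lit 157) (nat_lit 2) (nat_lit 71) (nat_lit 84) (nat_lit 25)) (PT.lf (nat_lit 12516) (nat_lit 6) (nat_lit 149) (nat_lit 2) (nat_lit 72) (nat_lit 84) (nat_lit 24))) (PT.nd (nat_lit 94) (PT.lf (nat_lit 11844) (nat_lit 6) (nat_lit 141) (nat_lit 2) (nat_lit 73) (nat_lit 84) (nat_lit 23)) (PT.nd (nat_lit 94) (PT.lf (nat_lit 11172) (nat_lit 6) (nat_lit 133) (nat_lit 2) (nat_lit 74) (nat_lit 84) (nat_lit 22)) (PT.lf (nat_lit 10584) (nat_lit 6) (nat_lit 126) (nat_lit 2) (nat_lit 75) (nat_lit 84) (nat_lit 21))))) (PT.nd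 (nat_lit 282) (PT.nd (nat_lit 94) (PT.lf (nat_lit 9996) (nat_lit 6) (nat_lit 119) (nat_lit 2) (nat_lit 76) (nat_lit 84) (nat_lit 20)) (PT.nd (nat_lit 94) (PT.lf (nat_lit 9408) (nat_lit 6) (nat_lit 112) (nat_lit 2) (nat_lit 77) (nat_lit 84) (nat_lit 19)) (PT.lf (nat_lit 8820) (nat_lit 6) (nat_lit 105) (nat_lit 2) (nat_lit 78) (nat_lit 84) (nat_lit 18)))) (PT.nd (nat_lit 94) (PT.lf (nat_lit 8316) (nat_lit 6) (nat_lit 99) (nat_lit 2) (nat_lit 79) (nat_lit 84) (nat_lit 17)) (PT.nd (nat_lit 94) (PT.lf (nat_lit 7728) (nat_lit 6) (nat_lit 92) (nat_lit 2) (nat_lit 80) (nat_lit 84) (nat_lit 16)) (PT.lf (nat_lit 7224) (nat_lit 6) (nat_lit 86) (nat_lit 2) (nat_lit 81) (nat_lit 84) (nat_lit 15)))))) (PT.nd (nat_lit 564) (PT.nd (nat_lit 282) (PT.nd (nat_lit 94) (PT.lf (nat_lit 6720) (nat_lit 6) (nat_lit 80) (nat_lit 2) (nat_lit 82) (nat_lit 84) (nat_lit 14)) (PT.nd (nat_lit 94) (PT.lf (nat_lit 6216) (nat_lit 6) (nat_lit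 74) (nat_lit 2) (nat_lit 83) (nat_lit 84) (nat_lit 13)) (PT.lf (nat_lit 5712) (nat_lit 3) (nat_lit 68) (nat_lit 0) (nat_lit 84) (nat_lit 84) (nat_lit 12)))) (PT.nd (nat_lit 94) (PT.lf (nat_lit 5208) (nat_lit 6) (nat_lit 62) (nat_lit 0) (nat_lit 85) (nat_lit 84) (nat_lit 11)) (PT.nd (nat_lit 94) (PT.lf (nat_lit 4620) (nat_lit 6) (nat_lit 55) (nat_lit 0) (nat_lit 86) (nat_lit 84) (nat_lit 10)) (PT.lf (nat_lit 4116) (nat_lit 6) (nat_lit 49) (nat_lit 0) (nat_lit 87) (nat_lit 84) (nat_lit 9))))) (PT.nd (nat_lit 37600) (PT.nd (nat_lit 94) (PT.lf (nat_lit 3612) (nat_lit 6) (nat_lit 43) (nat_lit 0) (nat_lit 88) (nat_lit 84) (nat_lit 8)) (PT.nd (nat_lit 37412) (PT.lf (nat_lit 3108) (nat_lit 6) (nat_lit 37) (nat_lit 0) (nat_lit 89) (nat_lit 84) (nat_lit 7)) (PT.lf (nat_lit 2688) (nat_lit 6) (nat_lit 32) (nat_lit 5) (nat_lit 6) (nat_lit 85) (nat_lit 89)))) (PT.nd (nat_lit 94) (PT.lf (nat_lit 3192) (nat_lit 6) (nat_lit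 38) (nat_lit 5) (nat_lit 7) (nat_lit 85) (nat_lit 88)) (PT.nd (nat_lit 94) (PT.lf (nat_lit 3696) (nat_lit 6) (nat_lit 44) (nat_lit 5) (nat_lit 8) (nat_lit 85) (nat_lit 87)) (PT.lf (nat_lit 4200) (nat_lit 6) (nat_lit 50) (nat_lit 5) (nat_lit 9) (nat_lit 85) (nat_lit 86))))))) (PT.nd (nat_lit 1034) (PT.nd (nat_lit 470) (PT.nd (nat_lit 188) (PT.nd (nat_lit 94) (PT.lf (nat_lit 4704) (nat_lit 3) (nat_lit 56) (nat_lit 4) (nat_lit 10) (nat_lit 85) (nat_lit 85)) (PT.lf (nat_lit 5208) (nat_lit 6) (nat_lit 62) (nat_lit 4) (nat_lit 11) (nat_lit 85) (nat_lit 84))) (PT.nd (nat_lit 94) (PT.lf (nat_lit 5628) (nat_lit 6) (nat_lit 67) (nat_lit 4) (nat_lit 12) (nat_lit 85) (nat_lit 83)) (PT.nd (nat_lit 94) (PT.lf (nat_lit 6132) (nat_lit 6) (nat_lit 73) (nat_lit 4) (nat_lit 13) (nat_lit 85) (nat_lit 82)) (PT.lf (nat_lit 6636) (nat_lit 6) (nat_lit 79) (nat_lit 4) (nat_lit 14) (nat_lit 85) (nat_lit 81))))) (PT.nd (nat_lit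 282) (PT.nd (nat_lit 94) (PT.lf (nat_lit 7140) (nat_lit 6) (nat_lit 85) (nat_lit 4) (nat_lit 15) (nat_lit 85) (nat_lit 80)) (PT.nd (nat_lit 94) (PT.lf (nat_lit 7644) (nat_lit 6) (nat_lit 91) (nat_lit 4) (nat_lit 16) (nat_lit 85) (nat_lit 79)) (PT.lf (nat_lit 8232) (nat_lit 6) (nat_lit 98) (nat_lit 4) (nat_lit 17) (nat_lit 85) (nat_lit 78)))) (PT.nd (nat_lit 94) (PT.lf (nat_lit 8736) (nat_lit 6) (nat_lit 104) (nat_lit 4) (nat_lit 18) (nat_lit 85) (nat_lit 77)) (PT.nd (nat_lit 94) (PT.lf (nat_lit 9324) (nat_lit 6) (nat_lit 111) (nat_lit 4) (nat_lit 19) (nat_lit 85) (nat_lit 76)) (PT.lf (nat_lit 9912) (nat_lit 6) (nat_lit 118) (nat_lit 4) (nat_lit 20) (nat_lit 85) (nat_lit 75)))))) (PT.nd (nat_lit 564) (PT.nd (nat_lit 282) (PT.nd (nat_lit 94) (PT.lf (nat_lit 10500) (nat_lit 6) (nat_lit 125) (nat_lit 4) (nat_lit 21) (nat_lit 85) (nat_lit 74)) (PT.nd (nat_lit 94) (PT.lf (nat_lit 11088) (nat_lit 6) (nat_lit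 132) (nat_lit 4) (nat_lit 22) (nat_lit 85) (nat_lit 73)) (PT.lf (nat_lit 11760) (nat_lit 6) (nat_lit 140) (nat_lit 4) (nat_lit 23) (nat_lit 85) (nat_lit 72)))) (PT.nd (nat_lit 94) (PT.lf (nat_lit 12432) (nat_lit 6) (nat_lit 148) (nat_lit 4) (nat_lit 24) (nat_lit 85) (nat_lit 71)) (PT.nd (nat_lit 94) (PT.lf (nat_lit 13104) (nat_lit 6) (nat_lit 156) (nat_lit 4) (nat_lit 25) (nat_lit 85) (nat_lit 70)) (PT.lf (nat_lit 13776) (nat_lit 6) (nat_lit 164) (nat_lit 4) (nat_lit 26) (nat_lit 85) (nat_lit 69))))) (PT.nd (nat_lit 3854) (PT.nd (nat_lit 94) (PT.lf (nat_lit 14532) (nat_lit 6) (nat_lit 173) (nat_lit 4) (nat_lit 27) (nat_lit 85) (nat_lit 68)) (PT.nd (nat_lit 3666) (PT.lf (nat_lit 15288) (nat_lit 6) (nat_lit 182) (nat_lit 4) (nat_lit 28) (nat_lit 85) (nat_lit 67)) (PT.lf (nat_lit 15288) (nat_lit 6) (nat_lit 182) (nat_lit 2) (nat_lit 67) (nat_lit 85) (nat_lit 28)))) (PT.nd (nat_lit 94) (PT.lf (nat_lit 14532)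 (nat_lit 6) (nat_lit 173) (nat_lit 2) (nat_lit 68) (nat_lit 85) (nat_lit 27)) (PT.nd (nat_lit 94) (PT.lf (nat_lit 13776) (nat_lit 6) (nat_lit 164) (nat_lit 2) (nat_lit 69) (nat_lit 85) (nat_lit 26)) (PT.lf (nat_lit 13104) (nat_lit 6) (nat_lit 156) (nat_lit 2) (nat_lit 70) (nat_lit 85) (nat_lit 25))))))))
noncomputable def pc61 : PT := (PT.nd (nat_lit 39386) (PT.nd (nat_lit 1034) (PT.nd (nat_lit 470) (PT.nd (nat_lit 188) (PT.nd (nat_lit 94) (PT.lf (nat_lit 12432) (nat_lit 6) (nat_lit 148) (nat_lit 2) (nat_lit 71) (nat_lit 85) (nat_lit 24)) (PT.lf (nat_lit 11760) (nat_lit 6) (nat_lit 140) (nat_lit 2) (nat_lit 72) (nat_lit 85) (nat_lit 23))) (PT.nd (nat_lit 94) (PT.lf (nat_lit 11088) (nat_lit 6) (nat_lit 132) (nat_lit 2) (nat_lit 73) (nat_lit 85) (nat_lit 22)) (PT.nd (nat_lit 94) (PT.lf (nat_lit 10500) (nat_lit 6) (nat_lit 125) (nat_lit 2) (nat_lit 74) (nat_lit 85) (nat_lit 21)) (PT.lf (nat_lit 9912) (nat_lit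 6) (nat_lit 118) (nat_lit 2) (nat_lit 75) (nat_lit 85) (nat_lit 20))))) (PT.nd (nat_lit 282) (PT.nd (nat_lit 94) (PT.lf (nat_lit 9324) (nat_lit 6) (nat_lit 111) (nat_lit 2) (nat_lit 76) (nat_lit 85) (nat_lit 19)) (PT.nd (nat_lit 94) (PT.lf (nat_lit 8736) (nat_lit 6) (nat_lit 104) (nat_lit 2) (nat_lit 77) (nat_lit 85) (nat_lit 18)) (PT.lf (nat_lit 8232) (nat_lit 6) (nat_lit 98) (nat_lit 2) (nat_lit 78) (nat_lit 85) (nat_lit 17)))) (PT.nd (nat_lit 94) (PT.lf (nat_lit 7644) (nat_lit 6) (nat_lit 91) (nat_lit 2) (nat_lit 79) (nat_lit 85) (nat_lit 16)) (PT.nd (nat_lit 94) (PT.lf (nat_lit 7140) (nat_lit 6) (nat_lit 85) (nat_lit 2) (nat_lit 80) (nat_lit 85) (nat_lit 15)) (PT.lf (nat_lit 6636) (nat_lit 6) (nat_lit 79) (nat_lit 2) (nat_lit 81) (nat_lit 85) (nat_lit 14)))))) (PT.nd (nat_lit 564) (PT.nd (nat_lit 282) (PT.nd (nat_lit 94) (PT.lf (nat_lit 6132) (nat_lit 6) (nat_lit 73) (nat_lit 2) (nat_lit 82) (nat_lit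 85) (nat_lit 13)) (PT.nd (nat_lit 94) (PT.lf (nat_lit 5628) (nat_lit 6) (nat_lit 67) (nat_lit 2) (nat_lit 83) (nat_lit 85) (nat_lit 12)) (PT.lf (nat_lit 5208) (nat_lit 6) (nat_lit 62) (nat_lit 2) (nat_lit 84) (nat_lit 85) (nat_lit 11)))) (PT.nd (nat_lit 94) (PT.lf (nat_lit 4704) (nat_lit 3) (nat_lit 56) (nat_lit 0) (nat_lit 85) (nat_lit 85) (nat_lit 10)) (PT.nd (nat_lit 94) (PT.lf (nat_lit 4200) (nat_lit 6) (nat_lit 50) (nat_lit 0) (nat_lit 86) (nat_lit 85) (nat_lit 9)) (PT.lf (nat_lit 3696) (nat_lit 6) (nat_lit 44) (nat_lit 0) (nat_lit 87) (nat_lit 85) (nat_lit 8))))) (PT.nd (nat_lit 37506) (PT.nd (nat_lit 94) (PT.lf (nat_lit 3192) (nat_lit 6) (nat_lit 38) (nat_lit 0) (nat_lit 88) (nat_lit 85) (nat_lit 7)) (PT.nd (nat_lit 37318) (PT.lf (nat_lit 2688) (nat_lit 6) (nat_lit 32) (nat_lit 0) (nat_lit 89) (nat_lit 85) (nat_lit 6)) (PT.lf (nat_lit 2352) (nat_lit 6) (nat_lit 28) (nat_lit 5) (nat_lit 5) (nat_lit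 86) (nat_lit 89)))) (PT.nd (nat_lit 94) (PT.lf (nat_lit 2772) (nat_lit 6) (nat_lit 33) (nat_lit 5) (nat_lit 6) (nat_lit 86) (nat_lit 88)) (PT.nd (nat_lit 94) (PT.lf (nat_lit 3276) (nat_lit 6) (nat_lit 39) (nat_lit 5) (nat_lit 7) (nat_lit 86) (nat_lit 87)) (PT.lf (nat_lit 3780) (nat_lit 3) (nat_lit 45) (nat_lit 4) (nat_lit 8) (nat_lit 86) (nat_lit 86))))))) (PT.nd (nat_lit 1128) (PT.nd (nat_lit 564) (PT.nd (nat_lit 282) (PT.nd (nat_lit 94) (PT.lf (nat_lit 4200) (nat_lit 6) (nat_lit 50) (nat_lit 4) (nat_lit 9) (nat_lit 86) (nat_lit 85)) (PT.nd (nat_lit 94) (PT.lf (nat_lit 4620) (nat_lit 6) (nat_lit 55) (nat_lit 4) (nat_lit 10) (nat_lit 86) (nat_lit 84)) (PT.lf (nat_lit 5124) (nat_lit 6) (nat_lit 61) (nat_lit 4) (nat_lit 11) (nat_lit 86) (nat_lit 83)))) (PT.nd (nat_lit 94) (PT.lf (nat_lit 5544) (nat_lit 6) (nat_lit 66) (nat_lit 4) (nat_lit 12) (nat_lit 86) (nat_lit 82)) (PT.nd (nat_lit 94) (PT.lf (nat_lit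 6048) (nat_lit 6) (nat_lit 72) (nat_lit 4) (nat_lit 13) (nat_lit 86) (nat_lit 81)) (PT.lf (nat_lit 6552) (nat_lit 6) (nat_lit 78) (nat_lit 4) (nat_lit 14) (nat_lit 86) (nat_lit 80))))) (PT.nd (nat_lit 282) (PT.nd (nat_lit 94) (PT.lf (nat_lit 7056) (nat_lit 6) (nat_lit 84) (nat_lit 4) (nat_lit 15) (nat_lit 86) (nat_lit 79)) (PT.nd (nat_lit 94) (PT.lf (nat_lit 7560) (nat_lit 6) (nat_lit 90) (nat_lit 4) (nat_lit 16) (nat_lit 86) (nat_lit 78)) (PT.lf (nat_lit 8148) (nat_lit 6) (nat_lit 97) (nat_lit 4) (nat_lit 17) (nat_lit 86) (nat_lit 77)))) (PT.nd (nat_lit 94) (PT.lf (nat_lit 8652) (nat_lit 6) (nat_lit 103) (nat_lit 4) (nat_lit 18) (nat_lit 86) (nat_lit 76)) (PT.nd (nat_lit 94) (PT.lf (nat_lit 9240) (nat_lit 6) (nat_lit 110) (nat_lit 4) (nat_lit 19) (nat_lit 86) (nat_lit 75)) (PT.lf (nat_lit 9828) (nat_lit 6) (nat_lit 117) (nat_lit 4) (nat_lit 20) (nat_lit 86) (nat_lit 74)))))) (PT.nd (nat_lit 4794) (PT.nd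 (nat_lit 282) (PT.nd (nat_lit 94) (PT.lf (nat_lit 10416) (nat_lit 6) (nat_lit 124) (nat_lit 4) (nat_lit 21) (nat_lit 86) (nat_lit 73)) (PT.nd (nat_lit 94) (PT.lf (nat_lit 11004) (nat_lit 6) (nat_lit 131) (nat_lit 4) (nat_lit 22) (nat_lit 86) (nat_lit 72)) (PT.lf (nat_lit 11676) (nat_lit 6) (nat_lit 139) (nat_lit 4) (nat_lit 23) (nat_lit 86) (nat_lit 71)))) (PT.nd (nat_lit 4324) (PT.lf (nat_lit 12348) (nat_lit 6) (nat_lit 147) (nat_lit 4) (nat_lit 24) (nat_lit 86) (nat_lit 70)) (PT.nd (nat_lit 94) (PT.lf (nat_lit 12348) (nat_lit 6) (nat_lit 147) (nat_lit 2) (nat_lit 70) (nat_lit 86) (nat_lit 24)) (PT.lf (nat_lit 11676) (nat_lit 6) (nat_lit 139) (nat_lit 2) (nat_lit 71) (nat_lit 86) (nat_lit 23))))) (PT.nd (nat_lit 282) (PT.nd (nat_lit 94) (PT.lf (nat_lit 11004) (nat_lit 6) (nat_lit 131) (nat_lit 2) (nat_lit 72) (nat_lit 86) (nat_lit 22)) (PT.nd (nat_lit 94) (PT.lf (nat_lit 10416) (nat_lit 6) (nat_lit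 124) (nat_lit 2) (nat_lit 73) (nat_lit 86) (nat_lit 21)) (PT.lf (nat_lit 9828) (nat_lit 6) (nat_lit 117) (nat_lit 2) (nat_lit 74) (nat_lit 86) (nat_lit 20)))) (PT.nd (nat_lit 94) (PT.lf (nat_lit 9240) (nat_lit 6) (nat_lit 110) (nat_lit 2) (nat_lit 75) (nat_lit 86) (nat_lit 19)) (PT.nd (nat_lit 94) (PT.lf (nat_lit 8652) (nat_lit 6) (nat_lit 103) (nat_lit 2) (nat_lit 76) (nat_lit 86) (nat_lit 18)) (PT.lf (nat_lit 8148) (nat_lit 6) (nat_lit 97) (nat_lit 2) (nat_lit 77) (nat_lit 86) (nat_lit 17))))))))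
noncomputable def pc62 : PT := (PT.nd (nat_lit 39292) (PT.nd (nat_lit 1034) (PT.nd (nat_lit 470) (PT.nd (nat_lit 188) (PT.nd (nat_lit 94) (PT.lf (nat_lit 7560) (nat_lit 6) (nat_lit 90) (nat_lit 2) (nat_lit 78) (nat_lit 86) (nat_lit 16)) (PT.lf (nat_lit 7056) (nat_lit 6) (nat_lit 84) (nat_lit 2) (nat_lit 79) (nat_lit 86) (nat_lit 15))) (PT.nd (nat_lit 94) (PT.lf (nat_lit 6552) (nat_lit 6) (nat_lit 78) (nat_lit 2) (nat_lit 80) (nat_lit 86) (nat_lit 14)) (PT.nd (nat_lit 94) (PT.lf (nat_lit 6048) (nat_lit 6) (nat_lit 72) (nat_lit 2) (nat_lit 81) (nat_lit 86) (nat_lit 13)) (PT.lf (nat_lit 5544) (nat_lit 6) (nat_lit 66) (nat_lit 2) (nat_lit 82) (nat_lit 86) (nat_lit 12))))) (PT.nd (nat_lit 282) (PT.nd (nat_lit 94) (PT.lf (nat_lit 5124) (nat_lit 6) (nat_lit 61) (nat_lit 2) (nat_lit 83) (nat_lit 86) (nat_lit 11)) (PT.nd (nat_lit 94) (PT.lf (nat_lit 4620) (nat_lit 6) (nat_lit 55) (nat_lit 2) (nat_lit 84) (nat_lit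 86) (nat_lit 10)) (PT.lf (nat_lit 4200) (nat_lit 6) (nat_lit 50) (nat_lit 2) (nat_lit 85) (nat_lit 86) (nat_lit 9)))) (PT.nd (nat_lit 94) (PT.lf (nat_lit 3780) (nat_lit 3) (nat_lit 45) (nat_lit 0) (nat_lit 86) (nat_lit 86) (nat_lit 8)) (PT.nd (nat_lit 94) (PT.lf (nat_lit 3276) (nat_lit 6) (nat_lit 39) (nat_lit 0) (nat_lit 87) (nat_lit 86) (nat_lit 7)) (PT.lf (nat_lit 2772) (nat_lit 6) (nat_lit 33) (nat_lit 0) (nat_lit 88) (nat_lit 86) (nat_lit 6)))))) (PT.nd (nat_lit 37694) (PT.nd (nat_lit 37412) (PT.nd (nat_lit 37224) (PT.lf (nat_lit 2352) (nat_lit 6) (nat_lit 28) (nat_lit 0) (nat_lit 89) (nat_lit 86) (nat_lit 5)) (PT.nd (nat_lit 94) (PT.lf (nat_lit 1932) (nat_lit 6) (nat_lit 23) (nat_lit 5) (nat_lit 4) (nat_lit 87) (nat_lit 89)) (PT.lf (nat_lit 2436) (nat_lit 6) (nat_lit 29) (nat_lit 5) (nat_lit 5) (nat_lit 87) (nat_lit 88)))) (PT.nd (nat_lit 94) (PT.lf (nat_lit 2856) (nat_lit 3) (nat_lit 34) (nat_lit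 4) (nat_lit 6) (nat_lit 87) (nat_lit 87)) (PT.nd (nat_lit 94) (PT.lf (nat_lit 3276) (nat_lit 6) (nat_lit 39) (nat_lit 4) (nat_lit 7) (nat_lit 87) (nat_lit 86)) (PT.lf (nat_lit 3696) (nat_lit 6) (nat_lit 44) (nat_lit 4) (nat_lit 8) (nat_lit 87) (nat_lit 85))))) (PT.nd (nat_lit 282) (PT.nd (nat_lit 94) (PT.lf (nat_lit 4116) (nat_lit 6) (nat_lit 49) (nat_lit 4) (nat_lit 9) (nat_lit 87) (nat_lit 84)) (PT.nd (nat_lit 94) (PT.lf (nat_lit 4536) (nat_lit 6) (nat_lit 54) (nat_lit 4) (nat_lit 10) (nat_lit 87) (nat_lit 83)) (PT.lf (nat_lit 5040) (nat_lit 6) (nat_lit 60) (nat_lit 4) (nat_lit 11) (nat_lit 87) (nat_lit 82)))) (PT.nd (nat_lit 94) (PT.lf (nat_lit 5460) (nat_lit 6) (nat_lit 65) (nat_lit 4) (nat_lit 12) (nat_lit 87) (nat_lit 81)) (PT.nd (nat_lit 94) (PT.lf (nat_lit 5964) (nat_lit 6) (nat_lit 71) (nat_lit 4) (nat_lit 13) (nat_lit 87) (nat_lit 80)) (PT.lf (nat_lit 6468) (nat_lit 6) (nat_lit 77) (nat_lit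 4) (nat_lit 14) (nat_lit 87) (nat_lit 79))))))) (PT.nd (nat_lit 6016) (PT.nd (nat_lit 5452) (PT.nd (nat_lit 282) (PT.nd (nat_lit 94) (PT.lf (nat_lit 6972) (nat_lit 6) (nat_lit 83) (nat_lit 4) (nat_lit 15) (nat_lit 87) (nat_lit 78)) (PT.nd (nat_lit 94) (PT.lf (nat_lit 7476) (nat_lit 6) (nat_lit 89) (nat_lit 4) (nat_lit 16) (nat_lit 87) (nat_lit 77)) (PT.lf (nat_lit 8064) (nat_lit 6) (nat_lit 96) (nat_lit 4) (nat_lit 17) (nat_lit 87) (nat_lit 76)))) (PT.nd (nat_lit 94) (PT.lf (nat_lit 8568) (nat_lit 6) (nat_lit 102) (nat_lit 4) (nat_lit 18) (nat_lit 87) (nat_lit 75)) (PT.nd (nat_lit 94) (PT.lf (nat_lit 9156) (nat_lit 6) (nat_lit 109) (nat_lit 4) (nat_lit 19) (nat_lit 87) (nat_lit 74)) (PT.lf (nat_lit 9744) (nat_lit 6) (nat_lit 116) (nat_lit 4) (nat_lit 20) (nat_lit 87) (nat_lit 73))))) (PT.nd (nat_lit 282) (PT.nd (nat_lit 94) (PT.lf (nat_lit 9744) (nat_lit 6) (nat_lit 116) (nat_lit 2) (nat_lit 73) (nat_lit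 87) (nat_lit 20)) (PT.nd (nat_lit 94) (PT.lf (nat_lit 9156) (nat_lit 6) (nat_lit 109) (nat_lit 2) (nat_lit 74) (nat_lit 87) (nat_lit 19)) (PT.lf (nat_lit 8568) (nat_lit 6) (nat_lit 102) (nat_lit 2) (nat_lit 75) (nat_lit 87) (nat_lit 18)))) (PT.nd (nat_lit 94) (PT.lf (nat_lit 8064) (nat_lit 6) (nat_lit 96) (nat_lit 2) (nat_lit 76) (nat_lit 87) (nat_lit 17)) (PT.nd (nat_lit 94) (PT.lf (nat_lit 7476) (nat_lit 6) (nat_lit 89) (nat_lit 2) (nat_lit 77) (nat_lit 87) (nat_lit 16)) (PT.lf (nat_lit 6972) (nat_lit 6) (nat_lit 83) (nat_lit 2) (nat_lit 78) (nat_lit 87) (nat_lit 15)))))) (PT.nd (nat_lit 564) (PT.nd (nat_lit 282) (PT.nd (nat_lit 94) (PT.lf (nat_lit 6468) (nat_lit 6) (nat_lit 77) (nat_lit 2) (nat_lit 79) (nat_lit 87) (nat_lit 14)) (PT.nd (nat_lit 94) (PT.lf (nat_lit 5964) (nat_lit 6) (nat_lit 71) (nat_lit 2) (nat_lit 80) (nat_lit 87) (nat_lit 13)) (PT.lf (nat_lit 5460) (nat_lit 6) (nat_lit 65) (nat_lit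 2) (nat_lit 81) (nat_lit 87) (nat_lit 12)))) (PT.nd (nat_lit 94) (PT.lf (nat_lit 5040) (nat_lit 6) (nat_lit 60) (nat_lit 2) (nat_lit 82) (nat_lit 87) (nat_lit 11)) (PT.nd (nat_lit 94) (PT.lf (nat_lit 4536) (nat_lit 6) (nat_lit 54) (nat_lit 2) (nat_lit 83) (nat_lit 87) (nat_lit 10)) (PT.lf (nat_lit 4116) (nat_lit 6) (nat_lit 49) (nat_lit 2) (nat_lit 84) (nat_lit 87) (nat_lit 9))))) (PT.nd (nat_lit 282) (PT.nd (nat_lit 94) (PT.lf (nat_lit 3696) (nat_lit 6) (nat_lit 44) (nat_lit 2) (nat_lit 85) (nat_lit 87) (nat_lit 8)) (PT.nd (nat_lit 94) (PT.lf (nat_lit 3276) (nat_lit 6) (nat_lit 39) (nat_lit 2) (nat_lit 86) (nat_lit 87) (nat_lit 7)) (PT.lf (nat_lit 2856) (nat_lit 3) (nat_lit 34) (nat_lit 0) (nat_lit 87) (nat_lit 87) (nat_lit 6)))) (PT.nd (nat_lit 94) (PT.lf (nat_lit 2436) (nat_lit 6) (nat_lit 29) (nat_lit 0) (nat_lit 88) (nat_lit 87) (nat_lit 5)) (PT.nd (nat_lit 37224) (PT.lf (nat_lit 1932) (nat_lit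 6) (nat_lit 23) (nat_lit 0) (nat_lit 89) (nat_lit 87) (nat_lit 4)) (PT.lf (nat_lit 2016) (nat_lit 3) (nat_lit 24) (nat_lit 4) (nat_lit 4) (nat_lit 88) (nat_lit 88))))))))
noncomputable def pc63 : PT := (PT.nd (nat_lit 7520) (PT.nd (nat_lit 1034) (PT.nd (nat_lit 470) (PT.nd (nat_lit 188) (PT.nd (nat_lit 94) (PT.lf (nat_lit 2436) (nat_lit 6) (nat_lit 29) (nat_lit 4) (nat_lit 5) (nat_lit 88) (nat_lit 87)) (PT.lf (nat_lit 2772) (nat_lit 6) (nat_lit 33) (nat_lit 4) (nat_lit 6) (nat_lit 88) (nat_lit 86))) (PT.nd (nat_lit 94) (PT.lf (nat_lit 3192) (nat_lit 6) (nat_lit 38) (nat_lit 4) (nat_lit 7) (nat_lit 88) (nat_lit 85)) (PT.nd (nat_lit 94) (PT.lf (nat_lit 3612) (nat_lit 6) (nat_lit 43) (nat_lit 4) (nat_lit 8) (nat_lit 88) (nat_lit 84)) (PT.lf (nat_lit 4032) (nat_lit 6) (nat_lit 48) (nat_lit 4) (nat_lit 9) (nat_lit 88) (nat_lit 83))))) (PT.nd (nat_lit 282) (PT.nd (nat_lit 94) (PT.lf (nat_lit 4452) (nat_lit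 6) (nat_lit 53) (nat_lit 4) (nat_lit 10) (nat_lit 88) (nat_lit 82)) (PT.nd (nat_lit 94) (PT.lf (nat_lit 4956) (nat_lit 6) (nat_lit 59) (nat_lit 4) (nat_lit 11) (nat_lit 88) (nat_lit 81)) (PT.lf (nat_lit 5376) (nat_lit 6) (nat_lit 64) (nat_lit 4) (nat_lit 12) (nat_lit 88) (nat_lit 80)))) (PT.nd (nat_lit 94) (PT.lf (nat_lit 5880) (nat_lit 6) (nat_lit 70) (nat_lit 4) (nat_lit 13) (nat_lit 88) (nat_lit 79)) (PT.nd (nat_lit 94) (PT.lf (nat_lit 6384) (nat_lit 6) (nat_lit 76) (nat_lit 4) (nat_lit 14) (nat_lit 88) (nat_lit 78)) (PT.lf (nat_lit 6888) (nat_lit 6) (nat_lit 82) (nat_lit 4) (nat_lit 15) (nat_lit 88) (nat_lit 77)))))) (PT.nd (nat_lit 5922) (PT.nd (nat_lit 5640) (PT.nd (nat_lit 94) (PT.lf (nat_lit 7392) (nat_lit 6) (nat_lit 88) (nat_lit 4) (nat_lit 16) (nat_lit 88) (nat_lit 76)) (PT.nd (nat_lit 5452) (PT.lf (nat_lit 7980) (nat_lit 6) (nat_lit 95) (nat_lit 4) (nat_lit 17) (nat_lit 88) (nat_lit 75))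 (PT.lf (nat_lit 7980) (nat_lit 6) (nat_lit 95) (nat_lit 2) (nat_lit 75) (nat_lit 88) (nat_lit 17)))) (PT.nd (nat_lit 94) (PT.lf (nat_lit 7392) (nat_lit 6) (nat_lit 88) (nat_lit 2) (nat_lit 76) (nat_lit 88) (nat_lit 16)) (PT.nd (nat_lit 94) (PT.lf (nat_lit 6888) (nat_lit 6) (nat_lit 82) (nat_lit 2) (nat_lit 77) (nat_lit 88) (nat_lit 15)) (PT.lf (nat_lit 6384) (nat_lit 6) (nat_lit 76) (nat_lit 2) (nat_lit 78) (nat_lit 88) (nat_lit 14))))) (PT.nd (nat_lit 282) (PT.nd (nat_lit 94) (PT.lf (nat_lit 5880) (nat_lit 6) (nat_lit 70) (nat_lit 2) (nat_lit 79) (nat_lit 88) (nat_lit 13)) (PT.nd (nat_lit 94) (PT.lf (nat_lit 5376) (nat_lit 6) (nat_lit 64) (nat_lit 2) (nat_lit 80) (nat_lit 88) (nat_lit 12)) (PT.lf (nat_lit 4956) (nat_lit 6) (nat_lit 59) (nat_lit 2) (nat_lit 81) (nat_lit 88) (nat_lit 11)))) (PT.nd (nat_lit 94) (PT.lf (nat_lit 4452) (nat_lit 6) (nat_lit 53) (nat_lit 2) (nat_lit 82) (nat_lit 88) (nat_lit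 10)) (PT.nd (nat_lit 94) (PT.lf (nat_lit 4032) (nat_lit 6) (nat_lit 48) (nat_lit 2) (nat_lit 83) (nat_lit 88) (nat_lit 9)) (PT.lf (nat_lit 3612) (nat_lit 6) (nat_lit 43) (nat_lit 2) (nat_lit 84) (nat_lit 88) (nat_lit 8))))))) (PT.nd (nat_lit 38540) (PT.nd (nat_lit 37788) (PT.nd (nat_lit 282) (PT.nd (nat_lit 94) (PT.lf (nat_lit 3192) (nat_lit 6) (nat_lit 38) (nat_lit 2) (nat_lit 85) (nat_lit 88) (nat_lit 7)) (PT.nd (nat_lit 94) (PT.lf (nat_lit 2772) (nat_lit 6) (nat_lit 33) (nat_lit 2) (nat_lit 86) (nat_lit 88) (nat_lit 6)) (PT.lf (nat_lit 2436) (nat_lit 6) (nat_lit 29) (nat_lit 2) (nat_lit 87) (nat_lit 88) (nat_lit 5)))) (PT.nd (nat_lit 37318) (PT.lf (nat_lit 2016) (nat_lit 3) (nat_lit 24) (nat_lit 0) (nat_lit 88) (nat_lit 88) (nat_lit 4)) (PT.nd (nat_lit 94) (PT.lf (nat_lit 1932) (nat_lit 6) (nat_lit 23) (nat_lit 4) (nat_lit 4) (nat_lit 89) (nat_lit 87)) (PT.lf (nat_lit 2352) (nat_lit 6) (nat_lit 28)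 (nat_lit 4) (nat_lit 5) (nat_lit 89) (nat_lit 86))))) (PT.nd (nat_lit 470) (PT.nd (nat_lit 94) (PT.lf (nat_lit 2688) (nat_lit 6) (nat_lit 32) (nat_lit 4) (nat_lit 6) (nat_lit 89) (nat_lit 85)) (PT.nd (nat_lit 282) (PT.lf (nat_lit 3108) (nat_lit 6) (nat_lit 37) (nat_lit 4) (nat_lit 7) (nat_lit 89) (nat_lit 84)) (PT.lf (nat_lit 4368) (nat_lit 6) (nat_lit 52) (nat_lit 4) (nat_lit 10) (nat_lit 89) (nat_lit 81)))) (PT.nd (nat_lit 94) (PT.lf (nat_lit 4872) (nat_lit 6) (nat_lit 58) (nat_lit 4) (nat_lit 11) (nat_lit 89) (nat_lit 80)) (PT.nd (nat_lit 94) (PT.lf (nat_lit 5292) (nat_lit 6) (nat_lit 63) (nat_lit 4) (nat_lit 12) (nat_lit 89) (nat_lit 79)) (PT.lf (nat_lit 5796) (nat_lit 6) (nat_lit 69) (nat_lit 4) (nat_lit 13) (nat_lit 89) (nat_lit 78)))))) (PT.nd (nat_lit 6580) (PT.nd (nat_lit 6110) (PT.nd (nat_lit 5922) (PT.lf (nat_lit 6300) (nat_lit 6) (nat_lit 75) (nat_lit 4) (nat_lit 14) (nat_lit 89) (nat_lit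 77)) (PT.nd (nat_lit 94) (PT.lf (nat_lit 6300) (nat_lit 6) (nat_lit 75) (nat_lit 2) (nat_lit 77) (nat_lit 89) (nat_lit 14)) (PT.lf (nat_lit 5796) (nat_lit 6) (nat_lit 69) (nat_lit 2) (nat_lit 78) (nat_lit 89) (nat_lit 13)))) (PT.nd (nat_lit 94) (PT.lf (nat_lit 5292) (nat_lit 6) (nat_lit 63) (nat_lit 2) (nat_lit 79) (nat_lit 89) (nat_lit 12)) (PT.nd (nat_lit 94) (PT.lf (nat_lit 4872) (nat_lit 6) (nat_lit 58) (nat_lit 2) (nat_lit 80) (nat_lit 89) (nat_lit 11)) (PT.lf (nat_lit 4368) (nat_lit 6) (nat_lit 52) (nat_lit 2) (nat_lit 81) (nat_lit 89) (nat_lit 10))))) (PT.nd (nat_lit 282) (PT.nd (nat_lit 94) (PT.lf (nat_lit 3108) (nat_lit 6) (nat_lit 37) (nat_lit 2) (nat_lit 84) (nat_lit 89) (nat_lit 7)) (PT.nd (nat_lit 94) (PT.lf (nat_lit 2688) (nat_lit 6) (nat_lit 32) (nat_lit 2) (nat_lit 85) (nat_lit 89) (nat_lit 6)) (PT.lf (nat_lit 2352) (nat_lit 6) (nat_lit 28) (nat_lit 2) (nat_lit 86) (nat_lit 89) (nat_lit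 5)))) (PT.nd (nat_lit 37976) (PT.lf (nat_lit 1932) (nat_lit 6) (nat_lit 23) (nat_lit 2) (nat_lit 87) (nat_lit 89) (nat_lit 4)) (PT.nd (nat_lit 6580) (PT.lf (nat_lit 4284) (nat_lit 6) (nat_lit 51) (nat_lit 4) (nat_lit 10) (nat_lit 90) (nat_lit 80)) (PT.lf (nat_lit 4284) (nat_lit 6) (nat_lit 51) (nat_lit 2) (nat_lit 80) (nat_lit 90) (nat_lit 10))))))))
noncomputable def xc0 : XT := (XT.nd (nat_lit 225130) (nat_lit 0) (nat_lit 0) (XT.nd (nat_lit 135360) (nat_lit 0) (nat_lit 0) (XT.nd (nat_lit 90146) (nat_lit 0) (nat_lit 0) (XT.nd (nat_lit 45120) (nat_lit 0) (nat_lit 0) (XT.nd (nat_lit 94) (nat_lit 420) (nat_lit 0) (XT.lf (nat_lit 0) (nat_lit 2623350480) (nat_lit 420) (nat_lit 1048172836) (nat_lit 420) (nat_lit 1048172836) (nat_lit 34) (nat_lit 4) (nat_lit 39) (nat_lit 5) (nat_lit 39) (nat_lit 4) (nat_lit 312) (nat_lit 204) (nat_lit 204)) (XT.nd (nat_lit 44932) (nat_lit 0) (nat_lit 1344) (XT.lf (nat_lit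 0) (nat_lit 2630670289) (nat_lit 420) (nat_lit 5063869719) (nat_lit 0) (nat_lit 1830534321) (nat_lit 29) (nat_lit 5) (nat_lit 34) (nat_lit 4) (nat_lit 29) (nat_lit 4) (nat_lit 313) (nat_lit 204) (nat_lit 203)) (XT.lf (nat_lit 0) (nat_lit 3408781331) (nat_lit 420) (nat_lit 613719903) (nat_lit 420) (nat_lit 613719903) (nat_lit 45) (nat_lit 4) (nat_lit 50) (nat_lit 5) (nat_lit 50) (nat_lit 4) (nat_lit 310) (nat_lit 205) (nat_lit 205)))) (XT.nd (nat_lit 188) (nat_lit 420) (nat_lit 0) (XT.nd (nat_lit 94) (nat_lit 420) (nat_lit 0) (XT.lf (nat_lit 0) (nat_lit 3421295100) (nat_lit 504) (nat_lit 3348512316) (nat_lit 0) (nat_lit 2585565884) (nat_lit 39) (nat_lit 5) (nat_lit 45) (nat_lit 4) (nat_lit 39) (nat_lit 4) (nat_lit 311) (nat_lit 205) (nat_lit 204)) (XT.lf (nat_lit 0) (nat_lit 5184594243) (nat_lit 420) (nat_lit 2954568860) (nat_lit 420) (nat_lit 1301100684) (nat_lit 34) (nat_lit 4) (nat_lit 39) (nat_lit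 5) (nat_lit 39) (nat_lit 4) (nat_lit 312) (nat_lit 205) (nat_lit 203))) (XT.nd (nat_lit 44744) (nat_lit 0) (nat_lit 2268) (XT.lf (nat_lit 0) (nat_lit 3368241828) (nat_lit 420) (nat_lit 5191141191) (nat_lit 0) (nat_lit 967454994) (nat_lit 29) (nat_lit 5) (nat_lit 34) (nat_lit 4) (nat_lit 29) (nat_lit 4) (nat_lit 313) (nat_lit 205) (nat_lit 202)) (XT.lf (nat_lit 0) (nat_lit 4214755845) (nat_lit 504) (nat_lit 170296691) (nat_lit 504) (nat_lit 170296691) (nat_lit 56) (nat_lit 4) (nat_lit 62) (nat_lit 5) (nat_lit 62) (nat_lit 4) (nat_lit 308) (nat_lit 206) (nat_lit 206))))) (XT.nd (nat_lit 376) (nat_lit 420) (nat_lit 0) (XT.nd (nat_lit 188) (nat_lit 924) (nat_lit 0) (XT.nd (nat_lit 94) (nat_lit 420) (nat_lit 0) (XT.lf (nat_lit 0) (nat_lit 4232589825) (nat_lit 504) (nat_lit 1598623522) (nat_lit 0) (nat_lit 3359684030) (nat_lit 50) (nat_lit 5) (nat_lit 56) (nat_lit 4) (nat_lit 50) (nat_lit 4) (nat_lit 309)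 (nat_lit 206) (nat_lit 205)) (XT.lf (nat_lit 0) (nat_lit 6757191588) (nat_lit 420) (nat_lit 2121566521) (nat_lit 420) (nat_lit 394545467) (nat_lit 45) (nat_lit 4) (nat_lit 50) (nat_lit 5) (nat_lit 50) (nat_lit 4) (nat_lit 310) (nat_lit 206) (nat_lit 204))) (XT.nd (nat_lit 94) (nat_lit 420) (nat_lit 0) (XT.lf (nat_lit 0) (nat_lit 4196207919) (nat_lit 504) (nat_lit 3472283351) (nat_lit 0) (nat_lit 1688624483) (nat_lit 39) (nat_lit 5) (nat_lit 45) (nat_lit 4) (nat_lit 39) (nat_lit 4) (nat_lit 311) (nat_lit 206) (nat_lit 203)) (XT.lf (nat_lit 0) (nat_lit 4998244676) (nat_lit 420) (nat_lit 3876176684) (nat_lit 420) (nat_lit 568457281) (nat_lit 34) (nat_lit 4) (nat_lit 39) (nat_lit 5) (nat_lit 39) (nat_lit 4) (nat_lit 312) (nat_lit 206) (nat_lit 202)))) (XT.nd (nat_lit 44650) (nat_lit 0) (nat_lit 2184) (XT.nd (nat_lit 44556) (nat_lit 0) (nat_lit 2772) (XT.lf (nat_lit 0) (nat_lit 4043598237) (nat_lit 420) (nat_lit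 5445744408) (nat_lit 0) (nat_lit 41023570) (nat_lit 29) (nat_lit 5) (nat_lit 34) (nat_lit 4) (nat_lit 29) (nat_lit 4) (nat_lit 313) (nat_lit 206) (nat_lit 201)) (XT.lf (nat_lit 0) (nat_lit 284776935) (nat_lit 504) (nat_lit 3907327213) (nat_lit 0) (nat_lit 284776935) (nat_lit 62) (nat_lit 5) (nat_lit 68) (nat_lit 4) (nat_lit 62) (nat_lit 4) (nat_lit 306) (nat_lit 207) (nat_lit 207))) (XT.nd (nat_lit 94) (nat_lit 84) (nat_lit 0) (XT.lf (nat_lit 0) (nat_lit 190982772) (nat_lit 504) (nat_lit 4876163725) (nat_lit 504) (nat_lit 3964427589) (nat_lit 56) (nat_lit 4) (nat_lit 62) (nat_lit 5) (nat_lit 62) (nat_lit 4) (nat_lit 307) (nat_lit 207) (nat_lit 206)) (XT.lf (nat_lit 0) (nat_lit 523919766) (nat_lit 588) (nat_lit 744480091) (nat_lit 84) (nat_lit 7843067022) (nat_lit 55) (nat_lit 5) (nat_lit 62) (nat_lit 5) (nat_lit 56) (nat_lit 4) (nat_lit 308) (nat_lit 207) (nat_lit 205)))))) (XT.nd (nat_lit 44932) (nat_lit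 0) (nat_lit 0) (XT.nd (nat_lit 282) (nat_lit 840) (nat_lit 0) (XT.nd (nat_lit 94) (nat_lit 924) (nat_lit 0) (XT.lf (nat_lit 0) (nat_lit 5046407474) (nat_lit 504) (nat_lit 1718935633) (nat_lit 0) (nat_lit 2427276697) (nat_lit 50) (nat_lit 5) (nat_lit 56) (nat_lit 4) (nat_lit 50) (nat_lit 4) (nat_lit 309) (nat_lit 207) (nat_lit 204)) (XT.nd (nat_lit 94) (nat_lit 420) (nat_lit 0) (XT.lf (nat_lit 0) (nat_lit 372073578) (nat_lit 504) (nat_lit 2702527218) (nat_lit 84) (nat_lit 6201227939) (nat_lit 44) (nat_lit 5) (nat_lit 50) (nat_lit 5) (nat_lit 45) (nat_lit 4) (nat_lit 310) (nat_lit 207) (nat_lit 203)) (XT.lf (nat_lit 0) (nat_lit 4910671324) (nat_lit 504) (nat_lit 3719884038) (nat_lit 0) (nat_lit 730046125) (nat_lit 39) (nat_lit 5) (nat_lit 45) (nat_lit 4) (nat_lit 39) (nat_lit 4) (nat_lit 311) (nat_lit 207) (nat_lit 202)))) (XT.nd (nat_lit 44462) (nat_lit 0) (nat_lit 3276) (XT.nd (nat_lit 94) (nat_lit 336)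 (nat_lit 0) (XT.lf (nat_lit 0) (nat_lit 100463364) (nat_lit 504) (nat_lit 4760400181) (nat_lit 84) (nat_lit 4586358588) (nat_lit 33) (nat_lit 5) (nat_lit 39) (nat_lit 5) (nat_lit 34) (nat_lit 4) (nat_lit 312) (nat_lit 207) (nat_lit 201)) (XT.lf (nat_lit 0) (nat_lit 3700849563) (nat_lit 336) (nat_lit 963069964) (nat_lit 420) (nat_lit 4871590155) (nat_lit 29) (nat_lit 5) (nat_lit 33) (nat_lit 5) (nat_lit 34) (nat_lit 4) (nat_lit 313) (nat_lit 207) (nat_lit 200))) (XT.nd (nat_lit 94) (nat_lit 504) (nat_lit 0) (XT.lf (nat_lit 0) (nat_lit 751401904) (nat_lit 588) (nat_lit 2898059510) (nat_lit 0) (nat_lit 751401904) (nat_lit 74) (nat_lit 5) (nat_lit 81) (nat_lit 4) (nat_lit 74) (nat_lit 4) (nat_lit 304) (nat_lit 208) (nat_lit 208)) (XT.lf (nat_lit 0) (nat_lit 2044018996) (nat_lit 504) (nat_lit 3892704592) (nat_lit 504) (nat_lit 2940410785) (nat_lit 68) (nat_lit 4) (nat_lit 74) (nat_lit 5) (nat_lit 74) (nat_lit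 4) (nat_lit 305) (nat_lit 208) (nat_lit 207))))) (XT.nd (nat_lit 376) (nat_lit 1764) (nat_lit 0) (XT.nd (nat_lit 188) (nat_lit 504) (nat_lit 0) (XT.nd (nat_lit 94) (nat_lit 504) (nat_lit 0) (XT.lf (nat_lit 0) (nat_lit 1078070180) (nat_lit 420) (nat_lit 386894368) (nat_lit 504) (nat_lit 7489598059) (nat_lit 62) (nat_lit 5) (nat_lit 67) (nat_lit 5) (nat_lit 68) (nat_lit 4) (nat_lit 306) (nat_lit 208) (nat_lit 206)) (XT.lf (nat_lit 0) (nat_lit 72382249) (nat_lit 504) (nat_lit 5848277110) (nat_lit 504) (nat_lit 3112636919) (nat_lit 56) (nat_lit 4) (nat_lit 62) (nat_lit 5) (nat_lit 62) (nat_lit 4) (nat_lit 307) (nat_lit 208) (nat_lit 205))) (XT.nd (nat_lit 94) (nat_lit 420) (nat_lit 0) (XT.lf (nat_lit 0) (nat_lit 1325284685) (nat_lit 588) (nat_lit 928820351) (nat_lit 84) (nat_lit 6859790010) (nat_lit 55) (nat_lit 5) (nat_lit 62) (nat_lit 5) (nat_lit 56) (nat_lit 4) (nat_lit 308) (nat_lit 208) (nat_lit 204))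 (XT.lf (nat_lit 0) (nat_lit 5801522385) (nat_lit 504) (nat_lit 1959616831) (nat_lit 0) (nat_lit 1434926255) (nat_lit 50) (nat_lit 5) (nat_lit 56) (nat_lit 4) (nat_lit 50) (nat_lit 4) (nat_lit 309) (nat_lit 208) (nat_lit 203)))) (XT.nd (nat_lit 188) (nat_lit 840) (nat_lit 0) (XT.nd (nat_lit 94) (nat_lit 420) (nat_lit 0) (XT.lf (nat_lit 0) (nat_lit 1073408604) (nat_lit 504) (nat_lit 3013902892) (nat_lit 84) (nat_lit 5192714283) (nat_lit 44) (nat_lit 5) (nat_lit 50) (nat_lit 5) (nat_lit 45) (nat_lit 4) (nat_lit 310) (nat_lit 208) (nat_lit 202)) (XT.lf (nat_lit 0) (nat_lit 5272253875) (nat_lit 420) (nat_lit 294870226) (nat_lit 504) (nat_lit 3798661838) (nat_lit 39) (nat_lit 5) (nat_lit 44) (nat_lit 5) (nat_lit 45) (nat_lit 4) (nat_lit 311) (nat_lit 208) (nat_lit 201))) (XT.nd (nat_lit 94) (nat_lit 336) (nat_lit 0) (XT.lf (nat_lit 0) (nat_lit 700151372) (nat_lit 504) (nat_lit 5205999368) (nat_lit 84) (nat_lit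 3547082185) (nat_lit 33) (nat_lit 5) (nat_lit 39) (nat_lit 5) (nat_lit 34) (nat_lit 4) (nat_lit 312) (nat_lit 208) (nat_lit 200)) (XT.lf (nat_lit 0) (nat_lit 3190435102) (nat_lit 336) (nat_lit 2032961863) (nat_lit 420) (nat_lit 4319008141) (nat_lit 29) (nat_lit 5) (nat_lit 33) (nat_lit 5) (nat_lit 34) (nat_lit 4) (nat_lit 313) (nat_lit 208) (nat_lit 199))))))) (XT.nd (nat_lit 45308) (nat_lit 0) (nat_lit 0) (XT.nd (nat_lit 658) (nat_lit 2184) (nat_lit 0) (XT.nd (nat_lit 282) (nat_lit 1596) (nat_lit 0) (XT.nd (nat_lit 94) (nat_lit 1092) (nat_lit 0) (XT.lf (nat_lit 0) (nat_lit 1229012151) (nat_lit 588) (nat_lit 1869363046) (nat_lit 0) (nat_lit 1229012151) (nat_lit 87) (nat_lit 5) (nat_lit 94) (nat_lit 4) (nat_lit 87) (nat_lit 4) (nat_lit 302) (nat_lit 209) (nat_lit 209)) (XT.nd (nat_lit 94) (nat_lit 588) (nat_lit 0) (XT.lf (nat_lit 0) (nat_lit 3939779331) (nat_lit 504) (nat_lit 2891336938) (nat_lit 504)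 (nat_lit 1896681293) (nat_lit 81) (nat_lit 4) (nat_lit 87) (nat_lit 5) (nat_lit 87) (nat_lit 4) (nat_lit 303) (nat_lit 209) (nat_lit 208)) (XT.lf (nat_lit 0) (nat_lit 2437312885) (nat_lit 588) (nat_lit 5853491121) (nat_lit 0) (nat_lit 511774807) (nat_lit 74) (nat_lit 5) (nat_lit 81) (nat_lit 4) (nat_lit 74) (nat_lit 4) (nat_lit 304) (nat_lit 209) (nat_lit 207)))) (XT.nd (nat_lit 188) (nat_lit 588) (nat_lit 0) (XT.nd (nat_lit 94) (nat_lit 504) (nat_lit 0) (XT.lf (nat_lit 0) (nat_lit 1928851028) (nat_lit 504) (nat_lit 4903659903) (nat_lit 504) (nat_lit 2046327494) (nat_lit 68) (nat_lit 4) (nat_lit 74) (nat_lit 5) (nat_lit 74) (nat_lit 4) (nat_lit 305) (nat_lit 209) (nat_lit 206)) (XT.lf (nat_lit 0) (nat_lit 895922786) (nat_lit 420) (nat_lit 1411194588) (nat_lit 504) (nat_lit 6649868335) (nat_lit 62) (nat_lit 5) (nat_lit 67) (nat_lit 5) (nat_lit 68) (nat_lit 4) (nat_lit 306) (nat_lit 209) (nat_lit 205)))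 (XT.nd (nat_lit 94) (nat_lit 588) (nat_lit 0) (XT.lf (nat_lit 0) (nat_lit 6717527598) (nat_lit 504) (nat_lit 162500237) (nat_lit 0) (nat_lit 2156687806) (nat_lit 62) (nat_lit 5) (nat_lit 68) (nat_lit 4) (nat_lit 62) (nat_lit 4) (nat_lit 307) (nat_lit 209) (nat_lit 204)) (XT.lf (nat_lit 0) (nat_lit 2068786514) (nat_lit 588) (nat_lit 1231868719) (nat_lit 84) (nat_lit 5817382248) (nat_lit 55) (nat_lit 5) (nat_lit 62) (nat_lit 5) (nat_lit 56) (nat_lit 4) (nat_lit 308) (nat_lit 209) (nat_lit 203))))) (XT.nd (nat_lit 376) (nat_lit 336) (nat_lit 0) (XT.nd (nat_lit 188) (nat_lit 924) (nat_lit 0) (XT.nd (nat_lit 94) (nat_lit 504) (nat_lit 0) (XT.lf (nat_lit 0) (nat_lit 6498292166) (nat_lit 504) (nat_lit 2320781098) (nat_lit 0) (nat_lit 382162745) (nat_lit 50) (nat_lit 5) (nat_lit 56) (nat_lit 4) (nat_lit 50) (nat_lit 4) (nat_lit 309) (nat_lit 209) (nat_lit 202)) (XT.lf (nat_lit 0) (nat_lit 1715474460) (nat_lit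 504) (nat_lit 3447576030) (nat_lit 84) (nat_lit 4122908034) (nat_lit 44) (nat_lit 5) (nat_lit 50) (nat_lit 5) (nat_lit 45) (nat_lit 4) (nat_lit 310) (nat_lit 209) (nat_lit 201))) (XT.nd (nat_lit 94) (nat_lit 504) (nat_lit 0) (XT.lf (nat_lit 0) (nat_lit 4775560281) (nat_lit 420) (nat_lit 1393943960) (nat_lit 504) (nat_lit 3203087530) (nat_lit 39) (nat_lit 5) (nat_lit 44) (nat_lit 5) (nat_lit 45) (nat_lit 4) (nat_lit 311) (nat_lit 209) (nat_lit 200)) (XT.lf (nat_lit 0) (nat_lit 1239078337) (nat_lit 504) (nat_lit 5777593299) (nat_lit 84) (nat_lit 2444331309) (nat_lit 33) (nat_lit 5) (nat_lit 39) (nat_lit 5) (nat_lit 34) (nat_lit 4) (nat_lit 312) (nat_lit 209) (nat_lit 199)))) (XT.nd (nat_lit 44086) (nat_lit 0) (nat_lit 4872) (XT.nd (nat_lit 43992) (nat_lit 0) (nat_lit 6048) (XT.lf (nat_lit 0) (nat_lit 2553439717) (nat_lit 336) (nat_lit 3168559302) (nat_lit 420) (nat_lit 3829063256) (nat_lit 29) (nat_lit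 5) (nat_lit 33) (nat_lit 5) (nat_lit 34) (nat_lit 4) (nat_lit 313) (nat_lit 209) (nat_lit 198)) (XT.lf (nat_lit 0) (nat_lit 1718306702) (nat_lit 588) (nat_lit 819825326) (nat_lit 0) (nat_lit 1718306702) (nat_lit 101) (nat_lit 5) (nat_lit 108) (nat_lit 4) (nat_lit 101) (nat_lit 4) (nat_lit 300) (nat_lit 210) (nat_lit 210))) (XT.nd (nat_lit 94) (nat_lit 588) (nat_lit 0) (XT.lf (nat_lit 0) (nat_lit 5881019052) (nat_lit 588) (nat_lit 1870707886) (nat_lit 588) (nat_lit 831805979) (nat_lit 94) (nat_lit 4) (nat_lit 101) (nat_lit 5) (nat_lit 101) (nat_lit 4) (nat_lit 301) (nat_lit 210) (nat_lit 209)) (XT.lf (nat_lit 0) (nat_lit 3436203379) (nat_lit 588) (nat_lit 3794405548) (nat_lit 0) (nat_lit 1425009666) (nat_lit 87) (nat_lit 5) (nat_lit 94) (nat_lit 4) (nat_lit 87) (nat_lit 4) (nat_lit 302) (nat_lit 210) (nat_lit 208)))))) (XT.nd (nat_lit 658) (nat_lit 1764) (nat_lit 0) (XT.nd (nat_lit 282) (nat_lit 1512)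 (nat_lit 0) (XT.nd (nat_lit 94) (nat_lit 1092) (nat_lit 0) (XT.lf (nat_lit 0) (nat_lit 3828009152) (nat_lit 504) (nat_lit 3942956770) (nat_lit 504) (nat_lit 958518786) (nat_lit 81) (nat_lit 4) (nat_lit 87) (nat_lit 5) (nat_lit 87) (nat_lit 4) (nat_lit 303) (nat_lit 210) (nat_lit 207)) (XT.nd (nat_lit 94) (nat_lit 504) (nat_lit 0) (XT.lf (nat_lit 0) (nat_lit 2775540278) (nat_lit 504) (nat_lit 544079933) (nat_lit 588) (nat_lit 5485430264) (nat_lit 74) (nat_lit 5) (nat_lit 80) (nat_lit 5) (nat_lit 81) (nat_lit 4) (nat_lit 304) (nat_lit 210) (nat_lit 206)) (XT.lf (nat_lit 0) (nat_lit 1698460551) (nat_lit 504) (nat_lit 5973755487) (nat_lit 504) (nat_lit 1210031298) (nat_lit 68) (nat_lit 4) (nat_lit 74) (nat_lit 5) (nat_lit 74) (nat_lit 4) (nat_lit 305) (nat_lit 210) (nat_lit 205)))) (XT.nd (nat_lit 188) (nat_lit 1008) (nat_lit 0) (XT.nd (nat_lit 94) (nat_lit 0) (nat_lit 0) (XT.lf (nat_lit 0) (nat_lit 596786211)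 (nat_lit 420) (nat_lit 2495508607) (nat_lit 504) (nat_lit 5868828361) (nat_lit 62) (nat_lit 5) (nat_lit 67) (nat_lit 5) (nat_lit 68) (nat_lit 4) (nat_lit 306) (nat_lit 210) (nat_lit 204)) (XT.lf (nat_lit 0) (nat_lit 7458315211) (nat_lit 504) (nat_lit 513398587) (nat_lit 0) (nat_lit 1070115889) (nat_lit 62) (nat_lit 5) (nat_lit 68) (nat_lit 4) (nat_lit 62) (nat_lit 4) (nat_lit 307) (nat_lit 210) (nat_lit 203))) (XT.nd (nat_lit 94) (nat_lit 420) (nat_lit 0) (XT.lf (nat_lit 0) (nat_lit 2754777361) (nat_lit 588) (nat_lit 1653768713) (nat_lit 84) (nat_lit 4715350071) (nat_lit 55) (nat_lit 5) (nat_lit 62) (nat_lit 5) (nat_lit 56) (nat_lit 4) (nat_lit 308) (nat_lit 210) (nat_lit 202)) (XT.lf (nat_lit 0) (nat_lit 6400131201) (nat_lit 420) (nat_lit 742202477) (nat_lit 504) (nat_lit 2065683882) (nat_lit 50) (nat_lit 5) (nat_lit 55) (nat_lit 5) (nat_lit 56) (nat_lit 4) (nat_lit 309) (nat_lit 210) (nat_lit 201)))))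 (XT.nd (nat_lit 44086) (nat_lit 0) (nat_lit 5376) (XT.nd (nat_lit 188) (nat_lit 840) (nat_lit 0) (XT.nd (nat_lit 94) (nat_lit 420) (nat_lit 0) (XT.lf (nat_lit 0) (nat_lit 2298575216) (nat_lit 504) (nat_lit 4003752014) (nat_lit 84) (nat_lit 2991302553) (nat_lit 44) (nat_lit 5) (nat_lit 50) (nat_lit 5) (nat_lit 45) (nat_lit 4) (nat_lit 310) (nat_lit 210) (nat_lit 200)) (XT.lf (nat_lit 0) (nat_lit 4155793807) (nat_lit 420) (nat_lit 2557026927) (nat_lit 504) (nat_lit 2668317549) (nat_lit 39) (nat_lit 5) (nat_lit 44) (nat_lit 5) (nat_lit 45) (nat_lit 4) (nat_lit 311) (nat_lit 210) (nat_lit 199))) (XT.nd (nat_lit 94) (nat_lit 336) (nat_lit 0) (XT.lf (nat_lit 0) (nat_lit 1717499485) (nat_lit 504) (nat_lit 6475452671) (nat_lit 84) (nat_lit 1277583720) (nat_lit 33) (nat_lit 5) (nat_lit 39) (nat_lit 5) (nat_lit 34) (nat_lit 4) (nat_lit 312) (nat_lit 210) (nat_lit 198)) (XT.lf (nat_lit 0) (nat_lit 1789561737) (nat_lit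 336) (nat_lit 4370400078) (nat_lit 420) (nat_lit 3401523473) (nat_lit 29) (nat_lit 5) (nat_lit 33) (nat_lit 5) (nat_lit 34) (nat_lit 4) (nat_lit 313) (nat_lit 210) (nat_lit 197)))) (XT.nd (nat_lit 188) (nat_lit 1176) (nat_lit 0) (XT.nd (nat_lit 94) (nat_lit 84) (nat_lit 0) (XT.lf (nat_lit 0) (nat_lit 255700069) (nat_lit 588) (nat_lit 1966132494) (nat_lit 588) (nat_lit 1966132494) (nat_lit 108) (nat_lit 4) (nat_lit 115) (nat_lit 5) (nat_lit 115) (nat_lit 4) (nat_lit 298) (nat_lit 211) (nat_lit 211)) (XT.lf (nat_lit 0) (nat_lit 252017174) (nat_lit 672) (nat_lit 575537692) (nat_lit 84) (nat_lit 7616718944) (nat_lit 107) (nat_lit 5) (nat_lit 115) (nat_lit 5) (nat_lit 108) (nat_lit 4) (nat_lit 299) (nat_lit 211) (nat_lit 210))) (XT.nd (nat_lit 94) (nat_lit 672) (nat_lit 0) (XT.lf (nat_lit 0) (nat_lit 4460359909) (nat_lit 588) (nat_lit 1693653545) (nat_lit 0) (nat_lit 2359700254) (nat_lit 101) (nat_lit 5)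 (nat_lit 108) (nat_lit 4) (nat_lit 101) (nat_lit 4) (nat_lit 300) (nat_lit 211) (nat_lit 209)) (XT.lf (nat_lit 0) (nat_lit 150110192) (nat_lit 672) (nat_lit 2813674912) (nat_lit 84) (nat_lit 5621395426) (nat_lit 93) (nat_lit 5) (nat_lit 101) (nat_lit 5) (nat_lit 94) (nat_lit 4) (nat_lit 301) (nat_lit 211) (nat_lit 208))))))))
noncomputable def xc1 : XT := (XT.nd (nat_lit 89676) (nat_lit 0) (nat_lit 336) (XT.nd (nat_lit 44932) (nat_lit 0) (nat_lit 336) (XT.nd (nat_lit 658) (nat_lit 2184) (nat_lit 0) (XT.nd (nat_lit 282) (nat_lit 1596) (nat_lit 0) (XT.nd (nat_lit 94) (nat_lit 1092) (nat_lit 0) (XT.lf (nat_lit 0) (nat_lit 4360010145) (nat_lit 588) (nat_lit 3961470286) (nat_lit 0) (nat_lit 336670256) (nat_lit 87) (nat_lit 5) (nat_lit 94) (nat_lit 4) (nat_lit 87) (nat_lit 4) (nat_lit 302) (nat_lit 211) (nat_lit 207)) (XT.nd (nat_lit 94) (nat_lit 588) (nat_lit 0) (XT.lf (nat_lit 0) (nat_lit 3604415860) (nat_lit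 504) (nat_lit 5052038816) (nat_lit 504) (nat_lit 76405120) (nat_lit 81) (nat_lit 4) (nat_lit 87) (nat_lit 5) (nat_lit 87) (nat_lit 4) (nat_lit 303) (nat_lit 211) (nat_lit 206)) (XT.lf (nat_lit 0) (nat_lit 2484641187) (nat_lit 504) (nat_lit 1665739235) (nat_lit 588) (nat_lit 4658757166) (nat_lit 74) (nat_lit 5) (nat_lit 80) (nat_lit 5) (nat_lit 81) (nat_lit 4) (nat_lit 304) (nat_lit 211) (nat_lit 205)))) (XT.nd (nat_lit 188) (nat_lit 588) (nat_lit 0) (XT.nd (nat_lit 94) (nat_lit 504) (nat_lit 0) (XT.lf (nat_lit 0) (nat_lit 1352738457) (nat_lit 504) (nat_lit 7103498123) (nat_lit 504) (nat_lit 431126142) (nat_lit 68) (nat_lit 4) (nat_lit 74) (nat_lit 5) (nat_lit 74) (nat_lit 4) (nat_lit 305) (nat_lit 211) (nat_lit 204)) (XT.lf (nat_lit 0) (nat_lit 180518791) (nat_lit 420) (nat_lit 3640349936) (nat_lit 504) (nat_lit 5146108251) (nat_lit 62) (nat_lit 5) (nat_lit 67) (nat_lit 5) (nat_lit 68) (nat_lit 4) (nat_lit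 306) (nat_lit 211) (nat_lit 203))) (XT.nd (nat_lit 94) (nat_lit 588) (nat_lit 0) (XT.lf (nat_lit 0) (nat_lit 8066571326) (nat_lit 420) (nat_lit 76833402) (nat_lit 504) (nat_lit 905235414) (nat_lit 62) (nat_lit 5) (nat_lit 67) (nat_lit 5) (nat_lit 68) (nat_lit 4) (nat_lit 307) (nat_lit 211) (nat_lit 202)) (XT.lf (nat_lit 0) (nat_lit 3383582099) (nat_lit 588) (nat_lit 2194720138) (nat_lit 84) (nat_lit 3553171579) (nat_lit 55) (nat_lit 5) (nat_lit 62) (nat_lit 5) (nat_lit 56) (nat_lit 4) (nat_lit 308) (nat_lit 211) (nat_lit 201))))) (XT.nd (nat_lit 376) (nat_lit 336) (nat_lit 0) (XT.nd (nat_lit 188) (nat_lit 924) (nat_lit 0) (XT.nd (nat_lit 94) (nat_lit 504) (nat_lit 0) (XT.lf (nat_lit 0) (nat_lit 5797379197) (nat_lit 420) (nat_lit 1934489402) (nat_lit 504) (nat_lit 1484590567) (nat_lit 50) (nat_lit 5) (nat_lit 55) (nat_lit 5) (nat_lit 56) (nat_lit 4) (nat_lit 309) (nat_lit 211) (nat_lit 200)) (XT.lf (nat_lit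 0) (nat_lit 2822987019) (nat_lit 504) (nat_lit 4682694236) (nat_lit 84) (nat_lit 1797361932) (nat_lit 44) (nat_lit 5) (nat_lit 50) (nat_lit 5) (nat_lit 45) (nat_lit 4) (nat_lit 310) (nat_lit 211) (nat_lit 199))) (XT.nd (nat_lit 94) (nat_lit 504) (nat_lit 0) (XT.lf (nat_lit 0) (nat_lit 3412660942) (nat_lit 420) (nat_lit 3784669942) (nat_lit 504) (nat_lit 2194098639) (nat_lit 39) (nat_lit 5) (nat_lit 44) (nat_lit 5) (nat_lit 45) (nat_lit 4) (nat_lit 311) (nat_lit 211) (nat_lit 198)) (XT.lf (nat_lit 0) (nat_lit 2135641387) (nat_lit 504) (nat_lit 7299907975) (nat_lit 84) (nat_lit 46286867) (nat_lit 33) (nat_lit 5) (nat_lit 39) (nat_lit 5) (nat_lit 34) (nat_lit 4) (nat_lit 312) (nat_lit 211) (nat_lit 197)))) (XT.nd (nat_lit 43710) (nat_lit 0) (nat_lit 6636) (XT.nd (nat_lit 43616) (nat_lit 0) (nat_lit 7896) (XT.lf (nat_lit 0) (nat_lit 898439406) (nat_lit 336) (nat_lit 5639053361) (nat_lit 420) (nat_lit 3036186315)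 (nat_lit 29) (nat_lit 5) (nat_lit 33) (nat_lit 5) (nat_lit 34) (nat_lit 4) (nat_lit 313) (nat_lit 211) (nat_lit 196)) (XT.lf (nat_lit 0) (nat_lit 1367376104) (nat_lit 588) (nat_lit 1377242977) (nat_lit 588) (nat_lit 1377242977) (nat_lit 123) (nat_lit 4) (nat_lit 130) (nat_lit 5) (nat_lit 130) (nat_lit 4) (nat_lit 296) (nat_lit 212) (nat_lit 212))) (XT.nd (nat_lit 94) (nat_lit 588) (nat_lit 0) (XT.lf (nat_lit 0) (nat_lit 1361006154) (nat_lit 672) (nat_lit 6696587388) (nat_lit 0) (nat_lit 252017174) (nat_lit 115) (nat_lit 5) (nat_lit 123) (nat_lit 4) (nat_lit 115) (nat_lit 4) (nat_lit 297) (nat_lit 212) (nat_lit 211)) (XT.lf (nat_lit 0) (nat_lit 458294084) (nat_lit 588) (nat_lit 5056289490) (nat_lit 588) (nat_lit 2862184092) (nat_lit 108) (nat_lit 4) (nat_lit 115) (nat_lit 5) (nat_lit 115) (nat_lit 4) (nat_lit 298) (nat_lit 212) (nat_lit 210)))))) (XT.nd (nat_lit 658) (nat_lit 2856) (nat_lit 0) (XT.nd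 (nat_lit 282) (nat_lit 2184) (nat_lit 0) (XT.nd (nat_lit 94) (nat_lit 1176) (nat_lit 0) (XT.lf (nat_lit 0) (nat_lit 1269163305) (nat_lit 672) (nat_lit 689614942) (nat_lit 84) (nat_lit 6486990908) (nat_lit 107) (nat_lit 5) (nat_lit 115) (nat_lit 5) (nat_lit 108) (nat_lit 4) (nat_lit 299) (nat_lit 212) (nat_lit 209)) (XT.nd (nat_lit 94) (nat_lit 672) (nat_lit 0) (XT.lf (nat_lit 0) (nat_lit 5431424595) (nat_lit 588) (nat_lit 1855687798) (nat_lit 0) (nat_lit 1229110453) (nat_lit 101) (nat_lit 5) (nat_lit 108) (nat_lit 4) (nat_lit 101) (nat_lit 4) (nat_lit 300) (nat_lit 212) (nat_lit 208)) (XT.lf (nat_lit 0) (nat_lit 1066502162) (nat_lit 672) (nat_lit 3040502413) (nat_lit 84) (nat_lit 4481374003) (nat_lit 93) (nat_lit 5) (nat_lit 101) (nat_lit 5) (nat_lit 94) (nat_lit 4) (nat_lit 301) (nat_lit 212) (nat_lit 207)))) (XT.nd (nat_lit 188) (nat_lit 1092) (nat_lit 0) (XT.nd (nat_lit 94) (nat_lit 588) (nat_lit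 0) (XT.lf (nat_lit 0) (nat_lit 4416408218) (nat_lit 504) (nat_lit 819310018) (nat_lit 588) (nat_lit 3426525543) (nat_lit 87) (nat_lit 5) (nat_lit 93) (nat_lit 5) (nat_lit 94) (nat_lit 4) (nat_lit 302) (nat_lit 212) (nat_lit 206)) (XT.lf (nat_lit 0) (nat_lit 739273954) (nat_lit 588) (nat_lit 5474373840) (nat_lit 84) (nat_lit 2524159089) (nat_lit 80) (nat_lit 5) (nat_lit 87) (nat_lit 5) (nat_lit 81) (nat_lit 4) (nat_lit 303) (nat_lit 212) (nat_lit 205))) (XT.nd (nat_lit 94) (nat_lit 588) (nat_lit 0) (XT.lf (nat_lit 0) (nat_lit 2080032795) (nat_lit 504) (nat_lit 2846255388) (nat_lit 588) (nat_lit 3888635277) (nat_lit 74) (nat_lit 5) (nat_lit 80) (nat_lit 5) (nat_lit 81) (nat_lit 4) (nat_lit 304) (nat_lit 212) (nat_lit 204)) (XT.lf (nat_lit 0) (nat_lit 286569023) (nat_lit 588) (nat_lit 8004737117) (nat_lit 84) (nat_lit 602835300) (nat_lit 67) (nat_lit 5) (nat_lit 74) (nat_lit 5) (nat_lit 68) (nat_lit 4)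 (nat_lit 305) (nat_lit 212) (nat_lit 203))))) (XT.nd (nat_lit 376) (nat_lit 1428) (nat_lit 0) (XT.nd (nat_lit 188) (nat_lit 1008) (nat_lit 0) (XT.nd (nat_lit 94) (nat_lit 420) (nat_lit 0) (XT.lf (nat_lit 0) (nat_lit 4495699187) (nat_lit 588) (nat_lit 347991183) (nat_lit 84) (nat_lit 4130804174) (nat_lit 67) (nat_lit 5) (nat_lit 74) (nat_lit 5) (nat_lit 68) (nat_lit 4) (nat_lit 306) (nat_lit 212) (nat_lit 202)) (XT.lf (nat_lit 0) (nat_lit 7480630927) (nat_lit 420) (nat_lit 1300108481) (nat_lit 504) (nat_lit 276243208) (nat_lit 62) (nat_lit 5) (nat_lit 67) (nat_lit 5) (nat_lit 68) (nat_lit 4) (nat_lit 307) (nat_lit 212) (nat_lit 201))) (XT.nd (nat_lit 94) (nat_lit 420) (nat_lit 0) (XT.lf (nat_lit 0) (nat_lit 3955498517) (nat_lit 588) (nat_lit 2854979177) (nat_lit 84) (nat_lit 2330296385) (nat_lit 55) (nat_lit 5) (nat_lit 62) (nat_lit 5) (nat_lit 56) (nat_lit 4) (nat_lit 308) (nat_lit 212) (nat_lit 200))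 (XT.lf (nat_lit 0) (nat_lit 5074736229) (nat_lit 420) (nat_lit 3189677872) (nat_lit 504) (nat_lit 962211487) (nat_lit 50) (nat_lit 5) (nat_lit 55) (nat_lit 5) (nat_lit 56) (nat_lit 4) (nat_lit 309) (nat_lit 212) (nat_lit 199)))) (XT.nd (nat_lit 188) (nat_lit 504) (nat_lit 0) (XT.nd (nat_lit 94) (nat_lit 420) (nat_lit 0) (XT.lf (nat_lit 0) (nat_lit 3288958219) (nat_lit 504) (nat_lit 5484724233) (nat_lit 84) (nat_lit 540520743) (nat_lit 44) (nat_lit 5) (nat_lit 50) (nat_lit 5) (nat_lit 45) (nat_lit 4) (nat_lit 310) (nat_lit 212) (nat_lit 198)) (XT.lf (nat_lit 0) (nat_lit 2545809753) (nat_lit 420) (nat_lit 5077454393) (nat_lit 504) (nat_lit 1780206219) (nat_lit 39) (nat_lit 5) (nat_lit 44) (nat_lit 5) (nat_lit 45) (nat_lit 4) (nat_lit 311) (nat_lit 212) (nat_lit 197))) (XT.nd (nat_lit 94) (nat_lit 0) (nat_lit 0) (XT.lf (nat_lit 0) (nat_lit 1234325730) (nat_lit 420) (nat_lit 1268411532) (nat_lit 504) (nat_lit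 6991973322) (nat_lit 33) (nat_lit 5) (nat_lit 38) (nat_lit 5) (nat_lit 39) (nat_lit 5) (nat_lit 312) (nat_lit 212) (nat_lit 196)) (XT.lf (nat_lit 0) (nat_lit 6855627942) (nat_lit 504) (nat_lit 118615883) (nat_lit 84) (nat_lit 2613386747) (nat_lit 33) (nat_lit 5) (nat_lit 39) (nat_lit 5) (nat_lit 34) (nat_lit 4) (nat_lit 313) (nat_lit 212) (nat_lit 195))))))) (XT.nd (nat_lit 1410) (nat_lit 1848) (nat_lit 0) (XT.nd (nat_lit 658) (nat_lit 3864) (nat_lit 0) (XT.nd (nat_lit 282) (nat_lit 1848) (nat_lit 0) (XT.nd (nat_lit 94) (nat_lit 1260) (nat_lit 0) (XT.lf (nat_lit 0) (nat_lit 2504818387) (nat_lit 672) (nat_lit 776716713) (nat_lit 672) (nat_lit 776716713) (nat_lit 138) (nat_lit 4) (nat_lit 146) (nat_lit 5) (nat_lit 146) (nat_lit 4) (nat_lit 294) (nat_lit 213) (nat_lit 213)) (XT.nd (nat_lit 94) (nat_lit 588) (nat_lit 0) (XT.lf (nat_lit 0) (nat_lit 2506002782) (nat_lit 672) (nat_lit 4326031098) (nat_lit 0)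 (nat_lit 1347681536) (nat_lit 130) (nat_lit 5) (nat_lit 138) (nat_lit 4) (nat_lit 130) (nat_lit 4) (nat_lit 295) (nat_lit 213) (nat_lit 212)) (XT.lf (nat_lit 0) (nat_lit 2683318415) (nat_lit 588) (nat_lit 3926472300) (nat_lit 588) (nat_lit 1634764317) (nat_lit 123) (nat_lit 4) (nat_lit 130) (nat_lit 5) (nat_lit 130) (nat_lit 4) (nat_lit 296) (nat_lit 213) (nat_lit 211)))) (XT.nd (nat_lit 188) (nat_lit 588) (nat_lit 0) (XT.nd (nat_lit 94) (nat_lit 588) (nat_lit 0) (XT.lf (nat_lit 0) (nat_lit 1502149721) (nat_lit 588) (nat_lit 922601358) (nat_lit 672) (nat_lit 5886391757) (nat_lit 115) (nat_lit 5) (nat_lit 122) (nat_lit 5) (nat_lit 123) (nat_lit 4) (nat_lit 297) (nat_lit 213) (nat_lit 210)) (XT.lf (nat_lit 0) (nat_lit 298950774) (nat_lit 588) (nat_lit 6234789914) (nat_lit 588) (nat_lit 1845540030) (nat_lit 108) (nat_lit 4) (nat_lit 115) (nat_lit 5) (nat_lit 115) (nat_lit 4) (nat_lit 298) (nat_lit 213)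 (nat_lit 209))) (XT.nd (nat_lit 94) (nat_lit 504) (nat_lit 0) (XT.lf (nat_lit 0) (nat_lit 2234449980) (nat_lit 672) (nat_lit 910093929) (nat_lit 84) (nat_lit 5304386697) (nat_lit 107) (nat_lit 5) (nat_lit 115) (nat_lit 5) (nat_lit 108) (nat_lit 4) (nat_lit 299) (nat_lit 213) (nat_lit 208)) (XT.lf (nat_lit 0) (nat_lit 6350267340) (nat_lit 588) (nat_lit 2125830148) (nat_lit 0) (nat_lit 44308575) (nat_lit 101) (nat_lit 5) (nat_lit 108) (nat_lit 4) (nat_lit 101) (nat_lit 4) (nat_lit 300) (nat_lit 213) (nat_lit 207))))) (XT.nd (nat_lit 376) (nat_lit 1596) (nat_lit 0) (XT.nd (nat_lit 188) (nat_lit 1092) (nat_lit 0) (XT.nd (nat_lit 94) (nat_lit 504) (nat_lit 0) (XT.lf (nat_lit 0) (nat_lit 1929784568) (nat_lit 672) (nat_lit 3377178638) (nat_lit 84) (nat_lit 3286295720) (nat_lit 93) (nat_lit 5) (nat_lit 101) (nat_lit 5) (nat_lit 94) (nat_lit 4) (nat_lit 301) (nat_lit 213) (nat_lit 206)) (XT.lf (nat_lit 0) (nat_lit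 4023327907) (nat_lit 504) (nat_lit 2037416281) (nat_lit 588) (nat_lit 2607221582) (nat_lit 87) (nat_lit 5) (nat_lit 93) (nat_lit 5) (nat_lit 94) (nat_lit 4) (nat_lit 302) (nat_lit 213) (nat_lit 205))) (XT.nd (nat_lit 94) (nat_lit 504) (nat_lit 0) (XT.lf (nat_lit 0) (nat_lit 1499408497) (nat_lit 588) (nat_lit 5934234349) (nat_lit 84) (nat_lit 1310799748) (nat_lit 80) (nat_lit 5) (nat_lit 87) (nat_lit 5) (nat_lit 81) (nat_lit 4) (nat_lit 303) (nat_lit 213) (nat_lit 204)) (XT.lf (nat_lit 0) (nat_lit 1561523486) (nat_lit 504) (nat_lit 4086187463) (nat_lit 588) (nat_lit 3174699881) (nat_lit 74) (nat_lit 5) (nat_lit 80) (nat_lit 5) (nat_lit 81) (nat_lit 4) (nat_lit 304) (nat_lit 213) (nat_lit 203)))) (XT.nd (nat_lit 188) (nat_lit 1008) (nat_lit 0) (XT.nd (nat_lit 94) (nat_lit 0) (nat_lit 0) (XT.lf (nat_lit 0) (nat_lit 302943401) (nat_lit 504) (nat_lit 643833458) (nat_lit 588) (nat_lit 7955695851) (nat_lit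 67) (nat_lit 5) (nat_lit 73) (nat_lit 5) (nat_lit 74) (nat_lit 5) (nat_lit 305) (nat_lit 213) (nat_lit 202)) (XT.lf (nat_lit 0) (nat_lit 5116712979) (nat_lit 588) (nat_lit 989788260) (nat_lit 84) (nat_lit 2877186844) (nat_lit 67) (nat_lit 5) (nat_lit 74) (nat_lit 5) (nat_lit 68) (nat_lit 4) (nat_lit 306) (nat_lit 213) (nat_lit 201))) (XT.nd (nat_lit 94) (nat_lit 504) (nat_lit 0) (XT.lf (nat_lit 0) (nat_lit 291594520) (nat_lit 504) (nat_lit 2290902017) (nat_lit 84) (nat_lit 6484488310) (nat_lit 61) (nat_lit 5) (nat_lit 67) (nat_lit 5) (nat_lit 62) (nat_lit 5) (nat_lit 307) (nat_lit 213) (nat_lit 200)) (XT.lf (nat_lit 0) (nat_lit 4470797465) (nat_lit 588) (nat_lit 3634858517) (nat_lit 84) (nat_lit 1046145358) (nat_lit 55) (nat_lit 5) (nat_lit 62) (nat_lit 5) (nat_lit 56) (nat_lit 4) (nat_lit 308) (nat_lit 213) (nat_lit 199)))))) (XT.nd (nat_lit 43804) (nat_lit 0) (nat_lit 5040) (XT.nd (nat_lit 282) (nat_lit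 504) (nat_lit 0) (XT.nd (nat_lit 94) (nat_lit 924) (nat_lit 0) (XT.lf (nat_lit 0) (nat_lit 4231860068) (nat_lit 420) (nat_lit 4508362323) (nat_lit 504) (nat_lit 498299253) (nat_lit 50) (nat_lit 5) (nat_lit 55) (nat_lit 5) (nat_lit 56) (nat_lit 4) (nat_lit 309) (nat_lit 213) (nat_lit 198)) (XT.nd (nat_lit 94) (nat_lit 420) (nat_lit 0) (XT.lf (nat_lit 0) (nat_lit 2911133280) (nat_lit 420) (nat_lit 791212202) (nat_lit 504) (nat_lit 5624645617) (nat_lit 44) (nat_lit 5) (nat_lit 49) (nat_lit 5) (nat_lit 50) (nat_lit 5) (nat_lit 310) (nat_lit 213) (nat_lit 197)) (XT.lf (nat_lit 0) (nat_lit 1554829716) (nat_lit 420) (nat_lit 6435992519) (nat_lit 504) (nat_lit 1426444277) (nat_lit 39) (nat_lit 5) (nat_lit 44) (nat_lit 5) (nat_lit 45) (nat_lit 4) (nat_lit 311) (nat_lit 213) (nat_lit 196)))) (XT.nd (nat_lit 43334) (nat_lit 0) (nat_lit 9492) (XT.nd (nat_lit 94) (nat_lit 0) (nat_lit 0) (XT.lf (nat_lit 0) (nat_lit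 160237693) (nat_lit 420) (nat_lit 2650493494) (nat_lit 504) (nat_lit 6698614905) (nat_lit 33) (nat_lit 5) (nat_lit 38) (nat_lit 5) (nat_lit 39) (nat_lit 5) (nat_lit 312) (nat_lit 213) (nat_lit 195)) (XT.lf (nat_lit 0) (nat_lit 7120972949) (nat_lit 504) (nat_lit 1249033885) (nat_lit 84) (nat_lit 1233197522) (nat_lit 33) (nat_lit 5) (nat_lit 39) (nat_lit 5) (nat_lit 34) (nat_lit 4) (nat_lit 313) (nat_lit 213) (nat_lit 194))) (XT.nd (nat_lit 94) (nat_lit 756) (nat_lit 0) (XT.lf (nat_lit 0) (nat_lit 3669682966) (nat_lit 672) (nat_lit 163722641) (nat_lit 672) (nat_lit 163722641) (nat_lit 155) (nat_lit 4) (nat_lit 163) (nat_lit 5) (nat_lit 163) (nat_lit 4) (nat_lit 292) (nat_lit 214) (nat_lit 214)) (XT.lf (nat_lit 0) (nat_lit 3678589037) (nat_lit 756) (nat_lit 1907465095) (nat_lit 0) (nat_lit 2468741029) (nat_lit 146) (nat_lit 5) (nat_lit 155) (nat_lit 4) (nat_lit 146) (nat_lit 4) (nat_lit 293) (nat_lit 214)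 (nat_lit 213))))) (XT.nd (nat_lit 376) (nat_lit 1848) (nat_lit 0) (XT.nd (nat_lit 188) (nat_lit 1260) (nat_lit 0) (XT.nd (nat_lit 94) (nat_lit 672) (nat_lit 0) (XT.lf (nat_lit 0) (nat_lit 4959862775) (nat_lit 672) (nat_lit 2775559047) (nat_lit 672) (nat_lit 381906726) (nat_lit 138) (nat_lit 4) (nat_lit 146) (nat_lit 5) (nat_lit 146) (nat_lit 4) (nat_lit 294) (nat_lit 214) (nat_lit 212)) (XT.lf (nat_lit 0) (nat_lit 3614179602) (nat_lit 672) (nat_lit 4428532312) (nat_lit 0) (nat_lit 138667306) (nat_lit 130) (nat_lit 5) (nat_lit 138) (nat_lit 4) (nat_lit 130) (nat_lit 4) (nat_lit 295) (nat_lit 214) (nat_lit 211))) (XT.nd (nat_lit 94) (nat_lit 672) (nat_lit 0) (XT.lf (nat_lit 0) (nat_lit 2528992673) (nat_lit 588) (nat_lit 5151278381) (nat_lit 588) (nat_lit 566777105) (nat_lit 123) (nat_lit 4) (nat_lit 130) (nat_lit 5) (nat_lit 130) (nat_lit 4) (nat_lit 296) (nat_lit 214) (nat_lit 210)) (XT.lf (nat_lit 0)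 (nat_lit 1284817514) (nat_lit 588) (nat_lit 2154566861) (nat_lit 672) (nat_lit 4874919595) (nat_lit 115) (nat_lit 5) (nat_lit 122) (nat_lit 5) (nat_lit 123) (nat_lit 4) (nat_lit 297) (nat_lit 214) (nat_lit 209)))) (XT.nd (nat_lit 188) (nat_lit 1176) (nat_lit 0) (XT.nd (nat_lit 94) (nat_lit 84) (nat_lit 0) (XT.lf (nat_lit 0) (nat_lit 33294745) (nat_lit 588) (nat_lit 7468324375) (nat_lit 588) (nat_lit 881851340) (nat_lit 108) (nat_lit 4) (nat_lit 115) (nat_lit 5) (nat_lit 115) (nat_lit 4) (nat_lit 298) (nat_lit 214) (nat_lit 208)) (XT.lf (nat_lit 0) (nat_lit 3148334341) (nat_lit 672) (nat_lit 1237079065) (nat_lit 84) (nat_lit 4068346252) (nat_lit 107) (nat_lit 5) (nat_lit 115) (nat_lit 5) (nat_lit 108) (nat_lit 4) (nat_lit 299) (nat_lit 214) (nat_lit 207))) (XT.nd (nat_lit 94) (nat_lit 672) (nat_lit 0) (XT.lf (nat_lit 0) (nat_lit 6013228174) (nat_lit 504) (nat_lit 1212733706) (nat_lit 588) (nat_lit 1300113411)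 (nat_lit 101) (nat_lit 5) (nat_lit 107) (nat_lit 5) (nat_lit 108) (nat_lit 4) (nat_lit 300) (nat_lit 214) (nat_lit 206)) (XT.lf (nat_lit 0) (nat_lit 2740366245) (nat_lit 672) (nat_lit 3823863032) (nat_lit 84) (nat_lit 2035594611) (nat_lit 93) (nat_lit 5) (nat_lit 101) (nat_lit 5) (nat_lit 94) (nat_lit 4) (nat_lit 301) (nat_lit 214) (nat_lit 205))))))))
noncomputable def xc2 : XT := (XT.nd (nat_lit 45778) (nat_lit 0) (nat_lit 0) (XT.nd (nat_lit 44368) (nat_lit 0) (nat_lit 2352) (XT.nd (nat_lit 658) (nat_lit 1848) (nat_lit 0) (XT.nd (nat_lit 282) (nat_lit 1596) (nat_lit 0) (XT.nd (nat_lit 94) (nat_lit 1092) (nat_lit 0) (XT.lf (nat_lit 0) (nat_lit 3519740071) (nat_lit 504) (nat_lit 3313305419) (nat_lit 588) (nat_lit 1842327408) (nat_lit 87) (nat_lit 5) (nat_lit 93) (nat_lit 5) (nat_lit 94) (nat_lit 4) (nat_lit 302) (nat_lit 214) (nat_lit 204)) (XT.nd (nat_lit 94) (nat_lit 504) (nat_lit 0) (XT.lf (nat_lit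 0) (nat_lit 2205458970) (nat_lit 588) (nat_lit 6507698994) (nat_lit 84) (nat_lit 39624080) (nat_lit 80) (nat_lit 5) (nat_lit 87) (nat_lit 5) (nat_lit 81) (nat_lit 4) (nat_lit 303) (nat_lit 214) (nat_lit 203)) (XT.lf (nat_lit 0) (nat_lit 928867704) (nat_lit 504) (nat_lit 5386122667) (nat_lit 588) (nat_lit 2516612871) (nat_lit 74) (nat_lit 5) (nat_lit 80) (nat_lit 5) (nat_lit 81) (nat_lit 4) (nat_lit 304) (nat_lit 214) (nat_lit 202)))) (XT.nd (nat_lit 188) (nat_lit 1008) (nat_lit 0) (XT.nd (nat_lit 94) (nat_lit 504) (nat_lit 0) (XT.lf (nat_lit 0) (nat_lit 1559099683) (nat_lit 588) (nat_lit 398171526) (nat_lit 84) (nat_lit 6955089068) (nat_lit 73) (nat_lit 5) (nat_lit 80) (nat_lit 5) (nat_lit 74) (nat_lit 5) (nat_lit 305) (nat_lit 214) (nat_lit 201)) (XT.lf (nat_lit 0) (nat_lit 5682918326) (nat_lit 588) (nat_lit 1747776427) (nat_lit 84) (nat_lit 1563895483) (nat_lit 67) (nat_lit 5) (nat_lit 74) (nat_lit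 5) (nat_lit 68) (nat_lit 4) (nat_lit 306) (nat_lit 214) (nat_lit 200))) (XT.nd (nat_lit 94) (nat_lit 504) (nat_lit 0) (XT.lf (nat_lit 0) (nat_lit 799646733) (nat_lit 504) (nat_lit 3125514159) (nat_lit 84) (nat_lit 5153502648) (nat_lit 61) (nat_lit 5) (nat_lit 67) (nat_lit 5) (nat_lit 62) (nat_lit 5) (nat_lit 307) (nat_lit 214) (nat_lit 199)) (XT.lf (nat_lit 0) (nat_lit 4627618242) (nat_lit 504) (nat_lit 304272138) (nat_lit 588) (nat_lit 4232622757) (nat_lit 55) (nat_lit 5) (nat_lit 61) (nat_lit 5) (nat_lit 62) (nat_lit 5) (nat_lit 308) (nat_lit 214) (nat_lit 198))))) (XT.nd (nat_lit 376) (nat_lit 420) (nat_lit 0) (XT.nd (nat_lit 188) (nat_lit 504) (nat_lit 0) (XT.nd (nat_lit 94) (nat_lit 504) (nat_lit 0) (XT.lf (nat_lit 0) (nat_lit 3268351543) (nat_lit 420) (nat_lit 5891167258) (nat_lit 504) (nat_lit 92634164) (nat_lit 50) (nat_lit 5) (nat_lit 55) (nat_lit 5) (nat_lit 56) (nat_lit 4) (nat_lit 309) (nat_lit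 214) (nat_lit 197)) (XT.lf (nat_lit 0) (nat_lit 1866173616) (nat_lit 420) (nat_lit 2195902254) (nat_lit 504) (nat_lit 5279364998) (nat_lit 44) (nat_lit 5) (nat_lit 49) (nat_lit 5) (nat_lit 50) (nat_lit 5) (nat_lit 310) (nat_lit 214) (nat_lit 196))) (XT.nd (nat_lit 94) (nat_lit 84) (nat_lit 0) (XT.lf (nat_lit 0) (nat_lit 439251521) (nat_lit 420) (nat_lit 7860927698) (nat_lit 504) (nat_lit 1132645278) (nat_lit 39) (nat_lit 5) (nat_lit 44) (nat_lit 5) (nat_lit 45) (nat_lit 4) (nat_lit 311) (nat_lit 214) (nat_lit 195)) (XT.lf (nat_lit 0) (nat_lit 3066846237) (nat_lit 504) (nat_lit 1025516084) (nat_lit 84) (nat_lit 5433231662) (nat_lit 38) (nat_lit 5) (nat_lit 44) (nat_lit 5) (nat_lit 39) (nat_lit 5) (nat_lit 312) (nat_lit 214) (nat_lit 194)))) (XT.nd (nat_lit 43146) (nat_lit 0) (nat_lit 10164) (XT.nd (nat_lit 43052) (nat_lit 0) (nat_lit 10920) (XT.lf (nat_lit 0) (nat_lit 7112685020) (nat_lit 420) (nat_lit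 216108025) (nat_lit 504) (nat_lit 2291721693) (nat_lit 33) (nat_lit 5) (nat_lit 38) (nat_lit 5) (nat_lit 39) (nat_lit 5) (nat_lit 313) (nat_lit 214) (nat_lit 193)) (XT.lf (nat_lit 0) (nat_lit 465968230) (nat_lit 756) (nat_lit 3006257909) (nat_lit 0) (nat_lit 465968230) (nat_lit 163) (nat_lit 5) (nat_lit 172) (nat_lit 4) (nat_lit 163) (nat_lit 4) (nat_lit 290) (nat_lit 215) (nat_lit 215))) (XT.nd (nat_lit 94) (nat_lit 84) (nat_lit 0) (XT.lf (nat_lit 0) (nat_lit 570702742) (nat_lit 672) (nat_lit 4313857245) (nat_lit 672) (nat_lit 3050190359) (nat_lit 155) (nat_lit 4) (nat_lit 163) (nat_lit 5) (nat_lit 163) (nat_lit 4) (nat_lit 291) (nat_lit 215) (nat_lit 214)) (XT.lf (nat_lit 0) (nat_lit 885211834) (nat_lit 756) (nat_lit 710233221) (nat_lit 84) (nat_lit 6399490279) (nat_lit 154) (nat_lit 5) (nat_lit 163) (nat_lit 5) (nat_lit 155) (nat_lit 4) (nat_lit 292) (nat_lit 215) (nat_lit 213)))))) (XT.nd (nat_lit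 658) (nat_lit 3864) (nat_lit 0) (XT.nd (nat_lit 282) (nat_lit 1932) (nat_lit 0) (XT.nd (nat_lit 94) (nat_lit 1344) (nat_lit 0) (XT.lf (nat_lit 0) (nat_lit 4839952912) (nat_lit 756) (nat_lit 2006658540) (nat_lit 0) (nat_lit 1209835927) (nat_lit 146) (nat_lit 5) (nat_lit 155) (nat_lit 4) (nat_lit 146) (nat_lit 4) (nat_lit 293) (nat_lit 215) (nat_lit 212)) (XT.nd (nat_lit 94) (nat_lit 588) (nat_lit 0) (XT.lf (nat_lit 0) (nat_lit 728923622) (nat_lit 756) (nat_lit 3314554665) (nat_lit 84) (nat_lit 4076209513) (nat_lit 137) (nat_lit 5) (nat_lit 146) (nat_lit 5) (nat_lit 138) (nat_lit 4) (nat_lit 294) (nat_lit 215) (nat_lit 211)) (XT.lf (nat_lit 0) (nat_lit 3542839732) (nat_lit 588) (nat_lit 1138003343) (nat_lit 672) (nat_lit 3503686206) (nat_lit 130) (nat_lit 5) (nat_lit 137) (nat_lit 5) (nat_lit 138) (nat_lit 4) (nat_lit 295) (nat_lit 215) (nat_lit 210)))) (XT.nd (nat_lit 188) (nat_lit 672) (nat_lit 0) (XT.nd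 (nat_lit 94) (nat_lit 588) (nat_lit 0) (XT.lf (nat_lit 0) (nat_lit 443500292) (nat_lit 672) (nat_lit 5982708110) (nat_lit 84) (nat_lit 1824925764) (nat_lit 122) (nat_lit 5) (nat_lit 130) (nat_lit 5) (nat_lit 123) (nat_lit 4) (nat_lit 296) (nat_lit 215) (nat_lit 209)) (XT.lf (nat_lit 0) (nat_lit 962785267) (nat_lit 588) (nat_lit 3440779874) (nat_lit 672) (nat_lit 3915570548) (nat_lit 115) (nat_lit 5) (nat_lit 122) (nat_lit 5) (nat_lit 123) (nat_lit 4) (nat_lit 297) (nat_lit 215) (nat_lit 208))) (XT.nd (nat_lit 94) (nat_lit 588) (nat_lit 0) (XT.lf (nat_lit 0) (nat_lit 34009174) (nat_lit 672) (nat_lit 336809026) (nat_lit 84) (nat_lit 8018404024) (nat_lit 114) (nat_lit 5) (nat_lit 122) (nat_lit 5) (nat_lit 115) (nat_lit 5) (nat_lit 298) (nat_lit 215) (nat_lit 207)) (XT.lf (nat_lit 0) (nat_lit 4011249186) (nat_lit 672) (nat_lit 1670725205) (nat_lit 84) (nat_lit 2778284208) (nat_lit 107) (nat_lit 5) (nat_lit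 115) (nat_lit 5) (nat_lit 108) (nat_lit 4) (nat_lit 299) (nat_lit 215) (nat_lit 206))))) (XT.nd (nat_lit 376) (nat_lit 1596) (nat_lit 0) (XT.nd (nat_lit 188) (nat_lit 1092) (nat_lit 0) (XT.nd (nat_lit 94) (nat_lit 672) (nat_lit 0) (XT.lf (nat_lit 0) (nat_lit 5524407857) (nat_lit 504) (nat_lit 2526592730) (nat_lit 588) (nat_lit 482406920) (nat_lit 101) (nat_lit 5) (nat_lit 107) (nat_lit 5) (nat_lit 108) (nat_lit 4) (nat_lit 300) (nat_lit 215) (nat_lit 205)) (XT.lf (nat_lit 0) (nat_lit 3498631068) (nat_lit 672) (nat_lit 4380767136) (nat_lit 84) (nat_lit 728678365) (nat_lit 93) (nat_lit 5) (nat_lit 101) (nat_lit 5) (nat_lit 94) (nat_lit 4) (nat_lit 301) (nat_lit 215) (nat_lit 204))) (XT.nd (nat_lit 94) (nat_lit 588) (nat_lit 0) (XT.lf (nat_lit 0) (nat_lit 2905406220) (nat_lit 504) (nat_lit 4647581669) (nat_lit 588) (nat_lit 1131480784) (nat_lit 87) (nat_lit 5) (nat_lit 93) (nat_lit 5) (nat_lit 94) (nat_lit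 4) (nat_lit 302) (nat_lit 215) (nat_lit 203)) (XT.lf (nat_lit 0) (nat_lit 1558261681) (nat_lit 504) (nat_lit 1308821107) (nat_lit 588) (nat_lit 5895541290) (nat_lit 80) (nat_lit 5) (nat_lit 86) (nat_lit 5) (nat_lit 87) (nat_lit 5) (nat_lit 303) (nat_lit 215) (nat_lit 202)))) (XT.nd (nat_lit 188) (nat_lit 1008) (nat_lit 0) (XT.nd (nat_lit 94) (nat_lit 84) (nat_lit 0) (XT.lf (nat_lit 0) (nat_lit 181765836) (nat_lit 504) (nat_lit 6746676627) (nat_lit 588) (nat_lit 1914062592) (nat_lit 74) (nat_lit 5) (nat_lit 80) (nat_lit 5) (nat_lit 81) (nat_lit 4) (nat_lit 304) (nat_lit 215) (nat_lit 201)) (XT.lf (nat_lit 0) (nat_lit 2119578267) (nat_lit 588) (nat_lit 1209602024) (nat_lit 84) (nat_lit 5594722018) (nat_lit 73) (nat_lit 5) (nat_lit 80) (nat_lit 5) (nat_lit 74) (nat_lit 5) (nat_lit 305) (nat_lit 215) (nat_lit 200))) (XT.nd (nat_lit 94) (nat_lit 504) (nat_lit 0) (XT.lf (nat_lit 0) (nat_lit 6194583372) (nat_lit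 588) (nat_lit 2622314652) (nat_lit 84) (nat_lit 190308142) (nat_lit 67) (nat_lit 5) (nat_lit 74) (nat_lit 5) (nat_lit 68) (nat_lit 4) (nat_lit 306) (nat_lit 215) (nat_lit 199)) (XT.lf (nat_lit 0) (nat_lit 1252132815) (nat_lit 504) (nat_lit 4078615626) (nat_lit 84) (nat_lit 3761319076) (nat_lit 61) (nat_lit 5) (nat_lit 67) (nat_lit 5) (nat_lit 62) (nat_lit 5) (nat_lit 307) (nat_lit 215) (nat_lit 198))))))) (XT.nd (nat_lit 44180) (nat_lit 0) (nat_lit 924) (XT.nd (nat_lit 43428) (nat_lit 0) (nat_lit 7476) (XT.nd (nat_lit 282) (nat_lit 924) (nat_lit 0) (XT.nd (nat_lit 94) (nat_lit 924) (nat_lit 0) (XT.lf (nat_lit 0) (nat_lit 3611427142) (nat_lit 504) (nat_lit 1733412761) (nat_lit 588) (nat_lit 3833947015) (nat_lit 55) (nat_lit 5) (nat_lit 61) (nat_lit 5) (nat_lit 62) (nat_lit 5) (nat_lit 308) (nat_lit 215) (nat_lit 197)) (XT.nd (nat_lit 94) (nat_lit 420) (nat_lit 0) (XT.lf (nat_lit 0) (nat_lit 251303430)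 (nat_lit 504) (nat_lit 7085587906) (nat_lit 84) (nat_lit 1930594713) (nat_lit 49) (nat_lit 5) (nat_lit 55) (nat_lit 5) (nat_lit 50) (nat_lit 5) (nat_lit 309) (nat_lit 215) (nat_lit 196)) (XT.lf (nat_lit 0) (nat_lit 698097565) (nat_lit 420) (nat_lit 3666315654) (nat_lit 504) (nat_lit 4993232069) (nat_lit 44) (nat_lit 5) (nat_lit 49) (nat_lit 5) (nat_lit 50) (nat_lit 5) (nat_lit 310) (nat_lit 215) (nat_lit 195)))) (XT.nd (nat_lit 188) (nat_lit 420) (nat_lit 0) (XT.nd (nat_lit 94) (nat_lit 504) (nat_lit 0) (XT.lf (nat_lit 0) (nat_lit 8557190542) (nat_lit 504) (nat_lit 789909672) (nat_lit 84) (nat_lit 102925874) (nat_lit 44) (nat_lit 5) (nat_lit 50) (nat_lit 5) (nat_lit 45) (nat_lit 4) (nat_lit 311) (nat_lit 215) (nat_lit 194)) (XT.lf (nat_lit 0) (nat_lit 3265836085) (nat_lit 504) (nat_lit 2334350482) (nat_lit 84) (nat_lit 3943393478) (nat_lit 38) (nat_lit 5) (nat_lit 44) (nat_lit 5) (nat_lit 39) (nat_lit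 5) (nat_lit 312) (nat_lit 215) (nat_lit 193))) (XT.nd (nat_lit 42864) (nat_lit 0) (nat_lit 12432) (XT.lf (nat_lit 0) (nat_lit 5735942998) (nat_lit 420) (nat_lit 1751098242) (nat_lit 504) (nat_lit 2152355875) (nat_lit 33) (nat_lit 5) (nat_lit 38) (nat_lit 5) (nat_lit 39) (nat_lit 5) (nat_lit 313) (nat_lit 215) (nat_lit 192)) (XT.lf (nat_lit 0) (nat_lit 1111176617) (nat_lit 840) (nat_lit 1659275812) (nat_lit 0) (nat_lit 1111176617) (nat_lit 181) (nat_lit 5) (nat_lit 191) (nat_lit 4) (nat_lit 181) (nat_lit 4) (nat_lit 288) (nat_lit 216) (nat_lit 216))))) (XT.nd (nat_lit 376) (nat_lit 2688) (nat_lit 0) (XT.nd (nat_lit 188) (nat_lit 756) (nat_lit 0) (XT.nd (nat_lit 94) (nat_lit 756) (nat_lit 0) (XT.lf (nat_lit 0) (nat_lit 3132425076) (nat_lit 756) (nat_lit 3003403760) (nat_lit 756) (nat_lit 1683523915) (nat_lit 172) (nat_lit 4) (nat_lit 181) (nat_lit 5) (nat_lit 181) (nat_lit 4) (nat_lit 289) (nat_lit 216)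 (nat_lit 215)) (XT.lf (nat_lit 0) (nat_lit 1813498226) (nat_lit 672) (nat_lit 374852727) (nat_lit 756) (nat_lit 5688808955) (nat_lit 163) (nat_lit 5) (nat_lit 171) (nat_lit 5) (nat_lit 172) (nat_lit 4) (nat_lit 290) (nat_lit 216) (nat_lit 214))) (XT.nd (nat_lit 94) (nat_lit 84) (nat_lit 0) (XT.lf (nat_lit 0) (nat_lit 473393286) (nat_lit 672) (nat_lit 5627306687) (nat_lit 672) (nat_lit 1835707579) (nat_lit 155) (nat_lit 4) (nat_lit 163) (nat_lit 5) (nat_lit 163) (nat_lit 4) (nat_lit 291) (nat_lit 216) (nat_lit 213)) (XT.lf (nat_lit 0) (nat_lit 2045484781) (nat_lit 756) (nat_lit 865476889) (nat_lit 84) (nat_lit 5086248331) (nat_lit 154) (nat_lit 5) (nat_lit 163) (nat_lit 5) (nat_lit 155) (nat_lit 4) (nat_lit 292) (nat_lit 216) (nat_lit 212)))) (XT.nd (nat_lit 188) (nat_lit 1260) (nat_lit 0) (XT.nd (nat_lit 94) (nat_lit 756) (nat_lit 0) (XT.lf (nat_lit 0) (nat_lit 5853930995) (nat_lit 672) (nat_lit 100165159)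 (nat_lit 756) (nat_lit 2105640745) (nat_lit 146) (nat_lit 5) (nat_lit 154) (nat_lit 5) (nat_lit 155) (nat_lit 4) (nat_lit 293) (nat_lit 216) (nat_lit 211)) (XT.lf (nat_lit 0) (nat_lit 1785453450) (nat_lit 756) (nat_lit 3575304976) (nat_lit 84) (nat_lit 2762887940) (nat_lit 137) (nat_lit 5) (nat_lit 146) (nat_lit 5) (nat_lit 138) (nat_lit 4) (nat_lit 294) (nat_lit 216) (nat_lit 210))) (XT.nd (nat_lit 94) (nat_lit 672) (nat_lit 0) (XT.lf (nat_lit 0) (nat_lit 3230444542) (nat_lit 588) (nat_lit 2469320727) (nat_lit 672) (nat_lit 2489549946) (nat_lit 130) (nat_lit 5) (nat_lit 137) (nat_lit 5) (nat_lit 138) (nat_lit 4) (nat_lit 295) (nat_lit 216) (nat_lit 209)) (XT.lf (nat_lit 0) (nat_lit 1395598086) (nat_lit 672) (nat_lit 6355788783) (nat_lit 84) (nat_lit 505417802) (nat_lit 122) (nat_lit 5) (nat_lit 130) (nat_lit 5) (nat_lit 123) (nat_lit 4) (nat_lit 296) (nat_lit 216) (nat_lit 208)))))) (XT.nd (nat_lit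 658) (nat_lit 3024) (nat_lit 0) (XT.nd (nat_lit 282) (nat_lit 2268) (nat_lit 0) (XT.nd (nat_lit 94) (nat_lit 672) (nat_lit 0) (XT.lf (nat_lit 0) (nat_lit 535900470) (nat_lit 588) (nat_lit 4781849524) (nat_lit 672) (nat_lit 3007890284) (nat_lit 115) (nat_lit 5) (nat_lit 122) (nat_lit 5) (nat_lit 123) (nat_lit 4) (nat_lit 297) (nat_lit 216) (nat_lit 207)) (XT.nd (nat_lit 94) (nat_lit 588) (nat_lit 0) (XT.lf (nat_lit 0) (nat_lit 893906622) (nat_lit 672) (nat_lit 824482465) (nat_lit 84) (nat_lit 6677959090) (nat_lit 114) (nat_lit 5) (nat_lit 122) (nat_lit 5) (nat_lit 115) (nat_lit 5) (nat_lit 298) (nat_lit 216) (nat_lit 206)) (XT.lf (nat_lit 0) (nat_lit 4823603176) (nat_lit 672) (nat_lit 2211237717) (nat_lit 84) (nat_lit 1433589614) (nat_lit 107) (nat_lit 5) (nat_lit 115) (nat_lit 5) (nat_lit 108) (nat_lit 4) (nat_lit 299) (nat_lit 216) (nat_lit 205)))) (XT.nd (nat_lit 188) (nat_lit 1092) (nat_lit 0) (XT.nd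 (nat_lit 94) (nat_lit 588) (nat_lit 0) (XT.lf (nat_lit 0) (nat_lit 278964036) (nat_lit 588) (nat_lit 3616218648) (nat_lit 84) (nat_lit 4647186188) (nat_lit 100) (nat_lit 5) (nat_lit 107) (nat_lit 5) (nat_lit 101) (nat_lit 5) (nat_lit 300) (nat_lit 216) (nat_lit 204)) (XT.lf (nat_lit 0) (nat_lit 3565175340) (nat_lit 588) (nat_lit 644352674) (nat_lit 672) (nat_lit 4408391889) (nat_lit 93) (nat_lit 5) (nat_lit 100) (nat_lit 5) (nat_lit 101) (nat_lit 5) (nat_lit 301) (nat_lit 216) (nat_lit 203))) (XT.nd (nat_lit 94) (nat_lit 588) (nat_lit 0) (XT.lf (nat_lit 0) (nat_lit 2180035419) (nat_lit 504) (nat_lit 6040876919) (nat_lit 588) (nat_lit 474345066) (nat_lit 87) (nat_lit 5) (nat_lit 93) (nat_lit 5) (nat_lit 94) (nat_lit 4) (nat_lit 302) (nat_lit 216) (nat_lit 202)) (XT.lf (nat_lit 0) (nat_lit 758222705) (nat_lit 504) (nat_lit 2717756257) (nat_lit 588) (nat_lit 5298183908) (nat_lit 80) (nat_lit 5) (nat_lit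 86) (nat_lit 5) (nat_lit 87) (nat_lit 5) (nat_lit 303) (nat_lit 216) (nat_lit 201))))) (XT.nd (nat_lit 376) (nat_lit 1428) (nat_lit 0) (XT.nd (nat_lit 188) (nat_lit 1008) (nat_lit 0) (XT.nd (nat_lit 94) (nat_lit 588) (nat_lit 0) (XT.lf (nat_lit 0) (nat_lit 7493202511) (nat_lit 588) (nat_lit 670339808) (nat_lit 84) (nat_lit 691472522) (nat_lit 80) (nat_lit 5) (nat_lit 87) (nat_lit 5) (nat_lit 81) (nat_lit 4) (nat_lit 304) (nat_lit 216) (nat_lit 200)) (XT.lf (nat_lit 0) (nat_lit 2626320108) (nat_lit 588) (nat_lit 2136095719) (nat_lit 84) (nat_lit 4174735919) (nat_lit 73) (nat_lit 5) (nat_lit 80) (nat_lit 5) (nat_lit 74) (nat_lit 5) (nat_lit 305) (nat_lit 216) (nat_lit 199))) (XT.nd (nat_lit 94) (nat_lit 504) (nat_lit 0) (XT.lf (nat_lit 0) (nat_lit 5398534481) (nat_lit 504) (nat_lit 1262408383) (nat_lit 588) (nat_lit 2360401151) (nat_lit 67) (nat_lit 5) (nat_lit 73) (nat_lit 5) (nat_lit 74) (nat_lit 5)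 (nat_lit 306) (nat_lit 216) (nat_lit 198)) (XT.lf (nat_lit 0) (nat_lit 1649267055) (nat_lit 504) (nat_lit 5150657789) (nat_lit 84) (nat_lit 2307278281) (nat_lit 61) (nat_lit 5) (nat_lit 67) (nat_lit 5) (nat_lit 62) (nat_lit 5) (nat_lit 307) (nat_lit 216) (nat_lit 197)))) (XT.nd (nat_lit 188) (nat_lit 420) (nat_lit 0) (XT.nd (nat_lit 94) (nat_lit 504) (nat_lit 0) (XT.lf (nat_lit 0) (nat_lit 2475615454) (nat_lit 504) (nat_lit 3226665304) (nat_lit 588) (nat_lit 3492515022) (nat_lit 55) (nat_lit 5) (nat_lit 61) (nat_lit 5) (nat_lit 62) (nat_lit 5) (nat_lit 308) (nat_lit 216) (nat_lit 196)) (XT.lf (nat_lit 0) (nat_lit 536850196) (nat_lit 504) (nat_lit 8310973188) (nat_lit 84) (nat_lit 436739307) (nat_lit 49) (nat_lit 5) (nat_lit 55) (nat_lit 5) (nat_lit 50) (nat_lit 5) (nat_lit 309) (nat_lit 216) (nat_lit 195))) (XT.nd (nat_lit 94) (nat_lit 420) (nat_lit 0) (XT.lf (nat_lit 0) (nat_lit 4613729407) (nat_lit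 504) (nat_lit 585097630) (nat_lit 84) (nat_lit 4176691965) (nat_lit 49) (nat_lit 5) (nat_lit 55) (nat_lit 5) (nat_lit 50) (nat_lit 5) (nat_lit 310) (nat_lit 216) (nat_lit 194)) (XT.lf (nat_lit 0) (nat_lit 7321721099) (nat_lit 420) (nat_lit 1448890349) (nat_lit 504) (nat_lit 698078051) (nat_lit 44) (nat_lit 5) (nat_lit 49) (nat_lit 5) (nat_lit 50) (nat_lit 5) (nat_lit 311) (nat_lit 216) (nat_lit 193))))))))
noncomputable def xc3 : XT := (XT.nd (nat_lit 87796) (nat_lit 0) (nat_lit 0) (XT.nd (nat_lit 43992) (nat_lit 0) (nat_lit 0) (XT.nd (nat_lit 43240) (nat_lit 0) (nat_lit 6804) (XT.nd (nat_lit 42864) (nat_lit 0) (nat_lit 10920) (XT.nd (nat_lit 94) (nat_lit 420) (nat_lit 0) (XT.lf (nat_lit 0) (nat_lit 3406653556) (nat_lit 504) (nat_lit 3769193271) (nat_lit 84) (nat_lit 2387491076) (nat_lit 38) (nat_lit 5) (nat_lit 44) (nat_lit 5) (nat_lit 39) (nat_lit 5) (nat_lit 312) (nat_lit 216) (nat_lit 192)) (XT.nd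 (nat_lit 42676) (nat_lit 0) (nat_lit 14028) (XT.lf (nat_lit 0) (nat_lit 4232401214) (nat_lit 420) (nat_lit 3354478536) (nat_lit 504) (nat_lit 2073176760) (nat_lit 33) (nat_lit 5) (nat_lit 38) (nat_lit 5) (nat_lit 39) (nat_lit 5) (nat_lit 313) (nat_lit 216) (nat_lit 191)) (XT.lf (nat_lit 0) (nat_lit 1771643631) (nat_lit 840) (nat_lit 284249001) (nat_lit 0) (nat_lit 1771643631) (nat_lit 200) (nat_lit 5) (nat_lit 210) (nat_lit 4) (nat_lit 200) (nat_lit 4) (nat_lit 286) (nat_lit 217) (nat_lit 217)))) (XT.nd (nat_lit 188) (nat_lit 1512) (nat_lit 0) (XT.nd (nat_lit 94) (nat_lit 840) (nat_lit 0) (XT.lf (nat_lit 0) (nat_lit 5753504853) (nat_lit 756) (nat_lit 1666996300) (nat_lit 756) (nat_lit 288402921) (nat_lit 191) (nat_lit 4) (nat_lit 200) (nat_lit 5) (nat_lit 200) (nat_lit 4) (nat_lit 287) (nat_lit 217) (nat_lit 216)) (XT.lf (nat_lit 0) (nat_lit 3533751994) (nat_lit 840) (nat_lit 3365376558) (nat_lit 0)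 (nat_lit 864954949) (nat_lit 181) (nat_lit 5) (nat_lit 191) (nat_lit 4) (nat_lit 181) (nat_lit 4) (nat_lit 288) (nat_lit 217) (nat_lit 215))) (XT.nd (nat_lit 94) (nat_lit 756) (nat_lit 0) (XT.lf (nat_lit 0) (nat_lit 3038429346) (nat_lit 756) (nat_lit 4371417891) (nat_lit 756) (nat_lit 411153287) (nat_lit 172) (nat_lit 4) (nat_lit 181) (nat_lit 5) (nat_lit 181) (nat_lit 4) (nat_lit 289) (nat_lit 217) (nat_lit 214)) (XT.lf (nat_lit 0) (nat_lit 1660569317) (nat_lit 672) (nat_lit 1744228312) (nat_lit 756) (nat_lit 4474637809) (nat_lit 163) (nat_lit 5) (nat_lit 171) (nat_lit 5) (nat_lit 172) (nat_lit 4) (nat_lit 290) (nat_lit 217) (nat_lit 213))))) (XT.nd (nat_lit 376) (nat_lit 1932) (nat_lit 0) (XT.nd (nat_lit 188) (nat_lit 1428) (nat_lit 0) (XT.nd (nat_lit 94) (nat_lit 84) (nat_lit 0) (XT.lf (nat_lit 0) (nat_lit 278728292) (nat_lit 672) (nat_lit 6991160710) (nat_lit 672) (nat_lit 669833749) (nat_lit 155)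 (nat_lit 4) (nat_lit 163) (nat_lit 5) (nat_lit 163) (nat_lit 4) (nat_lit 291) (nat_lit 217) (nat_lit 212)) (XT.lf (nat_lit 0) (nat_lit 3158639295) (nat_lit 756) (nat_lit 1118362618) (nat_lit 84) (nat_lit 3724130975) (nat_lit 154) (nat_lit 5) (nat_lit 163) (nat_lit 5) (nat_lit 155) (nat_lit 4) (nat_lit 292) (nat_lit 217) (nat_lit 211))) (XT.nd (nat_lit 94) (nat_lit 756) (nat_lit 0) (XT.lf (nat_lit 0) (nat_lit 5551085734) (nat_lit 672) (nat_lit 1478854054) (nat_lit 756) (nat_lit 1034540837) (nat_lit 146) (nat_lit 5) (nat_lit 154) (nat_lit 5) (nat_lit 155) (nat_lit 4) (nat_lit 293) (nat_lit 217) (nat_lit 210)) (XT.lf (nat_lit 0) (nat_lit 2793683784) (nat_lit 756) (nat_lit 3937119780) (nat_lit 84) (nat_lit 1398462407) (nat_lit 137) (nat_lit 5) (nat_lit 146) (nat_lit 5) (nat_lit 138) (nat_lit 4) (nat_lit 294) (nat_lit 217) (nat_lit 209)))) (XT.nd (nat_lit 188) (nat_lit 672) (nat_lit 0) (XT.nd (nat_lit 94)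 (nat_lit 672) (nat_lit 0) (XT.lf (nat_lit 0) (nat_lit 2816537639) (nat_lit 588) (nat_lit 3853888893) (nat_lit 672) (nat_lit 1525334806) (nat_lit 130) (nat_lit 5) (nat_lit 137) (nat_lit 5) (nat_lit 138) (nat_lit 4) (nat_lit 295) (nat_lit 217) (nat_lit 208)) (XT.lf (nat_lit 0) (nat_lit 1424307250) (nat_lit 588) (nat_lit 880092420) (nat_lit 672) (nat_lit 5959613587) (nat_lit 122) (nat_lit 5) (nat_lit 129) (nat_lit 5) (nat_lit 130) (nat_lit 5) (nat_lit 296) (nat_lit 217) (nat_lit 207))) (XT.nd (nat_lit 94) (nat_lit 84) (nat_lit 0) (XT.lf (nat_lit 0) (nat_lit 3960959) (nat_lit 588) (nat_lit 6178410917) (nat_lit 672) (nat_lit 2151448943) (nat_lit 115) (nat_lit 5) (nat_lit 122) (nat_lit 5) (nat_lit 123) (nat_lit 4) (nat_lit 297) (nat_lit 217) (nat_lit 206)) (XT.lf (nat_lit 0) (nat_lit 1704050316) (nat_lit 672) (nat_lit 1417492222) (nat_lit 84) (nat_lit 5283599132) (nat_lit 114) (nat_lit 5) (nat_lit 122) (nat_lit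 5) (nat_lit 115) (nat_lit 5) (nat_lit 298) (nat_lit 217) (nat_lit 205)))))) (XT.nd (nat_lit 658) (nat_lit 3360) (nat_lit 0) (XT.nd (nat_lit 282) (nat_lit 1680) (nat_lit 0) (XT.nd (nat_lit 94) (nat_lit 1176) (nat_lit 0) (XT.lf (nat_lit 0) (nat_lit 5585781025) (nat_lit 672) (nat_lit 2858872575) (nat_lit 84) (nat_lit 33625649) (nat_lit 107) (nat_lit 5) (nat_lit 115) (nat_lit 5) (nat_lit 108) (nat_lit 4) (nat_lit 299) (nat_lit 217) (nat_lit 204)) (XT.nd (nat_lit 94) (nat_lit 588) (nat_lit 0) (XT.lf (nat_lit 0) (nat_lit 982237923) (nat_lit 588) (nat_lit 4335841187) (nat_lit 84) (nat_lit 3234861432) (nat_lit 100) (nat_lit 5) (nat_lit 107) (nat_lit 5) (nat_lit 101) (nat_lit 5) (nat_lit 300) (nat_lit 217) (nat_lit 203)) (XT.lf (nat_lit 0) (nat_lit 2788131247) (nat_lit 588) (nat_lit 2086352282) (nat_lit 672) (nat_lit 3754851048) (nat_lit 93) (nat_lit 5) (nat_lit 100) (nat_lit 5) (nat_lit 101) (nat_lit 5) (nat_lit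 301) (nat_lit 217) (nat_lit 202)))) (XT.nd (nat_lit 188) (nat_lit 1092) (nat_lit 0) (XT.nd (nat_lit 94) (nat_lit 0) (nat_lit 0) (XT.lf (nat_lit 0) (nat_lit 127527312) (nat_lit 588) (nat_lit 7365381735) (nat_lit 84) (nat_lit 1214814872) (nat_lit 86) (nat_lit 5) (nat_lit 93) (nat_lit 5) (nat_lit 87) (nat_lit 5) (nat_lit 302) (nat_lit 217) (nat_lit 201)) (XT.lf (nat_lit 0) (nat_lit 4033254436) (nat_lit 588) (nat_lit 152885860) (nat_lit 84) (nat_lit 4601245581) (nat_lit 86) (nat_lit 5) (nat_lit 93) (nat_lit 5) (nat_lit 87) (nat_lit 5) (nat_lit 303) (nat_lit 217) (nat_lit 200))) (XT.nd (nat_lit 94) (nat_lit 588) (nat_lit 0) (XT.lf (nat_lit 0) (nat_lit 7230127717) (nat_lit 504) (nat_lit 782250767) (nat_lit 588) (nat_lit 856697554) (nat_lit 80) (nat_lit 5) (nat_lit 86) (nat_lit 5) (nat_lit 87) (nat_lit 5) (nat_lit 304) (nat_lit 217) (nat_lit 199)) (XT.lf (nat_lit 0) (nat_lit 3079565187) (nat_lit 588) (nat_lit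 3178091382) (nat_lit 84) (nat_lit 2694458293) (nat_lit 73) (nat_lit 5) (nat_lit 80) (nat_lit 5) (nat_lit 74) (nat_lit 5) (nat_lit 305) (nat_lit 217) (nat_lit 198))))) (XT.nd (nat_lit 376) (nat_lit 1764) (nat_lit 0) (XT.nd (nat_lit 188) (nat_lit 588) (nat_lit 0) (XT.nd (nat_lit 94) (nat_lit 504) (nat_lit 0) (XT.lf (nat_lit 0) (nat_lit 4294609340) (nat_lit 504) (nat_lit 2780432441) (nat_lit 588) (nat_lit 1962126566) (nat_lit 67) (nat_lit 5) (nat_lit 73) (nat_lit 5) (nat_lit 74) (nat_lit 5) (nat_lit 306) (nat_lit 217) (nat_lit 197)) (XT.lf (nat_lit 0) (nat_lit 1991237529) (nat_lit 504) (nat_lit 6342148348) (nat_lit 84) (nat_lit 790691656) (nat_lit 61) (nat_lit 5) (nat_lit 67) (nat_lit 5) (nat_lit 62) (nat_lit 5) (nat_lit 307) (nat_lit 217) (nat_lit 196))) (XT.nd (nat_lit 94) (nat_lit 84) (nat_lit 0) (XT.lf (nat_lit 0) (nat_lit 1219645278) (nat_lit 504) (nat_lit 4784736945) (nat_lit 588) (nat_lit 3208165082)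 (nat_lit 55) (nat_lit 5) (nat_lit 61) (nat_lit 5) (nat_lit 62) (nat_lit 5) (nat_lit 308) (nat_lit 217) (nat_lit 195)) (XT.lf (nat_lit 0) (nat_lit 776182545) (nat_lit 588) (nat_lit 359505623) (nat_lit 84) (nat_lit 8167481772) (nat_lit 54) (nat_lit 5) (nat_lit 61) (nat_lit 5) (nat_lit 55) (nat_lit 5) (nat_lit 309) (nat_lit 217) (nat_lit 194)))) (XT.nd (nat_lit 188) (nat_lit 924) (nat_lit 0) (XT.nd (nat_lit 94) (nat_lit 420) (nat_lit 0) (XT.lf (nat_lit 0) (nat_lit 4811769806) (nat_lit 504) (nat_lit 1980729266) (nat_lit 84) (nat_lit 2602535603) (nat_lit 49) (nat_lit 5) (nat_lit 55) (nat_lit 5) (nat_lit 50) (nat_lit 5) (nat_lit 310) (nat_lit 217) (nat_lit 193)) (XT.lf (nat_lit 0) (nat_lit 5859304790) (nat_lit 420) (nat_lit 3069003312) (nat_lit 504) (nat_lit 560784633) (nat_lit 44) (nat_lit 5) (nat_lit 49) (nat_lit 5) (nat_lit 50) (nat_lit 5) (nat_lit 311) (nat_lit 217) (nat_lit 192))) (XT.nd (nat_lit 94)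 (nat_lit 420) (nat_lit 0) (XT.lf (nat_lit 0) (nat_lit 3489365339) (nat_lit 504) (nat_lit 5330723965) (nat_lit 84) (nat_lit 764787609) (nat_lit 38) (nat_lit 5) (nat_lit 44) (nat_lit 5) (nat_lit 39) (nat_lit 5) (nat_lit 312) (nat_lit 217) (nat_lit 191)) (XT.lf (nat_lit 0) (nat_lit 2601347621) (nat_lit 420) (nat_lit 5027008235) (nat_lit 504) (nat_lit 2054146850) (nat_lit 33) (nat_lit 5) (nat_lit 38) (nat_lit 5) (nat_lit 39) (nat_lit 5) (nat_lit 313) (nat_lit 217) (nat_lit 190))))))) (XT.nd (nat_lit 1410) (nat_lit 6804) (nat_lit 0) (XT.nd (nat_lit 658) (nat_lit 4116) (nat_lit 0) (XT.nd (nat_lit 282) (nat_lit 3108) (nat_lit 0) (XT.nd (nat_lit 94) (nat_lit 840) (nat_lit 0) (XT.lf (nat_lit 0) (nat_lit 1137134565) (nat_lit 840) (nat_lit 1319302923) (nat_lit 840) (nat_lit 1319302923) (nat_lit 210) (nat_lit 4) (nat_lit 220) (nat_lit 5) (nat_lit 220) (nat_lit 4) (nat_lit 284) (nat_lit 218) (nat_lit 218)) (XT.nd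 (nat_lit 94) (nat_lit 0) (nat_lit 0) (XT.lf (nat_lit 0) (nat_lit 838324873) (nat_lit 756) (nat_lit 288402921) (nat_lit 840) (nat_lit 6476370058) (nat_lit 200) (nat_lit 5) (nat_lit 209) (nat_lit 5) (nat_lit 210) (nat_lit 4) (nat_lit 285) (nat_lit 218) (nat_lit 217)) (XT.lf (nat_lit 0) (nat_lit 4914864621) (nat_lit 840) (nat_lit 613680690) (nat_lit 0) (nat_lit 2127348808) (nat_lit 200) (nat_lit 5) (nat_lit 210) (nat_lit 4) (nat_lit 200) (nat_lit 4) (nat_lit 286) (nat_lit 218) (nat_lit 216)))) (XT.nd (nat_lit 188) (nat_lit 1512) (nat_lit 0) (XT.nd (nat_lit 94) (nat_lit 756) (nat_lit 0) (XT.lf (nat_lit 0) (nat_lit 1029305557) (nat_lit 840) (nat_lit 2055177176) (nat_lit 84) (nat_lit 4625897391) (nat_lit 190) (nat_lit 5) (nat_lit 200) (nat_lit 5) (nat_lit 191) (nat_lit 4) (nat_lit 287) (nat_lit 218) (nat_lit 215)) (XT.lf (nat_lit 0) (nat_lit 4256704712) (nat_lit 756) (nat_lit 546963720) (nat_lit 840) (nat_lit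 2962805962) (nat_lit 181) (nat_lit 5) (nat_lit 190) (nat_lit 5) (nat_lit 191) (nat_lit 4) (nat_lit 288) (nat_lit 218) (nat_lit 214))) (XT.nd (nat_lit 94) (nat_lit 672) (nat_lit 0) (XT.lf (nat_lit 0) (nat_lit 802582028) (nat_lit 840) (nat_lit 4979704007) (nat_lit 84) (nat_lit 2041883205) (nat_lit 171) (nat_lit 5) (nat_lit 181) (nat_lit 5) (nat_lit 172) (nat_lit 4) (nat_lit 289) (nat_lit 218) (nat_lit 213)) (XT.lf (nat_lit 0) (nat_lit 1411897363) (nat_lit 672) (nat_lit 3163219795) (nat_lit 756) (nat_lit 3308247427) (nat_lit 163) (nat_lit 5) (nat_lit 171) (nat_lit 5) (nat_lit 172) (nat_lit 4) (nat_lit 290) (nat_lit 218) (nat_lit 212))))) (XT.nd (nat_lit 376) (nat_lit 1932) (nat_lit 0) (XT.nd (nat_lit 188) (nat_lit 1428) (nat_lit 0) (XT.nd (nat_lit 94) (nat_lit 672) (nat_lit 0) (XT.lf (nat_lit 0) (nat_lit 444984953) (nat_lit 756) (nat_lit 19741476) (nat_lit 84) (nat_lit 7479824887) (nat_lit 162) (nat_lit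 5) (nat_lit 171) (nat_lit 5) (nat_lit 163) (nat_lit 5) (nat_lit 291) (nat_lit 218) (nat_lit 211)) (XT.lf (nat_lit 0) (nat_lit 4225202546) (nat_lit 756) (nat_lit 1469010171) (nat_lit 84) (nat_lit 2312493136) (nat_lit 154) (nat_lit 5) (nat_lit 163) (nat_lit 5) (nat_lit 155) (nat_lit 4) (nat_lit 292) (nat_lit 218) (nat_lit 210))) (XT.nd (nat_lit 94) (nat_lit 756) (nat_lit 0) (XT.lf (nat_lit 0) (nat_lit 5150045889) (nat_lit 672) (nat_lit 2909203540) (nat_lit 756) (nat_lit 11623741) (nat_lit 146) (nat_lit 5) (nat_lit 154) (nat_lit 5) (nat_lit 155) (nat_lit 4) (nat_lit 293) (nat_lit 218) (nat_lit 209)) (XT.lf (nat_lit 0) (nat_lit 3736248013) (nat_lit 672) (nat_lit 17972107) (nat_lit 756) (nat_lit 4382326338) (nat_lit 137) (nat_lit 5) (nat_lit 145) (nat_lit 5) (nat_lit 146) (nat_lit 5) (nat_lit 294) (nat_lit 218) (nat_lit 208)))) (XT.nd (nat_lit 188) (nat_lit 672) (nat_lit 0) (XT.nd (nat_lit 94) (nat_lit 672)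 (nat_lit 0) (XT.lf (nat_lit 0) (nat_lit 2300923004) (nat_lit 588) (nat_lit 5292363547) (nat_lit 672) (nat_lit 610584154) (nat_lit 130) (nat_lit 5) (nat_lit 137) (nat_lit 5) (nat_lit 138) (nat_lit 4) (nat_lit 295) (nat_lit 218) (nat_lit 207)) (XT.lf (nat_lit 0) (nat_lit 840352572) (nat_lit 588) (nat_lit 2327753719) (nat_lit 672) (nat_lit 5104706093) (nat_lit 122) (nat_lit 5) (nat_lit 129) (nat_lit 5) (nat_lit 130) (nat_lit 5) (nat_lit 296) (nat_lit 218) (nat_lit 206))) (XT.nd (nat_lit 94) (nat_lit 672) (nat_lit 0) (XT.lf (nat_lit 0) (nat_lit 7002351294) (nat_lit 672) (nat_lit 624163859) (nat_lit 84) (nat_lit 717066790) (nat_lit 122) (nat_lit 5) (nat_lit 130) (nat_lit 5) (nat_lit 123) (nat_lit 4) (nat_lit 297) (nat_lit 218) (nat_lit 205)) (XT.lf (nat_lit 0) (nat_lit 2464823927) (nat_lit 672) (nat_lit 2116119138) (nat_lit 84) (nat_lit 3834663809) (nat_lit 114) (nat_lit 5) (nat_lit 122) (nat_lit 5) (nat_lit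 115) (nat_lit 5) (nat_lit 298) (nat_lit 218) (nat_lit 204)))))) (XT.nd (nat_lit 658) (nat_lit 3360) (nat_lit 0) (XT.nd (nat_lit 282) (nat_lit 1680) (nat_lit 0) (XT.nd (nat_lit 94) (nat_lit 1176) (nat_lit 0) (XT.lf (nat_lit 0) (nat_lit 4865367639) (nat_lit 588) (nat_lit 1443055272) (nat_lit 672) (nat_lit 2181160440) (nat_lit 107) (nat_lit 5) (nat_lit 114) (nat_lit 5) (nat_lit 115) (nat_lit 5) (nat_lit 299) (nat_lit 218) (nat_lit 203)) (XT.nd (nat_lit 94) (nat_lit 588) (nat_lit 0) (XT.lf (nat_lit 0) (nat_lit 1634695995) (nat_lit 588) (nat_lit 5164771767) (nat_lit 84) (nat_lit 1765735359) (nat_lit 100) (nat_lit 5) (nat_lit 107) (nat_lit 5) (nat_lit 101) (nat_lit 5) (nat_lit 300) (nat_lit 218) (nat_lit 202)) (XT.lf (nat_lit 0) (nat_lit 1901191422) (nat_lit 588) (nat_lit 3587354700) (nat_lit 672) (nat_lit 3153895735) (nat_lit 93) (nat_lit 5) (nat_lit 100) (nat_lit 5) (nat_lit 101) (nat_lit 5) (nat_lit 301)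 (nat_lit 218) (nat_lit 201)))) (XT.nd (nat_lit 188) (nat_lit 1092) (nat_lit 0) (XT.nd (nat_lit 94) (nat_lit 0) (nat_lit 0) (XT.lf (nat_lit 0) (nat_lit 387734440) (nat_lit 504) (nat_lit 284511037) (nat_lit 588) (nat_lit 8049538338) (nat_lit 86) (nat_lit 5) (nat_lit 92) (nat_lit 5) (nat_lit 93) (nat_lit 5) (nat_lit 302) (nat_lit 218) (nat_lit 200)) (XT.lf (nat_lit 0) (nat_lit 4544278812) (nat_lit 588) (nat_lit 1165171795) (nat_lit 84) (nat_lit 3092736428) (nat_lit 86) (nat_lit 5) (nat_lit 93) (nat_lit 5) (nat_lit 87) (nat_lit 5) (nat_lit 303) (nat_lit 218) (nat_lit 199))) (XT.nd (nat_lit 94) (nat_lit 588) (nat_lit 0) (XT.lf (nat_lit 0) (nat_lit 6157733529) (nat_lit 504) (nat_lit 2327044944) (nat_lit 588) (nat_lit 399948460) (nat_lit 80) (nat_lit 5) (nat_lit 86) (nat_lit 5) (nat_lit 87) (nat_lit 5) (nat_lit 304) (nat_lit 218) (nat_lit 198)) (XT.lf (nat_lit 0) (nat_lit 3479528154) (nat_lit 588) (nat_lit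 4336082482) (nat_lit 84) (nat_lit 1153188108) (nat_lit 73) (nat_lit 5) (nat_lit 80) (nat_lit 5) (nat_lit 74) (nat_lit 5) (nat_lit 305) (nat_lit 218) (nat_lit 197))))) (XT.nd (nat_lit 376) (nat_lit 1764) (nat_lit 0) (XT.nd (nat_lit 188) (nat_lit 588) (nat_lit 0) (XT.nd (nat_lit 94) (nat_lit 504) (nat_lit 0) (XT.lf (nat_lit 0) (nat_lit 3073998972) (nat_lit 504) (nat_lit 4361701840) (nat_lit 588) (nat_lit 1619016103) (nat_lit 67) (nat_lit 5) (nat_lit 73) (nat_lit 5) (nat_lit 74) (nat_lit 5) (nat_lit 306) (nat_lit 218) (nat_lit 196)) (XT.lf (nat_lit 0) (nat_lit 1483218170) (nat_lit 420) (nat_lit 800691530) (nat_lit 504) (nat_lit 6858663553) (nat_lit 61) (nat_lit 5) (nat_lit 66) (nat_lit 5) (nat_lit 67) (nat_lit 5) (nat_lit 307) (nat_lit 218) (nat_lit 195))) (XT.nd (nat_lit 94) (nat_lit 588) (nat_lit 0) (XT.lf (nat_lit 0) (nat_lit 6252406273) (nat_lit 504) (nat_lit 154815762) (nat_lit 84) (nat_lit 2824803249)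 (nat_lit 61) (nat_lit 5) (nat_lit 67) (nat_lit 5) (nat_lit 62) (nat_lit 5) (nat_lit 308) (nat_lit 218) (nat_lit 194)) (XT.lf (nat_lit 0) (nat_lit 970165450) (nat_lit 588) (nat_lit 1802855037) (nat_lit 84) (nat_lit 6550279588) (nat_lit 54) (nat_lit 5) (nat_lit 61) (nat_lit 5) (nat_lit 55) (nat_lit 5) (nat_lit 309) (nat_lit 218) (nat_lit 193)))) (XT.nd (nat_lit 188) (nat_lit 924) (nat_lit 0) (XT.nd (nat_lit 94) (nat_lit 420) (nat_lit 0) (XT.lf (nat_lit 0) (nat_lit 4953655490) (nat_lit 504) (nat_lit 3499513113) (nat_lit 84) (nat_lit 963142345) (nat_lit 49) (nat_lit 5) (nat_lit 55) (nat_lit 5) (nat_lit 50) (nat_lit 5) (nat_lit 310) (nat_lit 218) (nat_lit 192)) (XT.lf (nat_lit 0) (nat_lit 4272935161) (nat_lit 420) (nat_lit 4756676143) (nat_lit 504) (nat_lit 481650517) (nat_lit 44) (nat_lit 5) (nat_lit 49) (nat_lit 5) (nat_lit 50) (nat_lit 5) (nat_lit 311) (nat_lit 218) (nat_lit 191))) (XT.nd (nat_lit 94)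 (nat_lit 420) (nat_lit 0) (XT.lf (nat_lit 0) (nat_lit 2581689257) (nat_lit 420) (nat_lit 939010138) (nat_lit 504) (nat_lit 6087360730) (nat_lit 38) (nat_lit 5) (nat_lit 43) (nat_lit 5) (nat_lit 44) (nat_lit 5) (nat_lit 312) (nat_lit 218) (nat_lit 190)) (XT.lf (nat_lit 0) (nat_lit 842009781) (nat_lit 420) (nat_lit 6769479420) (nat_lit 504) (nat_lit 2095257134) (nat_lit 33) (nat_lit 5) (nat_lit 38) (nat_lit 5) (nat_lit 39) (nat_lit 5) (nat_lit 313) (nat_lit 218) (nat_lit 189))))))))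
noncomputable def xc4 : XT := (XT.nd (nat_lit 2820) (nat_lit 504) (nat_lit 0) (XT.nd (nat_lit 1410) (nat_lit 6552) (nat_lit 0) (XT.nd (nat_lit 658) (nat_lit 4956) (nat_lit 0) (XT.nd (nat_lit 282) (nat_lit 2436) (nat_lit 0) (XT.nd (nat_lit 94) (nat_lit 1764) (nat_lit 0) (XT.lf (nat_lit 0) (nat_lit 2595122776) (nat_lit 840) (nat_lit 565625832) (nat_lit 840) (nat_lit 565625832) (nat_lit 231) (nat_lit 4) (nat_lit 241) (nat_lit 5) (nat_lit 241) (nat_lit 4) (nat_lit 282) (nat_lit 219) (nat_lit 219)) (XT.nd (nat_lit 94) (nat_lit 840) (nat_lit 0) (XT.lf (nat_lit 0) (nat_lit 2592353148) (nat_lit 924) (nat_lit 3788593310) (nat_lit 0) (nat_lit 1120756208) (nat_lit 220) (nat_lit 5) (nat_lit 231) (nat_lit 4) (nat_lit 220) (nat_lit 4) (nat_lit 283) (nat_lit 219) (nat_lit 218)) (XT.lf (nat_lit 0) (nat_lit 2230085161) (nat_lit 840) (nat_lit 4116868368) (nat_lit 840) (nat_lit 1205352701) (nat_lit 210) (nat_lit 4) (nat_lit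 220) (nat_lit 5) (nat_lit 220) (nat_lit 4) (nat_lit 284) (nat_lit 219) (nat_lit 217)))) (XT.nd (nat_lit 188) (nat_lit 1596) (nat_lit 0) (XT.nd (nat_lit 94) (nat_lit 0) (nat_lit 0) (XT.lf (nat_lit 0) (nat_lit 737886230) (nat_lit 756) (nat_lit 1763757849) (nat_lit 840) (nat_lit 5102883826) (nat_lit 200) (nat_lit 5) (nat_lit 209) (nat_lit 5) (nat_lit 210) (nat_lit 4) (nat_lit 285) (nat_lit 219) (nat_lit 216)) (XT.lf (nat_lit 0) (nat_lit 6242730436) (nat_lit 840) (nat_lit 749250152) (nat_lit 0) (nat_lit 666378695) (nat_lit 200) (nat_lit 5) (nat_lit 210) (nat_lit 4) (nat_lit 200) (nat_lit 4) (nat_lit 286) (nat_lit 219) (nat_lit 215))) (XT.nd (nat_lit 94) (nat_lit 756) (nat_lit 0) (XT.lf (nat_lit 0) (nat_lit 2298299502) (nat_lit 840) (nat_lit 2249069991) (nat_lit 84) (nat_lit 3166089058) (nat_lit 190) (nat_lit 5) (nat_lit 200) (nat_lit 5) (nat_lit 191) (nat_lit 4) (nat_lit 287) (nat_lit 219) (nat_lit 214))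 (XT.lf (nat_lit 0) (nat_lit 4015878004) (nat_lit 756) (nat_lit 2019521178) (nat_lit 840) (nat_lit 1734973429) (nat_lit 181) (nat_lit 5) (nat_lit 190) (nat_lit 5) (nat_lit 191) (nat_lit 4) (nat_lit 288) (nat_lit 219) (nat_lit 213))))) (XT.nd (nat_lit 376) (nat_lit 2688) (nat_lit 0) (XT.nd (nat_lit 188) (nat_lit 756) (nat_lit 0) (XT.nd (nat_lit 94) (nat_lit 672) (nat_lit 0) (XT.lf (nat_lit 0) (nat_lit 1964736385) (nat_lit 840) (nat_lit 5275214995) (nat_lit 84) (nat_lit 588979519) (nat_lit 171) (nat_lit 5) (nat_lit 181) (nat_lit 5) (nat_lit 172) (nat_lit 4) (nat_lit 289) (nat_lit 219) (nat_lit 212)) (XT.lf (nat_lit 0) (nat_lit 1067364600) (nat_lit 672) (nat_lit 4632499185) (nat_lit 756) (nat_lit 2189085430) (nat_lit 163) (nat_lit 5) (nat_lit 171) (nat_lit 5) (nat_lit 172) (nat_lit 4) (nat_lit 290) (nat_lit 219) (nat_lit 211))) (XT.nd (nat_lit 94) (nat_lit 672) (nat_lit 0) (XT.lf (nat_lit 0) (nat_lit 1513263509)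 (nat_lit 756) (nat_lit 422079928) (nat_lit 84) (nat_lit 6015381929) (nat_lit 162) (nat_lit 5) (nat_lit 171) (nat_lit 5) (nat_lit 163) (nat_lit 5) (nat_lit 291) (nat_lit 219) (nat_lit 210)) (XT.lf (nat_lit 0) (nat_lit 5245679638) (nat_lit 756) (nat_lit 1917585607) (nat_lit 84) (nat_lit 850666290) (nat_lit 154) (nat_lit 5) (nat_lit 163) (nat_lit 5) (nat_lit 155) (nat_lit 4) (nat_lit 292) (nat_lit 219) (nat_lit 209)))) (XT.nd (nat_lit 188) (nat_lit 1260) (nat_lit 0) (XT.nd (nat_lit 94) (nat_lit 672) (nat_lit 0) (XT.lf (nat_lit 0) (nat_lit 949716141) (nat_lit 756) (nat_lit 3435159940) (nat_lit 84) (nat_lit 3693890472) (nat_lit 145) (nat_lit 5) (nat_lit 154) (nat_lit 5) (nat_lit 146) (nat_lit 5) (nat_lit 293) (nat_lit 219) (nat_lit 208)) (XT.lf (nat_lit 0) (nat_lit 3169845141) (nat_lit 672) (nat_lit 1508030146) (nat_lit 756) (nat_lit 3467388114) (nat_lit 137) (nat_lit 5) (nat_lit 145) (nat_lit 5) (nat_lit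 146) (nat_lit 5) (nat_lit 294) (nat_lit 219) (nat_lit 207))) (XT.nd (nat_lit 94) (nat_lit 588) (nat_lit 0) (XT.lf (nat_lit 0) (nat_lit 251460461) (nat_lit 672) (nat_lit 6532108091) (nat_lit 84) (nat_lit 1430038619) (nat_lit 129) (nat_lit 5) (nat_lit 137) (nat_lit 5) (nat_lit 130) (nat_lit 5) (nat_lit 295) (nat_lit 219) (nat_lit 206)) (XT.lf (nat_lit 0) (nat_lit 152608487) (nat_lit 588) (nat_lit 3830865671) (nat_lit 672) (nat_lit 4299812419) (nat_lit 122) (nat_lit 5) (nat_lit 129) (nat_lit 5) (nat_lit 130) (nat_lit 5) (nat_lit 296) (nat_lit 219) (nat_lit 205)))))) (XT.nd (nat_lit 658) (nat_lit 3528) (nat_lit 0) (XT.nd (nat_lit 282) (nat_lit 1764) (nat_lit 0) (XT.nd (nat_lit 94) (nat_lit 1260) (nat_lit 0) (XT.lf (nat_lit 0) (nat_lit 6992962216) (nat_lit 588) (nat_lit 786987570) (nat_lit 672) (nat_lit 574937277) (nat_lit 122) (nat_lit 5) (nat_lit 129) (nat_lit 5) (nat_lit 130) (nat_lit 5) (nat_lit 297)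 (nat_lit 219) (nat_lit 204)) (XT.nd (nat_lit 94) (nat_lit 588) (nat_lit 0) (XT.lf (nat_lit 0) (nat_lit 3176587743) (nat_lit 672) (nat_lit 2920694067) (nat_lit 84) (nat_lit 2330466931) (nat_lit 114) (nat_lit 5) (nat_lit 122) (nat_lit 5) (nat_lit 115) (nat_lit 5) (nat_lit 298) (nat_lit 219) (nat_lit 203)) (XT.lf (nat_lit 0) (nat_lit 4004562327) (nat_lit 588) (nat_lit 2977676893) (nat_lit 672) (nat_lit 1520320843) (nat_lit 107) (nat_lit 5) (nat_lit 114) (nat_lit 5) (nat_lit 115) (nat_lit 5) (nat_lit 299) (nat_lit 219) (nat_lit 202)))) (XT.nd (nat_lit 188) (nat_lit 588) (nat_lit 0) (XT.nd (nat_lit 94) (nat_lit 588) (nat_lit 0) (XT.lf (nat_lit 0) (nat_lit 2236647242) (nat_lit 588) (nat_lit 6103402955) (nat_lit 84) (nat_lit 239112219) (nat_lit 100) (nat_lit 5) (nat_lit 107) (nat_lit 5) (nat_lit 101) (nat_lit 5) (nat_lit 300) (nat_lit 219) (nat_lit 201)) (XT.lf (nat_lit 0) (nat_lit 903935828) (nat_lit 588)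 (nat_lit 5148070772) (nat_lit 672) (nat_lit 2605241348) (nat_lit 93) (nat_lit 5) (nat_lit 100) (nat_lit 5) (nat_lit 101) (nat_lit 5) (nat_lit 301) (nat_lit 219) (nat_lit 200))) (XT.nd (nat_lit 94) (nat_lit 504) (nat_lit 0) (XT.lf (nat_lit 0) (nat_lit 1178985283) (nat_lit 672) (nat_lit 678217595) (nat_lit 84) (nat_lit 6880049317) (nat_lit 92) (nat_lit 5) (nat_lit 100) (nat_lit 5) (nat_lit 93) (nat_lit 5) (nat_lit 302) (nat_lit 219) (nat_lit 199)) (XT.lf (nat_lit 0) (nat_lit 5003893105) (nat_lit 588) (nat_lit 2290035319) (nat_lit 84) (nat_lit 1524763754) (nat_lit 86) (nat_lit 5) (nat_lit 93) (nat_lit 5) (nat_lit 87) (nat_lit 5) (nat_lit 303) (nat_lit 219) (nat_lit 198))))) (XT.nd (nat_lit 376) (nat_lit 1428) (nat_lit 0) (XT.nd (nat_lit 188) (nat_lit 1008) (nat_lit 0) (XT.nd (nat_lit 94) (nat_lit 504) (nat_lit 0) (XT.lf (nat_lit 0) (nat_lit 3492771) (nat_lit 588) (nat_lit 3930018077) (nat_lit 84) (nat_lit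 4968573481) (nat_lit 79) (nat_lit 5) (nat_lit 86) (nat_lit 5) (nat_lit 80) (nat_lit 5) (nat_lit 304) (nat_lit 219) (nat_lit 197)) (XT.lf (nat_lit 0) (nat_lit 3373271465) (nat_lit 504) (nat_lit 456377845) (nat_lit 588) (nat_lit 5157490464) (nat_lit 73) (nat_lit 5) (nat_lit 79) (nat_lit 5) (nat_lit 80) (nat_lit 5) (nat_lit 305) (nat_lit 219) (nat_lit 196))) (XT.nd (nat_lit 94) (nat_lit 504) (nat_lit 0) (XT.lf (nat_lit 0) (nat_lit 1736125320) (nat_lit 504) (nat_lit 6006965440) (nat_lit 588) (nat_lit 1330907272) (nat_lit 67) (nat_lit 5) (nat_lit 73) (nat_lit 5) (nat_lit 74) (nat_lit 5) (nat_lit 306) (nat_lit 219) (nat_lit 195)) (XT.lf (nat_lit 0) (nat_lit 59315869) (nat_lit 420) (nat_lit 2468577319) (nat_lit 504) (nat_lit 6634795495) (nat_lit 61) (nat_lit 5) (nat_lit 66) (nat_lit 5) (nat_lit 67) (nat_lit 5) (nat_lit 307) (nat_lit 219) (nat_lit 194)))) (XT.nd (nat_lit 188) (nat_lit 840) (nat_lit 0) (XT.nd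 (nat_lit 94) (nat_lit 588) (nat_lit 0) (XT.lf (nat_lit 0) (nat_lit 6454903551) (nat_lit 504) (nat_lit 1631366689) (nat_lit 84) (nat_lit 1166783172) (nat_lit 61) (nat_lit 5) (nat_lit 67) (nat_lit 5) (nat_lit 62) (nat_lit 5) (nat_lit 308) (nat_lit 219) (nat_lit 193)) (XT.lf (nat_lit 0) (nat_lit 1108776229) (nat_lit 588) (nat_lit 3367985628) (nat_lit 84) (nat_lit 4868423288) (nat_lit 54) (nat_lit 5) (nat_lit 61) (nat_lit 5) (nat_lit 55) (nat_lit 5) (nat_lit 309) (nat_lit 219) (nat_lit 192))) (XT.nd (nat_lit 94) (nat_lit 420) (nat_lit 0) (XT.lf (nat_lit 0) (nat_lit 4291706847) (nat_lit 420) (nat_lit 753111396) (nat_lit 504) (nat_lit 4394421632) (nat_lit 49) (nat_lit 5) (nat_lit 54) (nat_lit 5) (nat_lit 55) (nat_lit 5) (nat_lit 310) (nat_lit 219) (nat_lit 191)) (XT.lf (nat_lit 0) (nat_lit 2561860938) (nat_lit 420) (nat_lit 6512708094) (nat_lit 504) (nat_lit 460638228) (nat_lit 44) (nat_lit 5) (nat_lit 49)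 (nat_lit 5) (nat_lit 50) (nat_lit 5) (nat_lit 311) (nat_lit 219) (nat_lit 190))))))) (XT.nd (nat_lit 43428) (nat_lit 0) (nat_lit 2352) (XT.nd (nat_lit 42676) (nat_lit 0) (nat_lit 9744) (XT.nd (nat_lit 42300) (nat_lit 0) (nat_lit 14364) (XT.nd (nat_lit 94) (nat_lit 0) (nat_lit 0) (XT.lf (nat_lit 0) (nat_lit 776646712) (nat_lit 420) (nat_lit 2723353402) (nat_lit 504) (nat_lit 6132913153) (nat_lit 38) (nat_lit 5) (nat_lit 43) (nat_lit 5) (nat_lit 44) (nat_lit 5) (nat_lit 312) (nat_lit 219) (nat_lit 189)) (XT.nd (nat_lit 42112) (nat_lit 0) (nat_lit 17052) (XT.lf (nat_lit 0) (nat_lit 7543725874) (nat_lit 504) (nat_lit 1031373349) (nat_lit 84) (nat_lit 1157535662) (nat_lit 38) (nat_lit 5) (nat_lit 44) (nat_lit 5) (nat_lit 39) (nat_lit 5) (nat_lit 313) (nat_lit 219) (nat_lit 188)) (XT.lf (nat_lit 0) (nat_lit 205576289) (nat_lit 924) (nat_lit 3268208805) (nat_lit 0) (nat_lit 205576289) (nat_lit 241) (nat_lit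 5) (nat_lit 252) (nat_lit 4) (nat_lit 241) (nat_lit 4) (nat_lit 280) (nat_lit 220) (nat_lit 220)))) (XT.nd (nat_lit 188) (nat_lit 1764) (nat_lit 0) (XT.nd (nat_lit 94) (nat_lit 924) (nat_lit 0) (XT.lf (nat_lit 0) (nat_lit 4094804205) (nat_lit 924) (nat_lit 752665133) (nat_lit 0) (nat_lit 2557744748) (nat_lit 241) (nat_lit 5) (nat_lit 252) (nat_lit 4) (nat_lit 241) (nat_lit 4) (nat_lit 281) (nat_lit 220) (nat_lit 219)) (XT.lf (nat_lit 0) (nat_lit 362292907) (nat_lit 924) (nat_lit 2308475270) (nat_lit 84) (nat_lit 4782745850) (nat_lit 230) (nat_lit 5) (nat_lit 241) (nat_lit 5) (nat_lit 231) (nat_lit 4) (nat_lit 282) (nat_lit 220) (nat_lit 218))) (XT.nd (nat_lit 94) (nat_lit 924) (nat_lit 0) (XT.lf (nat_lit 0) (nat_lit 3623798033) (nat_lit 840) (nat_lit 400151769) (nat_lit 924) (nat_lit 3479345123) (nat_lit 220) (nat_lit 5) (nat_lit 230) (nat_lit 5) (nat_lit 231) (nat_lit 4) (nat_lit 283) (nat_lit 220)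 (nat_lit 217)) (XT.lf (nat_lit 0) (nat_lit 180925841) (nat_lit 924) (nat_lit 5458578120) (nat_lit 84) (nat_lit 1915250106) (nat_lit 209) (nat_lit 5) (nat_lit 220) (nat_lit 5) (nat_lit 210) (nat_lit 4) (nat_lit 284) (nat_lit 220) (nat_lit 216))))) (XT.nd (nat_lit 376) (nat_lit 2268) (nat_lit 0) (XT.nd (nat_lit 188) (nat_lit 1596) (nat_lit 0) (XT.nd (nat_lit 94) (nat_lit 0) (nat_lit 0) (XT.lf (nat_lit 0) (nat_lit 547368150) (nat_lit 756) (nat_lit 3285654451) (nat_lit 840) (nat_lit 3774590109) (nat_lit 200) (nat_lit 5) (nat_lit 209) (nat_lit 5) (nat_lit 210) (nat_lit 4) (nat_lit 285) (nat_lit 220) (nat_lit 215)) (XT.lf (nat_lit 0) (nat_lit 6680991749) (nat_lit 756) (nat_lit 852595046) (nat_lit 840) (nat_lit 128748780) (nat_lit 200) (nat_lit 5) (nat_lit 209) (nat_lit 5) (nat_lit 210) (nat_lit 4) (nat_lit 286) (nat_lit 220) (nat_lit 214))) (XT.nd (nat_lit 94) (nat_lit 756) (nat_lit 0) (XT.lf (nat_lit 0) (nat_lit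 3523333806) (nat_lit 840) (nat_lit 2535115126) (nat_lit 84) (nat_lit 1659737076) (nat_lit 190) (nat_lit 5) (nat_lit 200) (nat_lit 5) (nat_lit 191) (nat_lit 4) (nat_lit 287) (nat_lit 220) (nat_lit 213)) (XT.lf (nat_lit 0) (nat_lit 3682501616) (nat_lit 756) (nat_lit 3540774637) (nat_lit 840) (nat_lit 552641274) (nat_lit 181) (nat_lit 5) (nat_lit 190) (nat_lit 5) (nat_lit 191) (nat_lit 4) (nat_lit 288) (nat_lit 220) (nat_lit 212)))) (XT.nd (nat_lit 188) (nat_lit 756) (nat_lit 0) (XT.nd (nat_lit 94) (nat_lit 672) (nat_lit 0) (XT.lf (nat_lit 0) (nat_lit 2162295000) (nat_lit 756) (nat_lit 926083787) (nat_lit 840) (nat_lit 4746828273) (nat_lit 171) (nat_lit 5) (nat_lit 180) (nat_lit 5) (nat_lit 181) (nat_lit 5) (nat_lit 289) (nat_lit 220) (nat_lit 211)) (XT.lf (nat_lit 0) (nat_lit 626807861) (nat_lit 672) (nat_lit 6152762305) (nat_lit 756) (nat_lit 1116621803) (nat_lit 163) (nat_lit 5) (nat_lit 171) (nat_lit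 5) (nat_lit 172) (nat_lit 4) (nat_lit 290) (nat_lit 220) (nat_lit 210))) (XT.nd (nat_lit 94) (nat_lit 672) (nat_lit 0) (XT.lf (nat_lit 0) (nat_lit 2536264643) (nat_lit 756) (nat_lit 920815314) (nat_lit 84) (nat_lit 4501468439) (nat_lit 162) (nat_lit 5) (nat_lit 171) (nat_lit 5) (nat_lit 163) (nat_lit 5) (nat_lit 291) (nat_lit 220) (nat_lit 209)) (XT.lf (nat_lit 0) (nat_lit 5553621932) (nat_lit 672) (nat_lit 671716715) (nat_lit 756) (nat_lit 1797369445) (nat_lit 154) (nat_lit 5) (nat_lit 162) (nat_lit 5) (nat_lit 163) (nat_lit 5) (nat_lit 292) (nat_lit 220) (nat_lit 208)))))) (XT.nd (nat_lit 658) (nat_lit 3444) (nat_lit 0) (XT.nd (nat_lit 282) (nat_lit 1848) (nat_lit 0) (XT.nd (nat_lit 94) (nat_lit 1344) (nat_lit 0) (XT.lf (nat_lit 0) (nat_lit 1864332429) (nat_lit 756) (nat_lit 4049515605) (nat_lit 84) (nat_lit 2174473140) (nat_lit 145) (nat_lit 5) (nat_lit 154) (nat_lit 5) (nat_lit 146) (nat_lit 5) (nat_lit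 293) (nat_lit 220) (nat_lit 207)) (XT.nd (nat_lit 94) (nat_lit 672) (nat_lit 0) (XT.lf (nat_lit 0) (nat_lit 2502998849) (nat_lit 672) (nat_lit 3051980709) (nat_lit 756) (nat_lit 2600663728) (nat_lit 137) (nat_lit 5) (nat_lit 145) (nat_lit 5) (nat_lit 146) (nat_lit 5) (nat_lit 294) (nat_lit 220) (nat_lit 206)) (XT.lf (nat_lit 0) (nat_lit 954993322) (nat_lit 588) (nat_lit 102526732) (nat_lit 672) (nat_lit 7167391162) (nat_lit 129) (nat_lit 5) (nat_lit 136) (nat_lit 5) (nat_lit 137) (nat_lit 5) (nat_lit 295) (nat_lit 220) (nat_lit 205)))) (XT.nd (nat_lit 188) (nat_lit 1176) (nat_lit 0) (XT.nd (nat_lit 94) (nat_lit 672) (nat_lit 0) (XT.lf (nat_lit 0) (nat_lit 4755442951) (nat_lit 672) (nat_lit 630043460) (nat_lit 84) (nat_lit 2909854209) (nat_lit 129) (nat_lit 5) (nat_lit 137) (nat_lit 5) (nat_lit 130) (nat_lit 5) (nat_lit 296) (nat_lit 220) (nat_lit 204)) (XT.lf (nat_lit 0) (nat_lit 145608983) (nat_lit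 672) (nat_lit 2210753043) (nat_lit 84) (nat_lit 6011357585) (nat_lit 121) (nat_lit 5) (nat_lit 129) (nat_lit 5) (nat_lit 122) (nat_lit 5) (nat_lit 297) (nat_lit 220) (nat_lit 203))) (XT.nd (nat_lit 94) (nat_lit 588) (nat_lit 0) (XT.lf (nat_lit 0) (nat_lit 3839678841) (nat_lit 672) (nat_lit 3831598043) (nat_lit 84) (nat_lit 770296140) (nat_lit 114) (nat_lit 5) (nat_lit 122) (nat_lit 5) (nat_lit 115) (nat_lit 5) (nat_lit 298) (nat_lit 220) (nat_lit 202)) (XT.lf (nat_lit 0) (nat_lit 3036831448) (nat_lit 588) (nat_lit 4570474588) (nat_lit 672) (nat_lit 909914844) (nat_lit 107) (nat_lit 5) (nat_lit 114) (nat_lit 5) (nat_lit 115) (nat_lit 5) (nat_lit 299) (nat_lit 220) (nat_lit 201))))) (XT.nd (nat_lit 376) (nat_lit 1680) (nat_lit 0) (XT.nd (nat_lit 188) (nat_lit 1176) (nat_lit 0) (XT.nd (nat_lit 94) (nat_lit 0) (nat_lit 0) (XT.lf (nat_lit 0) (nat_lit 1432705752) (nat_lit 504) (nat_lit 1365397029) (nat_lit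 588) (nat_lit 5796508284) (nat_lit 100) (nat_lit 5) (nat_lit 106) (nat_lit 5) (nat_lit 107) (nat_lit 5) (nat_lit 300) (nat_lit 220) (nat_lit 200)) (XT.lf (nat_lit 0) (nat_lit 6566585718) (nat_lit 588) (nat_lit 201168013) (nat_lit 84) (nat_lit 1905974148) (nat_lit 100) (nat_lit 5) (nat_lit 107) (nat_lit 5) (nat_lit 101) (nat_lit 5) (nat_lit 301) (nat_lit 220) (nat_lit 199))) (XT.nd (nat_lit 94) (nat_lit 504) (nat_lit 0) (XT.lf (nat_lit 0) (nat_lit 1637868182) (nat_lit 672) (nat_lit 1849752476) (nat_lit 84) (nat_lit 5266738336) (nat_lit 92) (nat_lit 5) (nat_lit 100) (nat_lit 5) (nat_lit 93) (nat_lit 5) (nat_lit 302) (nat_lit 220) (nat_lit 198)) (XT.lf (nat_lit 0) (nat_lit 5308136115) (nat_lit 504) (nat_lit 104926277) (nat_lit 588) (nat_lit 3423830284) (nat_lit 86) (nat_lit 5) (nat_lit 92) (nat_lit 5) (nat_lit 93) (nat_lit 5) (nat_lit 303) (nat_lit 220) (nat_lit 197)))) (XT.nd (nat_lit 188) (nat_lit 588)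 (nat_lit 0) (XT.nd (nat_lit 94) (nat_lit 504) (nat_lit 0) (XT.lf (nat_lit 0) (nat_lit 348872052) (nat_lit 588) (nat_lit 5251037740) (nat_lit 84) (nat_lit 3321192848) (nat_lit 79) (nat_lit 5) (nat_lit 86) (nat_lit 5) (nat_lit 80) (nat_lit 5) (nat_lit 304) (nat_lit 220) (nat_lit 196)) (XT.lf (nat_lit 0) (nat_lit 1989437276) (nat_lit 504) (nat_lit 2146190813) (nat_lit 588) (nat_lit 4871396808) (nat_lit 73) (nat_lit 5) (nat_lit 79) (nat_lit 5) (nat_lit 80) (nat_lit 5) (nat_lit 305) (nat_lit 220) (nat_lit 195))) (XT.nd (nat_lit 94) (nat_lit 84) (nat_lit 0) (XT.lf (nat_lit 0) (nat_lit 280354790) (nat_lit 504) (nat_lit 7717002407) (nat_lit 588) (nat_lit 1097663630) (nat_lit 67) (nat_lit 5) (nat_lit 73) (nat_lit 5) (nat_lit 74) (nat_lit 5) (nat_lit 306) (nat_lit 220) (nat_lit 194)) (XT.lf (nat_lit 0) (nat_lit 2728164187) (nat_lit 588) (nat_lit 1463228602) (nat_lit 84) (nat_lit 4992933627) (nat_lit 66) (nat_lit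 5) (nat_lit 73) (nat_lit 5) (nat_lit 67) (nat_lit 5) (nat_lit 307) (nat_lit 220) (nat_lit 193))))))))
noncomputable def xc5 : XT := (XT.nd (nat_lit 44650) (nat_lit 0) (nat_lit 0) (XT.nd (nat_lit 43240) (nat_lit 0) (nat_lit 5208) (XT.nd (nat_lit 42488) (nat_lit 0) (nat_lit 13524) (XT.nd (nat_lit 282) (nat_lit 924) (nat_lit 0) (XT.nd (nat_lit 94) (nat_lit 1008) (nat_lit 0) (XT.lf (nat_lit 0) (nat_lit 6043454481) (nat_lit 420) (nat_lit 563844047) (nat_lit 504) (nat_lit 2668445889) (nat_lit 61) (nat_lit 5) (nat_lit 66) (nat_lit 5) (nat_lit 67) (nat_lit 5) (nat_lit 308) (nat_lit 220) (nat_lit 192)) (XT.nd (nat_lit 94) (nat_lit 420) (nat_lit 0) (XT.lf (nat_lit 0) (nat_lit 1192080527) (nat_lit 588) (nat_lit 5055638613) (nat_lit 84) (nat_lit 3121116378) (nat_lit 54) (nat_lit 5) (nat_lit 61) (nat_lit 5) (nat_lit 55) (nat_lit 5) (nat_lit 309) (nat_lit 220) (nat_lit 191)) (XT.lf (nat_lit 0) (nat_lit 2536140387)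 (nat_lit 420) (nat_lit 2551237609) (nat_lit 504) (nat_lit 4376408632) (nat_lit 49) (nat_lit 5) (nat_lit 54) (nat_lit 5) (nat_lit 55) (nat_lit 5) (nat_lit 310) (nat_lit 220) (nat_lit 190)))) (XT.nd (nat_lit 188) (nat_lit 420) (nat_lit 0) (XT.nd (nat_lit 94) (nat_lit 84) (nat_lit 0) (XT.lf (nat_lit 0) (nat_lit 725271788) (nat_lit 420) (nat_lit 8337930787) (nat_lit 504) (nat_lit 497737814) (nat_lit 44) (nat_lit 5) (nat_lit 49) (nat_lit 5) (nat_lit 50) (nat_lit 5) (nat_lit 311) (nat_lit 220) (nat_lit 189)) (XT.lf (nat_lit 0) (nat_lit 3429966065) (nat_lit 504) (nat_lit 1139527864) (nat_lit 84) (nat_lit 5089894596) (nat_lit 43) (nat_lit 5) (nat_lit 49) (nat_lit 5) (nat_lit 44) (nat_lit 5) (nat_lit 312) (nat_lit 220) (nat_lit 188))) (XT.nd (nat_lit 41924) (nat_lit 0) (nat_lit 18900) (XT.lf (nat_lit 0) (nat_lit 6734364114) (nat_lit 420) (nat_lit 695087271) (nat_lit 504) (nat_lit 2330632047) (nat_lit 38) (nat_lit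 5) (nat_lit 43) (nat_lit 5) (nat_lit 44) (nat_lit 5) (nat_lit 313) (nat_lit 220) (nat_lit 187)) (XT.lf (nat_lit 0) (nat_lit 998150031) (nat_lit 1008) (nat_lit 1638170919) (nat_lit 0) (nat_lit 998150031) (nat_lit 263) (nat_lit 5) (nat_lit 275) (nat_lit 4) (nat_lit 263) (nat_lit 4) (nat_lit 278) (nat_lit 221) (nat_lit 221))))) (XT.nd (nat_lit 376) (nat_lit 2604) (nat_lit 0) (XT.nd (nat_lit 188) (nat_lit 924) (nat_lit 0) (XT.nd (nat_lit 94) (nat_lit 924) (nat_lit 0) (XT.lf (nat_lit 0) (nat_lit 2383665090) (nat_lit 924) (nat_lit 3267544613) (nat_lit 924) (nat_lit 1662110602) (nat_lit 252) (nat_lit 4) (nat_lit 263) (nat_lit 5) (nat_lit 263) (nat_lit 4) (nat_lit 279) (nat_lit 221) (nat_lit 220)) (XT.lf (nat_lit 0) (nat_lit 771702450) (nat_lit 840) (nat_lit 1180825356) (nat_lit 924) (nat_lit 5406843952) (nat_lit 241) (nat_lit 5) (nat_lit 251) (nat_lit 5) (nat_lit 252) (nat_lit 4) (nat_lit 280) (nat_lit 221)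 (nat_lit 219))) (XT.nd (nat_lit 94) (nat_lit 924) (nat_lit 0) (XT.lf (nat_lit 0) (nat_lit 5590673385) (nat_lit 924) (nat_lit 837423735) (nat_lit 0) (nat_lit 978767090) (nat_lit 241) (nat_lit 5) (nat_lit 252) (nat_lit 4) (nat_lit 241) (nat_lit 4) (nat_lit 281) (nat_lit 221) (nat_lit 218)) (XT.lf (nat_lit 0) (nat_lit 1797514353) (nat_lit 924) (nat_lit 2448929211) (nat_lit 84) (nat_lit 3209310899) (nat_lit 230) (nat_lit 5) (nat_lit 241) (nat_lit 5) (nat_lit 231) (nat_lit 4) (nat_lit 282) (nat_lit 221) (nat_lit 217)))) (XT.nd (nat_lit 188) (nat_lit 840) (nat_lit 0) (XT.nd (nat_lit 94) (nat_lit 924) (nat_lit 0) (XT.lf (nat_lit 0) (nat_lit 3439442316) (nat_lit 840) (nat_lit 1982350106) (nat_lit 924) (nat_lit 2084565275) (nat_lit 220) (nat_lit 5) (nat_lit 230) (nat_lit 5) (nat_lit 231) (nat_lit 4) (nat_lit 283) (nat_lit 221) (nat_lit 216)) (XT.lf (nat_lit 0) (nat_lit 1506799651) (nat_lit 924) (nat_lit 5693314113)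 (nat_lit 84) (nat_lit 358558465) (nat_lit 209) (nat_lit 5) (nat_lit 220) (nat_lit 5) (nat_lit 210) (nat_lit 4) (nat_lit 284) (nat_lit 221) (nat_lit 215))) (XT.nd (nat_lit 94) (nat_lit 84) (nat_lit 0) (XT.lf (nat_lit 0) (nat_lit 266680407) (nat_lit 756) (nat_lit 4854813468) (nat_lit 840) (nat_lit 2490859853) (nat_lit 200) (nat_lit 5) (nat_lit 209) (nat_lit 5) (nat_lit 210) (nat_lit 4) (nat_lit 285) (nat_lit 221) (nat_lit 214)) (XT.lf (nat_lit 0) (nat_lit 1103154324) (nat_lit 840) (nat_lit 1317120137) (nat_lit 84) (nat_lit 5247395351) (nat_lit 199) (nat_lit 5) (nat_lit 209) (nat_lit 5) (nat_lit 200) (nat_lit 5) (nat_lit 286) (nat_lit 221) (nat_lit 213)))))) (XT.nd (nat_lit 658) (nat_lit 3780) (nat_lit 0) (XT.nd (nat_lit 282) (nat_lit 2184) (nat_lit 0) (XT.nd (nat_lit 94) (nat_lit 1596) (nat_lit 0) (XT.lf (nat_lit 0) (nat_lit 4704988621) (nat_lit 840) (nat_lit 2913448048) (nat_lit 84) (nat_lit 106128066)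 (nat_lit 190) (nat_lit 5) (nat_lit 200) (nat_lit 5) (nat_lit 191) (nat_lit 4) (nat_lit 287) (nat_lit 221) (nat_lit 212)) (XT.nd (nat_lit 94) (nat_lit 756) (nat_lit 0) (XT.lf (nat_lit 0) (nat_lit 576328163) (nat_lit 840) (nat_lit 4530859418) (nat_lit 84) (nat_lit 2675832551) (nat_lit 180) (nat_lit 5) (nat_lit 190) (nat_lit 5) (nat_lit 181) (nat_lit 5) (nat_lit 288) (nat_lit 221) (nat_lit 211)) (XT.lf (nat_lit 0) (nat_lit 1672045922) (nat_lit 756) (nat_lit 2500010347) (nat_lit 840) (nat_lit 3670988098) (nat_lit 171) (nat_lit 5) (nat_lit 180) (nat_lit 5) (nat_lit 181) (nat_lit 5) (nat_lit 289) (nat_lit 221) (nat_lit 210)))) (XT.nd (nat_lit 188) (nat_lit 1428) (nat_lit 0) (XT.nd (nat_lit 94) (nat_lit 84) (nat_lit 0) (XT.lf (nat_lit 0) (nat_lit 90018508) (nat_lit 672) (nat_lit 7724729121) (nat_lit 756) (nat_lit 90348646) (nat_lit 163) (nat_lit 5) (nat_lit 171) (nat_lit 5) (nat_lit 172) (nat_lit 4) (nat_lit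 290) (nat_lit 221) (nat_lit 209)) (XT.lf (nat_lit 0) (nat_lit 3514472831) (nat_lit 756) (nat_lit 1516183824) (nat_lit 84) (nat_lit 2937367455) (nat_lit 162) (nat_lit 5) (nat_lit 171) (nat_lit 5) (nat_lit 163) (nat_lit 5) (nat_lit 291) (nat_lit 221) (nat_lit 208))) (XT.nd (nat_lit 94) (nat_lit 756) (nat_lit 0) (XT.lf (nat_lit 0) (nat_lit 4907494622) (nat_lit 672) (nat_lit 2258882796) (nat_lit 756) (nat_lit 866624113) (nat_lit 154) (nat_lit 5) (nat_lit 162) (nat_lit 5) (nat_lit 163) (nat_lit 5) (nat_lit 292) (nat_lit 221) (nat_lit 207)) (XT.lf (nat_lit 0) (nat_lit 2732825685) (nat_lit 756) (nat_lit 4764102422) (nat_lit 84) (nat_lit 602615269) (nat_lit 145) (nat_lit 5) (nat_lit 154) (nat_lit 5) (nat_lit 146) (nat_lit 5) (nat_lit 293) (nat_lit 221) (nat_lit 206))))) (XT.nd (nat_lit 376) (nat_lit 1764) (nat_lit 0) (XT.nd (nat_lit 188) (nat_lit 672) (nat_lit 0) (XT.nd (nat_lit 94) (nat_lit 672) (nat_lit 0)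 (XT.lf (nat_lit 0) (nat_lit 1735393329) (nat_lit 672) (nat_lit 4650554982) (nat_lit 756) (nat_lit 1781742716) (nat_lit 137) (nat_lit 5) (nat_lit 145) (nat_lit 5) (nat_lit 146) (nat_lit 5) (nat_lit 294) (nat_lit 221) (nat_lit 205)) (XT.lf (nat_lit 0) (nat_lit 115286698) (nat_lit 588) (nat_lit 1711484011) (nat_lit 672) (nat_lit 6410893171) (nat_lit 129) (nat_lit 5) (nat_lit 136) (nat_lit 5) (nat_lit 137) (nat_lit 5) (nat_lit 295) (nat_lit 221) (nat_lit 204))) (XT.nd (nat_lit 94) (nat_lit 672) (nat_lit 0) (XT.lf (nat_lit 0) (nat_lit 5481653940) (nat_lit 672) (nat_lit 1513482489) (nat_lit 84) (nat_lit 1313903728) (nat_lit 129) (nat_lit 5) (nat_lit 137) (nat_lit 5) (nat_lit 130) (nat_lit 5) (nat_lit 296) (nat_lit 221) (nat_lit 203)) (XT.lf (nat_lit 0) (nat_lit 810000449) (nat_lit 672) (nat_lit 3168564506) (nat_lit 84) (nat_lit 4403575400) (nat_lit 121) (nat_lit 5) (nat_lit 129) (nat_lit 5) (nat_lit 122) (nat_lit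 5) (nat_lit 297) (nat_lit 221) (nat_lit 202)))) (XT.nd (nat_lit 188) (nat_lit 588) (nat_lit 0) (XT.nd (nat_lit 94) (nat_lit 588) (nat_lit 0) (XT.lf (nat_lit 0) (nat_lit 3601570640) (nat_lit 588) (nat_lit 858959178) (nat_lit 672) (nat_lit 3996421841) (nat_lit 114) (nat_lit 5) (nat_lit 121) (nat_lit 5) (nat_lit 122) (nat_lit 5) (nat_lit 298) (nat_lit 221) (nat_lit 201)) (XT.lf (nat_lit 0) (nat_lit 1961716702) (nat_lit 588) (nat_lit 6222202676) (nat_lit 672) (nat_lit 349653365) (nat_lit 107) (nat_lit 5) (nat_lit 114) (nat_lit 5) (nat_lit 115) (nat_lit 5) (nat_lit 299) (nat_lit 221) (nat_lit 200))) (XT.nd (nat_lit 94) (nat_lit 0) (nat_lit 0) (XT.lf (nat_lit 0) (nat_lit 278519243) (nat_lit 504) (nat_lit 3033232960) (nat_lit 588) (nat_lit 5299970861) (nat_lit 100) (nat_lit 5) (nat_lit 106) (nat_lit 5) (nat_lit 107) (nat_lit 5) (nat_lit 300) (nat_lit 221) (nat_lit 199)) (XT.lf (nat_lit 0) (nat_lit 7038304427)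 (nat_lit 588) (nat_lit 1402961844) (nat_lit 84) (nat_lit 250496083) (nat_lit 100) (nat_lit 5) (nat_lit 107) (nat_lit 5) (nat_lit 101) (nat_lit 5) (nat_lit 301) (nat_lit 221) (nat_lit 198))))))) (XT.nd (nat_lit 43052) (nat_lit 0) (nat_lit 8988) (XT.nd (nat_lit 658) (nat_lit 1932) (nat_lit 0) (XT.nd (nat_lit 282) (nat_lit 1512) (nat_lit 0) (XT.nd (nat_lit 94) (nat_lit 1092) (nat_lit 0) (XT.lf (nat_lit 0) (nat_lit 2046349570) (nat_lit 672) (nat_lit 3133009628) (nat_lit 84) (nat_lit 3593813877) (nat_lit 92) (nat_lit 5) (nat_lit 100) (nat_lit 5) (nat_lit 93) (nat_lit 5) (nat_lit 302) (nat_lit 221) (nat_lit 197)) (XT.nd (nat_lit 94) (nat_lit 588) (nat_lit 0) (XT.lf (nat_lit 0) (nat_lit 3963926402) (nat_lit 504) (nat_lit 1818766956) (nat_lit 588) (nat_lit 3073868108) (nat_lit 86) (nat_lit 5) (nat_lit 92) (nat_lit 5) (nat_lit 93) (nat_lit 5) (nat_lit 303) (nat_lit 221) (nat_lit 196)) (XT.lf (nat_lit 0) (nat_lit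 642113479) (nat_lit 588) (nat_lit 6687829078) (nat_lit 84) (nat_lit 1611910995) (nat_lit 79) (nat_lit 5) (nat_lit 86) (nat_lit 5) (nat_lit 80) (nat_lit 5) (nat_lit 304) (nat_lit 221) (nat_lit 195)))) (XT.nd (nat_lit 188) (nat_lit 1008) (nat_lit 0) (XT.nd (nat_lit 94) (nat_lit 0) (nat_lit 0) (XT.lf (nat_lit 0) (nat_lit 489076170) (nat_lit 504) (nat_lit 3900198753) (nat_lit 588) (nat_lit 4639371966) (nat_lit 73) (nat_lit 5) (nat_lit 79) (nat_lit 5) (nat_lit 80) (nat_lit 5) (nat_lit 305) (nat_lit 221) (nat_lit 194)) (XT.lf (nat_lit 0) (nat_lit 7839527662) (nat_lit 504) (nat_lit 370952742) (nat_lit 588) (nat_lit 907053934) (nat_lit 73) (nat_lit 5) (nat_lit 79) (nat_lit 5) (nat_lit 80) (nat_lit 5) (nat_lit 306) (nat_lit 221) (nat_lit 193))) (XT.nd (nat_lit 94) (nat_lit 420) (nat_lit 0) (XT.lf (nat_lit 0) (nat_lit 2875519991) (nat_lit 588) (nat_lit 3103935941) (nat_lit 84) (nat_lit 3228245313) (nat_lit 66)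 (nat_lit 5) (nat_lit 73) (nat_lit 5) (nat_lit 67) (nat_lit 5) (nat_lit 307) (nat_lit 221) (nat_lit 192)) (XT.lf (nat_lit 0) (nat_lit 4336771484) (nat_lit 420) (nat_lit 2377778284) (nat_lit 504) (nat_lit 2585451777) (nat_lit 61) (nat_lit 5) (nat_lit 66) (nat_lit 5) (nat_lit 67) (nat_lit 5) (nat_lit 308) (nat_lit 221) (nat_lit 191))))) (XT.nd (nat_lit 376) (nat_lit 420) (nat_lit 0) (XT.nd (nat_lit 188) (nat_lit 504) (nat_lit 0) (XT.nd (nat_lit 94) (nat_lit 420) (nat_lit 0) (XT.lf (nat_lit 0) (nat_lit 1220117795) (nat_lit 588) (nat_lit 6866613233) (nat_lit 84) (nat_lit 1307531366) (nat_lit 54) (nat_lit 5) (nat_lit 61) (nat_lit 5) (nat_lit 55) (nat_lit 5) (nat_lit 309) (nat_lit 221) (nat_lit 190)) (XT.lf (nat_lit 0) (nat_lit 656381144) (nat_lit 420) (nat_lit 4418012810) (nat_lit 504) (nat_lit 4415722018) (nat_lit 49) (nat_lit 5) (nat_lit 54) (nat_lit 5) (nat_lit 55) (nat_lit 5) (nat_lit 310) (nat_lit 221)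 (nat_lit 189))) (XT.nd (nat_lit 94) (nat_lit 504) (nat_lit 0) (XT.lf (nat_lit 0) (nat_lit 8363707114) (nat_lit 420) (nat_lit 645211877) (nat_lit 504) (nat_lit 579259332) (nat_lit 49) (nat_lit 5) (nat_lit 54) (nat_lit 5) (nat_lit 55) (nat_lit 5) (nat_lit 311) (nat_lit 221) (nat_lit 188)) (XT.lf (nat_lit 0) (nat_lit 3308773431) (nat_lit 504) (nat_lit 3171362629) (nat_lit 84) (nat_lit 3207401771) (nat_lit 43) (nat_lit 5) (nat_lit 49) (nat_lit 5) (nat_lit 44) (nat_lit 5) (nat_lit 312) (nat_lit 221) (nat_lit 187)))) (XT.nd (nat_lit 41830) (nat_lit 0) (nat_lit 18900) (XT.nd (nat_lit 41736) (nat_lit 0) (nat_lit 19908) (XT.lf (nat_lit 0) (nat_lit 4631134143) (nat_lit 420) (nat_lit 2635396030) (nat_lit 504) (nat_lit 2522620592) (nat_lit 38) (nat_lit 5) (nat_lit 43) (nat_lit 5) (nat_lit 44) (nat_lit 5) (nat_lit 313) (nat_lit 221) (nat_lit 186)) (XT.lf (nat_lit 0) (nat_lit 26541398) (nat_lit 1092) (nat_lit 1782763866)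 (nat_lit 1092) (nat_lit 1782763866) (nat_lit 275) (nat_lit 4) (nat_lit 288) (nat_lit 5) (nat_lit 288) (nat_lit 4) (nat_lit 276) (nat_lit 222) (nat_lit 222))) (XT.nd (nat_lit 94) (nat_lit 924) (nat_lit 0) (XT.lf (nat_lit 0) (nat_lit 26159117) (nat_lit 1176) (nat_lit 1623956400) (nat_lit 84) (nat_lit 5576165973) (nat_lit 274) (nat_lit 5) (nat_lit 288) (nat_lit 5) (nat_lit 275) (nat_lit 4) (nat_lit 277) (nat_lit 222) (nat_lit 221)) (XT.lf (nat_lit 0) (nat_lit 3599220232) (nat_lit 1008) (nat_lit 3317521402) (nat_lit 0) (nat_lit 353032663) (nat_lit 263) (nat_lit 5) (nat_lit 275) (nat_lit 4) (nat_lit 263) (nat_lit 4) (nat_lit 278) (nat_lit 222) (nat_lit 220)))))) (XT.nd (nat_lit 658) (nat_lit 5376) (nat_lit 0) (XT.nd (nat_lit 282) (nat_lit 2688) (nat_lit 0) (XT.nd (nat_lit 94) (nat_lit 924) (nat_lit 0) (XT.lf (nat_lit 0) (nat_lit 2301001798) (nat_lit 924) (nat_lit 4915520274) (nat_lit 924) (nat_lit 98457939)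 (nat_lit 252) (nat_lit 4) (nat_lit 263) (nat_lit 5) (nat_lit 263) (nat_lit 4) (nat_lit 279) (nat_lit 222) (nat_lit 219)) (XT.nd (nat_lit 94) (nat_lit 0) (nat_lit 0) (XT.lf (nat_lit 0) (nat_lit 633714430) (nat_lit 840) (nat_lit 2822188745) (nat_lit 924) (nat_lit 3905713873) (nat_lit 241) (nat_lit 5) (nat_lit 251) (nat_lit 5) (nat_lit 252) (nat_lit 4) (nat_lit 280) (nat_lit 222) (nat_lit 218)) (XT.lf (nat_lit 0) (nat_lit 6398435659) (nat_lit 840) (nat_lit 652271325) (nat_lit 924) (nat_lit 359356035) (nat_lit 241) (nat_lit 5) (nat_lit 251) (nat_lit 5) (nat_lit 252) (nat_lit 4) (nat_lit 281) (nat_lit 222) (nat_lit 217)))) (XT.nd (nat_lit 188) (nat_lit 924) (nat_lit 0) (XT.nd (nat_lit 94) (nat_lit 840) (nat_lit 0) (XT.lf (nat_lit 0) (nat_lit 3191385992) (nat_lit 924) (nat_lit 2675873495) (nat_lit 84) (nat_lit 1592389045) (nat_lit 230) (nat_lit 5) (nat_lit 241) (nat_lit 5) (nat_lit 231) (nat_lit 4) (nat_lit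 282) (nat_lit 222) (nat_lit 216)) (XT.lf (nat_lit 0) (nat_lit 3168233178) (nat_lit 840) (nat_lit 3610209741) (nat_lit 924) (nat_lit 732627711) (nat_lit 220) (nat_lit 5) (nat_lit 230) (nat_lit 5) (nat_lit 231) (nat_lit 4) (nat_lit 283) (nat_lit 222) (nat_lit 215))) (XT.nd (nat_lit 94) (nat_lit 0) (nat_lit 0) (XT.lf (nat_lit 0) (nat_lit 1537108956) (nat_lit 840) (nat_lit 1262139111) (nat_lit 924) (nat_lit 4764805604) (nat_lit 209) (nat_lit 5) (nat_lit 219) (nat_lit 5) (nat_lit 220) (nat_lit 5) (nat_lit 284) (nat_lit 222) (nat_lit 214)) (XT.lf (nat_lit 0) (nat_lit 6368411121) (nat_lit 924) (nat_lit 102807532) (nat_lit 84) (nat_lit 1147518204) (nat_lit 209) (nat_lit 5) (nat_lit 220) (nat_lit 5) (nat_lit 210) (nat_lit 4) (nat_lit 285) (nat_lit 222) (nat_lit 213))))) (XT.nd (nat_lit 376) (nat_lit 2184) (nat_lit 0) (XT.nd (nat_lit 188) (nat_lit 1596) (nat_lit 0) (XT.nd (nat_lit 94) (nat_lit 756) (nat_lit 0)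 (XT.lf (nat_lit 0) (nat_lit 2290638179) (nat_lit 840) (nat_lit 1744554799) (nat_lit 84) (nat_lit 3639439575) (nat_lit 199) (nat_lit 5) (nat_lit 209) (nat_lit 5) (nat_lit 200) (nat_lit 5) (nat_lit 286) (nat_lit 222) (nat_lit 212)) (XT.lf (nat_lit 0) (nat_lit 4337303755) (nat_lit 756) (nat_lit 1517328087) (nat_lit 840) (nat_lit 1877728127) (nat_lit 190) (nat_lit 5) (nat_lit 199) (nat_lit 5) (nat_lit 200) (nat_lit 5) (nat_lit 287) (nat_lit 222) (nat_lit 211))) (XT.nd (nat_lit 94) (nat_lit 756) (nat_lit 0) (XT.lf (nat_lit 0) (nat_lit 1653575535) (nat_lit 840) (nat_lit 5066485314) (nat_lit 84) (nat_lit 1071634975) (nat_lit 180) (nat_lit 5) (nat_lit 190) (nat_lit 5) (nat_lit 181) (nat_lit 5) (nat_lit 288) (nat_lit 222) (nat_lit 210)) (XT.lf (nat_lit 0) (nat_lit 1087086897) (nat_lit 756) (nat_lit 4124938393) (nat_lit 840) (nat_lit 2640514891) (nat_lit 171) (nat_lit 5) (nat_lit 180) (nat_lit 5) (nat_lit 181)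 (nat_lit 5) (nat_lit 289) (nat_lit 222) (nat_lit 209)))) (XT.nd (nat_lit 188) (nat_lit 1428) (nat_lit 0) (XT.nd (nat_lit 94) (nat_lit 672) (nat_lit 0) (XT.lf (nat_lit 0) (nat_lit 891703453) (nat_lit 840) (nat_lit 552209921) (nat_lit 84) (nat_lit 6471298755) (nat_lit 170) (nat_lit 5) (nat_lit 180) (nat_lit 5) (nat_lit 171) (nat_lit 5) (nat_lit 290) (nat_lit 222) (nat_lit 208)) (XT.lf (nat_lit 0) (nat_lit 4448351331) (nat_lit 756) (nat_lit 2208467414) (nat_lit 84) (nat_lit 1322338249) (nat_lit 162) (nat_lit 5) (nat_lit 171) (nat_lit 5) (nat_lit 163) (nat_lit 5) (nat_lit 291) (nat_lit 222) (nat_lit 207))) (XT.nd (nat_lit 94) (nat_lit 672) (nat_lit 0) (XT.lf (nat_lit 0) (nat_lit 17880279) (nat_lit 756) (nat_lit 3881139903) (nat_lit 84) (nat_lit 4145928963) (nat_lit 153) (nat_lit 5) (nat_lit 162) (nat_lit 5) (nat_lit 154) (nat_lit 5) (nat_lit 292) (nat_lit 222) (nat_lit 206)) (XT.lf (nat_lit 0) (nat_lit 2525627677)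 (nat_lit 672) (nat_lit 1037368958) (nat_lit 756) (nat_lit 4549279274) (nat_lit 145) (nat_lit 5) (nat_lit 153) (nat_lit 5) (nat_lit 154) (nat_lit 5) (nat_lit 293) (nat_lit 222) (nat_lit 205))))))))
noncomputable def xc6 : XT := (XT.nd (nat_lit 44274) (nat_lit 0) (nat_lit 0) (XT.nd (nat_lit 1410) (nat_lit 1932) (nat_lit 0) (XT.nd (nat_lit 658) (nat_lit 3780) (nat_lit 0) (XT.nd (nat_lit 282) (nat_lit 1932) (nat_lit 0) (XT.nd (nat_lit 94) (nat_lit 672) (nat_lit 0) (XT.lf (nat_lit 0) (nat_lit 866665059) (nat_lit 672) (nat_lit 6304510021) (nat_lit 756) (nat_lit 1010237252) (nat_lit 137) (nat_lit 5) (nat_lit 145) (nat_lit 5) (nat_lit 146) (nat_lit 5) (nat_lit 294) (nat_lit 222) (nat_lit 204)) (XT.nd (nat_lit 94) (nat_lit 588) (nat_lit 0) (XT.lf (nat_lit 0) (nat_lit 2555135526) (nat_lit 756) (nat_lit 815537720) (nat_lit 84) (nat_lit 4881295662) (nat_lit 136) (nat_lit 5) (nat_lit 145) (nat_lit 5) (nat_lit 137)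 (nat_lit 5) (nat_lit 295) (nat_lit 222) (nat_lit 203)) (XT.lf (nat_lit 0) (nat_lit 5821599351) (nat_lit 588) (nat_lit 342202217) (nat_lit 672) (nat_lit 2160560395) (nat_lit 129) (nat_lit 5) (nat_lit 136) (nat_lit 5) (nat_lit 137) (nat_lit 5) (nat_lit 296) (nat_lit 222) (nat_lit 202)))) (XT.nd (nat_lit 188) (nat_lit 672) (nat_lit 0) (XT.nd (nat_lit 94) (nat_lit 588) (nat_lit 0) (XT.lf (nat_lit 0) (nat_lit 1426832691) (nat_lit 672) (nat_lit 4231717424) (nat_lit 84) (nat_lit 2739696110) (nat_lit 121) (nat_lit 5) (nat_lit 129) (nat_lit 5) (nat_lit 122) (nat_lit 5) (nat_lit 297) (nat_lit 222) (nat_lit 201)) (XT.lf (nat_lit 0) (nat_lit 2481506007) (nat_lit 588) (nat_lit 2557789826) (nat_lit 672) (nat_lit 3434599152) (nat_lit 114) (nat_lit 5) (nat_lit 121) (nat_lit 5) (nat_lit 122) (nat_lit 5) (nat_lit 298) (nat_lit 222) (nat_lit 200))) (XT.nd (nat_lit 94) (nat_lit 0) (nat_lit 0) (XT.lf (nat_lit 0) (nat_lit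 158413914) (nat_lit 672) (nat_lit 7774059372) (nat_lit 84) (nat_lit 619124923) (nat_lit 106) (nat_lit 5) (nat_lit 114) (nat_lit 5) (nat_lit 107) (nat_lit 5) (nat_lit 299) (nat_lit 222) (nat_lit 199)) (XT.lf (nat_lit 0) (nat_lit 3783131139) (nat_lit 672) (nat_lit 971385009) (nat_lit 84) (nat_lit 3875873936) (nat_lit 106) (nat_lit 5) (nat_lit 114) (nat_lit 5) (nat_lit 107) (nat_lit 5) (nat_lit 300) (nat_lit 222) (nat_lit 198))))) (XT.nd (nat_lit 376) (nat_lit 1512) (nat_lit 0) (XT.nd (nat_lit 188) (nat_lit 1092) (nat_lit 0) (XT.nd (nat_lit 94) (nat_lit 672) (nat_lit 0) (XT.lf (nat_lit 0) (nat_lit 5985650071) (nat_lit 504) (nat_lit 1485881391) (nat_lit 588) (nat_lit 1239737255) (nat_lit 100) (nat_lit 5) (nat_lit 106) (nat_lit 5) (nat_lit 107) (nat_lit 5) (nat_lit 301) (nat_lit 222) (nat_lit 197)) (XT.lf (nat_lit 0) (nat_lit 2404622894) (nat_lit 672) (nat_lit 4528596779) (nat_lit 84) (nat_lit 1860483675)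 (nat_lit 92) (nat_lit 5) (nat_lit 100) (nat_lit 5) (nat_lit 93) (nat_lit 5) (nat_lit 302) (nat_lit 222) (nat_lit 196))) (XT.nd (nat_lit 94) (nat_lit 588) (nat_lit 0) (XT.lf (nat_lit 0) (nat_lit 2506653542) (nat_lit 504) (nat_lit 3595287536) (nat_lit 588) (nat_lit 2776009224) (nat_lit 86) (nat_lit 5) (nat_lit 92) (nat_lit 5) (nat_lit 93) (nat_lit 5) (nat_lit 303) (nat_lit 222) (nat_lit 195)) (XT.lf (nat_lit 0) (nat_lit 722091947) (nat_lit 504) (nat_lit 162420941) (nat_lit 588) (nat_lit 8079808549) (nat_lit 79) (nat_lit 5) (nat_lit 85) (nat_lit 5) (nat_lit 86) (nat_lit 5) (nat_lit 304) (nat_lit 222) (nat_lit 194)))) (XT.nd (nat_lit 188) (nat_lit 1008) (nat_lit 0) (XT.nd (nat_lit 94) (nat_lit 504) (nat_lit 0) (XT.lf (nat_lit 0) (nat_lit 4598748666) (nat_lit 588) (nat_lit 1112268081) (nat_lit 84) (nat_lit 3340822392) (nat_lit 79) (nat_lit 5) (nat_lit 86) (nat_lit 5) (nat_lit 80) (nat_lit 5) (nat_lit 305)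 (nat_lit 222) (nat_lit 193)) (XT.lf (nat_lit 0) (nat_lit 6181169276) (nat_lit 504) (nat_lit 2202779771) (nat_lit 588) (nat_lit 757569652) (nat_lit 73) (nat_lit 5) (nat_lit 79) (nat_lit 5) (nat_lit 80) (nat_lit 5) (nat_lit 306) (nat_lit 222) (nat_lit 192))) (XT.nd (nat_lit 94) (nat_lit 420) (nat_lit 0) (XT.lf (nat_lit 0) (nat_lit 2969607863) (nat_lit 588) (nat_lit 4864437491) (nat_lit 84) (nat_lit 1398788180) (nat_lit 66) (nat_lit 5) (nat_lit 73) (nat_lit 5) (nat_lit 67) (nat_lit 5) (nat_lit 307) (nat_lit 222) (nat_lit 191)) (XT.lf (nat_lit 0) (nat_lit 2509447729) (nat_lit 420) (nat_lit 4258827605) (nat_lit 504) (nat_lit 2557746472) (nat_lit 61) (nat_lit 5) (nat_lit 66) (nat_lit 5) (nat_lit 67) (nat_lit 5) (nat_lit 308) (nat_lit 222) (nat_lit 190)))))) (XT.nd (nat_lit 42112) (nat_lit 0) (nat_lit 15204) (XT.nd (nat_lit 282) (nat_lit 924) (nat_lit 0) (XT.nd (nat_lit 94) (nat_lit 420) (nat_lit 0) (XT.lf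 (nat_lit 0) (nat_lit 615476905) (nat_lit 504) (nat_lit 581567044) (nat_lit 588) (nat_lit 8224342725) (nat_lit 54) (nat_lit 5) (nat_lit 60) (nat_lit 5) (nat_lit 61) (nat_lit 5) (nat_lit 309) (nat_lit 222) (nat_lit 189)) (XT.nd (nat_lit 94) (nat_lit 420) (nat_lit 0) (XT.lf (nat_lit 0) (nat_lit 5015465374) (nat_lit 588) (nat_lit 1329038969) (nat_lit 84) (nat_lit 3173524713) (nat_lit 54) (nat_lit 5) (nat_lit 61) (nat_lit 5) (nat_lit 55) (nat_lit 5) (nat_lit 310) (nat_lit 222) (nat_lit 188)) (XT.lf (nat_lit 0) (nat_lit 6318347594) (nat_lit 420) (nat_lit 2595294259) (nat_lit 504) (nat_lit 703249223) (nat_lit 49) (nat_lit 5) (nat_lit 54) (nat_lit 5) (nat_lit 55) (nat_lit 5) (nat_lit 311) (nat_lit 222) (nat_lit 187)))) (XT.nd (nat_lit 41642) (nat_lit 0) (nat_lit 21000) (XT.nd (nat_lit 94) (nat_lit 420) (nat_lit 0) (XT.lf (nat_lit 0) (nat_lit 3130832581) (nat_lit 504) (nat_lit 5331006004) (nat_lit 84) (nat_lit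 1255657639) (nat_lit 43) (nat_lit 5) (nat_lit 49) (nat_lit 5) (nat_lit 44) (nat_lit 5) (nat_lit 312) (nat_lit 222) (nat_lit 186)) (XT.lf (nat_lit 0) (nat_lit 2399125517) (nat_lit 420) (nat_lit 4647393670) (nat_lit 504) (nat_lit 2773515515) (nat_lit 38) (nat_lit 5) (nat_lit 43) (nat_lit 5) (nat_lit 44) (nat_lit 5) (nat_lit 313) (nat_lit 222) (nat_lit 185))) (XT.nd (nat_lit 94) (nat_lit 1932) (nat_lit 0) (XT.lf (nat_lit 0) (nat_lit 1752369158) (nat_lit 1764) (nat_lit 899769389) (nat_lit 1764) (nat_lit 899769389) (nat_lit 311) (nat_lit 4) (nat_lit 332) (nat_lit 5) (nat_lit 332) (nat_lit 4) (nat_lit 274) (nat_lit 223) (nat_lit 223)) (XT.lf (nat_lit 0) (nat_lit 1739899957) (nat_lit 1932) (nat_lit 5377641348) (nat_lit 0) (nat_lit 26159117) (nat_lit 288) (nat_lit 5) (nat_lit 311) (nat_lit 4) (nat_lit 288) (nat_lit 4) (nat_lit 275) (nat_lit 223) (nat_lit 222))))) (XT.nd (nat_lit 376) (nat_lit 2688) (nat_lit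 0) (XT.nd (nat_lit 188) (nat_lit 1932) (nat_lit 0) (XT.nd (nat_lit 94) (nat_lit 84) (nat_lit 0) (XT.lf (nat_lit 0) (nat_lit 12983621) (nat_lit 1092) (nat_lit 5281291646) (nat_lit 1092) (nat_lit 1890700670) (nat_lit 275) (nat_lit 4) (nat_lit 288) (nat_lit 5) (nat_lit 288) (nat_lit 4) (nat_lit 276) (nat_lit 223) (nat_lit 221)) (XT.lf (nat_lit 0) (nat_lit 1639335655) (nat_lit 1176) (nat_lit 1716607839) (nat_lit 84) (nat_lit 3871738816) (nat_lit 274) (nat_lit 5) (nat_lit 288) (nat_lit 5) (nat_lit 275) (nat_lit 4) (nat_lit 277) (nat_lit 223) (nat_lit 220))) (XT.nd (nat_lit 94) (nat_lit 1008) (nat_lit 0) (XT.lf (nat_lit 0) (nat_lit 3821358232) (nat_lit 924) (nat_lit 1350816237) (nat_lit 1008) (nat_lit 2099885538) (nat_lit 263) (nat_lit 5) (nat_lit 274) (nat_lit 5) (nat_lit 275) (nat_lit 4) (nat_lit 278) (nat_lit 223) (nat_lit 219)) (XT.lf (nat_lit 0) (nat_lit 1403641543) (nat_lit 1008) (nat_lit 5192808728)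 (nat_lit 84) (nat_lit 721626757) (nat_lit 251) (nat_lit 5) (nat_lit 263) (nat_lit 5) (nat_lit 252) (nat_lit 4) (nat_lit 279) (nat_lit 223) (nat_lit 218)))) (XT.nd (nat_lit 188) (nat_lit 1764) (nat_lit 0) (XT.nd (nat_lit 94) (nat_lit 84) (nat_lit 0) (XT.lf (nat_lit 0) (nat_lit 411312661) (nat_lit 840) (nat_lit 4507706459) (nat_lit 924) (nat_lit 2446505956) (nat_lit 241) (nat_lit 5) (nat_lit 251) (nat_lit 5) (nat_lit 252) (nat_lit 4) (nat_lit 280) (nat_lit 223) (nat_lit 217)) (XT.lf (nat_lit 0) (nat_lit 1048264992) (nat_lit 924) (nat_lit 1285673973) (nat_lit 84) (nat_lit 5080646123) (nat_lit 240) (nat_lit 5) (nat_lit 251) (nat_lit 5) (nat_lit 241) (nat_lit 5) (nat_lit 281) (nat_lit 223) (nat_lit 216))) (XT.nd (nat_lit 94) (nat_lit 924) (nat_lit 0) (XT.lf (nat_lit 0) (nat_lit 4475274406) (nat_lit 840) (nat_lit 69790663) (nat_lit 924) (nat_lit 2920122071) (nat_lit 230) (nat_lit 5) (nat_lit 240) (nat_lit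 5) (nat_lit 241) (nat_lit 5) (nat_lit 282) (nat_lit 223) (nat_lit 215)) (XT.lf (nat_lit 0) (nat_lit 568795630) (nat_lit 924) (nat_lit 4711504655) (nat_lit 84) (nat_lit 2237045235) (nat_lit 219) (nat_lit 5) (nat_lit 230) (nat_lit 5) (nat_lit 220) (nat_lit 5) (nat_lit 283) (nat_lit 223) (nat_lit 214))))))) (XT.nd (nat_lit 1410) (nat_lit 6384) (nat_lit 0) (XT.nd (nat_lit 658) (nat_lit 4704) (nat_lit 0) (XT.nd (nat_lit 282) (nat_lit 2436) (nat_lit 0) (XT.nd (nat_lit 94) (nat_lit 840) (nat_lit 0) (XT.lf (nat_lit 0) (nat_lit 1117473137) (nat_lit 840) (nat_lit 2935343373) (nat_lit 924) (nat_lit 3518217900) (nat_lit 209) (nat_lit 5) (nat_lit 219) (nat_lit 5) (nat_lit 220) (nat_lit 5) (nat_lit 284) (nat_lit 223) (nat_lit 213)) (XT.nd (nat_lit 94) (nat_lit 840) (nat_lit 0) (XT.lf (nat_lit 0) (nat_lit 7065350582) (nat_lit 840) (nat_lit 514479782) (nat_lit 924) (nat_lit 46814514) (nat_lit 209) (nat_lit 5) (nat_lit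 219) (nat_lit 5) (nat_lit 220) (nat_lit 5) (nat_lit 285) (nat_lit 223) (nat_lit 212)) (XT.lf (nat_lit 0) (nat_lit 3436119545) (nat_lit 840) (nat_lit 2262933130) (nat_lit 84) (nat_lit 1984194597) (nat_lit 199) (nat_lit 5) (nat_lit 209) (nat_lit 5) (nat_lit 200) (nat_lit 5) (nat_lit 286) (nat_lit 223) (nat_lit 211)))) (XT.nd (nat_lit 188) (nat_lit 840) (nat_lit 0) (XT.nd (nat_lit 94) (nat_lit 840) (nat_lit 0) (XT.lf (nat_lit 0) (nat_lit 3771315008) (nat_lit 756) (nat_lit 3191798873) (nat_lit 840) (nat_lit 778674792) (nat_lit 190) (nat_lit 5) (nat_lit 199) (nat_lit 5) (nat_lit 200) (nat_lit 5) (nat_lit 287) (nat_lit 223) (nat_lit 210)) (XT.lf (nat_lit 0) (nat_lit 2101124721) (nat_lit 756) (nat_lit 590653438) (nat_lit 840) (nat_lit 5110164592) (nat_lit 180) (nat_lit 5) (nat_lit 189) (nat_lit 5) (nat_lit 190) (nat_lit 5) (nat_lit 288) (nat_lit 223) (nat_lit 209))) (XT.nd (nat_lit 94) (nat_lit 84) (nat_lit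 0) (XT.lf (nat_lit 0) (nat_lit 407140901) (nat_lit 756) (nat_lit 5801637459) (nat_lit 840) (nat_lit 1654920640) (nat_lit 171) (nat_lit 5) (nat_lit 180) (nat_lit 5) (nat_lit 181) (nat_lit 5) (nat_lit 289) (nat_lit 223) (nat_lit 208)) (XT.lf (nat_lit 0) (nat_lit 1830884756) (nat_lit 840) (nat_lit 1290544135) (nat_lit 84) (nat_lit 4805496382) (nat_lit 170) (nat_lit 5) (nat_lit 180) (nat_lit 5) (nat_lit 171) (nat_lit 5) (nat_lit 290) (nat_lit 223) (nat_lit 207))))) (XT.nd (nat_lit 376) (nat_lit 2604) (nat_lit 0) (XT.nd (nat_lit 188) (nat_lit 672) (nat_lit 0) (XT.nd (nat_lit 94) (nat_lit 756) (nat_lit 0) (XT.lf (nat_lit 0) (nat_lit 4991414651) (nat_lit 672) (nat_lit 349416740) (nat_lit 756) (nat_lit 2651066175) (nat_lit 162) (nat_lit 5) (nat_lit 170) (nat_lit 5) (nat_lit 171) (nat_lit 5) (nat_lit 291) (nat_lit 223) (nat_lit 206)) (XT.lf (nat_lit 0) (nat_lit 844998111) (nat_lit 756) (nat_lit 4742062334) (nat_lit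 84) (nat_lit 2471370320) (nat_lit 153) (nat_lit 5) (nat_lit 162) (nat_lit 5) (nat_lit 154) (nat_lit 5) (nat_lit 292) (nat_lit 223) (nat_lit 205))) (XT.nd (nat_lit 94) (nat_lit 0) (nat_lit 0) (XT.lf (nat_lit 0) (nat_lit 1611688149) (nat_lit 672) (nat_lit 2740902610) (nat_lit 756) (nat_lit 3773992292) (nat_lit 145) (nat_lit 5) (nat_lit 153) (nat_lit 5) (nat_lit 154) (nat_lit 5) (nat_lit 293) (nat_lit 223) (nat_lit 204)) (XT.lf (nat_lit 0) (nat_lit 7911769680) (nat_lit 756) (nat_lit 102105242) (nat_lit 84) (nat_lit 182922540) (nat_lit 145) (nat_lit 5) (nat_lit 154) (nat_lit 5) (nat_lit 146) (nat_lit 5) (nat_lit 294) (nat_lit 223) (nat_lit 203)))) (XT.nd (nat_lit 188) (nat_lit 1260) (nat_lit 0) (XT.nd (nat_lit 94) (nat_lit 588) (nat_lit 0) (XT.lf (nat_lit 0) (nat_lit 3238620832) (nat_lit 756) (nat_lit 1846693429) (nat_lit 84) (nat_lit 3182614264) (nat_lit 136) (nat_lit 5) (nat_lit 145) (nat_lit 5) (nat_lit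 137) (nat_lit 5) (nat_lit 295) (nat_lit 223) (nat_lit 202)) (XT.lf (nat_lit 0) (nat_lit 4735334723) (nat_lit 588) (nat_lit 2074336235) (nat_lit 672) (nat_lit 1531478172) (nat_lit 129) (nat_lit 5) (nat_lit 136) (nat_lit 5) (nat_lit 137) (nat_lit 5) (nat_lit 296) (nat_lit 223) (nat_lit 201))) (XT.nd (nat_lit 94) (nat_lit 588) (nat_lit 0) (XT.lf (nat_lit 0) (nat_lit 1996397828) (nat_lit 672) (nat_lit 5400715287) (nat_lit 84) (nat_lit 1018931731) (nat_lit 121) (nat_lit 5) (nat_lit 129) (nat_lit 5) (nat_lit 122) (nat_lit 5) (nat_lit 297) (nat_lit 223) (nat_lit 200)) (XT.lf (nat_lit 0) (nat_lit 1254940306) (nat_lit 588) (nat_lit 4315743487) (nat_lit 672) (nat_lit 2921849711) (nat_lit 114) (nat_lit 5) (nat_lit 121) (nat_lit 5) (nat_lit 122) (nat_lit 5) (nat_lit 298) (nat_lit 223) (nat_lit 199)))))) (XT.nd (nat_lit 658) (nat_lit 3444) (nat_lit 0) (XT.nd (nat_lit 282) (nat_lit 1764) (nat_lit 0) (XT.nd (nat_lit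 94) (nat_lit 1092) (nat_lit 0) (XT.lf (nat_lit 0) (nat_lit 624432085) (nat_lit 672) (nat_lit 518050846) (nat_lit 84) (nat_lit 7428539056) (nat_lit 113) (nat_lit 5) (nat_lit 121) (nat_lit 5) (nat_lit 114) (nat_lit 5) (nat_lit 299) (nat_lit 223) (nat_lit 198)) (XT.nd (nat_lit 94) (nat_lit 504) (nat_lit 0) (XT.lf (nat_lit 0) (nat_lit 4208210138) (nat_lit 672) (nat_lit 2326197868) (nat_lit 84) (nat_lit 2116306518) (nat_lit 106) (nat_lit 5) (nat_lit 114) (nat_lit 5) (nat_lit 107) (nat_lit 5) (nat_lit 300) (nat_lit 223) (nat_lit 197)) (XT.lf (nat_lit 0) (nat_lit 4571017940) (nat_lit 504) (nat_lit 3287111052) (nat_lit 588) (nat_lit 874310756) (nat_lit 100) (nat_lit 5) (nat_lit 106) (nat_lit 5) (nat_lit 107) (nat_lit 5) (nat_lit 301) (nat_lit 223) (nat_lit 196)))) (XT.nd (nat_lit 188) (nat_lit 588) (nat_lit 0) (XT.nd (nat_lit 94) (nat_lit 504) (nat_lit 0) (XT.lf (nat_lit 0) (nat_lit 2712857828) (nat_lit 672)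 (nat_lit 6037174851) (nat_lit 84) (nat_lit 65926858) (nat_lit 92) (nat_lit 5) (nat_lit 100) (nat_lit 5) (nat_lit 93) (nat_lit 5) (nat_lit 302) (nat_lit 223) (nat_lit 195)) (XT.lf (nat_lit 0) (nat_lit 935627397) (nat_lit 504) (nat_lit 5435329345) (nat_lit 588) (nat_lit 2530112572) (nat_lit 86) (nat_lit 5) (nat_lit 92) (nat_lit 5) (nat_lit 93) (nat_lit 5) (nat_lit 303) (nat_lit 223) (nat_lit 194))) (XT.nd (nat_lit 94) (nat_lit 504) (nat_lit 0) (XT.lf (nat_lit 0) (nat_lit 1093815785) (nat_lit 588) (nat_lit 924145557) (nat_lit 84) (nat_lit 6970167717) (nat_lit 85) (nat_lit 5) (nat_lit 92) (nat_lit 5) (nat_lit 86) (nat_lit 5) (nat_lit 304) (nat_lit 223) (nat_lit 193)) (XT.lf (nat_lit 0) (nat_lit 4760430354) (nat_lit 588) (nat_lit 2822871977) (nat_lit 84) (nat_lit 1493392098) (nat_lit 79) (nat_lit 5) (nat_lit 86) (nat_lit 5) (nat_lit 80) (nat_lit 5) (nat_lit 305) (nat_lit 223) (nat_lit 192))))) (XT.nd (nat_lit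 376) (nat_lit 1848) (nat_lit 0) (XT.nd (nat_lit 188) (nat_lit 504) (nat_lit 0) (XT.nd (nat_lit 94) (nat_lit 588) (nat_lit 0) (XT.lf (nat_lit 0) (nat_lit 4405684779) (nat_lit 504) (nat_lit 4100218500) (nat_lit 588) (nat_lit 661344714) (nat_lit 73) (nat_lit 5) (nat_lit 79) (nat_lit 5) (nat_lit 80) (nat_lit 5) (nat_lit 306) (nat_lit 223) (nat_lit 191)) (XT.lf (nat_lit 0) (nat_lit 2510502326) (nat_lit 504) (nat_lit 503556992) (nat_lit 588) (nat_lit 6245596956) (nat_lit 66) (nat_lit 5) (nat_lit 72) (nat_lit 5) (nat_lit 73) (nat_lit 5) (nat_lit 307) (nat_lit 223) (nat_lit 190))) (XT.nd (nat_lit 94) (nat_lit 84) (nat_lit 0) (XT.lf (nat_lit 0) (nat_lit 560617830) (nat_lit 420) (nat_lit 6207882839) (nat_lit 504) (nat_lit 2585316852) (nat_lit 61) (nat_lit 5) (nat_lit 66) (nat_lit 5) (nat_lit 67) (nat_lit 5) (nat_lit 308) (nat_lit 223) (nat_lit 189)) (XT.lf (nat_lit 0) (nat_lit 1138832380) (nat_lit 504) (nat_lit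 1409551276) (nat_lit 84) (nat_lit 6901485895) (nat_lit 60) (nat_lit 5) (nat_lit 66) (nat_lit 5) (nat_lit 61) (nat_lit 5) (nat_lit 309) (nat_lit 223) (nat_lit 188)))) (XT.nd (nat_lit 188) (nat_lit 924) (nat_lit 0) (XT.nd (nat_lit 94) (nat_lit 420) (nat_lit 0) (XT.lf (nat_lit 0) (nat_lit 4906527710) (nat_lit 588) (nat_lit 3429222294) (nat_lit 84) (nat_lit 1211877903) (nat_lit 54) (nat_lit 5) (nat_lit 61) (nat_lit 5) (nat_lit 55) (nat_lit 5) (nat_lit 310) (nat_lit 223) (nat_lit 187)) (XT.lf (nat_lit 0) (nat_lit 4147827808) (nat_lit 420) (nat_lit 4615530190) (nat_lit 504) (nat_lit 884041545) (nat_lit 49) (nat_lit 5) (nat_lit 54) (nat_lit 5) (nat_lit 55) (nat_lit 5) (nat_lit 311) (nat_lit 223) (nat_lit 186))) (XT.nd (nat_lit 94) (nat_lit 420) (nat_lit 0) (XT.lf (nat_lit 0) (nat_lit 2124137270) (nat_lit 420) (nat_lit 777460006) (nat_lit 504) (nat_lit 6847558781) (nat_lit 43) (nat_lit 5) (nat_lit 48) (nat_lit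 5) (nat_lit 49) (nat_lit 5) (nat_lit 312) (nat_lit 223) (nat_lit 185)) (XT.lf (nat_lit 0) (nat_lit 37281200) (nat_lit 420) (nat_lit 6732033033) (nat_lit 504) (nat_lit 3083435634) (nat_lit 38) (nat_lit 5) (nat_lit 43) (nat_lit 5) (nat_lit 44) (nat_lit 5) (nat_lit 313) (nat_lit 223) (nat_lit 184))))))))
noncomputable def xc7 : XT := (XT.nd (nat_lit 2820) (nat_lit 4788) (nat_lit 0) (XT.nd (nat_lit 1410) (nat_lit 8316) (nat_lit 0) (XT.nd (nat_lit 658) (nat_lit 5376) (nat_lit 0) (XT.nd (nat_lit 282) (nat_lit 4032) (nat_lit 0) (XT.nd (nat_lit 94) (nat_lit 1764) (nat_lit 0) (XT.lf (nat_lit 0) (nat_lit 1802390) (nat_lit 1764) (nat_lit 3510658521) (nat_lit 0) (nat_lit 1802390) (nat_lit 332) (nat_lit 5) (nat_lit 353) (nat_lit 4) (nat_lit 332) (nat_lit 4) (nat_lit 272) (nat_lit 224) (nat_lit 224)) (XT.nd (nat_lit 94) (nat_lit 1764) (nat_lit 0) (XT.lf (nat_lit 0) (nat_lit 3517104352) (nat_lit 1764) (nat_lit 1821379332)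 (nat_lit 0) (nat_lit 1727129465) (nat_lit 332) (nat_lit 5) (nat_lit 353) (nat_lit 4) (nat_lit 332) (nat_lit 4) (nat_lit 273) (nat_lit 224) (nat_lit 223)) (XT.lf (nat_lit 0) (nat_lit 3466319924) (nat_lit 1764) (nat_lit 3589875609) (nat_lit 1764) (nat_lit 48457583) (nat_lit 311) (nat_lit 4) (nat_lit 332) (nat_lit 5) (nat_lit 332) (nat_lit 4) (nat_lit 274) (nat_lit 224) (nat_lit 222)))) (XT.nd (nat_lit 188) (nat_lit 2100) (nat_lit 0) (XT.nd (nat_lit 94) (nat_lit 0) (nat_lit 0) (XT.lf (nat_lit 0) (nat_lit 1675070470) (nat_lit 1848) (nat_lit 1752342653) (nat_lit 1932) (nat_lit 3717693759) (nat_lit 288) (nat_lit 5) (nat_lit 310) (nat_lit 5) (nat_lit 311) (nat_lit 4) (nat_lit 275) (nat_lit 224) (nat_lit 221)) (XT.lf (nat_lit 0) (nat_lit 6932236626) (nat_lit 1932) (nat_lit 105786958) (nat_lit 0) (nat_lit 149448952) (nat_lit 288) (nat_lit 5) (nat_lit 311) (nat_lit 4) (nat_lit 288) (nat_lit 4) (nat_lit 276) (nat_lit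 224) (nat_lit 220))) (XT.nd (nat_lit 94) (nat_lit 924) (nat_lit 0) (XT.lf (nat_lit 0) (nat_lit 3213754544) (nat_lit 1176) (nat_lit 1890009994) (nat_lit 84) (nat_lit 2126982854) (nat_lit 274) (nat_lit 5) (nat_lit 288) (nat_lit 5) (nat_lit 275) (nat_lit 4) (nat_lit 277) (nat_lit 224) (nat_lit 219)) (XT.lf (nat_lit 0) (nat_lit 3606775396) (nat_lit 924) (nat_lit 3102360037) (nat_lit 1008) (nat_lit 566813732) (nat_lit 263) (nat_lit 5) (nat_lit 274) (nat_lit 5) (nat_lit 275) (nat_lit 4) (nat_lit 278) (nat_lit 224) (nat_lit 218))))) (XT.nd (nat_lit 376) (nat_lit 2604) (nat_lit 0) (XT.nd (nat_lit 188) (nat_lit 924) (nat_lit 0) (XT.nd (nat_lit 94) (nat_lit 840) (nat_lit 0) (XT.lf (nat_lit 0) (nat_lit 1858957377) (nat_lit 924) (nat_lit 1012841230) (nat_lit 1008) (nat_lit 4450869669) (nat_lit 251) (nat_lit 5) (nat_lit 262) (nat_lit 5) (nat_lit 263) (nat_lit 5) (nat_lit 279) (nat_lit 224) (nat_lit 217)) (XT.lf (nat_lit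 0) (nat_lit 104391817) (nat_lit 840) (nat_lit 6238176727) (nat_lit 924) (nat_lit 1028529147) (nat_lit 241) (nat_lit 5) (nat_lit 251) (nat_lit 5) (nat_lit 252) (nat_lit 4) (nat_lit 280) (nat_lit 224) (nat_lit 216))) (XT.nd (nat_lit 94) (nat_lit 840) (nat_lit 0) (XT.lf (nat_lit 0) (nat_lit 2410842372) (nat_lit 924) (nat_lit 1647311374) (nat_lit 84) (nat_lit 3362551218) (nat_lit 240) (nat_lit 5) (nat_lit 251) (nat_lit 5) (nat_lit 241) (nat_lit 5) (nat_lit 281) (nat_lit 224) (nat_lit 215)) (XT.lf (nat_lit 0) (nat_lit 4069590978) (nat_lit 840) (nat_lit 1800938553) (nat_lit 924) (nat_lit 1601593969) (nat_lit 230) (nat_lit 5) (nat_lit 240) (nat_lit 5) (nat_lit 241) (nat_lit 5) (nat_lit 282) (nat_lit 224) (nat_lit 214)))) (XT.nd (nat_lit 188) (nat_lit 840) (nat_lit 0) (XT.nd (nat_lit 94) (nat_lit 840) (nat_lit 0) (XT.lf (nat_lit 0) (nat_lit 1818683943) (nat_lit 924) (nat_lit 5173901244) (nat_lit 84) (nat_lit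 532582337) (nat_lit 219) (nat_lit 5) (nat_lit 230) (nat_lit 5) (nat_lit 220) (nat_lit 5) (nat_lit 283) (nat_lit 224) (nat_lit 213)) (XT.lf (nat_lit 0) (nat_lit 608900362) (nat_lit 840) (nat_lit 4656606865) (nat_lit 924) (nat_lit 2314167536) (nat_lit 209) (nat_lit 5) (nat_lit 219) (nat_lit 5) (nat_lit 220) (nat_lit 5) (nat_lit 284) (nat_lit 224) (nat_lit 212))) (XT.nd (nat_lit 94) (nat_lit 756) (nat_lit 0) (XT.lf (nat_lit 0) (nat_lit 1107199895) (nat_lit 924) (nat_lit 1125808648) (nat_lit 84) (nat_lit 5402829434) (nat_lit 208) (nat_lit 5) (nat_lit 219) (nat_lit 5) (nat_lit 209) (nat_lit 5) (nat_lit 285) (nat_lit 224) (nat_lit 211)) (XT.lf (nat_lit 0) (nat_lit 4540140900) (nat_lit 840) (nat_lit 2872500623) (nat_lit 84) (nat_lit 280876523) (nat_lit 199) (nat_lit 5) (nat_lit 209) (nat_lit 5) (nat_lit 200) (nat_lit 5) (nat_lit 286) (nat_lit 224) (nat_lit 210)))))) (XT.nd (nat_lit 658) (nat_lit 3780) (nat_lit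 0) (XT.nd (nat_lit 282) (nat_lit 2940) (nat_lit 0) (XT.nd (nat_lit 94) (nat_lit 756) (nat_lit 0) (XT.lf (nat_lit 0) (nat_lit 273326187) (nat_lit 840) (nat_lit 4641181304) (nat_lit 84) (nat_lit 2838321234) (nat_lit 189) (nat_lit 5) (nat_lit 199) (nat_lit 5) (nat_lit 190) (nat_lit 5) (nat_lit 287) (nat_lit 224) (nat_lit 209)) (XT.nd (nat_lit 94) (nat_lit 0) (nat_lit 0) (XT.lf (nat_lit 0) (nat_lit 1375622277) (nat_lit 756) (nat_lit 2319705157) (nat_lit 840) (nat_lit 4118352541) (nat_lit 180) (nat_lit 5) (nat_lit 189) (nat_lit 5) (nat_lit 190) (nat_lit 5) (nat_lit 288) (nat_lit 224) (nat_lit 208)) (XT.lf (nat_lit 0) (nat_lit 7165409685) (nat_lit 840) (nat_lit 362812062) (nat_lit 84) (nat_lit 348246671) (nat_lit 180) (nat_lit 5) (nat_lit 190) (nat_lit 5) (nat_lit 181) (nat_lit 5) (nat_lit 289) (nat_lit 224) (nat_lit 207)))) (XT.nd (nat_lit 188) (nat_lit 1428) (nat_lit 0) (XT.nd (nat_lit 94) (nat_lit 672)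 (nat_lit 0) (XT.lf (nat_lit 0) (nat_lit 2726987062) (nat_lit 840) (nat_lit 2124673710) (nat_lit 84) (nat_lit 3088637636) (nat_lit 170) (nat_lit 5) (nat_lit 180) (nat_lit 5) (nat_lit 171) (nat_lit 5) (nat_lit 290) (nat_lit 224) (nat_lit 206)) (XT.lf (nat_lit 0) (nat_lit 4106036503) (nat_lit 672) (nat_lit 2093745297) (nat_lit 756) (nat_lit 1806306243) (nat_lit 162) (nat_lit 5) (nat_lit 170) (nat_lit 5) (nat_lit 171) (nat_lit 5) (nat_lit 291) (nat_lit 224) (nat_lit 205))) (XT.nd (nat_lit 94) (nat_lit 672) (nat_lit 0) (XT.lf (nat_lit 0) (nat_lit 1627603235) (nat_lit 756) (nat_lit 5702508752) (nat_lit 84) (nat_lit 743476598) (nat_lit 153) (nat_lit 5) (nat_lit 162) (nat_lit 5) (nat_lit 154) (nat_lit 5) (nat_lit 292) (nat_lit 224) (nat_lit 204)) (XT.lf (nat_lit 0) (nat_lit 597640663) (nat_lit 672) (nat_lit 4499986028) (nat_lit 756) (nat_lit 3044940702) (nat_lit 145) (nat_lit 5) (nat_lit 153) (nat_lit 5) (nat_lit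 154) (nat_lit 5) (nat_lit 293) (nat_lit 224) (nat_lit 203))))) (XT.nd (nat_lit 376) (nat_lit 1764) (nat_lit 0) (XT.nd (nat_lit 188) (nat_lit 1260) (nat_lit 0) (XT.nd (nat_lit 94) (nat_lit 672) (nat_lit 0) (XT.lf (nat_lit 0) (nat_lit 406110195) (nat_lit 756) (nat_lit 1173123149) (nat_lit 84) (nat_lit 6634172279) (nat_lit 144) (nat_lit 5) (nat_lit 153) (nat_lit 5) (nat_lit 145) (nat_lit 5) (nat_lit 294) (nat_lit 224) (nat_lit 202)) (XT.lf (nat_lit 0) (nat_lit 3876729101) (nat_lit 756) (nat_lit 2980329256) (nat_lit 84) (nat_lit 1428509998) (nat_lit 136) (nat_lit 5) (nat_lit 145) (nat_lit 5) (nat_lit 137) (nat_lit 5) (nat_lit 295) (nat_lit 224) (nat_lit 201))) (XT.nd (nat_lit 94) (nat_lit 672) (nat_lit 0) (XT.lf (nat_lit 0) (nat_lit 3545954283) (nat_lit 588) (nat_lit 3864117679) (nat_lit 672) (nat_lit 949546558) (nat_lit 129) (nat_lit 5) (nat_lit 136) (nat_lit 5) (nat_lit 137) (nat_lit 5) (nat_lit 296) (nat_lit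 224) (nat_lit 200)) (XT.lf (nat_lit 0) (nat_lit 1753822778) (nat_lit 588) (nat_lit 770632213) (nat_lit 672) (nat_lit 5910968891) (nat_lit 121) (nat_lit 5) (nat_lit 128) (nat_lit 5) (nat_lit 129) (nat_lit 5) (nat_lit 297) (nat_lit 224) (nat_lit 199)))) (XT.nd (nat_lit 188) (nat_lit 1092) (nat_lit 0) (XT.nd (nat_lit 94) (nat_lit 672) (nat_lit 0) (XT.lf (nat_lit 0) (nat_lit 6055506005) (nat_lit 672) (nat_lit 77573705) (nat_lit 84) (nat_lit 2379784000) (nat_lit 121) (nat_lit 5) (nat_lit 129) (nat_lit 5) (nat_lit 122) (nat_lit 5) (nat_lit 298) (nat_lit 224) (nat_lit 198)) (XT.lf (nat_lit 0) (nat_lit 1052999668) (nat_lit 672) (nat_lit 1914524886) (nat_lit 84) (nat_lit 5624398001) (nat_lit 113) (nat_lit 5) (nat_lit 121) (nat_lit 5) (nat_lit 114) (nat_lit 5) (nat_lit 299) (nat_lit 224) (nat_lit 197))) (XT.nd (nat_lit 94) (nat_lit 504) (nat_lit 0) (XT.lf (nat_lit 0) (nat_lit 4585206553) (nat_lit 672) (nat_lit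 3790572511) (nat_lit 84) (nat_lit 296970594) (nat_lit 106) (nat_lit 5) (nat_lit 114) (nat_lit 5) (nat_lit 107) (nat_lit 5) (nat_lit 300) (nat_lit 224) (nat_lit 196)) (XT.lf (nat_lit 0) (nat_lit 3046084425) (nat_lit 504) (nat_lit 5150385264) (nat_lit 588) (nat_lit 558855620) (nat_lit 100) (nat_lit 5) (nat_lit 106) (nat_lit 5) (nat_lit 107) (nat_lit 5) (nat_lit 301) (nat_lit 224) (nat_lit 195))))))) (XT.nd (nat_lit 42488) (nat_lit 0) (nat_lit 12264) (XT.nd (nat_lit 658) (nat_lit 1932) (nat_lit 0) (XT.nd (nat_lit 282) (nat_lit 1596) (nat_lit 0) (XT.nd (nat_lit 94) (nat_lit 588) (nat_lit 0) (XT.lf (nat_lit 0) (nat_lit 1167267145) (nat_lit 588) (nat_lit 1816875229) (nat_lit 672) (nat_lit 5855525080) (nat_lit 92) (nat_lit 5) (nat_lit 99) (nat_lit 5) (nat_lit 100) (nat_lit 5) (nat_lit 302) (nat_lit 224) (nat_lit 194)) (XT.nd (nat_lit 94) (nat_lit 588) (nat_lit 0) (XT.lf (nat_lit 0) (nat_lit 6595209438) (nat_lit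 672) (nat_lit 739095150) (nat_lit 84) (nat_lit 1591507346) (nat_lit 92) (nat_lit 5) (nat_lit 100) (nat_lit 5) (nat_lit 93) (nat_lit 5) (nat_lit 303) (nat_lit 224) (nat_lit 193)) (XT.lf (nat_lit 0) (nat_lit 1257764046) (nat_lit 588) (nat_lit 2674991975) (nat_lit 84) (nat_lit 5080803533) (nat_lit 85) (nat_lit 5) (nat_lit 92) (nat_lit 5) (nat_lit 86) (nat_lit 5) (nat_lit 304) (nat_lit 224) (nat_lit 192)))) (XT.nd (nat_lit 188) (nat_lit 588) (nat_lit 0) (XT.nd (nat_lit 94) (nat_lit 504) (nat_lit 0) (XT.lf (nat_lit 0) (nat_lit 4449622316) (nat_lit 504) (nat_lit 424312915) (nat_lit 588) (nat_lit 4229299446) (nat_lit 79) (nat_lit 5) (nat_lit 85) (nat_lit 5) (nat_lit 86) (nat_lit 5) (nat_lit 305) (nat_lit 224) (nat_lit 191)) (XT.lf (nat_lit 0) (nat_lit 2512233334) (nat_lit 504) (nat_lit 6064167520) (nat_lit 588) (nat_lit 618333548) (nat_lit 73) (nat_lit 5) (nat_lit 79) (nat_lit 5) (nat_lit 80) (nat_lit 5) (nat_lit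 306) (nat_lit 224) (nat_lit 190))) (XT.nd (nat_lit 94) (nat_lit 0) (nat_lit 0) (XT.lf (nat_lit 0) (nat_lit 522048542) (nat_lit 504) (nat_lit 2493848571) (nat_lit 588) (nat_lit 6272131015) (nat_lit 66) (nat_lit 5) (nat_lit 72) (nat_lit 5) (nat_lit 73) (nat_lit 5) (nat_lit 307) (nat_lit 224) (nat_lit 189)) (XT.lf (nat_lit 0) (nat_lit 6725986532) (nat_lit 588) (nat_lit 1488883102) (nat_lit 84) (nat_lit 1168295484) (nat_lit 66) (nat_lit 5) (nat_lit 73) (nat_lit 5) (nat_lit 67) (nat_lit 5) (nat_lit 308) (nat_lit 224) (nat_lit 188))))) (XT.nd (nat_lit 376) (nat_lit 420) (nat_lit 0) (XT.nd (nat_lit 188) (nat_lit 504) (nat_lit 0) (XT.nd (nat_lit 94) (nat_lit 504) (nat_lit 0) (XT.lf (nat_lit 0) (nat_lit 1031086358) (nat_lit 504) (nat_lit 3548683153) (nat_lit 84) (nat_lit 4900271125) (nat_lit 60) (nat_lit 5) (nat_lit 66) (nat_lit 5) (nat_lit 61) (nat_lit 5) (nat_lit 309) (nat_lit 224) (nat_lit 187)) (XT.lf (nat_lit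 0) (nat_lit 3918366704) (nat_lit 504) (nat_lit 830402261) (nat_lit 588) (nat_lit 4830130307) (nat_lit 54) (nat_lit 5) (nat_lit 60) (nat_lit 5) (nat_lit 61) (nat_lit 5) (nat_lit 310) (nat_lit 224) (nat_lit 186))) (XT.nd (nat_lit 94) (nat_lit 84) (nat_lit 0) (XT.lf (nat_lit 0) (nat_lit 1851119838) (nat_lit 420) (nat_lit 6706876418) (nat_lit 504) (nat_lit 1121721918) (nat_lit 49) (nat_lit 5) (nat_lit 54) (nat_lit 5) (nat_lit 55) (nat_lit 5) (nat_lit 311) (nat_lit 224) (nat_lit 185)) (XT.lf (nat_lit 0) (nat_lit 2626974133) (nat_lit 504) (nat_lit 272116015) (nat_lit 84) (nat_lit 6883309841) (nat_lit 48) (nat_lit 5) (nat_lit 54) (nat_lit 5) (nat_lit 49) (nat_lit 5) (nat_lit 312) (nat_lit 224) (nat_lit 184)))) (XT.nd (nat_lit 41266) (nat_lit 0) (nat_lit 25956) (XT.nd (nat_lit 41172) (nat_lit 0) (nat_lit 27636) (XT.lf (nat_lit 0) (nat_lit 6452275262) (nat_lit 504) (nat_lit 2420150068) (nat_lit 84) (nat_lit 1014501618)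 (nat_lit 43) (nat_lit 5) (nat_lit 49) (nat_lit 5) (nat_lit 44) (nat_lit 5) (nat_lit 313) (nat_lit 224) (nat_lit 183)) (XT.lf (nat_lit 0) (nat_lit 929904855) (nat_lit 1596) (nat_lit 1618763203) (nat_lit 0) (nat_lit 929904855) (nat_lit 372) (nat_lit 5) (nat_lit 391) (nat_lit 4) (nat_lit 372) (nat_lit 4) (nat_lit 270) (nat_lit 225) (nat_lit 225))) (XT.nd (nat_lit 94) (nat_lit 84) (nat_lit 0) (XT.lf (nat_lit 0) (nat_lit 1837847177) (nat_lit 1596) (nat_lit 3512019399) (nat_lit 1596) (nat_lit 1642419268) (nat_lit 353) (nat_lit 4) (nat_lit 372) (nat_lit 5) (nat_lit 372) (nat_lit 4) (nat_lit 271) (nat_lit 225) (nat_lit 224)) (XT.lf (nat_lit 0) (nat_lit 1807849144) (nat_lit 1680) (nat_lit 43483494) (nat_lit 84) (nat_lit 5177746386) (nat_lit 352) (nat_lit 5) (nat_lit 372) (nat_lit 5) (nat_lit 353) (nat_lit 4) (nat_lit 272) (nat_lit 225) (nat_lit 223)))))) (XT.nd (nat_lit 658) (nat_lit 5208) (nat_lit 0) (XT.nd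 (nat_lit 282) (nat_lit 3108) (nat_lit 0) (XT.nd (nat_lit 94) (nat_lit 3696) (nat_lit 0) (XT.lf (nat_lit 0) (nat_lit 5168607543) (nat_lit 1680) (nat_lit 102182217) (nat_lit 1764) (nat_lit 1796488106) (nat_lit 332) (nat_lit 5) (nat_lit 352) (nat_lit 5) (nat_lit 353) (nat_lit 4) (nat_lit 273) (nat_lit 225) (nat_lit 222)) (XT.nd (nat_lit 94) (nat_lit 1848) (nat_lit 0) (XT.lf (nat_lit 0) (nat_lit 1640227518) (nat_lit 1848) (nat_lit 3767973159) (nat_lit 84) (nat_lit 1698703763) (nat_lit 310) (nat_lit 5) (nat_lit 332) (nat_lit 5) (nat_lit 311) (nat_lit 4) (nat_lit 274) (nat_lit 225) (nat_lit 221)) (XT.lf (nat_lit 0) (nat_lit 1505321899) (nat_lit 1848) (nat_lit 3572168326) (nat_lit 1932) (nat_lit 2070694407) (nat_lit 288) (nat_lit 5) (nat_lit 310) (nat_lit 5) (nat_lit 311) (nat_lit 4) (nat_lit 275) (nat_lit 225) (nat_lit 220)))) (XT.nd (nat_lit 188) (nat_lit 1932) (nat_lit 0) (XT.nd (nat_lit 94) (nat_lit 1092)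 (nat_lit 0) (XT.lf (nat_lit 0) (nat_lit 1334191520) (nat_lit 1932) (nat_lit 325020450) (nat_lit 84) (nat_lit 5531945786) (nat_lit 287) (nat_lit 5) (nat_lit 310) (nat_lit 5) (nat_lit 288) (nat_lit 5) (nat_lit 276) (nat_lit 225) (nat_lit 219)) (XT.lf (nat_lit 0) (nat_lit 4750161399) (nat_lit 1176) (nat_lit 2144244987) (nat_lit 84) (nat_lit 341071805) (nat_lit 274) (nat_lit 5) (nat_lit 288) (nat_lit 5) (nat_lit 275) (nat_lit 4) (nat_lit 277) (nat_lit 225) (nat_lit 218))) (XT.nd (nat_lit 94) (nat_lit 924) (nat_lit 0) (XT.lf (nat_lit 0) (nat_lit 913431190) (nat_lit 1008) (nat_lit 3977091033) (nat_lit 84) (nat_lit 2390832284) (nat_lit 262) (nat_lit 5) (nat_lit 274) (nat_lit 5) (nat_lit 263) (nat_lit 5) (nat_lit 278) (nat_lit 225) (nat_lit 217)) (XT.lf (nat_lit 0) (nat_lit 1504384651) (nat_lit 924) (nat_lit 2802054156) (nat_lit 1008) (nat_lit 3022369683) (nat_lit 251) (nat_lit 5) (nat_lit 262) (nat_lit 5) (nat_lit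 263) (nat_lit 5) (nat_lit 279) (nat_lit 225) (nat_lit 216))))) (XT.nd (nat_lit 376) (nat_lit 2520) (nat_lit 0) (XT.nd (nat_lit 188) (nat_lit 1764) (nat_lit 0) (XT.nd (nat_lit 94) (nat_lit 840) (nat_lit 0) (XT.lf (nat_lit 0) (nat_lit 350539366) (nat_lit 1008) (nat_lit 290172805) (nat_lit 84) (nat_lit 6737423808) (nat_lit 250) (nat_lit 5) (nat_lit 262) (nat_lit 5) (nat_lit 251) (nat_lit 5) (nat_lit 280) (nat_lit 225) (nat_lit 215)) (XT.lf (nat_lit 0) (nat_lit 3734197268) (nat_lit 924) (nat_lit 2094151050) (nat_lit 84) (nat_lit 1600133542) (nat_lit 240) (nat_lit 5) (nat_lit 251) (nat_lit 5) (nat_lit 241) (nat_lit 5) (nat_lit 281) (nat_lit 225) (nat_lit 214))) (XT.nd (nat_lit 94) (nat_lit 924) (nat_lit 0) (XT.lf (nat_lit 0) (nat_lit 3578294547) (nat_lit 840) (nat_lit 3578603821) (nat_lit 924) (nat_lit 323815720) (nat_lit 230) (nat_lit 5) (nat_lit 240) (nat_lit 5) (nat_lit 241) (nat_lit 5) (nat_lit 282) (nat_lit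 225) (nat_lit 213)) (XT.lf (nat_lit 0) (nat_lit 1800626995) (nat_lit 840) (nat_lit 1236361221) (nat_lit 924) (nat_lit 4497473193) (nat_lit 219) (nat_lit 5) (nat_lit 229) (nat_lit 5) (nat_lit 230) (nat_lit 5) (nat_lit 283) (nat_lit 225) (nat_lit 212)))) (XT.nd (nat_lit 188) (nat_lit 1596) (nat_lit 0) (XT.nd (nat_lit 94) (nat_lit 84) (nat_lit 0) (XT.lf (nat_lit 0) (nat_lit 11149779) (nat_lit 840) (nat_lit 6426744743) (nat_lit 924) (nat_lit 1152084298) (nat_lit 209) (nat_lit 5) (nat_lit 219) (nat_lit 5) (nat_lit 220) (nat_lit 5) (nat_lit 284) (nat_lit 225) (nat_lit 211)) (XT.lf (nat_lit 0) (nat_lit 2219895657) (nat_lit 924) (nat_lit 1780358263) (nat_lit 84) (nat_lit 3646424298) (nat_lit 208) (nat_lit 5) (nat_lit 219) (nat_lit 5) (nat_lit 209) (nat_lit 5) (nat_lit 285) (nat_lit 225) (nat_lit 210))) (XT.nd (nat_lit 94) (nat_lit 840) (nat_lit 0) (XT.lf (nat_lit 0) (nat_lit 4121036113) (nat_lit 756) (nat_lit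 1492822704) (nat_lit 840) (nat_lit 2091356983) (nat_lit 199) (nat_lit 5) (nat_lit 208) (nat_lit 5) (nat_lit 209) (nat_lit 5) (nat_lit 286) (nat_lit 225) (nat_lit 209)) (XT.lf (nat_lit 0) (nat_lit 1272166782) (nat_lit 840) (nat_lit 5410763945) (nat_lit 84) (nat_lit 1082482751) (nat_lit 189) (nat_lit 5) (nat_lit 199) (nat_lit 5) (nat_lit 190) (nat_lit 5) (nat_lit 287) (nat_lit 225) (nat_lit 208))))))))
noncomputable def xc8 : XT := (XT.nd (nat_lit 43710) (nat_lit 0) (nat_lit 5292) (XT.nd (nat_lit 1410) (nat_lit 4704) (nat_lit 0) (XT.nd (nat_lit 658) (nat_lit 3780) (nat_lit 0) (XT.nd (nat_lit 282) (nat_lit 2184) (nat_lit 0) (XT.nd (nat_lit 94) (nat_lit 840) (nat_lit 0) (XT.lf (nat_lit 0) (nat_lit 556275046) (nat_lit 756) (nat_lit 4100678513) (nat_lit 840) (nat_lit 3170129885) (nat_lit 180) (nat_lit 5) (nat_lit 189) (nat_lit 5) (nat_lit 190) (nat_lit 5) (nat_lit 288) (nat_lit 225) (nat_lit 207)) (XT.nd (nat_lit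 94) (nat_lit 756) (nat_lit 0) (XT.lf (nat_lit 0) (nat_lit 200016243) (nat_lit 840) (nat_lit 1232861825) (nat_lit 84) (nat_lit 6457698753) (nat_lit 179) (nat_lit 5) (nat_lit 189) (nat_lit 5) (nat_lit 180) (nat_lit 5) (nat_lit 289) (nat_lit 225) (nat_lit 206)) (XT.lf (nat_lit 0) (nat_lit 3580434748) (nat_lit 840) (nat_lit 3054993674) (nat_lit 84) (nat_lit 1319909445) (nat_lit 170) (nat_lit 5) (nat_lit 180) (nat_lit 5) (nat_lit 171) (nat_lit 5) (nat_lit 290) (nat_lit 225) (nat_lit 205)))) (XT.nd (nat_lit 188) (nat_lit 756) (nat_lit 0) (XT.nd (nat_lit 94) (nat_lit 756) (nat_lit 0) (XT.lf (nat_lit 0) (nat_lit 3123903069) (nat_lit 672) (nat_lit 3892149294) (nat_lit 756) (nat_lit 1005893034) (nat_lit 162) (nat_lit 5) (nat_lit 170) (nat_lit 5) (nat_lit 171) (nat_lit 5) (nat_lit 291) (nat_lit 225) (nat_lit 204)) (XT.lf (nat_lit 0) (nat_lit 1319824549) (nat_lit 672) (nat_lit 1053747822) (nat_lit 756) (nat_lit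 5716692279) (nat_lit 153) (nat_lit 5) (nat_lit 161) (nat_lit 5) (nat_lit 162) (nat_lit 5) (nat_lit 292) (nat_lit 225) (nat_lit 203))) (XT.nd (nat_lit 94) (nat_lit 756) (nat_lit 0) (XT.lf (nat_lit 0) (nat_lit 5802139944) (nat_lit 756) (nat_lit 509548640) (nat_lit 84) (nat_lit 1848466902) (nat_lit 153) (nat_lit 5) (nat_lit 162) (nat_lit 5) (nat_lit 154) (nat_lit 5) (nat_lit 293) (nat_lit 225) (nat_lit 202)) (XT.lf (nat_lit 0) (nat_lit 1049895178) (nat_lit 756) (nat_lit 2348606255) (nat_lit 84) (nat_lit 4833116052) (nat_lit 144) (nat_lit 5) (nat_lit 153) (nat_lit 5) (nat_lit 145) (nat_lit 5) (nat_lit 294) (nat_lit 225) (nat_lit 201))))) (XT.nd (nat_lit 376) (nat_lit 1848) (nat_lit 0) (XT.nd (nat_lit 188) (nat_lit 672) (nat_lit 0) (XT.nd (nat_lit 94) (nat_lit 588) (nat_lit 0) (XT.lf (nat_lit 0) (nat_lit 4085094225) (nat_lit 672) (nat_lit 387428042) (nat_lit 756) (nat_lit 3832313771) (nat_lit 136) (nat_lit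 5) (nat_lit 144) (nat_lit 5) (nat_lit 145) (nat_lit 5) (nat_lit 295) (nat_lit 225) (nat_lit 200)) (XT.lf (nat_lit 0) (nat_lit 2252894762) (nat_lit 588) (nat_lit 5712394158) (nat_lit 672) (nat_lit 414489961) (nat_lit 129) (nat_lit 5) (nat_lit 136) (nat_lit 5) (nat_lit 137) (nat_lit 5) (nat_lit 296) (nat_lit 225) (nat_lit 199))) (XT.nd (nat_lit 94) (nat_lit 0) (nat_lit 0) (XT.lf (nat_lit 0) (nat_lit 379065266) (nat_lit 588) (nat_lit 2634484260) (nat_lit 672) (nat_lit 5442792488) (nat_lit 121) (nat_lit 5) (nat_lit 128) (nat_lit 5) (nat_lit 129) (nat_lit 5) (nat_lit 297) (nat_lit 225) (nat_lit 198)) (XT.lf (nat_lit 0) (nat_lit 6503137658) (nat_lit 672) (nat_lit 1498174701) (nat_lit 84) (nat_lit 533381666) (nat_lit 121) (nat_lit 5) (nat_lit 129) (nat_lit 5) (nat_lit 122) (nat_lit 5) (nat_lit 298) (nat_lit 225) (nat_lit 197)))) (XT.nd (nat_lit 188) (nat_lit 588) (nat_lit 0) (XT.nd (nat_lit 94) (nat_lit 588)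 (nat_lit 0) (XT.lf (nat_lit 0) (nat_lit 1434273836) (nat_lit 672) (nat_lit 3419236462) (nat_lit 84) (nat_lit 3761020518) (nat_lit 113) (nat_lit 5) (nat_lit 121) (nat_lit 5) (nat_lit 114) (nat_lit 5) (nat_lit 299) (nat_lit 225) (nat_lit 196)) (XT.lf (nat_lit 0) (nat_lit 3319610949) (nat_lit 588) (nat_lit 1606128806) (nat_lit 672) (nat_lit 3770514466) (nat_lit 106) (nat_lit 5) (nat_lit 113) (nat_lit 5) (nat_lit 114) (nat_lit 5) (nat_lit 300) (nat_lit 225) (nat_lit 195))) (XT.nd (nat_lit 94) (nat_lit 84) (nat_lit 0) (XT.lf (nat_lit 0) (nat_lit 1410127344) (nat_lit 504) (nat_lit 7076586436) (nat_lit 588) (nat_lit 293222452) (nat_lit 100) (nat_lit 5) (nat_lit 106) (nat_lit 5) (nat_lit 107) (nat_lit 5) (nat_lit 301) (nat_lit 225) (nat_lit 194)) (XT.lf (nat_lit 0) (nat_lit 3210562582) (nat_lit 588) (nat_lit 549892244) (nat_lit 84) (nat_lit 5104560438) (nat_lit 99) (nat_lit 5) (nat_lit 106) (nat_lit 5) (nat_lit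 100) (nat_lit 5) (nat_lit 302) (nat_lit 225) (nat_lit 193)))))) (XT.nd (nat_lit 658) (nat_lit 1428) (nat_lit 0) (XT.nd (nat_lit 282) (nat_lit 1596) (nat_lit 0) (XT.nd (nat_lit 94) (nat_lit 1092) (nat_lit 0) (XT.lf (nat_lit 0) (nat_lit 6435663821) (nat_lit 588) (nat_lit 343731782) (nat_lit 672) (nat_lit 2172693289) (nat_lit 92) (nat_lit 5) (nat_lit 99) (nat_lit 5) (nat_lit 100) (nat_lit 5) (nat_lit 303) (nat_lit 225) (nat_lit 192)) (XT.nd (nat_lit 94) (nat_lit 504) (nat_lit 0) (XT.lf (nat_lit 0) (nat_lit 1371291683) (nat_lit 588) (nat_lit 4541676896) (nat_lit 84) (nat_lit 3127769545) (nat_lit 85) (nat_lit 5) (nat_lit 92) (nat_lit 5) (nat_lit 86) (nat_lit 5) (nat_lit 304) (nat_lit 225) (nat_lit 191)) (XT.lf (nat_lit 0) (nat_lit 2517695345) (nat_lit 504) (nat_lit 2429861309) (nat_lit 588) (nat_lit 4183734531) (nat_lit 79) (nat_lit 5) (nat_lit 85) (nat_lit 5) (nat_lit 86) (nat_lit 5) (nat_lit 305) (nat_lit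 225) (nat_lit 190)))) (XT.nd (nat_lit 188) (nat_lit 1008) (nat_lit 0) (XT.nd (nat_lit 94) (nat_lit 84) (nat_lit 0) (XT.lf (nat_lit 0) (nat_lit 499918239) (nat_lit 504) (nat_lit 8095556922) (nat_lit 588) (nat_lit 628515786) (nat_lit 73) (nat_lit 5) (nat_lit 79) (nat_lit 5) (nat_lit 80) (nat_lit 5) (nat_lit 306) (nat_lit 225) (nat_lit 189)) (XT.lf (nat_lit 0) (nat_lit 2976321286) (nat_lit 588) (nat_lit 1564708949) (nat_lit 84) (nat_lit 4776905918) (nat_lit 72) (nat_lit 5) (nat_lit 79) (nat_lit 5) (nat_lit 73) (nat_lit 5) (nat_lit 307) (nat_lit 225) (nat_lit 188))) (XT.nd (nat_lit 94) (nat_lit 504) (nat_lit 0) (XT.lf (nat_lit 0) (nat_lit 5755821340) (nat_lit 504) (nat_lit 885304423) (nat_lit 588) (nat_lit 2772943649) (nat_lit 66) (nat_lit 5) (nat_lit 72) (nat_lit 5) (nat_lit 73) (nat_lit 5) (nat_lit 308) (nat_lit 225) (nat_lit 187)) (XT.lf (nat_lit 0) (nat_lit 869370667) (nat_lit 504) (nat_lit 5811796606)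 (nat_lit 84) (nat_lit 2830843394) (nat_lit 60) (nat_lit 5) (nat_lit 66) (nat_lit 5) (nat_lit 61) (nat_lit 5) (nat_lit 309) (nat_lit 225) (nat_lit 186))))) (XT.nd (nat_lit 41266) (nat_lit 0) (nat_lit 25956) (XT.nd (nat_lit 188) (nat_lit 924) (nat_lit 0) (XT.nd (nat_lit 94) (nat_lit 0) (nat_lit 0) (XT.lf (nat_lit 0) (nat_lit 1584413931) (nat_lit 504) (nat_lit 2961044458) (nat_lit 588) (nat_lit 5066326001) (nat_lit 54) (nat_lit 5) (nat_lit 60) (nat_lit 5) (nat_lit 61) (nat_lit 5) (nat_lit 310) (nat_lit 225) (nat_lit 185)) (XT.lf (nat_lit 0) (nat_lit 8301540015) (nat_lit 588) (nat_lit 564612928) (nat_lit 84) (nat_lit 847619554) (nat_lit 54) (nat_lit 5) (nat_lit 61) (nat_lit 5) (nat_lit 55) (nat_lit 5) (nat_lit 311) (nat_lit 225) (nat_lit 184))) (XT.nd (nat_lit 94) (nat_lit 420) (nat_lit 0) (XT.lf (nat_lit 0) (nat_lit 2311845327) (nat_lit 504) (nat_lit 2765645255) (nat_lit 84) (nat_lit 4739642912) (nat_lit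 48) (nat_lit 5) (nat_lit 54) (nat_lit 5) (nat_lit 49) (nat_lit 5) (nat_lit 312) (nat_lit 225) (nat_lit 183)) (XT.lf (nat_lit 0) (nat_lit 4907072118) (nat_lit 420) (nat_lit 1180294806) (nat_lit 504) (nat_lit 3835388678) (nat_lit 43) (nat_lit 5) (nat_lit 48) (nat_lit 5) (nat_lit 49) (nat_lit 5) (nat_lit 313) (nat_lit 225) (nat_lit 182)))) (XT.nd (nat_lit 188) (nat_lit 3192) (nat_lit 0) (XT.nd (nat_lit 94) (nat_lit 84) (nat_lit 0) (XT.lf (nat_lit 0) (nat_lit 317780768) (nat_lit 1428) (nat_lit 1563798892) (nat_lit 1428) (nat_lit 1563798892) (nat_lit 391) (nat_lit 4) (nat_lit 408) (nat_lit 5) (nat_lit 408) (nat_lit 4) (nat_lit 268) (nat_lit 226) (nat_lit 226)) (XT.lf (nat_lit 0) (nat_lit 313203714) (nat_lit 1512) (nat_lit 1319469512) (nat_lit 84) (nat_lit 5291022021) (nat_lit 390) (nat_lit 5) (nat_lit 408) (nat_lit 5) (nat_lit 391) (nat_lit 4) (nat_lit 269) (nat_lit 226) (nat_lit 225))) (XT.nd (nat_lit 94)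 (nat_lit 1680) (nat_lit 0) (XT.lf (nat_lit 0) (nat_lit 3683106952) (nat_lit 1512) (nat_lit 49141172) (nat_lit 1596) (nat_lit 3225740148) (nat_lit 372) (nat_lit 5) (nat_lit 390) (nat_lit 5) (nat_lit 391) (nat_lit 4) (nat_lit 270) (nat_lit 226) (nat_lit 224)) (XT.lf (nat_lit 0) (nat_lit 186903864) (nat_lit 1680) (nat_lit 5231766184) (nat_lit 84) (nat_lit 1575279709) (nat_lit 352) (nat_lit 5) (nat_lit 372) (nat_lit 5) (nat_lit 353) (nat_lit 4) (nat_lit 271) (nat_lit 226) (nat_lit 223))))))) (XT.nd (nat_lit 1410) (nat_lit 7812) (nat_lit 0) (XT.nd (nat_lit 658) (nat_lit 5292) (nat_lit 0) (XT.nd (nat_lit 282) (nat_lit 4032) (nat_lit 0) (XT.nd (nat_lit 94) (nat_lit 3528) (nat_lit 0) (XT.lf (nat_lit 0) (nat_lit 3575991774) (nat_lit 1680) (nat_lit 169005318) (nat_lit 84) (nat_lit 3286313998) (nat_lit 352) (nat_lit 5) (nat_lit 372) (nat_lit 5) (nat_lit 353) (nat_lit 4) (nat_lit 272) (nat_lit 226) (nat_lit 222))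 (XT.nd (nat_lit 94) (nat_lit 1848) (nat_lit 0) (XT.lf (nat_lit 0) (nat_lit 5005020178) (nat_lit 1680) (nat_lit 1996030267) (nat_lit 1764) (nat_lit 69292888) (nat_lit 332) (nat_lit 5) (nat_lit 352) (nat_lit 5) (nat_lit 353) (nat_lit 4) (nat_lit 273) (nat_lit 226) (nat_lit 221)) (XT.lf (nat_lit 0) (nat_lit 3133397532) (nat_lit 1764) (nat_lit 158875355) (nat_lit 1848) (nat_lit 3818532350) (nat_lit 310) (nat_lit 5) (nat_lit 331) (nat_lit 5) (nat_lit 332) (nat_lit 5) (nat_lit 274) (nat_lit 226) (nat_lit 220)))) (XT.nd (nat_lit 188) (nat_lit 2100) (nat_lit 0) (XT.nd (nat_lit 94) (nat_lit 84) (nat_lit 0) (XT.lf (nat_lit 0) (nat_lit 1256926194) (nat_lit 1848) (nat_lit 5433797455) (nat_lit 1932) (nat_lit 462215643) (nat_lit 288) (nat_lit 5) (nat_lit 310) (nat_lit 5) (nat_lit 311) (nat_lit 4) (nat_lit 275) (nat_lit 226) (nat_lit 219)) (XT.lf (nat_lit 0) (nat_lit 2883849337) (nat_lit 1932) (nat_lit 626400689) (nat_lit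 84) (nat_lit 3686194705) (nat_lit 287) (nat_lit 5) (nat_lit 310) (nat_lit 5) (nat_lit 288) (nat_lit 5) (nat_lit 276) (nat_lit 226) (nat_lit 218))) (XT.nd (nat_lit 94) (nat_lit 1008) (nat_lit 0) (XT.lf (nat_lit 0) (nat_lit 4751461431) (nat_lit 1092) (nat_lit 1508568290) (nat_lit 1176) (nat_lit 981610815) (nat_lit 274) (nat_lit 5) (nat_lit 287) (nat_lit 5) (nat_lit 288) (nat_lit 5) (nat_lit 277) (nat_lit 226) (nat_lit 217)) (XT.lf (nat_lit 0) (nat_lit 2347299650) (nat_lit 1008) (nat_lit 4371755966) (nat_lit 84) (nat_lit 569285533) (nat_lit 262) (nat_lit 5) (nat_lit 274) (nat_lit 5) (nat_lit 263) (nat_lit 5) (nat_lit 278) (nat_lit 226) (nat_lit 216))))) (XT.nd (nat_lit 376) (nat_lit 2520) (nat_lit 0) (XT.nd (nat_lit 188) (nat_lit 1764) (nat_lit 0) (XT.nd (nat_lit 94) (nat_lit 84) (nat_lit 0) (XT.lf (nat_lit 0) (nat_lit 1066712382) (nat_lit 924) (nat_lit 4636313744) (nat_lit 1008) (nat_lit 1633589192) (nat_lit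 251) (nat_lit 5) (nat_lit 262) (nat_lit 5) (nat_lit 263) (nat_lit 5) (nat_lit 279) (nat_lit 226) (nat_lit 215)) (XT.lf (nat_lit 0) (nat_lit 1685384114) (nat_lit 1008) (nat_lit 782478591) (nat_lit 84) (nat_lit 4918608989) (nat_lit 250) (nat_lit 5) (nat_lit 262) (nat_lit 5) (nat_lit 251) (nat_lit 5) (nat_lit 280) (nat_lit 226) (nat_lit 214))) (XT.nd (nat_lit 94) (nat_lit 924) (nat_lit 0) (XT.lf (nat_lit 0) (nat_lit 4809982610) (nat_lit 840) (nat_lit 210473032) (nat_lit 924) (nat_lit 2417430832) (nat_lit 240) (nat_lit 5) (nat_lit 250) (nat_lit 5) (nat_lit 251) (nat_lit 5) (nat_lit 281) (nat_lit 226) (nat_lit 213)) (XT.lf (nat_lit 0) (nat_lit 900655920) (nat_lit 924) (nat_lit 4496319870) (nat_lit 84) (nat_lit 2093843979) (nat_lit 229) (nat_lit 5) (nat_lit 240) (nat_lit 5) (nat_lit 230) (nat_lit 5) (nat_lit 282) (nat_lit 226) (nat_lit 212)))) (XT.nd (nat_lit 188) (nat_lit 1680) (nat_lit 0) (XT.nd (nat_lit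 94) (nat_lit 0) (nat_lit 0) (XT.lf (nat_lit 0) (nat_lit 1158382441) (nat_lit 840) (nat_lit 3061284375) (nat_lit 924) (nat_lit 3325666366) (nat_lit 219) (nat_lit 5) (nat_lit 229) (nat_lit 5) (nat_lit 230) (nat_lit 5) (nat_lit 283) (nat_lit 226) (nat_lit 211)) (XT.lf (nat_lit 0) (nat_lit 6930795281) (nat_lit 840) (nat_lit 649178335) (nat_lit 924) (nat_lit 21770168) (nat_lit 219) (nat_lit 5) (nat_lit 229) (nat_lit 5) (nat_lit 230) (nat_lit 5) (nat_lit 284) (nat_lit 226) (nat_lit 210))) (XT.nd (nat_lit 94) (nat_lit 756) (nat_lit 0) (XT.lf (nat_lit 0) (nat_lit 3292474000) (nat_lit 924) (nat_lit 2524919653) (nat_lit 84) (nat_lit 1841784419) (nat_lit 208) (nat_lit 5) (nat_lit 219) (nat_lit 5) (nat_lit 209) (nat_lit 5) (nat_lit 285) (nat_lit 226) (nat_lit 209)) (XT.lf (nat_lit 0) (nat_lit 3328469711) (nat_lit 756) (nat_lit 3321062569) (nat_lit 840) (nat_lit 1068995282) (nat_lit 199) (nat_lit 5) (nat_lit 208)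 (nat_lit 5) (nat_lit 209) (nat_lit 5) (nat_lit 286) (nat_lit 226) (nat_lit 208)))))) (XT.nd (nat_lit 658) (nat_lit 3948) (nat_lit 0) (XT.nd (nat_lit 282) (nat_lit 2184) (nat_lit 0) (XT.nd (nat_lit 94) (nat_lit 840) (nat_lit 0) (XT.lf (nat_lit 0) (nat_lit 1500284558) (nat_lit 756) (nat_lit 734482755) (nat_lit 840) (nat_lit 5544788500) (nat_lit 189) (nat_lit 5) (nat_lit 198) (nat_lit 5) (nat_lit 199) (nat_lit 5) (nat_lit 287) (nat_lit 226) (nat_lit 207)) (XT.nd (nat_lit 94) (nat_lit 840) (nat_lit 0) (XT.lf (nat_lit 0) (nat_lit 5579657111) (nat_lit 840) (nat_lit 352158668) (nat_lit 84) (nat_lit 1910287736) (nat_lit 189) (nat_lit 5) (nat_lit 199) (nat_lit 5) (nat_lit 190) (nat_lit 5) (nat_lit 288) (nat_lit 226) (nat_lit 206)) (XT.lf (nat_lit 0) (nat_lit 1061537502) (nat_lit 840) (nat_lit 2205288829) (nat_lit 84) (nat_lit 4639356267) (nat_lit 179) (nat_lit 5) (nat_lit 189) (nat_lit 5) (nat_lit 180) (nat_lit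 5) (nat_lit 289) (nat_lit 226) (nat_lit 205)))) (XT.nd (nat_lit 188) (nat_lit 756) (nat_lit 0) (XT.nd (nat_lit 94) (nat_lit 672) (nat_lit 0) (XT.lf (nat_lit 0) (nat_lit 3886401727) (nat_lit 756) (nat_lit 508854956) (nat_lit 840) (nat_lit 3576714346) (nat_lit 170) (nat_lit 5) (nat_lit 179) (nat_lit 5) (nat_lit 180) (nat_lit 5) (nat_lit 290) (nat_lit 226) (nat_lit 204)) (XT.lf (nat_lit 0) (nat_lit 2044549231) (nat_lit 672) (nat_lit 5745480422) (nat_lit 756) (nat_lit 249447490) (nat_lit 162) (nat_lit 5) (nat_lit 170) (nat_lit 5) (nat_lit 171) (nat_lit 5) (nat_lit 291) (nat_lit 226) (nat_lit 203))) (XT.nd (nat_lit 94) (nat_lit 0) (nat_lit 0) (XT.lf (nat_lit 0) (nat_lit 163881791) (nat_lit 672) (nat_lit 2917638194) (nat_lit 756) (nat_lit 5026985125) (nat_lit 153) (nat_lit 5) (nat_lit 161) (nat_lit 5) (nat_lit 162) (nat_lit 5) (nat_lit 292) (nat_lit 226) (nat_lit 202)) (XT.lf (nat_lit 0) (nat_lit 6467757151)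 (nat_lit 756) (nat_lit 1707789685) (nat_lit 84) (nat_lit 3780380) (nat_lit 153) (nat_lit 5) (nat_lit 162) (nat_lit 5) (nat_lit 154) (nat_lit 5) (nat_lit 293) (nat_lit 226) (nat_lit 201))))) (XT.nd (nat_lit 376) (nat_lit 1848) (nat_lit 0) (XT.nd (nat_lit 188) (nat_lit 672) (nat_lit 0) (XT.nd (nat_lit 94) (nat_lit 672) (nat_lit 0) (XT.lf (nat_lit 0) (nat_lit 1649405692) (nat_lit 756) (nat_lit 3625749261) (nat_lit 84) (nat_lit 2976360688) (nat_lit 144) (nat_lit 5) (nat_lit 153) (nat_lit 5) (nat_lit 145) (nat_lit 5) (nat_lit 294) (nat_lit 226) (nat_lit 200)) (XT.lf (nat_lit 0) (nat_lit 2752071136) (nat_lit 672) (nat_lit 2282187382) (nat_lit 756) (nat_lit 3291306707) (nat_lit 136) (nat_lit 5) (nat_lit 144) (nat_lit 5) (nat_lit 145) (nat_lit 5) (nat_lit 295) (nat_lit 226) (nat_lit 199))) (XT.nd (nat_lit 94) (nat_lit 0) (nat_lit 0) (XT.lf (nat_lit 0) (nat_lit 72879968) (nat_lit 672) (nat_lit 7546622695) (nat_lit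 84) (nat_lit 782125506) (nat_lit 128) (nat_lit 5) (nat_lit 136) (nat_lit 5) (nat_lit 129) (nat_lit 5) (nat_lit 296) (nat_lit 226) (nat_lit 198)) (XT.lf (nat_lit 0) (nat_lit 3464399190) (nat_lit 672) (nat_lit 1086194579) (nat_lit 84) (nat_lit 3928204684) (nat_lit 128) (nat_lit 5) (nat_lit 136) (nat_lit 5) (nat_lit 129) (nat_lit 5) (nat_lit 297) (nat_lit 226) (nat_lit 197)))) (XT.nd (nat_lit 188) (nat_lit 588) (nat_lit 0) (XT.nd (nat_lit 94) (nat_lit 672) (nat_lit 0) (XT.lf (nat_lit 0) (nat_lit 5522485113) (nat_lit 588) (nat_lit 1392283960) (nat_lit 672) (nat_lit 1643244193) (nat_lit 121) (nat_lit 5) (nat_lit 128) (nat_lit 5) (nat_lit 129) (nat_lit 5) (nat_lit 298) (nat_lit 226) (nat_lit 196)) (XT.lf (nat_lit 0) (nat_lit 1768435153) (nat_lit 672) (nat_lit 5032898178) (nat_lit 84) (nat_lit 1837524149) (nat_lit 113) (nat_lit 5) (nat_lit 121) (nat_lit 5) (nat_lit 114) (nat_lit 5) (nat_lit 299) (nat_lit 226)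 (nat_lit 195))) (XT.nd (nat_lit 94) (nat_lit 0) (nat_lit 0) (XT.lf (nat_lit 0) (nat_lit 1645128195) (nat_lit 588) (nat_lit 3575987501) (nat_lit 672) (nat_lit 3500318466) (nat_lit 106) (nat_lit 5) (nat_lit 113) (nat_lit 5) (nat_lit 114) (nat_lit 5) (nat_lit 300) (nat_lit 226) (nat_lit 194)) (XT.lf (nat_lit 0) (nat_lit 8471560910) (nat_lit 588) (nat_lit 261707015) (nat_lit 672) (nat_lit 72922327) (nat_lit 106) (nat_lit 5) (nat_lit 113) (nat_lit 5) (nat_lit 114) (nat_lit 5) (nat_lit 301) (nat_lit 226) (nat_lit 193))))))))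
noncomputable def xc9 : XT := (XT.nd (nat_lit 43522) (nat_lit 0) (nat_lit 420) (XT.nd (nat_lit 42112) (nat_lit 0) (nat_lit 14784) (XT.nd (nat_lit 658) (nat_lit 1932) (nat_lit 0) (XT.nd (nat_lit 282) (nat_lit 1596) (nat_lit 0) (XT.nd (nat_lit 94) (nat_lit 1176) (nat_lit 0) (XT.lf (nat_lit 0) (nat_lit 3396899892) (nat_lit 588) (nat_lit 2362605050) (nat_lit 84) (nat_lit 3132407195) (nat_lit 99) (nat_lit 5) (nat_lit 106) (nat_lit 5) (nat_lit 100) (nat_lit 5) (nat_lit 302) (nat_lit 226) (nat_lit 192)) (XT.nd (nat_lit 94) (nat_lit 588) (nat_lit 0) (XT.lf (nat_lit 0) (nat_lit 4559657275) (nat_lit 588) (nat_lit 2366793117) (nat_lit 672) (nat_lit 2053399589) (nat_lit 92) (nat_lit 5) (nat_lit 99) (nat_lit 5) (nat_lit 100) (nat_lit 5) (nat_lit 303) (nat_lit 226) (nat_lit 191)) (XT.lf (nat_lit 0) (nat_lit 1434452461) (nat_lit 588) (nat_lit 6525084346) (nat_lit 84) (nat_lit 1110140834) (nat_lit 85) (nat_lit 5) (nat_lit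 92) (nat_lit 5) (nat_lit 86) (nat_lit 5) (nat_lit 304) (nat_lit 226) (nat_lit 190)))) (XT.nd (nat_lit 188) (nat_lit 1092) (nat_lit 0) (XT.nd (nat_lit 94) (nat_lit 0) (nat_lit 0) (XT.lf (nat_lit 0) (nat_lit 468157305) (nat_lit 504) (nat_lit 4502378941) (nat_lit 588) (nat_lit 4190578442) (nat_lit 79) (nat_lit 5) (nat_lit 85) (nat_lit 5) (nat_lit 86) (nat_lit 5) (nat_lit 305) (nat_lit 226) (nat_lit 189)) (XT.lf (nat_lit 0) (nat_lit 7639211644) (nat_lit 504) (nat_lit 942262183) (nat_lit 588) (nat_lit 673154203) (nat_lit 79) (nat_lit 5) (nat_lit 85) (nat_lit 5) (nat_lit 86) (nat_lit 5) (nat_lit 306) (nat_lit 226) (nat_lit 188))) (XT.nd (nat_lit 94) (nat_lit 504) (nat_lit 0) (XT.lf (nat_lit 0) (nat_lit 2888587977) (nat_lit 588) (nat_lit 3764356582) (nat_lit 84) (nat_lit 2696597906) (nat_lit 72) (nat_lit 5) (nat_lit 79) (nat_lit 5) (nat_lit 73) (nat_lit 5) (nat_lit 307) (nat_lit 226) (nat_lit 187)) (XT.lf (nat_lit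 0) (nat_lit 3487368840) (nat_lit 504) (nat_lit 3025143045) (nat_lit 588) (nat_lit 2934063209) (nat_lit 66) (nat_lit 5) (nat_lit 72) (nat_lit 5) (nat_lit 73) (nat_lit 5) (nat_lit 308) (nat_lit 226) (nat_lit 186))))) (XT.nd (nat_lit 376) (nat_lit 420) (nat_lit 0) (XT.nd (nat_lit 188) (nat_lit 1008) (nat_lit 0) (XT.nd (nat_lit 94) (nat_lit 0) (nat_lit 0) (XT.lf (nat_lit 0) (nat_lit 653608724) (nat_lit 504) (nat_lit 8199963403) (nat_lit 84) (nat_lit 692222660) (nat_lit 60) (nat_lit 5) (nat_lit 66) (nat_lit 5) (nat_lit 61) (nat_lit 5) (nat_lit 309) (nat_lit 226) (nat_lit 185)) (XT.lf (nat_lit 0) (nat_lit 4293978210) (nat_lit 504) (nat_lit 862995162) (nat_lit 84) (nat_lit 4489380940) (nat_lit 60) (nat_lit 5) (nat_lit 66) (nat_lit 5) (nat_lit 61) (nat_lit 5) (nat_lit 310) (nat_lit 226) (nat_lit 184))) (XT.nd (nat_lit 94) (nat_lit 504) (nat_lit 0) (XT.lf (nat_lit 0) (nat_lit 6659241291) (nat_lit 504) (nat_lit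 1354291650) (nat_lit 588) (nat_lit 1735613068) (nat_lit 54) (nat_lit 5) (nat_lit 60) (nat_lit 5) (nat_lit 61) (nat_lit 5) (nat_lit 311) (nat_lit 226) (nat_lit 183)) (XT.lf (nat_lit 0) (nat_lit 1940930888) (nat_lit 504) (nat_lit 5388225676) (nat_lit 84) (nat_lit 2524549333) (nat_lit 48) (nat_lit 5) (nat_lit 54) (nat_lit 5) (nat_lit 49) (nat_lit 5) (nat_lit 312) (nat_lit 226) (nat_lit 182)))) (XT.nd (nat_lit 40890) (nat_lit 0) (nat_lit 29232) (XT.nd (nat_lit 40796) (nat_lit 0) (nat_lit 32088) (XT.lf (nat_lit 0) (nat_lit 2209738232) (nat_lit 420) (nat_lit 3463859968) (nat_lit 504) (nat_lit 4286672601) (nat_lit 43) (nat_lit 5) (nat_lit 48) (nat_lit 5) (nat_lit 49) (nat_lit 5) (nat_lit 313) (nat_lit 226) (nat_lit 181)) (XT.lf (nat_lit 0) (nat_lit 2321409508) (nat_lit 1260) (nat_lit 546540295) (nat_lit 1260) (nat_lit 546540295) (nat_lit 425) (nat_lit 4) (nat_lit 440) (nat_lit 5) (nat_lit 440) (nat_lit 4) (nat_lit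 266) (nat_lit 227) (nat_lit 227))) (XT.nd (nat_lit 94) (nat_lit 1428) (nat_lit 0) (XT.lf (nat_lit 0) (nat_lit 2308932020) (nat_lit 1428) (nat_lit 4237365795) (nat_lit 0) (nat_lit 313203714) (nat_lit 408) (nat_lit 5) (nat_lit 425) (nat_lit 4) (nat_lit 408) (nat_lit 4) (nat_lit 267) (nat_lit 227) (nat_lit 226)) (XT.lf (nat_lit 0) (nat_lit 599735684) (nat_lit 1428) (nat_lit 5120187188) (nat_lit 1428) (nat_lit 1171691459) (nat_lit 391) (nat_lit 4) (nat_lit 408) (nat_lit 5) (nat_lit 408) (nat_lit 4) (nat_lit 268) (nat_lit 227) (nat_lit 225)))))) (XT.nd (nat_lit 658) (nat_lit 5712) (nat_lit 0) (XT.nd (nat_lit 282) (nat_lit 5460) (nat_lit 0) (XT.nd (nat_lit 94) (nat_lit 3192) (nat_lit 0) (XT.lf (nat_lit 0) (nat_lit 2202535223) (nat_lit 1512) (nat_lit 1405700838) (nat_lit 84) (nat_lit 3316854775) (nat_lit 390) (nat_lit 5) (nat_lit 408) (nat_lit 5) (nat_lit 391) (nat_lit 4) (nat_lit 269) (nat_lit 227) (nat_lit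 224)) (XT.nd (nat_lit 94) (nat_lit 1680) (nat_lit 0) (XT.lf (nat_lit 0) (nat_lit 3560257011) (nat_lit 1512) (nat_lit 2022870685) (nat_lit 1596) (nat_lit 1377102109) (nat_lit 372) (nat_lit 5) (nat_lit 390) (nat_lit 5) (nat_lit 391) (nat_lit 4) (nat_lit 270) (nat_lit 227) (nat_lit 223)) (XT.lf (nat_lit 0) (nat_lit 1597883146) (nat_lit 1596) (nat_lit 361110320) (nat_lit 1680) (nat_lit 5038006409) (nat_lit 352) (nat_lit 5) (nat_lit 371) (nat_lit 5) (nat_lit 372) (nat_lit 5) (nat_lit 271) (nat_lit 227) (nat_lit 222)))) (XT.nd (nat_lit 188) (nat_lit 3696) (nat_lit 0) (XT.nd (nat_lit 94) (nat_lit 1764) (nat_lit 0) (XT.lf (nat_lit 0) (nat_lit 5308792430) (nat_lit 1680) (nat_lit 369492951) (nat_lit 84) (nat_lit 1356940183) (nat_lit 352) (nat_lit 5) (nat_lit 372) (nat_lit 5) (nat_lit 353) (nat_lit 4) (nat_lit 272) (nat_lit 227) (nat_lit 221)) (XT.lf (nat_lit 0) (nat_lit 1597788127) (nat_lit 1764) (nat_lit 2320481959)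 (nat_lit 84) (nat_lit 3156561484) (nat_lit 331) (nat_lit 5) (nat_lit 352) (nat_lit 5) (nat_lit 332) (nat_lit 5) (nat_lit 273) (nat_lit 227) (nat_lit 220))) (XT.nd (nat_lit 94) (nat_lit 1932) (nat_lit 0) (XT.lf (nat_lit 0) (nat_lit 2838285354) (nat_lit 1764) (nat_lit 2082310625) (nat_lit 1848) (nat_lit 2195517352) (nat_lit 310) (nat_lit 5) (nat_lit 331) (nat_lit 5) (nat_lit 332) (nat_lit 5) (nat_lit 274) (nat_lit 227) (nat_lit 219)) (XT.lf (nat_lit 0) (nat_lit 920433967) (nat_lit 1848) (nat_lit 173339056) (nat_lit 1932) (nat_lit 6065399211) (nat_lit 287) (nat_lit 5) (nat_lit 309) (nat_lit 5) (nat_lit 310) (nat_lit 5) (nat_lit 275) (nat_lit 227) (nat_lit 218))))) (XT.nd (nat_lit 376) (nat_lit 2688) (nat_lit 0) (XT.nd (nat_lit 188) (nat_lit 1848) (nat_lit 0) (XT.nd (nat_lit 94) (nat_lit 1176) (nat_lit 0) (XT.lf (nat_lit 0) (nat_lit 4397059657) (nat_lit 1932) (nat_lit 1007164318) (nat_lit 84) (nat_lit 1799175925)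 (nat_lit 287) (nat_lit 5) (nat_lit 310) (nat_lit 5) (nat_lit 288) (nat_lit 5) (nat_lit 276) (nat_lit 227) (nat_lit 217)) (XT.lf (nat_lit 0) (nat_lit 479675786) (nat_lit 1176) (nat_lit 2923466827) (nat_lit 84) (nat_lit 3846193937) (nat_lit 273) (nat_lit 5) (nat_lit 287) (nat_lit 5) (nat_lit 274) (nat_lit 5) (nat_lit 277) (nat_lit 227) (nat_lit 216))) (XT.nd (nat_lit 94) (nat_lit 924) (nat_lit 0) (XT.lf (nat_lit 0) (nat_lit 2438110971) (nat_lit 924) (nat_lit 1314889921) (nat_lit 1008) (nat_lit 3543794278) (nat_lit 262) (nat_lit 5) (nat_lit 273) (nat_lit 5) (nat_lit 274) (nat_lit 5) (nat_lit 278) (nat_lit 227) (nat_lit 215)) (XT.lf (nat_lit 0) (nat_lit 545733295) (nat_lit 924) (nat_lit 6516488664) (nat_lit 1008) (nat_lit 283870498) (nat_lit 251) (nat_lit 5) (nat_lit 262) (nat_lit 5) (nat_lit 263) (nat_lit 5) (nat_lit 279) (nat_lit 227) (nat_lit 214)))) (XT.nd (nat_lit 188) (nat_lit 1764) (nat_lit 0) (XT.nd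 (nat_lit 94) (nat_lit 840) (nat_lit 0) (XT.lf (nat_lit 0) (nat_lit 2982460133) (nat_lit 1008) (nat_lit 1358688200) (nat_lit 84) (nat_lit 3055319436) (nat_lit 250) (nat_lit 5) (nat_lit 262) (nat_lit 5) (nat_lit 251) (nat_lit 5) (nat_lit 280) (nat_lit 227) (nat_lit 213)) (XT.lf (nat_lit 0) (nat_lit 4189474635) (nat_lit 840) (nat_lit 2091149302) (nat_lit 924) (nat_lit 1168070583) (nat_lit 240) (nat_lit 5) (nat_lit 250) (nat_lit 5) (nat_lit 251) (nat_lit 5) (nat_lit 281) (nat_lit 227) (nat_lit 212))) (XT.nd (nat_lit 94) (nat_lit 840) (nat_lit 0) (XT.lf (nat_lit 0) (nat_lit 2081474752) (nat_lit 924) (nat_lit 5180027174) (nat_lit 84) (nat_lit 241042127) (nat_lit 229) (nat_lit 5) (nat_lit 240) (nat_lit 5) (nat_lit 230) (nat_lit 5) (nat_lit 282) (nat_lit 227) (nat_lit 211)) (XT.lf (nat_lit 0) (nat_lit 428162296) (nat_lit 840) (nat_lit 4935268394) (nat_lit 924) (nat_lit 2194441987) (nat_lit 219) (nat_lit 5) (nat_lit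 229) (nat_lit 5) (nat_lit 230) (nat_lit 5) (nat_lit 283) (nat_lit 227) (nat_lit 210))))))) (XT.nd (nat_lit 1410) (nat_lit 6132) (nat_lit 0) (XT.nd (nat_lit 658) (nat_lit 4116) (nat_lit 0) (XT.nd (nat_lit 282) (nat_lit 2436) (nat_lit 0) (XT.nd (nat_lit 94) (nat_lit 1596) (nat_lit 0) (XT.lf (nat_lit 0) (nat_lit 1061823498) (nat_lit 924) (nat_lit 1457808780) (nat_lit 84) (nat_lit 5095173458) (nat_lit 218) (nat_lit 5) (nat_lit 229) (nat_lit 5) (nat_lit 219) (nat_lit 5) (nat_lit 284) (nat_lit 227) (nat_lit 209)) (XT.nd (nat_lit 94) (nat_lit 756) (nat_lit 0) (XT.lf (nat_lit 0) (nat_lit 4313409803) (nat_lit 840) (nat_lit 12119405) (nat_lit 924) (nat_lit 3347812354) (nat_lit 208) (nat_lit 5) (nat_lit 218) (nat_lit 5) (nat_lit 219) (nat_lit 5) (nat_lit 285) (nat_lit 227) (nat_lit 208)) (XT.lf (nat_lit 0) (nat_lit 2445017521) (nat_lit 756) (nat_lit 5200604256) (nat_lit 840) (nat_lit 87882519) (nat_lit 199) (nat_lit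 5) (nat_lit 208) (nat_lit 5) (nat_lit 209) (nat_lit 5) (nat_lit 286) (nat_lit 227) (nat_lit 207)))) (XT.nd (nat_lit 188) (nat_lit 1596) (nat_lit 0) (XT.nd (nat_lit 94) (nat_lit 0) (nat_lit 0) (XT.lf (nat_lit 0) (nat_lit 545122150) (nat_lit 756) (nat_lit 2619422104) (nat_lit 840) (nat_lit 4630653045) (nat_lit 189) (nat_lit 5) (nat_lit 198) (nat_lit 5) (nat_lit 199) (nat_lit 5) (nat_lit 287) (nat_lit 227) (nat_lit 206)) (XT.lf (nat_lit 0) (nat_lit 6465965493) (nat_lit 840) (nat_lit 1345882237) (nat_lit 84) (nat_lit 46853579) (nat_lit 189) (nat_lit 5) (nat_lit 199) (nat_lit 5) (nat_lit 190) (nat_lit 5) (nat_lit 288) (nat_lit 227) (nat_lit 205))) (XT.nd (nat_lit 94) (nat_lit 756) (nat_lit 0) (XT.lf (nat_lit 0) (nat_lit 1881619334) (nat_lit 840) (nat_lit 3272953342) (nat_lit 84) (nat_lit 2768887670) (nat_lit 179) (nat_lit 5) (nat_lit 189) (nat_lit 5) (nat_lit 180) (nat_lit 5) (nat_lit 289) (nat_lit 227) (nat_lit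 204)) (XT.lf (nat_lit 0) (nat_lit 2766878332) (nat_lit 756) (nat_lit 2411260602) (nat_lit 840) (nat_lit 2811928233) (nat_lit 170) (nat_lit 5) (nat_lit 179) (nat_lit 5) (nat_lit 180) (nat_lit 5) (nat_lit 290) (nat_lit 227) (nat_lit 203))))) (XT.nd (nat_lit 376) (nat_lit 1932) (nat_lit 0) (XT.nd (nat_lit 188) (nat_lit 1428) (nat_lit 0) (XT.nd (nat_lit 94) (nat_lit 0) (nat_lit 0) (XT.lf (nat_lit 0) (nat_lit 456714357) (nat_lit 756) (nat_lit 7194528579) (nat_lit 84) (nat_lit 407376024) (nat_lit 161) (nat_lit 5) (nat_lit 170) (nat_lit 5) (nat_lit 162) (nat_lit 5) (nat_lit 291) (nat_lit 227) (nat_lit 202)) (XT.lf (nat_lit 0) (nat_lit 3754185175) (nat_lit 756) (nat_lit 1076078850) (nat_lit 84) (nat_lit 3298001696) (nat_lit 161) (nat_lit 5) (nat_lit 170) (nat_lit 5) (nat_lit 162) (nat_lit 5) (nat_lit 292) (nat_lit 227) (nat_lit 201))) (XT.nd (nat_lit 94) (nat_lit 756) (nat_lit 0) (XT.lf (nat_lit 0) (nat_lit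 5179918468) (nat_lit 672) (nat_lit 1924325353) (nat_lit 756) (nat_lit 1095639933) (nat_lit 153) (nat_lit 5) (nat_lit 161) (nat_lit 5) (nat_lit 162) (nat_lit 5) (nat_lit 293) (nat_lit 227) (nat_lit 200)) (XT.lf (nat_lit 0) (nat_lit 2204925653) (nat_lit 756) (nat_lit 5005156996) (nat_lit 84) (nat_lit 1063026860) (nat_lit 144) (nat_lit 5) (nat_lit 153) (nat_lit 5) (nat_lit 145) (nat_lit 5) (nat_lit 294) (nat_lit 227) (nat_lit 199)))) (XT.nd (nat_lit 188) (nat_lit 1176) (nat_lit 0) (XT.nd (nat_lit 94) (nat_lit 84) (nat_lit 0) (XT.lf (nat_lit 0) (nat_lit 1316089989) (nat_lit 672) (nat_lit 4235789575) (nat_lit 756) (nat_lit 2796113307) (nat_lit 136) (nat_lit 5) (nat_lit 144) (nat_lit 5) (nat_lit 145) (nat_lit 5) (nat_lit 295) (nat_lit 227) (nat_lit 198)) (XT.lf (nat_lit 0) (nat_lit 521629566) (nat_lit 756) (nat_lit 649585256) (nat_lit 84) (nat_lit 7253628241) (nat_lit 135) (nat_lit 5) (nat_lit 144) (nat_lit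 5) (nat_lit 136) (nat_lit 5) (nat_lit 296) (nat_lit 227) (nat_lit 197))) (XT.nd (nat_lit 94) (nat_lit 588) (nat_lit 0) (XT.lf (nat_lit 0) (nat_lit 3872826397) (nat_lit 672) (nat_lit 2651529485) (nat_lit 84) (nat_lit 1978544559) (nat_lit 128) (nat_lit 5) (nat_lit 136) (nat_lit 5) (nat_lit 129) (nat_lit 5) (nat_lit 297) (nat_lit 227) (nat_lit 196)) (XT.lf (nat_lit 0) (nat_lit 3898227162) (nat_lit 588) (nat_lit 3386735147) (nat_lit 672) (nat_lit 1297994091) (nat_lit 121) (nat_lit 5) (nat_lit 128) (nat_lit 5) (nat_lit 129) (nat_lit 5) (nat_lit 298) (nat_lit 227) (nat_lit 195)))))) (XT.nd (nat_lit 658) (nat_lit 3108) (nat_lit 0) (XT.nd (nat_lit 282) (nat_lit 1680) (nat_lit 0) (XT.nd (nat_lit 94) (nat_lit 672) (nat_lit 0) (XT.lf (nat_lit 0) (nat_lit 1907554025) (nat_lit 588) (nat_lit 149150278) (nat_lit 672) (nat_lit 6608186388) (nat_lit 113) (nat_lit 5) (nat_lit 120) (nat_lit 5) (nat_lit 121) (nat_lit 5)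 (nat_lit 299) (nat_lit 227) (nat_lit 194)) (XT.nd (nat_lit 94) (nat_lit 672) (nat_lit 0) (XT.lf (nat_lit 0) (nat_lit 5470324288) (nat_lit 672) (nat_lit 137856010) (nat_lit 84) (nat_lit 3140146408) (nat_lit 113) (nat_lit 5) (nat_lit 121) (nat_lit 5) (nat_lit 114) (nat_lit 5) (nat_lit 300) (nat_lit 227) (nat_lit 193)) (XT.lf (nat_lit 0) (nat_lit 120081591) (nat_lit 672) (nat_lit 2183635267) (nat_lit 84) (nat_lit 6529940055) (nat_lit 105) (nat_lit 5) (nat_lit 113) (nat_lit 5) (nat_lit 106) (nat_lit 5) (nat_lit 301) (nat_lit 227) (nat_lit 192)))) (XT.nd (nat_lit 188) (nat_lit 588) (nat_lit 0) (XT.nd (nat_lit 94) (nat_lit 588) (nat_lit 0) (XT.lf (nat_lit 0) (nat_lit 3534927829) (nat_lit 588) (nat_lit 4288542101) (nat_lit 84) (nat_lit 1097083805) (nat_lit 99) (nat_lit 5) (nat_lit 106) (nat_lit 5) (nat_lit 100) (nat_lit 5) (nat_lit 302) (nat_lit 227) (nat_lit 191)) (XT.lf (nat_lit 0) (nat_lit 2569564107) (nat_lit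 588) (nat_lit 4455376984) (nat_lit 672) (nat_lit 1984420306) (nat_lit 92) (nat_lit 5) (nat_lit 99) (nat_lit 5) (nat_lit 100) (nat_lit 5) (nat_lit 303) (nat_lit 227) (nat_lit 190))) (XT.nd (nat_lit 94) (nat_lit 0) (nat_lit 0) (XT.lf (nat_lit 0) (nat_lit 467050995) (nat_lit 504) (nat_lit 987257765) (nat_lit 588) (nat_lit 7645928336) (nat_lit 85) (nat_lit 5) (nat_lit 91) (nat_lit 5) (nat_lit 92) (nat_lit 5) (nat_lit 304) (nat_lit 227) (nat_lit 189)) (XT.lf (nat_lit 0) (nat_lit 4954994125) (nat_lit 588) (nat_lit 1675477554) (nat_lit 84) (nat_lit 2561981229) (nat_lit 85) (nat_lit 5) (nat_lit 92) (nat_lit 5) (nat_lit 86) (nat_lit 5) (nat_lit 305) (nat_lit 227) (nat_lit 188))))) (XT.nd (nat_lit 376) (nat_lit 1428) (nat_lit 0) (XT.nd (nat_lit 188) (nat_lit 588) (nat_lit 0) (XT.nd (nat_lit 94) (nat_lit 588) (nat_lit 0) (XT.lf (nat_lit 0) (nat_lit 5435528196) (nat_lit 504) (nat_lit 3093548622) (nat_lit 588) (nat_lit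 757700240) (nat_lit 79) (nat_lit 5) (nat_lit 85) (nat_lit 5) (nat_lit 86) (nat_lit 5) (nat_lit 306) (nat_lit 227) (nat_lit 187)) (XT.lf (nat_lit 0) (nat_lit 2748936963) (nat_lit 588) (nat_lit 6085455226) (nat_lit 84) (nat_lit 548551652) (nat_lit 72) (nat_lit 5) (nat_lit 79) (nat_lit 5) (nat_lit 73) (nat_lit 5) (nat_lit 307) (nat_lit 227) (nat_lit 186))) (XT.nd (nat_lit 94) (nat_lit 84) (nat_lit 0) (XT.lf (nat_lit 0) (nat_lit 1096479642) (nat_lit 504) (nat_lit 5235160690) (nat_lit 588) (nat_lit 3149242992) (nat_lit 66) (nat_lit 5) (nat_lit 72) (nat_lit 5) (nat_lit 73) (nat_lit 5) (nat_lit 308) (nat_lit 227) (nat_lit 185)) (XT.lf (nat_lit 0) (nat_lit 402809096) (nat_lit 588) (nat_lit 1127628889) (nat_lit 84) (nat_lit 8050550572) (nat_lit 65) (nat_lit 5) (nat_lit 72) (nat_lit 5) (nat_lit 66) (nat_lit 5) (nat_lit 309) (nat_lit 227) (nat_lit 184)))) (XT.nd (nat_lit 188) (nat_lit 504) (nat_lit 0) (XT.nd (nat_lit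 94) (nat_lit 504) (nat_lit 0) (XT.lf (nat_lit 0) (nat_lit 4000161685) (nat_lit 504) (nat_lit 3412983958) (nat_lit 84) (nat_lit 2269348810) (nat_lit 60) (nat_lit 5) (nat_lit 66) (nat_lit 5) (nat_lit 61) (nat_lit 5) (nat_lit 310) (nat_lit 227) (nat_lit 183)) (XT.lf (nat_lit 0) (nat_lit 4036607710) (nat_lit 504) (nat_lit 3641035535) (nat_lit 588) (nat_lit 2108568516) (nat_lit 54) (nat_lit 5) (nat_lit 60) (nat_lit 5) (nat_lit 61) (nat_lit 5) (nat_lit 311) (nat_lit 227) (nat_lit 182))) (XT.nd (nat_lit 94) (nat_lit 0) (nat_lit 0) (XT.lf (nat_lit 0) (nat_lit 1514055159) (nat_lit 504) (nat_lit 8141099282) (nat_lit 84) (nat_lit 236980079) (nat_lit 48) (nat_lit 5) (nat_lit 54) (nat_lit 5) (nat_lit 49) (nat_lit 5) (nat_lit 312) (nat_lit 227) (nat_lit 181)) (XT.lf (nat_lit 0) (nat_lit 5207850340) (nat_lit 504) (nat_lit 610093040) (nat_lit 84) (nat_lit 4181611230) (nat_lit 48) (nat_lit 5) (nat_lit 54) (nat_lit 5)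 (nat_lit 49) (nat_lit 5) (nat_lit 313) (nat_lit 227) (nat_lit 180))))))))
noncomputable def xc10 : XT := (XT.nd (nat_lit 2820) (nat_lit 8820) (nat_lit 0) (XT.nd (nat_lit 1410) (nat_lit 9156) (nat_lit 0) (XT.nd (nat_lit 658) (nat_lit 9156) (nat_lit 0) (XT.nd (nat_lit 282) (nat_lit 4452) (nat_lit 0) (XT.nd (nat_lit 94) (nat_lit 1344) (nat_lit 0) (XT.lf (nat_lit 0) (nat_lit 496160551) (nat_lit 1260) (nat_lit 2393558482) (nat_lit 0) (nat_lit 496160551) (nat_lit 440) (nat_lit 5) (nat_lit 455) (nat_lit 4) (nat_lit 440) (nat_lit 4) (nat_lit 264) (nat_lit 228) (nat_lit 228)) (XT.nd (nat_lit 94) (nat_lit 1344) (nat_lit 0) (XT.lf (nat_lit 0) (nat_lit 4372480106) (nat_lit 1260) (nat_lit 139532690) (nat_lit 0) (nat_lit 2287973822) (nat_lit 440) (nat_lit 5) (nat_lit 455) (nat_lit 4) (nat_lit 440) (nat_lit 4) (nat_lit 265) (nat_lit 228) (nat_lit 227)) (XT.lf (nat_lit 0) (nat_lit 937804061) (nat_lit 1344) (nat_lit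 2227900801) (nat_lit 84) (nat_lit 3663985491) (nat_lit 424) (nat_lit 5) (nat_lit 440) (nat_lit 5) (nat_lit 425) (nat_lit 4) (nat_lit 266) (nat_lit 228) (nat_lit 226)))) (XT.nd (nat_lit 188) (nat_lit 1596) (nat_lit 0) (XT.nd (nat_lit 94) (nat_lit 1512) (nat_lit 0) (XT.lf (nat_lit 0) (nat_lit 2539772682) (nat_lit 1344) (nat_lit 1742938297) (nat_lit 1428) (nat_lit 2578239368) (nat_lit 408) (nat_lit 5) (nat_lit 424) (nat_lit 5) (nat_lit 425) (nat_lit 4) (nat_lit 267) (nat_lit 228) (nat_lit 225)) (XT.lf (nat_lit 0) (nat_lit 484939300) (nat_lit 1428) (nat_lit 254551822) (nat_lit 1512) (nat_lit 6154538106) (nat_lit 390) (nat_lit 5) (nat_lit 407) (nat_lit 5) (nat_lit 408) (nat_lit 5) (nat_lit 268) (nat_lit 228) (nat_lit 224))) (XT.nd (nat_lit 94) (nat_lit 1596) (nat_lit 0) (XT.lf (nat_lit 0) (nat_lit 4057451639) (nat_lit 1512) (nat_lit 1564294306) (nat_lit 84) (nat_lit 1306442754) (nat_lit 390) (nat_lit 5) (nat_lit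 408) (nat_lit 5) (nat_lit 391) (nat_lit 4) (nat_lit 269) (nat_lit 228) (nat_lit 223)) (XT.lf (nat_lit 0) (nat_lit 429440602) (nat_lit 1596) (nat_lit 3602522318) (nat_lit 84) (nat_lit 2932135998) (nat_lit 371) (nat_lit 5) (nat_lit 390) (nat_lit 5) (nat_lit 372) (nat_lit 5) (nat_lit 270) (nat_lit 228) (nat_lit 222))))) (XT.nd (nat_lit 376) (nat_lit 4032) (nat_lit 0) (XT.nd (nat_lit 188) (nat_lit 3528) (nat_lit 0) (XT.nd (nat_lit 94) (nat_lit 0) (nat_lit 0) (XT.lf (nat_lit 0) (nat_lit 1347532669) (nat_lit 1596) (nat_lit 2359904277) (nat_lit 1680) (nat_lit 3294058056) (nat_lit 352) (nat_lit 5) (nat_lit 371) (nat_lit 5) (nat_lit 372) (nat_lit 5) (nat_lit 271) (nat_lit 228) (nat_lit 221)) (XT.lf (nat_lit 0) (nat_lit 6391267780) (nat_lit 1596) (nat_lit 620221943) (nat_lit 1680) (nat_lit 29237385) (nat_lit 352) (nat_lit 5) (nat_lit 371) (nat_lit 5) (nat_lit 372) (nat_lit 5) (nat_lit 272) (nat_lit 228) (nat_lit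 220))) (XT.nd (nat_lit 94) (nat_lit 1764) (nat_lit 0) (XT.lf (nat_lit 0) (nat_lit 3228424997) (nat_lit 1764) (nat_lit 2652951767) (nat_lit 84) (nat_lit 1199616884) (nat_lit 331) (nat_lit 5) (nat_lit 352) (nat_lit 5) (nat_lit 332) (nat_lit 5) (nat_lit 273) (nat_lit 228) (nat_lit 219)) (XT.lf (nat_lit 0) (nat_lit 2466002184) (nat_lit 1764) (nat_lit 4047688657) (nat_lit 1848) (nat_lit 609410493) (nat_lit 310) (nat_lit 5) (nat_lit 331) (nat_lit 5) (nat_lit 332) (nat_lit 5) (nat_lit 274) (nat_lit 228) (nat_lit 218)))) (XT.nd (nat_lit 188) (nat_lit 2100) (nat_lit 0) (XT.nd (nat_lit 94) (nat_lit 0) (nat_lit 0) (XT.lf (nat_lit 0) (nat_lit 488941287) (nat_lit 1848) (nat_lit 2130386960) (nat_lit 1932) (nat_lit 4547412974) (nat_lit 287) (nat_lit 5) (nat_lit 309) (nat_lit 5) (nat_lit 310) (nat_lit 5) (nat_lit 275) (nat_lit 228) (nat_lit 217)) (XT.lf (nat_lit 0) (nat_lit 5743574641) (nat_lit 1848) (nat_lit 131904050)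 (nat_lit 1932) (nat_lit 1336527194) (nat_lit 287) (nat_lit 5) (nat_lit 309) (nat_lit 5) (nat_lit 310) (nat_lit 5) (nat_lit 276) (nat_lit 228) (nat_lit 216))) (XT.nd (nat_lit 94) (nat_lit 924) (nat_lit 0) (XT.lf (nat_lit 0) (nat_lit 1890126881) (nat_lit 1176) (nat_lit 3445106914) (nat_lit 84) (nat_lit 1923318626) (nat_lit 273) (nat_lit 5) (nat_lit 287) (nat_lit 5) (nat_lit 274) (nat_lit 5) (nat_lit 277) (nat_lit 228) (nat_lit 215)) (XT.lf (nat_lit 0) (nat_lit 1873656935) (nat_lit 924) (nat_lit 3252609553) (nat_lit 1008) (nat_lit 2180562635) (nat_lit 262) (nat_lit 5) (nat_lit 273) (nat_lit 5) (nat_lit 274) (nat_lit 5) (nat_lit 278) (nat_lit 228) (nat_lit 214)))))) (XT.nd (nat_lit 658) (nat_lit 4620) (nat_lit 0) (XT.nd (nat_lit 282) (nat_lit 2604) (nat_lit 0) (XT.nd (nat_lit 94) (nat_lit 1848) (nat_lit 0) (XT.lf (nat_lit 0) (nat_lit 1020953904) (nat_lit 1008) (nat_lit 73178691) (nat_lit 84) (nat_lit 6262767609)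 (nat_lit 261) (nat_lit 5) (nat_lit 273) (nat_lit 5) (nat_lit 262) (nat_lit 5) (nat_lit 279) (nat_lit 228) (nat_lit 213)) (XT.nd (nat_lit 94) (nat_lit 924) (nat_lit 0) (XT.lf (nat_lit 0) (nat_lit 4242381696) (nat_lit 1008) (nat_lit 2019074515) (nat_lit 84) (nat_lit 1146672732) (nat_lit 250) (nat_lit 5) (nat_lit 262) (nat_lit 5) (nat_lit 251) (nat_lit 5) (nat_lit 280) (nat_lit 228) (nat_lit 212)) (XT.lf (nat_lit 0) (nat_lit 41955580) (nat_lit 924) (nat_lit 3977136623) (nat_lit 84) (nat_lit 3442066667) (nat_lit 239) (nat_lit 5) (nat_lit 250) (nat_lit 5) (nat_lit 240) (nat_lit 5) (nat_lit 281) (nat_lit 228) (nat_lit 211)))) (XT.nd (nat_lit 188) (nat_lit 1764) (nat_lit 0) (XT.nd (nat_lit 94) (nat_lit 0) (nat_lit 0) (XT.lf (nat_lit 0) (nat_lit 1552127141) (nat_lit 840) (nat_lit 1683730433) (nat_lit 924) (nat_lit 4279821806) (nat_lit 229) (nat_lit 5) (nat_lit 239) (nat_lit 5) (nat_lit 240) (nat_lit 5) (nat_lit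 282) (nat_lit 228) (nat_lit 210)) (XT.lf (nat_lit 0) (nat_lit 6471602264) (nat_lit 924) (nat_lit 384756555) (nat_lit 84) (nat_lit 715665832) (nat_lit 229) (nat_lit 5) (nat_lit 240) (nat_lit 5) (nat_lit 230) (nat_lit 5) (nat_lit 283) (nat_lit 228) (nat_lit 209))) (XT.nd (nat_lit 94) (nat_lit 840) (nat_lit 0) (XT.lf (nat_lit 0) (nat_lit 2106315018) (nat_lit 924) (nat_lit 2333754730) (nat_lit 84) (nat_lit 3189459474) (nat_lit 218) (nat_lit 5) (nat_lit 229) (nat_lit 5) (nat_lit 219) (nat_lit 5) (nat_lit 284) (nat_lit 228) (nat_lit 208)) (XT.lf (nat_lit 0) (nat_lit 3389500527) (nat_lit 840) (nat_lit 1943635936) (nat_lit 924) (nat_lit 2355740037) (nat_lit 208) (nat_lit 5) (nat_lit 218) (nat_lit 5) (nat_lit 219) (nat_lit 5) (nat_lit 285) (nat_lit 228) (nat_lit 207))))) (XT.nd (nat_lit 376) (nat_lit 2184) (nat_lit 0) (XT.nd (nat_lit 188) (nat_lit 1596) (nat_lit 0) (XT.nd (nat_lit 94) (nat_lit 0) (nat_lit 0)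 (XT.lf (nat_lit 0) (nat_lit 840168005) (nat_lit 840) (nat_lit 6285964114) (nat_lit 84) (nat_lit 623887388) (nat_lit 198) (nat_lit 5) (nat_lit 208) (nat_lit 5) (nat_lit 199) (nat_lit 5) (nat_lit 286) (nat_lit 228) (nat_lit 206)) (XT.lf (nat_lit 0) (nat_lit 4057699552) (nat_lit 840) (nat_lit 496045416) (nat_lit 84) (nat_lit 3258693618) (nat_lit 198) (nat_lit 5) (nat_lit 208) (nat_lit 5) (nat_lit 199) (nat_lit 5) (nat_lit 287) (nat_lit 228) (nat_lit 205))) (XT.nd (nat_lit 94) (nat_lit 840) (nat_lit 0) (XT.lf (nat_lit 0) (nat_lit 5429790307) (nat_lit 756) (nat_lit 1896051681) (nat_lit 840) (nat_lit 550832740) (nat_lit 189) (nat_lit 5) (nat_lit 198) (nat_lit 5) (nat_lit 199) (nat_lit 5) (nat_lit 288) (nat_lit 228) (nat_lit 204)) (XT.lf (nat_lit 0) (nat_lit 2660650114) (nat_lit 840) (nat_lit 4436360991) (nat_lit 84) (nat_lit 845407143) (nat_lit 179) (nat_lit 5) (nat_lit 189) (nat_lit 5) (nat_lit 180) (nat_lit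 5) (nat_lit 289) (nat_lit 228) (nat_lit 203)))) (XT.nd (nat_lit 188) (nat_lit 1344) (nat_lit 0) (XT.nd (nat_lit 94) (nat_lit 84) (nat_lit 0) (XT.lf (nat_lit 0) (nat_lit 1550993114) (nat_lit 756) (nat_lit 4368919720) (nat_lit 840) (nat_lit 2089931886) (nat_lit 170) (nat_lit 5) (nat_lit 179) (nat_lit 5) (nat_lit 180) (nat_lit 5) (nat_lit 290) (nat_lit 228) (nat_lit 202)) (XT.lf (nat_lit 0) (nat_lit 1130757828) (nat_lit 840) (nat_lit 421323075) (nat_lit 84) (nat_lit 6527028650) (nat_lit 169) (nat_lit 5) (nat_lit 179) (nat_lit 5) (nat_lit 170) (nat_lit 5) (nat_lit 291) (nat_lit 228) (nat_lit 201))) (XT.nd (nat_lit 94) (nat_lit 672) (nat_lit 0) (XT.lf (nat_lit 0) (nat_lit 4385987739) (nat_lit 756) (nat_lit 2412571895) (nat_lit 84) (nat_lit 1351125979) (nat_lit 161) (nat_lit 5) (nat_lit 170) (nat_lit 5) (nat_lit 162) (nat_lit 5) (nat_lit 292) (nat_lit 228) (nat_lit 200)) (XT.lf (nat_lit 0) (nat_lit 3788707580)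 (nat_lit 672) (nat_lit 3909916299) (nat_lit 756) (nat_lit 523503062) (nat_lit 153) (nat_lit 5) (nat_lit 161) (nat_lit 5) (nat_lit 162) (nat_lit 5) (nat_lit 293) (nat_lit 228) (nat_lit 199))))))) (XT.nd (nat_lit 1410) (nat_lit 2016) (nat_lit 0) (XT.nd (nat_lit 658) (nat_lit 3444) (nat_lit 0) (XT.nd (nat_lit 282) (nat_lit 1848) (nat_lit 0) (XT.nd (nat_lit 94) (nat_lit 756) (nat_lit 0) (XT.lf (nat_lit 0) (nat_lit 1802221346) (nat_lit 672) (nat_lit 921057711) (nat_lit 756) (nat_lit 5572985922) (nat_lit 144) (nat_lit 5) (nat_lit 152) (nat_lit 5) (nat_lit 153) (nat_lit 5) (nat_lit 294) (nat_lit 228) (nat_lit 198)) (XT.nd (nat_lit 94) (nat_lit 756) (nat_lit 0) (XT.lf (nat_lit 0) (nat_lit 6027222793) (nat_lit 756) (nat_lit 220309736) (nat_lit 84) (nat_lit 2124562036) (nat_lit 144) (nat_lit 5) (nat_lit 153) (nat_lit 5) (nat_lit 145) (nat_lit 5) (nat_lit 295) (nat_lit 228) (nat_lit 197)) (XT.lf (nat_lit 0) (nat_lit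 937833301) (nat_lit 756) (nat_lit 2251801865) (nat_lit 84) (nat_lit 5259866723) (nat_lit 135) (nat_lit 5) (nat_lit 144) (nat_lit 5) (nat_lit 136) (nat_lit 5) (nat_lit 296) (nat_lit 228) (nat_lit 196)))) (XT.nd (nat_lit 188) (nat_lit 672) (nat_lit 0) (XT.nd (nat_lit 94) (nat_lit 588) (nat_lit 0) (XT.lf (nat_lit 0) (nat_lit 4205351182) (nat_lit 588) (nat_lit 31195427) (nat_lit 672) (nat_lit 4292167295) (nat_lit 128) (nat_lit 5) (nat_lit 135) (nat_lit 5) (nat_lit 136) (nat_lit 5) (nat_lit 297) (nat_lit 228) (nat_lit 195)) (XT.lf (nat_lit 0) (nat_lit 2166915987) (nat_lit 588) (nat_lit 5443121768) (nat_lit 672) (nat_lit 999582295) (nat_lit 121) (nat_lit 5) (nat_lit 128) (nat_lit 5) (nat_lit 129) (nat_lit 5) (nat_lit 298) (nat_lit 228) (nat_lit 194))) (XT.nd (nat_lit 94) (nat_lit 0) (nat_lit 0) (XT.lf (nat_lit 0) (nat_lit 86330217) (nat_lit 588) (nat_lit 2225552928) (nat_lit 672) (nat_lit 6380480997) (nat_lit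 113) (nat_lit 5) (nat_lit 120) (nat_lit 5) (nat_lit 121) (nat_lit 5) (nat_lit 299) (nat_lit 228) (nat_lit 193)) (XT.lf (nat_lit 0) (nat_lit 5684998636) (nat_lit 672) (nat_lit 2006902553) (nat_lit 84) (nat_lit 1084790067) (nat_lit 113) (nat_lit 5) (nat_lit 121) (nat_lit 5) (nat_lit 114) (nat_lit 5) (nat_lit 300) (nat_lit 228) (nat_lit 192))))) (XT.nd (nat_lit 376) (nat_lit 1596) (nat_lit 0) (XT.nd (nat_lit 188) (nat_lit 672) (nat_lit 0) (XT.nd (nat_lit 94) (nat_lit 504) (nat_lit 0) (XT.lf (nat_lit 0) (nat_lit 264507637) (nat_lit 672) (nat_lit 4145145991) (nat_lit 84) (nat_lit 4453201044) (nat_lit 105) (nat_lit 5) (nat_lit 113) (nat_lit 5) (nat_lit 106) (nat_lit 5) (nat_lit 301) (nat_lit 228) (nat_lit 191)) (XT.lf (nat_lit 0) (nat_lit 2614934272) (nat_lit 504) (nat_lit 1017021978) (nat_lit 588) (nat_lit 5318837992) (nat_lit 99) (nat_lit 5) (nat_lit 105) (nat_lit 5) (nat_lit 106) (nat_lit 5) (nat_lit 302)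 (nat_lit 228) (nat_lit 190))) (XT.nd (nat_lit 94) (nat_lit 84) (nat_lit 0) (XT.lf (nat_lit 0) (nat_lit 464441846) (nat_lit 588) (nat_lit 6610472499) (nat_lit 672) (nat_lit 1965722772) (nat_lit 92) (nat_lit 5) (nat_lit 99) (nat_lit 5) (nat_lit 100) (nat_lit 5) (nat_lit 303) (nat_lit 228) (nat_lit 189)) (XT.lf (nat_lit 0) (nat_lit 1444704722) (nat_lit 672) (nat_lit 1711045651) (nat_lit 84) (nat_lit 5976376225) (nat_lit 91) (nat_lit 5) (nat_lit 99) (nat_lit 5) (nat_lit 92) (nat_lit 5) (nat_lit 304) (nat_lit 228) (nat_lit 188)))) (XT.nd (nat_lit 188) (nat_lit 588) (nat_lit 0) (XT.nd (nat_lit 94) (nat_lit 504) (nat_lit 0) (XT.lf (nat_lit 0) (nat_lit 4892994754) (nat_lit 588) (nat_lit 3930255188) (nat_lit 84) (nat_lit 402245164) (nat_lit 85) (nat_lit 5) (nat_lit 92) (nat_lit 5) (nat_lit 86) (nat_lit 5) (nat_lit 305) (nat_lit 228) (nat_lit 187)) (XT.lf (nat_lit 0) (nat_lit 3113001837) (nat_lit 504) (nat_lit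 5313566614) (nat_lit 588) (nat_lit 894142003) (nat_lit 79) (nat_lit 5) (nat_lit 85) (nat_lit 5) (nat_lit 86) (nat_lit 5) (nat_lit 306) (nat_lit 228) (nat_lit 186))) (XT.nd (nat_lit 94) (nat_lit 0) (nat_lit 0) (XT.lf (nat_lit 0) (nat_lit 876729738) (nat_lit 504) (nat_lit 1692629368) (nat_lit 588) (nat_lit 6848531741) (nat_lit 72) (nat_lit 5) (nat_lit 78) (nat_lit 5) (nat_lit 79) (nat_lit 5) (nat_lit 307) (nat_lit 228) (nat_lit 185)) (XT.lf (nat_lit 0) (nat_lit 6108526039) (nat_lit 588) (nat_lit 1397555131) (nat_lit 84) (nat_lit 2010706961) (nat_lit 72) (nat_lit 5) (nat_lit 79) (nat_lit 5) (nat_lit 73) (nat_lit 5) (nat_lit 308) (nat_lit 228) (nat_lit 184)))))) (XT.nd (nat_lit 40984) (nat_lit 0) (nat_lit 25536) (XT.nd (nat_lit 282) (nat_lit 504) (nat_lit 0) (XT.nd (nat_lit 94) (nat_lit 924) (nat_lit 0) (XT.lf (nat_lit 0) (nat_lit 113772104) (nat_lit 588) (nat_lit 3710983088) (nat_lit 84) (nat_lit 5792921232)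 (nat_lit 65) (nat_lit 5) (nat_lit 72) (nat_lit 5) (nat_lit 66) (nat_lit 5) (nat_lit 309) (nat_lit 228) (nat_lit 183)) (XT.nd (nat_lit 94) (nat_lit 504) (nat_lit 0) (XT.lf (nat_lit 0) (nat_lit 3630729302) (nat_lit 420) (nat_lit 22011002) (nat_lit 504) (nat_lit 6067726473) (nat_lit 60) (nat_lit 5) (nat_lit 65) (nat_lit 5) (nat_lit 66) (nat_lit 5) (nat_lit 310) (nat_lit 228) (nat_lit 182)) (XT.lf (nat_lit 0) (nat_lit 1286277597) (nat_lit 504) (nat_lit 6001308230) (nat_lit 588) (nat_lit 2537536251) (nat_lit 54) (nat_lit 5) (nat_lit 60) (nat_lit 5) (nat_lit 61) (nat_lit 5) (nat_lit 311) (nat_lit 228) (nat_lit 181)))) (XT.nd (nat_lit 40514) (nat_lit 0) (nat_lit 34188) (XT.nd (nat_lit 94) (nat_lit 420) (nat_lit 0) (XT.lf (nat_lit 0) (nat_lit 1054266304) (nat_lit 588) (nat_lit 1092851323) (nat_lit 84) (nat_lit 7784808426) (nat_lit 53) (nat_lit 5) (nat_lit 60) (nat_lit 5) (nat_lit 54) (nat_lit 5) (nat_lit 312)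 (nat_lit 228) (nat_lit 180)) (XT.lf (nat_lit 0) (nat_lit 4702177457) (nat_lit 504) (nat_lit 3528937712) (nat_lit 84) (nat_lit 1809240423) (nat_lit 48) (nat_lit 5) (nat_lit 54) (nat_lit 5) (nat_lit 49) (nat_lit 5) (nat_lit 313) (nat_lit 228) (nat_lit 179))) (XT.nd (nat_lit 94) (nat_lit 1092) (nat_lit 0) (XT.lf (nat_lit 0) (nat_lit 1566342248) (nat_lit 1092) (nat_lit 226843413) (nat_lit 0) (nat_lit 1566342248) (nat_lit 468) (nat_lit 5) (nat_lit 481) (nat_lit 4) (nat_lit 468) (nat_lit 4) (nat_lit 262) (nat_lit 229) (nat_lit 229)) (XT.lf (nat_lit 0) (nat_lit 4107479913) (nat_lit 1092) (nat_lit 2407391889) (nat_lit 1092) (nat_lit 230158427) (nat_lit 455) (nat_lit 4) (nat_lit 468) (nat_lit 5) (nat_lit 468) (nat_lit 4) (nat_lit 263) (nat_lit 229) (nat_lit 228))))) (XT.nd (nat_lit 376) (nat_lit 4704) (nat_lit 0) (XT.nd (nat_lit 188) (nat_lit 2688) (nat_lit 0) (XT.nd (nat_lit 94) (nat_lit 0) (nat_lit 0) (XT.lf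 (nat_lit 0) (nat_lit 1942803870) (nat_lit 1176) (nat_lit 1148394326) (nat_lit 1260) (nat_lit 3681253717) (nat_lit 440) (nat_lit 5) (nat_lit 454) (nat_lit 5) (nat_lit 455) (nat_lit 4) (nat_lit 264) (nat_lit 229) (nat_lit 227)) (XT.lf (nat_lit 0) (nat_lit 6424362228) (nat_lit 1260) (nat_lit 207494829) (nat_lit 0) (nat_lit 169856193) (nat_lit 440) (nat_lit 5) (nat_lit 455) (nat_lit 4) (nat_lit 440) (nat_lit 4) (nat_lit 265) (nat_lit 229) (nat_lit 226))) (XT.nd (nat_lit 94) (nat_lit 1344) (nat_lit 0) (XT.lf (nat_lit 0) (nat_lit 2919440969) (nat_lit 1344) (nat_lit 2347124699) (nat_lit 84) (nat_lit 1565387810) (nat_lit 424) (nat_lit 5) (nat_lit 440) (nat_lit 5) (nat_lit 425) (nat_lit 4) (nat_lit 266) (nat_lit 229) (nat_lit 225)) (XT.lf (nat_lit 0) (nat_lit 2385120737) (nat_lit 1344) (nat_lit 3840459133) (nat_lit 1428) (nat_lit 638486498) (nat_lit 408) (nat_lit 5) (nat_lit 424) (nat_lit 5) (nat_lit 425) (nat_lit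 4) (nat_lit 267) (nat_lit 229) (nat_lit 224)))) (XT.nd (nat_lit 188) (nat_lit 3192) (nat_lit 0) (XT.nd (nat_lit 94) (nat_lit 0) (nat_lit 0) (XT.lf (nat_lit 0) (nat_lit 276850286) (nat_lit 1428) (nat_lit 2335612450) (nat_lit 1512) (nat_lit 4285233073) (nat_lit 390) (nat_lit 5) (nat_lit 407) (nat_lit 5) (nat_lit 408) (nat_lit 5) (nat_lit 268) (nat_lit 229) (nat_lit 223)) (XT.lf (nat_lit 0) (nat_lit 5132190777) (nat_lit 1428) (nat_lit 751997289) (nat_lit 1512) (nat_lit 1048684386) (nat_lit 390) (nat_lit 5) (nat_lit 407) (nat_lit 5) (nat_lit 408) (nat_lit 5) (nat_lit 269) (nat_lit 229) (nat_lit 222))) (XT.nd (nat_lit 94) (nat_lit 1596) (nat_lit 0) (XT.lf (nat_lit 0) (nat_lit 2181691104) (nat_lit 1596) (nat_lit 3889081020) (nat_lit 84) (nat_lit 898683306) (nat_lit 371) (nat_lit 5) (nat_lit 390) (nat_lit 5) (nat_lit 372) (nat_lit 5) (nat_lit 270) (nat_lit 229) (nat_lit 221)) (XT.lf (nat_lit 0) (nat_lit 1022649123)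 (nat_lit 1596) (nat_lit 4399028140) (nat_lit 1680) (nat_lit 1586010474) (nat_lit 352) (nat_lit 5) (nat_lit 371) (nat_lit 5) (nat_lit 372) (nat_lit 5) (nat_lit 271) (nat_lit 229) (nat_lit 220))))))))
noncomputable def xc11 : XT := (XT.nd (nat_lit 2820) (nat_lit 4788) (nat_lit 0) (XT.nd (nat_lit 1410) (nat_lit 7812) (nat_lit 0) (XT.nd (nat_lit 658) (nat_lit 5376) (nat_lit 0) (XT.nd (nat_lit 282) (nat_lit 3948) (nat_lit 0) (XT.nd (nat_lit 94) (nat_lit 3528) (nat_lit 0) (XT.lf (nat_lit 0) (nat_lit 1619208494) (nat_lit 1680) (nat_lit 1026414128) (nat_lit 84) (nat_lit 4401813406) (nat_lit 351) (nat_lit 5) (nat_lit 371) (nat_lit 5) (nat_lit 352) (nat_lit 5) (nat_lit 272) (nat_lit 229) (nat_lit 219)) (XT.nd (nat_lit 94) (nat_lit 1848) (nat_lit 0) (XT.lf (nat_lit 0) (nat_lit 4020553047) (nat_lit 1680) (nat_lit 809601938) (nat_lit 1764) (nat_lit 2258561487) (nat_lit 331) (nat_lit 5) (nat_lit 351) (nat_lit 5) (nat_lit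 352) (nat_lit 5) (nat_lit 273) (nat_lit 229) (nat_lit 218)) (XT.lf (nat_lit 0) (nat_lit 926992617) (nat_lit 1848) (nat_lit 5122100524) (nat_lit 84) (nat_lit 1082532019) (nat_lit 309) (nat_lit 5) (nat_lit 331) (nat_lit 5) (nat_lit 310) (nat_lit 5) (nat_lit 274) (nat_lit 229) (nat_lit 217)))) (XT.nd (nat_lit 188) (nat_lit 2016) (nat_lit 0) (XT.nd (nat_lit 94) (nat_lit 1932) (nat_lit 0) (XT.lf (nat_lit 0) (nat_lit 4109583565) (nat_lit 1848) (nat_lit 21404648) (nat_lit 84) (nat_lit 3045003481) (nat_lit 309) (nat_lit 5) (nat_lit 331) (nat_lit 5) (nat_lit 310) (nat_lit 5) (nat_lit 275) (nat_lit 229) (nat_lit 216)) (XT.lf (nat_lit 0) (nat_lit 108599563) (nat_lit 1932) (nat_lit 2023579329) (nat_lit 84) (nat_lit 5089798361) (nat_lit 286) (nat_lit 5) (nat_lit 309) (nat_lit 5) (nat_lit 287) (nat_lit 5) (nat_lit 276) (nat_lit 229) (nat_lit 215))) (XT.nd (nat_lit 94) (nat_lit 924) (nat_lit 0) (XT.lf (nat_lit 0) (nat_lit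 3220771199) (nat_lit 1092) (nat_lit 44091630) (nat_lit 1176) (nat_lit 4004576605) (nat_lit 273) (nat_lit 5) (nat_lit 286) (nat_lit 5) (nat_lit 287) (nat_lit 5) (nat_lit 277) (nat_lit 229) (nat_lit 214)) (XT.lf (nat_lit 0) (nat_lit 1227160693) (nat_lit 924) (nat_lit 5236471679) (nat_lit 1008) (nat_lit 854905903) (nat_lit 262) (nat_lit 5) (nat_lit 273) (nat_lit 5) (nat_lit 274) (nat_lit 5) (nat_lit 278) (nat_lit 229) (nat_lit 213))))) (XT.nd (nat_lit 376) (nat_lit 2604) (nat_lit 0) (XT.nd (nat_lit 188) (nat_lit 1764) (nat_lit 0) (XT.nd (nat_lit 94) (nat_lit 924) (nat_lit 0) (XT.lf (nat_lit 0) (nat_lit 2295291768) (nat_lit 1008) (nat_lit 774990094) (nat_lit 84) (nat_lit 4298828704) (nat_lit 261) (nat_lit 5) (nat_lit 273) (nat_lit 5) (nat_lit 262) (nat_lit 5) (nat_lit 279) (nat_lit 229) (nat_lit 212)) (XT.lf (nat_lit 0) (nat_lit 4651540559) (nat_lit 924) (nat_lit 820046300) (nat_lit 1008) (nat_lit 1949745366)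 (nat_lit 250) (nat_lit 5) (nat_lit 261) (nat_lit 5) (nat_lit 262) (nat_lit 5) (nat_lit 280) (nat_lit 229) (nat_lit 211))) (XT.nd (nat_lit 94) (nat_lit 840) (nat_lit 0) (XT.lf (nat_lit 0) (nat_lit 1197559634) (nat_lit 924) (nat_lit 4789739405) (nat_lit 84) (nat_lit 1487815990) (nat_lit 239) (nat_lit 5) (nat_lit 250) (nat_lit 5) (nat_lit 240) (nat_lit 5) (nat_lit 281) (nat_lit 229) (nat_lit 210)) (XT.lf (nat_lit 0) (nat_lit 693089578) (nat_lit 840) (nat_lit 3661355696) (nat_lit 924) (nat_lit 3176004624) (nat_lit 229) (nat_lit 5) (nat_lit 239) (nat_lit 5) (nat_lit 240) (nat_lit 5) (nat_lit 282) (nat_lit 229) (nat_lit 209)))) (XT.nd (nat_lit 188) (nat_lit 1680) (nat_lit 0) (XT.nd (nat_lit 94) (nat_lit 924) (nat_lit 0) (XT.lf (nat_lit 0) (nat_lit 6299700950) (nat_lit 840) (nat_lit 1254843661) (nat_lit 924) (nat_lit 33034756) (nat_lit 229) (nat_lit 5) (nat_lit 239) (nat_lit 5) (nat_lit 240) (nat_lit 5) (nat_lit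 283) (nat_lit 229) (nat_lit 208)) (XT.lf (nat_lit 0) (nat_lit 3112512602) (nat_lit 924) (nat_lit 3299046109) (nat_lit 84) (nat_lit 1234365913) (nat_lit 218) (nat_lit 5) (nat_lit 229) (nat_lit 5) (nat_lit 219) (nat_lit 5) (nat_lit 284) (nat_lit 229) (nat_lit 207))) (XT.nd (nat_lit 94) (nat_lit 840) (nat_lit 0) (XT.lf (nat_lit 0) (nat_lit 2375697080) (nat_lit 840) (nat_lit 3926764681) (nat_lit 924) (nat_lit 1403621331) (nat_lit 208) (nat_lit 5) (nat_lit 218) (nat_lit 5) (nat_lit 219) (nat_lit 5) (nat_lit 285) (nat_lit 229) (nat_lit 206)) (XT.lf (nat_lit 0) (nat_lit 381111632) (nat_lit 756) (nat_lit 1355740398) (nat_lit 840) (nat_lit 6031142727) (nat_lit 198) (nat_lit 5) (nat_lit 207) (nat_lit 5) (nat_lit 208) (nat_lit 5) (nat_lit 286) (nat_lit 229) (nat_lit 205)))))) (XT.nd (nat_lit 658) (nat_lit 3948) (nat_lit 0) (XT.nd (nat_lit 282) (nat_lit 2268) (nat_lit 0) (XT.nd (nat_lit 94) (nat_lit 1596) (nat_lit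 0) (XT.lf (nat_lit 0) (nat_lit 4915620246) (nat_lit 840) (nat_lit 1621761891) (nat_lit 84) (nat_lit 1293884492) (nat_lit 198) (nat_lit 5) (nat_lit 208) (nat_lit 5) (nat_lit 199) (nat_lit 5) (nat_lit 287) (nat_lit 229) (nat_lit 204)) (XT.nd (nat_lit 94) (nat_lit 756) (nat_lit 0) (XT.lf (nat_lit 0) (nat_lit 246980611) (nat_lit 840) (nat_lit 3644681403) (nat_lit 84) (nat_lit 4004612388) (nat_lit 188) (nat_lit 5) (nat_lit 198) (nat_lit 5) (nat_lit 189) (nat_lit 5) (nat_lit 288) (nat_lit 229) (nat_lit 203)) (XT.lf (nat_lit 0) (nat_lit 2258641236) (nat_lit 756) (nat_lit 1148538852) (nat_lit 840) (nat_lit 4555705202) (nat_lit 179) (nat_lit 5) (nat_lit 188) (nat_lit 5) (nat_lit 189) (nat_lit 5) (nat_lit 289) (nat_lit 229) (nat_lit 202)))) (XT.nd (nat_lit 188) (nat_lit 1428) (nat_lit 0) (XT.nd (nat_lit 94) (nat_lit 84) (nat_lit 0) (XT.lf (nat_lit 0) (nat_lit 238170252) (nat_lit 756) (nat_lit 6382759420) (nat_lit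 840) (nat_lit 1410383381) (nat_lit 170) (nat_lit 5) (nat_lit 179) (nat_lit 5) (nat_lit 180) (nat_lit 5) (nat_lit 290) (nat_lit 229) (nat_lit 201)) (XT.lf (nat_lit 0) (nat_lit 1772697698) (nat_lit 840) (nat_lit 1794826438) (nat_lit 84) (nat_lit 4533559317) (nat_lit 169) (nat_lit 5) (nat_lit 179) (nat_lit 5) (nat_lit 170) (nat_lit 5) (nat_lit 291) (nat_lit 229) (nat_lit 200))) (XT.nd (nat_lit 94) (nat_lit 756) (nat_lit 0) (XT.lf (nat_lit 0) (nat_lit 4319395132) (nat_lit 672) (nat_lit 661375520) (nat_lit 756) (nat_lit 3191926316) (nat_lit 161) (nat_lit 5) (nat_lit 169) (nat_lit 5) (nat_lit 170) (nat_lit 5) (nat_lit 292) (nat_lit 229) (nat_lit 199)) (XT.lf (nat_lit 0) (nat_lit 5010357) (nat_lit 756) (nat_lit 5948830184) (nat_lit 84) (nat_lit 2292226574) (nat_lit 152) (nat_lit 5) (nat_lit 161) (nat_lit 5) (nat_lit 153) (nat_lit 5) (nat_lit 293) (nat_lit 229) (nat_lit 198))))) (XT.nd (nat_lit 376) (nat_lit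 1932) (nat_lit 0) (XT.nd (nat_lit 188) (nat_lit 1344) (nat_lit 0) (XT.nd (nat_lit 94) (nat_lit 0) (nat_lit 0) (XT.lf (nat_lit 0) (nat_lit 226303794) (nat_lit 672) (nat_lit 2979948627) (nat_lit 756) (nat_lit 5114706691) (nat_lit 144) (nat_lit 5) (nat_lit 152) (nat_lit 5) (nat_lit 153) (nat_lit 5) (nat_lit 294) (nat_lit 229) (nat_lit 197)) (XT.lf (nat_lit 0) (nat_lit 6469038563) (nat_lit 756) (nat_lit 1840617603) (nat_lit 84) (nat_lit 88038001) (nat_lit 144) (nat_lit 5) (nat_lit 153) (nat_lit 5) (nat_lit 145) (nat_lit 5) (nat_lit 295) (nat_lit 229) (nat_lit 196))) (XT.nd (nat_lit 94) (nat_lit 588) (nat_lit 0) (XT.lf (nat_lit 0) (nat_lit 1309904041) (nat_lit 756) (nat_lit 3959024098) (nat_lit 84) (nat_lit 3206947439) (nat_lit 135) (nat_lit 5) (nat_lit 144) (nat_lit 5) (nat_lit 136) (nat_lit 5) (nat_lit 296) (nat_lit 229) (nat_lit 195)) (XT.lf (nat_lit 0) (nat_lit 2438930568) (nat_lit 588) (nat_lit 2131316641)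 (nat_lit 672) (nat_lit 3985684527) (nat_lit 128) (nat_lit 5) (nat_lit 135) (nat_lit 5) (nat_lit 136) (nat_lit 5) (nat_lit 297) (nat_lit 229) (nat_lit 194)))) (XT.nd (nat_lit 188) (nat_lit 1260) (nat_lit 0) (XT.nd (nat_lit 94) (nat_lit 84) (nat_lit 0) (XT.lf (nat_lit 0) (nat_lit 327731671) (nat_lit 588) (nat_lit 7562417687) (nat_lit 672) (nat_lit 747867480) (nat_lit 121) (nat_lit 5) (nat_lit 128) (nat_lit 5) (nat_lit 129) (nat_lit 5) (nat_lit 298) (nat_lit 229) (nat_lit 193)) (XT.lf (nat_lit 0) (nat_lit 2533954512) (nat_lit 672) (nat_lit 1818428151) (nat_lit 84) (nat_lit 4368911218) (nat_lit 120) (nat_lit 5) (nat_lit 128) (nat_lit 5) (nat_lit 121) (nat_lit 5) (nat_lit 299) (nat_lit 229) (nat_lit 192))) (XT.nd (nat_lit 94) (nat_lit 672) (nat_lit 0) (XT.lf (nat_lit 0) (nat_lit 4812574992) (nat_lit 588) (nat_lit 1048414885) (nat_lit 672) (nat_lit 2945644880) (nat_lit 113) (nat_lit 5) (nat_lit 120) (nat_lit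 5) (nat_lit 121) (nat_lit 5) (nat_lit 300) (nat_lit 229) (nat_lit 191)) (XT.lf (nat_lit 0) (nat_lit 361474523) (nat_lit 672) (nat_lit 6219571006) (nat_lit 84) (nat_lit 2312763257) (nat_lit 105) (nat_lit 5) (nat_lit 113) (nat_lit 5) (nat_lit 106) (nat_lit 5) (nat_lit 301) (nat_lit 229) (nat_lit 190))))))) (XT.nd (nat_lit 41548) (nat_lit 0) (nat_lit 18900) (XT.nd (nat_lit 658) (nat_lit 2016) (nat_lit 0) (XT.nd (nat_lit 282) (nat_lit 1596) (nat_lit 0) (XT.nd (nat_lit 94) (nat_lit 672) (nat_lit 0) (XT.lf (nat_lit 0) (nat_lit 475942636) (nat_lit 504) (nat_lit 3213240243) (nat_lit 588) (nat_lit 5293439763) (nat_lit 99) (nat_lit 5) (nat_lit 105) (nat_lit 5) (nat_lit 106) (nat_lit 5) (nat_lit 302) (nat_lit 229) (nat_lit 189)) (XT.nd (nat_lit 94) (nat_lit 672) (nat_lit 0) (XT.lf (nat_lit 0) (nat_lit 7088907257) (nat_lit 588) (nat_lit 1731404287) (nat_lit 84) (nat_lit 253105116) (nat_lit 99) (nat_lit 5) (nat_lit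 106) (nat_lit 5) (nat_lit 100) (nat_lit 5) (nat_lit 303) (nat_lit 229) (nat_lit 188)) (XT.lf (nat_lit 0) (nat_lit 1389410610) (nat_lit 672) (nat_lit 3999112379) (nat_lit 84) (nat_lit 3777195211) (nat_lit 91) (nat_lit 5) (nat_lit 99) (nat_lit 5) (nat_lit 92) (nat_lit 5) (nat_lit 304) (nat_lit 229) (nat_lit 187)))) (XT.nd (nat_lit 188) (nat_lit 588) (nat_lit 0) (XT.nd (nat_lit 94) (nat_lit 504) (nat_lit 0) (XT.lf (nat_lit 0) (nat_lit 2942865122) (nat_lit 504) (nat_lit 1851497509) (nat_lit 588) (nat_lit 4465677514) (nat_lit 85) (nat_lit 5) (nat_lit 91) (nat_lit 5) (nat_lit 92) (nat_lit 5) (nat_lit 305) (nat_lit 229) (nat_lit 186)) (XT.lf (nat_lit 0) (nat_lit 670532660) (nat_lit 504) (nat_lit 7603367520) (nat_lit 588) (nat_lit 1082544108) (nat_lit 79) (nat_lit 5) (nat_lit 85) (nat_lit 5) (nat_lit 86) (nat_lit 5) (nat_lit 306) (nat_lit 229) (nat_lit 185))) (XT.nd (nat_lit 94) (nat_lit 504) (nat_lit 0) (XT.lf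 (nat_lit 0) (nat_lit 2354074925) (nat_lit 588) (nat_lit 1646416298) (nat_lit 84) (nat_lit 5453814088) (nat_lit 78) (nat_lit 5) (nat_lit 85) (nat_lit 5) (nat_lit 79) (nat_lit 5) (nat_lit 307) (nat_lit 229) (nat_lit 184)) (XT.lf (nat_lit 0) (nat_lit 5553464430) (nat_lit 504) (nat_lit 290260303) (nat_lit 588) (nat_lit 3710567239) (nat_lit 72) (nat_lit 5) (nat_lit 78) (nat_lit 5) (nat_lit 79) (nat_lit 5) (nat_lit 308) (nat_lit 229) (nat_lit 183))))) (XT.nd (nat_lit 376) (nat_lit 420) (nat_lit 0) (XT.nd (nat_lit 188) (nat_lit 588) (nat_lit 0) (XT.nd (nat_lit 94) (nat_lit 504) (nat_lit 0) (XT.lf (nat_lit 0) (nat_lit 3234711946) (nat_lit 504) (nat_lit 6189848356) (nat_lit 588) (nat_lit 231600941) (nat_lit 66) (nat_lit 5) (nat_lit 72) (nat_lit 5) (nat_lit 73) (nat_lit 5) (nat_lit 309) (nat_lit 229) (nat_lit 182)) (XT.lf (nat_lit 0) (nat_lit 848631517) (nat_lit 420) (nat_lit 2419683555) (nat_lit 504) (nat_lit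 6491605355) (nat_lit 60) (nat_lit 5) (nat_lit 65) (nat_lit 5) (nat_lit 66) (nat_lit 5) (nat_lit 310) (nat_lit 229) (nat_lit 181))) (XT.nd (nat_lit 94) (nat_lit 588) (nat_lit 0) (XT.lf (nat_lit 0) (nat_lit 6854523648) (nat_lit 504) (nat_lit 1570106538) (nat_lit 84) (nat_lit 1441015554) (nat_lit 60) (nat_lit 5) (nat_lit 66) (nat_lit 5) (nat_lit 61) (nat_lit 5) (nat_lit 311) (nat_lit 229) (nat_lit 180)) (XT.lf (nat_lit 0) (nat_lit 553760764) (nat_lit 588) (nat_lit 4042967858) (nat_lit 84) (nat_lit 5376537607) (nat_lit 53) (nat_lit 5) (nat_lit 60) (nat_lit 5) (nat_lit 54) (nat_lit 5) (nat_lit 312) (nat_lit 229) (nat_lit 179)))) (XT.nd (nat_lit 40326) (nat_lit 0) (nat_lit 35280) (XT.nd (nat_lit 40232) (nat_lit 0) (nat_lit 36372) (XT.lf (nat_lit 0) (nat_lit 3498324731) (nat_lit 420) (nat_lit 646882754) (nat_lit 504) (nat_lit 5937730500) (nat_lit 48) (nat_lit 5) (nat_lit 53) (nat_lit 5) (nat_lit 54) (nat_lit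 5) (nat_lit 313) (nat_lit 229) (nat_lit 178)) (XT.lf (nat_lit 0) (nat_lit 2016364228) (nat_lit 924) (nat_lit 659566652) (nat_lit 924) (nat_lit 659566652) (nat_lit 481) (nat_lit 4) (nat_lit 492) (nat_lit 5) (nat_lit 492) (nat_lit 4) (nat_lit 260) (nat_lit 230) (nat_lit 230))) (XT.nd (nat_lit 94) (nat_lit 0) (nat_lit 0) (XT.lf (nat_lit 0) (nat_lit 1769770228) (nat_lit 1008) (nat_lit 230158427) (nat_lit 1092) (nat_lit 4694779056) (nat_lit 468) (nat_lit 5) (nat_lit 480) (nat_lit 5) (nat_lit 481) (nat_lit 4) (nat_lit 261) (nat_lit 230) (nat_lit 229)) (XT.lf (nat_lit 0) (nat_lit 5318000691) (nat_lit 1092) (nat_lit 486296458) (nat_lit 0) (nat_lit 915634632) (nat_lit 468) (nat_lit 5) (nat_lit 481) (nat_lit 4) (nat_lit 468) (nat_lit 4) (nat_lit 262) (nat_lit 230) (nat_lit 228)))))) (XT.nd (nat_lit 658) (nat_lit 9744) (nat_lit 0) (XT.nd (nat_lit 282) (nat_lit 4200) (nat_lit 0) (XT.nd (nat_lit 94) (nat_lit 1260)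 (nat_lit 0) (XT.lf (nat_lit 0) (nat_lit 1886421325) (nat_lit 1176) (nat_lit 2718387561) (nat_lit 84) (nat_lit 2141664724) (nat_lit 454) (nat_lit 5) (nat_lit 468) (nat_lit 5) (nat_lit 455) (nat_lit 4) (nat_lit 263) (nat_lit 230) (nat_lit 227)) (XT.nd (nat_lit 94) (nat_lit 84) (nat_lit 0) (XT.lf (nat_lit 0) (nat_lit 1826409184) (nat_lit 1176) (nat_lit 3338599197) (nat_lit 1260) (nat_lit 1609718843) (nat_lit 440) (nat_lit 5) (nat_lit 454) (nat_lit 5) (nat_lit 455) (nat_lit 4) (nat_lit 264) (nat_lit 230) (nat_lit 226)) (XT.lf (nat_lit 0) (nat_lit 1630246885) (nat_lit 1260) (nat_lit 369564533) (nat_lit 84) (nat_lit 4804781423) (nat_lit 439) (nat_lit 5) (nat_lit 454) (nat_lit 5) (nat_lit 440) (nat_lit 5) (nat_lit 265) (nat_lit 230) (nat_lit 225)))) (XT.nd (nat_lit 188) (nat_lit 1512) (nat_lit 0) (XT.nd (nat_lit 94) (nat_lit 1428) (nat_lit 0) (XT.lf (nat_lit 0) (nat_lit 4295638466) (nat_lit 1260) (nat_lit 576983967)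 (nat_lit 1344) (nat_lit 1963229092) (nat_lit 424) (nat_lit 5) (nat_lit 439) (nat_lit 5) (nat_lit 440) (nat_lit 5) (nat_lit 266) (nat_lit 230) (nat_lit 224)) (XT.lf (nat_lit 0) (nat_lit 1249041231) (nat_lit 1428) (nat_lit 4717508021) (nat_lit 84) (nat_lit 902153021) (nat_lit 407) (nat_lit 5) (nat_lit 424) (nat_lit 5) (nat_lit 408) (nat_lit 5) (nat_lit 267) (nat_lit 230) (nat_lit 223))) (XT.nd (nat_lit 94) (nat_lit 1512) (nat_lit 0) (XT.lf (nat_lit 0) (nat_lit 4452266019) (nat_lit 1428) (nat_lit 3033027) (nat_lit 84) (nat_lit 2447780228) (nat_lit 407) (nat_lit 5) (nat_lit 424) (nat_lit 5) (nat_lit 408) (nat_lit 5) (nat_lit 268) (nat_lit 230) (nat_lit 222)) (XT.lf (nat_lit 0) (nat_lit 738133107) (nat_lit 1512) (nat_lit 2124668377) (nat_lit 84) (nat_lit 4076129575) (nat_lit 389) (nat_lit 5) (nat_lit 407) (nat_lit 5) (nat_lit 390) (nat_lit 5) (nat_lit 269) (nat_lit 230) (nat_lit 221))))) (XT.nd (nat_lit 376)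 (nat_lit 4872) (nat_lit 0) (XT.nd (nat_lit 188) (nat_lit 1680) (nat_lit 0) (XT.nd (nat_lit 94) (nat_lit 1680) (nat_lit 0) (XT.lf (nat_lit 0) (nat_lit 2717872630) (nat_lit 1512) (nat_lit 1190924486) (nat_lit 1596) (nat_lit 3067533937) (nat_lit 371) (nat_lit 5) (nat_lit 389) (nat_lit 5) (nat_lit 390) (nat_lit 5) (nat_lit 270) (nat_lit 230) (nat_lit 220)) (XT.lf (nat_lit 0) (nat_lit 85692946) (nat_lit 1680) (nat_lit 6393121697) (nat_lit 84) (nat_lit 536752747) (nat_lit 351) (nat_lit 5) (nat_lit 371) (nat_lit 5) (nat_lit 352) (nat_lit 5) (nat_lit 271) (nat_lit 230) (nat_lit 219))) (XT.nd (nat_lit 94) (nat_lit 1680) (nat_lit 0) (XT.lf (nat_lit 0) (nat_lit 3233409322) (nat_lit 1680) (nat_lit 1478984519) (nat_lit 84) (nat_lit 2343435791) (nat_lit 351) (nat_lit 5) (nat_lit 371) (nat_lit 5) (nat_lit 352) (nat_lit 5) (nat_lit 272) (nat_lit 230) (nat_lit 218)) (XT.lf (nat_lit 0) (nat_lit 3528419035) (nat_lit 1680)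 (nat_lit 2878518282) (nat_lit 1764) (nat_lit 690995966) (nat_lit 331) (nat_lit 5) (nat_lit 351) (nat_lit 5) (nat_lit 352) (nat_lit 5) (nat_lit 273) (nat_lit 230) (nat_lit 217)))) (XT.nd (nat_lit 188) (nat_lit 3024) (nat_lit 0) (XT.nd (nat_lit 94) (nat_lit 0) (nat_lit 0) (XT.lf (nat_lit 0) (nat_lit 1464303075) (nat_lit 1764) (nat_lit 962256827) (nat_lit 1848) (nat_lit 4715035662) (nat_lit 309) (nat_lit 5) (nat_lit 330) (nat_lit 5) (nat_lit 331) (nat_lit 5) (nat_lit 274) (nat_lit 230) (nat_lit 216)) (XT.lf (nat_lit 0) (nat_lit 5569138446) (nat_lit 1848) (nat_lit 602972442) (nat_lit 84) (nat_lit 1014731482) (nat_lit 309) (nat_lit 5) (nat_lit 331) (nat_lit 5) (nat_lit 310) (nat_lit 5) (nat_lit 275) (nat_lit 230) (nat_lit 215))) (XT.nd (nat_lit 94) (nat_lit 1092) (nat_lit 0) (XT.lf (nat_lit 0) (nat_lit 1499286886) (nat_lit 1932) (nat_lit 2668349056) (nat_lit 84) (nat_lit 3065782279) (nat_lit 286) (nat_lit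 5) (nat_lit 309) (nat_lit 5) (nat_lit 287) (nat_lit 5) (nat_lit 276) (nat_lit 230) (nat_lit 214)) (XT.lf (nat_lit 0) (nat_lit 2533349842) (nat_lit 1092) (nat_lit 2085095086) (nat_lit 1176) (nat_lit 2663251789) (nat_lit 273) (nat_lit 5) (nat_lit 286) (nat_lit 5) (nat_lit 287) (nat_lit 5) (nat_lit 277) (nat_lit 230) (nat_lit 213))))))))
noncomputable def xc12 : XT := (XT.nd (nat_lit 2820) (nat_lit 2520) (nat_lit 0) (XT.nd (nat_lit 1410) (nat_lit 6972) (nat_lit 0) (XT.nd (nat_lit 658) (nat_lit 4788) (nat_lit 0) (XT.nd (nat_lit 282) (nat_lit 2688) (nat_lit 0) (XT.nd (nat_lit 94) (nat_lit 924) (nat_lit 0) (XT.lf (nat_lit 0) (nat_lit 427555567) (nat_lit 1008) (nat_lit 6836702183) (nat_lit 84) (nat_lit 67602442) (nat_lit 261) (nat_lit 5) (nat_lit 273) (nat_lit 5) (nat_lit 262) (nat_lit 5) (nat_lit 278) (nat_lit 230) (nat_lit 212)) (XT.nd (nat_lit 94) (nat_lit 924) (nat_lit 0) (XT.lf (nat_lit 0) (nat_lit 3533908375)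 (nat_lit 1008) (nat_lit 1559832027) (nat_lit 84) (nat_lit 2289251801) (nat_lit 261) (nat_lit 5) (nat_lit 273) (nat_lit 5) (nat_lit 262) (nat_lit 5) (nat_lit 279) (nat_lit 230) (nat_lit 211)) (XT.lf (nat_lit 0) (nat_lit 3822043166) (nat_lit 924) (nat_lit 2851398857) (nat_lit 1008) (nat_lit 762580591) (nat_lit 250) (nat_lit 5) (nat_lit 261) (nat_lit 5) (nat_lit 262) (nat_lit 5) (nat_lit 280) (nat_lit 230) (nat_lit 210)))) (XT.nd (nat_lit 188) (nat_lit 1764) (nat_lit 0) (XT.nd (nat_lit 94) (nat_lit 0) (nat_lit 0) (XT.lf (nat_lit 0) (nat_lit 1797860112) (nat_lit 840) (nat_lit 521970793) (nat_lit 924) (nat_lit 5170839951) (nat_lit 239) (nat_lit 5) (nat_lit 249) (nat_lit 5) (nat_lit 250) (nat_lit 5) (nat_lit 281) (nat_lit 230) (nat_lit 209)) (XT.lf (nat_lit 0) (nat_lit 5437829264) (nat_lit 924) (nat_lit 249575011) (nat_lit 84) (nat_lit 1859456971) (nat_lit 239) (nat_lit 5) (nat_lit 250) (nat_lit 5) (nat_lit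 240) (nat_lit 5) (nat_lit 282) (nat_lit 230) (nat_lit 208))) (XT.nd (nat_lit 94) (nat_lit 840) (nat_lit 0) (XT.lf (nat_lit 0) (nat_lit 987194907) (nat_lit 924) (nat_lit 2291519802) (nat_lit 84) (nat_lit 4325814698) (nat_lit 228) (nat_lit 5) (nat_lit 239) (nat_lit 5) (nat_lit 229) (nat_lit 5) (nat_lit 283) (nat_lit 230) (nat_lit 207)) (XT.lf (nat_lit 0) (nat_lit 3304164538) (nat_lit 840) (nat_lit 782300742) (nat_lit 924) (nat_lit 3577411832) (nat_lit 218) (nat_lit 5) (nat_lit 228) (nat_lit 5) (nat_lit 229) (nat_lit 5) (nat_lit 284) (nat_lit 230) (nat_lit 206))))) (XT.nd (nat_lit 376) (nat_lit 2268) (nat_lit 0) (XT.nd (nat_lit 188) (nat_lit 1596) (nat_lit 0) (XT.nd (nat_lit 94) (nat_lit 84) (nat_lit 0) (XT.lf (nat_lit 0) (nat_lit 1271519345) (nat_lit 840) (nat_lit 5962444813) (nat_lit 924) (nat_lit 491005329) (nat_lit 208) (nat_lit 5) (nat_lit 218) (nat_lit 5) (nat_lit 219) (nat_lit 5) (nat_lit 285) (nat_lit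 230) (nat_lit 205)) (XT.lf (nat_lit 0) (nat_lit 2604777780) (nat_lit 924) (nat_lit 787304127) (nat_lit 84) (nat_lit 4395350233) (nat_lit 207) (nat_lit 5) (nat_lit 218) (nat_lit 5) (nat_lit 208) (nat_lit 5) (nat_lit 286) (nat_lit 230) (nat_lit 204))) (XT.nd (nat_lit 94) (nat_lit 840) (nat_lit 0) (XT.lf (nat_lit 0) (nat_lit 5006020126) (nat_lit 756) (nat_lit 734038198) (nat_lit 840) (nat_lit 2111602416) (nat_lit 198) (nat_lit 5) (nat_lit 207) (nat_lit 5) (nat_lit 208) (nat_lit 5) (nat_lit 287) (nat_lit 230) (nat_lit 203)) (XT.lf (nat_lit 0) (nat_lit 996995813) (nat_lit 840) (nat_lit 4941351551) (nat_lit 84) (nat_lit 1979129002) (nat_lit 188) (nat_lit 5) (nat_lit 198) (nat_lit 5) (nat_lit 189) (nat_lit 5) (nat_lit 288) (nat_lit 230) (nat_lit 202)))) (XT.nd (nat_lit 188) (nat_lit 1512) (nat_lit 0) (XT.nd (nat_lit 94) (nat_lit 0) (nat_lit 0) (XT.lf (nat_lit 0) (nat_lit 909383783) (nat_lit 756) (nat_lit 3210500357)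 (nat_lit 840) (nat_lit 3865023960) (nat_lit 179) (nat_lit 5) (nat_lit 188) (nat_lit 5) (nat_lit 189) (nat_lit 5) (nat_lit 289) (nat_lit 230) (nat_lit 201)) (XT.lf (nat_lit 0) (nat_lit 6896082912) (nat_lit 756) (nat_lit 396613641) (nat_lit 840) (nat_lit 761539927) (nat_lit 179) (nat_lit 5) (nat_lit 188) (nat_lit 5) (nat_lit 189) (nat_lit 5) (nat_lit 290) (nat_lit 230) (nat_lit 200))) (XT.nd (nat_lit 94) (nat_lit 672) (nat_lit 0) (XT.lf (nat_lit 0) (nat_lit 2373717183) (nat_lit 840) (nat_lit 3266550150) (nat_lit 84) (nat_lit 2484484395) (nat_lit 169) (nat_lit 5) (nat_lit 179) (nat_lit 5) (nat_lit 170) (nat_lit 5) (nat_lit 291) (nat_lit 230) (nat_lit 199)) (XT.lf (nat_lit 0) (nat_lit 2792775520) (nat_lit 672) (nat_lit 2751504050) (nat_lit 756) (nat_lit 2652910903) (nat_lit 161) (nat_lit 5) (nat_lit 169) (nat_lit 5) (nat_lit 170) (nat_lit 5) (nat_lit 292) (nat_lit 230) (nat_lit 198)))))) (XT.nd (nat_lit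 658) (nat_lit 3528) (nat_lit 0) (XT.nd (nat_lit 282) (nat_lit 2016) (nat_lit 0) (XT.nd (nat_lit 94) (nat_lit 672) (nat_lit 0) (XT.lf (nat_lit 0) (nat_lit 483307420) (nat_lit 756) (nat_lit 7570299796) (nat_lit 84) (nat_lit 218033942) (nat_lit 152) (nat_lit 5) (nat_lit 161) (nat_lit 5) (nat_lit 153) (nat_lit 5) (nat_lit 293) (nat_lit 230) (nat_lit 197)) (XT.nd (nat_lit 94) (nat_lit 672) (nat_lit 0) (XT.lf (nat_lit 0) (nat_lit 3656739513) (nat_lit 756) (nat_lit 1431771167) (nat_lit 84) (nat_lit 3258634296) (nat_lit 152) (nat_lit 5) (nat_lit 161) (nat_lit 5) (nat_lit 153) (nat_lit 5) (nat_lit 294) (nat_lit 230) (nat_lit 196)) (XT.lf (nat_lit 0) (nat_lit 4845623600) (nat_lit 672) (nat_lit 2037048064) (nat_lit 756) (nat_lit 1542019152) (nat_lit 144) (nat_lit 5) (nat_lit 152) (nat_lit 5) (nat_lit 153) (nat_lit 5) (nat_lit 295) (nat_lit 230) (nat_lit 195)))) (XT.nd (nat_lit 188) (nat_lit 672) (nat_lit 0) (XT.nd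 (nat_lit 94) (nat_lit 588) (nat_lit 0) (XT.lf (nat_lit 0) (nat_lit 1638017993) (nat_lit 756) (nat_lit 5772060464) (nat_lit 84) (nat_lit 1093898163) (nat_lit 135) (nat_lit 5) (nat_lit 144) (nat_lit 5) (nat_lit 136) (nat_lit 5) (nat_lit 296) (nat_lit 230) (nat_lit 194)) (XT.lf (nat_lit 0) (nat_lit 565886759) (nat_lit 588) (nat_lit 4293899871) (nat_lit 672) (nat_lit 3725094787) (nat_lit 128) (nat_lit 5) (nat_lit 135) (nat_lit 5) (nat_lit 136) (nat_lit 5) (nat_lit 297) (nat_lit 230) (nat_lit 193))) (XT.nd (nat_lit 94) (nat_lit 672) (nat_lit 0) (XT.lf (nat_lit 0) (nat_lit 7063172239) (nat_lit 588) (nat_lit 1081502378) (nat_lit 672) (nat_lit 523062214) (nat_lit 128) (nat_lit 5) (nat_lit 135) (nat_lit 5) (nat_lit 136) (nat_lit 5) (nat_lit 298) (nat_lit 230) (nat_lit 192)) (XT.lf (nat_lit 0) (nat_lit 2711280758) (nat_lit 672) (nat_lit 3831367108) (nat_lit 84) (nat_lit 2209304081) (nat_lit 120) (nat_lit 5) (nat_lit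 128) (nat_lit 5) (nat_lit 121) (nat_lit 5) (nat_lit 299) (nat_lit 230) (nat_lit 191))))) (XT.nd (nat_lit 376) (nat_lit 1764) (nat_lit 0) (XT.nd (nat_lit 188) (nat_lit 504) (nat_lit 0) (XT.nd (nat_lit 94) (nat_lit 672) (nat_lit 0) (XT.lf (nat_lit 0) (nat_lit 2737055172) (nat_lit 588) (nat_lit 3262155431) (nat_lit 672) (nat_lit 2838942543) (nat_lit 113) (nat_lit 5) (nat_lit 120) (nat_lit 5) (nat_lit 121) (nat_lit 5) (nat_lit 300) (nat_lit 230) (nat_lit 190)) (XT.lf (nat_lit 0) (nat_lit 411028170) (nat_lit 672) (nat_lit 8407892721) (nat_lit 84) (nat_lit 107613023) (nat_lit 105) (nat_lit 5) (nat_lit 113) (nat_lit 5) (nat_lit 106) (nat_lit 5) (nat_lit 301) (nat_lit 230) (nat_lit 189))) (XT.nd (nat_lit 94) (nat_lit 504) (nat_lit 0) (XT.lf (nat_lit 0) (nat_lit 3711370037) (nat_lit 672) (nat_lit 1752265805) (nat_lit 84) (nat_lit 3552313990) (nat_lit 105) (nat_lit 5) (nat_lit 113) (nat_lit 5) (nat_lit 106) (nat_lit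 5) (nat_lit 302) (nat_lit 230) (nat_lit 188)) (XT.lf (nat_lit 0) (nat_lit 5057273517) (nat_lit 504) (nat_lit 2015633708) (nat_lit 588) (nat_lit 2034676743) (nat_lit 99) (nat_lit 5) (nat_lit 105) (nat_lit 5) (nat_lit 106) (nat_lit 5) (nat_lit 303) (nat_lit 230) (nat_lit 187)))) (XT.nd (nat_lit 188) (nat_lit 588) (nat_lit 0) (XT.nd (nat_lit 94) (nat_lit 504) (nat_lit 0) (XT.lf (nat_lit 0) (nat_lit 1285073325) (nat_lit 672) (nat_lit 6404959794) (nat_lit 84) (nat_lit 1511067887) (nat_lit 91) (nat_lit 5) (nat_lit 99) (nat_lit 5) (nat_lit 92) (nat_lit 5) (nat_lit 304) (nat_lit 230) (nat_lit 186)) (XT.lf (nat_lit 0) (nat_lit 468745814) (nat_lit 504) (nat_lit 4180511798) (nat_lit 588) (nat_lit 4647062229) (nat_lit 85) (nat_lit 5) (nat_lit 91) (nat_lit 5) (nat_lit 92) (nat_lit 5) (nat_lit 305) (nat_lit 230) (nat_lit 185))) (XT.nd (nat_lit 94) (nat_lit 588) (nat_lit 0) (XT.lf (nat_lit 0) (nat_lit 7523817624) (nat_lit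 504) (nat_lit 564689037) (nat_lit 588) (nat_lit 1305103671) (nat_lit 85) (nat_lit 5) (nat_lit 91) (nat_lit 5) (nat_lit 92) (nat_lit 5) (nat_lit 306) (nat_lit 230) (nat_lit 184)) (XT.lf (nat_lit 0) (nat_lit 2094238663) (nat_lit 588) (nat_lit 4278756239) (nat_lit 84) (nat_lit 3119401941) (nat_lit 78) (nat_lit 5) (nat_lit 85) (nat_lit 5) (nat_lit 79) (nat_lit 5) (nat_lit 307) (nat_lit 230) (nat_lit 183))))))) (XT.nd (nat_lit 41360) (nat_lit 0) (nat_lit 16044) (XT.nd (nat_lit 40608) (nat_lit 0) (nat_lit 31584) (XT.nd (nat_lit 282) (nat_lit 1428) (nat_lit 0) (XT.nd (nat_lit 94) (nat_lit 588) (nat_lit 0) (XT.lf (nat_lit 0) (nat_lit 2849961531) (nat_lit 504) (nat_lit 2692313223) (nat_lit 588) (nat_lit 4051024251) (nat_lit 72) (nat_lit 5) (nat_lit 78) (nat_lit 5) (nat_lit 79) (nat_lit 5) (nat_lit 308) (nat_lit 230) (nat_lit 182)) (XT.nd (nat_lit 94) (nat_lit 84) (nat_lit 0) (XT.lf (nat_lit 0) (nat_lit 436603901)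 (nat_lit 504) (nat_lit 8627291348) (nat_lit 588) (nat_lit 632575758) (nat_lit 66) (nat_lit 5) (nat_lit 72) (nat_lit 5) (nat_lit 73) (nat_lit 5) (nat_lit 309) (nat_lit 230) (nat_lit 181)) (XT.lf (nat_lit 0) (nat_lit 2844985989) (nat_lit 588) (nat_lit 2031648410) (nat_lit 84) (nat_lit 4924277480) (nat_lit 65) (nat_lit 5) (nat_lit 72) (nat_lit 5) (nat_lit 66) (nat_lit 5) (nat_lit 310) (nat_lit 230) (nat_lit 180)))) (XT.nd (nat_lit 188) (nat_lit 504) (nat_lit 0) (XT.nd (nat_lit 94) (nat_lit 504) (nat_lit 0) (XT.lf (nat_lit 0) (nat_lit 5363952757) (nat_lit 420) (nat_lit 1020304734) (nat_lit 504) (nat_lit 3523412316) (nat_lit 60) (nat_lit 5) (nat_lit 65) (nat_lit 5) (nat_lit 66) (nat_lit 5) (nat_lit 311) (nat_lit 230) (nat_lit 179)) (XT.lf (nat_lit 0) (nat_lit 2892266215) (nat_lit 504) (nat_lit 7122296023) (nat_lit 588) (nat_lit 1924448) (nat_lit 54) (nat_lit 5) (nat_lit 60) (nat_lit 5) (nat_lit 61) (nat_lit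 5) (nat_lit 312) (nat_lit 230) (nat_lit 178))) (XT.nd (nat_lit 40044) (nat_lit 0) (nat_lit 37296) (XT.lf (nat_lit 0) (nat_lit 339544665) (nat_lit 420) (nat_lit 3206144235) (nat_lit 504) (nat_lit 6581434789) (nat_lit 48) (nat_lit 5) (nat_lit 53) (nat_lit 5) (nat_lit 54) (nat_lit 5) (nat_lit 313) (nat_lit 230) (nat_lit 177)) (XT.lf (nat_lit 0) (nat_lit 503713293) (nat_lit 924) (nat_lit 2306352131) (nat_lit 0) (nat_lit 503713293) (nat_lit 492) (nat_lit 5) (nat_lit 503) (nat_lit 4) (nat_lit 492) (nat_lit 4) (nat_lit 258) (nat_lit 231) (nat_lit 231))))) (XT.nd (nat_lit 376) (nat_lit 3612) (nat_lit 0) (XT.nd (nat_lit 188) (nat_lit 1092) (nat_lit 0) (XT.nd (nat_lit 94) (nat_lit 1008) (nat_lit 0) (XT.lf (nat_lit 0) (nat_lit 4311437561) (nat_lit 924) (nat_lit 350147916) (nat_lit 0) (nat_lit 1987322165) (nat_lit 492) (nat_lit 5) (nat_lit 503) (nat_lit 4) (nat_lit 492) (nat_lit 4) (nat_lit 259) (nat_lit 231) (nat_lit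 230)) (XT.lf (nat_lit 0) (nat_lit 949985669) (nat_lit 1008) (nat_lit 2677329886) (nat_lit 84) (nat_lit 3044413490) (nat_lit 480) (nat_lit 5) (nat_lit 492) (nat_lit 5) (nat_lit 481) (nat_lit 4) (nat_lit 260) (nat_lit 231) (nat_lit 229))) (XT.nd (nat_lit 94) (nat_lit 84) (nat_lit 0) (XT.lf (nat_lit 0) (nat_lit 1688928310) (nat_lit 1008) (nat_lit 2520894547) (nat_lit 1092) (nat_lit 2486297064) (nat_lit 468) (nat_lit 5) (nat_lit 480) (nat_lit 5) (nat_lit 481) (nat_lit 4) (nat_lit 261) (nat_lit 231) (nat_lit 228)) (XT.lf (nat_lit 0) (nat_lit 748967734) (nat_lit 1092) (nat_lit 599196530) (nat_lit 84) (nat_lit 5374064587) (nat_lit 467) (nat_lit 5) (nat_lit 480) (nat_lit 5) (nat_lit 468) (nat_lit 5) (nat_lit 262) (nat_lit 231) (nat_lit 227)))) (XT.nd (nat_lit 188) (nat_lit 1260) (nat_lit 0) (XT.nd (nat_lit 94) (nat_lit 1260) (nat_lit 0) (XT.lf (nat_lit 0) (nat_lit 3881121414) (nat_lit 1092) (nat_lit 87579671)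 (nat_lit 1176) (nat_lit 2780915287) (nat_lit 454) (nat_lit 5) (nat_lit 467) (nat_lit 5) (nat_lit 468) (nat_lit 5) (nat_lit 263) (nat_lit 231) (nat_lit 226)) (XT.lf (nat_lit 0) (nat_lit 422641634) (nat_lit 1260) (nat_lit 5139065895) (nat_lit 84) (nat_lit 1216969234) (nat_lit 439) (nat_lit 5) (nat_lit 454) (nat_lit 5) (nat_lit 440) (nat_lit 5) (nat_lit 264) (nat_lit 231) (nat_lit 225))) (XT.nd (nat_lit 94) (nat_lit 1260) (nat_lit 0) (XT.lf (nat_lit 0) (nat_lit 3601947943) (nat_lit 1260) (nat_lit 603645897) (nat_lit 84) (nat_lit 2603520714) (nat_lit 439) (nat_lit 5) (nat_lit 454) (nat_lit 5) (nat_lit 440) (nat_lit 5) (nat_lit 265) (nat_lit 231) (nat_lit 224)) (XT.lf (nat_lit 0) (nat_lit 4026499526) (nat_lit 1260) (nat_lit 2779239169) (nat_lit 1344) (nat_lit 35483409) (nat_lit 424) (nat_lit 5) (nat_lit 439) (nat_lit 5) (nat_lit 440) (nat_lit 5) (nat_lit 266) (nat_lit 231) (nat_lit 223)))))) (XT.nd (nat_lit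 658) (nat_lit 7644) (nat_lit 0) (XT.nd (nat_lit 282) (nat_lit 4956) (nat_lit 0) (XT.nd (nat_lit 94) (nat_lit 1512) (nat_lit 0) (XT.lf (nat_lit 0) (nat_lit 1833457006) (nat_lit 1344) (nat_lit 1270371653) (nat_lit 1428) (nat_lit 3770936329) (nat_lit 407) (nat_lit 5) (nat_lit 423) (nat_lit 5) (nat_lit 424) (nat_lit 5) (nat_lit 267) (nat_lit 231) (nat_lit 222)) (XT.nd (nat_lit 94) (nat_lit 1512) (nat_lit 0) (XT.lf (nat_lit 0) (nat_lit 6262235075) (nat_lit 1428) (nat_lit 349863392) (nat_lit 84) (nat_lit 298029527) (nat_lit 407) (nat_lit 5) (nat_lit 424) (nat_lit 5) (nat_lit 408) (nat_lit 5) (nat_lit 268) (nat_lit 231) (nat_lit 221)) (XT.lf (nat_lit 0) (nat_lit 2477078210) (nat_lit 1512) (nat_lit 2528861690) (nat_lit 84) (nat_lit 1940593506) (nat_lit 389) (nat_lit 5) (nat_lit 407) (nat_lit 5) (nat_lit 390) (nat_lit 5) (nat_lit 269) (nat_lit 231) (nat_lit 220)))) (XT.nd (nat_lit 188) (nat_lit 1764) (nat_lit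 0) (XT.nd (nat_lit 94) (nat_lit 1680) (nat_lit 0) (XT.lf (nat_lit 0) (nat_lit 2275640254) (nat_lit 1512) (nat_lit 3334233116) (nat_lit 1596) (nat_lit 1374893145) (nat_lit 371) (nat_lit 5) (nat_lit 389) (nat_lit 5) (nat_lit 390) (nat_lit 5) (nat_lit 270) (nat_lit 231) (nat_lit 219)) (XT.lf (nat_lit 0) (nat_lit 124512503) (nat_lit 1596) (nat_lit 1587543139) (nat_lit 1680) (nat_lit 5312603723) (nat_lit 351) (nat_lit 5) (nat_lit 370) (nat_lit 5) (nat_lit 371) (nat_lit 5) (nat_lit 271) (nat_lit 231) (nat_lit 218))) (XT.nd (nat_lit 94) (nat_lit 1764) (nat_lit 0) (XT.lf (nat_lit 0) (nat_lit 4814550666) (nat_lit 1680) (nat_lit 2007176565) (nat_lit 84) (nat_lit 244189247) (nat_lit 351) (nat_lit 5) (nat_lit 371) (nat_lit 5) (nat_lit 352) (nat_lit 5) (nat_lit 272) (nat_lit 231) (nat_lit 217)) (XT.lf (nat_lit 0) (nat_lit 829881892) (nat_lit 1764) (nat_lit 4154569469) (nat_lit 84) (nat_lit 2124255875) (nat_lit 330)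 (nat_lit 5) (nat_lit 351) (nat_lit 5) (nat_lit 331) (nat_lit 5) (nat_lit 273) (nat_lit 231) (nat_lit 216))))) (XT.nd (nat_lit 376) (nat_lit 2856) (nat_lit 0) (XT.nd (nat_lit 188) (nat_lit 3024) (nat_lit 0) (XT.nd (nat_lit 94) (nat_lit 0) (nat_lit 0) (XT.lf (nat_lit 0) (nat_lit 833208114) (nat_lit 1764) (nat_lit 3066850369) (nat_lit 1848) (nat_lit 3253026133) (nat_lit 309) (nat_lit 5) (nat_lit 330) (nat_lit 5) (nat_lit 331) (nat_lit 5) (nat_lit 274) (nat_lit 231) (nat_lit 215)) (XT.lf (nat_lit 0) (nat_lit 5928473752) (nat_lit 1764) (nat_lit 1074380578) (nat_lit 1848) (nat_lit 196352314) (nat_lit 309) (nat_lit 5) (nat_lit 330) (nat_lit 5) (nat_lit 331) (nat_lit 5) (nat_lit 275) (nat_lit 231) (nat_lit 214))) (XT.nd (nat_lit 94) (nat_lit 1092) (nat_lit 0) (XT.lf (nat_lit 0) (nat_lit 2855443623) (nat_lit 1932) (nat_lit 3393525379) (nat_lit 84) (nat_lit 997574654) (nat_lit 286) (nat_lit 5) (nat_lit 309) (nat_lit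 5) (nat_lit 287) (nat_lit 5) (nat_lit 276) (nat_lit 231) (nat_lit 213)) (XT.lf (nat_lit 0) (nat_lit 1765062160) (nat_lit 1092) (nat_lit 4172551587) (nat_lit 1176) (nat_lit 1358022140) (nat_lit 273) (nat_lit 5) (nat_lit 286) (nat_lit 5) (nat_lit 287) (nat_lit 5) (nat_lit 277) (nat_lit 231) (nat_lit 212)))) (XT.nd (nat_lit 188) (nat_lit 1848) (nat_lit 0) (XT.nd (nat_lit 94) (nat_lit 924) (nat_lit 0) (XT.lf (nat_lit 0) (nat_lit 1678676913) (nat_lit 1176) (nat_lit 335277231) (nat_lit 84) (nat_lit 5332417469) (nat_lit 272) (nat_lit 5) (nat_lit 286) (nat_lit 5) (nat_lit 273) (nat_lit 5) (nat_lit 278) (nat_lit 231) (nat_lit 211)) (XT.lf (nat_lit 0) (nat_lit 4737390312) (nat_lit 1008) (nat_lit 2428076175) (nat_lit 84) (nat_lit 233085204) (nat_lit 261) (nat_lit 5) (nat_lit 273) (nat_lit 5) (nat_lit 262) (nat_lit 5) (nat_lit 279) (nat_lit 231) (nat_lit 210))) (XT.nd (nat_lit 94) (nat_lit 840) (nat_lit 0) (XT.lf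 (nat_lit 0) (nat_lit 382253462) (nat_lit 1008) (nat_lit 4546512941) (nat_lit 84) (nat_lit 2523562208) (nat_lit 249) (nat_lit 5) (nat_lit 261) (nat_lit 5) (nat_lit 250) (nat_lit 5) (nat_lit 280) (nat_lit 231) (nat_lit 209)) (XT.lf (nat_lit 0) (nat_lit 813505934) (nat_lit 840) (nat_lit 2603181901) (nat_lit 924) (nat_lit 4090983371) (nat_lit 239) (nat_lit 5) (nat_lit 249) (nat_lit 5) (nat_lit 250) (nat_lit 5) (nat_lit 281) (nat_lit 231) (nat_lit 208))))))))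
noncomputable def xc13 : XT := (XT.nd (nat_lit 2820) (nat_lit 588) (nat_lit 0) (XT.nd (nat_lit 1410) (nat_lit 6300) (nat_lit 0) (XT.nd (nat_lit 658) (nat_lit 4452) (nat_lit 0) (XT.nd (nat_lit 282) (nat_lit 2520) (nat_lit 0) (XT.nd (nat_lit 94) (nat_lit 1764) (nat_lit 0) (XT.lf (nat_lit 0) (nat_lit 6294688615) (nat_lit 840) (nat_lit 196994529) (nat_lit 924) (nat_lit 1073124519) (nat_lit 239) (nat_lit 5) (nat_lit 249) (nat_lit 5) (nat_lit 250) (nat_lit 5) (nat_lit 282) (nat_lit 231) (nat_lit 207)) (XT.nd (nat_lit 94) (nat_lit 840) (nat_lit 0) (XT.lf (nat_lit 0) (nat_lit 1969961696) (nat_lit 924) (nat_lit 3383813491) (nat_lit 84) (nat_lit 2269379145) (nat_lit 228) (nat_lit 5) (nat_lit 239) (nat_lit 5) (nat_lit 229) (nat_lit 5) (nat_lit 283) (nat_lit 231) (nat_lit 206)) (XT.lf (nat_lit 0) (nat_lit 2163340530) (nat_lit 840) (nat_lit 2869010227) (nat_lit 924) (nat_lit 2650962669) (nat_lit 218) (nat_lit 5)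 (nat_lit 228) (nat_lit 5) (nat_lit 229) (nat_lit 5) (nat_lit 284) (nat_lit 231) (nat_lit 205)))) (XT.nd (nat_lit 188) (nat_lit 1596) (nat_lit 0) (XT.nd (nat_lit 94) (nat_lit 0) (nat_lit 0) (XT.lf (nat_lit 0) (nat_lit 71418733) (nat_lit 840) (nat_lit 307804197) (nat_lit 924) (nat_lit 7366213514) (nat_lit 207) (nat_lit 5) (nat_lit 217) (nat_lit 5) (nat_lit 218) (nat_lit 5) (nat_lit 285) (nat_lit 231) (nat_lit 204)) (XT.lf (nat_lit 0) (nat_lit 3437531136) (nat_lit 924) (nat_lit 2041820155) (nat_lit 84) (nat_lit 2329139722) (nat_lit 207) (nat_lit 5) (nat_lit 218) (nat_lit 5) (nat_lit 208) (nat_lit 5) (nat_lit 286) (nat_lit 231) (nat_lit 203))) (XT.nd (nat_lit 94) (nat_lit 840) (nat_lit 0) (XT.lf (nat_lit 0) (nat_lit 3700763471) (nat_lit 756) (nat_lit 2835147523) (nat_lit 840) (nat_lit 1337620434) (nat_lit 198) (nat_lit 5) (nat_lit 207) (nat_lit 5) (nat_lit 208) (nat_lit 5) (nat_lit 287) (nat_lit 231) (nat_lit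 202)) (XT.lf (nat_lit 0) (nat_lit 1606047874) (nat_lit 756) (nat_lit 102181794) (nat_lit 840) (nat_lit 6232131302) (nat_lit 188) (nat_lit 5) (nat_lit 197) (nat_lit 5) (nat_lit 198) (nat_lit 5) (nat_lit 288) (nat_lit 231) (nat_lit 201))))) (XT.nd (nat_lit 376) (nat_lit 2184) (nat_lit 0) (XT.nd (nat_lit 188) (nat_lit 1512) (nat_lit 0) (XT.nd (nat_lit 94) (nat_lit 756) (nat_lit 0) (XT.lf (nat_lit 0) (nat_lit 4796808587) (nat_lit 840) (nat_lit 528387941) (nat_lit 84) (nat_lit 2683350983) (nat_lit 188) (nat_lit 5) (nat_lit 198) (nat_lit 5) (nat_lit 189) (nat_lit 5) (nat_lit 289) (nat_lit 231) (nat_lit 200)) (XT.lf (nat_lit 0) (nat_lit 5418383933) (nat_lit 756) (nat_lit 2520668482) (nat_lit 840) (nat_lit 139495985) (nat_lit 179) (nat_lit 5) (nat_lit 188) (nat_lit 5) (nat_lit 189) (nat_lit 5) (nat_lit 290) (nat_lit 231) (nat_lit 199))) (XT.nd (nat_lit 94) (nat_lit 672) (nat_lit 0) (XT.lf (nat_lit 0) (nat_lit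 2934100915) (nat_lit 840) (nat_lit 4837191189) (nat_lit 84) (nat_lit 378833480) (nat_lit 169) (nat_lit 5) (nat_lit 179) (nat_lit 5) (nat_lit 170) (nat_lit 5) (nat_lit 291) (nat_lit 231) (nat_lit 198)) (XT.lf (nat_lit 0) (nat_lit 1166511773) (nat_lit 672) (nat_lit 4900504555) (nat_lit 756) (nat_lit 2156376236) (nat_lit 161) (nat_lit 5) (nat_lit 169) (nat_lit 5) (nat_lit 170) (nat_lit 5) (nat_lit 292) (nat_lit 231) (nat_lit 197)))) (XT.nd (nat_lit 188) (nat_lit 1428) (nat_lit 0) (XT.nd (nat_lit 94) (nat_lit 672) (nat_lit 0) (XT.lf (nat_lit 0) (nat_lit 940190620) (nat_lit 756) (nat_lit 995521035) (nat_lit 84) (nat_lit 6362768775) (nat_lit 160) (nat_lit 5) (nat_lit 169) (nat_lit 5) (nat_lit 161) (nat_lit 5) (nat_lit 293) (nat_lit 231) (nat_lit 196)) (XT.lf (nat_lit 0) (nat_lit 4066952833) (nat_lit 756) (nat_lit 3188966468) (nat_lit 84) (nat_lit 1119091684) (nat_lit 152) (nat_lit 5) (nat_lit 161) (nat_lit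 5) (nat_lit 153) (nat_lit 5) (nat_lit 294) (nat_lit 231) (nat_lit 195))) (XT.nd (nat_lit 94) (nat_lit 756) (nat_lit 0) (XT.lf (nat_lit 0) (nat_lit 3030357008) (nat_lit 672) (nat_lit 4224515204) (nat_lit 756) (nat_lit 1198520895) (nat_lit 144) (nat_lit 5) (nat_lit 152) (nat_lit 5) (nat_lit 153) (nat_lit 5) (nat_lit 295) (nat_lit 231) (nat_lit 194)) (XT.lf (nat_lit 0) (nat_lit 834069417) (nat_lit 672) (nat_lit 1096068681) (nat_lit 756) (nat_lit 6603508456) (nat_lit 135) (nat_lit 5) (nat_lit 143) (nat_lit 5) (nat_lit 144) (nat_lit 5) (nat_lit 296) (nat_lit 231) (nat_lit 193)))))) (XT.nd (nat_lit 658) (nat_lit 3276) (nat_lit 0) (XT.nd (nat_lit 282) (nat_lit 1764) (nat_lit 0) (XT.nd (nat_lit 94) (nat_lit 1260) (nat_lit 0) (XT.lf (nat_lit 0) (nat_lit 5115379002) (nat_lit 756) (nat_lit 1394291569) (nat_lit 84) (nat_lit 2105684392) (nat_lit 135) (nat_lit 5) (nat_lit 144) (nat_lit 5) (nat_lit 136) (nat_lit 5)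 (nat_lit 297) (nat_lit 231) (nat_lit 192)) (XT.nd (nat_lit 94) (nat_lit 672) (nat_lit 0) (XT.lf (nat_lit 0) (nat_lit 5050533136) (nat_lit 588) (nat_lit 3315270532) (nat_lit 672) (nat_lit 333164902) (nat_lit 128) (nat_lit 5) (nat_lit 135) (nat_lit 5) (nat_lit 136) (nat_lit 5) (nat_lit 298) (nat_lit 231) (nat_lit 191)) (XT.lf (nat_lit 0) (nat_lit 2829582211) (nat_lit 588) (nat_lit 13847338) (nat_lit 672) (nat_lit 5940934673) (nat_lit 120) (nat_lit 5) (nat_lit 127) (nat_lit 5) (nat_lit 128) (nat_lit 5) (nat_lit 299) (nat_lit 231) (nat_lit 190)))) (XT.nd (nat_lit 188) (nat_lit 1092) (nat_lit 0) (XT.nd (nat_lit 94) (nat_lit 84) (nat_lit 0) (XT.lf (nat_lit 0) (nat_lit 550258937) (nat_lit 588) (nat_lit 5541627197) (nat_lit 672) (nat_lit 2779547698) (nat_lit 113) (nat_lit 5) (nat_lit 120) (nat_lit 5) (nat_lit 121) (nat_lit 5) (nat_lit 300) (nat_lit 231) (nat_lit 189)) (XT.lf (nat_lit 0) (nat_lit 441407100) (nat_lit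 672) (nat_lit 1740643556) (nat_lit 84) (nat_lit 6778374166) (nat_lit 112) (nat_lit 5) (nat_lit 120) (nat_lit 5) (nat_lit 113) (nat_lit 5) (nat_lit 301) (nat_lit 231) (nat_lit 188))) (XT.nd (nat_lit 94) (nat_lit 504) (nat_lit 0) (XT.lf (nat_lit 0) (nat_lit 3690073798) (nat_lit 672) (nat_lit 4087841152) (nat_lit 84) (nat_lit 1273062644) (nat_lit 105) (nat_lit 5) (nat_lit 113) (nat_lit 5) (nat_lit 106) (nat_lit 5) (nat_lit 302) (nat_lit 231) (nat_lit 187)) (XT.lf (nat_lit 0) (nat_lit 2655479858) (nat_lit 504) (nat_lit 4356067483) (nat_lit 588) (nat_lit 2131945789) (nat_lit 99) (nat_lit 5) (nat_lit 105) (nat_lit 5) (nat_lit 106) (nat_lit 5) (nat_lit 303) (nat_lit 231) (nat_lit 186))))) (XT.nd (nat_lit 376) (nat_lit 1512) (nat_lit 0) (XT.nd (nat_lit 188) (nat_lit 1092) (nat_lit 0) (XT.nd (nat_lit 94) (nat_lit 0) (nat_lit 0) (XT.lf (nat_lit 0) (nat_lit 302484976) (nat_lit 588) (nat_lit 835107143) (nat_lit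 672) (nat_lit 8100568782) (nat_lit 91) (nat_lit 5) (nat_lit 98) (nat_lit 5) (nat_lit 99) (nat_lit 5) (nat_lit 304) (nat_lit 231) (nat_lit 185)) (XT.lf (nat_lit 0) (nat_lit 4469842964) (nat_lit 672) (nat_lit 2094707232) (nat_lit 84) (nat_lit 2769532076) (nat_lit 91) (nat_lit 5) (nat_lit 99) (nat_lit 5) (nat_lit 92) (nat_lit 5) (nat_lit 305) (nat_lit 231) (nat_lit 184))) (XT.nd (nat_lit 94) (nat_lit 588) (nat_lit 0) (XT.lf (nat_lit 0) (nat_lit 4898049875) (nat_lit 504) (nat_lit 2973518853) (nat_lit 588) (nat_lit 1560629547) (nat_lit 85) (nat_lit 5) (nat_lit 91) (nat_lit 5) (nat_lit 92) (nat_lit 5) (nat_lit 306) (nat_lit 231) (nat_lit 183)) (XT.lf (nat_lit 0) (nat_lit 1783482113) (nat_lit 588) (nat_lit 7034164408) (nat_lit 84) (nat_lit 714674351) (nat_lit 78) (nat_lit 5) (nat_lit 85) (nat_lit 5) (nat_lit 79) (nat_lit 5) (nat_lit 307) (nat_lit 231) (nat_lit 182)))) (XT.nd (nat_lit 188) (nat_lit 1008) (nat_lit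 0) (XT.nd (nat_lit 94) (nat_lit 0) (nat_lit 0) (XT.lf (nat_lit 0) (nat_lit 22295727) (nat_lit 504) (nat_lit 5167205563) (nat_lit 588) (nat_lit 4444646116) (nat_lit 72) (nat_lit 5) (nat_lit 78) (nat_lit 5) (nat_lit 79) (nat_lit 5) (nat_lit 308) (nat_lit 231) (nat_lit 181)) (XT.lf (nat_lit 0) (nat_lit 7275761020) (nat_lit 504) (nat_lit 1402919023) (nat_lit 588) (nat_lit 1059353085) (nat_lit 72) (nat_lit 5) (nat_lit 78) (nat_lit 5) (nat_lit 79) (nat_lit 5) (nat_lit 309) (nat_lit 231) (nat_lit 180))) (XT.nd (nat_lit 94) (nat_lit 420) (nat_lit 0) (XT.lf (nat_lit 0) (nat_lit 2374827904) (nat_lit 588) (nat_lit 5027093810) (nat_lit 84) (nat_lit 2441708775) (nat_lit 65) (nat_lit 5) (nat_lit 72) (nat_lit 5) (nat_lit 66) (nat_lit 5) (nat_lit 310) (nat_lit 231) (nat_lit 179)) (XT.lf (nat_lit 0) (nat_lit 2293166863) (nat_lit 420) (nat_lit 3577914603) (nat_lit 504) (nat_lit 4080253346) (nat_lit 60) (nat_lit 5) (nat_lit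 65) (nat_lit 5) (nat_lit 66) (nat_lit 5) (nat_lit 311) (nat_lit 231) (nat_lit 178))))))) (XT.nd (nat_lit 41172) (nat_lit 0) (nat_lit 14700) (XT.nd (nat_lit 40420) (nat_lit 0) (nat_lit 29652) (XT.nd (nat_lit 40044) (nat_lit 0) (nat_lit 35868) (XT.nd (nat_lit 94) (nat_lit 588) (nat_lit 0) (XT.lf (nat_lit 0) (nat_lit 9441585522) (nat_lit 504) (nat_lit 276899536) (nat_lit 84) (nat_lit 342982250) (nat_lit 60) (nat_lit 5) (nat_lit 66) (nat_lit 5) (nat_lit 61) (nat_lit 5) (nat_lit 312) (nat_lit 231) (nat_lit 177)) (XT.nd (nat_lit 39856) (nat_lit 0) (nat_lit 37800) (XT.lf (nat_lit 0) (nat_lit 2911297101) (nat_lit 588) (nat_lit 2910521218) (nat_lit 84) (nat_lit 4350940201) (nat_lit 53) (nat_lit 5) (nat_lit 60) (nat_lit 5) (nat_lit 54) (nat_lit 5) (nat_lit 313) (nat_lit 231) (nat_lit 176)) (XT.lf (nat_lit 0) (nat_lit 103106935) (nat_lit 756) (nat_lit 1595602509) (nat_lit 756) (nat_lit 1595602509) (nat_lit 503)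 (nat_lit 4) (nat_lit 512) (nat_lit 5) (nat_lit 512) (nat_lit 4) (nat_lit 256) (nat_lit 232) (nat_lit 232)))) (XT.nd (nat_lit 188) (nat_lit 1008) (nat_lit 0) (XT.nd (nat_lit 94) (nat_lit 840) (nat_lit 0) (XT.lf (nat_lit 0) (nat_lit 101621867) (nat_lit 840) (nat_lit 2222021928) (nat_lit 84) (nat_lit 4284082619) (nat_lit 502) (nat_lit 5) (nat_lit 512) (nat_lit 5) (nat_lit 503) (nat_lit 4) (nat_lit 257) (nat_lit 232) (nat_lit 231)) (XT.lf (nat_lit 0) (nat_lit 1974184823) (nat_lit 840) (nat_lit 1377413644) (nat_lit 924) (nat_lit 3276642598) (nat_lit 492) (nat_lit 5) (nat_lit 502) (nat_lit 5) (nat_lit 503) (nat_lit 4) (nat_lit 258) (nat_lit 232) (nat_lit 230))) (XT.nd (nat_lit 94) (nat_lit 1008) (nat_lit 0) (XT.lf (nat_lit 0) (nat_lit 6235421990) (nat_lit 840) (nat_lit 373027399) (nat_lit 924) (nat_lit 42179404) (nat_lit 492) (nat_lit 5) (nat_lit 502) (nat_lit 5) (nat_lit 503) (nat_lit 4) (nat_lit 259) (nat_lit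 232) (nat_lit 229)) (XT.lf (nat_lit 0) (nat_lit 3169436870) (nat_lit 1008) (nat_lit 2789978091) (nat_lit 84) (nat_lit 714616697) (nat_lit 480) (nat_lit 5) (nat_lit 492) (nat_lit 5) (nat_lit 481) (nat_lit 4) (nat_lit 260) (nat_lit 232) (nat_lit 228))))) (XT.nd (nat_lit 376) (nat_lit 2772) (nat_lit 0) (XT.nd (nat_lit 188) (nat_lit 2352) (nat_lit 0) (XT.nd (nat_lit 94) (nat_lit 84) (nat_lit 0) (XT.lf (nat_lit 0) (nat_lit 1543641761) (nat_lit 1008) (nat_lit 4845801693) (nat_lit 1092) (nat_lit 309855352) (nat_lit 468) (nat_lit 5) (nat_lit 480) (nat_lit 5) (nat_lit 481) (nat_lit 4) (nat_lit 261) (nat_lit 232) (nat_lit 227)) (XT.lf (nat_lit 0) (nat_lit 2855607261) (nat_lit 1092) (nat_lit 794052225) (nat_lit 84) (nat_lit 3076253178) (nat_lit 467) (nat_lit 5) (nat_lit 480) (nat_lit 5) (nat_lit 468) (nat_lit 5) (nat_lit 262) (nat_lit 232) (nat_lit 226))) (XT.nd (nat_lit 94) (nat_lit 1260) (nat_lit 0) (XT.lf (nat_lit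 0) (nat_lit 3652754442) (nat_lit 1092) (nat_lit 2383332750) (nat_lit 1176) (nat_lit 718076567) (nat_lit 454) (nat_lit 5) (nat_lit 467) (nat_lit 5) (nat_lit 468) (nat_lit 5) (nat_lit 263) (nat_lit 232) (nat_lit 225)) (XT.lf (nat_lit 0) (nat_lit 1366377735) (nat_lit 1176) (nat_lit 1041285355) (nat_lit 1260) (nat_lit 4376296117) (nat_lit 439) (nat_lit 5) (nat_lit 453) (nat_lit 5) (nat_lit 454) (nat_lit 5) (nat_lit 264) (nat_lit 232) (nat_lit 224)))) (XT.nd (nat_lit 188) (nat_lit 1428) (nat_lit 0) (XT.nd (nat_lit 94) (nat_lit 1344) (nat_lit 0) (XT.lf (nat_lit 0) (nat_lit 5542884423) (nat_lit 1260) (nat_lit 905925274) (nat_lit 84) (nat_lit 366557173) (nat_lit 439) (nat_lit 5) (nat_lit 454) (nat_lit 5) (nat_lit 440) (nat_lit 5) (nat_lit 265) (nat_lit 232) (nat_lit 223)) (XT.lf (nat_lit 0) (nat_lit 1833284004) (nat_lit 1344) (nat_lit 3172719432) (nat_lit 84) (nat_lit 1842021725) (nat_lit 423) (nat_lit 5) (nat_lit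 439) (nat_lit 5) (nat_lit 424) (nat_lit 5) (nat_lit 266) (nat_lit 232) (nat_lit 222))) (XT.nd (nat_lit 94) (nat_lit 84) (nat_lit 0) (XT.lf (nat_lit 0) (nat_lit 1438712485) (nat_lit 1344) (nat_lit 3494981756) (nat_lit 1428) (nat_lit 1948712841) (nat_lit 407) (nat_lit 5) (nat_lit 423) (nat_lit 5) (nat_lit 424) (nat_lit 5) (nat_lit 267) (nat_lit 232) (nat_lit 221)) (XT.lf (nat_lit 0) (nat_lit 1119960918) (nat_lit 1428) (nat_lit 789547722) (nat_lit 84) (nat_lit 5008901439) (nat_lit 406) (nat_lit 5) (nat_lit 423) (nat_lit 5) (nat_lit 407) (nat_lit 5) (nat_lit 268) (nat_lit 232) (nat_lit 220)))))) (XT.nd (nat_lit 658) (nat_lit 6720) (nat_lit 0) (XT.nd (nat_lit 282) (nat_lit 5208) (nat_lit 0) (XT.nd (nat_lit 94) (nat_lit 1596) (nat_lit 0) (XT.lf (nat_lit 0) (nat_lit 3948134440) (nat_lit 1428) (nat_lit 237637150) (nat_lit 1512) (nat_lit 2770038601) (nat_lit 389) (nat_lit 5) (nat_lit 406) (nat_lit 5) (nat_lit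 407) (nat_lit 5) (nat_lit 269) (nat_lit 232) (nat_lit 219)) (XT.nd (nat_lit 94) (nat_lit 0) (nat_lit 0) (XT.lf (nat_lit 0) (nat_lit 280226540) (nat_lit 1596) (nat_lit 5236828168) (nat_lit 84) (nat_lit 1477809435) (nat_lit 370) (nat_lit 5) (nat_lit 389) (nat_lit 5) (nat_lit 371) (nat_lit 5) (nat_lit 270) (nat_lit 232) (nat_lit 218)) (XT.lf (nat_lit 0) (nat_lit 3312782767) (nat_lit 1596) (nat_lit 446032809) (nat_lit 84) (nat_lit 3276486931) (nat_lit 370) (nat_lit 5) (nat_lit 389) (nat_lit 5) (nat_lit 371) (nat_lit 5) (nat_lit 271) (nat_lit 232) (nat_lit 217)))) (XT.nd (nat_lit 188) (nat_lit 1848) (nat_lit 0) (XT.nd (nat_lit 94) (nat_lit 1764) (nat_lit 0) (XT.lf (nat_lit 0) (nat_lit 4452449647) (nat_lit 1596) (nat_lit 1924641350) (nat_lit 1680) (nat_lit 700308732) (nat_lit 351) (nat_lit 5) (nat_lit 370) (nat_lit 5) (nat_lit 371) (nat_lit 5) (nat_lit 272) (nat_lit 232) (nat_lit 216)) (XT.lf (nat_lit 0) (nat_lit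 2298721784) (nat_lit 1680) (nat_lit 8801394) (nat_lit 1764) (nat_lit 4813547904) (nat_lit 330) (nat_lit 5) (nat_lit 350) (nat_lit 5) (nat_lit 351) (nat_lit 5) (nat_lit 273) (nat_lit 232) (nat_lit 215))) (XT.nd (nat_lit 94) (nat_lit 84) (nat_lit 0) (XT.lf (nat_lit 0) (nat_lit 123936823) (nat_lit 1764) (nat_lit 5216425543) (nat_lit 1848) (nat_lit 1825907521) (nat_lit 309) (nat_lit 5) (nat_lit 330) (nat_lit 5) (nat_lit 331) (nat_lit 5) (nat_lit 274) (nat_lit 232) (nat_lit 214)) (XT.lf (nat_lit 0) (nat_lit 1181057816) (nat_lit 1848) (nat_lit 2033535758) (nat_lit 84) (nat_lit 3998309057) (nat_lit 308) (nat_lit 5) (nat_lit 330) (nat_lit 5) (nat_lit 309) (nat_lit 5) (nat_lit 275) (nat_lit 232) (nat_lit 213))))) (XT.nd (nat_lit 376) (nat_lit 2772) (nat_lit 0) (XT.nd (nat_lit 188) (nat_lit 1008) (nat_lit 0) (XT.nd (nat_lit 94) (nat_lit 1092) (nat_lit 0) (XT.lf (nat_lit 0) (nat_lit 3053666348) (nat_lit 1848) (nat_lit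 1132109963) (nat_lit 1932) (nat_lit 3075406049) (nat_lit 286) (nat_lit 5) (nat_lit 308) (nat_lit 5) (nat_lit 309) (nat_lit 5) (nat_lit 276) (nat_lit 232) (nat_lit 212)) (XT.lf (nat_lit 0) (nat_lit 915544306) (nat_lit 1092) (nat_lit 6307449712) (nat_lit 1176) (nat_lit 88269525) (nat_lit 273) (nat_lit 5) (nat_lit 286) (nat_lit 5) (nat_lit 287) (nat_lit 5) (nat_lit 277) (nat_lit 232) (nat_lit 211))) (XT.nd (nat_lit 94) (nat_lit 924) (nat_lit 0) (XT.lf (nat_lit 0) (nat_lit 2899525028) (nat_lit 1176) (nat_lit 1241044027) (nat_lit 84) (nat_lit 3221904782) (nat_lit 272) (nat_lit 5) (nat_lit 286) (nat_lit 5) (nat_lit 273) (nat_lit 5) (nat_lit 278) (nat_lit 232) (nat_lit 210)) (XT.lf (nat_lit 0) (nat_lit 4021845466) (nat_lit 924) (nat_lit 1897981830) (nat_lit 1008) (nat_lit 1495671664) (nat_lit 261) (nat_lit 5) (nat_lit 272) (nat_lit 5) (nat_lit 273) (nat_lit 5) (nat_lit 279) (nat_lit 232) (nat_lit 209)))) (XT.nd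 (nat_lit 188) (nat_lit 1764) (nat_lit 0) (XT.nd (nat_lit 94) (nat_lit 0) (nat_lit 0) (XT.lf (nat_lit 0) (nat_lit 1480425542) (nat_lit 1008) (nat_lit 5570243976) (nat_lit 84) (nat_lit 419535397) (nat_lit 249) (nat_lit 5) (nat_lit 261) (nat_lit 5) (nat_lit 250) (nat_lit 5) (nat_lit 280) (nat_lit 232) (nat_lit 208)) (XT.lf (nat_lit 0) (nat_lit 4479728772) (nat_lit 1008) (nat_lit 253459602) (nat_lit 84) (nat_lit 2793132021) (nat_lit 249) (nat_lit 5) (nat_lit 261) (nat_lit 5) (nat_lit 250) (nat_lit 5) (nat_lit 281) (nat_lit 232) (nat_lit 207))) (XT.nd (nat_lit 94) (nat_lit 924) (nat_lit 0) (XT.lf (nat_lit 0) (nat_lit 5192729464) (nat_lit 840) (nat_lit 2331235053) (nat_lit 924) (nat_lit 60169046) (nat_lit 239) (nat_lit 5) (nat_lit 249) (nat_lit 5) (nat_lit 250) (nat_lit 5) (nat_lit 282) (nat_lit 232) (nat_lit 206)) (XT.lf (nat_lit 0) (nat_lit 2916206838) (nat_lit 924) (nat_lit 4565041460) (nat_lit 84) (nat_lit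 162219844) (nat_lit 228) (nat_lit 5) (nat_lit 239) (nat_lit 5) (nat_lit 229) (nat_lit 5) (nat_lit 283) (nat_lit 232) (nat_lit 205))))))))
noncomputable def xc14 : XT := (XT.nd (nat_lit 42394) (nat_lit 0) (nat_lit 14700) (XT.nd (nat_lit 1410) (nat_lit 6300) (nat_lit 0) (XT.nd (nat_lit 658) (nat_lit 4200) (nat_lit 0) (XT.nd (nat_lit 282) (nat_lit 2436) (nat_lit 0) (XT.nd (nat_lit 94) (nat_lit 924) (nat_lit 0) (XT.lf (nat_lit 0) (nat_lit 932983656) (nat_lit 840) (nat_lit 5008712158) (nat_lit 924) (nat_lit 1762743224) (nat_lit 218) (nat_lit 5) (nat_lit 228) (nat_lit 5) (nat_lit 229) (nat_lit 5) (nat_lit 284) (nat_lit 232) (nat_lit 204)) (XT.nd (nat_lit 94) (nat_lit 840) (nat_lit 0) (XT.lf (nat_lit 0) (nat_lit 1226186015) (nat_lit 924) (nat_lit 1219008777) (nat_lit 84) (nat_lit 5321854260) (nat_lit 217) (nat_lit 5) (nat_lit 228) (nat_lit 5) (nat_lit 218) (nat_lit 5) (nat_lit 285) (nat_lit 232) (nat_lit 203))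 (XT.lf (nat_lit 0) (nat_lit 4232791729) (nat_lit 924) (nat_lit 3388519786) (nat_lit 84) (nat_lit 209929561) (nat_lit 207) (nat_lit 5) (nat_lit 218) (nat_lit 5) (nat_lit 208) (nat_lit 5) (nat_lit 286) (nat_lit 232) (nat_lit 202)))) (XT.nd (nat_lit 188) (nat_lit 840) (nat_lit 0) (XT.nd (nat_lit 94) (nat_lit 840) (nat_lit 0) (XT.lf (nat_lit 0) (nat_lit 2302673691) (nat_lit 756) (nat_lit 4991530132) (nat_lit 840) (nat_lit 602890960) (nat_lit 198) (nat_lit 5) (nat_lit 207) (nat_lit 5) (nat_lit 208) (nat_lit 5) (nat_lit 287) (nat_lit 232) (nat_lit 201)) (XT.lf (nat_lit 0) (nat_lit 126430291) (nat_lit 756) (nat_lit 2268564292) (nat_lit 840) (nat_lit 5569637007) (nat_lit 188) (nat_lit 5) (nat_lit 197) (nat_lit 5) (nat_lit 198) (nat_lit 5) (nat_lit 288) (nat_lit 232) (nat_lit 200))) (XT.nd (nat_lit 94) (nat_lit 840) (nat_lit 0) (XT.lf (nat_lit 0) (nat_lit 5441621507) (nat_lit 840) (nat_lit 2048586197) (nat_lit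 84) (nat_lit 543533371) (nat_lit 188) (nat_lit 5) (nat_lit 198) (nat_lit 5) (nat_lit 189) (nat_lit 5) (nat_lit 289) (nat_lit 232) (nat_lit 199)) (XT.lf (nat_lit 0) (nat_lit 435776635) (nat_lit 840) (nat_lit 4263251297) (nat_lit 84) (nat_lit 3405462282) (nat_lit 178) (nat_lit 5) (nat_lit 188) (nat_lit 5) (nat_lit 179) (nat_lit 5) (nat_lit 290) (nat_lit 232) (nat_lit 198))))) (XT.nd (nat_lit 376) (nat_lit 2016) (nat_lit 0) (XT.nd (nat_lit 188) (nat_lit 1428) (nat_lit 0) (XT.nd (nat_lit 94) (nat_lit 0) (nat_lit 0) (XT.lf (nat_lit 0) (nat_lit 1656543551) (nat_lit 756) (nat_lit 1810467113) (nat_lit 840) (nat_lit 4709922655) (nat_lit 169) (nat_lit 5) (nat_lit 178) (nat_lit 5) (nat_lit 179) (nat_lit 5) (nat_lit 291) (nat_lit 232) (nat_lit 197)) (XT.lf (nat_lit 0) (nat_lit 6553218677) (nat_lit 840) (nat_lit 552098100) (nat_lit 84) (nat_lit 1145911084) (nat_lit 169) (nat_lit 5) (nat_lit 179) (nat_lit 5) (nat_lit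 170) (nat_lit 5) (nat_lit 292) (nat_lit 232) (nat_lit 196))) (XT.nd (nat_lit 94) (nat_lit 672) (nat_lit 0) (XT.lf (nat_lit 0) (nat_lit 1362577685) (nat_lit 756) (nat_lit 2785007252) (nat_lit 84) (nat_lit 4179305277) (nat_lit 160) (nat_lit 5) (nat_lit 169) (nat_lit 5) (nat_lit 161) (nat_lit 5) (nat_lit 293) (nat_lit 232) (nat_lit 195)) (XT.lf (nat_lit 0) (nat_lit 3347252993) (nat_lit 672) (nat_lit 1096028916) (nat_lit 756) (nat_lit 3961152135) (nat_lit 152) (nat_lit 5) (nat_lit 160) (nat_lit 5) (nat_lit 161) (nat_lit 5) (nat_lit 294) (nat_lit 232) (nat_lit 194)))) (XT.nd (nat_lit 188) (nat_lit 1260) (nat_lit 0) (XT.nd (nat_lit 94) (nat_lit 84) (nat_lit 0) (XT.lf (nat_lit 0) (nat_lit 1111067390) (nat_lit 672) (nat_lit 6474112803) (nat_lit 756) (nat_lit 898648438) (nat_lit 144) (nat_lit 5) (nat_lit 152) (nat_lit 5) (nat_lit 153) (nat_lit 5) (nat_lit 295) (nat_lit 232) (nat_lit 193)) (XT.lf (nat_lit 0) (nat_lit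 2195338863) (nat_lit 756) (nat_lit 1161174436) (nat_lit 84) (nat_lit 5208189542) (nat_lit 143) (nat_lit 5) (nat_lit 152) (nat_lit 5) (nat_lit 144) (nat_lit 5) (nat_lit 296) (nat_lit 232) (nat_lit 192))) (XT.nd (nat_lit 94) (nat_lit 588) (nat_lit 0) (XT.lf (nat_lit 0) (nat_lit 5193261133) (nat_lit 672) (nat_lit 139600307) (nat_lit 756) (nat_lit 3314599613) (nat_lit 135) (nat_lit 5) (nat_lit 143) (nat_lit 5) (nat_lit 144) (nat_lit 5) (nat_lit 297) (nat_lit 232) (nat_lit 191)) (XT.lf (nat_lit 0) (nat_lit 2930136523) (nat_lit 588) (nat_lit 5613413358) (nat_lit 672) (nat_lit 188398975) (nat_lit 128) (nat_lit 5) (nat_lit 135) (nat_lit 5) (nat_lit 136) (nat_lit 5) (nat_lit 298) (nat_lit 232) (nat_lit 190)))))) (XT.nd (nat_lit 658) (nat_lit 3192) (nat_lit 0) (XT.nd (nat_lit 282) (nat_lit 1764) (nat_lit 0) (XT.nd (nat_lit 94) (nat_lit 672) (nat_lit 0) (XT.lf (nat_lit 0) (nat_lit 612174119) (nat_lit 588) (nat_lit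 2334623463) (nat_lit 672) (nat_lit 5871389122) (nat_lit 120) (nat_lit 5) (nat_lit 127) (nat_lit 5) (nat_lit 128) (nat_lit 5) (nat_lit 299) (nat_lit 232) (nat_lit 189)) (XT.nd (nat_lit 94) (nat_lit 672) (nat_lit 0) (XT.lf (nat_lit 0) (nat_lit 6151517827) (nat_lit 672) (nat_lit 1723660340) (nat_lit 84) (nat_lit 1031040346) (nat_lit 120) (nat_lit 5) (nat_lit 128) (nat_lit 5) (nat_lit 121) (nat_lit 5) (nat_lit 300) (nat_lit 232) (nat_lit 188)) (XT.lf (nat_lit 0) (nat_lit 430175262) (nat_lit 672) (nat_lit 4106304001) (nat_lit 84) (nat_lit 4459512209) (nat_lit 112) (nat_lit 5) (nat_lit 120) (nat_lit 5) (nat_lit 113) (nat_lit 5) (nat_lit 301) (nat_lit 232) (nat_lit 187)))) (XT.nd (nat_lit 188) (nat_lit 672) (nat_lit 0) (XT.nd (nat_lit 94) (nat_lit 504) (nat_lit 0) (XT.lf (nat_lit 0) (nat_lit 2541128159) (nat_lit 588) (nat_lit 1088519446) (nat_lit 672) (nat_lit 5457978913) (nat_lit 105) (nat_lit 5) (nat_lit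 112) (nat_lit 5) (nat_lit 113) (nat_lit 5) (nat_lit 302) (nat_lit 232) (nat_lit 186)) (XT.lf (nat_lit 0) (nat_lit 137363472) (nat_lit 504) (nat_lit 6765605798) (nat_lit 588) (nat_lit 2278232127) (nat_lit 99) (nat_lit 5) (nat_lit 105) (nat_lit 5) (nat_lit 106) (nat_lit 5) (nat_lit 303) (nat_lit 232) (nat_lit 185))) (XT.nd (nat_lit 94) (nat_lit 588) (nat_lit 0) (XT.lf (nat_lit 0) (nat_lit 968900225) (nat_lit 588) (nat_lit 2287701545) (nat_lit 84) (nat_lit 6019829596) (nat_lit 98) (nat_lit 5) (nat_lit 105) (nat_lit 5) (nat_lit 99) (nat_lit 5) (nat_lit 304) (nat_lit 232) (nat_lit 184)) (XT.lf (nat_lit 0) (nat_lit 4245089538) (nat_lit 672) (nat_lit 4770837152) (nat_lit 84) (nat_lit 357659402) (nat_lit 91) (nat_lit 5) (nat_lit 99) (nat_lit 5) (nat_lit 92) (nat_lit 5) (nat_lit 305) (nat_lit 232) (nat_lit 183))))) (XT.nd (nat_lit 376) (nat_lit 1596) (nat_lit 0) (XT.nd (nat_lit 188) (nat_lit 1008) (nat_lit 0)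 (XT.nd (nat_lit 94) (nat_lit 84) (nat_lit 0) (XT.lf (nat_lit 0) (nat_lit 2151790994) (nat_lit 504) (nat_lit 5453780738) (nat_lit 588) (nat_lit 1867037721) (nat_lit 85) (nat_lit 5) (nat_lit 91) (nat_lit 5) (nat_lit 92) (nat_lit 5) (nat_lit 306) (nat_lit 232) (nat_lit 182)) (XT.lf (nat_lit 0) (nat_lit 1436902617) (nat_lit 588) (nat_lit 347778175) (nat_lit 84) (nat_lit 7789080137) (nat_lit 84) (nat_lit 5) (nat_lit 91) (nat_lit 5) (nat_lit 85) (nat_lit 5) (nat_lit 307) (nat_lit 232) (nat_lit 181))) (XT.nd (nat_lit 94) (nat_lit 504) (nat_lit 0) (XT.lf (nat_lit 0) (nat_lit 4806114571) (nat_lit 588) (nat_lit 2888658222) (nat_lit 84) (nat_lit 1981624429) (nat_lit 78) (nat_lit 5) (nat_lit 85) (nat_lit 5) (nat_lit 79) (nat_lit 5) (nat_lit 308) (nat_lit 232) (nat_lit 180)) (XT.lf (nat_lit 0) (nat_lit 4291964644) (nat_lit 504) (nat_lit 3961290063) (nat_lit 588) (nat_lit 1527953086) (nat_lit 72) (nat_lit 5) (nat_lit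 78) (nat_lit 5) (nat_lit 79) (nat_lit 5) (nat_lit 309) (nat_lit 232) (nat_lit 179)))) (XT.nd (nat_lit 188) (nat_lit 1008) (nat_lit 0) (XT.nd (nat_lit 94) (nat_lit 0) (nat_lit 0) (XT.lf (nat_lit 0) (nat_lit 1736036076) (nat_lit 504) (nat_lit 116365982) (nat_lit 588) (nat_lit 8035809185) (nat_lit 65) (nat_lit 5) (nat_lit 71) (nat_lit 5) (nat_lit 72) (nat_lit 5) (nat_lit 310) (nat_lit 232) (nat_lit 178)) (XT.lf (nat_lit 0) (nat_lit 5310803098) (nat_lit 588) (nat_lit 894556178) (nat_lit 84) (nat_lit 3791389046) (nat_lit 65) (nat_lit 5) (nat_lit 72) (nat_lit 5) (nat_lit 66) (nat_lit 5) (nat_lit 311) (nat_lit 232) (nat_lit 177))) (XT.nd (nat_lit 94) (nat_lit 588) (nat_lit 0) (XT.lf (nat_lit 0) (nat_lit 6556083692) (nat_lit 420) (nat_lit 2295820586) (nat_lit 504) (nat_lit 1255623402) (nat_lit 60) (nat_lit 5) (nat_lit 65) (nat_lit 5) (nat_lit 66) (nat_lit 5) (nat_lit 312) (nat_lit 232) (nat_lit 176)) (XT.lf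 (nat_lit 0) (nat_lit 2224069376) (nat_lit 588) (nat_lit 6289125211) (nat_lit 84) (nat_lit 1707058075) (nat_lit 53) (nat_lit 5) (nat_lit 60) (nat_lit 5) (nat_lit 54) (nat_lit 5) (nat_lit 313) (nat_lit 232) (nat_lit 175))))))) (XT.nd (nat_lit 1410) (nat_lit 14952) (nat_lit 0) (XT.nd (nat_lit 658) (nat_lit 6216) (nat_lit 0) (XT.nd (nat_lit 282) (nat_lit 1932) (nat_lit 0) (XT.nd (nat_lit 94) (nat_lit 1512) (nat_lit 0) (XT.lf (nat_lit 0) (nat_lit 2600118590) (nat_lit 588) (nat_lit 338539061) (nat_lit 588) (nat_lit 338539061) (nat_lit 521) (nat_lit 4) (nat_lit 528) (nat_lit 5) (nat_lit 528) (nat_lit 4) (nat_lit 254) (nat_lit 233) (nat_lit 233)) (XT.nd (nat_lit 94) (nat_lit 756) (nat_lit 0) (XT.lf (nat_lit 0) (nat_lit 2582528242) (nat_lit 756) (nat_lit 3886947933) (nat_lit 0) (nat_lit 101621867) (nat_lit 512) (nat_lit 5) (nat_lit 521) (nat_lit 4) (nat_lit 512) (nat_lit 4) (nat_lit 255) (nat_lit 233) (nat_lit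 232)) (XT.lf (nat_lit 0) (nat_lit 176034667) (nat_lit 756) (nat_lit 5660953193) (nat_lit 756) (nat_lit 752545473) (nat_lit 503) (nat_lit 4) (nat_lit 512) (nat_lit 5) (nat_lit 512) (nat_lit 4) (nat_lit 256) (nat_lit 233) (nat_lit 231)))) (XT.nd (nat_lit 188) (nat_lit 1008) (nat_lit 0) (XT.nd (nat_lit 94) (nat_lit 840) (nat_lit 0) (XT.lf (nat_lit 0) (nat_lit 2464414939) (nat_lit 840) (nat_lit 2300606648) (nat_lit 84) (nat_lit 1844128410) (nat_lit 502) (nat_lit 5) (nat_lit 512) (nat_lit 5) (nat_lit 503) (nat_lit 4) (nat_lit 257) (nat_lit 233) (nat_lit 230)) (XT.lf (nat_lit 0) (nat_lit 1864544471) (nat_lit 840) (nat_lit 3809201088) (nat_lit 924) (nat_lit 956813300) (nat_lit 492) (nat_lit 5) (nat_lit 502) (nat_lit 5) (nat_lit 503) (nat_lit 4) (nat_lit 258) (nat_lit 233) (nat_lit 229))) (XT.nd (nat_lit 94) (nat_lit 924) (nat_lit 0) (XT.lf (nat_lit 0) (nat_lit 2205343713) (nat_lit 924) (nat_lit 573229865) (nat_lit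 84) (nat_lit 3874885092) (nat_lit 491) (nat_lit 5) (nat_lit 502) (nat_lit 5) (nat_lit 492) (nat_lit 5) (nat_lit 259) (nat_lit 233) (nat_lit 228)) (XT.lf (nat_lit 0) (nat_lit 3699069754) (nat_lit 924) (nat_lit 1672112200) (nat_lit 1008) (nat_lit 1306666722) (nat_lit 480) (nat_lit 5) (nat_lit 491) (nat_lit 5) (nat_lit 492) (nat_lit 5) (nat_lit 260) (nat_lit 233) (nat_lit 227))))) (XT.nd (nat_lit 376) (nat_lit 2772) (nat_lit 0) (XT.nd (nat_lit 188) (nat_lit 2352) (nat_lit 0) (XT.nd (nat_lit 94) (nat_lit 0) (nat_lit 0) (XT.lf (nat_lit 0) (nat_lit 1316869470) (nat_lit 1008) (nat_lit 495800886) (nat_lit 1092) (nat_lit 4891210164) (nat_lit 467) (nat_lit 5) (nat_lit 479) (nat_lit 5) (nat_lit 480) (nat_lit 5) (nat_lit 261) (nat_lit 233) (nat_lit 226)) (XT.lf (nat_lit 0) (nat_lit 4932511653) (nat_lit 1092) (nat_lit 1054303763) (nat_lit 84) (nat_lit 744535890) (nat_lit 467) (nat_lit 5) (nat_lit 480) (nat_lit 5)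 (nat_lit 468) (nat_lit 5) (nat_lit 262) (nat_lit 233) (nat_lit 225))) (XT.nd (nat_lit 94) (nat_lit 1176) (nat_lit 0) (XT.lf (nat_lit 0) (nat_lit 1294701409) (nat_lit 1176) (nat_lit 3411119657) (nat_lit 84) (nat_lit 2054431526) (nat_lit 453) (nat_lit 5) (nat_lit 467) (nat_lit 5) (nat_lit 454) (nat_lit 5) (nat_lit 263) (nat_lit 233) (nat_lit 224)) (XT.lf (nat_lit 0) (nat_lit 1016623668) (nat_lit 1176) (nat_lit 3354486324) (nat_lit 1260) (nat_lit 2419683266) (nat_lit 439) (nat_lit 5) (nat_lit 453) (nat_lit 5) (nat_lit 454) (nat_lit 5) (nat_lit 264) (nat_lit 233) (nat_lit 223)))) (XT.nd (nat_lit 188) (nat_lit 1428) (nat_lit 0) (XT.nd (nat_lit 94) (nat_lit 1260) (nat_lit 0) (XT.lf (nat_lit 0) (nat_lit 635423878) (nat_lit 1260) (nat_lit 1294921976) (nat_lit 84) (nat_lit 4892602617) (nat_lit 438) (nat_lit 5) (nat_lit 453) (nat_lit 5) (nat_lit 439) (nat_lit 5) (nat_lit 265) (nat_lit 233) (nat_lit 222)) (XT.lf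 (nat_lit 0) (nat_lit 3252340392) (nat_lit 1260) (nat_lit 421362520) (nat_lit 1344) (nat_lit 3182785950) (nat_lit 423) (nat_lit 5) (nat_lit 438) (nat_lit 5) (nat_lit 439) (nat_lit 5) (nat_lit 266) (nat_lit 233) (nat_lit 221))) (XT.nd (nat_lit 94) (nat_lit 84) (nat_lit 0) (XT.lf (nat_lit 0) (nat_lit 973437348) (nat_lit 1344) (nat_lit 5759547058) (nat_lit 1428) (nat_lit 158791209) (nat_lit 407) (nat_lit 5) (nat_lit 423) (nat_lit 5) (nat_lit 424) (nat_lit 5) (nat_lit 267) (nat_lit 233) (nat_lit 220)) (XT.lf (nat_lit 0) (nat_lit 2849575647) (nat_lit 1428) (nat_lit 1307374225) (nat_lit 84) (nat_lit 2771307819) (nat_lit 406) (nat_lit 5) (nat_lit 423) (nat_lit 5) (nat_lit 407) (nat_lit 5) (nat_lit 268) (nat_lit 233) (nat_lit 219)))))) (XT.nd (nat_lit 658) (nat_lit 6720) (nat_lit 0) (XT.nd (nat_lit 282) (nat_lit 5208) (nat_lit 0) (XT.nd (nat_lit 94) (nat_lit 1596) (nat_lit 0) (XT.lf (nat_lit 0) (nat_lit 3392527741)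 (nat_lit 1428) (nat_lit 2485117754) (nat_lit 1512) (nat_lit 1088842605) (nat_lit 389) (nat_lit 5) (nat_lit 406) (nat_lit 5) (nat_lit 407) (nat_lit 5) (nat_lit 269) (nat_lit 233) (nat_lit 218)) (XT.nd (nat_lit 94) (nat_lit 0) (nat_lit 0) (XT.lf (nat_lit 0) (nat_lit 1151749570) (nat_lit 1512) (nat_lit 736872661) (nat_lit 1596) (nat_lit 5117725245) (nat_lit 370) (nat_lit 5) (nat_lit 388) (nat_lit 5) (nat_lit 389) (nat_lit 5) (nat_lit 270) (nat_lit 233) (nat_lit 217)) (XT.lf (nat_lit 0) (nat_lit 4882952250) (nat_lit 1596) (nat_lit 1089137135) (nat_lit 84) (nat_lit 1075537433) (nat_lit 370) (nat_lit 5) (nat_lit 389) (nat_lit 5) (nat_lit 371) (nat_lit 5) (nat_lit 271) (nat_lit 233) (nat_lit 216)))) (XT.nd (nat_lit 188) (nat_lit 1848) (nat_lit 0) (XT.nd (nat_lit 94) (nat_lit 1680) (nat_lit 0) (XT.lf (nat_lit 0) (nat_lit 807783253) (nat_lit 1680) (nat_lit 3326794312) (nat_lit 84) (nat_lit 2955834931) (nat_lit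 350) (nat_lit 5) (nat_lit 370) (nat_lit 5) (nat_lit 351) (nat_lit 5) (nat_lit 272) (nat_lit 233) (nat_lit 215)) (XT.lf (nat_lit 0) (nat_lit 1550941940) (nat_lit 1680) (nat_lit 2217244118) (nat_lit 1764) (nat_lit 3366609580) (nat_lit 330) (nat_lit 5) (nat_lit 350) (nat_lit 5) (nat_lit 351) (nat_lit 5) (nat_lit 273) (nat_lit 233) (nat_lit 214))) (XT.nd (nat_lit 94) (nat_lit 1848) (nat_lit 0) (XT.lf (nat_lit 0) (nat_lit 6525098241) (nat_lit 1680) (nat_lit 229418345) (nat_lit 1764) (nat_lit 426501046) (nat_lit 330) (nat_lit 5) (nat_lit 350) (nat_lit 5) (nat_lit 351) (nat_lit 5) (nat_lit 274) (nat_lit 233) (nat_lit 213)) (XT.lf (nat_lit 0) (nat_lit 2522606043) (nat_lit 1848) (nat_lit 2877028467) (nat_lit 84) (nat_lit 1828626016) (nat_lit 308) (nat_lit 5) (nat_lit 330) (nat_lit 5) (nat_lit 309) (nat_lit 5) (nat_lit 275) (nat_lit 233) (nat_lit 212))))) (XT.nd (nat_lit 376) (nat_lit 2772) (nat_lit 0) (XT.nd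 (nat_lit 188) (nat_lit 2016) (nat_lit 0) (XT.nd (nat_lit 94) (nat_lit 84) (nat_lit 0) (XT.lf (nat_lit 0) (nat_lit 2167170961) (nat_lit 1848) (nat_lit 3323219408) (nat_lit 1932) (nat_lit 1786962437) (nat_lit 286) (nat_lit 5) (nat_lit 308) (nat_lit 5) (nat_lit 309) (nat_lit 5) (nat_lit 276) (nat_lit 233) (nat_lit 211)) (XT.lf (nat_lit 0) (nat_lit 1138664607) (nat_lit 1932) (nat_lit 32009664) (nat_lit 84) (nat_lit 6157544547) (nat_lit 285) (nat_lit 5) (nat_lit 308) (nat_lit 5) (nat_lit 286) (nat_lit 5) (nat_lit 277) (nat_lit 233) (nat_lit 210))) (XT.nd (nat_lit 94) (nat_lit 924) (nat_lit 0) (XT.lf (nat_lit 0) (nat_lit 4086658814) (nat_lit 1176) (nat_lit 2229211042) (nat_lit 84) (nat_lit 1064393061) (nat_lit 272) (nat_lit 5) (nat_lit 286) (nat_lit 5) (nat_lit 273) (nat_lit 5) (nat_lit 278) (nat_lit 233) (nat_lit 209)) (XT.lf (nat_lit 0) (nat_lit 2988564201) (nat_lit 924) (nat_lit 4081724474) (nat_lit 1008)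 (nat_lit 363806158) (nat_lit 261) (nat_lit 5) (nat_lit 272) (nat_lit 5) (nat_lit 273) (nat_lit 5) (nat_lit 279) (nat_lit 233) (nat_lit 208)))) (XT.nd (nat_lit 188) (nat_lit 1764) (nat_lit 0) (XT.nd (nat_lit 94) (nat_lit 0) (nat_lit 0) (XT.lf (nat_lit 0) (nat_lit 796747110) (nat_lit 924) (nat_lit 1759223563) (nat_lit 1008) (nat_lit 4933533132) (nat_lit 249) (nat_lit 5) (nat_lit 260) (nat_lit 5) (nat_lit 261) (nat_lit 5) (nat_lit 280) (nat_lit 233) (nat_lit 207)) (XT.lf (nat_lit 0) (nat_lit 5514037696) (nat_lit 1008) (nat_lit 1394279927) (nat_lit 84) (nat_lit 638208859) (nat_lit 249) (nat_lit 5) (nat_lit 261) (nat_lit 5) (nat_lit 250) (nat_lit 5) (nat_lit 281) (nat_lit 233) (nat_lit 206))) (XT.nd (nat_lit 94) (nat_lit 840) (nat_lit 0) (XT.lf (nat_lit 0) (nat_lit 903377921) (nat_lit 924) (nat_lit 3607051280) (nat_lit 84) (nat_lit 3094570913) (nat_lit 238) (nat_lit 5) (nat_lit 249) (nat_lit 5) (nat_lit 239)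 (nat_lit 5) (nat_lit 282) (nat_lit 233) (nat_lit 205)) (XT.lf (nat_lit 0) (nat_lit 1814969335) (nat_lit 840) (nat_lit 2025839655) (nat_lit 924) (nat_lit 3824353994) (nat_lit 228) (nat_lit 5) (nat_lit 238) (nat_lit 5) (nat_lit 239) (nat_lit 5) (nat_lit 283) (nat_lit 233) (nat_lit 204))))))))
noncomputable def xc15 : XT := (XT.nd (nat_lit 42206) (nat_lit 0) (nat_lit 15540) (XT.nd (nat_lit 1410) (nat_lit 6300) (nat_lit 0) (XT.nd (nat_lit 658) (nat_lit 4200) (nat_lit 0) (XT.nd (nat_lit 282) (nat_lit 2436) (nat_lit 0) (XT.nd (nat_lit 94) (nat_lit 1764) (nat_lit 0) (XT.lf (nat_lit 0) (nat_lit 6817691274) (nat_lit 924) (nat_lit 381907684) (nat_lit 84) (nat_lit 527604270) (nat_lit 228) (nat_lit 5) (nat_lit 239) (nat_lit 5) (nat_lit 229) (nat_lit 5) (nat_lit 284) (nat_lit 233) (nat_lit 203)) (XT.nd (nat_lit 94) (nat_lit 840) (nat_lit 0) (XT.lf (nat_lit 0) (nat_lit 2036995089) (nat_lit 924) (nat_lit 2599273142)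 (nat_lit 84) (nat_lit 3154074224) (nat_lit 217) (nat_lit 5) (nat_lit 228) (nat_lit 5) (nat_lit 218) (nat_lit 5) (nat_lit 285) (nat_lit 233) (nat_lit 202)) (XT.lf (nat_lit 0) (nat_lit 3013150839) (nat_lit 840) (nat_lit 1991974643) (nat_lit 924) (nat_lit 2850255454) (nat_lit 207) (nat_lit 5) (nat_lit 217) (nat_lit 5) (nat_lit 218) (nat_lit 5) (nat_lit 286) (nat_lit 233) (nat_lit 201)))) (XT.nd (nat_lit 188) (nat_lit 1596) (nat_lit 0) (XT.nd (nat_lit 94) (nat_lit 0) (nat_lit 0) (XT.lf (nat_lit 0) (nat_lit 91595417) (nat_lit 840) (nat_lit 7111935274) (nat_lit 84) (nat_lit 718816704) (nat_lit 197) (nat_lit 5) (nat_lit 207) (nat_lit 5) (nat_lit 198) (nat_lit 5) (nat_lit 287) (nat_lit 233) (nat_lit 200)) (XT.lf (nat_lit 0) (nat_lit 3053632189) (nat_lit 840) (nat_lit 1427942668) (nat_lit 84) (nat_lit 3508812501) (nat_lit 197) (nat_lit 5) (nat_lit 207) (nat_lit 5) (nat_lit 198) (nat_lit 5) (nat_lit 288) (nat_lit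 233) (nat_lit 199))) (XT.nd (nat_lit 94) (nat_lit 840) (nat_lit 0) (XT.lf (nat_lit 0) (nat_lit 4383408107) (nat_lit 756) (nat_lit 1676685837) (nat_lit 840) (nat_lit 2000286532) (nat_lit 188) (nat_lit 5) (nat_lit 197) (nat_lit 5) (nat_lit 198) (nat_lit 5) (nat_lit 289) (nat_lit 233) (nat_lit 198)) (XT.lf (nat_lit 0) (nat_lit 969490463) (nat_lit 840) (nat_lit 5965730079) (nat_lit 84) (nat_lit 1196907416) (nat_lit 178) (nat_lit 5) (nat_lit 188) (nat_lit 5) (nat_lit 179) (nat_lit 5) (nat_lit 290) (nat_lit 233) (nat_lit 197))))) (XT.nd (nat_lit 376) (nat_lit 2016) (nat_lit 0) (XT.nd (nat_lit 188) (nat_lit 1428) (nat_lit 0) (XT.nd (nat_lit 94) (nat_lit 756) (nat_lit 0) (XT.lf (nat_lit 0) (nat_lit 3963682922) (nat_lit 840) (nat_lit 100333809) (nat_lit 84) (nat_lit 4141369245) (nat_lit 178) (nat_lit 5) (nat_lit 188) (nat_lit 5) (nat_lit 179) (nat_lit 5) (nat_lit 291) (nat_lit 233) (nat_lit 196)) (XT.lf (nat_lit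 0) (nat_lit 5918931874) (nat_lit 756) (nat_lit 1097037812) (nat_lit 840) (nat_lit 1264457101) (nat_lit 169) (nat_lit 5) (nat_lit 178) (nat_lit 5) (nat_lit 179) (nat_lit 5) (nat_lit 292) (nat_lit 233) (nat_lit 195))) (XT.nd (nat_lit 94) (nat_lit 672) (nat_lit 0) (XT.lf (nat_lit 0) (nat_lit 1744085552) (nat_lit 756) (nat_lit 4676479027) (nat_lit 84) (nat_lit 1936464211) (nat_lit 160) (nat_lit 5) (nat_lit 169) (nat_lit 5) (nat_lit 161) (nat_lit 5) (nat_lit 293) (nat_lit 233) (nat_lit 194)) (XT.lf (nat_lit 0) (nat_lit 1397395911) (nat_lit 672) (nat_lit 3389225792) (nat_lit 756) (nat_lit 3648790614) (nat_lit 152) (nat_lit 5) (nat_lit 160) (nat_lit 5) (nat_lit 161) (nat_lit 5) (nat_lit 294) (nat_lit 233) (nat_lit 193)))) (XT.nd (nat_lit 188) (nat_lit 1260) (nat_lit 0) (XT.nd (nat_lit 94) (nat_lit 756) (nat_lit 0) (XT.lf (nat_lit 0) (nat_lit 7613913960) (nat_lit 672) (nat_lit 268253520) (nat_lit 756) (nat_lit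 633659179) (nat_lit 152) (nat_lit 5) (nat_lit 160) (nat_lit 5) (nat_lit 161) (nat_lit 5) (nat_lit 295) (nat_lit 233) (nat_lit 192)) (XT.lf (nat_lit 0) (nat_lit 2424148908) (nat_lit 756) (nat_lit 3250099631) (nat_lit 84) (nat_lit 2923122779) (nat_lit 143) (nat_lit 5) (nat_lit 152) (nat_lit 5) (nat_lit 144) (nat_lit 5) (nat_lit 296) (nat_lit 233) (nat_lit 191))) (XT.nd (nat_lit 94) (nat_lit 588) (nat_lit 0) (XT.lf (nat_lit 0) (nat_lit 3043336793) (nat_lit 672) (nat_lit 2479648636) (nat_lit 756) (nat_lit 3157995195) (nat_lit 135) (nat_lit 5) (nat_lit 143) (nat_lit 5) (nat_lit 144) (nat_lit 5) (nat_lit 297) (nat_lit 233) (nat_lit 190)) (XT.lf (nat_lit 0) (nat_lit 700978222) (nat_lit 588) (nat_lit 7977019214) (nat_lit 672) (nat_lit 88695873) (nat_lit 128) (nat_lit 5) (nat_lit 135) (nat_lit 5) (nat_lit 136) (nat_lit 5) (nat_lit 298) (nat_lit 233) (nat_lit 189)))))) (XT.nd (nat_lit 658) (nat_lit 3192) (nat_lit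 0) (XT.nd (nat_lit 282) (nat_lit 1764) (nat_lit 0) (XT.nd (nat_lit 94) (nat_lit 1260) (nat_lit 0) (XT.lf (nat_lit 0) (nat_lit 3017692551) (nat_lit 672) (nat_lit 1691649696) (nat_lit 84) (nat_lit 4144175471) (nat_lit 127) (nat_lit 5) (nat_lit 135) (nat_lit 5) (nat_lit 128) (nat_lit 5) (nat_lit 299) (nat_lit 233) (nat_lit 188)) (XT.nd (nat_lit 94) (nat_lit 672) (nat_lit 0) (XT.lf (nat_lit 0) (nat_lit 4831454828) (nat_lit 588) (nat_lit 1348549166) (nat_lit 672) (nat_lit 2762478526) (nat_lit 120) (nat_lit 5) (nat_lit 127) (nat_lit 5) (nat_lit 128) (nat_lit 5) (nat_lit 300) (nat_lit 233) (nat_lit 187)) (XT.lf (nat_lit 0) (nat_lit 372849516) (nat_lit 672) (nat_lit 6586147137) (nat_lit 84) (nat_lit 2074352563) (nat_lit 112) (nat_lit 5) (nat_lit 120) (nat_lit 5) (nat_lit 113) (nat_lit 5) (nat_lit 301) (nat_lit 233) (nat_lit 186)))) (XT.nd (nat_lit 188) (nat_lit 1176) (nat_lit 0) (XT.nd (nat_lit 94) (nat_lit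 588) (nat_lit 0) (XT.lf (nat_lit 0) (nat_lit 3532034905) (nat_lit 672) (nat_lit 5384821) (nat_lit 84) (nat_lit 5588450851) (nat_lit 112) (nat_lit 5) (nat_lit 120) (nat_lit 5) (nat_lit 113) (nat_lit 5) (nat_lit 302) (nat_lit 233) (nat_lit 185)) (XT.lf (nat_lit 0) (nat_lit 6757999232) (nat_lit 588) (nat_lit 6967744) (nat_lit 672) (nat_lit 2455367049) (nat_lit 105) (nat_lit 5) (nat_lit 112) (nat_lit 5) (nat_lit 113) (nat_lit 5) (nat_lit 303) (nat_lit 233) (nat_lit 184))) (XT.nd (nat_lit 94) (nat_lit 588) (nat_lit 0) (XT.lf (nat_lit 0) (nat_lit 754464722) (nat_lit 588) (nat_lit 4991845554) (nat_lit 84) (nat_lit 3570158221) (nat_lit 98) (nat_lit 5) (nat_lit 105) (nat_lit 5) (nat_lit 99) (nat_lit 5) (nat_lit 304) (nat_lit 233) (nat_lit 183)) (XT.lf (nat_lit 0) (nat_lit 1831570002) (nat_lit 588) (nat_lit 2155334865) (nat_lit 672) (nat_lit 5427680836) (nat_lit 91) (nat_lit 5) (nat_lit 98) (nat_lit 5) (nat_lit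 99) (nat_lit 5) (nat_lit 305) (nat_lit 233) (nat_lit 182))))) (XT.nd (nat_lit 376) (nat_lit 1596) (nat_lit 0) (XT.nd (nat_lit 188) (nat_lit 1008) (nat_lit 0) (XT.nd (nat_lit 94) (nat_lit 588) (nat_lit 0) (XT.lf (nat_lit 0) (nat_lit 7295491790) (nat_lit 672) (nat_lit 705943176) (nat_lit 84) (nat_lit 1513315794) (nat_lit 91) (nat_lit 5) (nat_lit 99) (nat_lit 5) (nat_lit 92) (nat_lit 5) (nat_lit 306) (nat_lit 233) (nat_lit 181)) (XT.lf (nat_lit 0) (nat_lit 1063493107) (nat_lit 588) (nat_lit 3285544618) (nat_lit 84) (nat_lit 5267497458) (nat_lit 84) (nat_lit 5) (nat_lit 91) (nat_lit 5) (nat_lit 85) (nat_lit 5) (nat_lit 307) (nat_lit 233) (nat_lit 180))) (XT.nd (nat_lit 94) (nat_lit 504) (nat_lit 0) (XT.lf (nat_lit 0) (nat_lit 3791886439) (nat_lit 504) (nat_lit 584384881) (nat_lit 588) (nat_lit 5344141698) (nat_lit 78) (nat_lit 5) (nat_lit 84) (nat_lit 5) (nat_lit 85) (nat_lit 5) (nat_lit 308) (nat_lit 233)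 (nat_lit 179)) (XT.lf (nat_lit 0) (nat_lit 1181926992) (nat_lit 504) (nat_lit 6594675905) (nat_lit 588) (nat_lit 2049650481) (nat_lit 72) (nat_lit 5) (nat_lit 78) (nat_lit 5) (nat_lit 79) (nat_lit 5) (nat_lit 309) (nat_lit 233) (nat_lit 178)))) (XT.nd (nat_lit 188) (nat_lit 1008) (nat_lit 0) (XT.nd (nat_lit 94) (nat_lit 504) (nat_lit 0) (XT.lf (nat_lit 0) (nat_lit 1305445007) (nat_lit 588) (nat_lit 1469957747) (nat_lit 84) (nat_lit 7158656853) (nat_lit 71) (nat_lit 5) (nat_lit 78) (nat_lit 5) (nat_lit 72) (nat_lit 5) (nat_lit 310) (nat_lit 233) (nat_lit 177)) (XT.lf (nat_lit 0) (nat_lit 4713960388) (nat_lit 588) (nat_lit 4178881660) (nat_lit 84) (nat_lit 1150852121) (nat_lit 65) (nat_lit 5) (nat_lit 72) (nat_lit 5) (nat_lit 66) (nat_lit 5) (nat_lit 311) (nat_lit 233) (nat_lit 176))) (XT.nd (nat_lit 94) (nat_lit 588) (nat_lit 0) (XT.lf (nat_lit 0) (nat_lit 3194191065) (nat_lit 420) (nat_lit 5017115223)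 (nat_lit 504) (nat_lit 1944129855) (nat_lit 60) (nat_lit 5) (nat_lit 65) (nat_lit 5) (nat_lit 66) (nat_lit 5) (nat_lit 312) (nat_lit 233) (nat_lit 175)) (XT.lf (nat_lit 0) (nat_lit 459431701) (nat_lit 504) (nat_lit 1029160865) (nat_lit 588) (nat_lit 8780927971) (nat_lit 53) (nat_lit 5) (nat_lit 59) (nat_lit 5) (nat_lit 60) (nat_lit 5) (nat_lit 313) (nat_lit 233) (nat_lit 174))))))) (XT.nd (nat_lit 1410) (nat_lit 15540) (nat_lit 0) (XT.nd (nat_lit 658) (nat_lit 5712) (nat_lit 0) (XT.nd (nat_lit 282) (nat_lit 2436) (nat_lit 0) (XT.nd (nat_lit 94) (nat_lit 672) (nat_lit 0) (XT.lf (nat_lit 0) (nat_lit 952741382) (nat_lit 588) (nat_lit 1356760927) (nat_lit 0) (nat_lit 952741382) (nat_lit 528) (nat_lit 5) (nat_lit 535) (nat_lit 4) (nat_lit 528) (nat_lit 4) (nat_lit 252) (nat_lit 234) (nat_lit 234)) (XT.nd (nat_lit 94) (nat_lit 84) (nat_lit 0) (XT.lf (nat_lit 0) (nat_lit 1194589772) (nat_lit 588) (nat_lit 3967855192)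 (nat_lit 588) (nat_lit 1376588178) (nat_lit 521) (nat_lit 4) (nat_lit 528) (nat_lit 5) (nat_lit 528) (nat_lit 4) (nat_lit 253) (nat_lit 234) (nat_lit 233)) (XT.lf (nat_lit 0) (nat_lit 1844709920) (nat_lit 672) (nat_lit 1396749869) (nat_lit 84) (nat_lit 3313555650) (nat_lit 520) (nat_lit 5) (nat_lit 528) (nat_lit 5) (nat_lit 521) (nat_lit 4) (nat_lit 254) (nat_lit 234) (nat_lit 232)))) (XT.nd (nat_lit 188) (nat_lit 924) (nat_lit 0) (XT.nd (nat_lit 94) (nat_lit 840) (nat_lit 0) (XT.lf (nat_lit 0) (nat_lit 2608042072) (nat_lit 672) (nat_lit 2444233781) (nat_lit 756) (nat_lit 1520268441) (nat_lit 512) (nat_lit 5) (nat_lit 520) (nat_lit 5) (nat_lit 521) (nat_lit 4) (nat_lit 255) (nat_lit 234) (nat_lit 231)) (XT.lf (nat_lit 0) (nat_lit 61911297) (nat_lit 756) (nat_lit 1581681472) (nat_lit 840) (nat_lit 4948161853) (nat_lit 502) (nat_lit 5) (nat_lit 511) (nat_lit 5) (nat_lit 512) (nat_lit 5) (nat_lit 256) (nat_lit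 234) (nat_lit 230))) (XT.nd (nat_lit 94) (nat_lit 924) (nat_lit 0) (XT.lf (nat_lit 0) (nat_lit 4167227407) (nat_lit 756) (nat_lit 635884605) (nat_lit 840) (nat_lit 1809166590) (nat_lit 502) (nat_lit 5) (nat_lit 511) (nat_lit 5) (nat_lit 512) (nat_lit 5) (nat_lit 257) (nat_lit 234) (nat_lit 229)) (XT.lf (nat_lit 0) (nat_lit 1313814829) (nat_lit 924) (nat_lit 4950846092) (nat_lit 84) (nat_lit 369802278) (nat_lit 491) (nat_lit 5) (nat_lit 502) (nat_lit 5) (nat_lit 492) (nat_lit 5) (nat_lit 258) (nat_lit 234) (nat_lit 228))))) (XT.nd (nat_lit 376) (nat_lit 3612) (nat_lit 0) (XT.nd (nat_lit 188) (nat_lit 1092) (nat_lit 0) (XT.nd (nat_lit 94) (nat_lit 1008) (nat_lit 0) (XT.lf (nat_lit 0) (nat_lit 4423540226) (nat_lit 924) (nat_lit 794075489) (nat_lit 84) (nat_lit 1440447662) (nat_lit 491) (nat_lit 5) (nat_lit 502) (nat_lit 5) (nat_lit 492) (nat_lit 5) (nat_lit 259) (nat_lit 234) (nat_lit 227)) (XT.lf (nat_lit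 0) (nat_lit 853952973) (nat_lit 1008) (nat_lit 3243487372) (nat_lit 84) (nat_lit 2585748922) (nat_lit 479) (nat_lit 5) (nat_lit 491) (nat_lit 5) (nat_lit 480) (nat_lit 5) (nat_lit 260) (nat_lit 234) (nat_lit 226))) (XT.nd (nat_lit 94) (nat_lit 84) (nat_lit 0) (XT.lf (nat_lit 0) (nat_lit 1009515474) (nat_lit 1008) (nat_lit 2905287806) (nat_lit 1092) (nat_lit 2795085727) (nat_lit 467) (nat_lit 5) (nat_lit 479) (nat_lit 5) (nat_lit 480) (nat_lit 5) (nat_lit 261) (nat_lit 234) (nat_lit 225)) (XT.lf (nat_lit 0) (nat_lit 250439348) (nat_lit 1092) (nat_lit 1393608522) (nat_lit 84) (nat_lit 5094201733) (nat_lit 466) (nat_lit 5) (nat_lit 479) (nat_lit 5) (nat_lit 467) (nat_lit 5) (nat_lit 262) (nat_lit 234) (nat_lit 224)))) (XT.nd (nat_lit 188) (nat_lit 1344) (nat_lit 0) (XT.nd (nat_lit 94) (nat_lit 1176) (nat_lit 0) (XT.lf (nat_lit 0) (nat_lit 2972510738) (nat_lit 1092) (nat_lit 296998075) (nat_lit 1176) (nat_lit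 3498428555) (nat_lit 453) (nat_lit 5) (nat_lit 466) (nat_lit 5) (nat_lit 467) (nat_lit 5) (nat_lit 263) (nat_lit 234) (nat_lit 223)) (XT.lf (nat_lit 0) (nat_lit 599171970) (nat_lit 1176) (nat_lit 5705944777) (nat_lit 1260) (nat_lit 494258900) (nat_lit 439) (nat_lit 5) (nat_lit 453) (nat_lit 5) (nat_lit 454) (nat_lit 5) (nat_lit 264) (nat_lit 234) (nat_lit 222))) (XT.nd (nat_lit 94) (nat_lit 1260) (nat_lit 0) (XT.lf (nat_lit 0) (nat_lit 2497710569) (nat_lit 1260) (nat_lit 1764225015) (nat_lit 84) (nat_lit 2570072461) (nat_lit 438) (nat_lit 5) (nat_lit 453) (nat_lit 5) (nat_lit 439) (nat_lit 5) (nat_lit 265) (nat_lit 234) (nat_lit 221)) (XT.lf (nat_lit 0) (nat_lit 2746839011) (nat_lit 1260) (nat_lit 2750906505) (nat_lit 1344) (nat_lit 1368644290) (nat_lit 423) (nat_lit 5) (nat_lit 438) (nat_lit 5) (nat_lit 439) (nat_lit 5) (nat_lit 266) (nat_lit 234) (nat_lit 220)))))) (XT.nd (nat_lit 752) (nat_lit 7644)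 (nat_lit 0) (XT.nd (nat_lit 376) (nat_lit 3444) (nat_lit 0) (XT.nd (nat_lit 188) (nat_lit 3024) (nat_lit 0) (XT.nd (nat_lit 94) (nat_lit 0) (nat_lit 0) (XT.lf (nat_lit 0) (nat_lit 417264982) (nat_lit 1344) (nat_lit 1167688546) (nat_lit 1428) (nat_lit 5317487821) (nat_lit 406) (nat_lit 5) (nat_lit 422) (nat_lit 5) (nat_lit 423) (nat_lit 5) (nat_lit 267) (nat_lit 234) (nat_lit 219)) (XT.lf (nat_lit 0) (nat_lit 4548932460) (nat_lit 1428) (nat_lit 1896803402) (nat_lit 84) (nat_lit 494088896) (nat_lit 406) (nat_lit 5) (nat_lit 423) (nat_lit 5) (nat_lit 407) (nat_lit 5) (nat_lit 268) (nat_lit 234) (nat_lit 218))) (XT.nd (nat_lit 94) (nat_lit 1512) (nat_lit 0) (XT.lf (nat_lit 0) (nat_lit 552520747) (nat_lit 1512) (nat_lit 4217951635) (nat_lit 84) (nat_lit 2208320517) (nat_lit 388) (nat_lit 5) (nat_lit 406) (nat_lit 5) (nat_lit 389) (nat_lit 5) (nat_lit 269) (nat_lit 234) (nat_lit 217)) (XT.lf (nat_lit 0) (nat_lit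 460642830) (nat_lit 1512) (nat_lit 3015949725) (nat_lit 1596) (nat_lit 3542718711) (nat_lit 370) (nat_lit 5) (nat_lit 388) (nat_lit 5) (nat_lit 389) (nat_lit 5) (nat_lit 270) (nat_lit 234) (nat_lit 216)))) (XT.nd (nat_lit 188) (nat_lit 1764) (nat_lit 0) (XT.nd (nat_lit 94) (nat_lit 1680) (nat_lit 0) (XT.lf (nat_lit 0) (nat_lit 5246134497) (nat_lit 1512) (nat_lit 1184725342) (nat_lit 1596) (nat_lit 630612148) (nat_lit 370) (nat_lit 5) (nat_lit 388) (nat_lit 5) (nat_lit 389) (nat_lit 5) (nat_lit 271) (nat_lit 234) (nat_lit 215)) (XT.lf (nat_lit 0) (nat_lit 2274008695) (nat_lit 1680) (nat_lit 4110194695) (nat_lit 84) (nat_lit 720820186) (nat_lit 350) (nat_lit 5) (nat_lit 370) (nat_lit 5) (nat_lit 351) (nat_lit 5) (nat_lit 272) (nat_lit 234) (nat_lit 214))) (XT.nd (nat_lit 94) (nat_lit 84) (nat_lit 0) (XT.lf (nat_lit 0) (nat_lit 726134561) (nat_lit 1680) (nat_lit 4471075008) (nat_lit 1764) (nat_lit 1953015590)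 (nat_lit 330) (nat_lit 5) (nat_lit 350) (nat_lit 5) (nat_lit 351) (nat_lit 5) (nat_lit 273) (nat_lit 234) (nat_lit 213)) (XT.lf (nat_lit 0) (nat_lit 941789904) (nat_lit 1764) (nat_lit 1532955606) (nat_lit 84) (nat_lit 4722230843) (nat_lit 329) (nat_lit 5) (nat_lit 350) (nat_lit 5) (nat_lit 330) (nat_lit 5) (nat_lit 274) (nat_lit 234) (nat_lit 212))))) (XT.nd (nat_lit 376) (nat_lit 2856) (nat_lit 0) (XT.nd (nat_lit 188) (nat_lit 1176) (nat_lit 0) (XT.nd (nat_lit 94) (nat_lit 1848) (nat_lit 0) (XT.lf (nat_lit 0) (nat_lit 3442250633) (nat_lit 1764) (nat_lit 392299604) (nat_lit 1848) (nat_lit 3410706655) (nat_lit 308) (nat_lit 5) (nat_lit 329) (nat_lit 5) (nat_lit 330) (nat_lit 5) (nat_lit 275) (nat_lit 234) (nat_lit 211)) (XT.lf (nat_lit 0) (nat_lit 1200480708) (nat_lit 1848) (nat_lit 5562213123) (nat_lit 1932) (nat_lit 532527436) (nat_lit 286) (nat_lit 5) (nat_lit 308) (nat_lit 5) (nat_lit 309) (nat_lit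 5) (nat_lit 276) (nat_lit 234) (nat_lit 210))) (XT.nd (nat_lit 94) (nat_lit 1092) (nat_lit 0) (XT.lf (nat_lit 0) (nat_lit 2345292219) (nat_lit 1932) (nat_lit 1055308295) (nat_lit 84) (nat_lit 3945944451) (nat_lit 285) (nat_lit 5) (nat_lit 308) (nat_lit 5) (nat_lit 286) (nat_lit 5) (nat_lit 277) (nat_lit 234) (nat_lit 209)) (XT.lf (nat_lit 0) (nat_lit 4091072188) (nat_lit 1092) (nat_lit 1157815681) (nat_lit 1176) (nat_lit 2150677965) (nat_lit 272) (nat_lit 5) (nat_lit 285) (nat_lit 5) (nat_lit 286) (nat_lit 5) (nat_lit 278) (nat_lit 234) (nat_lit 208)))) (XT.nd (nat_lit 188) (nat_lit 1848) (nat_lit 0) (XT.nd (nat_lit 94) (nat_lit 0) (nat_lit 0) (XT.lf (nat_lit 0) (nat_lit 722688397) (nat_lit 1008) (nat_lit 5587744262) (nat_lit 84) (nat_lit 1143837607) (nat_lit 260) (nat_lit 5) (nat_lit 272) (nat_lit 5) (nat_lit 261) (nat_lit 5) (nat_lit 279) (nat_lit 234) (nat_lit 207)) (XT.lf (nat_lit 0) (nat_lit 3603071116)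 (nat_lit 1008) (nat_lit 389317009) (nat_lit 84) (nat_lit 3517985493) (nat_lit 260) (nat_lit 5) (nat_lit 272) (nat_lit 5) (nat_lit 261) (nat_lit 5) (nat_lit 280) (nat_lit 234) (nat_lit 206))) (XT.nd (nat_lit 94) (nat_lit 924) (nat_lit 0) (XT.lf (nat_lit 0) (nat_lit 4935639046) (nat_lit 924) (nat_lit 1589996517) (nat_lit 1008) (nat_lit 1042541788) (nat_lit 249) (nat_lit 5) (nat_lit 260) (nat_lit 5) (nat_lit 261) (nat_lit 5) (nat_lit 281) (nat_lit 234) (nat_lit 205)) (XT.lf (nat_lit 0) (nat_lit 1830828822) (nat_lit 924) (nat_lit 4911278177) (nat_lit 84) (nat_lit 885450078) (nat_lit 238) (nat_lit 5) (nat_lit 249) (nat_lit 5) (nat_lit 239) (nat_lit 5) (nat_lit 282) (nat_lit 234) (nat_lit 204))))))))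
noncomputable def xc16 : XT := (XT.nd (nat_lit 2820) (nat_lit 504) (nat_lit 0) (XT.nd (nat_lit 1410) (nat_lit 5880) (nat_lit 0) (XT.nd (nat_lit 658) (nat_lit 4452) (nat_lit 0) (XT.nd (nat_lit 282) (nat_lit 2436) (nat_lit 0) (XT.nd (nat_lit 94) (nat_lit 924) (nat_lit 0) (XT.lf (nat_lit 0) (nat_lit 461537643) (nat_lit 840) (nat_lit 4269784630) (nat_lit 924) (nat_lit 2957210302) (nat_lit 228) (nat_lit 5) (nat_lit 238) (nat_lit 5) (nat_lit 239) (nat_lit 5) (nat_lit 283) (nat_lit 234) (nat_lit 203)) (XT.nd (nat_lit 94) (nat_lit 924) (nat_lit 0) (XT.lf (nat_lit 0) (nat_lit 5966264575) (nat_lit 840) (nat_lit 1711207500) (nat_lit 924) (nat_lit 73776859) (nat_lit 228) (nat_lit 5) (nat_lit 238) (nat_lit 5) (nat_lit 239) (nat_lit 5) (nat_lit 284) (nat_lit 234) (nat_lit 202)) (XT.lf (nat_lit 0) (nat_lit 2811525403) (nat_lit 924) (nat_lit 4071056687) (nat_lit 84) (nat_lit 932756787) (nat_lit 217) (nat_lit 5) (nat_lit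 228) (nat_lit 5) (nat_lit 218) (nat_lit 5) (nat_lit 285) (nat_lit 234) (nat_lit 201)))) (XT.nd (nat_lit 188) (nat_lit 1512) (nat_lit 0) (XT.nd (nat_lit 94) (nat_lit 84) (nat_lit 0) (XT.lf (nat_lit 0) (nat_lit 1489833727) (nat_lit 840) (nat_lit 4252783377) (nat_lit 924) (nat_lit 2138575107) (nat_lit 207) (nat_lit 5) (nat_lit 217) (nat_lit 5) (nat_lit 218) (nat_lit 5) (nat_lit 286) (nat_lit 234) (nat_lit 200)) (XT.lf (nat_lit 0) (nat_lit 755998241) (nat_lit 924) (nat_lit 779984639) (nat_lit 84) (nat_lit 6412878855) (nat_lit 206) (nat_lit 5) (nat_lit 217) (nat_lit 5) (nat_lit 207) (nat_lit 5) (nat_lit 287) (nat_lit 234) (nat_lit 199))) (XT.nd (nat_lit 94) (nat_lit 756) (nat_lit 0) (XT.lf (nat_lit 0) (nat_lit 3675716352) (nat_lit 840) (nat_lit 3075475469) (nat_lit 84) (nat_lit 1266640888) (nat_lit 197) (nat_lit 5) (nat_lit 207) (nat_lit 5) (nat_lit 198) (nat_lit 5) (nat_lit 288) (nat_lit 234) (nat_lit 198))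 (XT.lf (nat_lit 0) (nat_lit 2681934768) (nat_lit 756) (nat_lit 3962977309) (nat_lit 840) (nat_lit 1443733603) (nat_lit 188) (nat_lit 5) (nat_lit 197) (nat_lit 5) (nat_lit 198) (nat_lit 5) (nat_lit 289) (nat_lit 234) (nat_lit 197))))) (XT.nd (nat_lit 376) (nat_lit 2100) (nat_lit 0) (XT.nd (nat_lit 188) (nat_lit 1512) (nat_lit 0) (XT.nd (nat_lit 94) (nat_lit 0) (nat_lit 0) (XT.lf (nat_lit 0) (nat_lit 386181088) (nat_lit 756) (nat_lit 1085458327) (nat_lit 840) (nat_lit 6689687061) (nat_lit 178) (nat_lit 5) (nat_lit 187) (nat_lit 5) (nat_lit 188) (nat_lit 5) (nat_lit 290) (nat_lit 234) (nat_lit 196)) (XT.lf (nat_lit 0) (nat_lit 4433401642) (nat_lit 840) (nat_lit 1931898826) (nat_lit 84) (nat_lit 1869997493) (nat_lit 178) (nat_lit 5) (nat_lit 188) (nat_lit 5) (nat_lit 179) (nat_lit 5) (nat_lit 291) (nat_lit 234) (nat_lit 195))) (XT.nd (nat_lit 94) (nat_lit 756) (nat_lit 0) (XT.lf (nat_lit 0) (nat_lit 4030935260)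 (nat_lit 756) (nat_lit 3417137907) (nat_lit 840) (nat_lit 863093138) (nat_lit 169) (nat_lit 5) (nat_lit 178) (nat_lit 5) (nat_lit 179) (nat_lit 5) (nat_lit 292) (nat_lit 234) (nat_lit 194)) (XT.lf (nat_lit 0) (nat_lit 1715368878) (nat_lit 672) (nat_lit 372177125) (nat_lit 756) (nat_lit 6301306105) (nat_lit 160) (nat_lit 5) (nat_lit 168) (nat_lit 5) (nat_lit 169) (nat_lit 5) (nat_lit 293) (nat_lit 234) (nat_lit 193)))) (XT.nd (nat_lit 188) (nat_lit 1428) (nat_lit 0) (XT.nd (nat_lit 94) (nat_lit 672) (nat_lit 0) (XT.lf (nat_lit 0) (nat_lit 5093720923) (nat_lit 756) (nat_lit 646733019) (nat_lit 84) (nat_lit 2727581641) (nat_lit 160) (nat_lit 5) (nat_lit 169) (nat_lit 5) (nat_lit 161) (nat_lit 5) (nat_lit 294) (nat_lit 234) (nat_lit 192)) (XT.lf (nat_lit 0) (nat_lit 5530899287) (nat_lit 672) (nat_lit 2630238826) (nat_lit 756) (nat_lit 387930639) (nat_lit 152) (nat_lit 5) (nat_lit 160) (nat_lit 5) (nat_lit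 161) (nat_lit 5) (nat_lit 295) (nat_lit 234) (nat_lit 191))) (XT.nd (nat_lit 94) (nat_lit 672) (nat_lit 0) (XT.lf (nat_lit 0) (nat_lit 2610735321) (nat_lit 756) (nat_lit 5445708698) (nat_lit 84) (nat_lit 575354147) (nat_lit 143) (nat_lit 5) (nat_lit 152) (nat_lit 5) (nat_lit 144) (nat_lit 5) (nat_lit 296) (nat_lit 234) (nat_lit 190)) (XT.lf (nat_lit 0) (nat_lit 785825498) (nat_lit 672) (nat_lit 4884797027) (nat_lit 756) (nat_lit 3045641831) (nat_lit 135) (nat_lit 5) (nat_lit 143) (nat_lit 5) (nat_lit 144) (nat_lit 5) (nat_lit 297) (nat_lit 234) (nat_lit 189)))))) (XT.nd (nat_lit 658) (nat_lit 2772) (nat_lit 0) (XT.nd (nat_lit 282) (nat_lit 1848) (nat_lit 0) (XT.nd (nat_lit 94) (nat_lit 1260) (nat_lit 0) (XT.lf (nat_lit 0) (nat_lit 7176795195) (nat_lit 672) (nat_lit 1615590885) (nat_lit 756) (nat_lit 10322428) (nat_lit 135) (nat_lit 5) (nat_lit 143) (nat_lit 5) (nat_lit 144) (nat_lit 5) (nat_lit 298)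 (nat_lit 234) (nat_lit 188)) (XT.nd (nat_lit 94) (nat_lit 588) (nat_lit 0) (XT.lf (nat_lit 0) (nat_lit 3049076293) (nat_lit 672) (nat_lit 4097279331) (nat_lit 84) (nat_lit 1744173950) (nat_lit 127) (nat_lit 5) (nat_lit 135) (nat_lit 5) (nat_lit 128) (nat_lit 5) (nat_lit 299) (nat_lit 234) (nat_lit 187)) (XT.lf (nat_lit 0) (nat_lit 2361145728) (nat_lit 588) (nat_lit 3810614026) (nat_lit 672) (nat_lit 2808606437) (nat_lit 120) (nat_lit 5) (nat_lit 127) (nat_lit 5) (nat_lit 128) (nat_lit 5) (nat_lit 300) (nat_lit 234) (nat_lit 186)))) (XT.nd (nat_lit 188) (nat_lit 1176) (nat_lit 0) (XT.nd (nat_lit 94) (nat_lit 588) (nat_lit 0) (XT.lf (nat_lit 0) (nat_lit 272931474) (nat_lit 672) (nat_lit 110017627) (nat_lit 84) (nat_lit 8689489015) (nat_lit 119) (nat_lit 5) (nat_lit 127) (nat_lit 5) (nat_lit 120) (nat_lit 5) (nat_lit 301) (nat_lit 234) (nat_lit 185)) (XT.lf (nat_lit 0) (nat_lit 3406879786) (nat_lit 672)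 (nat_lit 2630007278) (nat_lit 84) (nat_lit 3128627628) (nat_lit 112) (nat_lit 5) (nat_lit 120) (nat_lit 5) (nat_lit 113) (nat_lit 5) (nat_lit 302) (nat_lit 234) (nat_lit 184))) (XT.nd (nat_lit 94) (nat_lit 588) (nat_lit 0) (XT.lf (nat_lit 0) (nat_lit 4065811841) (nat_lit 588) (nat_lit 2533581917) (nat_lit 672) (nat_lit 2661473582) (nat_lit 105) (nat_lit 5) (nat_lit 112) (nat_lit 5) (nat_lit 113) (nat_lit 5) (nat_lit 303) (nat_lit 234) (nat_lit 183)) (XT.lf (nat_lit 0) (nat_lit 492029383) (nat_lit 588) (nat_lit 7815584427) (nat_lit 84) (nat_lit 1050724842) (nat_lit 98) (nat_lit 5) (nat_lit 105) (nat_lit 5) (nat_lit 99) (nat_lit 5) (nat_lit 304) (nat_lit 234) (nat_lit 182))))) (XT.nd (nat_lit 376) (nat_lit 1092) (nat_lit 0) (XT.nd (nat_lit 188) (nat_lit 1092) (nat_lit 0) (XT.nd (nat_lit 94) (nat_lit 588) (nat_lit 0) (XT.lf (nat_lit 0) (nat_lit 3690477947) (nat_lit 588) (nat_lit 1047634313) (nat_lit 84)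 (nat_lit 4719091414) (nat_lit 98) (nat_lit 5) (nat_lit 105) (nat_lit 5) (nat_lit 99) (nat_lit 5) (nat_lit 305) (nat_lit 234) (nat_lit 181)) (XT.lf (nat_lit 0) (nat_lit 5896596549) (nat_lit 588) (nat_lit 1063259791) (nat_lit 672) (nat_lit 2598374977) (nat_lit 91) (nat_lit 5) (nat_lit 98) (nat_lit 5) (nat_lit 99) (nat_lit 5) (nat_lit 306) (nat_lit 234) (nat_lit 180))) (XT.nd (nat_lit 94) (nat_lit 504) (nat_lit 0) (XT.lf (nat_lit 0) (nat_lit 640078993) (nat_lit 588) (nat_lit 6347312750) (nat_lit 84) (nat_lit 2673778098) (nat_lit 84) (nat_lit 5) (nat_lit 91) (nat_lit 5) (nat_lit 85) (nat_lit 5) (nat_lit 307) (nat_lit 234) (nat_lit 179)) (XT.lf (nat_lit 0) (nat_lit 656224435) (nat_lit 504) (nat_lit 3254074153) (nat_lit 588) (nat_lit 5855685379) (nat_lit 78) (nat_lit 5) (nat_lit 84) (nat_lit 5) (nat_lit 85) (nat_lit 5) (nat_lit 308) (nat_lit 234) (nat_lit 178)))) (XT.nd (nat_lit 188) (nat_lit 504) (nat_lit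 0) (XT.nd (nat_lit 94) (nat_lit 588) (nat_lit 0) (XT.lf (nat_lit 0) (nat_lit 7263143003) (nat_lit 588) (nat_lit 2026214370) (nat_lit 84) (nat_lit 583511670) (nat_lit 78) (nat_lit 5) (nat_lit 85) (nat_lit 5) (nat_lit 79) (nat_lit 5) (nat_lit 309) (nat_lit 234) (nat_lit 177)) (XT.lf (nat_lit 0) (nat_lit 718717321) (nat_lit 588) (nat_lit 4779535861) (nat_lit 84) (nat_lit 4483273678) (nat_lit 71) (nat_lit 5) (nat_lit 78) (nat_lit 5) (nat_lit 72) (nat_lit 5) (nat_lit 310) (nat_lit 234) (nat_lit 176))) (XT.nd (nat_lit 94) (nat_lit 0) (nat_lit 0) (XT.lf (nat_lit 0) (nat_lit 2486594732) (nat_lit 504) (nat_lit 1588657567) (nat_lit 588) (nat_lit 6017052694) (nat_lit 65) (nat_lit 5) (nat_lit 71) (nat_lit 5) (nat_lit 72) (nat_lit 5) (nat_lit 311) (nat_lit 234) (nat_lit 175)) (XT.lf (nat_lit 0) (nat_lit 7519147504) (nat_lit 588) (nat_lit 295845470) (nat_lit 84) (nat_lit 2390229908) (nat_lit 65) (nat_lit 5) (nat_lit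 72) (nat_lit 5) (nat_lit 66) (nat_lit 5) (nat_lit 312) (nat_lit 234) (nat_lit 174))))))) (XT.nd (nat_lit 40608) (nat_lit 0) (nat_lit 17892) (XT.nd (nat_lit 39856) (nat_lit 0) (nat_lit 33096) (XT.nd (nat_lit 39480) (nat_lit 0) (nat_lit 37968) (XT.nd (nat_lit 39292) (nat_lit 0) (nat_lit 39900) (XT.lf (nat_lit 0) (nat_lit 732601718) (nat_lit 504) (nat_lit 3114672472) (nat_lit 84) (nat_lit 6472693455) (nat_lit 59) (nat_lit 5) (nat_lit 65) (nat_lit 5) (nat_lit 60) (nat_lit 5) (nat_lit 313) (nat_lit 234) (nat_lit 173)) (XT.nd (nat_lit 94) (nat_lit 84) (nat_lit 0) (XT.lf (nat_lit 0) (nat_lit 1320880765) (nat_lit 420) (nat_lit 964389269) (nat_lit 420) (nat_lit 964389269) (nat_lit 535) (nat_lit 4) (nat_lit 540) (nat_lit 5) (nat_lit 540) (nat_lit 4) (nat_lit 250) (nat_lit 235) (nat_lit 235)) (XT.lf (nat_lit 0) (nat_lit 1301855878) (nat_lit 504) (nat_lit 74184350) (nat_lit 84) (nat_lit 5135645620) (nat_lit 534)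 (nat_lit 5) (nat_lit 540) (nat_lit 5) (nat_lit 535) (nat_lit 4) (nat_lit 251) (nat_lit 235) (nat_lit 234)))) (XT.nd (nat_lit 188) (nat_lit 756) (nat_lit 0) (XT.nd (nat_lit 94) (nat_lit 672) (nat_lit 0) (XT.lf (nat_lit 0) (nat_lit 3777966146) (nat_lit 504) (nat_lit 738739081) (nat_lit 588) (nat_lit 2008597309) (nat_lit 528) (nat_lit 5) (nat_lit 534) (nat_lit 5) (nat_lit 535) (nat_lit 4) (nat_lit 252) (nat_lit 235) (nat_lit 233)) (XT.lf (nat_lit 0) (nat_lit 1128346957) (nat_lit 588) (nat_lit 40573326) (nat_lit 672) (nat_lit 5371771474) (nat_lit 520) (nat_lit 5) (nat_lit 527) (nat_lit 5) (nat_lit 528) (nat_lit 5) (nat_lit 253) (nat_lit 235) (nat_lit 232))) (XT.nd (nat_lit 94) (nat_lit 756) (nat_lit 0) (XT.lf (nat_lit 0) (nat_lit 4329095703) (nat_lit 672) (nat_lit 1502503079) (nat_lit 84) (nat_lit 725768044) (nat_lit 520) (nat_lit 5) (nat_lit 528) (nat_lit 5) (nat_lit 521) (nat_lit 4) (nat_lit 254) (nat_lit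 235) (nat_lit 231)) (XT.lf (nat_lit 0) (nat_lit 906525955) (nat_lit 756) (nat_lit 4109738217) (nat_lit 84) (nat_lit 1559391314) (nat_lit 511) (nat_lit 5) (nat_lit 520) (nat_lit 5) (nat_lit 512) (nat_lit 5) (nat_lit 255) (nat_lit 235) (nat_lit 230))))) (XT.nd (nat_lit 376) (nat_lit 3192) (nat_lit 0) (XT.nd (nat_lit 188) (nat_lit 840) (nat_lit 0) (XT.nd (nat_lit 94) (nat_lit 840) (nat_lit 0) (XT.lf (nat_lit 0) (nat_lit 4008306175) (nat_lit 756) (nat_lit 123151145) (nat_lit 84) (nat_lit 2464054307) (nat_lit 511) (nat_lit 5) (nat_lit 520) (nat_lit 5) (nat_lit 512) (nat_lit 5) (nat_lit 256) (nat_lit 235) (nat_lit 229)) (XT.lf (nat_lit 0) (nat_lit 503574697) (nat_lit 840) (nat_lit 2668091687) (nat_lit 84) (nat_lit 3445168636) (nat_lit 501) (nat_lit 5) (nat_lit 511) (nat_lit 5) (nat_lit 502) (nat_lit 5) (nat_lit 257) (nat_lit 235) (nat_lit 228))) (XT.nd (nat_lit 94) (nat_lit 0) (nat_lit 0) (XT.lf (nat_lit 0)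 (nat_lit 1418701303) (nat_lit 840) (nat_lit 2138694324) (nat_lit 924) (nat_lit 3082288734) (nat_lit 491) (nat_lit 5) (nat_lit 501) (nat_lit 5) (nat_lit 502) (nat_lit 5) (nat_lit 258) (nat_lit 235) (nat_lit 227)) (XT.lf (nat_lit 0) (nat_lit 5579316914) (nat_lit 840) (nat_lit 1042174889) (nat_lit 924) (nat_lit 42796579) (nat_lit 491) (nat_lit 5) (nat_lit 501) (nat_lit 5) (nat_lit 502) (nat_lit 5) (nat_lit 259) (nat_lit 235) (nat_lit 226)))) (XT.nd (nat_lit 188) (nat_lit 1176) (nat_lit 0) (XT.nd (nat_lit 94) (nat_lit 1008) (nat_lit 0) (XT.lf (nat_lit 0) (nat_lit 2967093083) (nat_lit 1008) (nat_lit 3581989866) (nat_lit 84) (nat_lit 141022265) (nat_lit 479) (nat_lit 5) (nat_lit 491) (nat_lit 5) (nat_lit 480) (nat_lit 5) (nat_lit 260) (nat_lit 235) (nat_lit 225)) (XT.lf (nat_lit 0) (nat_lit 637364191) (nat_lit 1008) (nat_lit 5351257771) (nat_lit 1092) (nat_lit 729048064) (nat_lit 467) (nat_lit 5) (nat_lit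 479) (nat_lit 5) (nat_lit 480) (nat_lit 5) (nat_lit 261) (nat_lit 235) (nat_lit 224))) (XT.nd (nat_lit 94) (nat_lit 1092) (nat_lit 0) (XT.lf (nat_lit 0) (nat_lit 2250375652) (nat_lit 1092) (nat_lit 1816872990) (nat_lit 84) (nat_lit 2679257774) (nat_lit 466) (nat_lit 5) (nat_lit 479) (nat_lit 5) (nat_lit 467) (nat_lit 5) (nat_lit 262) (nat_lit 235) (nat_lit 223)) (XT.lf (nat_lit 0) (nat_lit 2514652345) (nat_lit 1092) (nat_lit 2715969850) (nat_lit 1176) (nat_lit 1546426090) (nat_lit 453) (nat_lit 5) (nat_lit 466) (nat_lit 5) (nat_lit 467) (nat_lit 5) (nat_lit 263) (nat_lit 235) (nat_lit 222)))))) (XT.nd (nat_lit 658) (nat_lit 9744) (nat_lit 0) (XT.nd (nat_lit 282) (nat_lit 2856) (nat_lit 0) (XT.nd (nat_lit 94) (nat_lit 1344) (nat_lit 0) (XT.lf (nat_lit 0) (nat_lit 94193572) (nat_lit 1176) (nat_lit 1295747910) (nat_lit 1260) (nat_lit 5419346368) (nat_lit 438) (nat_lit 5) (nat_lit 452) (nat_lit 5) (nat_lit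 453) (nat_lit 5) (nat_lit 264) (nat_lit 235) (nat_lit 221)) (XT.nd (nat_lit 94) (nat_lit 1344) (nat_lit 0) (XT.lf (nat_lit 0) (nat_lit 4330918852) (nat_lit 1260) (nat_lit 2302323933) (nat_lit 84) (nat_lit 209565216) (nat_lit 438) (nat_lit 5) (nat_lit 453) (nat_lit 5) (nat_lit 439) (nat_lit 5) (nat_lit 265) (nat_lit 235) (nat_lit 220)) (XT.lf (nat_lit 0) (nat_lit 408960762) (nat_lit 1344) (nat_lit 4708813284) (nat_lit 84) (nat_lit 1760186495) (nat_lit 422) (nat_lit 5) (nat_lit 438) (nat_lit 5) (nat_lit 423) (nat_lit 5) (nat_lit 266) (nat_lit 235) (nat_lit 219)))) (XT.nd (nat_lit 188) (nat_lit 1512) (nat_lit 0) (XT.nd (nat_lit 94) (nat_lit 1344) (nat_lit 0) (XT.lf (nat_lit 0) (nat_lit 3306262614) (nat_lit 1344) (nat_lit 216338329) (nat_lit 84) (nat_lit 3392001487) (nat_lit 422) (nat_lit 5) (nat_lit 438) (nat_lit 5) (nat_lit 423) (nat_lit 5) (nat_lit 267) (nat_lit 235) (nat_lit 218)) (XT.lf (nat_lit 0)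 (nat_lit 4381530920) (nat_lit 1344) (nat_lit 1850486674) (nat_lit 1428) (nat_lit 720809172) (nat_lit 406) (nat_lit 5) (nat_lit 422) (nat_lit 5) (nat_lit 423) (nat_lit 5) (nat_lit 268) (nat_lit 235) (nat_lit 217))) (XT.nd (nat_lit 94) (nat_lit 0) (nat_lit 0) (XT.lf (nat_lit 0) (nat_lit 2048430037) (nat_lit 1428) (nat_lit 99952270) (nat_lit 1512) (nat_lit 4844254555) (nat_lit 388) (nat_lit 5) (nat_lit 405) (nat_lit 5) (nat_lit 406) (nat_lit 5) (nat_lit 269) (nat_lit 235) (nat_lit 216)) (XT.lf (nat_lit 0) (nat_lit 5036379344) (nat_lit 1512) (nat_lit 300307355) (nat_lit 84) (nat_lit 1697262174) (nat_lit 388) (nat_lit 5) (nat_lit 406) (nat_lit 5) (nat_lit 389) (nat_lit 5) (nat_lit 270) (nat_lit 235) (nat_lit 215))))) (XT.nd (nat_lit 376) (nat_lit 4788) (nat_lit 0) (XT.nd (nat_lit 188) (nat_lit 1764) (nat_lit 0) (XT.nd (nat_lit 94) (nat_lit 1596) (nat_lit 0) (XT.lf (nat_lit 0) (nat_lit 867354171) (nat_lit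 1596) (nat_lit 2630889667) (nat_lit 84) (nat_lit 3578470672) (nat_lit 369) (nat_lit 5) (nat_lit 388) (nat_lit 5) (nat_lit 370) (nat_lit 5) (nat_lit 271) (nat_lit 235) (nat_lit 214)) (XT.lf (nat_lit 0) (nat_lit 2139305496) (nat_lit 1596) (nat_lit 1581105737) (nat_lit 1680) (nat_lit 3400690623) (nat_lit 350) (nat_lit 5) (nat_lit 369) (nat_lit 5) (nat_lit 370) (nat_lit 5) (nat_lit 272) (nat_lit 235) (nat_lit 213))) (XT.nd (nat_lit 94) (nat_lit 1764) (nat_lit 0) (XT.lf (nat_lit 0) (nat_lit 6596524810) (nat_lit 1680) (nat_lit 173554693) (nat_lit 84) (nat_lit 397259858) (nat_lit 350) (nat_lit 5) (nat_lit 370) (nat_lit 5) (nat_lit 351) (nat_lit 5) (nat_lit 273) (nat_lit 235) (nat_lit 212)) (XT.lf (nat_lit 0) (nat_lit 2272402786) (nat_lit 1764) (nat_lit 2491286759) (nat_lit 84) (nat_lit 2450881363) (nat_lit 329) (nat_lit 5) (nat_lit 350) (nat_lit 5) (nat_lit 330) (nat_lit 5) (nat_lit 274) (nat_lit 235) (nat_lit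 211)))) (XT.nd (nat_lit 188) (nat_lit 1092) (nat_lit 0) (XT.nd (nat_lit 94) (nat_lit 1932) (nat_lit 0) (XT.lf (nat_lit 0) (nat_lit 2440998041) (nat_lit 1764) (nat_lit 2687271087) (nat_lit 1848) (nat_lit 2135393988) (nat_lit 308) (nat_lit 5) (nat_lit 329) (nat_lit 5) (nat_lit 330) (nat_lit 5) (nat_lit 275) (nat_lit 235) (nat_lit 210)) (XT.lf (nat_lit 0) (nat_lit 144207504) (nat_lit 1848) (nat_lit 538202782) (nat_lit 1932) (nat_lit 6632193686) (nat_lit 285) (nat_lit 5) (nat_lit 307) (nat_lit 5) (nat_lit 308) (nat_lit 5) (nat_lit 276) (nat_lit 235) (nat_lit 209))) (XT.nd (nat_lit 94) (nat_lit 1092) (nat_lit 0) (XT.lf (nat_lit 0) (nat_lit 3519626760) (nat_lit 1932) (nat_lit 2160086476) (nat_lit 84) (nat_lit 1686855507) (nat_lit 285) (nat_lit 5) (nat_lit 308) (nat_lit 5) (nat_lit 286) (nat_lit 5) (nat_lit 277) (nat_lit 235) (nat_lit 208)) (XT.lf (nat_lit 0) (nat_lit 2941197214) (nat_lit 1092) (nat_lit 3445361422)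 (nat_lit 1176) (nat_lit 1033837578) (nat_lit 272) (nat_lit 5) (nat_lit 285) (nat_lit 5) (nat_lit 286) (nat_lit 5) (nat_lit 278) (nat_lit 235) (nat_lit 207))))))))
noncomputable def xc17 : XT := (XT.nd (nat_lit 2820) (nat_lit 2016) (nat_lit 0) (XT.nd (nat_lit 1410) (nat_lit 7056) (nat_lit 0) (XT.nd (nat_lit 658) (nat_lit 4116) (nat_lit 0) (XT.nd (nat_lit 282) (nat_lit 2688) (nat_lit 0) (XT.nd (nat_lit 94) (nat_lit 924) (nat_lit 0) (XT.lf (nat_lit 0) (nat_lit 649927548) (nat_lit 924) (nat_lit 1128255882) (nat_lit 1008) (nat_lit 5697737901) (nat_lit 260) (nat_lit 5) (nat_lit 271) (nat_lit 5) (nat_lit 272) (nat_lit 5) (nat_lit 279) (nat_lit 235) (nat_lit 206)) (XT.nd (nat_lit 94) (nat_lit 924) (nat_lit 0) (XT.lf (nat_lit 0) (nat_lit 4622663633) (nat_lit 1008) (nat_lit 1648671888) (nat_lit 84) (nat_lit 1261479017) (nat_lit 260) (nat_lit 5) (nat_lit 272) (nat_lit 5) (nat_lit 261) (nat_lit 5) (nat_lit 280)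 (nat_lit 235) (nat_lit 205)) (XT.lf (nat_lit 0) (nat_lit 3628948805) (nat_lit 924) (nat_lit 3879705577) (nat_lit 1008) (nat_lit 82768511) (nat_lit 249) (nat_lit 5) (nat_lit 260) (nat_lit 5) (nat_lit 261) (nat_lit 5) (nat_lit 281) (nat_lit 235) (nat_lit 204)))) (XT.nd (nat_lit 188) (nat_lit 1764) (nat_lit 0) (XT.nd (nat_lit 94) (nat_lit 0) (nat_lit 0) (XT.lf (nat_lit 0) (nat_lit 1337387572) (nat_lit 840) (nat_lit 1396046300) (nat_lit 924) (nat_lit 4918171917) (nat_lit 238) (nat_lit 5) (nat_lit 248) (nat_lit 5) (nat_lit 249) (nat_lit 5) (nat_lit 282) (nat_lit 235) (nat_lit 203)) (XT.lf (nat_lit 0) (nat_lit 5593986114) (nat_lit 924) (nat_lit 967177138) (nat_lit 84) (nat_lit 1152296742) (nat_lit 238) (nat_lit 5) (nat_lit 249) (nat_lit 5) (nat_lit 239) (nat_lit 5) (nat_lit 283) (nat_lit 235) (nat_lit 202))) (XT.nd (nat_lit 94) (nat_lit 840) (nat_lit 0) (XT.lf (nat_lit 0) (nat_lit 719383527) (nat_lit 924)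 (nat_lit 3287554433) (nat_lit 84) (nat_lit 3769857267) (nat_lit 227) (nat_lit 5) (nat_lit 238) (nat_lit 5) (nat_lit 228) (nat_lit 5) (nat_lit 284) (nat_lit 235) (nat_lit 201)) (XT.lf (nat_lit 0) (nat_lit 2197072783) (nat_lit 840) (nat_lit 1362778370) (nat_lit 924) (nat_lit 4281985440) (nat_lit 217) (nat_lit 5) (nat_lit 227) (nat_lit 5) (nat_lit 228) (nat_lit 5) (nat_lit 285) (nat_lit 235) (nat_lit 200))))) (XT.nd (nat_lit 376) (nat_lit 1680) (nat_lit 0) (XT.nd (nat_lit 188) (nat_lit 1512) (nat_lit 0) (XT.nd (nat_lit 94) (nat_lit 924) (nat_lit 0) (XT.lf (nat_lit 0) (nat_lit 6444999008) (nat_lit 924) (nat_lit 124580275) (nat_lit 84) (nat_lit 1339121409) (nat_lit 217) (nat_lit 5) (nat_lit 228) (nat_lit 5) (nat_lit 218) (nat_lit 5) (nat_lit 286) (nat_lit 235) (nat_lit 199)) (XT.lf (nat_lit 0) (nat_lit 1394783190) (nat_lit 924) (nat_lit 2457666964) (nat_lit 84) (nat_lit 4124394402) (nat_lit 206) (nat_lit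 5) (nat_lit 217) (nat_lit 5) (nat_lit 207) (nat_lit 5) (nat_lit 287) (nat_lit 235) (nat_lit 198))) (XT.nd (nat_lit 94) (nat_lit 756) (nat_lit 0) (XT.lf (nat_lit 0) (nat_lit 3220605380) (nat_lit 756) (nat_lit 1047497276) (nat_lit 840) (nat_lit 3778733644) (nat_lit 197) (nat_lit 5) (nat_lit 206) (nat_lit 5) (nat_lit 207) (nat_lit 5) (nat_lit 288) (nat_lit 235) (nat_lit 197)) (XT.lf (nat_lit 0) (nat_lit 883943793) (nat_lit 756) (nat_lit 6308480773) (nat_lit 840) (nat_lit 926211928) (nat_lit 188) (nat_lit 5) (nat_lit 197) (nat_lit 5) (nat_lit 198) (nat_lit 5) (nat_lit 289) (nat_lit 235) (nat_lit 196)))) (XT.nd (nat_lit 188) (nat_lit 840) (nat_lit 0) (XT.nd (nat_lit 94) (nat_lit 756) (nat_lit 0) (XT.lf (nat_lit 0) (nat_lit 1954500778) (nat_lit 840) (nat_lit 1479998901) (nat_lit 84) (nat_lit 4757335050) (nat_lit 187) (nat_lit 5) (nat_lit 197) (nat_lit 5) (nat_lit 188) (nat_lit 5) (nat_lit 290) (nat_lit 235)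 (nat_lit 195)) (XT.lf (nat_lit 0) (nat_lit 4400663054) (nat_lit 756) (nat_lit 467254633) (nat_lit 840) (nat_lit 3398952123) (nat_lit 178) (nat_lit 5) (nat_lit 187) (nat_lit 5) (nat_lit 188) (nat_lit 5) (nat_lit 291) (nat_lit 235) (nat_lit 194))) (XT.nd (nat_lit 94) (nat_lit 84) (nat_lit 0) (XT.lf (nat_lit 0) (nat_lit 2042709883) (nat_lit 756) (nat_lit 5798741994) (nat_lit 840) (nat_lit 502191300) (nat_lit 169) (nat_lit 5) (nat_lit 178) (nat_lit 5) (nat_lit 179) (nat_lit 5) (nat_lit 292) (nat_lit 235) (nat_lit 193)) (XT.lf (nat_lit 0) (nat_lit 2407521151) (nat_lit 840) (nat_lit 361356763) (nat_lit 84) (nat_lit 5653180536) (nat_lit 168) (nat_lit 5) (nat_lit 178) (nat_lit 5) (nat_lit 169) (nat_lit 5) (nat_lit 293) (nat_lit 235) (nat_lit 192)))))) (XT.nd (nat_lit 658) (nat_lit 3612) (nat_lit 0) (XT.nd (nat_lit 282) (nat_lit 1344) (nat_lit 0) (XT.nd (nat_lit 94) (nat_lit 1428) (nat_lit 0) (XT.lf (nat_lit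 0) (nat_lit 5370748386) (nat_lit 756) (nat_lit 2773922578) (nat_lit 84) (nat_lit 357515810) (nat_lit 160) (nat_lit 5) (nat_lit 169) (nat_lit 5) (nat_lit 161) (nat_lit 5) (nat_lit 294) (nat_lit 235) (nat_lit 191)) (XT.nd (nat_lit 94) (nat_lit 756) (nat_lit 0) (XT.lf (nat_lit 0) (nat_lit 3343822710) (nat_lit 672) (nat_lit 5056019420) (nat_lit 756) (nat_lit 184220930) (nat_lit 152) (nat_lit 5) (nat_lit 160) (nat_lit 5) (nat_lit 161) (nat_lit 5) (nat_lit 295) (nat_lit 235) (nat_lit 190)) (XT.lf (nat_lit 0) (nat_lit 905395260) (nat_lit 672) (nat_lit 1863062237) (nat_lit 756) (nat_lit 5899250229) (nat_lit 143) (nat_lit 5) (nat_lit 151) (nat_lit 5) (nat_lit 152) (nat_lit 5) (nat_lit 296) (nat_lit 235) (nat_lit 189)))) (XT.nd (nat_lit 188) (nat_lit 588) (nat_lit 0) (XT.nd (nat_lit 94) (nat_lit 756) (nat_lit 0) (XT.lf (nat_lit 0) (nat_lit 5787099797) (nat_lit 756) (nat_lit 1557579912) (nat_lit 84) (nat_lit 1408401596)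 (nat_lit 143) (nat_lit 5) (nat_lit 152) (nat_lit 5) (nat_lit 144) (nat_lit 5) (nat_lit 297) (nat_lit 235) (nat_lit 188)) (XT.lf (nat_lit 0) (nat_lit 34741322) (nat_lit 756) (nat_lit 4058428991) (nat_lit 84) (nat_lit 4747083429) (nat_lit 134) (nat_lit 5) (nat_lit 143) (nat_lit 5) (nat_lit 135) (nat_lit 5) (nat_lit 298) (nat_lit 235) (nat_lit 187))) (XT.nd (nat_lit 94) (nat_lit 0) (nat_lit 0) (XT.lf (nat_lit 0) (nat_lit 2309331954) (nat_lit 588) (nat_lit 732488747) (nat_lit 672) (nat_lit 5887400244) (nat_lit 127) (nat_lit 5) (nat_lit 134) (nat_lit 5) (nat_lit 135) (nat_lit 5) (nat_lit 299) (nat_lit 235) (nat_lit 186)) (XT.lf (nat_lit 0) (nat_lit 6120910346) (nat_lit 672) (nat_lit 218727006) (nat_lit 84) (nat_lit 2680379277) (nat_lit 127) (nat_lit 5) (nat_lit 135) (nat_lit 5) (nat_lit 128) (nat_lit 5) (nat_lit 300) (nat_lit 235) (nat_lit 185))))) (XT.nd (nat_lit 376) (nat_lit 1680) (nat_lit 0) (XT.nd (nat_lit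 188) (nat_lit 672) (nat_lit 0) (XT.nd (nat_lit 94) (nat_lit 588) (nat_lit 0) (XT.lf (nat_lit 0) (nat_lit 160693336) (nat_lit 672) (nat_lit 2760696243) (nat_lit 84) (nat_lit 6191220075) (nat_lit 119) (nat_lit 5) (nat_lit 127) (nat_lit 5) (nat_lit 120) (nat_lit 5) (nat_lit 301) (nat_lit 235) (nat_lit 184)) (XT.lf (nat_lit 0) (nat_lit 3236021923) (nat_lit 672) (nat_lit 5370582518) (nat_lit 84) (nat_lit 600371423) (nat_lit 112) (nat_lit 5) (nat_lit 120) (nat_lit 5) (nat_lit 113) (nat_lit 5) (nat_lit 302) (nat_lit 235) (nat_lit 183))) (XT.nd (nat_lit 94) (nat_lit 84) (nat_lit 0) (XT.lf (nat_lit 0) (nat_lit 1256605949) (nat_lit 588) (nat_lit 5131135537) (nat_lit 672) (nat_lit 2915484501) (nat_lit 105) (nat_lit 5) (nat_lit 112) (nat_lit 5) (nat_lit 113) (nat_lit 5) (nat_lit 303) (nat_lit 235) (nat_lit 182)) (XT.lf (nat_lit 0) (nat_lit 202353332) (nat_lit 672) (nat_lit 1349840126) (nat_lit 84) (nat_lit 7849408771)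 (nat_lit 104) (nat_lit 5) (nat_lit 112) (nat_lit 5) (nat_lit 105) (nat_lit 5) (nat_lit 304) (nat_lit 235) (nat_lit 181)))) (XT.nd (nat_lit 188) (nat_lit 588) (nat_lit 0) (XT.nd (nat_lit 94) (nat_lit 588) (nat_lit 0) (XT.lf (nat_lit 0) (nat_lit 3359424482) (nat_lit 588) (nat_lit 4020764228) (nat_lit 84) (nat_lit 2121188843) (nat_lit 98) (nat_lit 5) (nat_lit 105) (nat_lit 5) (nat_lit 99) (nat_lit 5) (nat_lit 305) (nat_lit 235) (nat_lit 180)) (XT.lf (nat_lit 0) (nat_lit 2851765079) (nat_lit 588) (nat_lit 3735295897) (nat_lit 672) (nat_lit 3016262543) (nat_lit 91) (nat_lit 5) (nat_lit 98) (nat_lit 5) (nat_lit 99) (nat_lit 5) (nat_lit 306) (nat_lit 235) (nat_lit 179))) (XT.nd (nat_lit 94) (nat_lit 0) (nat_lit 0) (XT.lf (nat_lit 0) (nat_lit 166459756) (nat_lit 588) (nat_lit 9534532566) (nat_lit 84) (nat_lit 6693721) (nat_lit 84) (nat_lit 5) (nat_lit 91) (nat_lit 5) (nat_lit 85) (nat_lit 5) (nat_lit 307) (nat_lit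 235) (nat_lit 178)) (XT.lf (nat_lit 0) (nat_lit 3412217671) (nat_lit 588) (nat_lit 2568558997) (nat_lit 84) (nat_lit 3832261657) (nat_lit 84) (nat_lit 5) (nat_lit 91) (nat_lit 5) (nat_lit 85) (nat_lit 5) (nat_lit 308) (nat_lit 235) (nat_lit 177))))))) (XT.nd (nat_lit 40420) (nat_lit 0) (nat_lit 24360) (XT.nd (nat_lit 39668) (nat_lit 0) (nat_lit 37044) (XT.nd (nat_lit 282) (nat_lit 924) (nat_lit 0) (XT.nd (nat_lit 94) (nat_lit 588) (nat_lit 0) (XT.lf (nat_lit 0) (nat_lit 4560736466) (nat_lit 504) (nat_lit 2161984465) (nat_lit 588) (nat_lit 3198133976) (nat_lit 78) (nat_lit 5) (nat_lit 84) (nat_lit 5) (nat_lit 85) (nat_lit 5) (nat_lit 309) (nat_lit 235) (nat_lit 176)) (XT.nd (nat_lit 94) (nat_lit 0) (nat_lit 0) (XT.lf (nat_lit 0) (nat_lit 79574943) (nat_lit 588) (nat_lit 8219270065) (nat_lit 84) (nat_lit 1732062532) (nat_lit 71) (nat_lit 5) (nat_lit 78) (nat_lit 5) (nat_lit 72) (nat_lit 5) (nat_lit 310)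 (nat_lit 235) (nat_lit 175)) (XT.lf (nat_lit 0) (nat_lit 3399279495) (nat_lit 588) (nat_lit 1016704563) (nat_lit 84) (nat_lit 5726511885) (nat_lit 71) (nat_lit 5) (nat_lit 78) (nat_lit 5) (nat_lit 72) (nat_lit 5) (nat_lit 311) (nat_lit 235) (nat_lit 174)))) (XT.nd (nat_lit 39198) (nat_lit 0) (nat_lit 40320) (XT.nd (nat_lit 94) (nat_lit 420) (nat_lit 0) (XT.lf (nat_lit 0) (nat_lit 6381325718) (nat_lit 504) (nat_lit 418323402) (nat_lit 588) (nat_lit 3456722274) (nat_lit 65) (nat_lit 5) (nat_lit 71) (nat_lit 5) (nat_lit 72) (nat_lit 5) (nat_lit 312) (nat_lit 235) (nat_lit 173)) (XT.lf (nat_lit 0) (nat_lit 3554522090) (nat_lit 420) (nat_lit 6741791795) (nat_lit 504) (nat_lit 75965507) (nat_lit 60) (nat_lit 5) (nat_lit 65) (nat_lit 5) (nat_lit 66) (nat_lit 5) (nat_lit 313) (nat_lit 235) (nat_lit 172))) (XT.nd (nat_lit 94) (nat_lit 0) (nat_lit 0) (XT.lf (nat_lit 0) (nat_lit 422689656) (nat_lit 420) (nat_lit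 2394044147) (nat_lit 0) (nat_lit 422689656) (nat_lit 540) (nat_lit 5) (nat_lit 545) (nat_lit 4) (nat_lit 540) (nat_lit 4) (nat_lit 248) (nat_lit 236) (nat_lit 236)) (XT.lf (nat_lit 0) (nat_lit 4067936626) (nat_lit 420) (nat_lit 1118909392) (nat_lit 0) (nat_lit 1301855878) (nat_lit 540) (nat_lit 5) (nat_lit 545) (nat_lit 4) (nat_lit 540) (nat_lit 4) (nat_lit 249) (nat_lit 236) (nat_lit 235))))) (XT.nd (nat_lit 376) (nat_lit 1596) (nat_lit 0) (XT.nd (nat_lit 188) (nat_lit 1176) (nat_lit 0) (XT.nd (nat_lit 94) (nat_lit 0) (nat_lit 0) (XT.lf (nat_lit 0) (nat_lit 782088596) (nat_lit 504) (nat_lit 3891234543) (nat_lit 84) (nat_lit 1826813638) (nat_lit 534) (nat_lit 5) (nat_lit 540) (nat_lit 5) (nat_lit 535) (nat_lit 4) (nat_lit 250) (nat_lit 236) (nat_lit 234)) (XT.lf (nat_lit 0) (nat_lit 3942717613) (nat_lit 504) (nat_lit 148717558) (nat_lit 84) (nat_lit 2421695531) (nat_lit 534) (nat_lit 5) (nat_lit 540)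 (nat_lit 5) (nat_lit 535) (nat_lit 4) (nat_lit 251) (nat_lit 236) (nat_lit 233))) (XT.nd (nat_lit 94) (nat_lit 588) (nat_lit 0) (XT.lf (nat_lit 0) (nat_lit 579381328) (nat_lit 588) (nat_lit 2856436675) (nat_lit 84) (nat_lit 3091762284) (nat_lit 527) (nat_lit 5) (nat_lit 534) (nat_lit 5) (nat_lit 528) (nat_lit 5) (nat_lit 252) (nat_lit 236) (nat_lit 232)) (XT.lf (nat_lit 0) (nat_lit 975802883) (nat_lit 588) (nat_lit 2710169416) (nat_lit 672) (nat_lit 2857606360) (nat_lit 520) (nat_lit 5) (nat_lit 527) (nat_lit 5) (nat_lit 528) (nat_lit 5) (nat_lit 253) (nat_lit 236) (nat_lit 231)))) (XT.nd (nat_lit 188) (nat_lit 840) (nat_lit 0) (XT.nd (nat_lit 94) (nat_lit 672) (nat_lit 0) (XT.lf (nat_lit 0) (nat_lit 235980172) (nat_lit 672) (nat_lit 1682023289) (nat_lit 84) (nat_lit 4643212979) (nat_lit 519) (nat_lit 5) (nat_lit 527) (nat_lit 5) (nat_lit 520) (nat_lit 5) (nat_lit 254) (nat_lit 236) (nat_lit 230)) (XT.lf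 (nat_lit 0) (nat_lit 2246687849) (nat_lit 672) (nat_lit 1044724457) (nat_lit 756) (nat_lit 3288783555) (nat_lit 511) (nat_lit 5) (nat_lit 519) (nat_lit 5) (nat_lit 520) (nat_lit 5) (nat_lit 255) (nat_lit 236) (nat_lit 229))) (XT.nd (nat_lit 94) (nat_lit 840) (nat_lit 0) (XT.lf (nat_lit 0) (nat_lit 6233258677) (nat_lit 672) (nat_lit 114419319) (nat_lit 756) (nat_lit 253375325) (nat_lit 511) (nat_lit 5) (nat_lit 519) (nat_lit 5) (nat_lit 520) (nat_lit 5) (nat_lit 256) (nat_lit 236) (nat_lit 228)) (XT.lf (nat_lit 0) (nat_lit 2762670682) (nat_lit 840) (nat_lit 2965552134) (nat_lit 84) (nat_lit 894692791) (nat_lit 501) (nat_lit 5) (nat_lit 511) (nat_lit 5) (nat_lit 502) (nat_lit 5) (nat_lit 257) (nat_lit 236) (nat_lit 227)))))) (XT.nd (nat_lit 658) (nat_lit 8568) (nat_lit 0) (XT.nd (nat_lit 282) (nat_lit 2268) (nat_lit 0) (XT.nd (nat_lit 94) (nat_lit 1008) (nat_lit 0) (XT.lf (nat_lit 0) (nat_lit 1089230554)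 (nat_lit 840) (nat_lit 4687219901) (nat_lit 924) (nat_lit 870195399) (nat_lit 491) (nat_lit 5) (nat_lit 501) (nat_lit 5) (nat_lit 502) (nat_lit 5) (nat_lit 258) (nat_lit 236) (nat_lit 226)) (XT.nd (nat_lit 94) (nat_lit 924) (nat_lit 0) (XT.lf (nat_lit 0) (nat_lit 2100706421) (nat_lit 924) (nat_lit 1464469701) (nat_lit 84) (nat_lit 3106555402) (nat_lit 490) (nat_lit 5) (nat_lit 501) (nat_lit 5) (nat_lit 491) (nat_lit 5) (nat_lit 259) (nat_lit 236) (nat_lit 225)) (XT.lf (nat_lit 0) (nat_lit 2696389583) (nat_lit 924) (nat_lit 2373089000) (nat_lit 1008) (nat_lit 1628954090) (nat_lit 479) (nat_lit 5) (nat_lit 490) (nat_lit 5) (nat_lit 491) (nat_lit 5) (nat_lit 260) (nat_lit 236) (nat_lit 224)))) (XT.nd (nat_lit 188) (nat_lit 1176) (nat_lit 0) (XT.nd (nat_lit 94) (nat_lit 0) (nat_lit 0) (XT.lf (nat_lit 0) (nat_lit 182605472) (nat_lit 1008) (nat_lit 1114376101) (nat_lit 1092) (nat_lit 5429866095) (nat_lit 466)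 (nat_lit 5) (nat_lit 478) (nat_lit 5) (nat_lit 479) (nat_lit 5) (nat_lit 261) (nat_lit 236) (nat_lit 223)) (XT.lf (nat_lit 0) (nat_lit 4222405224) (nat_lit 1092) (nat_lit 2306063875) (nat_lit 84) (nat_lit 228057695) (nat_lit 466) (nat_lit 5) (nat_lit 479) (nat_lit 5) (nat_lit 467) (nat_lit 5) (nat_lit 262) (nat_lit 236) (nat_lit 222))) (XT.nd (nat_lit 94) (nat_lit 0) (nat_lit 0) (XT.lf (nat_lit 0) (nat_lit 370787364) (nat_lit 1176) (nat_lit 4800080476) (nat_lit 84) (nat_lit 1616989517) (nat_lit 452) (nat_lit 5) (nat_lit 466) (nat_lit 5) (nat_lit 453) (nat_lit 5) (nat_lit 263) (nat_lit 236) (nat_lit 221)) (XT.lf (nat_lit 0) (nat_lit 3249720560) (nat_lit 1176) (nat_lit 483565811) (nat_lit 84) (nat_lit 3087341750) (nat_lit 452) (nat_lit 5) (nat_lit 466) (nat_lit 5) (nat_lit 453) (nat_lit 5) (nat_lit 264) (nat_lit 236) (nat_lit 220))))) (XT.nd (nat_lit 376) (nat_lit 4620) (nat_lit 0) (XT.nd (nat_lit 188)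 (nat_lit 1428) (nat_lit 0) (XT.nd (nat_lit 94) (nat_lit 1344) (nat_lit 0) (XT.lf (nat_lit 0) (nat_lit 3929703546) (nat_lit 1176) (nat_lit 2222041476) (nat_lit 1260) (nat_lit 703260214) (nat_lit 438) (nat_lit 5) (nat_lit 452) (nat_lit 5) (nat_lit 453) (nat_lit 5) (nat_lit 265) (nat_lit 236) (nat_lit 219)) (XT.lf (nat_lit 0) (nat_lit 1507647699) (nat_lit 1260) (nat_lit 634437003) (nat_lit 1344) (nat_lit 4748877651) (nat_lit 422) (nat_lit 5) (nat_lit 437) (nat_lit 5) (nat_lit 438) (nat_lit 5) (nat_lit 266) (nat_lit 236) (nat_lit 218))) (XT.nd (nat_lit 94) (nat_lit 1428) (nat_lit 0) (XT.lf (nat_lit 0) (nat_lit 5001979976) (nat_lit 1344) (nat_lit 914286896) (nat_lit 84) (nat_lit 1012160314) (nat_lit 422) (nat_lit 5) (nat_lit 438) (nat_lit 5) (nat_lit 423) (nat_lit 5) (nat_lit 267) (nat_lit 236) (nat_lit 217)) (XT.lf (nat_lit 0) (nat_lit 909546879) (nat_lit 1428) (nat_lit 3328429947) (nat_lit 84) (nat_lit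 2729353350) (nat_lit 405) (nat_lit 5) (nat_lit 422) (nat_lit 5) (nat_lit 406) (nat_lit 5) (nat_lit 268) (nat_lit 236) (nat_lit 216)))) (XT.nd (nat_lit 188) (nat_lit 3192) (nat_lit 0) (XT.nd (nat_lit 94) (nat_lit 0) (nat_lit 0) (XT.lf (nat_lit 0) (nat_lit 1246985098) (nat_lit 1428) (nat_lit 2483751608) (nat_lit 1512) (nat_lit 3277118241) (nat_lit 388) (nat_lit 5) (nat_lit 405) (nat_lit 5) (nat_lit 406) (nat_lit 5) (nat_lit 269) (nat_lit 236) (nat_lit 215)) (XT.lf (nat_lit 0) (nat_lit 5917299851) (nat_lit 1428) (nat_lit 657747900) (nat_lit 1512) (nat_lit 475080299) (nat_lit 388) (nat_lit 5) (nat_lit 405) (nat_lit 5) (nat_lit 406) (nat_lit 5) (nat_lit 270) (nat_lit 236) (nat_lit 214))) (XT.nd (nat_lit 94) (nat_lit 1596) (nat_lit 0) (XT.lf (nat_lit 0) (nat_lit 2326029379) (nat_lit 1596) (nat_lit 3526408677) (nat_lit 84) (nat_lit 1241138517) (nat_lit 369) (nat_lit 5) (nat_lit 388) (nat_lit 5) (nat_lit 370)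 (nat_lit 5) (nat_lit 271) (nat_lit 236) (nat_lit 213)) (XT.lf (nat_lit 0) (nat_lit 1202500477) (nat_lit 1596) (nat_lit 3939443869) (nat_lit 1680) (nat_lit 1996836699) (nat_lit 350) (nat_lit 5) (nat_lit 369) (nat_lit 5) (nat_lit 370) (nat_lit 5) (nat_lit 272) (nat_lit 236) (nat_lit 212))))))))
noncomputable def xc18 : XT := (XT.nd (nat_lit 2820) (nat_lit 3948) (nat_lit 0) (XT.nd (nat_lit 1410) (nat_lit 7896) (nat_lit 0) (XT.nd (nat_lit 658) (nat_lit 5460) (nat_lit 0) (XT.nd (nat_lit 282) (nat_lit 3108) (nat_lit 0) (XT.nd (nat_lit 94) (nat_lit 3444) (nat_lit 0) (XT.lf (nat_lit 0) (nat_lit 787920784) (nat_lit 1680) (nat_lit 1159114715) (nat_lit 84) (nat_lit 5238581147) (nat_lit 349) (nat_lit 5) (nat_lit 369) (nat_lit 5) (nat_lit 350) (nat_lit 5) (nat_lit 273) (nat_lit 236) (nat_lit 211)) (XT.nd (nat_lit 94) (nat_lit 1764) (nat_lit 0) (XT.lf (nat_lit 0) (nat_lit 3572110725) (nat_lit 1764) (nat_lit 3528328632)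 (nat_lit 84) (nat_lit 133437114) (nat_lit 329) (nat_lit 5) (nat_lit 350) (nat_lit 5) (nat_lit 330) (nat_lit 5) (nat_lit 274) (nat_lit 236) (nat_lit 210)) (XT.lf (nat_lit 0) (nat_lit 1360506951) (nat_lit 1764) (nat_lit 5030652355) (nat_lit 1848) (nat_lit 892619361) (nat_lit 308) (nat_lit 5) (nat_lit 329) (nat_lit 5) (nat_lit 330) (nat_lit 5) (nat_lit 275) (nat_lit 236) (nat_lit 209)))) (XT.nd (nat_lit 188) (nat_lit 1176) (nat_lit 0) (XT.nd (nat_lit 94) (nat_lit 1848) (nat_lit 0) (XT.lf (nat_lit 0) (nat_lit 1877357405) (nat_lit 1848) (nat_lit 995436262) (nat_lit 84) (nat_lit 4462389507) (nat_lit 307) (nat_lit 5) (nat_lit 329) (nat_lit 5) (nat_lit 308) (nat_lit 5) (nat_lit 276) (nat_lit 236) (nat_lit 208)) (XT.lf (nat_lit 0) (nat_lit 4036846847) (nat_lit 1848) (nat_lit 629864196) (nat_lit 1932) (nat_lit 2721489886) (nat_lit 285) (nat_lit 5) (nat_lit 307) (nat_lit 5) (nat_lit 308) (nat_lit 5) (nat_lit 277)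 (nat_lit 236) (nat_lit 207))) (XT.nd (nat_lit 94) (nat_lit 0) (nat_lit 0) (XT.lf (nat_lit 0) (nat_lit 48869840) (nat_lit 1176) (nat_lit 5734542007) (nat_lit 84) (nat_lit 1659513549) (nat_lit 271) (nat_lit 5) (nat_lit 285) (nat_lit 5) (nat_lit 272) (nat_lit 5) (nat_lit 278) (nat_lit 236) (nat_lit 206)) (XT.lf (nat_lit 0) (nat_lit 2813713076) (nat_lit 1176) (nat_lit 650263816) (nat_lit 84) (nat_lit 4035021924) (nat_lit 271) (nat_lit 5) (nat_lit 285) (nat_lit 5) (nat_lit 272) (nat_lit 5) (nat_lit 279) (nat_lit 236) (nat_lit 205))))) (XT.nd (nat_lit 376) (nat_lit 2688) (nat_lit 0) (XT.nd (nat_lit 188) (nat_lit 840) (nat_lit 0) (XT.nd (nat_lit 94) (nat_lit 1008) (nat_lit 0) (XT.lf (nat_lit 0) (nat_lit 4555846442) (nat_lit 924) (nat_lit 1061268891) (nat_lit 1008) (nat_lit 1939680406) (nat_lit 260) (nat_lit 5) (nat_lit 271) (nat_lit 5) (nat_lit 272) (nat_lit 5) (nat_lit 280) (nat_lit 236) (nat_lit 204)) (XT.lf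 (nat_lit 0) (nat_lit 830435838) (nat_lit 1008) (nat_lit 5386106396) (nat_lit 84) (nat_lit 1399701316) (nat_lit 248) (nat_lit 5) (nat_lit 260) (nat_lit 5) (nat_lit 249) (nat_lit 5) (nat_lit 281) (nat_lit 236) (nat_lit 203))) (XT.nd (nat_lit 94) (nat_lit 840) (nat_lit 0) (XT.lf (nat_lit 0) (nat_lit 3609426181) (nat_lit 1008) (nat_lit 134183508) (nat_lit 84) (nat_lit 3933596224) (nat_lit 248) (nat_lit 5) (nat_lit 260) (nat_lit 5) (nat_lit 249) (nat_lit 5) (nat_lit 282) (nat_lit 236) (nat_lit 202)) (XT.lf (nat_lit 0) (nat_lit 5253378546) (nat_lit 840) (nat_lit 1181180358) (nat_lit 924) (nat_lit 1305280443) (nat_lit 238) (nat_lit 5) (nat_lit 248) (nat_lit 5) (nat_lit 249) (nat_lit 5) (nat_lit 283) (nat_lit 236) (nat_lit 201)))) (XT.nd (nat_lit 188) (nat_lit 924) (nat_lit 0) (XT.nd (nat_lit 94) (nat_lit 840) (nat_lit 0) (XT.lf (nat_lit 0) (nat_lit 1476415399) (nat_lit 924) (nat_lit 4881586736) (nat_lit 84)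 (nat_lit 1446044414) (nat_lit 227) (nat_lit 5) (nat_lit 238) (nat_lit 5) (nat_lit 228) (nat_lit 5) (nat_lit 284) (nat_lit 236) (nat_lit 200)) (XT.lf (nat_lit 0) (nat_lit 551333184) (nat_lit 840) (nat_lit 3728425228) (nat_lit 924) (nat_lit 3590146244) (nat_lit 217) (nat_lit 5) (nat_lit 227) (nat_lit 5) (nat_lit 228) (nat_lit 5) (nat_lit 285) (nat_lit 236) (nat_lit 199))) (XT.nd (nat_lit 94) (nat_lit 924) (nat_lit 0) (XT.lf (nat_lit 0) (nat_lit 6120470997) (nat_lit 840) (nat_lit 1009704145) (nat_lit 924) (nat_lit 807357697) (nat_lit 217) (nat_lit 5) (nat_lit 227) (nat_lit 5) (nat_lit 228) (nat_lit 5) (nat_lit 286) (nat_lit 236) (nat_lit 198)) (XT.lf (nat_lit 0) (nat_lit 1997247075) (nat_lit 924) (nat_lit 4229868938) (nat_lit 84) (nat_lit 1779435221) (nat_lit 206) (nat_lit 5) (nat_lit 217) (nat_lit 5) (nat_lit 207) (nat_lit 5) (nat_lit 287) (nat_lit 236) (nat_lit 197)))))) (XT.nd (nat_lit 658) (nat_lit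 4032) (nat_lit 0) (XT.nd (nat_lit 282) (nat_lit 2268) (nat_lit 0) (XT.nd (nat_lit 94) (nat_lit 840) (nat_lit 0) (XT.lf (nat_lit 0) (nat_lit 1394219050) (nat_lit 756) (nat_lit 3438960878) (nat_lit 840) (nat_lit 3244185554) (nat_lit 197) (nat_lit 5) (nat_lit 206) (nat_lit 5) (nat_lit 207) (nat_lit 5) (nat_lit 288) (nat_lit 236) (nat_lit 196)) (XT.nd (nat_lit 94) (nat_lit 840) (nat_lit 0) (XT.lf (nat_lit 0) (nat_lit 7149247695) (nat_lit 756) (nat_lit 564871280) (nat_lit 840) (nat_lit 436001127) (nat_lit 197) (nat_lit 5) (nat_lit 206) (nat_lit 5) (nat_lit 207) (nat_lit 5) (nat_lit 289) (nat_lit 236) (nat_lit 195)) (XT.lf (nat_lit 0) (nat_lit 2402411919) (nat_lit 840) (nat_lit 3438826134) (nat_lit 84) (nat_lit 2382778720) (nat_lit 187) (nat_lit 5) (nat_lit 197) (nat_lit 5) (nat_lit 188) (nat_lit 5) (nat_lit 290) (nat_lit 236) (nat_lit 194)))) (XT.nd (nat_lit 188) (nat_lit 1512) (nat_lit 0) (XT.nd (nat_lit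 94) (nat_lit 0) (nat_lit 0) (XT.lf (nat_lit 0) (nat_lit 2385088542) (nat_lit 756) (nat_lit 2892968923) (nat_lit 840) (nat_lit 3021825358) (nat_lit 178) (nat_lit 5) (nat_lit 187) (nat_lit 5) (nat_lit 188) (nat_lit 5) (nat_lit 291) (nat_lit 236) (nat_lit 193)) (XT.lf (nat_lit 0) (nat_lit 8196624666) (nat_lit 840) (nat_lit 46013419) (nat_lit 84) (nat_lit 135227379) (nat_lit 178) (nat_lit 5) (nat_lit 188) (nat_lit 5) (nat_lit 179) (nat_lit 5) (nat_lit 292) (nat_lit 236) (nat_lit 192))) (XT.nd (nat_lit 94) (nat_lit 672) (nat_lit 0) (XT.lf (nat_lit 0) (nat_lit 2700510466) (nat_lit 840) (nat_lit 2515392917) (nat_lit 84) (nat_lit 3240840505) (nat_lit 168) (nat_lit 5) (nat_lit 178) (nat_lit 5) (nat_lit 169) (nat_lit 5) (nat_lit 293) (nat_lit 236) (nat_lit 191)) (XT.lf (nat_lit 0) (nat_lit 3517466654) (nat_lit 672) (nat_lit 2105412000) (nat_lit 756) (nat_lit 2914892456) (nat_lit 160) (nat_lit 5) (nat_lit 168)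 (nat_lit 5) (nat_lit 169) (nat_lit 5) (nat_lit 294) (nat_lit 236) (nat_lit 190))))) (XT.nd (nat_lit 376) (nat_lit 1848) (nat_lit 0) (XT.nd (nat_lit 188) (nat_lit 1428) (nat_lit 0) (XT.nd (nat_lit 94) (nat_lit 84) (nat_lit 0) (XT.lf (nat_lit 0) (nat_lit 1051648470) (nat_lit 672) (nat_lit 7546744105) (nat_lit 756) (nat_lit 22433578) (nat_lit 152) (nat_lit 5) (nat_lit 160) (nat_lit 5) (nat_lit 161) (nat_lit 5) (nat_lit 295) (nat_lit 236) (nat_lit 189)) (XT.lf (nat_lit 0) (nat_lit 2899333165) (nat_lit 756) (nat_lit 1465632888) (nat_lit 84) (nat_lit 4340108204) (nat_lit 151) (nat_lit 5) (nat_lit 160) (nat_lit 5) (nat_lit 152) (nat_lit 5) (nat_lit 296) (nat_lit 236) (nat_lit 188))) (XT.nd (nat_lit 94) (nat_lit 756) (nat_lit 0) (XT.lf (nat_lit 0) (nat_lit 4785761732) (nat_lit 672) (nat_lit 1089589178) (nat_lit 756) (nat_lit 2916034664) (nat_lit 143) (nat_lit 5) (nat_lit 151) (nat_lit 5) (nat_lit 152) (nat_lit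 5) (nat_lit 297) (nat_lit 236) (nat_lit 187)) (XT.lf (nat_lit 0) (nat_lit 36606105) (nat_lit 756) (nat_lit 6601657158) (nat_lit 84) (nat_lit 2241328902) (nat_lit 134) (nat_lit 5) (nat_lit 143) (nat_lit 5) (nat_lit 135) (nat_lit 5) (nat_lit 298) (nat_lit 236) (nat_lit 186)))) (XT.nd (nat_lit 188) (nat_lit 1260) (nat_lit 0) (XT.nd (nat_lit 94) (nat_lit 588) (nat_lit 0) (XT.lf (nat_lit 0) (nat_lit 3005924771) (nat_lit 756) (nat_lit 294800061) (nat_lit 84) (nat_lit 5668665271) (nat_lit 134) (nat_lit 5) (nat_lit 143) (nat_lit 5) (nat_lit 135) (nat_lit 5) (nat_lit 299) (nat_lit 236) (nat_lit 185)) (XT.lf (nat_lit 0) (nat_lit 6043481052) (nat_lit 672) (nat_lit 2876933336) (nat_lit 84) (nat_lit 140685133) (nat_lit 127) (nat_lit 5) (nat_lit 135) (nat_lit 5) (nat_lit 128) (nat_lit 5) (nat_lit 300) (nat_lit 236) (nat_lit 184))) (XT.nd (nat_lit 94) (nat_lit 588) (nat_lit 0) (XT.lf (nat_lit 0) (nat_lit 3548773) (nat_lit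 672) (nat_lit 5526235403) (nat_lit 84) (nat_lit 3624814407) (nat_lit 119) (nat_lit 5) (nat_lit 127) (nat_lit 5) (nat_lit 120) (nat_lit 5) (nat_lit 301) (nat_lit 236) (nat_lit 183)) (XT.lf (nat_lit 0) (nat_lit 1007110988) (nat_lit 588) (nat_lit 2026706117) (nat_lit 672) (nat_lit 6216139013) (nat_lit 112) (nat_lit 5) (nat_lit 119) (nat_lit 5) (nat_lit 120) (nat_lit 5) (nat_lit 302) (nat_lit 236) (nat_lit 182))))))) (XT.nd (nat_lit 40232) (nat_lit 0) (nat_lit 32508) (XT.nd (nat_lit 658) (nat_lit 1092) (nat_lit 0) (XT.nd (nat_lit 282) (nat_lit 1680) (nat_lit 0) (XT.nd (nat_lit 94) (nat_lit 1176) (nat_lit 0) (XT.lf (nat_lit 0) (nat_lit 6141812492) (nat_lit 672) (nat_lit 1646881847) (nat_lit 84) (nat_lit 1558473835) (nat_lit 112) (nat_lit 5) (nat_lit 120) (nat_lit 5) (nat_lit 113) (nat_lit 5) (nat_lit 303) (nat_lit 236) (nat_lit 181)) (XT.nd (nat_lit 94) (nat_lit 588) (nat_lit 0) (XT.lf (nat_lit 0) (nat_lit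 5098338414) (nat_lit 588) (nat_lit 4230681369) (nat_lit 672) (nat_lit 117260721) (nat_lit 105) (nat_lit 5) (nat_lit 112) (nat_lit 5) (nat_lit 113) (nat_lit 5) (nat_lit 304) (nat_lit 236) (nat_lit 180)) (XT.lf (nat_lit 0) (nat_lit 2427753957) (nat_lit 504) (nat_lit 556752910) (nat_lit 588) (nat_lit 6562821172) (nat_lit 98) (nat_lit 5) (nat_lit 104) (nat_lit 5) (nat_lit 105) (nat_lit 5) (nat_lit 305) (nat_lit 236) (nat_lit 179)))) (XT.nd (nat_lit 188) (nat_lit 1092) (nat_lit 0) (XT.nd (nat_lit 94) (nat_lit 588) (nat_lit 0) (XT.lf (nat_lit 0) (nat_lit 6168242505) (nat_lit 588) (nat_lit 311400245) (nat_lit 84) (nat_lit 3170597074) (nat_lit 98) (nat_lit 5) (nat_lit 105) (nat_lit 5) (nat_lit 99) (nat_lit 5) (nat_lit 306) (nat_lit 236) (nat_lit 178)) (XT.lf (nat_lit 0) (nat_lit 6684876594) (nat_lit 588) (nat_lit 2749994830) (nat_lit 672) (nat_lit 320261520) (nat_lit 91) (nat_lit 5) (nat_lit 98) (nat_lit 5)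 (nat_lit 99) (nat_lit 5) (nat_lit 307) (nat_lit 236) (nat_lit 177))) (XT.nd (nat_lit 94) (nat_lit 504) (nat_lit 0) (XT.lf (nat_lit 0) (nat_lit 2868807722) (nat_lit 588) (nat_lit 5910246652) (nat_lit 84) (nat_lit 1082829673) (nat_lit 84) (nat_lit 5) (nat_lit 91) (nat_lit 5) (nat_lit 85) (nat_lit 5) (nat_lit 308) (nat_lit 236) (nat_lit 176)) (XT.lf (nat_lit 0) (nat_lit 1142906554) (nat_lit 504) (nat_lit 4993113907) (nat_lit 588) (nat_lit 3834632559) (nat_lit 78) (nat_lit 5) (nat_lit 84) (nat_lit 5) (nat_lit 85) (nat_lit 5) (nat_lit 309) (nat_lit 236) (nat_lit 175))))) (XT.nd (nat_lit 39198) (nat_lit 0) (nat_lit 39816) (XT.nd (nat_lit 188) (nat_lit 504) (nat_lit 0) (XT.nd (nat_lit 94) (nat_lit 588) (nat_lit 0) (XT.lf (nat_lit 0) (nat_lit 8385471599) (nat_lit 504) (nat_lit 1095429267) (nat_lit 588) (nat_lit 600786688) (nat_lit 78) (nat_lit 5) (nat_lit 84) (nat_lit 5) (nat_lit 85) (nat_lit 5) (nat_lit 310)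 (nat_lit 236) (nat_lit 174)) (XT.lf (nat_lit 0) (nat_lit 2688713452) (nat_lit 588) (nat_lit 4615376700) (nat_lit 84) (nat_lit 2890134821) (nat_lit 71) (nat_lit 5) (nat_lit 78) (nat_lit 5) (nat_lit 72) (nat_lit 5) (nat_lit 311) (nat_lit 236) (nat_lit 173))) (XT.nd (nat_lit 94) (nat_lit 0) (nat_lit 0) (XT.lf (nat_lit 0) (nat_lit 2703107180) (nat_lit 504) (nat_lit 3341471470) (nat_lit 588) (nat_lit 4264500872) (nat_lit 65) (nat_lit 5) (nat_lit 71) (nat_lit 5) (nat_lit 72) (nat_lit 5) (nat_lit 312) (nat_lit 236) (nat_lit 172)) (XT.lf (nat_lit 0) (nat_lit 9476944989) (nat_lit 588) (nat_lit 233494235) (nat_lit 84) (nat_lit 715962862) (nat_lit 65) (nat_lit 5) (nat_lit 72) (nat_lit 5) (nat_lit 66) (nat_lit 5) (nat_lit 313) (nat_lit 236) (nat_lit 171)))) (XT.nd (nat_lit 188) (nat_lit 420) (nat_lit 0) (XT.nd (nat_lit 94) (nat_lit 84) (nat_lit 0) (XT.lf (nat_lit 0) (nat_lit 471073612) (nat_lit 252) (nat_lit 1380146193)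 (nat_lit 252) (nat_lit 1380146193) (nat_lit 545) (nat_lit 4) (nat_lit 548) (nat_lit 5) (nat_lit 548) (nat_lit 4) (nat_lit 246) (nat_lit 237) (nat_lit 237)) (XT.lf (nat_lit 0) (nat_lit 464288653) (nat_lit 336) (nat_lit 1950335427) (nat_lit 84) (nat_lit 4055786444) (nat_lit 544) (nat_lit 5) (nat_lit 548) (nat_lit 5) (nat_lit 545) (nat_lit 4) (nat_lit 247) (nat_lit 237) (nat_lit 236))) (XT.nd (nat_lit 94) (nat_lit 84) (nat_lit 0) (XT.lf (nat_lit 0) (nat_lit 1649928967) (nat_lit 336) (nat_lit 1992994166) (nat_lit 420) (nat_lit 2836570383) (nat_lit 540) (nat_lit 5) (nat_lit 544) (nat_lit 5) (nat_lit 545) (nat_lit 4) (nat_lit 248) (nat_lit 237) (nat_lit 235)) (XT.lf (nat_lit 0) (nat_lit 324308860) (nat_lit 420) (nat_lit 1186000778) (nat_lit 84) (nat_lit 4980000833) (nat_lit 539) (nat_lit 5) (nat_lit 544) (nat_lit 5) (nat_lit 540) (nat_lit 5) (nat_lit 249) (nat_lit 237) (nat_lit 234)))))) (XT.nd (nat_lit 658)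 (nat_lit 4872) (nat_lit 0) (XT.nd (nat_lit 282) (nat_lit 1428) (nat_lit 0) (XT.nd (nat_lit 94) (nat_lit 588) (nat_lit 0) (XT.lf (nat_lit 0) (nat_lit 2501143040) (nat_lit 420) (nat_lit 944408644) (nat_lit 504) (nat_lit 3056842681) (nat_lit 534) (nat_lit 5) (nat_lit 539) (nat_lit 5) (nat_lit 540) (nat_lit 5) (nat_lit 250) (nat_lit 237) (nat_lit 233)) (XT.nd (nat_lit 94) (nat_lit 504) (nat_lit 0) (XT.lf (nat_lit 0) (nat_lit 43423088) (nat_lit 504) (nat_lit 281168229) (nat_lit 84) (nat_lit 6191796101) (nat_lit 533) (nat_lit 5) (nat_lit 539) (nat_lit 5) (nat_lit 534) (nat_lit 5) (nat_lit 251) (nat_lit 237) (nat_lit 232)) (XT.lf (nat_lit 0) (nat_lit 3112009182) (nat_lit 588) (nat_lit 3037030217) (nat_lit 84) (nat_lit 382366887) (nat_lit 527) (nat_lit 5) (nat_lit 534) (nat_lit 5) (nat_lit 528) (nat_lit 5) (nat_lit 252) (nat_lit 237) (nat_lit 231)))) (XT.nd (nat_lit 188) (nat_lit 756) (nat_lit 0) (XT.nd (nat_lit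 94) (nat_lit 84) (nat_lit 0) (XT.lf (nat_lit 0) (nat_lit 765825948) (nat_lit 588) (nat_lit 5411249313) (nat_lit 672) (nat_lit 371242946) (nat_lit 520) (nat_lit 5) (nat_lit 527) (nat_lit 5) (nat_lit 528) (nat_lit 5) (nat_lit 253) (nat_lit 237) (nat_lit 230)) (XT.lf (nat_lit 0) (nat_lit 2646891647) (nat_lit 672) (nat_lit 1941198567) (nat_lit 84) (nat_lit 1978348221) (nat_lit 519) (nat_lit 5) (nat_lit 527) (nat_lit 5) (nat_lit 520) (nat_lit 5) (nat_lit 254) (nat_lit 237) (nat_lit 229))) (XT.nd (nat_lit 94) (nat_lit 84) (nat_lit 0) (XT.lf (nat_lit 0) (nat_lit 1957170542) (nat_lit 672) (nat_lit 3704303863) (nat_lit 756) (nat_lit 924842137) (nat_lit 511) (nat_lit 5) (nat_lit 519) (nat_lit 5) (nat_lit 520) (nat_lit 5) (nat_lit 255) (nat_lit 237) (nat_lit 228)) (XT.lf (nat_lit 0) (nat_lit 2041752374) (nat_lit 756) (nat_lit 705010977) (nat_lit 84) (nat_lit 3860925029) (nat_lit 510) (nat_lit 5) (nat_lit 519) (nat_lit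 5) (nat_lit 511) (nat_lit 5) (nat_lit 256) (nat_lit 237) (nat_lit 227))))) (XT.nd (nat_lit 376) (nat_lit 2184) (nat_lit 0) (XT.nd (nat_lit 188) (nat_lit 1008) (nat_lit 0) (XT.nd (nat_lit 94) (nat_lit 924) (nat_lit 0) (XT.lf (nat_lit 0) (nat_lit 3293644005) (nat_lit 756) (nat_lit 1713812874) (nat_lit 840) (nat_lit 1623081305) (nat_lit 501) (nat_lit 5) (nat_lit 510) (nat_lit 5) (nat_lit 511) (nat_lit 5) (nat_lit 257) (nat_lit 237) (nat_lit 226)) (XT.lf (nat_lit 0) (nat_lit 683732757) (nat_lit 840) (nat_lit 615675573) (nat_lit 924) (nat_lit 5355699049) (nat_lit 490) (nat_lit 5) (nat_lit 500) (nat_lit 5) (nat_lit 501) (nat_lit 5) (nat_lit 258) (nat_lit 237) (nat_lit 225))) (XT.nd (nat_lit 94) (nat_lit 1008) (nat_lit 0) (XT.lf (nat_lit 0) (nat_lit 4216849326) (nat_lit 924) (nat_lit 1907261184) (nat_lit 84) (nat_lit 556846569) (nat_lit 490) (nat_lit 5) (nat_lit 501) (nat_lit 5) (nat_lit 491) (nat_lit 5) (nat_lit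 259) (nat_lit 237) (nat_lit 224)) (XT.lf (nat_lit 0) (nat_lit 431647780) (nat_lit 1008) (nat_lit 4491335696) (nat_lit 84) (nat_lit 1785467338) (nat_lit 478) (nat_lit 5) (nat_lit 490) (nat_lit 5) (nat_lit 479) (nat_lit 5) (nat_lit 260) (nat_lit 237) (nat_lit 223)))) (XT.nd (nat_lit 188) (nat_lit 1176) (nat_lit 0) (XT.nd (nat_lit 94) (nat_lit 1008) (nat_lit 0) (XT.lf (nat_lit 0) (nat_lit 3297392215) (nat_lit 1008) (nat_lit 347684853) (nat_lit 84) (nat_lit 3092341505) (nat_lit 478) (nat_lit 5) (nat_lit 490) (nat_lit 5) (nat_lit 479) (nat_lit 5) (nat_lit 261) (nat_lit 237) (nat_lit 222)) (XT.lf (nat_lit 0) (nat_lit 3890205392) (nat_lit 1008) (nat_lit 2293594403) (nat_lit 1092) (nat_lit 584156259) (nat_lit 466) (nat_lit 5) (nat_lit 478) (nat_lit 5) (nat_lit 479) (nat_lit 5) (nat_lit 262) (nat_lit 237) (nat_lit 221))) (XT.nd (nat_lit 94) (nat_lit 0) (nat_lit 0) (XT.lf (nat_lit 0) (nat_lit 1377013635) (nat_lit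 1092) (nat_lit 866838408) (nat_lit 1176) (nat_lit 4556202921) (nat_lit 452) (nat_lit 5) (nat_lit 465) (nat_lit 5) (nat_lit 466) (nat_lit 5) (nat_lit 263) (nat_lit 237) (nat_lit 220)) (XT.lf (nat_lit 0) (nat_lit 5082863033) (nat_lit 1176) (nat_lit 1127458236) (nat_lit 84) (nat_lit 623382747) (nat_lit 452) (nat_lit 5) (nat_lit 466) (nat_lit 5) (nat_lit 453) (nat_lit 5) (nat_lit 264) (nat_lit 237) (nat_lit 219))))))))
noncomputable def xc19 : XT := (XT.nd (nat_lit 2820) (nat_lit 7980) (nat_lit 0) (XT.nd (nat_lit 1410) (nat_lit 9324) (nat_lit 0) (XT.nd (nat_lit 658) (nat_lit 8232) (nat_lit 0) (XT.nd (nat_lit 282) (nat_lit 4452) (nat_lit 0) (XT.nd (nat_lit 94) (nat_lit 1260) (nat_lit 0) (XT.lf (nat_lit 0) (nat_lit 1062578770) (nat_lit 1260) (nat_lit 3627102668) (nat_lit 84) (nat_lit 2179063802) (nat_lit 437) (nat_lit 5) (nat_lit 452) (nat_lit 5) (nat_lit 438) (nat_lit 5) (nat_lit 265) (nat_lit 237) (nat_lit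 218)) (XT.nd (nat_lit 94) (nat_lit 0) (nat_lit 0) (XT.lf (nat_lit 0) (nat_lit 763306912) (nat_lit 1260) (nat_lit 3096451107) (nat_lit 1344) (nat_lit 3045670932) (nat_lit 422) (nat_lit 5) (nat_lit 437) (nat_lit 5) (nat_lit 438) (nat_lit 5) (nat_lit 266) (nat_lit 237) (nat_lit 217)) (XT.lf (nat_lit 0) (nat_lit 5250659974) (nat_lit 1260) (nat_lit 1429458795) (nat_lit 1344) (nat_lit 263644775) (nat_lit 422) (nat_lit 5) (nat_lit 437) (nat_lit 5) (nat_lit 438) (nat_lit 5) (nat_lit 267) (nat_lit 237) (nat_lit 216)))) (XT.nd (nat_lit 188) (nat_lit 1596) (nat_lit 0) (XT.nd (nat_lit 94) (nat_lit 1428) (nat_lit 0) (XT.lf (nat_lit 0) (nat_lit 2500636725) (nat_lit 1428) (nat_lit 4163342350) (nat_lit 84) (nat_lit 319477664) (nat_lit 405) (nat_lit 5) (nat_lit 422) (nat_lit 5) (nat_lit 406) (nat_lit 5) (nat_lit 268) (nat_lit 237) (nat_lit 215)) (XT.lf (nat_lit 0) (nat_lit 372438290) (nat_lit 1428) (nat_lit 4911934759)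 (nat_lit 1512) (nat_lit 1740432437) (nat_lit 388) (nat_lit 5) (nat_lit 405) (nat_lit 5) (nat_lit 406) (nat_lit 5) (nat_lit 269) (nat_lit 237) (nat_lit 214))) (XT.nd (nat_lit 94) (nat_lit 1512) (nat_lit 0) (XT.lf (nat_lit 0) (nat_lit 1015348230) (nat_lit 1512) (nat_lit 2059182885) (nat_lit 84) (nat_lit 3993062378) (nat_lit 387) (nat_lit 5) (nat_lit 405) (nat_lit 5) (nat_lit 388) (nat_lit 5) (nat_lit 270) (nat_lit 237) (nat_lit 213)) (XT.lf (nat_lit 0) (nat_lit 2605911672) (nat_lit 1512) (nat_lit 1157520718) (nat_lit 1596) (nat_lit 3348551197) (nat_lit 369) (nat_lit 5) (nat_lit 387) (nat_lit 5) (nat_lit 388) (nat_lit 5) (nat_lit 271) (nat_lit 237) (nat_lit 212))))) (XT.nd (nat_lit 376) (nat_lit 3024) (nat_lit 0) (XT.nd (nat_lit 188) (nat_lit 3528) (nat_lit 0) (XT.nd (nat_lit 94) (nat_lit 84) (nat_lit 0) (XT.lf (nat_lit 0) (nat_lit 189294389) (nat_lit 1596) (nat_lit 6344777247) (nat_lit 1680) (nat_lit 624112490)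 (nat_lit 350) (nat_lit 5) (nat_lit 369) (nat_lit 5) (nat_lit 370) (nat_lit 5) (nat_lit 272) (nat_lit 237) (nat_lit 211)) (XT.lf (nat_lit 0) (nat_lit 2111295960) (nat_lit 1680) (nat_lit 2228932563) (nat_lit 84) (nat_lit 2865226786) (nat_lit 349) (nat_lit 5) (nat_lit 369) (nat_lit 5) (nat_lit 350) (nat_lit 5) (nat_lit 273) (nat_lit 237) (nat_lit 210))) (XT.nd (nat_lit 94) (nat_lit 1848) (nat_lit 0) (XT.lf (nat_lit 0) (nat_lit 2593849451) (nat_lit 1680) (nat_lit 2263805407) (nat_lit 1764) (nat_lit 2396892559) (nat_lit 329) (nat_lit 5) (nat_lit 349) (nat_lit 5) (nat_lit 350) (nat_lit 5) (nat_lit 274) (nat_lit 237) (nat_lit 209)) (XT.lf (nat_lit 0) (nat_lit 197094739) (nat_lit 1764) (nat_lit 117363873) (nat_lit 1848) (nat_lit 6991086204) (nat_lit 307) (nat_lit 5) (nat_lit 328) (nat_lit 5) (nat_lit 329) (nat_lit 5) (nat_lit 275) (nat_lit 237) (nat_lit 208)))) (XT.nd (nat_lit 188) (nat_lit 1176) (nat_lit 0)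 (XT.nd (nat_lit 94) (nat_lit 1848) (nat_lit 0) (XT.lf (nat_lit 0) (nat_lit 3042464557) (nat_lit 1848) (nat_lit 2213639397) (nat_lit 84) (nat_lit 2101345998) (nat_lit 307) (nat_lit 5) (nat_lit 329) (nat_lit 5) (nat_lit 308) (nat_lit 5) (nat_lit 276) (nat_lit 237) (nat_lit 207)) (XT.lf (nat_lit 0) (nat_lit 2773537619) (nat_lit 1848) (nat_lit 3021612204) (nat_lit 1932) (nat_lit 1616124588) (nat_lit 285) (nat_lit 5) (nat_lit 307) (nat_lit 5) (nat_lit 308) (nat_lit 5) (nat_lit 277) (nat_lit 237) (nat_lit 206))) (XT.nd (nat_lit 94) (nat_lit 0) (nat_lit 0) (XT.lf (nat_lit 0) (nat_lit 379957250) (nat_lit 1092) (nat_lit 709350563) (nat_lit 1176) (nat_lit 6377595987) (nat_lit 271) (nat_lit 5) (nat_lit 284) (nat_lit 5) (nat_lit 285) (nat_lit 5) (nat_lit 278) (nat_lit 237) (nat_lit 205)) (XT.lf (nat_lit 0) (nat_lit 3822035913) (nat_lit 1176) (nat_lit 2025133164) (nat_lit 84) (nat_lit 1676514676) (nat_lit 271) (nat_lit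 5) (nat_lit 285) (nat_lit 5) (nat_lit 272) (nat_lit 5) (nat_lit 279) (nat_lit 237) (nat_lit 204)))))) (XT.nd (nat_lit 658) (nat_lit 4788) (nat_lit 0) (XT.nd (nat_lit 282) (nat_lit 2604) (nat_lit 0) (XT.nd (nat_lit 94) (nat_lit 1008) (nat_lit 0) (XT.lf (nat_lit 0) (nat_lit 3133566416) (nat_lit 924) (nat_lit 3455260808) (nat_lit 1008) (nat_lit 993458893) (nat_lit 260) (nat_lit 5) (nat_lit 271) (nat_lit 5) (nat_lit 272) (nat_lit 5) (nat_lit 280) (nat_lit 237) (nat_lit 203)) (XT.nd (nat_lit 94) (nat_lit 0) (nat_lit 0) (XT.lf (nat_lit 0) (nat_lit 737198357) (nat_lit 924) (nat_lit 978715972) (nat_lit 1008) (nat_lit 5926707833) (nat_lit 248) (nat_lit 5) (nat_lit 259) (nat_lit 5) (nat_lit 260) (nat_lit 5) (nat_lit 281) (nat_lit 237) (nat_lit 202)) (XT.lf (nat_lit 0) (nat_lit 4462009970) (nat_lit 1008) (nat_lit 1674011245) (nat_lit 84) (nat_lit 1568286993) (nat_lit 248) (nat_lit 5) (nat_lit 260) (nat_lit 5) (nat_lit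 249) (nat_lit 5) (nat_lit 282) (nat_lit 237) (nat_lit 201)))) (XT.nd (nat_lit 188) (nat_lit 840) (nat_lit 0) (XT.nd (nat_lit 94) (nat_lit 924) (nat_lit 0) (XT.lf (nat_lit 0) (nat_lit 3663764949) (nat_lit 840) (nat_lit 3586689506) (nat_lit 924) (nat_lit 517294328) (nat_lit 238) (nat_lit 5) (nat_lit 248) (nat_lit 5) (nat_lit 249) (nat_lit 5) (nat_lit 283) (nat_lit 237) (nat_lit 200)) (XT.lf (nat_lit 0) (nat_lit 1258825105) (nat_lit 840) (nat_lit 946658056) (nat_lit 924) (nat_lit 5627395853) (nat_lit 227) (nat_lit 5) (nat_lit 237) (nat_lit 5) (nat_lit 238) (nat_lit 5) (nat_lit 284) (nat_lit 237) (nat_lit 199))) (XT.nd (nat_lit 94) (nat_lit 840) (nat_lit 0) (XT.lf (nat_lit 0) (nat_lit 4973300815) (nat_lit 924) (nat_lit 1169732267) (nat_lit 84) (nat_lit 1756485597) (nat_lit 227) (nat_lit 5) (nat_lit 238) (nat_lit 5) (nat_lit 228) (nat_lit 5) (nat_lit 285) (nat_lit 237) (nat_lit 198)) (XT.lf (nat_lit 0) (nat_lit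 4355108906) (nat_lit 840) (nat_lit 3435641043) (nat_lit 924) (nat_lit 177122199) (nat_lit 217) (nat_lit 5) (nat_lit 227) (nat_lit 5) (nat_lit 228) (nat_lit 5) (nat_lit 286) (nat_lit 237) (nat_lit 197))))) (XT.nd (nat_lit 376) (nat_lit 2268) (nat_lit 0) (XT.nd (nat_lit 188) (nat_lit 1596) (nat_lit 0) (XT.nd (nat_lit 94) (nat_lit 0) (nat_lit 0) (XT.lf (nat_lit 0) (nat_lit 1935963504) (nat_lit 840) (nat_lit 632215127) (nat_lit 924) (nat_lit 5469718132) (nat_lit 206) (nat_lit 5) (nat_lit 216) (nat_lit 5) (nat_lit 217) (nat_lit 5) (nat_lit 287) (nat_lit 237) (nat_lit 196)) (XT.lf (nat_lit 0) (nat_lit 5365824631) (nat_lit 924) (nat_lit 520701498) (nat_lit 84) (nat_lit 2223027194) (nat_lit 206) (nat_lit 5) (nat_lit 217) (nat_lit 5) (nat_lit 207) (nat_lit 5) (nat_lit 288) (nat_lit 237) (nat_lit 195))) (XT.nd (nat_lit 94) (nat_lit 756) (nat_lit 0) (XT.lf (nat_lit 0) (nat_lit 36033837) (nat_lit 840) (nat_lit 2983532371)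 (nat_lit 84) (nat_lit 5163336490) (nat_lit 196) (nat_lit 5) (nat_lit 206) (nat_lit 5) (nat_lit 197) (nat_lit 5) (nat_lit 289) (nat_lit 237) (nat_lit 194)) (XT.lf (nat_lit 0) (nat_lit 2760776159) (nat_lit 756) (nat_lit 52431422) (nat_lit 840) (nat_lit 5444732571) (nat_lit 187) (nat_lit 5) (nat_lit 196) (nat_lit 5) (nat_lit 197) (nat_lit 5) (nat_lit 290) (nat_lit 237) (nat_lit 193)))) (XT.nd (nat_lit 188) (nat_lit 1428) (nat_lit 0) (XT.nd (nat_lit 94) (nat_lit 84) (nat_lit 0) (XT.lf (nat_lit 0) (nat_lit 269533487) (nat_lit 756) (nat_lit 5380966632) (nat_lit 840) (nat_lit 2684149850) (nat_lit 178) (nat_lit 5) (nat_lit 187) (nat_lit 5) (nat_lit 188) (nat_lit 5) (nat_lit 291) (nat_lit 237) (nat_lit 192)) (XT.lf (nat_lit 0) (nat_lit 130423967) (nat_lit 840) (nat_lit 2223722238) (nat_lit 84) (nat_lit 6058984556) (nat_lit 177) (nat_lit 5) (nat_lit 187) (nat_lit 5) (nat_lit 178) (nat_lit 5) (nat_lit 292) (nat_lit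 237) (nat_lit 191))) (XT.nd (nat_lit 94) (nat_lit 672) (nat_lit 0) (XT.lf (nat_lit 0) (nat_lit 2954433726) (nat_lit 840) (nat_lit 4772466467) (nat_lit 84) (nat_lit 766293472) (nat_lit 168) (nat_lit 5) (nat_lit 178) (nat_lit 5) (nat_lit 169) (nat_lit 5) (nat_lit 293) (nat_lit 237) (nat_lit 190)) (XT.lf (nat_lit 0) (nat_lit 1200086330) (nat_lit 672) (nat_lit 4638184543) (nat_lit 756) (nat_lit 2736797698) (nat_lit 160) (nat_lit 5) (nat_lit 168) (nat_lit 5) (nat_lit 169) (nat_lit 5) (nat_lit 294) (nat_lit 237) (nat_lit 189))))))) (XT.nd (nat_lit 1410) (nat_lit 1596) (nat_lit 0) (XT.nd (nat_lit 658) (nat_lit 3024) (nat_lit 0) (XT.nd (nat_lit 282) (nat_lit 1932) (nat_lit 0) (XT.nd (nat_lit 94) (nat_lit 1344) (nat_lit 0) (XT.lf (nat_lit 0) (nat_lit 116210358) (nat_lit 756) (nat_lit 1338520462) (nat_lit 84) (nat_lit 7204186993) (nat_lit 159) (nat_lit 5) (nat_lit 168) (nat_lit 5) (nat_lit 160) (nat_lit 5) (nat_lit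 295) (nat_lit 237) (nat_lit 188)) (XT.nd (nat_lit 94) (nat_lit 672) (nat_lit 0) (XT.lf (nat_lit 0) (nat_lit 2995891574) (nat_lit 756) (nat_lit 3930691236) (nat_lit 84) (nat_lit 1817498365) (nat_lit 151) (nat_lit 5) (nat_lit 160) (nat_lit 5) (nat_lit 152) (nat_lit 5) (nat_lit 296) (nat_lit 237) (nat_lit 187)) (XT.lf (nat_lit 0) (nat_lit 2257579876) (nat_lit 672) (nat_lit 3675131112) (nat_lit 756) (nat_lit 2898543867) (nat_lit 143) (nat_lit 5) (nat_lit 151) (nat_lit 5) (nat_lit 152) (nat_lit 5) (nat_lit 297) (nat_lit 237) (nat_lit 186)))) (XT.nd (nat_lit 188) (nat_lit 1176) (nat_lit 0) (XT.nd (nat_lit 94) (nat_lit 672) (nat_lit 0) (XT.lf (nat_lit 0) (nat_lit 227397) (nat_lit 756) (nat_lit 333558057) (nat_lit 84) (nat_lit 8586852838) (nat_lit 142) (nat_lit 5) (nat_lit 151) (nat_lit 5) (nat_lit 143) (nat_lit 5) (nat_lit 298) (nat_lit 237) (nat_lit 185)) (XT.lf (nat_lit 0) (nat_lit 2943888093) (nat_lit 756)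 (nat_lit 2976918696) (nat_lit 84) (nat_lit 3090193917) (nat_lit 134) (nat_lit 5) (nat_lit 143) (nat_lit 5) (nat_lit 135) (nat_lit 5) (nat_lit 299) (nat_lit 237) (nat_lit 184))) (XT.nd (nat_lit 94) (nat_lit 588) (nat_lit 0) (XT.lf (nat_lit 0) (nat_lit 3437039506) (nat_lit 588) (nat_lit 2503409073) (nat_lit 672) (nat_lit 3163163451) (nat_lit 127) (nat_lit 5) (nat_lit 134) (nat_lit 5) (nat_lit 135) (nat_lit 5) (nat_lit 300) (nat_lit 237) (nat_lit 183)) (XT.lf (nat_lit 0) (nat_lit 789013224) (nat_lit 588) (nat_lit 8207901426) (nat_lit 672) (nat_lit 201478565) (nat_lit 120) (nat_lit 5) (nat_lit 127) (nat_lit 5) (nat_lit 128) (nat_lit 5) (nat_lit 301) (nat_lit 237) (nat_lit 182))))) (XT.nd (nat_lit 376) (nat_lit 1680) (nat_lit 0) (XT.nd (nat_lit 188) (nat_lit 672) (nat_lit 0) (XT.nd (nat_lit 94) (nat_lit 588) (nat_lit 0) (XT.lf (nat_lit 0) (nat_lit 2804423938) (nat_lit 672) (nat_lit 1915878192) (nat_lit 84)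 (nat_lit 4574080085) (nat_lit 119) (nat_lit 5) (nat_lit 127) (nat_lit 5) (nat_lit 120) (nat_lit 5) (nat_lit 302) (nat_lit 237) (nat_lit 181)) (XT.lf (nat_lit 0) (nat_lit 4734229888) (nat_lit 588) (nat_lit 1133228476) (nat_lit 672) (nat_lit 3525125049) (nat_lit 112) (nat_lit 5) (nat_lit 119) (nat_lit 5) (nat_lit 120) (nat_lit 5) (nat_lit 303) (nat_lit 237) (nat_lit 180))) (XT.nd (nat_lit 94) (nat_lit 84) (nat_lit 0) (XT.lf (nat_lit 0) (nat_lit 2024273793) (nat_lit 588) (nat_lit 6980952064) (nat_lit 672) (nat_lit 487557560) (nat_lit 105) (nat_lit 5) (nat_lit 112) (nat_lit 5) (nat_lit 113) (nat_lit 5) (nat_lit 304) (nat_lit 237) (nat_lit 179)) (XT.lf (nat_lit 0) (nat_lit 2582872220) (nat_lit 672) (nat_lit 751624591) (nat_lit 84) (nat_lit 6260198940) (nat_lit 104) (nat_lit 5) (nat_lit 112) (nat_lit 5) (nat_lit 105) (nat_lit 5) (nat_lit 305) (nat_lit 237) (nat_lit 178)))) (XT.nd (nat_lit 188) (nat_lit 588)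 (nat_lit 0) (XT.nd (nat_lit 94) (nat_lit 588) (nat_lit 0) (XT.lf (nat_lit 0) (nat_lit 5722150739) (nat_lit 588) (nat_lit 3556084265) (nat_lit 84) (nat_lit 420350588) (nat_lit 98) (nat_lit 5) (nat_lit 105) (nat_lit 5) (nat_lit 99) (nat_lit 5) (nat_lit 306) (nat_lit 237) (nat_lit 177)) (XT.lf (nat_lit 0) (nat_lit 3366308195) (nat_lit 588) (nat_lit 5580046992) (nat_lit 672) (nat_lit 858056863) (nat_lit 91) (nat_lit 5) (nat_lit 98) (nat_lit 5) (nat_lit 99) (nat_lit 5) (nat_lit 307) (nat_lit 237) (nat_lit 176))) (XT.nd (nat_lit 94) (nat_lit 0) (nat_lit 0) (XT.lf (nat_lit 0) (nat_lit 519904620) (nat_lit 504) (nat_lit 1767824966) (nat_lit 588) (nat_lit 7624640479) (nat_lit 84) (nat_lit 5) (nat_lit 90) (nat_lit 5) (nat_lit 91) (nat_lit 5) (nat_lit 308) (nat_lit 237) (nat_lit 175)) (XT.lf (nat_lit 0) (nat_lit 5515671795) (nat_lit 588) (nat_lit 2369516347) (nat_lit 84) (nat_lit 2136814848) (nat_lit 84) (nat_lit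 5) (nat_lit 91) (nat_lit 5) (nat_lit 85) (nat_lit 5) (nat_lit 309) (nat_lit 237) (nat_lit 174)))))) (XT.nd (nat_lit 39292) (nat_lit 0) (nat_lit 38136) (XT.nd (nat_lit 282) (nat_lit 504) (nat_lit 0) (XT.nd (nat_lit 94) (nat_lit 588) (nat_lit 0) (XT.lf (nat_lit 0) (nat_lit 4812276458) (nat_lit 504) (nat_lit 4012826546) (nat_lit 588) (nat_lit 1308714400) (nat_lit 78) (nat_lit 5) (nat_lit 84) (nat_lit 5) (nat_lit 85) (nat_lit 5) (nat_lit 310) (nat_lit 237) (nat_lit 173)) (XT.nd (nat_lit 94) (nat_lit 0) (nat_lit 0) (XT.lf (nat_lit 0) (nat_lit 1900784183) (nat_lit 504) (nat_lit 24898232) (nat_lit 588) (nat_lit 8322219944) (nat_lit 71) (nat_lit 5) (nat_lit 77) (nat_lit 5) (nat_lit 78) (nat_lit 5) (nat_lit 311) (nat_lit 237) (nat_lit 172)) (XT.lf (nat_lit 0) (nat_lit 5244205791) (nat_lit 588) (nat_lit 1093386712) (nat_lit 84) (nat_lit 4025985925) (nat_lit 71) (nat_lit 5) (nat_lit 78) (nat_lit 5) (nat_lit 72)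 (nat_lit 5) (nat_lit 312) (nat_lit 237) (nat_lit 171)))) (XT.nd (nat_lit 38822) (nat_lit 0) (nat_lit 40236) (XT.nd (nat_lit 38728) (nat_lit 0) (nat_lit 40572) (XT.lf (nat_lit 0) (nat_lit 6359915370) (nat_lit 504) (nat_lit 2285872080) (nat_lit 588) (nat_lit 1835790805) (nat_lit 65) (nat_lit 5) (nat_lit 71) (nat_lit 5) (nat_lit 72) (nat_lit 5) (nat_lit 313) (nat_lit 237) (nat_lit 170)) (XT.lf (nat_lit 0) (nat_lit 105559898) (nat_lit 252) (nat_lit 3014650328) (nat_lit 0) (nat_lit 105559898) (nat_lit 548) (nat_lit 5) (nat_lit 551) (nat_lit 4) (nat_lit 548) (nat_lit 4) (nat_lit 244) (nat_lit 238) (nat_lit 238))) (XT.nd (nat_lit 94) (nat_lit 336) (nat_lit 0) (XT.lf (nat_lit 0) (nat_lit 3416976533) (nat_lit 252) (nat_lit 2575394048) (nat_lit 0) (nat_lit 464288653) (nat_lit 548) (nat_lit 5) (nat_lit 551) (nat_lit 4) (nat_lit 548) (nat_lit 4) (nat_lit 245) (nat_lit 238) (nat_lit 237)) (XT.lf (nat_lit 0) (nat_lit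 145141342) (nat_lit 336) (nat_lit 5548339170) (nat_lit 84) (nat_lit 770199963) (nat_lit 544) (nat_lit 5) (nat_lit 548) (nat_lit 5) (nat_lit 545) (nat_lit 4) (nat_lit 246) (nat_lit 238) (nat_lit 236))))) (XT.nd (nat_lit 376) (nat_lit 1260) (nat_lit 0) (XT.nd (nat_lit 188) (nat_lit 504) (nat_lit 0) (XT.nd (nat_lit 94) (nat_lit 336) (nat_lit 0) (XT.lf (nat_lit 0) (nat_lit 3286439904) (nat_lit 336) (nat_lit 2023568003) (nat_lit 84) (nat_lit 1161876085) (nat_lit 544) (nat_lit 5) (nat_lit 548) (nat_lit 5) (nat_lit 545) (nat_lit 4) (nat_lit 247) (nat_lit 238) (nat_lit 235)) (XT.lf (nat_lit 0) (nat_lit 1549996810) (nat_lit 336) (nat_lit 4871777199) (nat_lit 420) (nat_lit 60145584) (nat_lit 540) (nat_lit 5) (nat_lit 544) (nat_lit 5) (nat_lit 545) (nat_lit 4) (nat_lit 248) (nat_lit 238) (nat_lit 234))) (XT.nd (nat_lit 94) (nat_lit 420) (nat_lit 0) (XT.lf (nat_lit 0) (nat_lit 3018589247) (nat_lit 420) (nat_lit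 1333829857) (nat_lit 84) (nat_lit 2140809758) (nat_lit 539) (nat_lit 5) (nat_lit 544) (nat_lit 5) (nat_lit 540) (nat_lit 5) (nat_lit 249) (nat_lit 238) (nat_lit 233)) (XT.lf (nat_lit 0) (nat_lit 2325645616) (nat_lit 420) (nat_lit 3771688733) (nat_lit 504) (nat_lit 408913356) (nat_lit 534) (nat_lit 5) (nat_lit 539) (nat_lit 5) (nat_lit 540) (nat_lit 5) (nat_lit 250) (nat_lit 238) (nat_lit 232)))) (XT.nd (nat_lit 188) (nat_lit 672) (nat_lit 0) (XT.nd (nat_lit 94) (nat_lit 504) (nat_lit 0) (XT.lf (nat_lit 0) (nat_lit 2612381205) (nat_lit 504) (nat_lit 504936456) (nat_lit 84) (nat_lit 3403406455) (nat_lit 533) (nat_lit 5) (nat_lit 539) (nat_lit 5) (nat_lit 534) (nat_lit 5) (nat_lit 251) (nat_lit 238) (nat_lit 231)) (XT.lf (nat_lit 0) (nat_lit 3244791121) (nat_lit 504) (nat_lit 2391661097) (nat_lit 588) (nat_lit 900270099) (nat_lit 527) (nat_lit 5) (nat_lit 533) (nat_lit 5) (nat_lit 534) (nat_lit 5) (nat_lit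 252) (nat_lit 238) (nat_lit 230))) (XT.nd (nat_lit 94) (nat_lit 0) (nat_lit 0) (XT.lf (nat_lit 0) (nat_lit 471476856) (nat_lit 588) (nat_lit 1598323648) (nat_lit 672) (nat_lit 4484534374) (nat_lit 519) (nat_lit 5) (nat_lit 526) (nat_lit 5) (nat_lit 527) (nat_lit 5) (nat_lit 253) (nat_lit 238) (nat_lit 229)) (XT.lf (nat_lit 0) (nat_lit 4309202390) (nat_lit 588) (nat_lit 728401895) (nat_lit 672) (nat_lit 1535782285) (nat_lit 519) (nat_lit 5) (nat_lit 526) (nat_lit 5) (nat_lit 527) (nat_lit 5) (nat_lit 254) (nat_lit 238) (nat_lit 228))))))))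
noncomputable def xc20 : XT := (XT.nd (nat_lit 2820) (nat_lit 14448) (nat_lit 0) (XT.nd (nat_lit 1410) (nat_lit 14112) (nat_lit 0) (XT.nd (nat_lit 658) (nat_lit 6132) (nat_lit 0) (XT.nd (nat_lit 282) (nat_lit 1848) (nat_lit 0) (XT.nd (nat_lit 94) (nat_lit 840) (nat_lit 0) (XT.lf (nat_lit 0) (nat_lit 1391954495) (nat_lit 756) (nat_lit 4995582068) (nat_lit 84) (nat_lit 206510489) (nat_lit 510) (nat_lit 5) (nat_lit 519) (nat_lit 5) (nat_lit 511) (nat_lit 5) (nat_lit 255) (nat_lit 238) (nat_lit 227)) (XT.nd (nat_lit 94) (nat_lit 840) (nat_lit 0) (XT.lf (nat_lit 0) (nat_lit 4307640422) (nat_lit 756) (nat_lit 1104007794) (nat_lit 84) (nat_lit 1204452674) (nat_lit 510) (nat_lit 5) (nat_lit 519) (nat_lit 5) (nat_lit 511) (nat_lit 5) (nat_lit 256) (nat_lit 238) (nat_lit 226)) (XT.lf (nat_lit 0) (nat_lit 585120719) (nat_lit 840) (nat_lit 3781024959) (nat_lit 84) (nat_lit 2273588598) (nat_lit 500) (nat_lit 5) (nat_lit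 510) (nat_lit 5) (nat_lit 501) (nat_lit 5) (nat_lit 257) (nat_lit 238) (nat_lit 225)))) (XT.nd (nat_lit 188) (nat_lit 1008) (nat_lit 0) (XT.nd (nat_lit 94) (nat_lit 0) (nat_lit 0) (XT.lf (nat_lit 0) (nat_lit 195242086) (nat_lit 840) (nat_lit 3249081021) (nat_lit 924) (nat_lit 3220604022) (nat_lit 490) (nat_lit 5) (nat_lit 500) (nat_lit 5) (nat_lit 501) (nat_lit 5) (nat_lit 258) (nat_lit 238) (nat_lit 224)) (XT.lf (nat_lit 0) (nat_lit 4263741991) (nat_lit 840) (nat_lit 2058169541) (nat_lit 924) (nat_lit 369742053) (nat_lit 490) (nat_lit 5) (nat_lit 500) (nat_lit 5) (nat_lit 501) (nat_lit 5) (nat_lit 259) (nat_lit 238) (nat_lit 223))) (XT.nd (nat_lit 94) (nat_lit 0) (nat_lit 0) (XT.lf (nat_lit 0) (nat_lit 1656879405) (nat_lit 924) (nat_lit 790721541) (nat_lit 1008) (nat_lit 4272279597) (nat_lit 478) (nat_lit 5) (nat_lit 489) (nat_lit 5) (nat_lit 490) (nat_lit 5) (nat_lit 260) (nat_lit 238) (nat_lit 222))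 (XT.lf (nat_lit 0) (nat_lit 5273047167) (nat_lit 1008) (nat_lit 939905859) (nat_lit 84) (nat_lit 536781837) (nat_lit 478) (nat_lit 5) (nat_lit 490) (nat_lit 5) (nat_lit 479) (nat_lit 5) (nat_lit 261) (nat_lit 238) (nat_lit 221))))) (XT.nd (nat_lit 376) (nat_lit 2688) (nat_lit 0) (XT.nd (nat_lit 188) (nat_lit 1260) (nat_lit 0) (XT.nd (nat_lit 94) (nat_lit 1092) (nat_lit 0) (XT.lf (nat_lit 0) (nat_lit 1320653484) (nat_lit 1092) (nat_lit 3527330536) (nat_lit 84) (nat_lit 1932922805) (nat_lit 465) (nat_lit 5) (nat_lit 478) (nat_lit 5) (nat_lit 466) (nat_lit 5) (nat_lit 262) (nat_lit 238) (nat_lit 220)) (XT.lf (nat_lit 0) (nat_lit 687409845) (nat_lit 1092) (nat_lit 3414312553) (nat_lit 1176) (nat_lit 2712039358) (nat_lit 452) (nat_lit 5) (nat_lit 465) (nat_lit 5) (nat_lit 466) (nat_lit 5) (nat_lit 263) (nat_lit 238) (nat_lit 219))) (XT.nd (nat_lit 94) (nat_lit 1176) (nat_lit 0) (XT.lf (nat_lit 0) (nat_lit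 54126208) (nat_lit 1176) (nat_lit 1853125160) (nat_lit 84) (nat_lit 4940977565) (nat_lit 451) (nat_lit 5) (nat_lit 465) (nat_lit 5) (nat_lit 452) (nat_lit 5) (nat_lit 264) (nat_lit 238) (nat_lit 218)) (XT.lf (nat_lit 0) (nat_lit 2478167658) (nat_lit 1176) (nat_lit 314800030) (nat_lit 1260) (nat_lit 4091114026) (nat_lit 437) (nat_lit 5) (nat_lit 451) (nat_lit 5) (nat_lit 452) (nat_lit 5) (nat_lit 265) (nat_lit 238) (nat_lit 217)))) (XT.nd (nat_lit 188) (nat_lit 1344) (nat_lit 0) (XT.nd (nat_lit 94) (nat_lit 1344) (nat_lit 0) (XT.lf (nat_lit 0) (nat_lit 5550437612) (nat_lit 1260) (nat_lit 50488463) (nat_lit 84) (nat_lit 1320712954) (nat_lit 437) (nat_lit 5) (nat_lit 452) (nat_lit 5) (nat_lit 438) (nat_lit 5) (nat_lit 266) (nat_lit 238) (nat_lit 216)) (XT.lf (nat_lit 0) (nat_lit 1358381575) (nat_lit 1344) (nat_lit 2560408659) (nat_lit 84) (nat_lit 3041668998) (nat_lit 421) (nat_lit 5) (nat_lit 437) (nat_lit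 5) (nat_lit 422) (nat_lit 5) (nat_lit 267) (nat_lit 238) (nat_lit 215))) (XT.nd (nat_lit 94) (nat_lit 0) (nat_lit 0) (XT.lf (nat_lit 0) (nat_lit 1914273884) (nat_lit 1344) (nat_lit 2164741905) (nat_lit 1428) (nat_lit 2921972021) (nat_lit 405) (nat_lit 5) (nat_lit 421) (nat_lit 5) (nat_lit 422) (nat_lit 5) (nat_lit 268) (nat_lit 238) (nat_lit 214)) (XT.lf (nat_lit 0) (nat_lit 6473575585) (nat_lit 1344) (nat_lit 342995068) (nat_lit 1428) (nat_lit 226781895) (nat_lit 405) (nat_lit 5) (nat_lit 421) (nat_lit 5) (nat_lit 422) (nat_lit 5) (nat_lit 269) (nat_lit 238) (nat_lit 213)))))) (XT.nd (nat_lit 658) (nat_lit 5880) (nat_lit 0) (XT.nd (nat_lit 282) (nat_lit 5124) (nat_lit 0) (XT.nd (nat_lit 94) (nat_lit 1596) (nat_lit 0) (XT.lf (nat_lit 0) (nat_lit 2470306033) (nat_lit 1512) (nat_lit 3063378907) (nat_lit 84) (nat_lit 1553030019) (nat_lit 387) (nat_lit 5) (nat_lit 405) (nat_lit 5) (nat_lit 388) (nat_lit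 5) (nat_lit 270) (nat_lit 238) (nat_lit 212)) (XT.nd (nat_lit 94) (nat_lit 84) (nat_lit 0) (XT.lf (nat_lit 0) (nat_lit 1560525988) (nat_lit 1512) (nat_lit 3620769760) (nat_lit 1596) (nat_lit 1950625385) (nat_lit 369) (nat_lit 5) (nat_lit 387) (nat_lit 5) (nat_lit 388) (nat_lit 5) (nat_lit 271) (nat_lit 238) (nat_lit 211)) (XT.lf (nat_lit 0) (nat_lit 725990955) (nat_lit 1596) (nat_lit 904719433) (nat_lit 84) (nat_lit 5548096911) (nat_lit 368) (nat_lit 5) (nat_lit 387) (nat_lit 5) (nat_lit 369) (nat_lit 5) (nat_lit 272) (nat_lit 238) (nat_lit 210)))) (XT.nd (nat_lit 188) (nat_lit 1848) (nat_lit 0) (XT.nd (nat_lit 94) (nat_lit 1680) (nat_lit 0) (XT.lf (nat_lit 0) (nat_lit 3405267218) (nat_lit 1680) (nat_lit 3376556804) (nat_lit 84) (nat_lit 445193802) (nat_lit 349) (nat_lit 5) (nat_lit 369) (nat_lit 5) (nat_lit 350) (nat_lit 5) (nat_lit 273) (nat_lit 238) (nat_lit 209)) (XT.lf (nat_lit 0) (nat_lit 1402808233)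 (nat_lit 1680) (nat_lit 4712016067) (nat_lit 1764) (nat_lit 1162095270) (nat_lit 329) (nat_lit 5) (nat_lit 349) (nat_lit 5) (nat_lit 350) (nat_lit 5) (nat_lit 274) (nat_lit 238) (nat_lit 208))) (XT.nd (nat_lit 94) (nat_lit 1764) (nat_lit 0) (XT.lf (nat_lit 0) (nat_lit 1501969984) (nat_lit 1764) (nat_lit 1054436162) (nat_lit 84) (nat_lit 4771966338) (nat_lit 328) (nat_lit 5) (nat_lit 349) (nat_lit 5) (nat_lit 329) (nat_lit 5) (nat_lit 275) (nat_lit 238) (nat_lit 207)) (XT.lf (nat_lit 0) (nat_lit 3866100134) (nat_lit 1764) (nat_lit 313388499) (nat_lit 1848) (nat_lit 3201899707) (nat_lit 307) (nat_lit 5) (nat_lit 328) (nat_lit 5) (nat_lit 329) (nat_lit 5) (nat_lit 276) (nat_lit 238) (nat_lit 206))))) (XT.nd (nat_lit 376) (nat_lit 1932) (nat_lit 0) (XT.nd (nat_lit 188) (nat_lit 2016) (nat_lit 0) (XT.nd (nat_lit 94) (nat_lit 84) (nat_lit 0) (XT.lf (nat_lit 0) (nat_lit 1428415984) (nat_lit 1848) (nat_lit 5464870059)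 (nat_lit 1932) (nat_lit 542782288) (nat_lit 285) (nat_lit 5) (nat_lit 307) (nat_lit 5) (nat_lit 308) (nat_lit 5) (nat_lit 277) (nat_lit 238) (nat_lit 205)) (XT.lf (nat_lit 0) (nat_lit 2117612533) (nat_lit 1932) (nat_lit 1029610089) (nat_lit 84) (nat_lit 4344957610) (nat_lit 284) (nat_lit 5) (nat_lit 307) (nat_lit 5) (nat_lit 285) (nat_lit 5) (nat_lit 278) (nat_lit 238) (nat_lit 204))) (XT.nd (nat_lit 94) (nat_lit 924) (nat_lit 0) (XT.lf (nat_lit 0) (nat_lit 4059978415) (nat_lit 1092) (nat_lit 744323454) (nat_lit 1176) (nat_lit 2745671169) (nat_lit 271) (nat_lit 5) (nat_lit 284) (nat_lit 5) (nat_lit 285) (nat_lit 5) (nat_lit 279) (nat_lit 238) (nat_lit 203)) (XT.lf (nat_lit 0) (nat_lit 1625946712) (nat_lit 924) (nat_lit 5903195649) (nat_lit 1008) (nat_lit 80355959) (nat_lit 260) (nat_lit 5) (nat_lit 271) (nat_lit 5) (nat_lit 272) (nat_lit 5) (nat_lit 280) (nat_lit 238) (nat_lit 202)))) (XT.nd (nat_lit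 188) (nat_lit 924) (nat_lit 0) (XT.nd (nat_lit 94) (nat_lit 924) (nat_lit 0) (XT.lf (nat_lit 0) (nat_lit 2584890254) (nat_lit 1008) (nat_lit 841287028) (nat_lit 84) (nat_lit 4244195448) (nat_lit 259) (nat_lit 5) (nat_lit 271) (nat_lit 5) (nat_lit 260) (nat_lit 5) (nat_lit 281) (nat_lit 238) (nat_lit 201)) (XT.lf (nat_lit 0) (nat_lit 4424761702) (nat_lit 924) (nat_lit 863451345) (nat_lit 1008) (nat_lit 2444786732) (nat_lit 248) (nat_lit 5) (nat_lit 259) (nat_lit 5) (nat_lit 260) (nat_lit 5) (nat_lit 282) (nat_lit 238) (nat_lit 200))) (XT.nd (nat_lit 94) (nat_lit 0) (nat_lit 0) (XT.lf (nat_lit 0) (nat_lit 232942251) (nat_lit 924) (nat_lit 5813867786) (nat_lit 84) (nat_lit 1750537661) (nat_lit 237) (nat_lit 5) (nat_lit 248) (nat_lit 5) (nat_lit 238) (nat_lit 5) (nat_lit 283) (nat_lit 238) (nat_lit 199)) (XT.lf (nat_lit 0) (nat_lit 2914653171) (nat_lit 924) (nat_lit 499356304) (nat_lit 84) (nat_lit 4449126936)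 (nat_lit 237) (nat_lit 5) (nat_lit 248) (nat_lit 5) (nat_lit 238) (nat_lit 5) (nat_lit 284) (nat_lit 238) (nat_lit 198))))))) (XT.nd (nat_lit 1410) (nat_lit 5796) (nat_lit 0) (XT.nd (nat_lit 658) (nat_lit 4452) (nat_lit 0) (XT.nd (nat_lit 282) (nat_lit 2436) (nat_lit 0) (XT.nd (nat_lit 94) (nat_lit 924) (nat_lit 0) (XT.lf (nat_lit 0) (nat_lit 4950991394) (nat_lit 840) (nat_lit 690870067) (nat_lit 924) (nat_lit 2288808022) (nat_lit 227) (nat_lit 5) (nat_lit 237) (nat_lit 5) (nat_lit 238) (nat_lit 5) (nat_lit 285) (nat_lit 238) (nat_lit 197)) (XT.nd (nat_lit 94) (nat_lit 0) (nat_lit 0) (XT.lf (nat_lit 0) (nat_lit 411400017) (nat_lit 924) (nat_lit 5505829936) (nat_lit 84) (nat_lit 2082650543) (nat_lit 216) (nat_lit 5) (nat_lit 227) (nat_lit 5) (nat_lit 217) (nat_lit 5) (nat_lit 286) (nat_lit 238) (nat_lit 196)) (XT.lf (nat_lit 0) (nat_lit 3116719011) (nat_lit 924) (nat_lit 12638400) (nat_lit 84) (nat_lit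 4941343418) (nat_lit 216) (nat_lit 5) (nat_lit 227) (nat_lit 5) (nat_lit 217) (nat_lit 5) (nat_lit 287) (nat_lit 238) (nat_lit 195)))) (XT.nd (nat_lit 188) (nat_lit 756) (nat_lit 0) (XT.nd (nat_lit 94) (nat_lit 840) (nat_lit 0) (XT.lf (nat_lit 0) (nat_lit 5630286481) (nat_lit 840) (nat_lit 244602516) (nat_lit 924) (nat_lit 2268336865) (nat_lit 206) (nat_lit 5) (nat_lit 216) (nat_lit 5) (nat_lit 217) (nat_lit 5) (nat_lit 288) (nat_lit 238) (nat_lit 194)) (XT.lf (nat_lit 0) (nat_lit 465140147) (nat_lit 840) (nat_lit 5067249876) (nat_lit 84) (nat_lit 2684978358) (nat_lit 196) (nat_lit 5) (nat_lit 206) (nat_lit 5) (nat_lit 197) (nat_lit 5) (nat_lit 289) (nat_lit 238) (nat_lit 193))) (XT.nd (nat_lit 94) (nat_lit 0) (nat_lit 0) (XT.lf (nat_lit 0) (nat_lit 619964596) (nat_lit 756) (nat_lit 2584406431) (nat_lit 840) (nat_lit 5088869552) (nat_lit 187) (nat_lit 5) (nat_lit 196) (nat_lit 5) (nat_lit 197) (nat_lit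 5) (nat_lit 290) (nat_lit 238) (nat_lit 192)) (XT.lf (nat_lit 0) (nat_lit 5999290999) (nat_lit 840) (nat_lit 1918960943) (nat_lit 84) (nat_lit 452630651) (nat_lit 187) (nat_lit 5) (nat_lit 197) (nat_lit 5) (nat_lit 188) (nat_lit 5) (nat_lit 291) (nat_lit 238) (nat_lit 191))))) (XT.nd (nat_lit 376) (nat_lit 2100) (nat_lit 0) (XT.nd (nat_lit 188) (nat_lit 756) (nat_lit 0) (XT.nd (nat_lit 94) (nat_lit 756) (nat_lit 0) (XT.lf (nat_lit 0) (nat_lit 402227543) (nat_lit 840) (nat_lit 4505592930) (nat_lit 84) (nat_lit 3542291493) (nat_lit 177) (nat_lit 5) (nat_lit 187) (nat_lit 5) (nat_lit 178) (nat_lit 5) (nat_lit 292) (nat_lit 238) (nat_lit 190)) (XT.lf (nat_lit 0) (nat_lit 1384692857) (nat_lit 756) (nat_lit 1797522504) (nat_lit 840) (nat_lit 5348927991) (nat_lit 168) (nat_lit 5) (nat_lit 177) (nat_lit 5) (nat_lit 178) (nat_lit 5) (nat_lit 293) (nat_lit 238) (nat_lit 189))) (XT.nd (nat_lit 94) (nat_lit 756)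 (nat_lit 0) (XT.lf (nat_lit 0) (nat_lit 6023150132) (nat_lit 840) (nat_lit 1204728020) (nat_lit 84) (nat_lit 1386083959) (nat_lit 168) (nat_lit 5) (nat_lit 178) (nat_lit 5) (nat_lit 169) (nat_lit 5) (nat_lit 294) (nat_lit 238) (nat_lit 188)) (XT.lf (nat_lit 0) (nat_lit 229896052) (nat_lit 756) (nat_lit 3827474029) (nat_lit 84) (nat_lit 4641082737) (nat_lit 159) (nat_lit 5) (nat_lit 168) (nat_lit 5) (nat_lit 160) (nat_lit 5) (nat_lit 295) (nat_lit 238) (nat_lit 187)))) (XT.nd (nat_lit 188) (nat_lit 1428) (nat_lit 0) (XT.nd (nat_lit 94) (nat_lit 0) (nat_lit 0) (XT.lf (nat_lit 0) (nat_lit 2275207483) (nat_lit 672) (nat_lit 782092656) (nat_lit 756) (nat_lit 5727466136) (nat_lit 151) (nat_lit 5) (nat_lit 159) (nat_lit 5) (nat_lit 160) (nat_lit 5) (nat_lit 296) (nat_lit 238) (nat_lit 186)) (XT.lf (nat_lit 0) (nat_lit 5951733890) (nat_lit 756) (nat_lit 374367664) (nat_lit 84) (nat_lit 2546770888) (nat_lit 151)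 (nat_lit 5) (nat_lit 160) (nat_lit 5) (nat_lit 152) (nat_lit 5) (nat_lit 297) (nat_lit 238) (nat_lit 185))) (XT.nd (nat_lit 94) (nat_lit 756) (nat_lit 0) (XT.lf (nat_lit 0) (nat_lit 5923717695) (nat_lit 672) (nat_lit 2992996711) (nat_lit 756) (nat_lit 46051413) (nat_lit 143) (nat_lit 5) (nat_lit 151) (nat_lit 5) (nat_lit 152) (nat_lit 5) (nat_lit 298) (nat_lit 238) (nat_lit 184)) (XT.lf (nat_lit 0) (nat_lit 2839231373) (nat_lit 756) (nat_lit 5771555881) (nat_lit 84) (nat_lit 443647103) (nat_lit 134) (nat_lit 5) (nat_lit 143) (nat_lit 5) (nat_lit 135) (nat_lit 5) (nat_lit 299) (nat_lit 238) (nat_lit 183)))))) (XT.nd (nat_lit 658) (nat_lit 2772) (nat_lit 0) (XT.nd (nat_lit 282) (nat_lit 1764) (nat_lit 0) (XT.nd (nat_lit 94) (nat_lit 672) (nat_lit 0) (XT.lf (nat_lit 0) (nat_lit 575288840) (nat_lit 588) (nat_lit 5220154118) (nat_lit 672) (nat_lit 3352490399) (nat_lit 127) (nat_lit 5) (nat_lit 134) (nat_lit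 5) (nat_lit 135) (nat_lit 5) (nat_lit 300) (nat_lit 238) (nat_lit 182)) (XT.nd (nat_lit 94) (nat_lit 672) (nat_lit 0) (XT.lf (nat_lit 0) (nat_lit 7095981700) (nat_lit 588) (nat_lit 1723471662) (nat_lit 672) (nat_lit 423975205) (nat_lit 127) (nat_lit 5) (nat_lit 134) (nat_lit 5) (nat_lit 135) (nat_lit 5) (nat_lit 301) (nat_lit 238) (nat_lit 181)) (XT.lf (nat_lit 0) (nat_lit 2537560641) (nat_lit 672) (nat_lit 4941320392) (nat_lit 84) (nat_lit 1861617970) (nat_lit 119) (nat_lit 5) (nat_lit 127) (nat_lit 5) (nat_lit 120) (nat_lit 5) (nat_lit 302) (nat_lit 238) (nat_lit 180)))) (XT.nd (nat_lit 188) (nat_lit 1176) (nat_lit 0) (XT.nd (nat_lit 94) (nat_lit 0) (nat_lit 0) (XT.lf (nat_lit 0) (nat_lit 1638566411) (nat_lit 588) (nat_lit 3920739430) (nat_lit 672) (nat_lit 3880302723) (nat_lit 112) (nat_lit 5) (nat_lit 119) (nat_lit 5) (nat_lit 120) (nat_lit 5) (nat_lit 303) (nat_lit 238) (nat_lit 179)) (XT.lf (nat_lit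 0) (nat_lit 8385553088) (nat_lit 588) (nat_lit 260046006) (nat_lit 672) (nat_lit 895341908) (nat_lit 112) (nat_lit 5) (nat_lit 119) (nat_lit 5) (nat_lit 120) (nat_lit 5) (nat_lit 304) (nat_lit 238) (nat_lit 178))) (XT.nd (nat_lit 94) (nat_lit 504) (nat_lit 0) (XT.lf (nat_lit 0) (nat_lit 2151737070) (nat_lit 672) (nat_lit 4017605434) (nat_lit 84) (nat_lit 3474217667) (nat_lit 104) (nat_lit 5) (nat_lit 112) (nat_lit 5) (nat_lit 105) (nat_lit 5) (nat_lit 305) (nat_lit 238) (nat_lit 177)) (XT.lf (nat_lit 0) (nat_lit 2806173356) (nat_lit 504) (nat_lit 2439464144) (nat_lit 588) (nat_lit 4502810830) (nat_lit 98) (nat_lit 5) (nat_lit 104) (nat_lit 5) (nat_lit 105) (nat_lit 5) (nat_lit 306) (nat_lit 238) (nat_lit 176))))) (XT.nd (nat_lit 376) (nat_lit 1092) (nat_lit 0) (XT.nd (nat_lit 188) (nat_lit 1008) (nat_lit 0) (XT.nd (nat_lit 94) (nat_lit 672) (nat_lit 0) (XT.lf (nat_lit 0) (nat_lit 8410104924) (nat_lit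 588) (nat_lit 76516070) (nat_lit 84) (nat_lit 1368968009) (nat_lit 98) (nat_lit 5) (nat_lit 105) (nat_lit 5) (nat_lit 99) (nat_lit 5) (nat_lit 307) (nat_lit 238) (nat_lit 175)) (XT.lf (nat_lit 0) (nat_lit 1686204542) (nat_lit 672) (nat_lit 3004134629) (nat_lit 84) (nat_lit 5273796194) (nat_lit 90) (nat_lit 5) (nat_lit 98) (nat_lit 5) (nat_lit 91) (nat_lit 5) (nat_lit 308) (nat_lit 238) (nat_lit 174))) (XT.nd (nat_lit 94) (nat_lit 504) (nat_lit 0) (XT.lf (nat_lit 0) (nat_lit 4074906467) (nat_lit 504) (nat_lit 783999522) (nat_lit 588) (nat_lit 5216077597) (nat_lit 84) (nat_lit 5) (nat_lit 90) (nat_lit 5) (nat_lit 91) (nat_lit 5) (nat_lit 309) (nat_lit 238) (nat_lit 173)) (XT.lf (nat_lit 0) (nat_lit 1108743996) (nat_lit 504) (nat_lit 7009880219) (nat_lit 588) (nat_lit 2069267473) (nat_lit 78) (nat_lit 5) (nat_lit 84) (nat_lit 5) (nat_lit 85) (nat_lit 5) (nat_lit 310) (nat_lit 238) (nat_lit 172)))) (XT.nd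 (nat_lit 188) (nat_lit 504) (nat_lit 0) (XT.nd (nat_lit 94) (nat_lit 504) (nat_lit 0) (XT.lf (nat_lit 0) (nat_lit 1144872773) (nat_lit 588) (nat_lit 1904071965) (nat_lit 84) (nat_lit 7253837732) (nat_lit 77) (nat_lit 5) (nat_lit 84) (nat_lit 5) (nat_lit 78) (nat_lit 5) (nat_lit 311) (nat_lit 238) (nat_lit 171)) (XT.lf (nat_lit 0) (nat_lit 4410469540) (nat_lit 588) (nat_lit 4985046831) (nat_lit 84) (nat_lit 1024106554) (nat_lit 71) (nat_lit 5) (nat_lit 78) (nat_lit 5) (nat_lit 72) (nat_lit 5) (nat_lit 312) (nat_lit 238) (nat_lit 170))) (XT.nd (nat_lit 38540) (nat_lit 0) (nat_lit 40824) (XT.lf (nat_lit 0) (nat_lit 2386130854) (nat_lit 504) (nat_lit 5380467303) (nat_lit 588) (nat_lit 2772024561) (nat_lit 65) (nat_lit 5) (nat_lit 71) (nat_lit 5) (nat_lit 72) (nat_lit 5) (nat_lit 313) (nat_lit 238) (nat_lit 169)) (XT.lf (nat_lit 0) (nat_lit 47073913) (nat_lit 84) (nat_lit 1587582445) (nat_lit 84) (nat_lit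 1587582445) (nat_lit 551) (nat_lit 4) (nat_lit 552) (nat_lit 5) (nat_lit 552) (nat_lit 4) (nat_lit 242) (nat_lit 239) (nat_lit 239))))))))
noncomputable def xc21 : XT := (XT.nd (nat_lit 2820) (nat_lit 20916) (nat_lit 0) (XT.nd (nat_lit 1410) (nat_lit 11088) (nat_lit 0) (XT.nd (nat_lit 658) (nat_lit 3276) (nat_lit 0) (XT.nd (nat_lit 282) (nat_lit 756) (nat_lit 0) (XT.nd (nat_lit 94) (nat_lit 168) (nat_lit 0) (XT.lf (nat_lit 0) (nat_lit 46395899) (nat_lit 168) (nat_lit 2990222738) (nat_lit 84) (nat_lit 3410914365) (nat_lit 550) (nat_lit 5) (nat_lit 552) (nat_lit 5) (nat_lit 551) (nat_lit 4) (nat_lit 243) (nat_lit 239) (nat_lit 238)) (XT.nd (nat_lit 94) (nat_lit 0) (nat_lit 0) (XT.lf (nat_lit 0) (nat_lit 376725081) (nat_lit 168) (nat_lit 2827235028) (nat_lit 252) (nat_lit 3248125887) (nat_lit 548) (nat_lit 5) (nat_lit 550) (nat_lit 5) (nat_lit 551) (nat_lit 4) (nat_lit 244) (nat_lit 239) (nat_lit 237))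 (XT.lf (nat_lit 0) (nat_lit 3813369621) (nat_lit 168) (nat_lit 2550497719) (nat_lit 252) (nat_lit 94348531) (nat_lit 548) (nat_lit 5) (nat_lit 550) (nat_lit 5) (nat_lit 551) (nat_lit 4) (nat_lit 245) (nat_lit 239) (nat_lit 236)))) (XT.nd (nat_lit 188) (nat_lit 420) (nat_lit 0) (XT.nd (nat_lit 94) (nat_lit 0) (nat_lit 0) (XT.lf (nat_lit 0) (nat_lit 801126281) (nat_lit 252) (nat_lit 2200402140) (nat_lit 336) (nat_lit 3464270671) (nat_lit 544) (nat_lit 5) (nat_lit 547) (nat_lit 5) (nat_lit 548) (nat_lit 5) (nat_lit 246) (nat_lit 239) (nat_lit 235)) (XT.lf (nat_lit 0) (nat_lit 4312805636) (nat_lit 252) (nat_lit 1784470029) (nat_lit 336) (nat_lit 377729073) (nat_lit 544) (nat_lit 5) (nat_lit 547) (nat_lit 5) (nat_lit 548) (nat_lit 5) (nat_lit 247) (nat_lit 239) (nat_lit 234))) (XT.nd (nat_lit 94) (nat_lit 0) (nat_lit 0) (XT.lf (nat_lit 0) (nat_lit 1368155382) (nat_lit 336) (nat_lit 1293176417) (nat_lit 420)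 (nat_lit 3824304571) (nat_lit 539) (nat_lit 5) (nat_lit 543) (nat_lit 5) (nat_lit 544) (nat_lit 5) (nat_lit 248) (nat_lit 239) (nat_lit 233)) (XT.lf (nat_lit 0) (nat_lit 4956935071) (nat_lit 336) (nat_lit 737056286) (nat_lit 420) (nat_lit 803939455) (nat_lit 539) (nat_lit 5) (nat_lit 543) (nat_lit 5) (nat_lit 544) (nat_lit 5) (nat_lit 249) (nat_lit 239) (nat_lit 232))))) (XT.nd (nat_lit 376) (nat_lit 1596) (nat_lit 0) (XT.nd (nat_lit 188) (nat_lit 1176) (nat_lit 0) (XT.nd (nat_lit 94) (nat_lit 0) (nat_lit 0) (XT.lf (nat_lit 0) (nat_lit 2078953380) (nat_lit 420) (nat_lit 103402072) (nat_lit 504) (nat_lit 4329270554) (nat_lit 533) (nat_lit 5) (nat_lit 538) (nat_lit 5) (nat_lit 539) (nat_lit 5) (nat_lit 250) (nat_lit 239) (nat_lit 231)) (XT.lf (nat_lit 0) (nat_lit 5157070185) (nat_lit 504) (nat_lit 784188737) (nat_lit 84) (nat_lit 585674596) (nat_lit 533) (nat_lit 5) (nat_lit 539) (nat_lit 5) (nat_lit 534)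 (nat_lit 5) (nat_lit 251) (nat_lit 239) (nat_lit 230))) (XT.nd (nat_lit 94) (nat_lit 588) (nat_lit 0) (XT.lf (nat_lit 0) (nat_lit 1573024828) (nat_lit 588) (nat_lit 3618575695) (nat_lit 84) (nat_lit 1351989433) (nat_lit 526) (nat_lit 5) (nat_lit 533) (nat_lit 5) (nat_lit 527) (nat_lit 5) (nat_lit 252) (nat_lit 239) (nat_lit 229)) (XT.lf (nat_lit 0) (nat_lit 108333073) (nat_lit 588) (nat_lit 4380504072) (nat_lit 672) (nat_lit 2073132704) (nat_lit 519) (nat_lit 5) (nat_lit 526) (nat_lit 5) (nat_lit 527) (nat_lit 5) (nat_lit 253) (nat_lit 239) (nat_lit 228)))) (XT.nd (nat_lit 188) (nat_lit 840) (nat_lit 0) (XT.nd (nat_lit 94) (nat_lit 672) (nat_lit 0) (XT.lf (nat_lit 0) (nat_lit 824683321) (nat_lit 672) (nat_lit 2666436616) (nat_lit 84) (nat_lit 3090607518) (nat_lit 518) (nat_lit 5) (nat_lit 526) (nat_lit 5) (nat_lit 519) (nat_lit 5) (nat_lit 254) (nat_lit 239) (nat_lit 227)) (XT.lf (nat_lit 0) (nat_lit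 1155705865) (nat_lit 672) (nat_lit 2532437449) (nat_lit 756) (nat_lit 2914931396) (nat_lit 510) (nat_lit 5) (nat_lit 518) (nat_lit 5) (nat_lit 519) (nat_lit 5) (nat_lit 255) (nat_lit 239) (nat_lit 226))) (XT.nd (nat_lit 94) (nat_lit 840) (nat_lit 0) (XT.lf (nat_lit 0) (nat_lit 5052190388) (nat_lit 672) (nat_lit 1507559626) (nat_lit 756) (nat_lit 66348278) (nat_lit 510) (nat_lit 5) (nat_lit 518) (nat_lit 5) (nat_lit 519) (nat_lit 5) (nat_lit 256) (nat_lit 239) (nat_lit 225)) (XT.lf (nat_lit 0) (nat_lit 2348758443) (nat_lit 756) (nat_lit 398429392) (nat_lit 840) (nat_lit 3903243011) (nat_lit 500) (nat_lit 5) (nat_lit 509) (nat_lit 5) (nat_lit 510) (nat_lit 5) (nat_lit 257) (nat_lit 239) (nat_lit 224)))))) (XT.nd (nat_lit 658) (nat_lit 6972) (nat_lit 0) (XT.nd (nat_lit 282) (nat_lit 2268) (nat_lit 0) (XT.nd (nat_lit 94) (nat_lit 1848) (nat_lit 0) (XT.lf (nat_lit 0) (nat_lit 5566515493) (nat_lit 840) (nat_lit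 350587267) (nat_lit 84) (nat_lit 759398184) (nat_lit 500) (nat_lit 5) (nat_lit 510) (nat_lit 5) (nat_lit 501) (nat_lit 5) (nat_lit 258) (nat_lit 239) (nat_lit 223)) (XT.nd (nat_lit 94) (nat_lit 924) (nat_lit 0) (XT.lf (nat_lit 0) (nat_lit 1677938080) (nat_lit 924) (nat_lit 3028417860) (nat_lit 84) (nat_lit 1997431659) (nat_lit 489) (nat_lit 5) (nat_lit 500) (nat_lit 5) (nat_lit 490) (nat_lit 5) (nat_lit 259) (nat_lit 239) (nat_lit 222)) (XT.lf (nat_lit 0) (nat_lit 1019568131) (nat_lit 924) (nat_lit 3431295893) (nat_lit 1008) (nat_lit 2281952606) (nat_lit 478) (nat_lit 5) (nat_lit 489) (nat_lit 5) (nat_lit 490) (nat_lit 5) (nat_lit 260) (nat_lit 239) (nat_lit 221)))) (XT.nd (nat_lit 188) (nat_lit 1176) (nat_lit 0) (XT.nd (nat_lit 94) (nat_lit 1008) (nat_lit 0) (XT.lf (nat_lit 0) (nat_lit 468101268) (nat_lit 1008) (nat_lit 1615215820) (nat_lit 84) (nat_lit 4680112448) (nat_lit 477) (nat_lit 5) (nat_lit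 489) (nat_lit 5) (nat_lit 478) (nat_lit 5) (nat_lit 261) (nat_lit 239) (nat_lit 220)) (XT.lf (nat_lit 0) (nat_lit 2542908789) (nat_lit 1008) (nat_lit 652543228) (nat_lit 1092) (nat_lit 3599989940) (nat_lit 465) (nat_lit 5) (nat_lit 477) (nat_lit 5) (nat_lit 478) (nat_lit 5) (nat_lit 262) (nat_lit 239) (nat_lit 219))) (XT.nd (nat_lit 94) (nat_lit 1176) (nat_lit 0) (XT.lf (nat_lit 0) (nat_lit 5934086239) (nat_lit 1092) (nat_lit 68417613) (nat_lit 84) (nat_lit 826726599) (nat_lit 465) (nat_lit 5) (nat_lit 478) (nat_lit 5) (nat_lit 466) (nat_lit 5) (nat_lit 263) (nat_lit 239) (nat_lit 218)) (XT.lf (nat_lit 0) (nat_lit 1811757300) (nat_lit 1176) (nat_lit 2664035741) (nat_lit 84) (nat_lit 2388347947) (nat_lit 451) (nat_lit 5) (nat_lit 465) (nat_lit 5) (nat_lit 452) (nat_lit 5) (nat_lit 264) (nat_lit 239) (nat_lit 217))))) (XT.nd (nat_lit 376) (nat_lit 3108) (nat_lit 0) (XT.nd (nat_lit 188) (nat_lit 2604) (nat_lit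 0) (XT.nd (nat_lit 94) (nat_lit 84) (nat_lit 0) (XT.lf (nat_lit 0) (nat_lit 1629927047) (nat_lit 1176) (nat_lit 2882734306) (nat_lit 1260) (nat_lit 2388167040) (nat_lit 437) (nat_lit 5) (nat_lit 451) (nat_lit 5) (nat_lit 452) (nat_lit 5) (nat_lit 265) (nat_lit 239) (nat_lit 216)) (XT.lf (nat_lit 0) (nat_lit 285737955) (nat_lit 1260) (nat_lit 933617309) (nat_lit 84) (nat_lit 5719885503) (nat_lit 436) (nat_lit 5) (nat_lit 451) (nat_lit 5) (nat_lit 437) (nat_lit 5) (nat_lit 266) (nat_lit 239) (nat_lit 215))) (XT.nd (nat_lit 94) (nat_lit 1344) (nat_lit 0) (XT.lf (nat_lit 0) (nat_lit 2949384730) (nat_lit 1344) (nat_lit 3501156791) (nat_lit 84) (nat_lit 528320671) (nat_lit 421) (nat_lit 5) (nat_lit 437) (nat_lit 5) (nat_lit 422) (nat_lit 5) (nat_lit 267) (nat_lit 239) (nat_lit 214)) (XT.lf (nat_lit 0) (nat_lit 934029215) (nat_lit 1344) (nat_lit 4698604410) (nat_lit 1428) (nat_lit 1387579622) (nat_lit 405)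 (nat_lit 5) (nat_lit 421) (nat_lit 5) (nat_lit 422) (nat_lit 5) (nat_lit 268) (nat_lit 239) (nat_lit 213)))) (XT.nd (nat_lit 188) (nat_lit 1596) (nat_lit 0) (XT.nd (nat_lit 94) (nat_lit 1428) (nat_lit 0) (XT.lf (nat_lit 0) (nat_lit 1258631069) (nat_lit 1428) (nat_lit 1604196506) (nat_lit 84) (nat_lit 4200208699) (nat_lit 404) (nat_lit 5) (nat_lit 421) (nat_lit 5) (nat_lit 405) (nat_lit 5) (nat_lit 269) (nat_lit 239) (nat_lit 212)) (XT.lf (nat_lit 0) (nat_lit 2958182273) (nat_lit 1428) (nat_lit 945880273) (nat_lit 1512) (nat_lit 3203365180) (nat_lit 387) (nat_lit 5) (nat_lit 404) (nat_lit 5) (nat_lit 405) (nat_lit 5) (nat_lit 270) (nat_lit 239) (nat_lit 211))) (XT.nd (nat_lit 94) (nat_lit 84) (nat_lit 0) (XT.lf (nat_lit 0) (nat_lit 439683230) (nat_lit 1512) (nat_lit 6131637572) (nat_lit 1596) (nat_lit 582275191) (nat_lit 369) (nat_lit 5) (nat_lit 387) (nat_lit 5) (nat_lit 388) (nat_lit 5) (nat_lit 271)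 (nat_lit 239) (nat_lit 210)) (XT.lf (nat_lit 0) (nat_lit 2045858536) (nat_lit 1596) (nat_lit 2082790057) (nat_lit 84) (nat_lit 3072252157) (nat_lit 368) (nat_lit 5) (nat_lit 387) (nat_lit 5) (nat_lit 369) (nat_lit 5) (nat_lit 272) (nat_lit 239) (nat_lit 209))))))) (XT.nd (nat_lit 1410) (nat_lit 8148) (nat_lit 0) (XT.nd (nat_lit 658) (nat_lit 4620) (nat_lit 0) (XT.nd (nat_lit 282) (nat_lit 4788) (nat_lit 0) (XT.nd (nat_lit 94) (nat_lit 1764) (nat_lit 0) (XT.lf (nat_lit 0) (nat_lit 2632843398) (nat_lit 1596) (nat_lit 2052222423) (nat_lit 1680) (nat_lit 2564926972) (nat_lit 349) (nat_lit 5) (nat_lit 368) (nat_lit 5) (nat_lit 369) (nat_lit 5) (nat_lit 273) (nat_lit 239) (nat_lit 208)) (XT.nd (nat_lit 94) (nat_lit 0) (nat_lit 0) (XT.lf (nat_lit 0) (nat_lit 41617106) (nat_lit 1764) (nat_lit 7168479782) (nat_lit 84) (nat_lit 90921238) (nat_lit 328) (nat_lit 5) (nat_lit 349) (nat_lit 5) (nat_lit 329) (nat_lit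 5) (nat_lit 274) (nat_lit 239) (nat_lit 207)) (XT.lf (nat_lit 0) (nat_lit 2661452364) (nat_lit 1764) (nat_lit 2382995387) (nat_lit 84) (nat_lit 2308446002) (nat_lit 328) (nat_lit 5) (nat_lit 349) (nat_lit 5) (nat_lit 329) (nat_lit 5) (nat_lit 275) (nat_lit 239) (nat_lit 206)))) (XT.nd (nat_lit 188) (nat_lit 2940) (nat_lit 0) (XT.nd (nat_lit 94) (nat_lit 84) (nat_lit 0) (XT.lf (nat_lit 0) (nat_lit 2492400166) (nat_lit 1764) (nat_lit 2809885338) (nat_lit 1848) (nat_lit 2104431187) (nat_lit 307) (nat_lit 5) (nat_lit 328) (nat_lit 5) (nat_lit 329) (nat_lit 5) (nat_lit 276) (nat_lit 239) (nat_lit 205)) (XT.lf (nat_lit 0) (nat_lit 495478341) (nat_lit 1848) (nat_lit 6348942) (nat_lit 84) (nat_lit 6960609284) (nat_lit 306) (nat_lit 5) (nat_lit 328) (nat_lit 5) (nat_lit 307) (nat_lit 5) (nat_lit 277) (nat_lit 239) (nat_lit 204))) (XT.nd (nat_lit 94) (nat_lit 1092) (nat_lit 0) (XT.lf (nat_lit 0) (nat_lit 3118141455)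 (nat_lit 1932) (nat_lit 2517090788) (nat_lit 84) (nat_lit 1883889270) (nat_lit 284) (nat_lit 5) (nat_lit 307) (nat_lit 5) (nat_lit 285) (nat_lit 5) (nat_lit 278) (nat_lit 239) (nat_lit 203)) (XT.lf (nat_lit 0) (nat_lit 2524985459) (nat_lit 1092) (nat_lit 3243184148) (nat_lit 1176) (nat_lit 1809551258) (nat_lit 271) (nat_lit 5) (nat_lit 284) (nat_lit 5) (nat_lit 285) (nat_lit 5) (nat_lit 279) (nat_lit 239) (nat_lit 202))))) (XT.nd (nat_lit 376) (nat_lit 1764) (nat_lit 0) (XT.nd (nat_lit 188) (nat_lit 1848) (nat_lit 0) (XT.nd (nat_lit 94) (nat_lit 0) (nat_lit 0) (XT.lf (nat_lit 0) (nat_lit 20819910) (nat_lit 924) (nat_lit 773225356) (nat_lit 1008) (nat_lit 6844153418) (nat_lit 259) (nat_lit 5) (nat_lit 270) (nat_lit 5) (nat_lit 271) (nat_lit 5) (nat_lit 280) (nat_lit 239) (nat_lit 201)) (XT.lf (nat_lit 0) (nat_lit 3427455800) (nat_lit 1008) (nat_lit 2496138829) (nat_lit 84) (nat_lit 1776140795) (nat_lit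 259) (nat_lit 5) (nat_lit 271) (nat_lit 5) (nat_lit 260) (nat_lit 5) (nat_lit 281) (nat_lit 239) (nat_lit 200))) (XT.nd (nat_lit 94) (nat_lit 924) (nat_lit 0) (XT.lf (nat_lit 0) (nat_lit 2719953966) (nat_lit 924) (nat_lit 3374052277) (nat_lit 1008) (nat_lit 1669165222) (nat_lit 248) (nat_lit 5) (nat_lit 259) (nat_lit 5) (nat_lit 260) (nat_lit 5) (nat_lit 282) (nat_lit 239) (nat_lit 199)) (XT.lf (nat_lit 0) (nat_lit 204521646) (nat_lit 840) (nat_lit 743000122) (nat_lit 924) (nat_lit 6880973219) (nat_lit 237) (nat_lit 5) (nat_lit 247) (nat_lit 5) (nat_lit 248) (nat_lit 5) (nat_lit 283) (nat_lit 239) (nat_lit 198)))) (XT.nd (nat_lit 188) (nat_lit 924) (nat_lit 0) (XT.nd (nat_lit 94) (nat_lit 840) (nat_lit 0) (XT.lf (nat_lit 0) (nat_lit 3599821751) (nat_lit 924) (nat_lit 2330080803) (nat_lit 84) (nat_lit 1965028188) (nat_lit 237) (nat_lit 5) (nat_lit 248) (nat_lit 5) (nat_lit 238) (nat_lit 5) (nat_lit 284)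 (nat_lit 239) (nat_lit 197)) (XT.lf (nat_lit 0) (nat_lit 3067789061) (nat_lit 840) (nat_lit 3222227295) (nat_lit 924) (nat_lit 1673261759) (nat_lit 227) (nat_lit 5) (nat_lit 237) (nat_lit 5) (nat_lit 238) (nat_lit 5) (nat_lit 285) (nat_lit 239) (nat_lit 196))) (XT.nd (nat_lit 94) (nat_lit 0) (nat_lit 0) (XT.lf (nat_lit 0) (nat_lit 535291101) (nat_lit 840) (nat_lit 430235174) (nat_lit 924) (nat_lit 7068022582) (nat_lit 216) (nat_lit 5) (nat_lit 226) (nat_lit 5) (nat_lit 227) (nat_lit 5) (nat_lit 286) (nat_lit 239) (nat_lit 195)) (XT.lf (nat_lit 0) (nat_lit 3644649107) (nat_lit 924) (nat_lit 2027822976) (nat_lit 84) (nat_lit 2432473423) (nat_lit 216) (nat_lit 5) (nat_lit 227) (nat_lit 5) (nat_lit 217) (nat_lit 5) (nat_lit 287) (nat_lit 239) (nat_lit 194)))))) (XT.nd (nat_lit 658) (nat_lit 4116) (nat_lit 0) (XT.nd (nat_lit 282) (nat_lit 2352) (nat_lit 0) (XT.nd (nat_lit 94) (nat_lit 840) (nat_lit 0) (XT.lf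 (nat_lit 0) (nat_lit 3560017869) (nat_lit 840) (nat_lit 2805420653) (nat_lit 924) (nat_lit 1812854388) (nat_lit 206) (nat_lit 5) (nat_lit 216) (nat_lit 5) (nat_lit 217) (nat_lit 5) (nat_lit 288) (nat_lit 239) (nat_lit 193)) (XT.nd (nat_lit 94) (nat_lit 0) (nat_lit 0) (XT.lf (nat_lit 0) (nat_lit 857800825) (nat_lit 840) (nat_lit 7249905992) (nat_lit 84) (nat_lit 145894984) (nat_lit 196) (nat_lit 5) (nat_lit 206) (nat_lit 5) (nat_lit 197) (nat_lit 5) (nat_lit 289) (nat_lit 239) (nat_lit 192)) (XT.lf (nat_lit 0) (nat_lit 3570410698) (nat_lit 840) (nat_lit 1597315267) (nat_lit 84) (nat_lit 3162333695) (nat_lit 196) (nat_lit 5) (nat_lit 206) (nat_lit 5) (nat_lit 197) (nat_lit 5) (nat_lit 290) (nat_lit 239) (nat_lit 191)))) (XT.nd (nat_lit 188) (nat_lit 756) (nat_lit 0) (XT.nd (nat_lit 94) (nat_lit 840) (nat_lit 0) (XT.lf (nat_lit 0) (nat_lit 4189133852) (nat_lit 756) (nat_lit 2139472612) (nat_lit 840) (nat_lit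 2079903144) (nat_lit 187) (nat_lit 5) (nat_lit 196) (nat_lit 5) (nat_lit 197) (nat_lit 5) (nat_lit 291) (nat_lit 239) (nat_lit 190)) (XT.lf (nat_lit 0) (nat_lit 635924644) (nat_lit 840) (nat_lit 6890430679) (nat_lit 84) (nat_lit 962521329) (nat_lit 177) (nat_lit 5) (nat_lit 187) (nat_lit 5) (nat_lit 178) (nat_lit 5) (nat_lit 292) (nat_lit 239) (nat_lit 189))) (XT.nd (nat_lit 94) (nat_lit 756) (nat_lit 0) (XT.lf (nat_lit 0) (nat_lit 3384715075) (nat_lit 840) (nat_lit 1045623020) (nat_lit 84) (nat_lit 4140256287) (nat_lit 177) (nat_lit 5) (nat_lit 187) (nat_lit 5) (nat_lit 178) (nat_lit 5) (nat_lit 293) (nat_lit 239) (nat_lit 188)) (XT.lf (nat_lit 0) (nat_lit 4948526307) (nat_lit 756) (nat_lit 1238493560) (nat_lit 840) (nat_lit 2467243133) (nat_lit 168) (nat_lit 5) (nat_lit 177) (nat_lit 5) (nat_lit 178) (nat_lit 5) (nat_lit 294) (nat_lit 239) (nat_lit 187))))) (XT.nd (nat_lit 376) (nat_lit 2016) (nat_lit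 0) (XT.nd (nat_lit 188) (nat_lit 1344) (nat_lit 0) (XT.nd (nat_lit 94) (nat_lit 0) (nat_lit 0) (XT.lf (nat_lit 0) (nat_lit 303690056) (nat_lit 756) (nat_lit 6423558975) (nat_lit 84) (nat_lit 2012541201) (nat_lit 159) (nat_lit 5) (nat_lit 168) (nat_lit 5) (nat_lit 160) (nat_lit 5) (nat_lit 295) (nat_lit 239) (nat_lit 186)) (XT.lf (nat_lit 0) (nat_lit 3094372859) (nat_lit 756) (nat_lit 378992384) (nat_lit 84) (nat_lit 5353546316) (nat_lit 159) (nat_lit 5) (nat_lit 168) (nat_lit 5) (nat_lit 160) (nat_lit 5) (nat_lit 296) (nat_lit 239) (nat_lit 185))) (XT.nd (nat_lit 94) (nat_lit 672) (nat_lit 0) (XT.lf (nat_lit 0) (nat_lit 5832416224) (nat_lit 672) (nat_lit 114992846) (nat_lit 756) (nat_lit 2968519400) (nat_lit 151) (nat_lit 5) (nat_lit 159) (nat_lit 5) (nat_lit 160) (nat_lit 5) (nat_lit 297) (nat_lit 239) (nat_lit 184)) (XT.lf (nat_lit 0) (nat_lit 3150426394) (nat_lit 672) (nat_lit 5721538925) (nat_lit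 756) (nat_lit 134745863) (nat_lit 143) (nat_lit 5) (nat_lit 151) (nat_lit 5) (nat_lit 152) (nat_lit 5) (nat_lit 298) (nat_lit 239) (nat_lit 183)))) (XT.nd (nat_lit 188) (nat_lit 1260) (nat_lit 0) (XT.nd (nat_lit 94) (nat_lit 0) (nat_lit 0) (XT.lf (nat_lit 0) (nat_lit 402893085) (nat_lit 672) (nat_lit 2305434112) (nat_lit 756) (nat_lit 6391023142) (nat_lit 134) (nat_lit 5) (nat_lit 142) (nat_lit 5) (nat_lit 143) (nat_lit 5) (nat_lit 299) (nat_lit 239) (nat_lit 182)) (XT.lf (nat_lit 0) (nat_lit 5624484491) (nat_lit 756) (nat_lit 2366814104) (nat_lit 84) (nat_lit 1202431937) (nat_lit 134) (nat_lit 5) (nat_lit 143) (nat_lit 5) (nat_lit 135) (nat_lit 5) (nat_lit 300) (nat_lit 239) (nat_lit 181))) (XT.nd (nat_lit 94) (nat_lit 672) (nat_lit 0) (XT.lf (nat_lit 0) (nat_lit 4094136315) (nat_lit 588) (nat_lit 4517959925) (nat_lit 672) (nat_lit 677930273) (nat_lit 127) (nat_lit 5) (nat_lit 134) (nat_lit 5) (nat_lit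 135) (nat_lit 5) (nat_lit 301) (nat_lit 239) (nat_lit 180)) (XT.lf (nat_lit 0) (nat_lit 1296517549) (nat_lit 588) (nat_lit 936077294) (nat_lit 672) (nat_lit 7155744611) (nat_lit 119) (nat_lit 5) (nat_lit 126) (nat_lit 5) (nat_lit 127) (nat_lit 5) (nat_lit 302) (nat_lit 239) (nat_lit 179))))))))
noncomputable def xc22 : XT := (XT.nd (nat_lit 41078) (nat_lit 0) (nat_lit 11340) (XT.nd (nat_lit 39668) (nat_lit 0) (nat_lit 35952) (XT.nd (nat_lit 658) (nat_lit 1092) (nat_lit 0) (XT.nd (nat_lit 282) (nat_lit 1680) (nat_lit 0) (XT.nd (nat_lit 94) (nat_lit 1260) (nat_lit 0) (XT.lf (nat_lit 0) (nat_lit 5217176292) (nat_lit 672) (nat_lit 1553949839) (nat_lit 84) (nat_lit 2717140486) (nat_lit 119) (nat_lit 5) (nat_lit 127) (nat_lit 5) (nat_lit 120) (nat_lit 5) (nat_lit 303) (nat_lit 239) (nat_lit 178)) (XT.nd (nat_lit 94) (nat_lit 672) (nat_lit 0) (XT.lf (nat_lit 0) (nat_lit 5145427144) (nat_lit 588) (nat_lit 3128215369)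 (nat_lit 672) (nat_lit 1316612736) (nat_lit 112) (nat_lit 5) (nat_lit 119) (nat_lit 5) (nat_lit 120) (nat_lit 5) (nat_lit 304) (nat_lit 239) (nat_lit 177)) (XT.lf (nat_lit 0) (nat_lit 1673603778) (nat_lit 672) (nat_lit 7406702664) (nat_lit 84) (nat_lit 614018457) (nat_lit 104) (nat_lit 5) (nat_lit 112) (nat_lit 5) (nat_lit 105) (nat_lit 5) (nat_lit 305) (nat_lit 239) (nat_lit 176)))) (XT.nd (nat_lit 188) (nat_lit 1176) (nat_lit 0) (XT.nd (nat_lit 94) (nat_lit 504) (nat_lit 0) (XT.lf (nat_lit 0) (nat_lit 4729362035) (nat_lit 672) (nat_lit 648149446) (nat_lit 84) (nat_lit 4422540706) (nat_lit 104) (nat_lit 5) (nat_lit 112) (nat_lit 5) (nat_lit 105) (nat_lit 5) (nat_lit 306) (nat_lit 239) (nat_lit 175)) (XT.lf (nat_lit 0) (nat_lit 6300761495) (nat_lit 504) (nat_lit 1560551784) (nat_lit 588) (nat_lit 2046594936) (nat_lit 98) (nat_lit 5) (nat_lit 104) (nat_lit 5) (nat_lit 105) (nat_lit 5) (nat_lit 307) (nat_lit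 239) (nat_lit 174))) (XT.nd (nat_lit 94) (nat_lit 504) (nat_lit 0) (XT.lf (nat_lit 0) (nat_lit 1039028295) (nat_lit 672) (nat_lit 6648714094) (nat_lit 84) (nat_lit 2330010301) (nat_lit 90) (nat_lit 5) (nat_lit 98) (nat_lit 5) (nat_lit 91) (nat_lit 5) (nat_lit 308) (nat_lit 239) (nat_lit 173)) (XT.lf (nat_lit 0) (nat_lit 352190861) (nat_lit 504) (nat_lit 3815502199) (nat_lit 588) (nat_lit 5961876659) (nat_lit 84) (nat_lit 5) (nat_lit 90) (nat_lit 5) (nat_lit 91) (nat_lit 5) (nat_lit 309) (nat_lit 239) (nat_lit 172))))) (XT.nd (nat_lit 38634) (nat_lit 0) (nat_lit 40236) (XT.nd (nat_lit 188) (nat_lit 504) (nat_lit 0) (XT.nd (nat_lit 94) (nat_lit 588) (nat_lit 0) (XT.lf (nat_lit 0) (nat_lit 7380554130) (nat_lit 588) (nat_lit 2687603963) (nat_lit 84) (nat_lit 175350584) (nat_lit 84) (nat_lit 5) (nat_lit 91) (nat_lit 5) (nat_lit 85) (nat_lit 5) (nat_lit 310) (nat_lit 239) (nat_lit 171)) (XT.lf (nat_lit 0)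 (nat_lit 325760879) (nat_lit 588) (nat_lit 5814690232) (nat_lit 84) (nat_lit 4218883569) (nat_lit 77) (nat_lit 5) (nat_lit 84) (nat_lit 5) (nat_lit 78) (nat_lit 5) (nat_lit 311) (nat_lit 239) (nat_lit 170))) (XT.nd (nat_lit 94) (nat_lit 0) (nat_lit 0) (XT.lf (nat_lit 0) (nat_lit 1449807327) (nat_lit 504) (nat_lit 2088791816) (nat_lit 588) (nat_lit 6938736680) (nat_lit 71) (nat_lit 5) (nat_lit 77) (nat_lit 5) (nat_lit 78) (nat_lit 5) (nat_lit 312) (nat_lit 239) (nat_lit 169)) (XT.lf (nat_lit 0) (nat_lit 6846074103) (nat_lit 588) (nat_lit 1700193208) (nat_lit 84) (nat_lit 2051138685) (nat_lit 71) (nat_lit 5) (nat_lit 78) (nat_lit 5) (nat_lit 72) (nat_lit 5) (nat_lit 313) (nat_lit 239) (nat_lit 168)))) (XT.nd (nat_lit 188) (nat_lit 168) (nat_lit 0) (XT.nd (nat_lit 94) (nat_lit 84) (nat_lit 0) (XT.lf (nat_lit 0) (nat_lit 1073741823) (nat_lit 0) (nat_lit 0) (nat_lit 0) (nat_lit 0) (nat_lit 553) (nat_lit 0)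 (nat_lit 1) (nat_lit 0) (nat_lit 1) (nat_lit 0) (nat_lit 240) (nat_lit 240) (nat_lit 240)) (XT.lf (nat_lit 0) (nat_lit 3198279923) (nat_lit 84) (nat_lit 3198279923) (nat_lit 0) (nat_lit 46395899) (nat_lit 552) (nat_lit 5) (nat_lit 553) (nat_lit 0) (nat_lit 552) (nat_lit 4) (nat_lit 241) (nat_lit 240) (nat_lit 239))) (XT.nd (nat_lit 94) (nat_lit 84) (nat_lit 0) (XT.lf (nat_lit 0) (nat_lit 69853627) (nat_lit 84) (nat_lit 6305772899) (nat_lit 84) (nat_lit 69853627) (nat_lit 551) (nat_lit 4) (nat_lit 552) (nat_lit 5) (nat_lit 552) (nat_lit 4) (nat_lit 242) (nat_lit 240) (nat_lit 238)) (XT.lf (nat_lit 0) (nat_lit 3062066937) (nat_lit 168) (nat_lit 3062066937) (nat_lit 84) (nat_lit 324903141) (nat_lit 550) (nat_lit 5) (nat_lit 552) (nat_lit 5) (nat_lit 551) (nat_lit 4) (nat_lit 243) (nat_lit 240) (nat_lit 237)))))) (XT.nd (nat_lit 658) (nat_lit 2856) (nat_lit 0) (XT.nd (nat_lit 282) (nat_lit 924) (nat_lit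 0) (XT.nd (nat_lit 94) (nat_lit 336) (nat_lit 0) (XT.lf (nat_lit 0) (nat_lit 279579932) (nat_lit 168) (nat_lit 5895412202) (nat_lit 252) (nat_lit 279579932) (nat_lit 548) (nat_lit 5) (nat_lit 550) (nat_lit 5) (nat_lit 551) (nat_lit 4) (nat_lit 244) (nat_lit 240) (nat_lit 236)) (XT.nd (nat_lit 94) (nat_lit 252) (nat_lit 0) (XT.lf (nat_lit 0) (nat_lit 2789315526) (nat_lit 252) (nat_lit 2789315526) (nat_lit 84) (nat_lit 882577125) (nat_lit 547) (nat_lit 5) (nat_lit 550) (nat_lit 5) (nat_lit 548) (nat_lit 5) (nat_lit 245) (nat_lit 240) (nat_lit 235)) (XT.lf (nat_lit 0) (nat_lit 629675512) (nat_lit 252) (nat_lit 5210388519) (nat_lit 336) (nat_lit 629675512) (nat_lit 544) (nat_lit 5) (nat_lit 547) (nat_lit 5) (nat_lit 548) (nat_lit 5) (nat_lit 246) (nat_lit 240) (nat_lit 234)))) (XT.nd (nat_lit 188) (nat_lit 504) (nat_lit 0) (XT.nd (nat_lit 94) (nat_lit 336) (nat_lit 0) (XT.lf (nat_lit 0) (nat_lit 2379374162)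 (nat_lit 336) (nat_lit 2379374162) (nat_lit 84) (nat_lit 1720738162) (nat_lit 543) (nat_lit 5) (nat_lit 547) (nat_lit 5) (nat_lit 544) (nat_lit 5) (nat_lit 247) (nat_lit 240) (nat_lit 233)) (XT.lf (nat_lit 0) (nat_lit 1120969124) (nat_lit 336) (nat_lit 4249065787) (nat_lit 420) (nat_lit 1120969124) (nat_lit 539) (nat_lit 5) (nat_lit 543) (nat_lit 5) (nat_lit 544) (nat_lit 5) (nat_lit 248) (nat_lit 240) (nat_lit 232))) (XT.nd (nat_lit 94) (nat_lit 420) (nat_lit 0) (XT.lf (nat_lit 0) (nat_lit 1831263931) (nat_lit 420) (nat_lit 1831263931) (nat_lit 84) (nat_lit 2841370002) (nat_lit 538) (nat_lit 5) (nat_lit 543) (nat_lit 5) (nat_lit 539) (nat_lit 5) (nat_lit 249) (nat_lit 240) (nat_lit 231)) (XT.lf (nat_lit 0) (nat_lit 1754623338) (nat_lit 420) (nat_lit 3009148955) (nat_lit 504) (nat_lit 1754623338) (nat_lit 533) (nat_lit 5) (nat_lit 538) (nat_lit 5) (nat_lit 539) (nat_lit 5) (nat_lit 250) (nat_lit 240)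 (nat_lit 230))))) (XT.nd (nat_lit 376) (nat_lit 1596) (nat_lit 0) (XT.nd (nat_lit 188) (nat_lit 672) (nat_lit 0) (XT.nd (nat_lit 94) (nat_lit 504) (nat_lit 0) (XT.lf (nat_lit 0) (nat_lit 1143676581) (nat_lit 504) (nat_lit 1143676581) (nat_lit 84) (nat_lit 4247123778) (nat_lit 532) (nat_lit 5) (nat_lit 538) (nat_lit 5) (nat_lit 533) (nat_lit 5) (nat_lit 251) (nat_lit 240) (nat_lit 229)) (XT.lf (nat_lit 0) (nat_lit 2532136845) (nat_lit 504) (nat_lit 1487679414) (nat_lit 588) (nat_lit 2532136845) (nat_lit 526) (nat_lit 5) (nat_lit 532) (nat_lit 5) (nat_lit 533) (nat_lit 5) (nat_lit 252) (nat_lit 240) (nat_lit 228))) (XT.nd (nat_lit 94) (nat_lit 588) (nat_lit 0) (XT.lf (nat_lit 0) (nat_lit 314971919) (nat_lit 588) (nat_lit 314971919) (nat_lit 84) (nat_lit 5941323281) (nat_lit 525) (nat_lit 5) (nat_lit 532) (nat_lit 5) (nat_lit 526) (nat_lit 5) (nat_lit 253) (nat_lit 240) (nat_lit 227)) (XT.lf (nat_lit 0)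 (nat_lit 3138648648) (nat_lit 672) (nat_lit 3138648648) (nat_lit 84) (nat_lit 314376700) (nat_lit 518) (nat_lit 5) (nat_lit 526) (nat_lit 5) (nat_lit 519) (nat_lit 5) (nat_lit 254) (nat_lit 240) (nat_lit 226)))) (XT.nd (nat_lit 188) (nat_lit 840) (nat_lit 0) (XT.nd (nat_lit 94) (nat_lit 84) (nat_lit 0) (XT.lf (nat_lit 0) (nat_lit 652078362) (nat_lit 672) (nat_lit 5309750678) (nat_lit 756) (nat_lit 652078362) (nat_lit 510) (nat_lit 5) (nat_lit 518) (nat_lit 5) (nat_lit 519) (nat_lit 5) (nat_lit 255) (nat_lit 240) (nat_lit 225)) (XT.lf (nat_lit 0) (nat_lit 2128532327) (nat_lit 756) (nat_lit 2128532327) (nat_lit 84) (nat_lit 2380321498) (nat_lit 509) (nat_lit 5) (nat_lit 518) (nat_lit 5) (nat_lit 510) (nat_lit 5) (nat_lit 256) (nat_lit 240) (nat_lit 224))) (XT.nd (nat_lit 94) (nat_lit 84) (nat_lit 0) (XT.lf (nat_lit 0) (nat_lit 1761208596) (nat_lit 756) (nat_lit 3140165373) (nat_lit 840) (nat_lit 1761208596)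 (nat_lit 500) (nat_lit 5) (nat_lit 509) (nat_lit 5) (nat_lit 510) (nat_lit 5) (nat_lit 257) (nat_lit 240) (nat_lit 223)) (XT.lf (nat_lit 0) (nat_lit 976443402) (nat_lit 840) (nat_lit 976443402) (nat_lit 84) (nat_lit 4736500421) (nat_lit 499) (nat_lit 5) (nat_lit 509) (nat_lit 5) (nat_lit 500) (nat_lit 5) (nat_lit 258) (nat_lit 240) (nat_lit 222))))))) (XT.nd (nat_lit 1410) (nat_lit 12012) (nat_lit 0) (XT.nd (nat_lit 658) (nat_lit 7392) (nat_lit 0) (XT.nd (nat_lit 282) (nat_lit 3360) (nat_lit 0) (XT.nd (nat_lit 94) (nat_lit 1008) (nat_lit 0) (XT.lf (nat_lit 0) (nat_lit 3017334279) (nat_lit 840) (nat_lit 682890776) (nat_lit 924) (nat_lit 3017334279) (nat_lit 489) (nat_lit 5) (nat_lit 499) (nat_lit 5) (nat_lit 500) (nat_lit 5) (nat_lit 259) (nat_lit 240) (nat_lit 221)) (XT.nd (nat_lit 94) (nat_lit 84) (nat_lit 0) (XT.lf (nat_lit 0) (nat_lit 318067537) (nat_lit 924) (nat_lit 6111414018) (nat_lit 1008) (nat_lit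 318067537) (nat_lit 478) (nat_lit 5) (nat_lit 489) (nat_lit 5) (nat_lit 490) (nat_lit 5) (nat_lit 260) (nat_lit 240) (nat_lit 220)) (XT.lf (nat_lit 0) (nat_lit 2370204796) (nat_lit 1008) (nat_lit 2370204796) (nat_lit 84) (nat_lit 2038181540) (nat_lit 477) (nat_lit 5) (nat_lit 489) (nat_lit 5) (nat_lit 478) (nat_lit 5) (nat_lit 261) (nat_lit 240) (nat_lit 219)))) (XT.nd (nat_lit 188) (nat_lit 2268) (nat_lit 0) (XT.nd (nat_lit 94) (nat_lit 84) (nat_lit 0) (XT.lf (nat_lit 0) (nat_lit 1752298950) (nat_lit 1008) (nat_lit 3306850585) (nat_lit 1092) (nat_lit 1752298950) (nat_lit 465) (nat_lit 5) (nat_lit 477) (nat_lit 5) (nat_lit 478) (nat_lit 5) (nat_lit 262) (nat_lit 240) (nat_lit 218)) (XT.lf (nat_lit 0) (nat_lit 900333668) (nat_lit 1092) (nat_lit 900333668) (nat_lit 84) (nat_lit 5045267224) (nat_lit 464) (nat_lit 5) (nat_lit 477) (nat_lit 5) (nat_lit 465) (nat_lit 5) (nat_lit 263) (nat_lit 240) (nat_lit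 217))) (XT.nd (nat_lit 94) (nat_lit 1176) (nat_lit 0) (XT.lf (nat_lit 0) (nat_lit 3336741312) (nat_lit 1092) (nat_lit 208306669) (nat_lit 1176) (nat_lit 3336741312) (nat_lit 451) (nat_lit 5) (nat_lit 464) (nat_lit 5) (nat_lit 465) (nat_lit 5) (nat_lit 264) (nat_lit 240) (nat_lit 216)) (XT.lf (nat_lit 0) (nat_lit 712614321) (nat_lit 1176) (nat_lit 5494111041) (nat_lit 1260) (nat_lit 712614321) (nat_lit 437) (nat_lit 5) (nat_lit 451) (nat_lit 5) (nat_lit 452) (nat_lit 5) (nat_lit 265) (nat_lit 240) (nat_lit 215))))) (XT.nd (nat_lit 376) (nat_lit 4620) (nat_lit 0) (XT.nd (nat_lit 188) (nat_lit 1428) (nat_lit 0) (XT.nd (nat_lit 94) (nat_lit 1260) (nat_lit 0) (XT.lf (nat_lit 0) (nat_lit 1906223233) (nat_lit 1260) (nat_lit 1906223233) (nat_lit 84) (nat_lit 3145723566) (nat_lit 436) (nat_lit 5) (nat_lit 451) (nat_lit 5) (nat_lit 437) (nat_lit 5) (nat_lit 266) (nat_lit 240) (nat_lit 214)) (XT.lf (nat_lit 0)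 (nat_lit 2470121517) (nat_lit 1260) (nat_lit 2058456839) (nat_lit 1344) (nat_lit 2470121517) (nat_lit 421) (nat_lit 5) (nat_lit 436) (nat_lit 5) (nat_lit 437) (nat_lit 5) (nat_lit 267) (nat_lit 240) (nat_lit 213))) (XT.nd (nat_lit 94) (nat_lit 1344) (nat_lit 0) (XT.lf (nat_lit 0) (nat_lit 119588378) (nat_lit 1344) (nat_lit 119588378) (nat_lit 84) (nat_lit 6801940956) (nat_lit 420) (nat_lit 5) (nat_lit 436) (nat_lit 5) (nat_lit 421) (nat_lit 5) (nat_lit 268) (nat_lit 240) (nat_lit 212)) (XT.lf (nat_lit 0) (nat_lit 2713742444) (nat_lit 1428) (nat_lit 2713742444) (nat_lit 84) (nat_lit 1656943964) (nat_lit 404) (nat_lit 5) (nat_lit 421) (nat_lit 5) (nat_lit 405) (nat_lit 5) (nat_lit 269) (nat_lit 240) (nat_lit 211)))) (XT.nd (nat_lit 188) (nat_lit 3108) (nat_lit 0) (XT.nd (nat_lit 94) (nat_lit 84) (nat_lit 0) (XT.lf (nat_lit 0) (nat_lit 1807519897) (nat_lit 1428) (nat_lit 3514595793) (nat_lit 1512) (nat_lit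 1807519897) (nat_lit 387) (nat_lit 5) (nat_lit 404) (nat_lit 5) (nat_lit 405) (nat_lit 5) (nat_lit 270) (nat_lit 240) (nat_lit 210)) (XT.lf (nat_lit 0) (nat_lit 762659404) (nat_lit 1512) (nat_lit 762659404) (nat_lit 84) (nat_lit 5651219788) (nat_lit 386) (nat_lit 5) (nat_lit 404) (nat_lit 5) (nat_lit 387) (nat_lit 5) (nat_lit 271) (nat_lit 240) (nat_lit 209))) (XT.nd (nat_lit 94) (nat_lit 1596) (nat_lit 0) (XT.lf (nat_lit 0) (nat_lit 3337834577) (nat_lit 1596) (nat_lit 3337834577) (nat_lit 84) (nat_lit 549063536) (nat_lit 368) (nat_lit 5) (nat_lit 387) (nat_lit 5) (nat_lit 369) (nat_lit 5) (nat_lit 272) (nat_lit 240) (nat_lit 208)) (XT.lf (nat_lit 0) (nat_lit 1334390154) (nat_lit 1596) (nat_lit 4605853973) (nat_lit 1680) (nat_lit 1334390154) (nat_lit 349) (nat_lit 5) (nat_lit 368) (nat_lit 5) (nat_lit 369) (nat_lit 5) (nat_lit 273) (nat_lit 240) (nat_lit 207)))))) (XT.nd (nat_lit 658) (nat_lit 5376)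 (nat_lit 0) (XT.nd (nat_lit 282) (nat_lit 3108) (nat_lit 0) (XT.nd (nat_lit 94) (nat_lit 3444) (nat_lit 0) (XT.lf (nat_lit 0) (nat_lit 1225496522) (nat_lit 1680) (nat_lit 1225496522) (nat_lit 84) (nat_lit 4875110273) (nat_lit 348) (nat_lit 5) (nat_lit 368) (nat_lit 5) (nat_lit 349) (nat_lit 5) (nat_lit 274) (nat_lit 240) (nat_lit 206)) (XT.nd (nat_lit 94) (nat_lit 1764) (nat_lit 0) (XT.lf (nat_lit 0) (nat_lit 3585586381) (nat_lit 1680) (nat_lit 207945774) (nat_lit 1764) (nat_lit 3585586381) (nat_lit 328) (nat_lit 5) (nat_lit 348) (nat_lit 5) (nat_lit 349) (nat_lit 5) (nat_lit 275) (nat_lit 240) (nat_lit 205)) (XT.lf (nat_lit 0) (nat_lit 1037581337) (nat_lit 1764) (nat_lit 5358618442) (nat_lit 1848) (nat_lit 1037581337) (nat_lit 307) (nat_lit 5) (nat_lit 328) (nat_lit 5) (nat_lit 329) (nat_lit 5) (nat_lit 276) (nat_lit 240) (nat_lit 204)))) (XT.nd (nat_lit 188) (nat_lit 1176) (nat_lit 0) (XT.nd (nat_lit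 94) (nat_lit 1848) (nat_lit 0) (XT.lf (nat_lit 0) (nat_lit 1520843293) (nat_lit 1848) (nat_lit 1520843293) (nat_lit 84) (nat_lit 4448221834) (nat_lit 306) (nat_lit 5) (nat_lit 328) (nat_lit 5) (nat_lit 307) (nat_lit 5) (nat_lit 277) (nat_lit 240) (nat_lit 203)) (XT.lf (nat_lit 0) (nat_lit 3454488188) (nat_lit 1848) (nat_lit 638723473) (nat_lit 1932) (nat_lit 3454488188) (nat_lit 284) (nat_lit 5) (nat_lit 306) (nat_lit 5) (nat_lit 307) (nat_lit 5) (nat_lit 278) (nat_lit 240) (nat_lit 202))) (XT.nd (nat_lit 94) (nat_lit 84) (nat_lit 0) (XT.lf (nat_lit 0) (nat_lit 905228075) (nat_lit 1092) (nat_lit 5796750793) (nat_lit 1176) (nat_lit 905228075) (nat_lit 271) (nat_lit 5) (nat_lit 284) (nat_lit 5) (nat_lit 285) (nat_lit 5) (nat_lit 279) (nat_lit 240) (nat_lit 201)) (XT.lf (nat_lit 0) (nat_lit 1660207273) (nat_lit 1176) (nat_lit 1660207273) (nat_lit 84) (nat_lit 4347681492) (nat_lit 270) (nat_lit 5) (nat_lit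 284) (nat_lit 5) (nat_lit 271) (nat_lit 5) (nat_lit 280) (nat_lit 240) (nat_lit 200))))) (XT.nd (nat_lit 376) (nat_lit 2604) (nat_lit 0) (XT.nd (nat_lit 188) (nat_lit 924) (nat_lit 0) (XT.nd (nat_lit 94) (nat_lit 924) (nat_lit 0) (XT.lf (nat_lit 0) (nat_lit 3486565712) (nat_lit 924) (nat_lit 757589529) (nat_lit 1008) (nat_lit 3486565712) (nat_lit 259) (nat_lit 5) (nat_lit 270) (nat_lit 5) (nat_lit 271) (nat_lit 5) (nat_lit 281) (nat_lit 240) (nat_lit 199)) (XT.lf (nat_lit 0) (nat_lit 926650281) (nat_lit 924) (nat_lit 5941786352) (nat_lit 1008) (nat_lit 926650281) (nat_lit 248) (nat_lit 5) (nat_lit 259) (nat_lit 5) (nat_lit 260) (nat_lit 5) (nat_lit 282) (nat_lit 240) (nat_lit 198))) (XT.nd (nat_lit 94) (nat_lit 840) (nat_lit 0) (XT.lf (nat_lit 0) (nat_lit 1653956888) (nat_lit 1008) (nat_lit 1653956888) (nat_lit 84) (nat_lit 4552938776) (nat_lit 247) (nat_lit 5) (nat_lit 259) (nat_lit 5) (nat_lit 248)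 (nat_lit 5) (nat_lit 283) (nat_lit 240) (nat_lit 197)) (XT.lf (nat_lit 0) (nat_lit 3671871716) (nat_lit 840) (nat_lit 584639283) (nat_lit 924) (nat_lit 3671871716) (nat_lit 237) (nat_lit 5) (nat_lit 247) (nat_lit 5) (nat_lit 248) (nat_lit 5) (nat_lit 284) (nat_lit 240) (nat_lit 196)))) (XT.nd (nat_lit 188) (nat_lit 1680) (nat_lit 0) (XT.nd (nat_lit 94) (nat_lit 84) (nat_lit 0) (XT.lf (nat_lit 0) (nat_lit 1092261553) (nat_lit 840) (nat_lit 5813116194) (nat_lit 924) (nat_lit 1092261553) (nat_lit 227) (nat_lit 5) (nat_lit 237) (nat_lit 5) (nat_lit 238) (nat_lit 5) (nat_lit 285) (nat_lit 240) (nat_lit 195)) (XT.lf (nat_lit 0) (nat_lit 1511409914) (nat_lit 924) (nat_lit 1511409914) (nat_lit 84) (nat_lit 5045587629) (nat_lit 226) (nat_lit 5) (nat_lit 237) (nat_lit 5) (nat_lit 227) (nat_lit 5) (nat_lit 286) (nat_lit 240) (nat_lit 194))) (XT.nd (nat_lit 94) (nat_lit 840) (nat_lit 0) (XT.lf (nat_lit 0) (nat_lit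 4001517932) (nat_lit 840) (nat_lit 137892923) (nat_lit 924) (nat_lit 4001517932) (nat_lit 216) (nat_lit 5) (nat_lit 226) (nat_lit 5) (nat_lit 227) (nat_lit 5) (nat_lit 287) (nat_lit 240) (nat_lit 193)) (XT.lf (nat_lit 0) (nat_lit 1393485572) (nat_lit 840) (nat_lit 5428153396) (nat_lit 924) (nat_lit 1393485572) (nat_lit 206) (nat_lit 5) (nat_lit 216) (nat_lit 5) (nat_lit 217) (nat_lit 5) (nat_lit 288) (nat_lit 240) (nat_lit 192))))))))
noncomputable def xc23 : XT := (XT.nd (nat_lit 41172) (nat_lit 0) (nat_lit 21588) (XT.nd (nat_lit 1410) (nat_lit 4032) (nat_lit 0) (XT.nd (nat_lit 658) (nat_lit 4032) (nat_lit 0) (XT.nd (nat_lit 282) (nat_lit 1680) (nat_lit 0) (XT.nd (nat_lit 94) (nat_lit 1512) (nat_lit 0) (XT.lf (nat_lit 0) (nat_lit 1240914266) (nat_lit 924) (nat_lit 1240914266) (nat_lit 84) (nat_lit 5809203912) (nat_lit 205) (nat_lit 5) (nat_lit 216) (nat_lit 5) (nat_lit 206) (nat_lit 5) (nat_lit 289)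 (nat_lit 240) (nat_lit 191)) (XT.nd (nat_lit 94) (nat_lit 756) (nat_lit 0) (XT.lf (nat_lit 0) (nat_lit 3905084838) (nat_lit 840) (nat_lit 3905084838) (nat_lit 84) (nat_lit 558386292) (nat_lit 196) (nat_lit 5) (nat_lit 206) (nat_lit 5) (nat_lit 197) (nat_lit 5) (nat_lit 290) (nat_lit 240) (nat_lit 190)) (XT.lf (nat_lit 0) (nat_lit 1822679833) (nat_lit 756) (nat_lit 4802484801) (nat_lit 840) (nat_lit 1822679833) (nat_lit 187) (nat_lit 5) (nat_lit 196) (nat_lit 5) (nat_lit 197) (nat_lit 5) (nat_lit 291) (nat_lit 240) (nat_lit 189)))) (XT.nd (nat_lit 188) (nat_lit 840) (nat_lit 0) (XT.nd (nat_lit 94) (nat_lit 756) (nat_lit 0) (XT.lf (nat_lit 0) (nat_lit 849921717) (nat_lit 840) (nat_lit 849921717) (nat_lit 84) (nat_lit 6829197237) (nat_lit 186) (nat_lit 5) (nat_lit 196) (nat_lit 5) (nat_lit 187) (nat_lit 5) (nat_lit 292) (nat_lit 240) (nat_lit 188)) (XT.lf (nat_lit 0) (nat_lit 3559541724) (nat_lit 840) (nat_lit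 3559541724) (nat_lit 84) (nat_lit 1492536702) (nat_lit 177) (nat_lit 5) (nat_lit 187) (nat_lit 5) (nat_lit 178) (nat_lit 5) (nat_lit 293) (nat_lit 240) (nat_lit 187))) (XT.nd (nat_lit 94) (nat_lit 84) (nat_lit 0) (XT.lf (nat_lit 0) (nat_lit 2373066119) (nat_lit 756) (nat_lit 3950009491) (nat_lit 840) (nat_lit 2373066119) (nat_lit 168) (nat_lit 5) (nat_lit 177) (nat_lit 5) (nat_lit 178) (nat_lit 5) (nat_lit 294) (nat_lit 240) (nat_lit 186)) (XT.lf (nat_lit 0) (nat_lit 345055121) (nat_lit 840) (nat_lit 345055121) (nat_lit 84) (nat_lit 8092675982) (nat_lit 167) (nat_lit 5) (nat_lit 177) (nat_lit 5) (nat_lit 168) (nat_lit 5) (nat_lit 295) (nat_lit 240) (nat_lit 185))))) (XT.nd (nat_lit 376) (nat_lit 1932) (nat_lit 0) (XT.nd (nat_lit 188) (nat_lit 756) (nat_lit 0) (XT.nd (nat_lit 94) (nat_lit 672) (nat_lit 0) (XT.lf (nat_lit 0) (nat_lit 3108237279) (nat_lit 756) (nat_lit 3108237279) (nat_lit 84) (nat_lit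 2654038006) (nat_lit 159) (nat_lit 5) (nat_lit 168) (nat_lit 5) (nat_lit 160) (nat_lit 5) (nat_lit 296) (nat_lit 240) (nat_lit 184)) (XT.lf (nat_lit 0) (nat_lit 3038667174) (nat_lit 672) (nat_lit 2883065035) (nat_lit 756) (nat_lit 3038667174) (nat_lit 151) (nat_lit 5) (nat_lit 159) (nat_lit 5) (nat_lit 160) (nat_lit 5) (nat_lit 297) (nat_lit 240) (nat_lit 183))) (XT.nd (nat_lit 94) (nat_lit 84) (nat_lit 0) (XT.lf (nat_lit 0) (nat_lit 265894633) (nat_lit 672) (nat_lit 8520705964) (nat_lit 756) (nat_lit 265894633) (nat_lit 143) (nat_lit 5) (nat_lit 151) (nat_lit 5) (nat_lit 152) (nat_lit 5) (nat_lit 298) (nat_lit 240) (nat_lit 182)) (XT.lf (nat_lit 0) (nat_lit 2556879808) (nat_lit 756) (nat_lit 2556879808) (nat_lit 84) (nat_lit 4031883448) (nat_lit 142) (nat_lit 5) (nat_lit 151) (nat_lit 5) (nat_lit 143) (nat_lit 5) (nat_lit 299) (nat_lit 240) (nat_lit 181)))) (XT.nd (nat_lit 188) (nat_lit 672) (nat_lit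 0) (XT.nd (nat_lit 94) (nat_lit 588) (nat_lit 0) (XT.lf (nat_lit 0) (nat_lit 3814249072) (nat_lit 672) (nat_lit 1612542515) (nat_lit 756) (nat_lit 3814249072) (nat_lit 134) (nat_lit 5) (nat_lit 142) (nat_lit 5) (nat_lit 143) (nat_lit 5) (nat_lit 300) (nat_lit 240) (nat_lit 180)) (XT.lf (nat_lit 0) (nat_lit 976482603) (nat_lit 588) (nat_lit 7385524159) (nat_lit 672) (nat_lit 976482603) (nat_lit 127) (nat_lit 5) (nat_lit 134) (nat_lit 5) (nat_lit 135) (nat_lit 5) (nat_lit 301) (nat_lit 240) (nat_lit 179))) (XT.nd (nat_lit 94) (nat_lit 588) (nat_lit 0) (XT.lf (nat_lit 0) (nat_lit 1910501520) (nat_lit 672) (nat_lit 1910501520) (nat_lit 84) (nat_lit 5616458557) (nat_lit 126) (nat_lit 5) (nat_lit 134) (nat_lit 5) (nat_lit 127) (nat_lit 5) (nat_lit 302) (nat_lit 240) (nat_lit 178)) (XT.lf (nat_lit 0) (nat_lit 4695268821) (nat_lit 588) (nat_lit 147991221) (nat_lit 672) (nat_lit 4695268821) (nat_lit 119) (nat_lit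 5) (nat_lit 126) (nat_lit 5) (nat_lit 127) (nat_lit 5) (nat_lit 303) (nat_lit 240) (nat_lit 177)))))) (XT.nd (nat_lit 658) (nat_lit 1092) (nat_lit 0) (XT.nd (nat_lit 282) (nat_lit 1680) (nat_lit 0) (XT.nd (nat_lit 94) (nat_lit 672) (nat_lit 0) (XT.lf (nat_lit 0) (nat_lit 1784752877) (nat_lit 588) (nat_lit 6071958079) (nat_lit 672) (nat_lit 1784752877) (nat_lit 112) (nat_lit 5) (nat_lit 119) (nat_lit 5) (nat_lit 120) (nat_lit 5) (nat_lit 304) (nat_lit 240) (nat_lit 176)) (XT.nd (nat_lit 94) (nat_lit 588) (nat_lit 0) (XT.lf (nat_lit 0) (nat_lit 1173507317) (nat_lit 672) (nat_lit 1173507317) (nat_lit 84) (nat_lit 7399443591) (nat_lit 111) (nat_lit 5) (nat_lit 119) (nat_lit 5) (nat_lit 112) (nat_lit 5) (nat_lit 305) (nat_lit 240) (nat_lit 175)) (XT.lf (nat_lit 0) (nat_lit 4186241798) (nat_lit 672) (nat_lit 4186241798) (nat_lit 84) (nat_lit 1480648439) (nat_lit 104) (nat_lit 5) (nat_lit 112) (nat_lit 5) (nat_lit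 105) (nat_lit 5) (nat_lit 306) (nat_lit 240) (nat_lit 174)))) (XT.nd (nat_lit 188) (nat_lit 1092) (nat_lit 0) (XT.nd (nat_lit 94) (nat_lit 84) (nat_lit 0) (XT.lf (nat_lit 0) (nat_lit 2686866353) (nat_lit 504) (nat_lit 4588204054) (nat_lit 588) (nat_lit 2686866353) (nat_lit 98) (nat_lit 5) (nat_lit 104) (nat_lit 5) (nat_lit 105) (nat_lit 5) (nat_lit 307) (nat_lit 240) (nat_lit 173)) (XT.lf (nat_lit 0) (nat_lit 349719152) (nat_lit 588) (nat_lit 349719152) (nat_lit 84) (nat_lit 9373724983) (nat_lit 97) (nat_lit 5) (nat_lit 104) (nat_lit 5) (nat_lit 98) (nat_lit 5) (nat_lit 308) (nat_lit 240) (nat_lit 172))) (XT.nd (nat_lit 94) (nat_lit 504) (nat_lit 0) (XT.lf (nat_lit 0) (nat_lit 3451205194) (nat_lit 672) (nat_lit 3451205194) (nat_lit 84) (nat_lit 3283167858) (nat_lit 90) (nat_lit 5) (nat_lit 98) (nat_lit 5) (nat_lit 91) (nat_lit 5) (nat_lit 309) (nat_lit 240) (nat_lit 171)) (XT.lf (nat_lit 0) (nat_lit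 3679553055) (nat_lit 504) (nat_lit 2941360456) (nat_lit 588) (nat_lit 3679553055) (nat_lit 84) (nat_lit 5) (nat_lit 90) (nat_lit 5) (nat_lit 91) (nat_lit 5) (nat_lit 310) (nat_lit 240) (nat_lit 170))))) (XT.nd (nat_lit 38728) (nat_lit 0) (nat_lit 39900) (XT.nd (nat_lit 188) (nat_lit 504) (nat_lit 0) (XT.nd (nat_lit 94) (nat_lit 84) (nat_lit 0) (XT.lf (nat_lit 0) (nat_lit 553553851) (nat_lit 504) (nat_lit 9310689198) (nat_lit 588) (nat_lit 553553851) (nat_lit 78) (nat_lit 5) (nat_lit 84) (nat_lit 5) (nat_lit 85) (nat_lit 5) (nat_lit 311) (nat_lit 240) (nat_lit 169)) (XT.lf (nat_lit 0) (nat_lit 2640375613) (nat_lit 588) (nat_lit 2640375613) (nat_lit 84) (nat_lit 5255724962) (nat_lit 77) (nat_lit 5) (nat_lit 84) (nat_lit 5) (nat_lit 78) (nat_lit 5) (nat_lit 312) (nat_lit 240) (nat_lit 168))) (XT.nd (nat_lit 38446) (nat_lit 0) (nat_lit 40404) (XT.lf (nat_lit 0) (nat_lit 4760074522) (nat_lit 504) (nat_lit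 1137503317) (nat_lit 588) (nat_lit 4760074522) (nat_lit 71) (nat_lit 5) (nat_lit 77) (nat_lit 5) (nat_lit 78) (nat_lit 5) (nat_lit 313) (nat_lit 240) (nat_lit 167)) (XT.lf (nat_lit 0) (nat_lit 1587582445) (nat_lit 0) (nat_lit 1587582445) (nat_lit 84) (nat_lit 47073913) (nat_lit 552) (nat_lit 5) (nat_lit 552) (nat_lit 3) (nat_lit 553) (nat_lit 0) (nat_lit 241) (nat_lit 241) (nat_lit 238)))) (XT.nd (nat_lit 188) (nat_lit 252) (nat_lit 0) (XT.nd (nat_lit 94) (nat_lit 0) (nat_lit 0) (XT.lf (nat_lit 0) (nat_lit 2990222738) (nat_lit 252) (nat_lit 46395899) (nat_lit 252) (nat_lit 3410914365) (nat_lit 549) (nat_lit 3) (nat_lit 552) (nat_lit 3) (nat_lit 552) (nat_lit 5) (nat_lit 242) (nat_lit 241) (nat_lit 237)) (XT.lf (nat_lit 84) (nat_lit 3248125887) (nat_lit 0) (nat_lit 2827235028) (nat_lit 252) (nat_lit 376725081) (nat_lit 550) (nat_lit 5) (nat_lit 549) (nat_lit 3) (nat_lit 552) (nat_lit 5) (nat_lit 243)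 (nat_lit 241) (nat_lit 236))) (XT.nd (nat_lit 94) (nat_lit 0) (nat_lit 0) (XT.lf (nat_lit 84) (nat_lit 94348531) (nat_lit 0) (nat_lit 2550497719) (nat_lit 336) (nat_lit 3813369621) (nat_lit 547) (nat_lit 5) (nat_lit 546) (nat_lit 5) (nat_lit 550) (nat_lit 5) (nat_lit 244) (nat_lit 241) (nat_lit 235)) (XT.lf (nat_lit 84) (nat_lit 3464270671) (nat_lit 0) (nat_lit 2200402140) (nat_lit 336) (nat_lit 801126281) (nat_lit 547) (nat_lit 5) (nat_lit 546) (nat_lit 5) (nat_lit 550) (nat_lit 5) (nat_lit 245) (nat_lit 241) (nat_lit 234))))))) (XT.nd (nat_lit 1410) (nat_lit 13440) (nat_lit 0) (XT.nd (nat_lit 658) (nat_lit 3192) (nat_lit 0) (XT.nd (nat_lit 282) (nat_lit 924) (nat_lit 0) (XT.nd (nat_lit 94) (nat_lit 420) (nat_lit 0) (XT.lf (nat_lit 84) (nat_lit 377729073) (nat_lit 0) (nat_lit 1784470029) (nat_lit 420) (nat_lit 4312805636) (nat_lit 543) (nat_lit 5) (nat_lit 542) (nat_lit 5) (nat_lit 547) (nat_lit 5)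 (nat_lit 246) (nat_lit 241) (nat_lit 233)) (XT.nd (nat_lit 94) (nat_lit 420) (nat_lit 0) (XT.lf (nat_lit 84) (nat_lit 3824304571) (nat_lit 0) (nat_lit 1293176417) (nat_lit 420) (nat_lit 1368155382) (nat_lit 543) (nat_lit 5) (nat_lit 542) (nat_lit 5) (nat_lit 547) (nat_lit 5) (nat_lit 247) (nat_lit 241) (nat_lit 232)) (XT.lf (nat_lit 84) (nat_lit 803939455) (nat_lit 0) (nat_lit 737056286) (nat_lit 504) (nat_lit 4956935071) (nat_lit 538) (nat_lit 5) (nat_lit 537) (nat_lit 5) (nat_lit 543) (nat_lit 5) (nat_lit 248) (nat_lit 241) (nat_lit 231)))) (XT.nd (nat_lit 188) (nat_lit 504) (nat_lit 0) (XT.nd (nat_lit 94) (nat_lit 420) (nat_lit 0) (XT.lf (nat_lit 84) (nat_lit 4329270554) (nat_lit 0) (nat_lit 103402072) (nat_lit 504) (nat_lit 2078953380) (nat_lit 538) (nat_lit 5) (nat_lit 537) (nat_lit 5) (nat_lit 543) (nat_lit 5) (nat_lit 249) (nat_lit 241) (nat_lit 230)) (XT.lf (nat_lit 0) (nat_lit 784188737) (nat_lit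 504) (nat_lit 5157070185) (nat_lit 84) (nat_lit 585674596) (nat_lit 532) (nat_lit 5) (nat_lit 538) (nat_lit 5) (nat_lit 533) (nat_lit 5) (nat_lit 250) (nat_lit 241) (nat_lit 229))) (XT.nd (nat_lit 94) (nat_lit 504) (nat_lit 0) (XT.lf (nat_lit 0) (nat_lit 3618575695) (nat_lit 504) (nat_lit 1573024828) (nat_lit 84) (nat_lit 1351989433) (nat_lit 532) (nat_lit 5) (nat_lit 538) (nat_lit 5) (nat_lit 533) (nat_lit 5) (nat_lit 251) (nat_lit 241) (nat_lit 228)) (XT.lf (nat_lit 0) (nat_lit 2073132704) (nat_lit 504) (nat_lit 4380504072) (nat_lit 588) (nat_lit 108333073) (nat_lit 526) (nat_lit 5) (nat_lit 532) (nat_lit 5) (nat_lit 533) (nat_lit 5) (nat_lit 252) (nat_lit 241) (nat_lit 227))))) (XT.nd (nat_lit 376) (nat_lit 1764) (nat_lit 0) (XT.nd (nat_lit 188) (nat_lit 756) (nat_lit 0) (XT.nd (nat_lit 94) (nat_lit 588) (nat_lit 0) (XT.lf (nat_lit 0) (nat_lit 2666436616) (nat_lit 588) (nat_lit 824683321) (nat_lit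 84) (nat_lit 3090607518) (nat_lit 525) (nat_lit 5) (nat_lit 532) (nat_lit 5) (nat_lit 526) (nat_lit 5) (nat_lit 253) (nat_lit 241) (nat_lit 226)) (XT.lf (nat_lit 0) (nat_lit 2914931396) (nat_lit 588) (nat_lit 2532437449) (nat_lit 672) (nat_lit 1155705865) (nat_lit 518) (nat_lit 5) (nat_lit 525) (nat_lit 5) (nat_lit 526) (nat_lit 5) (nat_lit 254) (nat_lit 241) (nat_lit 225))) (XT.nd (nat_lit 94) (nat_lit 0) (nat_lit 0) (XT.lf (nat_lit 0) (nat_lit 66348278) (nat_lit 672) (nat_lit 1507559626) (nat_lit 756) (nat_lit 5052190388) (nat_lit 509) (nat_lit 5) (nat_lit 517) (nat_lit 5) (nat_lit 518) (nat_lit 5) (nat_lit 255) (nat_lit 241) (nat_lit 224)) (XT.lf (nat_lit 0) (nat_lit 3903243011) (nat_lit 672) (nat_lit 398429392) (nat_lit 756) (nat_lit 2348758443) (nat_lit 509) (nat_lit 5) (nat_lit 517) (nat_lit 5) (nat_lit 518) (nat_lit 5) (nat_lit 256) (nat_lit 241) (nat_lit 223)))) (XT.nd (nat_lit 188) (nat_lit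 924) (nat_lit 0) (XT.nd (nat_lit 94) (nat_lit 0) (nat_lit 0) (XT.lf (nat_lit 0) (nat_lit 350587267) (nat_lit 840) (nat_lit 5566515493) (nat_lit 84) (nat_lit 759398184) (nat_lit 499) (nat_lit 5) (nat_lit 509) (nat_lit 5) (nat_lit 500) (nat_lit 5) (nat_lit 257) (nat_lit 241) (nat_lit 222)) (XT.lf (nat_lit 0) (nat_lit 3028417860) (nat_lit 840) (nat_lit 1677938080) (nat_lit 84) (nat_lit 1997431659) (nat_lit 499) (nat_lit 5) (nat_lit 509) (nat_lit 5) (nat_lit 500) (nat_lit 5) (nat_lit 258) (nat_lit 241) (nat_lit 221))) (XT.nd (nat_lit 94) (nat_lit 84) (nat_lit 0) (XT.lf (nat_lit 0) (nat_lit 2281952606) (nat_lit 840) (nat_lit 3431295893) (nat_lit 924) (nat_lit 1019568131) (nat_lit 489) (nat_lit 5) (nat_lit 499) (nat_lit 5) (nat_lit 500) (nat_lit 5) (nat_lit 259) (nat_lit 241) (nat_lit 220)) (XT.lf (nat_lit 0) (nat_lit 1615215820) (nat_lit 924) (nat_lit 468101268) (nat_lit 84) (nat_lit 4680112448) (nat_lit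 488) (nat_lit 5) (nat_lit 499) (nat_lit 5) (nat_lit 489) (nat_lit 5) (nat_lit 260) (nat_lit 241) (nat_lit 219)))))) (XT.nd (nat_lit 658) (nat_lit 7812) (nat_lit 0) (XT.nd (nat_lit 282) (nat_lit 3612) (nat_lit 0) (XT.nd (nat_lit 94) (nat_lit 1092) (nat_lit 0) (XT.lf (nat_lit 0) (nat_lit 3599989940) (nat_lit 924) (nat_lit 652543228) (nat_lit 1008) (nat_lit 2542908789) (nat_lit 477) (nat_lit 5) (nat_lit 488) (nat_lit 5) (nat_lit 489) (nat_lit 5) (nat_lit 261) (nat_lit 241) (nat_lit 218)) (XT.nd (nat_lit 94) (nat_lit 0) (nat_lit 0) (XT.lf (nat_lit 0) (nat_lit 68417613) (nat_lit 1092) (nat_lit 5934086239) (nat_lit 84) (nat_lit 826726599) (nat_lit 464) (nat_lit 5) (nat_lit 477) (nat_lit 5) (nat_lit 465) (nat_lit 5) (nat_lit 262) (nat_lit 241) (nat_lit 217)) (XT.lf (nat_lit 0) (nat_lit 2664035741) (nat_lit 1092) (nat_lit 1811757300) (nat_lit 84) (nat_lit 2388347947) (nat_lit 464) (nat_lit 5) (nat_lit 477) (nat_lit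 5) (nat_lit 465) (nat_lit 5) (nat_lit 263) (nat_lit 241) (nat_lit 216)))) (XT.nd (nat_lit 188) (nat_lit 2436) (nat_lit 0) (XT.nd (nat_lit 94) (nat_lit 84) (nat_lit 0) (XT.lf (nat_lit 0) (nat_lit 2388167040) (nat_lit 1092) (nat_lit 2882734306) (nat_lit 1176) (nat_lit 1629927047) (nat_lit 451) (nat_lit 5) (nat_lit 464) (nat_lit 5) (nat_lit 465) (nat_lit 5) (nat_lit 264) (nat_lit 241) (nat_lit 215)) (XT.lf (nat_lit 0) (nat_lit 933617309) (nat_lit 1176) (nat_lit 285737955) (nat_lit 84) (nat_lit 5719885503) (nat_lit 450) (nat_lit 5) (nat_lit 464) (nat_lit 5) (nat_lit 451) (nat_lit 5) (nat_lit 265) (nat_lit 241) (nat_lit 214))) (XT.nd (nat_lit 94) (nat_lit 1260) (nat_lit 0) (XT.lf (nat_lit 0) (nat_lit 3501156791) (nat_lit 1260) (nat_lit 2949384730) (nat_lit 84) (nat_lit 528320671) (nat_lit 436) (nat_lit 5) (nat_lit 451) (nat_lit 5) (nat_lit 437) (nat_lit 5) (nat_lit 266) (nat_lit 241) (nat_lit 213)) (XT.lf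 (nat_lit 0) (nat_lit 1387579622) (nat_lit 1260) (nat_lit 4698604410) (nat_lit 1344) (nat_lit 934029215) (nat_lit 421) (nat_lit 5) (nat_lit 436) (nat_lit 5) (nat_lit 437) (nat_lit 5) (nat_lit 267) (nat_lit 241) (nat_lit 212))))) (XT.nd (nat_lit 376) (nat_lit 4872) (nat_lit 0) (XT.nd (nat_lit 188) (nat_lit 1512) (nat_lit 0) (XT.nd (nat_lit 94) (nat_lit 1344) (nat_lit 0) (XT.lf (nat_lit 0) (nat_lit 1604196506) (nat_lit 1344) (nat_lit 1258631069) (nat_lit 84) (nat_lit 4200208699) (nat_lit 420) (nat_lit 5) (nat_lit 436) (nat_lit 5) (nat_lit 421) (nat_lit 5) (nat_lit 268) (nat_lit 241) (nat_lit 211)) (XT.lf (nat_lit 0) (nat_lit 3203365180) (nat_lit 1344) (nat_lit 945880273) (nat_lit 1428) (nat_lit 2958182273) (nat_lit 404) (nat_lit 5) (nat_lit 420) (nat_lit 5) (nat_lit 421) (nat_lit 5) (nat_lit 269) (nat_lit 241) (nat_lit 210))) (XT.nd (nat_lit 94) (nat_lit 84) (nat_lit 0) (XT.lf (nat_lit 0) (nat_lit 582275191)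 (nat_lit 1428) (nat_lit 6131637572) (nat_lit 1512) (nat_lit 439683230) (nat_lit 387) (nat_lit 5) (nat_lit 404) (nat_lit 5) (nat_lit 405) (nat_lit 5) (nat_lit 270) (nat_lit 241) (nat_lit 209)) (XT.lf (nat_lit 0) (nat_lit 2082790057) (nat_lit 1512) (nat_lit 2045858536) (nat_lit 84) (nat_lit 3072252157) (nat_lit 386) (nat_lit 5) (nat_lit 404) (nat_lit 5) (nat_lit 387) (nat_lit 5) (nat_lit 271) (nat_lit 241) (nat_lit 208)))) (XT.nd (nat_lit 188) (nat_lit 3360) (nat_lit 0) (XT.nd (nat_lit 94) (nat_lit 0) (nat_lit 0) (XT.lf (nat_lit 0) (nat_lit 2564926972) (nat_lit 1512) (nat_lit 2052222423) (nat_lit 1596) (nat_lit 2632843398) (nat_lit 368) (nat_lit 5) (nat_lit 386) (nat_lit 5) (nat_lit 387) (nat_lit 5) (nat_lit 272) (nat_lit 241) (nat_lit 207)) (XT.lf (nat_lit 0) (nat_lit 7168479782) (nat_lit 1596) (nat_lit 41617106) (nat_lit 84) (nat_lit 90921238) (nat_lit 368) (nat_lit 5) (nat_lit 387) (nat_lit 5) (nat_lit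 369) (nat_lit 5) (nat_lit 273) (nat_lit 241) (nat_lit 206))) (XT.nd (nat_lit 94) (nat_lit 1680) (nat_lit 0) (XT.lf (nat_lit 0) (nat_lit 2382995387) (nat_lit 1680) (nat_lit 2661452364) (nat_lit 84) (nat_lit 2308446002) (nat_lit 348) (nat_lit 5) (nat_lit 368) (nat_lit 5) (nat_lit 349) (nat_lit 5) (nat_lit 274) (nat_lit 241) (nat_lit 205)) (XT.lf (nat_lit 0) (nat_lit 2104431187) (nat_lit 1680) (nat_lit 2809885338) (nat_lit 1764) (nat_lit 2492400166) (nat_lit 328) (nat_lit 5) (nat_lit 348) (nat_lit 5) (nat_lit 349) (nat_lit 5) (nat_lit 275) (nat_lit 241) (nat_lit 204))))))))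
noncomputable def xc24 : XT := (XT.nd (nat_lit 2820) (nat_lit 3360) (nat_lit 0) (XT.nd (nat_lit 1410) (nat_lit 7140) (nat_lit 0) (XT.nd (nat_lit 658) (nat_lit 5292) (nat_lit 0) (XT.nd (nat_lit 282) (nat_lit 2100) (nat_lit 0) (XT.nd (nat_lit 94) (nat_lit 3612) (nat_lit 0) (XT.lf (nat_lit 0) (nat_lit 6348942) (nat_lit 1764) (nat_lit 495478341) (nat_lit 84) (nat_lit 6960609284) (nat_lit 327) (nat_lit 5) (nat_lit 348) (nat_lit 5) (nat_lit 328) (nat_lit 5) (nat_lit 276) (nat_lit 241) (nat_lit 203)) (XT.nd (nat_lit 94) (nat_lit 1848) (nat_lit 0) (XT.lf (nat_lit 0) (nat_lit 2517090788) (nat_lit 1848) (nat_lit 3118141455) (nat_lit 84) (nat_lit 1883889270) (nat_lit 306) (nat_lit 5) (nat_lit 328) (nat_lit 5) (nat_lit 307) (nat_lit 5) (nat_lit 277) (nat_lit 241) (nat_lit 202)) (XT.lf (nat_lit 0) (nat_lit 1809551258) (nat_lit 1848) (nat_lit 3243184148) (nat_lit 1932) (nat_lit 2524985459) (nat_lit 284) (nat_lit 5)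 (nat_lit 306) (nat_lit 5) (nat_lit 307) (nat_lit 5) (nat_lit 278) (nat_lit 241) (nat_lit 201)))) (XT.nd (nat_lit 188) (nat_lit 924) (nat_lit 0) (XT.nd (nat_lit 94) (nat_lit 1176) (nat_lit 0) (XT.lf (nat_lit 0) (nat_lit 6844153418) (nat_lit 1848) (nat_lit 773225356) (nat_lit 1932) (nat_lit 20819910) (nat_lit 284) (nat_lit 5) (nat_lit 306) (nat_lit 5) (nat_lit 307) (nat_lit 5) (nat_lit 279) (nat_lit 241) (nat_lit 200)) (XT.lf (nat_lit 0) (nat_lit 2496138829) (nat_lit 1176) (nat_lit 3427455800) (nat_lit 84) (nat_lit 1776140795) (nat_lit 270) (nat_lit 5) (nat_lit 284) (nat_lit 5) (nat_lit 271) (nat_lit 5) (nat_lit 280) (nat_lit 241) (nat_lit 199))) (XT.nd (nat_lit 94) (nat_lit 0) (nat_lit 0) (XT.lf (nat_lit 0) (nat_lit 1669165222) (nat_lit 924) (nat_lit 3374052277) (nat_lit 1008) (nat_lit 2719953966) (nat_lit 259) (nat_lit 5) (nat_lit 270) (nat_lit 5) (nat_lit 271) (nat_lit 5) (nat_lit 281) (nat_lit 241)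 (nat_lit 198)) (XT.lf (nat_lit 0) (nat_lit 6880973219) (nat_lit 924) (nat_lit 743000122) (nat_lit 1008) (nat_lit 204521646) (nat_lit 259) (nat_lit 5) (nat_lit 270) (nat_lit 5) (nat_lit 271) (nat_lit 5) (nat_lit 282) (nat_lit 241) (nat_lit 197))))) (XT.nd (nat_lit 376) (nat_lit 2520) (nat_lit 0) (XT.nd (nat_lit 188) (nat_lit 924) (nat_lit 0) (XT.nd (nat_lit 94) (nat_lit 840) (nat_lit 0) (XT.lf (nat_lit 0) (nat_lit 2330080803) (nat_lit 1008) (nat_lit 3599821751) (nat_lit 84) (nat_lit 1965028188) (nat_lit 247) (nat_lit 5) (nat_lit 259) (nat_lit 5) (nat_lit 248) (nat_lit 5) (nat_lit 283) (nat_lit 241) (nat_lit 196)) (XT.lf (nat_lit 0) (nat_lit 1673261759) (nat_lit 840) (nat_lit 3222227295) (nat_lit 924) (nat_lit 3067789061) (nat_lit 237) (nat_lit 5) (nat_lit 247) (nat_lit 5) (nat_lit 248) (nat_lit 5) (nat_lit 284) (nat_lit 241) (nat_lit 195))) (XT.nd (nat_lit 94) (nat_lit 924) (nat_lit 0) (XT.lf (nat_lit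 0) (nat_lit 7068022582) (nat_lit 840) (nat_lit 430235174) (nat_lit 924) (nat_lit 535291101) (nat_lit 237) (nat_lit 5) (nat_lit 247) (nat_lit 5) (nat_lit 248) (nat_lit 5) (nat_lit 285) (nat_lit 241) (nat_lit 194)) (XT.lf (nat_lit 0) (nat_lit 2027822976) (nat_lit 924) (nat_lit 3644649107) (nat_lit 84) (nat_lit 2432473423) (nat_lit 226) (nat_lit 5) (nat_lit 237) (nat_lit 5) (nat_lit 227) (nat_lit 5) (nat_lit 286) (nat_lit 241) (nat_lit 193)))) (XT.nd (nat_lit 188) (nat_lit 1680) (nat_lit 0) (XT.nd (nat_lit 94) (nat_lit 0) (nat_lit 0) (XT.lf (nat_lit 0) (nat_lit 1812854388) (nat_lit 840) (nat_lit 2805420653) (nat_lit 924) (nat_lit 3560017869) (nat_lit 216) (nat_lit 5) (nat_lit 226) (nat_lit 5) (nat_lit 227) (nat_lit 5) (nat_lit 287) (nat_lit 241) (nat_lit 192)) (XT.lf (nat_lit 0) (nat_lit 7249905992) (nat_lit 924) (nat_lit 857800825) (nat_lit 84) (nat_lit 145894984) (nat_lit 216) (nat_lit 5) (nat_lit 227)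 (nat_lit 5) (nat_lit 217) (nat_lit 5) (nat_lit 288) (nat_lit 241) (nat_lit 191))) (XT.nd (nat_lit 94) (nat_lit 756) (nat_lit 0) (XT.lf (nat_lit 0) (nat_lit 1597315267) (nat_lit 924) (nat_lit 3570410698) (nat_lit 84) (nat_lit 3162333695) (nat_lit 205) (nat_lit 5) (nat_lit 216) (nat_lit 5) (nat_lit 206) (nat_lit 5) (nat_lit 289) (nat_lit 241) (nat_lit 190)) (XT.lf (nat_lit 0) (nat_lit 2079903144) (nat_lit 756) (nat_lit 2139472612) (nat_lit 840) (nat_lit 4189133852) (nat_lit 196) (nat_lit 5) (nat_lit 205) (nat_lit 5) (nat_lit 206) (nat_lit 5) (nat_lit 290) (nat_lit 241) (nat_lit 189)))))) (XT.nd (nat_lit 658) (nat_lit 3360) (nat_lit 0) (XT.nd (nat_lit 282) (nat_lit 2184) (nat_lit 0) (XT.nd (nat_lit 94) (nat_lit 1596) (nat_lit 0) (XT.lf (nat_lit 0) (nat_lit 6890430679) (nat_lit 840) (nat_lit 635924644) (nat_lit 84) (nat_lit 962521329) (nat_lit 196) (nat_lit 5) (nat_lit 206) (nat_lit 5) (nat_lit 197) (nat_lit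 5) (nat_lit 291) (nat_lit 241) (nat_lit 188)) (XT.nd (nat_lit 94) (nat_lit 756) (nat_lit 0) (XT.lf (nat_lit 0) (nat_lit 1045623020) (nat_lit 840) (nat_lit 3384715075) (nat_lit 84) (nat_lit 4140256287) (nat_lit 186) (nat_lit 5) (nat_lit 196) (nat_lit 5) (nat_lit 187) (nat_lit 5) (nat_lit 292) (nat_lit 241) (nat_lit 187)) (XT.lf (nat_lit 0) (nat_lit 2467243133) (nat_lit 756) (nat_lit 1238493560) (nat_lit 840) (nat_lit 4948526307) (nat_lit 177) (nat_lit 5) (nat_lit 186) (nat_lit 5) (nat_lit 187) (nat_lit 5) (nat_lit 293) (nat_lit 241) (nat_lit 186)))) (XT.nd (nat_lit 188) (nat_lit 1344) (nat_lit 0) (XT.nd (nat_lit 94) (nat_lit 840) (nat_lit 0) (XT.lf (nat_lit 0) (nat_lit 6423558975) (nat_lit 840) (nat_lit 303690056) (nat_lit 84) (nat_lit 2012541201) (nat_lit 177) (nat_lit 5) (nat_lit 187) (nat_lit 5) (nat_lit 178) (nat_lit 5) (nat_lit 294) (nat_lit 241) (nat_lit 185)) (XT.lf (nat_lit 0) (nat_lit 378992384)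 (nat_lit 840) (nat_lit 3094372859) (nat_lit 84) (nat_lit 5353546316) (nat_lit 167) (nat_lit 5) (nat_lit 177) (nat_lit 5) (nat_lit 168) (nat_lit 5) (nat_lit 295) (nat_lit 241) (nat_lit 184))) (XT.nd (nat_lit 94) (nat_lit 672) (nat_lit 0) (XT.lf (nat_lit 0) (nat_lit 2968519400) (nat_lit 672) (nat_lit 114992846) (nat_lit 756) (nat_lit 5832416224) (nat_lit 159) (nat_lit 5) (nat_lit 167) (nat_lit 5) (nat_lit 168) (nat_lit 5) (nat_lit 296) (nat_lit 241) (nat_lit 183)) (XT.lf (nat_lit 0) (nat_lit 134745863) (nat_lit 672) (nat_lit 5721538925) (nat_lit 756) (nat_lit 3150426394) (nat_lit 151) (nat_lit 5) (nat_lit 159) (nat_lit 5) (nat_lit 160) (nat_lit 5) (nat_lit 297) (nat_lit 241) (nat_lit 182))))) (XT.nd (nat_lit 376) (nat_lit 1932) (nat_lit 0) (XT.nd (nat_lit 188) (nat_lit 672) (nat_lit 0) (XT.nd (nat_lit 94) (nat_lit 756) (nat_lit 0) (XT.lf (nat_lit 0) (nat_lit 6391023142) (nat_lit 672) (nat_lit 2305434112)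 (nat_lit 756) (nat_lit 402893085) (nat_lit 151) (nat_lit 5) (nat_lit 159) (nat_lit 5) (nat_lit 160) (nat_lit 5) (nat_lit 298) (nat_lit 241) (nat_lit 181)) (XT.lf (nat_lit 0) (nat_lit 2366814104) (nat_lit 756) (nat_lit 5624484491) (nat_lit 84) (nat_lit 1202431937) (nat_lit 142) (nat_lit 5) (nat_lit 151) (nat_lit 5) (nat_lit 143) (nat_lit 5) (nat_lit 299) (nat_lit 241) (nat_lit 180))) (XT.nd (nat_lit 94) (nat_lit 0) (nat_lit 0) (XT.lf (nat_lit 0) (nat_lit 677930273) (nat_lit 672) (nat_lit 4517959925) (nat_lit 756) (nat_lit 4094136315) (nat_lit 134) (nat_lit 5) (nat_lit 142) (nat_lit 5) (nat_lit 143) (nat_lit 5) (nat_lit 300) (nat_lit 241) (nat_lit 179)) (XT.lf (nat_lit 0) (nat_lit 7155744611) (nat_lit 672) (nat_lit 936077294) (nat_lit 756) (nat_lit 1296517549) (nat_lit 134) (nat_lit 5) (nat_lit 142) (nat_lit 5) (nat_lit 143) (nat_lit 5) (nat_lit 301) (nat_lit 241) (nat_lit 178)))) (XT.nd (nat_lit 188)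 (nat_lit 672) (nat_lit 0) (XT.nd (nat_lit 94) (nat_lit 588) (nat_lit 0) (XT.lf (nat_lit 0) (nat_lit 1553949839) (nat_lit 672) (nat_lit 5217176292) (nat_lit 84) (nat_lit 2717140486) (nat_lit 126) (nat_lit 5) (nat_lit 134) (nat_lit 5) (nat_lit 127) (nat_lit 5) (nat_lit 302) (nat_lit 241) (nat_lit 177)) (XT.lf (nat_lit 0) (nat_lit 1316612736) (nat_lit 588) (nat_lit 3128215369) (nat_lit 672) (nat_lit 5145427144) (nat_lit 119) (nat_lit 5) (nat_lit 126) (nat_lit 5) (nat_lit 127) (nat_lit 5) (nat_lit 303) (nat_lit 241) (nat_lit 176))) (XT.nd (nat_lit 94) (nat_lit 672) (nat_lit 0) (XT.lf (nat_lit 0) (nat_lit 7406702664) (nat_lit 672) (nat_lit 1673603778) (nat_lit 84) (nat_lit 614018457) (nat_lit 119) (nat_lit 5) (nat_lit 127) (nat_lit 5) (nat_lit 120) (nat_lit 5) (nat_lit 304) (nat_lit 241) (nat_lit 175)) (XT.lf (nat_lit 0) (nat_lit 648149446) (nat_lit 672) (nat_lit 4729362035) (nat_lit 84) (nat_lit 4422540706)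 (nat_lit 111) (nat_lit 5) (nat_lit 119) (nat_lit 5) (nat_lit 112) (nat_lit 5) (nat_lit 305) (nat_lit 241) (nat_lit 174))))))) (XT.nd (nat_lit 39856) (nat_lit 0) (nat_lit 33012) (XT.nd (nat_lit 658) (nat_lit 504) (nat_lit 0) (XT.nd (nat_lit 282) (nat_lit 1764) (nat_lit 0) (XT.nd (nat_lit 94) (nat_lit 504) (nat_lit 0) (XT.lf (nat_lit 0) (nat_lit 2046594936) (nat_lit 588) (nat_lit 1560551784) (nat_lit 672) (nat_lit 6300761495) (nat_lit 104) (nat_lit 5) (nat_lit 111) (nat_lit 5) (nat_lit 112) (nat_lit 5) (nat_lit 306) (nat_lit 241) (nat_lit 173)) (XT.nd (nat_lit 94) (nat_lit 504) (nat_lit 0) (XT.lf (nat_lit 0) (nat_lit 6648714094) (nat_lit 672) (nat_lit 1039028295) (nat_lit 84) (nat_lit 2330010301) (nat_lit 104) (nat_lit 5) (nat_lit 112) (nat_lit 5) (nat_lit 105) (nat_lit 5) (nat_lit 307) (nat_lit 241) (nat_lit 172)) (XT.lf (nat_lit 0) (nat_lit 5961876659) (nat_lit 504) (nat_lit 3815502199) (nat_lit 588)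 (nat_lit 352190861) (nat_lit 98) (nat_lit 5) (nat_lit 104) (nat_lit 5) (nat_lit 105) (nat_lit 5) (nat_lit 308) (nat_lit 241) (nat_lit 171)))) (XT.nd (nat_lit 188) (nat_lit 1092) (nat_lit 0) (XT.nd (nat_lit 94) (nat_lit 0) (nat_lit 0) (XT.lf (nat_lit 0) (nat_lit 2687603963) (nat_lit 672) (nat_lit 7380554130) (nat_lit 84) (nat_lit 175350584) (nat_lit 90) (nat_lit 5) (nat_lit 98) (nat_lit 5) (nat_lit 91) (nat_lit 5) (nat_lit 309) (nat_lit 241) (nat_lit 170)) (XT.lf (nat_lit 0) (nat_lit 5814690232) (nat_lit 672) (nat_lit 325760879) (nat_lit 84) (nat_lit 4218883569) (nat_lit 90) (nat_lit 5) (nat_lit 98) (nat_lit 5) (nat_lit 91) (nat_lit 5) (nat_lit 310) (nat_lit 241) (nat_lit 169))) (XT.nd (nat_lit 94) (nat_lit 588) (nat_lit 0) (XT.lf (nat_lit 0) (nat_lit 6938736680) (nat_lit 504) (nat_lit 2088791816) (nat_lit 588) (nat_lit 1449807327) (nat_lit 84) (nat_lit 5) (nat_lit 90) (nat_lit 5) (nat_lit 91) (nat_lit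 5) (nat_lit 311) (nat_lit 241) (nat_lit 168)) (XT.lf (nat_lit 0) (nat_lit 1700193208) (nat_lit 588) (nat_lit 6846074103) (nat_lit 84) (nat_lit 2051138685) (nat_lit 77) (nat_lit 5) (nat_lit 84) (nat_lit 5) (nat_lit 78) (nat_lit 5) (nat_lit 312) (nat_lit 241) (nat_lit 167))))) (XT.nd (nat_lit 38822) (nat_lit 0) (nat_lit 39144) (XT.nd (nat_lit 38634) (nat_lit 0) (nat_lit 39900) (XT.nd (nat_lit 38540) (nat_lit 0) (nat_lit 40152) (XT.lf (nat_lit 0) (nat_lit 469901510) (nat_lit 504) (nat_lit 4441084636) (nat_lit 588) (nat_lit 5808617028) (nat_lit 71) (nat_lit 5) (nat_lit 77) (nat_lit 5) (nat_lit 78) (nat_lit 5) (nat_lit 313) (nat_lit 241) (nat_lit 166)) (XT.lf (nat_lit 0) (nat_lit 3014650328) (nat_lit 252) (nat_lit 105559898) (nat_lit 252) (nat_lit 105559898) (nat_lit 549) (nat_lit 3) (nat_lit 552) (nat_lit 3) (nat_lit 552) (nat_lit 5) (nat_lit 242) (nat_lit 242) (nat_lit 236))) (XT.nd (nat_lit 94) (nat_lit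 0) (nat_lit 0) (XT.lf (nat_lit 0) (nat_lit 2575394048) (nat_lit 252) (nat_lit 3416976533) (nat_lit 336) (nat_lit 464288653) (nat_lit 546) (nat_lit 5) (nat_lit 549) (nat_lit 3) (nat_lit 550) (nat_lit 5) (nat_lit 243) (nat_lit 242) (nat_lit 235)) (XT.lf (nat_lit 0) (nat_lit 5548339170) (nat_lit 252) (nat_lit 145141342) (nat_lit 336) (nat_lit 770199963) (nat_lit 546) (nat_lit 5) (nat_lit 549) (nat_lit 3) (nat_lit 550) (nat_lit 5) (nat_lit 244) (nat_lit 242) (nat_lit 234)))) (XT.nd (nat_lit 188) (nat_lit 420) (nat_lit 0) (XT.nd (nat_lit 94) (nat_lit 0) (nat_lit 0) (XT.lf (nat_lit 0) (nat_lit 2023568003) (nat_lit 336) (nat_lit 3286439904) (nat_lit 420) (nat_lit 1161876085) (nat_lit 542) (nat_lit 5) (nat_lit 546) (nat_lit 5) (nat_lit 547) (nat_lit 5) (nat_lit 245) (nat_lit 242) (nat_lit 233)) (XT.lf (nat_lit 84) (nat_lit 60145584) (nat_lit 0) (nat_lit 4871777199) (nat_lit 420) (nat_lit 1549996810) (nat_lit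 543) (nat_lit 5) (nat_lit 542) (nat_lit 5) (nat_lit 547) (nat_lit 5) (nat_lit 246) (nat_lit 242) (nat_lit 232))) (XT.nd (nat_lit 94) (nat_lit 0) (nat_lit 0) (XT.lf (nat_lit 0) (nat_lit 1333829857) (nat_lit 420) (nat_lit 3018589247) (nat_lit 504) (nat_lit 2140809758) (nat_lit 537) (nat_lit 5) (nat_lit 542) (nat_lit 5) (nat_lit 543) (nat_lit 5) (nat_lit 247) (nat_lit 242) (nat_lit 231)) (XT.lf (nat_lit 84) (nat_lit 408913356) (nat_lit 0) (nat_lit 3771688733) (nat_lit 504) (nat_lit 2325645616) (nat_lit 538) (nat_lit 5) (nat_lit 537) (nat_lit 5) (nat_lit 543) (nat_lit 5) (nat_lit 248) (nat_lit 242) (nat_lit 230)))))) (XT.nd (nat_lit 658) (nat_lit 4452) (nat_lit 0) (XT.nd (nat_lit 282) (nat_lit 1176) (nat_lit 0) (XT.nd (nat_lit 94) (nat_lit 0) (nat_lit 0) (XT.lf (nat_lit 0) (nat_lit 504936456) (nat_lit 504) (nat_lit 2612381205) (nat_lit 588) (nat_lit 3403406455) (nat_lit 531) (nat_lit 5) (nat_lit 537) (nat_lit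 5) (nat_lit 538) (nat_lit 5) (nat_lit 249) (nat_lit 242) (nat_lit 229)) (XT.nd (nat_lit 94) (nat_lit 0) (nat_lit 0) (XT.lf (nat_lit 84) (nat_lit 900270099) (nat_lit 0) (nat_lit 2391661097) (nat_lit 588) (nat_lit 3244791121) (nat_lit 532) (nat_lit 5) (nat_lit 531) (nat_lit 5) (nat_lit 538) (nat_lit 5) (nat_lit 250) (nat_lit 242) (nat_lit 228)) (XT.lf (nat_lit 84) (nat_lit 4484534374) (nat_lit 0) (nat_lit 1598323648) (nat_lit 588) (nat_lit 471476856) (nat_lit 532) (nat_lit 5) (nat_lit 531) (nat_lit 5) (nat_lit 538) (nat_lit 5) (nat_lit 251) (nat_lit 242) (nat_lit 227)))) (XT.nd (nat_lit 188) (nat_lit 588) (nat_lit 0) (XT.nd (nat_lit 94) (nat_lit 0) (nat_lit 84) (XT.lf (nat_lit 84) (nat_lit 1535782285) (nat_lit 0) (nat_lit 728401895) (nat_lit 672) (nat_lit 4309202390) (nat_lit 525) (nat_lit 5) (nat_lit 524) (nat_lit 5) (nat_lit 532) (nat_lit 5) (nat_lit 252) (nat_lit 242) (nat_lit 226)) (XT.lf (nat_lit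 0) (nat_lit 4995582068) (nat_lit 588) (nat_lit 1391954495) (nat_lit 84) (nat_lit 206510489) (nat_lit 525) (nat_lit 5) (nat_lit 532) (nat_lit 5) (nat_lit 526) (nat_lit 5) (nat_lit 253) (nat_lit 242) (nat_lit 225))) (XT.nd (nat_lit 94) (nat_lit 0) (nat_lit 0) (XT.lf (nat_lit 0) (nat_lit 1104007794) (nat_lit 672) (nat_lit 4307640422) (nat_lit 84) (nat_lit 1204452674) (nat_lit 517) (nat_lit 5) (nat_lit 525) (nat_lit 5) (nat_lit 518) (nat_lit 5) (nat_lit 254) (nat_lit 242) (nat_lit 224)) (XT.lf (nat_lit 0) (nat_lit 3781024959) (nat_lit 672) (nat_lit 585120719) (nat_lit 84) (nat_lit 2273588598) (nat_lit 517) (nat_lit 5) (nat_lit 525) (nat_lit 5) (nat_lit 518) (nat_lit 5) (nat_lit 255) (nat_lit 242) (nat_lit 223))))) (XT.nd (nat_lit 376) (nat_lit 2016) (nat_lit 0) (XT.nd (nat_lit 188) (nat_lit 924) (nat_lit 0) (XT.nd (nat_lit 94) (nat_lit 840) (nat_lit 0) (XT.lf (nat_lit 0) (nat_lit 3220604022) (nat_lit 672)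 (nat_lit 3249081021) (nat_lit 756) (nat_lit 195242086) (nat_lit 509) (nat_lit 5) (nat_lit 517) (nat_lit 5) (nat_lit 518) (nat_lit 5) (nat_lit 256) (nat_lit 242) (nat_lit 222)) (XT.lf (nat_lit 0) (nat_lit 369742053) (nat_lit 756) (nat_lit 2058169541) (nat_lit 840) (nat_lit 4263741991) (nat_lit 499) (nat_lit 5) (nat_lit 508) (nat_lit 5) (nat_lit 509) (nat_lit 5) (nat_lit 257) (nat_lit 242) (nat_lit 221))) (XT.nd (nat_lit 94) (nat_lit 924) (nat_lit 0) (XT.lf (nat_lit 0) (nat_lit 4272279597) (nat_lit 756) (nat_lit 790721541) (nat_lit 840) (nat_lit 1656879405) (nat_lit 499) (nat_lit 5) (nat_lit 508) (nat_lit 5) (nat_lit 509) (nat_lit 5) (nat_lit 258) (nat_lit 242) (nat_lit 220)) (XT.lf (nat_lit 0) (nat_lit 939905859) (nat_lit 924) (nat_lit 5273047167) (nat_lit 84) (nat_lit 536781837) (nat_lit 488) (nat_lit 5) (nat_lit 499) (nat_lit 5) (nat_lit 489) (nat_lit 5) (nat_lit 259) (nat_lit 242) (nat_lit 219))))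 (XT.nd (nat_lit 188) (nat_lit 1092) (nat_lit 0) (XT.nd (nat_lit 94) (nat_lit 924) (nat_lit 0) (XT.lf (nat_lit 0) (nat_lit 3527330536) (nat_lit 924) (nat_lit 1320653484) (nat_lit 84) (nat_lit 1932922805) (nat_lit 488) (nat_lit 5) (nat_lit 499) (nat_lit 5) (nat_lit 489) (nat_lit 5) (nat_lit 260) (nat_lit 242) (nat_lit 218)) (XT.lf (nat_lit 0) (nat_lit 2712039358) (nat_lit 924) (nat_lit 3414312553) (nat_lit 1008) (nat_lit 687409845) (nat_lit 477) (nat_lit 5) (nat_lit 488) (nat_lit 5) (nat_lit 489) (nat_lit 5) (nat_lit 261) (nat_lit 242) (nat_lit 217))) (XT.nd (nat_lit 94) (nat_lit 1008) (nat_lit 0) (XT.lf (nat_lit 0) (nat_lit 1853125160) (nat_lit 1008) (nat_lit 54126208) (nat_lit 84) (nat_lit 4940977565) (nat_lit 476) (nat_lit 5) (nat_lit 488) (nat_lit 5) (nat_lit 477) (nat_lit 5) (nat_lit 262) (nat_lit 242) (nat_lit 216)) (XT.lf (nat_lit 0) (nat_lit 4091114026) (nat_lit 1008) (nat_lit 314800030) (nat_lit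 1092) (nat_lit 2478167658) (nat_lit 464) (nat_lit 5) (nat_lit 476) (nat_lit 5) (nat_lit 477) (nat_lit 5) (nat_lit 263) (nat_lit 242) (nat_lit 215))))))))
noncomputable def xc25 : XT := (XT.nd (nat_lit 2820) (nat_lit 9156) (nat_lit 0) (XT.nd (nat_lit 1410) (nat_lit 8232) (nat_lit 0) (XT.nd (nat_lit 658) (nat_lit 9996) (nat_lit 0) (XT.nd (nat_lit 282) (nat_lit 2772) (nat_lit 0) (XT.nd (nat_lit 94) (nat_lit 1176) (nat_lit 0) (XT.lf (nat_lit 0) (nat_lit 50488463) (nat_lit 1176) (nat_lit 5550437612) (nat_lit 84) (nat_lit 1320712954) (nat_lit 450) (nat_lit 5) (nat_lit 464) (nat_lit 5) (nat_lit 451) (nat_lit 5) (nat_lit 264) (nat_lit 242) (nat_lit 214)) (XT.nd (nat_lit 94) (nat_lit 1176) (nat_lit 0) (XT.lf (nat_lit 0) (nat_lit 2560408659) (nat_lit 1176) (nat_lit 1358381575) (nat_lit 84) (nat_lit 3041668998) (nat_lit 450) (nat_lit 5) (nat_lit 464) (nat_lit 5) (nat_lit 451) (nat_lit 5) (nat_lit 265) (nat_lit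 242) (nat_lit 213)) (XT.lf (nat_lit 0) (nat_lit 2921972021) (nat_lit 1176) (nat_lit 2164741905) (nat_lit 1260) (nat_lit 1914273884) (nat_lit 436) (nat_lit 5) (nat_lit 450) (nat_lit 5) (nat_lit 451) (nat_lit 5) (nat_lit 266) (nat_lit 242) (nat_lit 212)))) (XT.nd (nat_lit 188) (nat_lit 1428) (nat_lit 0) (XT.nd (nat_lit 94) (nat_lit 0) (nat_lit 0) (XT.lf (nat_lit 0) (nat_lit 226781895) (nat_lit 1260) (nat_lit 342995068) (nat_lit 1344) (nat_lit 6473575585) (nat_lit 420) (nat_lit 5) (nat_lit 435) (nat_lit 5) (nat_lit 436) (nat_lit 5) (nat_lit 267) (nat_lit 242) (nat_lit 211)) (XT.lf (nat_lit 0) (nat_lit 3063378907) (nat_lit 1344) (nat_lit 2470306033) (nat_lit 84) (nat_lit 1553030019) (nat_lit 420) (nat_lit 5) (nat_lit 436) (nat_lit 5) (nat_lit 421) (nat_lit 5) (nat_lit 268) (nat_lit 242) (nat_lit 210))) (XT.nd (nat_lit 94) (nat_lit 84) (nat_lit 0) (XT.lf (nat_lit 0) (nat_lit 1950625385) (nat_lit 1344) (nat_lit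 3620769760) (nat_lit 1428) (nat_lit 1560525988) (nat_lit 404) (nat_lit 5) (nat_lit 420) (nat_lit 5) (nat_lit 421) (nat_lit 5) (nat_lit 269) (nat_lit 242) (nat_lit 209)) (XT.lf (nat_lit 0) (nat_lit 904719433) (nat_lit 1428) (nat_lit 725990955) (nat_lit 84) (nat_lit 5548096911) (nat_lit 403) (nat_lit 5) (nat_lit 420) (nat_lit 5) (nat_lit 404) (nat_lit 5) (nat_lit 270) (nat_lit 242) (nat_lit 208))))) (XT.nd (nat_lit 376) (nat_lit 5376) (nat_lit 0) (XT.nd (nat_lit 188) (nat_lit 1680) (nat_lit 0) (XT.nd (nat_lit 94) (nat_lit 1512) (nat_lit 0) (XT.lf (nat_lit 0) (nat_lit 3376556804) (nat_lit 1512) (nat_lit 3405267218) (nat_lit 84) (nat_lit 445193802) (nat_lit 386) (nat_lit 5) (nat_lit 404) (nat_lit 5) (nat_lit 387) (nat_lit 5) (nat_lit 271) (nat_lit 242) (nat_lit 207)) (XT.lf (nat_lit 0) (nat_lit 1162095270) (nat_lit 1512) (nat_lit 4712016067) (nat_lit 1596) (nat_lit 1402808233) (nat_lit 368) (nat_lit 5) (nat_lit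 386) (nat_lit 5) (nat_lit 387) (nat_lit 5) (nat_lit 272) (nat_lit 242) (nat_lit 206))) (XT.nd (nat_lit 94) (nat_lit 1596) (nat_lit 0) (XT.lf (nat_lit 0) (nat_lit 1054436162) (nat_lit 1596) (nat_lit 1501969984) (nat_lit 84) (nat_lit 4771966338) (nat_lit 367) (nat_lit 5) (nat_lit 386) (nat_lit 5) (nat_lit 368) (nat_lit 5) (nat_lit 273) (nat_lit 242) (nat_lit 205)) (XT.lf (nat_lit 0) (nat_lit 3201899707) (nat_lit 1596) (nat_lit 313388499) (nat_lit 1680) (nat_lit 3866100134) (nat_lit 348) (nat_lit 5) (nat_lit 367) (nat_lit 5) (nat_lit 368) (nat_lit 5) (nat_lit 274) (nat_lit 242) (nat_lit 204)))) (XT.nd (nat_lit 188) (nat_lit 3612) (nat_lit 0) (XT.nd (nat_lit 94) (nat_lit 84) (nat_lit 0) (XT.lf (nat_lit 0) (nat_lit 542782288) (nat_lit 1680) (nat_lit 5464870059) (nat_lit 1764) (nat_lit 1428415984) (nat_lit 328) (nat_lit 5) (nat_lit 348) (nat_lit 5) (nat_lit 349) (nat_lit 5) (nat_lit 275) (nat_lit 242) (nat_lit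 203)) (XT.lf (nat_lit 0) (nat_lit 1029610089) (nat_lit 1764) (nat_lit 2117612533) (nat_lit 84) (nat_lit 4344957610) (nat_lit 327) (nat_lit 5) (nat_lit 348) (nat_lit 5) (nat_lit 328) (nat_lit 5) (nat_lit 276) (nat_lit 242) (nat_lit 202))) (XT.nd (nat_lit 94) (nat_lit 1848) (nat_lit 0) (XT.lf (nat_lit 0) (nat_lit 2745671169) (nat_lit 1764) (nat_lit 744323454) (nat_lit 1848) (nat_lit 4059978415) (nat_lit 306) (nat_lit 5) (nat_lit 327) (nat_lit 5) (nat_lit 328) (nat_lit 5) (nat_lit 277) (nat_lit 242) (nat_lit 201)) (XT.lf (nat_lit 0) (nat_lit 80355959) (nat_lit 1848) (nat_lit 5903195649) (nat_lit 1932) (nat_lit 1625946712) (nat_lit 284) (nat_lit 5) (nat_lit 306) (nat_lit 5) (nat_lit 307) (nat_lit 5) (nat_lit 278) (nat_lit 242) (nat_lit 200)))))) (XT.nd (nat_lit 658) (nat_lit 4200) (nat_lit 0) (XT.nd (nat_lit 282) (nat_lit 2856) (nat_lit 0) (XT.nd (nat_lit 94) (nat_lit 1092) (nat_lit 0) (XT.lf (nat_lit 0)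 (nat_lit 841287028) (nat_lit 1932) (nat_lit 2584890254) (nat_lit 84) (nat_lit 4244195448) (nat_lit 283) (nat_lit 5) (nat_lit 306) (nat_lit 5) (nat_lit 284) (nat_lit 5) (nat_lit 279) (nat_lit 242) (nat_lit 199)) (XT.nd (nat_lit 94) (nat_lit 0) (nat_lit 0) (XT.lf (nat_lit 0) (nat_lit 2444786732) (nat_lit 1092) (nat_lit 863451345) (nat_lit 1176) (nat_lit 4424761702) (nat_lit 270) (nat_lit 5) (nat_lit 283) (nat_lit 5) (nat_lit 284) (nat_lit 5) (nat_lit 280) (nat_lit 242) (nat_lit 198)) (XT.lf (nat_lit 0) (nat_lit 5813867786) (nat_lit 1176) (nat_lit 232942251) (nat_lit 84) (nat_lit 1750537661) (nat_lit 270) (nat_lit 5) (nat_lit 284) (nat_lit 5) (nat_lit 271) (nat_lit 5) (nat_lit 281) (nat_lit 242) (nat_lit 197)))) (XT.nd (nat_lit 188) (nat_lit 924) (nat_lit 0) (XT.nd (nat_lit 94) (nat_lit 924) (nat_lit 0) (XT.lf (nat_lit 0) (nat_lit 499356304) (nat_lit 1008) (nat_lit 2914653171) (nat_lit 84) (nat_lit 4449126936)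 (nat_lit 258) (nat_lit 5) (nat_lit 270) (nat_lit 5) (nat_lit 259) (nat_lit 5) (nat_lit 282) (nat_lit 242) (nat_lit 196)) (XT.lf (nat_lit 0) (nat_lit 2288808022) (nat_lit 924) (nat_lit 690870067) (nat_lit 1008) (nat_lit 4950991394) (nat_lit 247) (nat_lit 5) (nat_lit 258) (nat_lit 5) (nat_lit 259) (nat_lit 5) (nat_lit 283) (nat_lit 242) (nat_lit 195))) (XT.nd (nat_lit 94) (nat_lit 924) (nat_lit 0) (XT.lf (nat_lit 0) (nat_lit 5505829936) (nat_lit 1008) (nat_lit 411400017) (nat_lit 84) (nat_lit 2082650543) (nat_lit 247) (nat_lit 5) (nat_lit 259) (nat_lit 5) (nat_lit 248) (nat_lit 5) (nat_lit 284) (nat_lit 242) (nat_lit 194)) (XT.lf (nat_lit 0) (nat_lit 12638400) (nat_lit 924) (nat_lit 3116719011) (nat_lit 84) (nat_lit 4941343418) (nat_lit 236) (nat_lit 5) (nat_lit 247) (nat_lit 5) (nat_lit 237) (nat_lit 5) (nat_lit 285) (nat_lit 242) (nat_lit 193))))) (XT.nd (nat_lit 376) (nat_lit 1596) (nat_lit 0) (XT.nd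 (nat_lit 188) (nat_lit 1764) (nat_lit 0) (XT.nd (nat_lit 94) (nat_lit 0) (nat_lit 0) (XT.lf (nat_lit 0) (nat_lit 2268336865) (nat_lit 840) (nat_lit 244602516) (nat_lit 924) (nat_lit 5630286481) (nat_lit 226) (nat_lit 5) (nat_lit 236) (nat_lit 5) (nat_lit 237) (nat_lit 5) (nat_lit 286) (nat_lit 242) (nat_lit 192)) (XT.lf (nat_lit 0) (nat_lit 5067249876) (nat_lit 924) (nat_lit 465140147) (nat_lit 84) (nat_lit 2684978358) (nat_lit 226) (nat_lit 5) (nat_lit 237) (nat_lit 5) (nat_lit 227) (nat_lit 5) (nat_lit 287) (nat_lit 242) (nat_lit 191))) (XT.nd (nat_lit 94) (nat_lit 924) (nat_lit 0) (XT.lf (nat_lit 0) (nat_lit 5088869552) (nat_lit 840) (nat_lit 2584406431) (nat_lit 924) (nat_lit 619964596) (nat_lit 216) (nat_lit 5) (nat_lit 226) (nat_lit 5) (nat_lit 227) (nat_lit 5) (nat_lit 288) (nat_lit 242) (nat_lit 190)) (XT.lf (nat_lit 0) (nat_lit 1918960943) (nat_lit 924) (nat_lit 5999290999) (nat_lit 84) (nat_lit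 452630651) (nat_lit 205) (nat_lit 5) (nat_lit 216) (nat_lit 5) (nat_lit 206) (nat_lit 5) (nat_lit 289) (nat_lit 242) (nat_lit 189)))) (XT.nd (nat_lit 188) (nat_lit 840) (nat_lit 0) (XT.nd (nat_lit 94) (nat_lit 756) (nat_lit 0) (XT.lf (nat_lit 0) (nat_lit 4505592930) (nat_lit 924) (nat_lit 402227543) (nat_lit 84) (nat_lit 3542291493) (nat_lit 205) (nat_lit 5) (nat_lit 216) (nat_lit 5) (nat_lit 206) (nat_lit 5) (nat_lit 290) (nat_lit 242) (nat_lit 188)) (XT.lf (nat_lit 0) (nat_lit 5348927991) (nat_lit 756) (nat_lit 1797522504) (nat_lit 840) (nat_lit 1384692857) (nat_lit 196) (nat_lit 5) (nat_lit 205) (nat_lit 5) (nat_lit 206) (nat_lit 5) (nat_lit 291) (nat_lit 242) (nat_lit 187))) (XT.nd (nat_lit 94) (nat_lit 0) (nat_lit 0) (XT.lf (nat_lit 0) (nat_lit 1204728020) (nat_lit 840) (nat_lit 6023150132) (nat_lit 84) (nat_lit 1386083959) (nat_lit 186) (nat_lit 5) (nat_lit 196) (nat_lit 5) (nat_lit 187) (nat_lit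 5) (nat_lit 292) (nat_lit 242) (nat_lit 186)) (XT.lf (nat_lit 0) (nat_lit 3827474029) (nat_lit 840) (nat_lit 229896052) (nat_lit 84) (nat_lit 4641082737) (nat_lit 186) (nat_lit 5) (nat_lit 196) (nat_lit 5) (nat_lit 187) (nat_lit 5) (nat_lit 293) (nat_lit 242) (nat_lit 185))))))) (XT.nd (nat_lit 1410) (nat_lit 1764) (nat_lit 0) (XT.nd (nat_lit 658) (nat_lit 3696) (nat_lit 0) (XT.nd (nat_lit 282) (nat_lit 1428) (nat_lit 0) (XT.nd (nat_lit 94) (nat_lit 1512) (nat_lit 0) (XT.lf (nat_lit 0) (nat_lit 5727466136) (nat_lit 756) (nat_lit 782092656) (nat_lit 840) (nat_lit 2275207483) (nat_lit 177) (nat_lit 5) (nat_lit 186) (nat_lit 5) (nat_lit 187) (nat_lit 5) (nat_lit 294) (nat_lit 242) (nat_lit 184)) (XT.nd (nat_lit 94) (nat_lit 672) (nat_lit 0) (XT.lf (nat_lit 0) (nat_lit 374367664) (nat_lit 840) (nat_lit 5951733890) (nat_lit 84) (nat_lit 2546770888) (nat_lit 167) (nat_lit 5) (nat_lit 177) (nat_lit 5) (nat_lit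 168) (nat_lit 5) (nat_lit 295) (nat_lit 242) (nat_lit 183)) (XT.lf (nat_lit 0) (nat_lit 46051413) (nat_lit 672) (nat_lit 2992996711) (nat_lit 756) (nat_lit 5923717695) (nat_lit 159) (nat_lit 5) (nat_lit 167) (nat_lit 5) (nat_lit 168) (nat_lit 5) (nat_lit 296) (nat_lit 242) (nat_lit 182)))) (XT.nd (nat_lit 188) (nat_lit 756) (nat_lit 0) (XT.nd (nat_lit 94) (nat_lit 672) (nat_lit 0) (XT.lf (nat_lit 0) (nat_lit 5771555881) (nat_lit 756) (nat_lit 2839231373) (nat_lit 84) (nat_lit 443647103) (nat_lit 159) (nat_lit 5) (nat_lit 168) (nat_lit 5) (nat_lit 160) (nat_lit 5) (nat_lit 297) (nat_lit 242) (nat_lit 181)) (XT.lf (nat_lit 0) (nat_lit 3352490399) (nat_lit 672) (nat_lit 5220154118) (nat_lit 756) (nat_lit 575288840) (nat_lit 151) (nat_lit 5) (nat_lit 159) (nat_lit 5) (nat_lit 160) (nat_lit 5) (nat_lit 298) (nat_lit 242) (nat_lit 180))) (XT.nd (nat_lit 94) (nat_lit 0) (nat_lit 0) (XT.lf (nat_lit 0) (nat_lit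 423975205) (nat_lit 672) (nat_lit 1723471662) (nat_lit 756) (nat_lit 7095981700) (nat_lit 142) (nat_lit 5) (nat_lit 150) (nat_lit 5) (nat_lit 151) (nat_lit 5) (nat_lit 299) (nat_lit 242) (nat_lit 179)) (XT.lf (nat_lit 0) (nat_lit 4941320392) (nat_lit 756) (nat_lit 2537560641) (nat_lit 84) (nat_lit 1861617970) (nat_lit 142) (nat_lit 5) (nat_lit 151) (nat_lit 5) (nat_lit 143) (nat_lit 5) (nat_lit 300) (nat_lit 242) (nat_lit 178))))) (XT.nd (nat_lit 376) (nat_lit 1764) (nat_lit 0) (XT.nd (nat_lit 188) (nat_lit 588) (nat_lit 0) (XT.nd (nat_lit 94) (nat_lit 672) (nat_lit 0) (XT.lf (nat_lit 0) (nat_lit 3880302723) (nat_lit 672) (nat_lit 3920739430) (nat_lit 756) (nat_lit 1638566411) (nat_lit 134) (nat_lit 5) (nat_lit 142) (nat_lit 5) (nat_lit 143) (nat_lit 5) (nat_lit 301) (nat_lit 242) (nat_lit 177)) (XT.lf (nat_lit 0) (nat_lit 895341908) (nat_lit 588) (nat_lit 260046006) (nat_lit 672) (nat_lit 8385553088)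 (nat_lit 126) (nat_lit 5) (nat_lit 133) (nat_lit 5) (nat_lit 134) (nat_lit 5) (nat_lit 302) (nat_lit 242) (nat_lit 176))) (XT.nd (nat_lit 94) (nat_lit 588) (nat_lit 0) (XT.lf (nat_lit 0) (nat_lit 4017605434) (nat_lit 672) (nat_lit 2151737070) (nat_lit 84) (nat_lit 3474217667) (nat_lit 126) (nat_lit 5) (nat_lit 134) (nat_lit 5) (nat_lit 127) (nat_lit 5) (nat_lit 303) (nat_lit 242) (nat_lit 175)) (XT.lf (nat_lit 0) (nat_lit 4502810830) (nat_lit 588) (nat_lit 2439464144) (nat_lit 672) (nat_lit 2806173356) (nat_lit 119) (nat_lit 5) (nat_lit 126) (nat_lit 5) (nat_lit 127) (nat_lit 5) (nat_lit 304) (nat_lit 242) (nat_lit 174)))) (XT.nd (nat_lit 188) (nat_lit 1092) (nat_lit 0) (XT.nd (nat_lit 94) (nat_lit 0) (nat_lit 0) (XT.lf (nat_lit 0) (nat_lit 76516070) (nat_lit 672) (nat_lit 8410104924) (nat_lit 84) (nat_lit 1368968009) (nat_lit 111) (nat_lit 5) (nat_lit 119) (nat_lit 5) (nat_lit 112) (nat_lit 5) (nat_lit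 305) (nat_lit 242) (nat_lit 173)) (XT.lf (nat_lit 0) (nat_lit 3004134629) (nat_lit 672) (nat_lit 1686204542) (nat_lit 84) (nat_lit 5273796194) (nat_lit 111) (nat_lit 5) (nat_lit 119) (nat_lit 5) (nat_lit 112) (nat_lit 5) (nat_lit 306) (nat_lit 242) (nat_lit 172))) (XT.nd (nat_lit 94) (nat_lit 504) (nat_lit 0) (XT.lf (nat_lit 0) (nat_lit 5216077597) (nat_lit 588) (nat_lit 783999522) (nat_lit 672) (nat_lit 4074906467) (nat_lit 104) (nat_lit 5) (nat_lit 111) (nat_lit 5) (nat_lit 112) (nat_lit 5) (nat_lit 307) (nat_lit 242) (nat_lit 171)) (XT.lf (nat_lit 0) (nat_lit 2069267473) (nat_lit 504) (nat_lit 7009880219) (nat_lit 588) (nat_lit 1108743996) (nat_lit 98) (nat_lit 5) (nat_lit 104) (nat_lit 5) (nat_lit 105) (nat_lit 5) (nat_lit 308) (nat_lit 242) (nat_lit 170)))))) (XT.nd (nat_lit 39198) (nat_lit 0) (nat_lit 37548) (XT.nd (nat_lit 282) (nat_lit 588) (nat_lit 0) (XT.nd (nat_lit 94) (nat_lit 1092) (nat_lit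 0) (XT.lf (nat_lit 0) (nat_lit 1904071965) (nat_lit 588) (nat_lit 1144872773) (nat_lit 84) (nat_lit 7253837732) (nat_lit 97) (nat_lit 5) (nat_lit 104) (nat_lit 5) (nat_lit 98) (nat_lit 5) (nat_lit 309) (nat_lit 242) (nat_lit 169)) (XT.nd (nat_lit 94) (nat_lit 504) (nat_lit 0) (XT.lf (nat_lit 0) (nat_lit 4985046831) (nat_lit 672) (nat_lit 4410469540) (nat_lit 84) (nat_lit 1024106554) (nat_lit 90) (nat_lit 5) (nat_lit 98) (nat_lit 5) (nat_lit 91) (nat_lit 5) (nat_lit 310) (nat_lit 242) (nat_lit 168)) (XT.lf (nat_lit 0) (nat_lit 2772024561) (nat_lit 504) (nat_lit 5380467303) (nat_lit 588) (nat_lit 2386130854) (nat_lit 84) (nat_lit 5) (nat_lit 90) (nat_lit 5) (nat_lit 91) (nat_lit 5) (nat_lit 311) (nat_lit 242) (nat_lit 167)))) (XT.nd (nat_lit 38728) (nat_lit 0) (nat_lit 38976) (XT.nd (nat_lit 94) (nat_lit 504) (nat_lit 0) (XT.lf (nat_lit 0) (nat_lit 720058837) (nat_lit 588) (nat_lit 531155623) (nat_lit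 84) (nat_lit 9408885695) (nat_lit 83) (nat_lit 5) (nat_lit 90) (nat_lit 5) (nat_lit 84) (nat_lit 5) (nat_lit 312) (nat_lit 242) (nat_lit 166)) (XT.lf (nat_lit 0) (nat_lit 3899216882) (nat_lit 588) (nat_lit 3903148291) (nat_lit 84) (nat_lit 2980628127) (nat_lit 77) (nat_lit 5) (nat_lit 84) (nat_lit 5) (nat_lit 78) (nat_lit 5) (nat_lit 313) (nat_lit 242) (nat_lit 165))) (XT.nd (nat_lit 94) (nat_lit 420) (nat_lit 0) (XT.lf (nat_lit 0) (nat_lit 1380146193) (nat_lit 0) (nat_lit 1380146193) (nat_lit 252) (nat_lit 471073612) (nat_lit 546) (nat_lit 5) (nat_lit 546) (nat_lit 3) (nat_lit 549) (nat_lit 3) (nat_lit 243) (nat_lit 243) (nat_lit 234)) (XT.lf (nat_lit 0) (nat_lit 1950335427) (nat_lit 420) (nat_lit 464288653) (nat_lit 420) (nat_lit 4055786444) (nat_lit 541) (nat_lit 3) (nat_lit 546) (nat_lit 3) (nat_lit 546) (nat_lit 5) (nat_lit 244) (nat_lit 243) (nat_lit 233))))) (XT.nd (nat_lit 376) (nat_lit 504)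 (nat_lit 0) (XT.nd (nat_lit 188) (nat_lit 504) (nat_lit 0) (XT.nd (nat_lit 94) (nat_lit 420) (nat_lit 0) (XT.lf (nat_lit 84) (nat_lit 2836570383) (nat_lit 0) (nat_lit 1992994166) (nat_lit 420) (nat_lit 1649928967) (nat_lit 542) (nat_lit 5) (nat_lit 541) (nat_lit 3) (nat_lit 546) (nat_lit 5) (nat_lit 245) (nat_lit 243) (nat_lit 232)) (XT.lf (nat_lit 0) (nat_lit 1186000778) (nat_lit 420) (nat_lit 324308860) (nat_lit 504) (nat_lit 4980000833) (nat_lit 536) (nat_lit 5) (nat_lit 541) (nat_lit 3) (nat_lit 542) (nat_lit 5) (nat_lit 246) (nat_lit 243) (nat_lit 231))) (XT.nd (nat_lit 94) (nat_lit 504) (nat_lit 0) (XT.lf (nat_lit 84) (nat_lit 3056842681) (nat_lit 0) (nat_lit 944408644) (nat_lit 504) (nat_lit 2501143040) (nat_lit 537) (nat_lit 5) (nat_lit 536) (nat_lit 5) (nat_lit 542) (nat_lit 5) (nat_lit 247) (nat_lit 243) (nat_lit 230)) (XT.lf (nat_lit 0) (nat_lit 281168229) (nat_lit 504) (nat_lit 43423088)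 (nat_lit 588) (nat_lit 6191796101) (nat_lit 530) (nat_lit 5) (nat_lit 536) (nat_lit 5) (nat_lit 537) (nat_lit 5) (nat_lit 248) (nat_lit 243) (nat_lit 229)))) (XT.nd (nat_lit 188) (nat_lit 588) (nat_lit 0) (XT.nd (nat_lit 94) (nat_lit 0) (nat_lit 0) (XT.lf (nat_lit 0) (nat_lit 3037030217) (nat_lit 504) (nat_lit 3112009182) (nat_lit 588) (nat_lit 382366887) (nat_lit 531) (nat_lit 5) (nat_lit 537) (nat_lit 5) (nat_lit 538) (nat_lit 5) (nat_lit 249) (nat_lit 243) (nat_lit 228)) (XT.lf (nat_lit 84) (nat_lit 371242946) (nat_lit 0) (nat_lit 5411249313) (nat_lit 588) (nat_lit 765825948) (nat_lit 532) (nat_lit 5) (nat_lit 531) (nat_lit 5) (nat_lit 538) (nat_lit 5) (nat_lit 250) (nat_lit 243) (nat_lit 227))) (XT.nd (nat_lit 94) (nat_lit 0) (nat_lit 0) (XT.lf (nat_lit 0) (nat_lit 1941198567) (nat_lit 588) (nat_lit 2646891647) (nat_lit 672) (nat_lit 1978348221) (nat_lit 524) (nat_lit 5) (nat_lit 531) (nat_lit 5)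 (nat_lit 532) (nat_lit 5) (nat_lit 251) (nat_lit 243) (nat_lit 226)) (XT.lf (nat_lit 84) (nat_lit 924842137) (nat_lit 0) (nat_lit 3704303863) (nat_lit 672) (nat_lit 1957170542) (nat_lit 525) (nat_lit 5) (nat_lit 524) (nat_lit 5) (nat_lit 532) (nat_lit 5) (nat_lit 252) (nat_lit 243) (nat_lit 225))))))))
noncomputable def xc26 : XT := (XT.nd (nat_lit 2820) (nat_lit 14616) (nat_lit 0) (XT.nd (nat_lit 1410) (nat_lit 14868) (nat_lit 0) (XT.nd (nat_lit 658) (nat_lit 4452) (nat_lit 0) (XT.nd (nat_lit 282) (nat_lit 2352) (nat_lit 0) (XT.nd (nat_lit 94) (nat_lit 0) (nat_lit 0) (XT.lf (nat_lit 0) (nat_lit 705010977) (nat_lit 672) (nat_lit 2041752374) (nat_lit 756) (nat_lit 3860925029) (nat_lit 516) (nat_lit 5) (nat_lit 524) (nat_lit 5) (nat_lit 525) (nat_lit 5) (nat_lit 253) (nat_lit 243) (nat_lit 224)) (XT.nd (nat_lit 94) (nat_lit 0) (nat_lit 0) (XT.lf (nat_lit 84) (nat_lit 1623081305) (nat_lit 0) (nat_lit 1713812874)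 (nat_lit 756) (nat_lit 3293644005) (nat_lit 517) (nat_lit 5) (nat_lit 516) (nat_lit 5) (nat_lit 525) (nat_lit 5) (nat_lit 254) (nat_lit 243) (nat_lit 223)) (XT.lf (nat_lit 84) (nat_lit 5355699049) (nat_lit 0) (nat_lit 615675573) (nat_lit 756) (nat_lit 683732757) (nat_lit 517) (nat_lit 5) (nat_lit 516) (nat_lit 5) (nat_lit 525) (nat_lit 5) (nat_lit 255) (nat_lit 243) (nat_lit 222)))) (XT.nd (nat_lit 188) (nat_lit 1680) (nat_lit 0) (XT.nd (nat_lit 94) (nat_lit 0) (nat_lit 0) (XT.lf (nat_lit 0) (nat_lit 1907261184) (nat_lit 756) (nat_lit 4216849326) (nat_lit 84) (nat_lit 556846569) (nat_lit 508) (nat_lit 5) (nat_lit 517) (nat_lit 5) (nat_lit 509) (nat_lit 5) (nat_lit 256) (nat_lit 243) (nat_lit 221)) (XT.lf (nat_lit 0) (nat_lit 4491335696) (nat_lit 756) (nat_lit 431647780) (nat_lit 84) (nat_lit 1785467338) (nat_lit 508) (nat_lit 5) (nat_lit 517) (nat_lit 5) (nat_lit 509) (nat_lit 5) (nat_lit 257) (nat_lit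 243) (nat_lit 220))) (XT.nd (nat_lit 94) (nat_lit 840) (nat_lit 0) (XT.lf (nat_lit 0) (nat_lit 347684853) (nat_lit 840) (nat_lit 3297392215) (nat_lit 84) (nat_lit 3092341505) (nat_lit 498) (nat_lit 5) (nat_lit 508) (nat_lit 5) (nat_lit 499) (nat_lit 5) (nat_lit 258) (nat_lit 243) (nat_lit 219)) (XT.lf (nat_lit 0) (nat_lit 584156259) (nat_lit 840) (nat_lit 2293594403) (nat_lit 924) (nat_lit 3890205392) (nat_lit 488) (nat_lit 5) (nat_lit 498) (nat_lit 5) (nat_lit 499) (nat_lit 5) (nat_lit 259) (nat_lit 243) (nat_lit 218))))) (XT.nd (nat_lit 376) (nat_lit 2436) (nat_lit 0) (XT.nd (nat_lit 188) (nat_lit 1008) (nat_lit 0) (XT.nd (nat_lit 94) (nat_lit 1008) (nat_lit 0) (XT.lf (nat_lit 0) (nat_lit 4556202921) (nat_lit 840) (nat_lit 866838408) (nat_lit 924) (nat_lit 1377013635) (nat_lit 488) (nat_lit 5) (nat_lit 498) (nat_lit 5) (nat_lit 499) (nat_lit 5) (nat_lit 260) (nat_lit 243) (nat_lit 217)) (XT.lf (nat_lit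 0) (nat_lit 1127458236) (nat_lit 1008) (nat_lit 5082863033) (nat_lit 84) (nat_lit 623382747) (nat_lit 476) (nat_lit 5) (nat_lit 488) (nat_lit 5) (nat_lit 477) (nat_lit 5) (nat_lit 261) (nat_lit 243) (nat_lit 216))) (XT.nd (nat_lit 94) (nat_lit 1008) (nat_lit 0) (XT.lf (nat_lit 0) (nat_lit 3627102668) (nat_lit 1008) (nat_lit 1062578770) (nat_lit 84) (nat_lit 2179063802) (nat_lit 476) (nat_lit 5) (nat_lit 488) (nat_lit 5) (nat_lit 477) (nat_lit 5) (nat_lit 262) (nat_lit 243) (nat_lit 215)) (XT.lf (nat_lit 0) (nat_lit 3045670932) (nat_lit 1008) (nat_lit 3096451107) (nat_lit 1092) (nat_lit 763306912) (nat_lit 464) (nat_lit 5) (nat_lit 476) (nat_lit 5) (nat_lit 477) (nat_lit 5) (nat_lit 263) (nat_lit 243) (nat_lit 214)))) (XT.nd (nat_lit 188) (nat_lit 1260) (nat_lit 0) (XT.nd (nat_lit 94) (nat_lit 0) (nat_lit 0) (XT.lf (nat_lit 0) (nat_lit 263644775) (nat_lit 1092) (nat_lit 1429458795) (nat_lit 1176) (nat_lit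 5250659974) (nat_lit 450) (nat_lit 5) (nat_lit 463) (nat_lit 5) (nat_lit 464) (nat_lit 5) (nat_lit 264) (nat_lit 243) (nat_lit 213)) (XT.lf (nat_lit 0) (nat_lit 4163342350) (nat_lit 1176) (nat_lit 2500636725) (nat_lit 84) (nat_lit 319477664) (nat_lit 450) (nat_lit 5) (nat_lit 464) (nat_lit 5) (nat_lit 451) (nat_lit 5) (nat_lit 265) (nat_lit 243) (nat_lit 212))) (XT.nd (nat_lit 94) (nat_lit 84) (nat_lit 0) (XT.lf (nat_lit 0) (nat_lit 1740432437) (nat_lit 1176) (nat_lit 4911934759) (nat_lit 1260) (nat_lit 372438290) (nat_lit 436) (nat_lit 5) (nat_lit 450) (nat_lit 5) (nat_lit 451) (nat_lit 5) (nat_lit 266) (nat_lit 243) (nat_lit 211)) (XT.lf (nat_lit 0) (nat_lit 2059182885) (nat_lit 1260) (nat_lit 1015348230) (nat_lit 84) (nat_lit 3993062378) (nat_lit 435) (nat_lit 5) (nat_lit 450) (nat_lit 5) (nat_lit 436) (nat_lit 5) (nat_lit 267) (nat_lit 243) (nat_lit 210)))))) (XT.nd (nat_lit 658) (nat_lit 7560) (nat_lit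 0) (XT.nd (nat_lit 282) (nat_lit 4620) (nat_lit 0) (XT.nd (nat_lit 94) (nat_lit 1428) (nat_lit 0) (XT.lf (nat_lit 0) (nat_lit 3348551197) (nat_lit 1260) (nat_lit 1157520718) (nat_lit 1344) (nat_lit 2605911672) (nat_lit 420) (nat_lit 5) (nat_lit 435) (nat_lit 5) (nat_lit 436) (nat_lit 5) (nat_lit 268) (nat_lit 243) (nat_lit 209)) (XT.nd (nat_lit 94) (nat_lit 84) (nat_lit 0) (XT.lf (nat_lit 0) (nat_lit 624112490) (nat_lit 1344) (nat_lit 6344777247) (nat_lit 1428) (nat_lit 189294389) (nat_lit 404) (nat_lit 5) (nat_lit 420) (nat_lit 5) (nat_lit 421) (nat_lit 5) (nat_lit 269) (nat_lit 243) (nat_lit 208)) (XT.lf (nat_lit 0) (nat_lit 2228932563) (nat_lit 1428) (nat_lit 2111295960) (nat_lit 84) (nat_lit 2865226786) (nat_lit 403) (nat_lit 5) (nat_lit 420) (nat_lit 5) (nat_lit 404) (nat_lit 5) (nat_lit 270) (nat_lit 243) (nat_lit 207)))) (XT.nd (nat_lit 188) (nat_lit 3192) (nat_lit 0) (XT.nd (nat_lit 94) (nat_lit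 0) (nat_lit 0) (XT.lf (nat_lit 0) (nat_lit 2396892559) (nat_lit 1428) (nat_lit 2263805407) (nat_lit 1512) (nat_lit 2593849451) (nat_lit 386) (nat_lit 5) (nat_lit 403) (nat_lit 5) (nat_lit 404) (nat_lit 5) (nat_lit 271) (nat_lit 243) (nat_lit 206)) (XT.lf (nat_lit 0) (nat_lit 6991086204) (nat_lit 1428) (nat_lit 117363873) (nat_lit 1512) (nat_lit 197094739) (nat_lit 386) (nat_lit 5) (nat_lit 403) (nat_lit 5) (nat_lit 404) (nat_lit 5) (nat_lit 272) (nat_lit 243) (nat_lit 205))) (XT.nd (nat_lit 94) (nat_lit 1596) (nat_lit 0) (XT.lf (nat_lit 0) (nat_lit 2213639397) (nat_lit 1596) (nat_lit 3042464557) (nat_lit 84) (nat_lit 2101345998) (nat_lit 367) (nat_lit 5) (nat_lit 386) (nat_lit 5) (nat_lit 368) (nat_lit 5) (nat_lit 273) (nat_lit 243) (nat_lit 204)) (XT.lf (nat_lit 0) (nat_lit 1616124588) (nat_lit 1596) (nat_lit 3021612204) (nat_lit 1680) (nat_lit 2773537619) (nat_lit 348) (nat_lit 5) (nat_lit 367) (nat_lit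 5) (nat_lit 368) (nat_lit 5) (nat_lit 274) (nat_lit 243) (nat_lit 203))))) (XT.nd (nat_lit 376) (nat_lit 4032) (nat_lit 0) (XT.nd (nat_lit 188) (nat_lit 1764) (nat_lit 0) (XT.nd (nat_lit 94) (nat_lit 1764) (nat_lit 0) (XT.lf (nat_lit 0) (nat_lit 6377595987) (nat_lit 1596) (nat_lit 709350563) (nat_lit 1680) (nat_lit 379957250) (nat_lit 348) (nat_lit 5) (nat_lit 367) (nat_lit 5) (nat_lit 368) (nat_lit 5) (nat_lit 275) (nat_lit 243) (nat_lit 202)) (XT.lf (nat_lit 0) (nat_lit 2025133164) (nat_lit 1764) (nat_lit 3822035913) (nat_lit 84) (nat_lit 1676514676) (nat_lit 327) (nat_lit 5) (nat_lit 348) (nat_lit 5) (nat_lit 328) (nat_lit 5) (nat_lit 276) (nat_lit 243) (nat_lit 201))) (XT.nd (nat_lit 94) (nat_lit 0) (nat_lit 0) (XT.lf (nat_lit 0) (nat_lit 993458893) (nat_lit 1764) (nat_lit 3455260808) (nat_lit 1848) (nat_lit 3133566416) (nat_lit 306) (nat_lit 5) (nat_lit 327) (nat_lit 5) (nat_lit 328) (nat_lit 5)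 (nat_lit 277) (nat_lit 243) (nat_lit 200)) (XT.lf (nat_lit 0) (nat_lit 5926707833) (nat_lit 1764) (nat_lit 978715972) (nat_lit 1848) (nat_lit 737198357) (nat_lit 306) (nat_lit 5) (nat_lit 327) (nat_lit 5) (nat_lit 328) (nat_lit 5) (nat_lit 278) (nat_lit 243) (nat_lit 199)))) (XT.nd (nat_lit 188) (nat_lit 1008) (nat_lit 0) (XT.nd (nat_lit 94) (nat_lit 1092) (nat_lit 0) (XT.lf (nat_lit 0) (nat_lit 1674011245) (nat_lit 1932) (nat_lit 4462009970) (nat_lit 84) (nat_lit 1568286993) (nat_lit 283) (nat_lit 5) (nat_lit 306) (nat_lit 5) (nat_lit 284) (nat_lit 5) (nat_lit 279) (nat_lit 243) (nat_lit 198)) (XT.lf (nat_lit 0) (nat_lit 517294328) (nat_lit 1092) (nat_lit 3586689506) (nat_lit 1176) (nat_lit 3663764949) (nat_lit 270) (nat_lit 5) (nat_lit 283) (nat_lit 5) (nat_lit 284) (nat_lit 5) (nat_lit 280) (nat_lit 243) (nat_lit 197))) (XT.nd (nat_lit 94) (nat_lit 1008) (nat_lit 0) (XT.lf (nat_lit 0) (nat_lit 5627395853)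 (nat_lit 1092) (nat_lit 946658056) (nat_lit 1176) (nat_lit 1258825105) (nat_lit 270) (nat_lit 5) (nat_lit 283) (nat_lit 5) (nat_lit 284) (nat_lit 5) (nat_lit 281) (nat_lit 243) (nat_lit 196)) (XT.lf (nat_lit 0) (nat_lit 1169732267) (nat_lit 1008) (nat_lit 4973300815) (nat_lit 84) (nat_lit 1756485597) (nat_lit 258) (nat_lit 5) (nat_lit 270) (nat_lit 5) (nat_lit 259) (nat_lit 5) (nat_lit 282) (nat_lit 243) (nat_lit 195))))))) (XT.nd (nat_lit 1410) (nat_lit 6300) (nat_lit 0) (XT.nd (nat_lit 658) (nat_lit 4704) (nat_lit 0) (XT.nd (nat_lit 282) (nat_lit 1764) (nat_lit 0) (XT.nd (nat_lit 94) (nat_lit 924) (nat_lit 0) (XT.lf (nat_lit 0) (nat_lit 177122199) (nat_lit 924) (nat_lit 3435641043) (nat_lit 1008) (nat_lit 4355108906) (nat_lit 247) (nat_lit 5) (nat_lit 258) (nat_lit 5) (nat_lit 259) (nat_lit 5) (nat_lit 283) (nat_lit 243) (nat_lit 194)) (XT.nd (nat_lit 94) (nat_lit 924) (nat_lit 0) (XT.lf (nat_lit 0)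 (nat_lit 5469718132) (nat_lit 924) (nat_lit 632215127) (nat_lit 1008) (nat_lit 1935963504) (nat_lit 247) (nat_lit 5) (nat_lit 258) (nat_lit 5) (nat_lit 259) (nat_lit 5) (nat_lit 284) (nat_lit 243) (nat_lit 193)) (XT.lf (nat_lit 0) (nat_lit 520701498) (nat_lit 924) (nat_lit 5365824631) (nat_lit 84) (nat_lit 2223027194) (nat_lit 236) (nat_lit 5) (nat_lit 247) (nat_lit 5) (nat_lit 237) (nat_lit 5) (nat_lit 285) (nat_lit 243) (nat_lit 192)))) (XT.nd (nat_lit 188) (nat_lit 924) (nat_lit 0) (XT.nd (nat_lit 94) (nat_lit 840) (nat_lit 0) (XT.lf (nat_lit 0) (nat_lit 2983532371) (nat_lit 924) (nat_lit 36033837) (nat_lit 84) (nat_lit 5163336490) (nat_lit 236) (nat_lit 5) (nat_lit 247) (nat_lit 5) (nat_lit 237) (nat_lit 5) (nat_lit 286) (nat_lit 243) (nat_lit 191)) (XT.lf (nat_lit 0) (nat_lit 5444732571) (nat_lit 840) (nat_lit 52431422) (nat_lit 924) (nat_lit 2760776159) (nat_lit 226) (nat_lit 5) (nat_lit 236) (nat_lit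 5) (nat_lit 237) (nat_lit 5) (nat_lit 287) (nat_lit 243) (nat_lit 190))) (XT.nd (nat_lit 94) (nat_lit 84) (nat_lit 0) (XT.lf (nat_lit 0) (nat_lit 2684149850) (nat_lit 840) (nat_lit 5380966632) (nat_lit 924) (nat_lit 269533487) (nat_lit 216) (nat_lit 5) (nat_lit 226) (nat_lit 5) (nat_lit 227) (nat_lit 5) (nat_lit 288) (nat_lit 243) (nat_lit 189)) (XT.lf (nat_lit 0) (nat_lit 2223722238) (nat_lit 924) (nat_lit 130423967) (nat_lit 84) (nat_lit 6058984556) (nat_lit 215) (nat_lit 5) (nat_lit 226) (nat_lit 5) (nat_lit 216) (nat_lit 5) (nat_lit 289) (nat_lit 243) (nat_lit 188))))) (XT.nd (nat_lit 376) (nat_lit 2268) (nat_lit 0) (XT.nd (nat_lit 188) (nat_lit 840) (nat_lit 0) (XT.nd (nat_lit 94) (nat_lit 756) (nat_lit 0) (XT.lf (nat_lit 0) (nat_lit 4772466467) (nat_lit 924) (nat_lit 2954433726) (nat_lit 84) (nat_lit 766293472) (nat_lit 205) (nat_lit 5) (nat_lit 216) (nat_lit 5) (nat_lit 206) (nat_lit 5) (nat_lit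 290) (nat_lit 243) (nat_lit 187)) (XT.lf (nat_lit 0) (nat_lit 2736797698) (nat_lit 756) (nat_lit 4638184543) (nat_lit 840) (nat_lit 1200086330) (nat_lit 196) (nat_lit 5) (nat_lit 205) (nat_lit 5) (nat_lit 206) (nat_lit 5) (nat_lit 291) (nat_lit 243) (nat_lit 186))) (XT.nd (nat_lit 94) (nat_lit 756) (nat_lit 0) (XT.lf (nat_lit 0) (nat_lit 1338520462) (nat_lit 840) (nat_lit 116210358) (nat_lit 84) (nat_lit 7204186993) (nat_lit 195) (nat_lit 5) (nat_lit 205) (nat_lit 5) (nat_lit 196) (nat_lit 5) (nat_lit 292) (nat_lit 243) (nat_lit 185)) (XT.lf (nat_lit 0) (nat_lit 3930691236) (nat_lit 840) (nat_lit 2995891574) (nat_lit 84) (nat_lit 1817498365) (nat_lit 186) (nat_lit 5) (nat_lit 196) (nat_lit 5) (nat_lit 187) (nat_lit 5) (nat_lit 293) (nat_lit 243) (nat_lit 184)))) (XT.nd (nat_lit 188) (nat_lit 1428) (nat_lit 0) (XT.nd (nat_lit 94) (nat_lit 84) (nat_lit 0) (XT.lf (nat_lit 0) (nat_lit 2898543867) (nat_lit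 756) (nat_lit 3675131112) (nat_lit 840) (nat_lit 2257579876) (nat_lit 177) (nat_lit 5) (nat_lit 186) (nat_lit 5) (nat_lit 187) (nat_lit 5) (nat_lit 294) (nat_lit 243) (nat_lit 183)) (XT.lf (nat_lit 0) (nat_lit 333558057) (nat_lit 840) (nat_lit 227397) (nat_lit 84) (nat_lit 8586852838) (nat_lit 176) (nat_lit 5) (nat_lit 186) (nat_lit 5) (nat_lit 177) (nat_lit 5) (nat_lit 295) (nat_lit 243) (nat_lit 182))) (XT.nd (nat_lit 94) (nat_lit 672) (nat_lit 0) (XT.lf (nat_lit 0) (nat_lit 2976918696) (nat_lit 840) (nat_lit 2943888093) (nat_lit 84) (nat_lit 3090193917) (nat_lit 167) (nat_lit 5) (nat_lit 177) (nat_lit 5) (nat_lit 168) (nat_lit 5) (nat_lit 296) (nat_lit 243) (nat_lit 181)) (XT.lf (nat_lit 0) (nat_lit 3163163451) (nat_lit 672) (nat_lit 2503409073) (nat_lit 756) (nat_lit 3437039506) (nat_lit 159) (nat_lit 5) (nat_lit 167) (nat_lit 5) (nat_lit 168) (nat_lit 5) (nat_lit 297) (nat_lit 243) (nat_lit 180))))))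 (XT.nd (nat_lit 658) (nat_lit 2940) (nat_lit 0) (XT.nd (nat_lit 282) (nat_lit 1932) (nat_lit 0) (XT.nd (nat_lit 94) (nat_lit 756) (nat_lit 0) (XT.lf (nat_lit 0) (nat_lit 201478565) (nat_lit 672) (nat_lit 8207901426) (nat_lit 756) (nat_lit 789013224) (nat_lit 151) (nat_lit 5) (nat_lit 159) (nat_lit 5) (nat_lit 160) (nat_lit 5) (nat_lit 298) (nat_lit 243) (nat_lit 179)) (XT.nd (nat_lit 94) (nat_lit 672) (nat_lit 0) (XT.lf (nat_lit 0) (nat_lit 1915878192) (nat_lit 756) (nat_lit 2804423938) (nat_lit 84) (nat_lit 4574080085) (nat_lit 150) (nat_lit 5) (nat_lit 159) (nat_lit 5) (nat_lit 151) (nat_lit 5) (nat_lit 299) (nat_lit 243) (nat_lit 178)) (XT.lf (nat_lit 0) (nat_lit 3525125049) (nat_lit 672) (nat_lit 1133228476) (nat_lit 756) (nat_lit 4734229888) (nat_lit 142) (nat_lit 5) (nat_lit 150) (nat_lit 5) (nat_lit 151) (nat_lit 5) (nat_lit 300) (nat_lit 243) (nat_lit 177)))) (XT.nd (nat_lit 188) (nat_lit 1176)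 (nat_lit 0) (XT.nd (nat_lit 94) (nat_lit 84) (nat_lit 0) (XT.lf (nat_lit 0) (nat_lit 487557560) (nat_lit 672) (nat_lit 6980952064) (nat_lit 756) (nat_lit 2024273793) (nat_lit 134) (nat_lit 5) (nat_lit 142) (nat_lit 5) (nat_lit 143) (nat_lit 5) (nat_lit 301) (nat_lit 243) (nat_lit 176)) (XT.lf (nat_lit 0) (nat_lit 751624591) (nat_lit 756) (nat_lit 2582872220) (nat_lit 84) (nat_lit 6260198940) (nat_lit 133) (nat_lit 5) (nat_lit 142) (nat_lit 5) (nat_lit 134) (nat_lit 5) (nat_lit 302) (nat_lit 243) (nat_lit 175))) (XT.nd (nat_lit 94) (nat_lit 588) (nat_lit 0) (XT.lf (nat_lit 0) (nat_lit 3556084265) (nat_lit 672) (nat_lit 5722150739) (nat_lit 84) (nat_lit 420350588) (nat_lit 126) (nat_lit 5) (nat_lit 134) (nat_lit 5) (nat_lit 127) (nat_lit 5) (nat_lit 303) (nat_lit 243) (nat_lit 174)) (XT.lf (nat_lit 0) (nat_lit 858056863) (nat_lit 588) (nat_lit 5580046992) (nat_lit 672) (nat_lit 3366308195) (nat_lit 119)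 (nat_lit 5) (nat_lit 126) (nat_lit 5) (nat_lit 127) (nat_lit 5) (nat_lit 304) (nat_lit 243) (nat_lit 173))))) (XT.nd (nat_lit 376) (nat_lit 1680) (nat_lit 0) (XT.nd (nat_lit 188) (nat_lit 588) (nat_lit 0) (XT.nd (nat_lit 94) (nat_lit 672) (nat_lit 0) (XT.lf (nat_lit 0) (nat_lit 7624640479) (nat_lit 588) (nat_lit 1767824966) (nat_lit 672) (nat_lit 519904620) (nat_lit 119) (nat_lit 5) (nat_lit 126) (nat_lit 5) (nat_lit 127) (nat_lit 5) (nat_lit 305) (nat_lit 243) (nat_lit 172)) (XT.lf (nat_lit 0) (nat_lit 2369516347) (nat_lit 672) (nat_lit 5515671795) (nat_lit 84) (nat_lit 2136814848) (nat_lit 111) (nat_lit 5) (nat_lit 119) (nat_lit 5) (nat_lit 112) (nat_lit 5) (nat_lit 306) (nat_lit 243) (nat_lit 171))) (XT.nd (nat_lit 94) (nat_lit 0) (nat_lit 0) (XT.lf (nat_lit 0) (nat_lit 1308714400) (nat_lit 588) (nat_lit 4012826546) (nat_lit 672) (nat_lit 4812276458) (nat_lit 104) (nat_lit 5) (nat_lit 111) (nat_lit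 5) (nat_lit 112) (nat_lit 5) (nat_lit 307) (nat_lit 243) (nat_lit 170)) (XT.lf (nat_lit 0) (nat_lit 8322219944) (nat_lit 588) (nat_lit 24898232) (nat_lit 672) (nat_lit 1900784183) (nat_lit 104) (nat_lit 5) (nat_lit 111) (nat_lit 5) (nat_lit 112) (nat_lit 5) (nat_lit 308) (nat_lit 243) (nat_lit 169)))) (XT.nd (nat_lit 188) (nat_lit 504) (nat_lit 0) (XT.nd (nat_lit 94) (nat_lit 588) (nat_lit 0) (XT.lf (nat_lit 0) (nat_lit 1093386712) (nat_lit 588) (nat_lit 5244205791) (nat_lit 84) (nat_lit 4025985925) (nat_lit 97) (nat_lit 5) (nat_lit 104) (nat_lit 5) (nat_lit 98) (nat_lit 5) (nat_lit 309) (nat_lit 243) (nat_lit 168)) (XT.lf (nat_lit 0) (nat_lit 1835790805) (nat_lit 588) (nat_lit 2285872080) (nat_lit 672) (nat_lit 6359915370) (nat_lit 90) (nat_lit 5) (nat_lit 97) (nat_lit 5) (nat_lit 98) (nat_lit 5) (nat_lit 310) (nat_lit 243) (nat_lit 167))) (XT.nd (nat_lit 94) (nat_lit 504) (nat_lit 0) (XT.lf (nat_lit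 0) (nat_lit 7237704810) (nat_lit 672) (nat_lit 1508452704) (nat_lit 84) (nat_lit 1855551402) (nat_lit 90) (nat_lit 5) (nat_lit 98) (nat_lit 5) (nat_lit 91) (nat_lit 5) (nat_lit 311) (nat_lit 243) (nat_lit 166)) (XT.lf (nat_lit 0) (nat_lit 5810381156) (nat_lit 504) (nat_lit 4639530167) (nat_lit 588) (nat_lit 273963673) (nat_lit 84) (nat_lit 5) (nat_lit 90) (nat_lit 5) (nat_lit 91) (nat_lit 5) (nat_lit 312) (nat_lit 243) (nat_lit 165))))))))
noncomputable def xc27 : XT := (XT.nd (nat_lit 41454) (nat_lit 0) (nat_lit 4704) (XT.nd (nat_lit 40044) (nat_lit 0) (nat_lit 25872) (XT.nd (nat_lit 39292) (nat_lit 0) (nat_lit 36120) (XT.nd (nat_lit 38916) (nat_lit 0) (nat_lit 38052) (XT.nd (nat_lit 38728) (nat_lit 0) (nat_lit 38556) (XT.lf (nat_lit 0) (nat_lit 2436032341) (nat_lit 504) (nat_lit 404777988) (nat_lit 588) (nat_lit 8007504005) (nat_lit 77) (nat_lit 5) (nat_lit 83) (nat_lit 5) (nat_lit 84) (nat_lit 5)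 (nat_lit 313) (nat_lit 243) (nat_lit 164)) (XT.nd (nat_lit 94) (nat_lit 420) (nat_lit 0) (XT.lf (nat_lit 0) (nat_lit 2394044147) (nat_lit 420) (nat_lit 422689656) (nat_lit 420) (nat_lit 422689656) (nat_lit 541) (nat_lit 3) (nat_lit 546) (nat_lit 3) (nat_lit 546) (nat_lit 5) (nat_lit 244) (nat_lit 244) (nat_lit 232)) (XT.lf (nat_lit 0) (nat_lit 1118909392) (nat_lit 420) (nat_lit 4067936626) (nat_lit 504) (nat_lit 1301855878) (nat_lit 536) (nat_lit 5) (nat_lit 541) (nat_lit 3) (nat_lit 542) (nat_lit 5) (nat_lit 245) (nat_lit 244) (nat_lit 231)))) (XT.nd (nat_lit 188) (nat_lit 0) (nat_lit 0) (XT.nd (nat_lit 94) (nat_lit 504) (nat_lit 0) (XT.lf (nat_lit 0) (nat_lit 3891234543) (nat_lit 420) (nat_lit 782088596) (nat_lit 504) (nat_lit 1826813638) (nat_lit 536) (nat_lit 5) (nat_lit 541) (nat_lit 3) (nat_lit 542) (nat_lit 5) (nat_lit 246) (nat_lit 244) (nat_lit 230)) (XT.lf (nat_lit 0) (nat_lit 148717558) (nat_lit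 504) (nat_lit 3942717613) (nat_lit 588) (nat_lit 2421695531) (nat_lit 530) (nat_lit 5) (nat_lit 536) (nat_lit 5) (nat_lit 537) (nat_lit 5) (nat_lit 247) (nat_lit 244) (nat_lit 229))) (XT.nd (nat_lit 94) (nat_lit 0) (nat_lit 0) (XT.lf (nat_lit 0) (nat_lit 2856436675) (nat_lit 504) (nat_lit 579381328) (nat_lit 588) (nat_lit 3091762284) (nat_lit 530) (nat_lit 5) (nat_lit 536) (nat_lit 5) (nat_lit 537) (nat_lit 5) (nat_lit 248) (nat_lit 244) (nat_lit 228)) (XT.lf (nat_lit 84) (nat_lit 2857606360) (nat_lit 0) (nat_lit 2710169416) (nat_lit 588) (nat_lit 975802883) (nat_lit 531) (nat_lit 5) (nat_lit 530) (nat_lit 5) (nat_lit 537) (nat_lit 5) (nat_lit 249) (nat_lit 244) (nat_lit 227))))) (XT.nd (nat_lit 376) (nat_lit 672) (nat_lit 0) (XT.nd (nat_lit 188) (nat_lit 672) (nat_lit 0) (XT.nd (nat_lit 94) (nat_lit 0) (nat_lit 0) (XT.lf (nat_lit 0) (nat_lit 1682023289) (nat_lit 588) (nat_lit 235980172) (nat_lit 672)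 (nat_lit 4643212979) (nat_lit 523) (nat_lit 5) (nat_lit 530) (nat_lit 5) (nat_lit 531) (nat_lit 5) (nat_lit 250) (nat_lit 244) (nat_lit 226)) (XT.lf (nat_lit 84) (nat_lit 3288783555) (nat_lit 0) (nat_lit 1044724457) (nat_lit 672) (nat_lit 2246687849) (nat_lit 524) (nat_lit 5) (nat_lit 523) (nat_lit 5) (nat_lit 531) (nat_lit 5) (nat_lit 251) (nat_lit 244) (nat_lit 225))) (XT.nd (nat_lit 94) (nat_lit 0) (nat_lit 84) (XT.lf (nat_lit 84) (nat_lit 253375325) (nat_lit 0) (nat_lit 114419319) (nat_lit 756) (nat_lit 6233258677) (nat_lit 516) (nat_lit 5) (nat_lit 515) (nat_lit 5) (nat_lit 524) (nat_lit 5) (nat_lit 252) (nat_lit 244) (nat_lit 224)) (XT.lf (nat_lit 0) (nat_lit 2965552134) (nat_lit 672) (nat_lit 2762670682) (nat_lit 756) (nat_lit 894692791) (nat_lit 516) (nat_lit 5) (nat_lit 524) (nat_lit 5) (nat_lit 525) (nat_lit 5) (nat_lit 253) (nat_lit 244) (nat_lit 223)))) (XT.nd (nat_lit 188) (nat_lit 0) (nat_lit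 0) (XT.nd (nat_lit 94) (nat_lit 756) (nat_lit 0) (XT.lf (nat_lit 84) (nat_lit 870195399) (nat_lit 0) (nat_lit 4687219901) (nat_lit 756) (nat_lit 1089230554) (nat_lit 517) (nat_lit 5) (nat_lit 516) (nat_lit 5) (nat_lit 525) (nat_lit 5) (nat_lit 254) (nat_lit 244) (nat_lit 222)) (XT.lf (nat_lit 0) (nat_lit 1464469701) (nat_lit 756) (nat_lit 2100706421) (nat_lit 840) (nat_lit 3106555402) (nat_lit 507) (nat_lit 5) (nat_lit 516) (nat_lit 5) (nat_lit 517) (nat_lit 5) (nat_lit 255) (nat_lit 244) (nat_lit 221))) (XT.nd (nat_lit 94) (nat_lit 0) (nat_lit 0) (XT.lf (nat_lit 84) (nat_lit 1628954090) (nat_lit 0) (nat_lit 2373089000) (nat_lit 840) (nat_lit 2696389583) (nat_lit 508) (nat_lit 5) (nat_lit 507) (nat_lit 5) (nat_lit 517) (nat_lit 5) (nat_lit 256) (nat_lit 244) (nat_lit 220)) (XT.lf (nat_lit 84) (nat_lit 5429866095) (nat_lit 0) (nat_lit 1114376101) (nat_lit 840) (nat_lit 182605472) (nat_lit 508) (nat_lit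 5) (nat_lit 507) (nat_lit 5) (nat_lit 517) (nat_lit 5) (nat_lit 257) (nat_lit 244) (nat_lit 219)))))) (XT.nd (nat_lit 658) (nat_lit 6552) (nat_lit 0) (XT.nd (nat_lit 282) (nat_lit 2016) (nat_lit 0) (XT.nd (nat_lit 94) (nat_lit 924) (nat_lit 0) (XT.lf (nat_lit 0) (nat_lit 2306063875) (nat_lit 840) (nat_lit 4222405224) (nat_lit 84) (nat_lit 228057695) (nat_lit 498) (nat_lit 5) (nat_lit 508) (nat_lit 5) (nat_lit 499) (nat_lit 5) (nat_lit 258) (nat_lit 244) (nat_lit 218)) (XT.nd (nat_lit 94) (nat_lit 924) (nat_lit 0) (XT.lf (nat_lit 0) (nat_lit 4800080476) (nat_lit 840) (nat_lit 370787364) (nat_lit 84) (nat_lit 1616989517) (nat_lit 498) (nat_lit 5) (nat_lit 508) (nat_lit 5) (nat_lit 499) (nat_lit 5) (nat_lit 259) (nat_lit 244) (nat_lit 217)) (XT.lf (nat_lit 0) (nat_lit 483565811) (nat_lit 924) (nat_lit 3249720560) (nat_lit 84) (nat_lit 3087341750) (nat_lit 487) (nat_lit 5) (nat_lit 498) (nat_lit 5) (nat_lit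 488) (nat_lit 5) (nat_lit 260) (nat_lit 244) (nat_lit 216)))) (XT.nd (nat_lit 188) (nat_lit 1092) (nat_lit 0) (XT.nd (nat_lit 94) (nat_lit 0) (nat_lit 0) (XT.lf (nat_lit 0) (nat_lit 703260214) (nat_lit 924) (nat_lit 2222041476) (nat_lit 1008) (nat_lit 3929703546) (nat_lit 476) (nat_lit 5) (nat_lit 487) (nat_lit 5) (nat_lit 488) (nat_lit 5) (nat_lit 261) (nat_lit 244) (nat_lit 215)) (XT.lf (nat_lit 0) (nat_lit 4748877651) (nat_lit 924) (nat_lit 634437003) (nat_lit 1008) (nat_lit 1507647699) (nat_lit 476) (nat_lit 5) (nat_lit 487) (nat_lit 5) (nat_lit 488) (nat_lit 5) (nat_lit 262) (nat_lit 244) (nat_lit 214))) (XT.nd (nat_lit 94) (nat_lit 0) (nat_lit 0) (XT.lf (nat_lit 0) (nat_lit 914286896) (nat_lit 1092) (nat_lit 5001979976) (nat_lit 84) (nat_lit 1012160314) (nat_lit 463) (nat_lit 5) (nat_lit 476) (nat_lit 5) (nat_lit 464) (nat_lit 5) (nat_lit 263) (nat_lit 244) (nat_lit 213)) (XT.lf (nat_lit 0) (nat_lit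 3328429947) (nat_lit 1092) (nat_lit 909546879) (nat_lit 84) (nat_lit 2729353350) (nat_lit 463) (nat_lit 5) (nat_lit 476) (nat_lit 5) (nat_lit 464) (nat_lit 5) (nat_lit 264) (nat_lit 244) (nat_lit 212))))) (XT.nd (nat_lit 376) (nat_lit 2940) (nat_lit 0) (XT.nd (nat_lit 188) (nat_lit 1260) (nat_lit 0) (XT.nd (nat_lit 94) (nat_lit 1260) (nat_lit 0) (XT.lf (nat_lit 0) (nat_lit 3277118241) (nat_lit 1092) (nat_lit 2483751608) (nat_lit 1176) (nat_lit 1246985098) (nat_lit 450) (nat_lit 5) (nat_lit 463) (nat_lit 5) (nat_lit 464) (nat_lit 5) (nat_lit 265) (nat_lit 244) (nat_lit 211)) (XT.lf (nat_lit 0) (nat_lit 475080299) (nat_lit 1176) (nat_lit 657747900) (nat_lit 1260) (nat_lit 5917299851) (nat_lit 435) (nat_lit 5) (nat_lit 449) (nat_lit 5) (nat_lit 450) (nat_lit 5) (nat_lit 266) (nat_lit 244) (nat_lit 210))) (XT.nd (nat_lit 94) (nat_lit 1260) (nat_lit 0) (XT.lf (nat_lit 0) (nat_lit 3526408677) (nat_lit 1260)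 (nat_lit 2326029379) (nat_lit 84) (nat_lit 1241138517) (nat_lit 435) (nat_lit 5) (nat_lit 450) (nat_lit 5) (nat_lit 436) (nat_lit 5) (nat_lit 267) (nat_lit 244) (nat_lit 209)) (XT.lf (nat_lit 0) (nat_lit 1996836699) (nat_lit 1260) (nat_lit 3939443869) (nat_lit 1344) (nat_lit 1202500477) (nat_lit 420) (nat_lit 5) (nat_lit 435) (nat_lit 5) (nat_lit 436) (nat_lit 5) (nat_lit 268) (nat_lit 244) (nat_lit 208)))) (XT.nd (nat_lit 188) (nat_lit 1512) (nat_lit 0) (XT.nd (nat_lit 94) (nat_lit 1344) (nat_lit 0) (XT.lf (nat_lit 0) (nat_lit 1159114715) (nat_lit 1344) (nat_lit 787920784) (nat_lit 84) (nat_lit 5238581147) (nat_lit 419) (nat_lit 5) (nat_lit 435) (nat_lit 5) (nat_lit 420) (nat_lit 5) (nat_lit 269) (nat_lit 244) (nat_lit 207)) (XT.lf (nat_lit 0) (nat_lit 3528328632) (nat_lit 1428) (nat_lit 3572110725) (nat_lit 84) (nat_lit 133437114) (nat_lit 403) (nat_lit 5) (nat_lit 420) (nat_lit 5) (nat_lit 404) (nat_lit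 5) (nat_lit 270) (nat_lit 244) (nat_lit 206))) (XT.nd (nat_lit 94) (nat_lit 84) (nat_lit 0) (XT.lf (nat_lit 0) (nat_lit 892619361) (nat_lit 1428) (nat_lit 5030652355) (nat_lit 1512) (nat_lit 1360506951) (nat_lit 386) (nat_lit 5) (nat_lit 403) (nat_lit 5) (nat_lit 404) (nat_lit 5) (nat_lit 271) (nat_lit 244) (nat_lit 205)) (XT.lf (nat_lit 0) (nat_lit 995436262) (nat_lit 1512) (nat_lit 1877357405) (nat_lit 84) (nat_lit 4462389507) (nat_lit 385) (nat_lit 5) (nat_lit 403) (nat_lit 5) (nat_lit 386) (nat_lit 5) (nat_lit 272) (nat_lit 244) (nat_lit 204))))))) (XT.nd (nat_lit 1410) (nat_lit 7812) (nat_lit 0) (XT.nd (nat_lit 658) (nat_lit 4788) (nat_lit 0) (XT.nd (nat_lit 282) (nat_lit 5376) (nat_lit 0) (XT.nd (nat_lit 94) (nat_lit 1680) (nat_lit 0) (XT.lf (nat_lit 0) (nat_lit 2721489886) (nat_lit 1512) (nat_lit 629864196) (nat_lit 1596) (nat_lit 4036846847) (nat_lit 367) (nat_lit 5) (nat_lit 385) (nat_lit 5)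 (nat_lit 386) (nat_lit 5) (nat_lit 273) (nat_lit 244) (nat_lit 203)) (XT.nd (nat_lit 94) (nat_lit 1680) (nat_lit 0) (XT.lf (nat_lit 0) (nat_lit 5734542007) (nat_lit 1596) (nat_lit 48869840) (nat_lit 84) (nat_lit 1659513549) (nat_lit 367) (nat_lit 5) (nat_lit 386) (nat_lit 5) (nat_lit 368) (nat_lit 5) (nat_lit 274) (nat_lit 244) (nat_lit 202)) (XT.lf (nat_lit 0) (nat_lit 650263816) (nat_lit 1680) (nat_lit 2813713076) (nat_lit 84) (nat_lit 4035021924) (nat_lit 347) (nat_lit 5) (nat_lit 367) (nat_lit 5) (nat_lit 348) (nat_lit 5) (nat_lit 275) (nat_lit 244) (nat_lit 201)))) (XT.nd (nat_lit 188) (nat_lit 3696) (nat_lit 0) (XT.nd (nat_lit 94) (nat_lit 0) (nat_lit 0) (XT.lf (nat_lit 0) (nat_lit 1939680406) (nat_lit 1680) (nat_lit 1061268891) (nat_lit 1764) (nat_lit 4555846442) (nat_lit 327) (nat_lit 5) (nat_lit 347) (nat_lit 5) (nat_lit 348) (nat_lit 5) (nat_lit 276) (nat_lit 244) (nat_lit 200)) (XT.lf (nat_lit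 0) (nat_lit 5386106396) (nat_lit 1764) (nat_lit 830435838) (nat_lit 84) (nat_lit 1399701316) (nat_lit 327) (nat_lit 5) (nat_lit 348) (nat_lit 5) (nat_lit 328) (nat_lit 5) (nat_lit 277) (nat_lit 244) (nat_lit 199))) (XT.nd (nat_lit 94) (nat_lit 1848) (nat_lit 0) (XT.lf (nat_lit 0) (nat_lit 134183508) (nat_lit 1848) (nat_lit 3609426181) (nat_lit 84) (nat_lit 3933596224) (nat_lit 305) (nat_lit 5) (nat_lit 327) (nat_lit 5) (nat_lit 306) (nat_lit 5) (nat_lit 278) (nat_lit 244) (nat_lit 198)) (XT.lf (nat_lit 0) (nat_lit 1305280443) (nat_lit 1848) (nat_lit 1181180358) (nat_lit 1932) (nat_lit 5253378546) (nat_lit 283) (nat_lit 5) (nat_lit 305) (nat_lit 5) (nat_lit 306) (nat_lit 5) (nat_lit 279) (nat_lit 244) (nat_lit 197))))) (XT.nd (nat_lit 376) (nat_lit 2688) (nat_lit 0) (XT.nd (nat_lit 188) (nat_lit 1008) (nat_lit 0) (XT.nd (nat_lit 94) (nat_lit 1092) (nat_lit 0) (XT.lf (nat_lit 0) (nat_lit 4881586736) (nat_lit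 1932) (nat_lit 1476415399) (nat_lit 84) (nat_lit 1446044414) (nat_lit 283) (nat_lit 5) (nat_lit 306) (nat_lit 5) (nat_lit 284) (nat_lit 5) (nat_lit 280) (nat_lit 244) (nat_lit 196)) (XT.lf (nat_lit 0) (nat_lit 3590146244) (nat_lit 1092) (nat_lit 3728425228) (nat_lit 1176) (nat_lit 551333184) (nat_lit 270) (nat_lit 5) (nat_lit 283) (nat_lit 5) (nat_lit 284) (nat_lit 5) (nat_lit 281) (nat_lit 244) (nat_lit 195))) (XT.nd (nat_lit 94) (nat_lit 0) (nat_lit 0) (XT.lf (nat_lit 0) (nat_lit 807357697) (nat_lit 924) (nat_lit 1009704145) (nat_lit 1008) (nat_lit 6120470997) (nat_lit 258) (nat_lit 5) (nat_lit 269) (nat_lit 5) (nat_lit 270) (nat_lit 5) (nat_lit 282) (nat_lit 244) (nat_lit 194)) (XT.lf (nat_lit 0) (nat_lit 4229868938) (nat_lit 1008) (nat_lit 1997247075) (nat_lit 84) (nat_lit 1779435221) (nat_lit 258) (nat_lit 5) (nat_lit 270) (nat_lit 5) (nat_lit 259) (nat_lit 5) (nat_lit 283) (nat_lit 244) (nat_lit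 193)))) (XT.nd (nat_lit 188) (nat_lit 840) (nat_lit 0) (XT.nd (nat_lit 94) (nat_lit 924) (nat_lit 0) (XT.lf (nat_lit 0) (nat_lit 3244185554) (nat_lit 924) (nat_lit 3438960878) (nat_lit 1008) (nat_lit 1394219050) (nat_lit 247) (nat_lit 5) (nat_lit 258) (nat_lit 5) (nat_lit 259) (nat_lit 5) (nat_lit 284) (nat_lit 244) (nat_lit 192)) (XT.lf (nat_lit 0) (nat_lit 436001127) (nat_lit 840) (nat_lit 564871280) (nat_lit 924) (nat_lit 7149247695) (nat_lit 236) (nat_lit 5) (nat_lit 246) (nat_lit 5) (nat_lit 247) (nat_lit 5) (nat_lit 285) (nat_lit 244) (nat_lit 191))) (XT.nd (nat_lit 94) (nat_lit 840) (nat_lit 0) (XT.lf (nat_lit 0) (nat_lit 3438826134) (nat_lit 924) (nat_lit 2402411919) (nat_lit 84) (nat_lit 2382778720) (nat_lit 236) (nat_lit 5) (nat_lit 247) (nat_lit 5) (nat_lit 237) (nat_lit 5) (nat_lit 286) (nat_lit 244) (nat_lit 190)) (XT.lf (nat_lit 0) (nat_lit 3021825358) (nat_lit 840) (nat_lit 2892968923)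 (nat_lit 924) (nat_lit 2385088542) (nat_lit 226) (nat_lit 5) (nat_lit 236) (nat_lit 5) (nat_lit 237) (nat_lit 5) (nat_lit 287) (nat_lit 244) (nat_lit 189)))))) (XT.nd (nat_lit 658) (nat_lit 4452) (nat_lit 0) (XT.nd (nat_lit 282) (nat_lit 1596) (nat_lit 0) (XT.nd (nat_lit 94) (nat_lit 840) (nat_lit 0) (XT.lf (nat_lit 0) (nat_lit 46013419) (nat_lit 924) (nat_lit 8196624666) (nat_lit 84) (nat_lit 135227379) (nat_lit 215) (nat_lit 5) (nat_lit 226) (nat_lit 5) (nat_lit 216) (nat_lit 5) (nat_lit 288) (nat_lit 244) (nat_lit 188)) (XT.nd (nat_lit 94) (nat_lit 840) (nat_lit 0) (XT.lf (nat_lit 0) (nat_lit 2515392917) (nat_lit 924) (nat_lit 2700510466) (nat_lit 84) (nat_lit 3240840505) (nat_lit 215) (nat_lit 5) (nat_lit 226) (nat_lit 5) (nat_lit 216) (nat_lit 5) (nat_lit 289) (nat_lit 244) (nat_lit 187)) (XT.lf (nat_lit 0) (nat_lit 2914892456) (nat_lit 840) (nat_lit 2105412000) (nat_lit 924) (nat_lit 3517466654)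 (nat_lit 205) (nat_lit 5) (nat_lit 215) (nat_lit 5) (nat_lit 216) (nat_lit 5) (nat_lit 290) (nat_lit 244) (nat_lit 186)))) (XT.nd (nat_lit 188) (nat_lit 756) (nat_lit 0) (XT.nd (nat_lit 94) (nat_lit 84) (nat_lit 0) (XT.lf (nat_lit 0) (nat_lit 22433578) (nat_lit 756) (nat_lit 7546744105) (nat_lit 840) (nat_lit 1051648470) (nat_lit 196) (nat_lit 5) (nat_lit 205) (nat_lit 5) (nat_lit 206) (nat_lit 5) (nat_lit 291) (nat_lit 244) (nat_lit 185)) (XT.lf (nat_lit 0) (nat_lit 1465632888) (nat_lit 840) (nat_lit 2899333165) (nat_lit 84) (nat_lit 4340108204) (nat_lit 195) (nat_lit 5) (nat_lit 205) (nat_lit 5) (nat_lit 196) (nat_lit 5) (nat_lit 292) (nat_lit 244) (nat_lit 184))) (XT.nd (nat_lit 94) (nat_lit 0) (nat_lit 0) (XT.lf (nat_lit 0) (nat_lit 2916034664) (nat_lit 756) (nat_lit 1089589178) (nat_lit 840) (nat_lit 4785761732) (nat_lit 186) (nat_lit 5) (nat_lit 195) (nat_lit 5) (nat_lit 196) (nat_lit 5) (nat_lit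 293) (nat_lit 244) (nat_lit 183)) (XT.lf (nat_lit 0) (nat_lit 6601657158) (nat_lit 840) (nat_lit 36606105) (nat_lit 84) (nat_lit 2241328902) (nat_lit 186) (nat_lit 5) (nat_lit 196) (nat_lit 5) (nat_lit 187) (nat_lit 5) (nat_lit 294) (nat_lit 244) (nat_lit 182))))) (XT.nd (nat_lit 376) (nat_lit 2184) (nat_lit 0) (XT.nd (nat_lit 188) (nat_lit 672) (nat_lit 0) (XT.nd (nat_lit 94) (nat_lit 756) (nat_lit 0) (XT.lf (nat_lit 0) (nat_lit 294800061) (nat_lit 840) (nat_lit 3005924771) (nat_lit 84) (nat_lit 5668665271) (nat_lit 176) (nat_lit 5) (nat_lit 186) (nat_lit 5) (nat_lit 177) (nat_lit 5) (nat_lit 295) (nat_lit 244) (nat_lit 181)) (XT.lf (nat_lit 0) (nat_lit 2876933336) (nat_lit 840) (nat_lit 6043481052) (nat_lit 84) (nat_lit 140685133) (nat_lit 167) (nat_lit 5) (nat_lit 177) (nat_lit 5) (nat_lit 168) (nat_lit 5) (nat_lit 296) (nat_lit 244) (nat_lit 180))) (XT.nd (nat_lit 94) (nat_lit 672) (nat_lit 0) (XT.lf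 (nat_lit 0) (nat_lit 5526235403) (nat_lit 840) (nat_lit 3548773) (nat_lit 84) (nat_lit 3624814407) (nat_lit 167) (nat_lit 5) (nat_lit 177) (nat_lit 5) (nat_lit 168) (nat_lit 5) (nat_lit 297) (nat_lit 244) (nat_lit 179)) (XT.lf (nat_lit 0) (nat_lit 6216139013) (nat_lit 672) (nat_lit 2026706117) (nat_lit 756) (nat_lit 1007110988) (nat_lit 159) (nat_lit 5) (nat_lit 167) (nat_lit 5) (nat_lit 168) (nat_lit 5) (nat_lit 298) (nat_lit 244) (nat_lit 178)))) (XT.nd (nat_lit 188) (nat_lit 756) (nat_lit 0) (XT.nd (nat_lit 94) (nat_lit 672) (nat_lit 0) (XT.lf (nat_lit 0) (nat_lit 1646881847) (nat_lit 756) (nat_lit 6141812492) (nat_lit 84) (nat_lit 1558473835) (nat_lit 150) (nat_lit 5) (nat_lit 159) (nat_lit 5) (nat_lit 151) (nat_lit 5) (nat_lit 299) (nat_lit 244) (nat_lit 177)) (XT.lf (nat_lit 0) (nat_lit 117260721) (nat_lit 672) (nat_lit 4230681369) (nat_lit 756) (nat_lit 5098338414) (nat_lit 142) (nat_lit 5) (nat_lit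 150) (nat_lit 5) (nat_lit 151) (nat_lit 5) (nat_lit 300) (nat_lit 244) (nat_lit 176))) (XT.nd (nat_lit 94) (nat_lit 756) (nat_lit 0) (XT.lf (nat_lit 0) (nat_lit 6562821172) (nat_lit 672) (nat_lit 556752910) (nat_lit 756) (nat_lit 2427753957) (nat_lit 142) (nat_lit 5) (nat_lit 150) (nat_lit 5) (nat_lit 151) (nat_lit 5) (nat_lit 301) (nat_lit 244) (nat_lit 175)) (XT.lf (nat_lit 0) (nat_lit 311400245) (nat_lit 756) (nat_lit 6168242505) (nat_lit 84) (nat_lit 3170597074) (nat_lit 133) (nat_lit 5) (nat_lit 142) (nat_lit 5) (nat_lit 134) (nat_lit 5) (nat_lit 302) (nat_lit 244) (nat_lit 174))))))))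
noncomputable def xc28 : XT := (XT.nd (nat_lit 41548) (nat_lit 0) (nat_lit 9408) (XT.nd (nat_lit 40138) (nat_lit 0) (nat_lit 31920) (XT.nd (nat_lit 658) (nat_lit 1176) (nat_lit 0) (XT.nd (nat_lit 282) (nat_lit 1848) (nat_lit 0) (XT.nd (nat_lit 94) (nat_lit 588) (nat_lit 0) (XT.lf (nat_lit 0) (nat_lit 320261520) (nat_lit 588) (nat_lit 2749994830) (nat_lit 672) (nat_lit 6684876594) (nat_lit 126) (nat_lit 5) (nat_lit 133) (nat_lit 5) (nat_lit 134) (nat_lit 5) (nat_lit 303) (nat_lit 244) (nat_lit 173)) (XT.nd (nat_lit 94) (nat_lit 588) (nat_lit 0) (XT.lf (nat_lit 0) (nat_lit 5910246652) (nat_lit 672) (nat_lit 2868807722) (nat_lit 84) (nat_lit 1082829673) (nat_lit 126) (nat_lit 5) (nat_lit 134) (nat_lit 5) (nat_lit 127) (nat_lit 5) (nat_lit 304) (nat_lit 244) (nat_lit 172)) (XT.lf (nat_lit 0) (nat_lit 3834632559) (nat_lit 588) (nat_lit 4993113907) (nat_lit 672) (nat_lit 1142906554) (nat_lit 119) (nat_lit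 5) (nat_lit 126) (nat_lit 5) (nat_lit 127) (nat_lit 5) (nat_lit 305) (nat_lit 244) (nat_lit 171)))) (XT.nd (nat_lit 188) (nat_lit 1176) (nat_lit 0) (XT.nd (nat_lit 94) (nat_lit 0) (nat_lit 0) (XT.lf (nat_lit 0) (nat_lit 600786688) (nat_lit 588) (nat_lit 1095429267) (nat_lit 672) (nat_lit 8385471599) (nat_lit 111) (nat_lit 5) (nat_lit 118) (nat_lit 5) (nat_lit 119) (nat_lit 5) (nat_lit 306) (nat_lit 244) (nat_lit 170)) (XT.lf (nat_lit 0) (nat_lit 4615376700) (nat_lit 672) (nat_lit 2688713452) (nat_lit 84) (nat_lit 2890134821) (nat_lit 111) (nat_lit 5) (nat_lit 119) (nat_lit 5) (nat_lit 112) (nat_lit 5) (nat_lit 307) (nat_lit 244) (nat_lit 169))) (XT.nd (nat_lit 94) (nat_lit 588) (nat_lit 0) (XT.lf (nat_lit 0) (nat_lit 4264500872) (nat_lit 588) (nat_lit 3341471470) (nat_lit 672) (nat_lit 2703107180) (nat_lit 104) (nat_lit 5) (nat_lit 111) (nat_lit 5) (nat_lit 112) (nat_lit 5) (nat_lit 308) (nat_lit 244)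 (nat_lit 168)) (XT.lf (nat_lit 0) (nat_lit 233494235) (nat_lit 588) (nat_lit 9476944989) (nat_lit 84) (nat_lit 715962862) (nat_lit 97) (nat_lit 5) (nat_lit 104) (nat_lit 5) (nat_lit 98) (nat_lit 5) (nat_lit 309) (nat_lit 244) (nat_lit 167))))) (XT.nd (nat_lit 39104) (nat_lit 0) (nat_lit 37464) (XT.nd (nat_lit 188) (nat_lit 588) (nat_lit 0) (XT.nd (nat_lit 94) (nat_lit 588) (nat_lit 0) (XT.lf (nat_lit 0) (nat_lit 3233512224) (nat_lit 588) (nat_lit 2444304788) (nat_lit 84) (nat_lit 4867206581) (nat_lit 97) (nat_lit 5) (nat_lit 104) (nat_lit 5) (nat_lit 98) (nat_lit 5) (nat_lit 310) (nat_lit 244) (nat_lit 166)) (XT.lf (nat_lit 0) (nat_lit 4770382083) (nat_lit 588) (nat_lit 1533093056) (nat_lit 672) (nat_lit 4362692853) (nat_lit 90) (nat_lit 5) (nat_lit 97) (nat_lit 5) (nat_lit 98) (nat_lit 5) (nat_lit 311) (nat_lit 244) (nat_lit 165))) (XT.nd (nat_lit 94) (nat_lit 84) (nat_lit 0) (XT.lf (nat_lit 0) (nat_lit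 1349112240) (nat_lit 504) (nat_lit 8109150433) (nat_lit 588) (nat_lit 1331334616) (nat_lit 84) (nat_lit 5) (nat_lit 90) (nat_lit 5) (nat_lit 91) (nat_lit 5) (nat_lit 312) (nat_lit 244) (nat_lit 164)) (XT.lf (nat_lit 0) (nat_lit 1766662008) (nat_lit 588) (nat_lit 2139178681) (nat_lit 84) (nat_lit 7009065792) (nat_lit 83) (nat_lit 5) (nat_lit 90) (nat_lit 5) (nat_lit 84) (nat_lit 5) (nat_lit 313) (nat_lit 244) (nat_lit 163)))) (XT.nd (nat_lit 188) (nat_lit 0) (nat_lit 0) (XT.nd (nat_lit 94) (nat_lit 588) (nat_lit 0) (XT.lf (nat_lit 0) (nat_lit 964389269) (nat_lit 0) (nat_lit 964389269) (nat_lit 420) (nat_lit 1320880765) (nat_lit 536) (nat_lit 5) (nat_lit 536) (nat_lit 3) (nat_lit 541) (nat_lit 3) (nat_lit 245) (nat_lit 245) (nat_lit 230)) (XT.lf (nat_lit 0) (nat_lit 74184350) (nat_lit 588) (nat_lit 1301855878) (nat_lit 588) (nat_lit 5135645620) (nat_lit 529) (nat_lit 3) (nat_lit 536) (nat_lit 3) (nat_lit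 536) (nat_lit 5) (nat_lit 246) (nat_lit 245) (nat_lit 229))) (XT.nd (nat_lit 94) (nat_lit 0) (nat_lit 0) (XT.lf (nat_lit 84) (nat_lit 2008597309) (nat_lit 0) (nat_lit 738739081) (nat_lit 588) (nat_lit 3777966146) (nat_lit 530) (nat_lit 5) (nat_lit 529) (nat_lit 3) (nat_lit 536) (nat_lit 5) (nat_lit 247) (nat_lit 245) (nat_lit 228)) (XT.lf (nat_lit 84) (nat_lit 5371771474) (nat_lit 0) (nat_lit 40573326) (nat_lit 588) (nat_lit 1128346957) (nat_lit 530) (nat_lit 5) (nat_lit 529) (nat_lit 3) (nat_lit 536) (nat_lit 5) (nat_lit 248) (nat_lit 245) (nat_lit 227)))))) (XT.nd (nat_lit 658) (nat_lit 3612) (nat_lit 0) (XT.nd (nat_lit 282) (nat_lit 756) (nat_lit 0) (XT.nd (nat_lit 94) (nat_lit 672) (nat_lit 0) (XT.lf (nat_lit 0) (nat_lit 1502503079) (nat_lit 588) (nat_lit 4329095703) (nat_lit 672) (nat_lit 725768044) (nat_lit 523) (nat_lit 5) (nat_lit 530) (nat_lit 5) (nat_lit 531) (nat_lit 5) (nat_lit 249) (nat_lit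 245) (nat_lit 226)) (XT.nd (nat_lit 94) (nat_lit 672) (nat_lit 0) (XT.lf (nat_lit 0) (nat_lit 4109738217) (nat_lit 588) (nat_lit 906525955) (nat_lit 672) (nat_lit 1559391314) (nat_lit 523) (nat_lit 5) (nat_lit 530) (nat_lit 5) (nat_lit 531) (nat_lit 5) (nat_lit 250) (nat_lit 245) (nat_lit 225)) (XT.lf (nat_lit 0) (nat_lit 123151145) (nat_lit 672) (nat_lit 4008306175) (nat_lit 756) (nat_lit 2464054307) (nat_lit 515) (nat_lit 5) (nat_lit 523) (nat_lit 5) (nat_lit 524) (nat_lit 5) (nat_lit 251) (nat_lit 245) (nat_lit 224)))) (XT.nd (nat_lit 188) (nat_lit 756) (nat_lit 0) (XT.nd (nat_lit 94) (nat_lit 0) (nat_lit 0) (XT.lf (nat_lit 0) (nat_lit 2668091687) (nat_lit 672) (nat_lit 503574697) (nat_lit 756) (nat_lit 3445168636) (nat_lit 515) (nat_lit 5) (nat_lit 523) (nat_lit 5) (nat_lit 524) (nat_lit 5) (nat_lit 252) (nat_lit 245) (nat_lit 223)) (XT.lf (nat_lit 84) (nat_lit 3082288734) (nat_lit 0) (nat_lit 2138694324)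 (nat_lit 756) (nat_lit 1418701303) (nat_lit 516) (nat_lit 5) (nat_lit 515) (nat_lit 5) (nat_lit 524) (nat_lit 5) (nat_lit 253) (nat_lit 245) (nat_lit 222))) (XT.nd (nat_lit 94) (nat_lit 0) (nat_lit 84) (XT.lf (nat_lit 84) (nat_lit 42796579) (nat_lit 0) (nat_lit 1042174889) (nat_lit 840) (nat_lit 5579316914) (nat_lit 507) (nat_lit 5) (nat_lit 506) (nat_lit 5) (nat_lit 516) (nat_lit 5) (nat_lit 254) (nat_lit 245) (nat_lit 221)) (XT.lf (nat_lit 0) (nat_lit 3581989866) (nat_lit 756) (nat_lit 2967093083) (nat_lit 840) (nat_lit 141022265) (nat_lit 507) (nat_lit 5) (nat_lit 516) (nat_lit 5) (nat_lit 517) (nat_lit 5) (nat_lit 255) (nat_lit 245) (nat_lit 220))))) (XT.nd (nat_lit 376) (nat_lit 2856) (nat_lit 0) (XT.nd (nat_lit 188) (nat_lit 0) (nat_lit 0) (XT.nd (nat_lit 94) (nat_lit 840) (nat_lit 0) (XT.lf (nat_lit 84) (nat_lit 729048064) (nat_lit 0) (nat_lit 5351257771) (nat_lit 840) (nat_lit 637364191) (nat_lit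 508) (nat_lit 5) (nat_lit 507) (nat_lit 5) (nat_lit 517) (nat_lit 5) (nat_lit 256) (nat_lit 245) (nat_lit 219)) (XT.lf (nat_lit 0) (nat_lit 1816872990) (nat_lit 840) (nat_lit 2250375652) (nat_lit 924) (nat_lit 2679257774) (nat_lit 497) (nat_lit 5) (nat_lit 507) (nat_lit 5) (nat_lit 508) (nat_lit 5) (nat_lit 257) (nat_lit 245) (nat_lit 218))) (XT.nd (nat_lit 94) (nat_lit 0) (nat_lit 0) (XT.lf (nat_lit 84) (nat_lit 1546426090) (nat_lit 0) (nat_lit 2715969850) (nat_lit 924) (nat_lit 2514652345) (nat_lit 498) (nat_lit 5) (nat_lit 497) (nat_lit 5) (nat_lit 508) (nat_lit 5) (nat_lit 258) (nat_lit 245) (nat_lit 217)) (XT.lf (nat_lit 84) (nat_lit 5419346368) (nat_lit 0) (nat_lit 1295747910) (nat_lit 924) (nat_lit 94193572) (nat_lit 498) (nat_lit 5) (nat_lit 497) (nat_lit 5) (nat_lit 508) (nat_lit 5) (nat_lit 259) (nat_lit 245) (nat_lit 216)))) (XT.nd (nat_lit 188) (nat_lit 2016) (nat_lit 0) (XT.nd (nat_lit 94)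 (nat_lit 0) (nat_lit 0) (XT.lf (nat_lit 0) (nat_lit 2302323933) (nat_lit 924) (nat_lit 4330918852) (nat_lit 84) (nat_lit 209565216) (nat_lit 487) (nat_lit 5) (nat_lit 498) (nat_lit 5) (nat_lit 488) (nat_lit 5) (nat_lit 260) (nat_lit 245) (nat_lit 215)) (XT.lf (nat_lit 0) (nat_lit 4708813284) (nat_lit 924) (nat_lit 408960762) (nat_lit 84) (nat_lit 1760186495) (nat_lit 487) (nat_lit 5) (nat_lit 498) (nat_lit 5) (nat_lit 488) (nat_lit 5) (nat_lit 261) (nat_lit 245) (nat_lit 214))) (XT.nd (nat_lit 94) (nat_lit 1008) (nat_lit 0) (XT.lf (nat_lit 0) (nat_lit 216338329) (nat_lit 1008) (nat_lit 3306262614) (nat_lit 84) (nat_lit 3392001487) (nat_lit 475) (nat_lit 5) (nat_lit 487) (nat_lit 5) (nat_lit 476) (nat_lit 5) (nat_lit 262) (nat_lit 245) (nat_lit 213)) (XT.lf (nat_lit 0) (nat_lit 720809172) (nat_lit 1008) (nat_lit 1850486674) (nat_lit 1092) (nat_lit 4381530920) (nat_lit 463) (nat_lit 5) (nat_lit 475) (nat_lit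 5) (nat_lit 476) (nat_lit 5) (nat_lit 263) (nat_lit 245) (nat_lit 212))))))) (XT.nd (nat_lit 1410) (nat_lit 9240) (nat_lit 0) (XT.nd (nat_lit 658) (nat_lit 8232) (nat_lit 0) (XT.nd (nat_lit 282) (nat_lit 3864) (nat_lit 0) (XT.nd (nat_lit 94) (nat_lit 1176) (nat_lit 0) (XT.lf (nat_lit 0) (nat_lit 4844254555) (nat_lit 1008) (nat_lit 99952270) (nat_lit 1092) (nat_lit 2048430037) (nat_lit 463) (nat_lit 5) (nat_lit 475) (nat_lit 5) (nat_lit 476) (nat_lit 5) (nat_lit 264) (nat_lit 245) (nat_lit 211)) (XT.nd (nat_lit 94) (nat_lit 0) (nat_lit 0) (XT.lf (nat_lit 0) (nat_lit 300307355) (nat_lit 1176) (nat_lit 5036379344) (nat_lit 84) (nat_lit 1697262174) (nat_lit 449) (nat_lit 5) (nat_lit 463) (nat_lit 5) (nat_lit 450) (nat_lit 5) (nat_lit 265) (nat_lit 245) (nat_lit 210)) (XT.lf (nat_lit 0) (nat_lit 2630889667) (nat_lit 1176) (nat_lit 867354171) (nat_lit 84) (nat_lit 3578470672) (nat_lit 449) (nat_lit 5) (nat_lit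 463) (nat_lit 5) (nat_lit 450) (nat_lit 5) (nat_lit 266) (nat_lit 245) (nat_lit 209)))) (XT.nd (nat_lit 188) (nat_lit 1344) (nat_lit 0) (XT.nd (nat_lit 94) (nat_lit 1344) (nat_lit 0) (XT.lf (nat_lit 0) (nat_lit 3400690623) (nat_lit 1176) (nat_lit 1581105737) (nat_lit 1260) (nat_lit 2139305496) (nat_lit 435) (nat_lit 5) (nat_lit 449) (nat_lit 5) (nat_lit 450) (nat_lit 5) (nat_lit 267) (nat_lit 245) (nat_lit 208)) (XT.lf (nat_lit 0) (nat_lit 173554693) (nat_lit 1344) (nat_lit 6596524810) (nat_lit 84) (nat_lit 397259858) (nat_lit 419) (nat_lit 5) (nat_lit 435) (nat_lit 5) (nat_lit 420) (nat_lit 5) (nat_lit 268) (nat_lit 245) (nat_lit 207))) (XT.nd (nat_lit 94) (nat_lit 1344) (nat_lit 0) (XT.lf (nat_lit 0) (nat_lit 2491286759) (nat_lit 1344) (nat_lit 2272402786) (nat_lit 84) (nat_lit 2450881363) (nat_lit 419) (nat_lit 5) (nat_lit 435) (nat_lit 5) (nat_lit 420) (nat_lit 5) (nat_lit 269) (nat_lit 245) (nat_lit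 206)) (XT.lf (nat_lit 0) (nat_lit 2135393988) (nat_lit 1344) (nat_lit 2687271087) (nat_lit 1428) (nat_lit 2440998041) (nat_lit 403) (nat_lit 5) (nat_lit 419) (nat_lit 5) (nat_lit 420) (nat_lit 5) (nat_lit 270) (nat_lit 245) (nat_lit 205))))) (XT.nd (nat_lit 376) (nat_lit 5208) (nat_lit 0) (XT.nd (nat_lit 188) (nat_lit 1512) (nat_lit 0) (XT.nd (nat_lit 94) (nat_lit 1512) (nat_lit 0) (XT.lf (nat_lit 0) (nat_lit 6632193686) (nat_lit 1344) (nat_lit 538202782) (nat_lit 1428) (nat_lit 144207504) (nat_lit 403) (nat_lit 5) (nat_lit 419) (nat_lit 5) (nat_lit 420) (nat_lit 5) (nat_lit 271) (nat_lit 245) (nat_lit 204)) (XT.lf (nat_lit 0) (nat_lit 2160086476) (nat_lit 1512) (nat_lit 3519626760) (nat_lit 84) (nat_lit 1686855507) (nat_lit 385) (nat_lit 5) (nat_lit 403) (nat_lit 5) (nat_lit 386) (nat_lit 5) (nat_lit 272) (nat_lit 245) (nat_lit 203))) (XT.nd (nat_lit 94) (nat_lit 0) (nat_lit 0) (XT.lf (nat_lit 0) (nat_lit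 1033837578) (nat_lit 1512) (nat_lit 3445361422) (nat_lit 1596) (nat_lit 2941197214) (nat_lit 367) (nat_lit 5) (nat_lit 385) (nat_lit 5) (nat_lit 386) (nat_lit 5) (nat_lit 273) (nat_lit 245) (nat_lit 202)) (XT.lf (nat_lit 0) (nat_lit 5697737901) (nat_lit 1512) (nat_lit 1128255882) (nat_lit 1596) (nat_lit 649927548) (nat_lit 367) (nat_lit 5) (nat_lit 385) (nat_lit 5) (nat_lit 386) (nat_lit 5) (nat_lit 274) (nat_lit 245) (nat_lit 201)))) (XT.nd (nat_lit 188) (nat_lit 1848) (nat_lit 0) (XT.nd (nat_lit 94) (nat_lit 1680) (nat_lit 0) (XT.lf (nat_lit 0) (nat_lit 1648671888) (nat_lit 1680) (nat_lit 4622663633) (nat_lit 84) (nat_lit 1261479017) (nat_lit 347) (nat_lit 5) (nat_lit 367) (nat_lit 5) (nat_lit 348) (nat_lit 5) (nat_lit 275) (nat_lit 245) (nat_lit 200)) (XT.lf (nat_lit 0) (nat_lit 82768511) (nat_lit 1680) (nat_lit 3879705577) (nat_lit 1764) (nat_lit 3628948805) (nat_lit 327) (nat_lit 5) (nat_lit 347)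 (nat_lit 5) (nat_lit 348) (nat_lit 5) (nat_lit 276) (nat_lit 245) (nat_lit 199))) (XT.nd (nat_lit 94) (nat_lit 1848) (nat_lit 0) (XT.lf (nat_lit 0) (nat_lit 4918171917) (nat_lit 1680) (nat_lit 1396046300) (nat_lit 1764) (nat_lit 1337387572) (nat_lit 327) (nat_lit 5) (nat_lit 347) (nat_lit 5) (nat_lit 348) (nat_lit 5) (nat_lit 277) (nat_lit 245) (nat_lit 198)) (XT.lf (nat_lit 0) (nat_lit 967177138) (nat_lit 1848) (nat_lit 5593986114) (nat_lit 84) (nat_lit 1152296742) (nat_lit 305) (nat_lit 5) (nat_lit 327) (nat_lit 5) (nat_lit 306) (nat_lit 5) (nat_lit 278) (nat_lit 245) (nat_lit 197)))))) (XT.nd (nat_lit 658) (nat_lit 4284) (nat_lit 0) (XT.nd (nat_lit 282) (nat_lit 1932) (nat_lit 0) (XT.nd (nat_lit 94) (nat_lit 3024) (nat_lit 0) (XT.lf (nat_lit 0) (nat_lit 3287554433) (nat_lit 1848) (nat_lit 719383527) (nat_lit 84) (nat_lit 3769857267) (nat_lit 305) (nat_lit 5) (nat_lit 327) (nat_lit 5) (nat_lit 306)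 (nat_lit 5) (nat_lit 279) (nat_lit 245) (nat_lit 196)) (XT.nd (nat_lit 94) (nat_lit 1176) (nat_lit 0) (XT.lf (nat_lit 0) (nat_lit 4281985440) (nat_lit 1848) (nat_lit 1362778370) (nat_lit 1932) (nat_lit 2197072783) (nat_lit 283) (nat_lit 5) (nat_lit 305) (nat_lit 5) (nat_lit 306) (nat_lit 5) (nat_lit 280) (nat_lit 245) (nat_lit 195)) (XT.lf (nat_lit 0) (nat_lit 124580275) (nat_lit 1176) (nat_lit 6444999008) (nat_lit 84) (nat_lit 1339121409) (nat_lit 269) (nat_lit 5) (nat_lit 283) (nat_lit 5) (nat_lit 270) (nat_lit 5) (nat_lit 281) (nat_lit 245) (nat_lit 194)))) (XT.nd (nat_lit 188) (nat_lit 1008) (nat_lit 0) (XT.nd (nat_lit 94) (nat_lit 924) (nat_lit 0) (XT.lf (nat_lit 0) (nat_lit 2457666964) (nat_lit 1176) (nat_lit 1394783190) (nat_lit 84) (nat_lit 4124394402) (nat_lit 269) (nat_lit 5) (nat_lit 283) (nat_lit 5) (nat_lit 270) (nat_lit 5) (nat_lit 282) (nat_lit 245) (nat_lit 193)) (XT.lf (nat_lit 0) (nat_lit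 3778733644) (nat_lit 924) (nat_lit 1047497276) (nat_lit 1008) (nat_lit 3220605380) (nat_lit 258) (nat_lit 5) (nat_lit 269) (nat_lit 5) (nat_lit 270) (nat_lit 5) (nat_lit 283) (nat_lit 245) (nat_lit 192))) (XT.nd (nat_lit 94) (nat_lit 84) (nat_lit 0) (XT.lf (nat_lit 0) (nat_lit 926211928) (nat_lit 924) (nat_lit 6308480773) (nat_lit 1008) (nat_lit 883943793) (nat_lit 247) (nat_lit 5) (nat_lit 258) (nat_lit 5) (nat_lit 259) (nat_lit 5) (nat_lit 284) (nat_lit 245) (nat_lit 191)) (XT.lf (nat_lit 0) (nat_lit 1479998901) (nat_lit 1008) (nat_lit 1954500778) (nat_lit 84) (nat_lit 4757335050) (nat_lit 246) (nat_lit 5) (nat_lit 258) (nat_lit 5) (nat_lit 247) (nat_lit 5) (nat_lit 285) (nat_lit 245) (nat_lit 190))))) (XT.nd (nat_lit 376) (nat_lit 1680) (nat_lit 0) (XT.nd (nat_lit 188) (nat_lit 924) (nat_lit 0) (XT.nd (nat_lit 94) (nat_lit 840) (nat_lit 0) (XT.lf (nat_lit 0) (nat_lit 3398952123) (nat_lit 840) (nat_lit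 467254633) (nat_lit 924) (nat_lit 4400663054) (nat_lit 236) (nat_lit 5) (nat_lit 246) (nat_lit 5) (nat_lit 247) (nat_lit 5) (nat_lit 286) (nat_lit 245) (nat_lit 189)) (XT.lf (nat_lit 0) (nat_lit 502191300) (nat_lit 840) (nat_lit 5798741994) (nat_lit 924) (nat_lit 2042709883) (nat_lit 226) (nat_lit 5) (nat_lit 236) (nat_lit 5) (nat_lit 237) (nat_lit 5) (nat_lit 287) (nat_lit 245) (nat_lit 188))) (XT.nd (nat_lit 94) (nat_lit 840) (nat_lit 0) (XT.lf (nat_lit 0) (nat_lit 361356763) (nat_lit 924) (nat_lit 2407521151) (nat_lit 84) (nat_lit 5653180536) (nat_lit 225) (nat_lit 5) (nat_lit 236) (nat_lit 5) (nat_lit 226) (nat_lit 5) (nat_lit 288) (nat_lit 245) (nat_lit 187)) (XT.lf (nat_lit 0) (nat_lit 2773922578) (nat_lit 924) (nat_lit 5370748386) (nat_lit 84) (nat_lit 357515810) (nat_lit 215) (nat_lit 5) (nat_lit 226) (nat_lit 5) (nat_lit 216) (nat_lit 5) (nat_lit 289) (nat_lit 245) (nat_lit 186)))) (XT.nd (nat_lit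 188) (nat_lit 840) (nat_lit 0) (XT.nd (nat_lit 94) (nat_lit 0) (nat_lit 0) (XT.lf (nat_lit 0) (nat_lit 184220930) (nat_lit 840) (nat_lit 5056019420) (nat_lit 924) (nat_lit 3343822710) (nat_lit 205) (nat_lit 5) (nat_lit 215) (nat_lit 5) (nat_lit 216) (nat_lit 5) (nat_lit 290) (nat_lit 245) (nat_lit 185)) (XT.lf (nat_lit 0) (nat_lit 5899250229) (nat_lit 840) (nat_lit 1863062237) (nat_lit 924) (nat_lit 905395260) (nat_lit 205) (nat_lit 5) (nat_lit 215) (nat_lit 5) (nat_lit 216) (nat_lit 5) (nat_lit 291) (nat_lit 245) (nat_lit 184))) (XT.nd (nat_lit 94) (nat_lit 0) (nat_lit 0) (XT.lf (nat_lit 0) (nat_lit 1557579912) (nat_lit 840) (nat_lit 5787099797) (nat_lit 84) (nat_lit 1408401596) (nat_lit 195) (nat_lit 5) (nat_lit 205) (nat_lit 5) (nat_lit 196) (nat_lit 5) (nat_lit 292) (nat_lit 245) (nat_lit 183)) (XT.lf (nat_lit 0) (nat_lit 4058428991) (nat_lit 840) (nat_lit 34741322) (nat_lit 84) (nat_lit 4747083429)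 (nat_lit 195) (nat_lit 5) (nat_lit 205) (nat_lit 5) (nat_lit 196) (nat_lit 5) (nat_lit 293) (nat_lit 245) (nat_lit 182))))))))
noncomputable def xc29 : XT := (XT.nd (nat_lit 41642) (nat_lit 0) (nat_lit 13692) (XT.nd (nat_lit 1410) (nat_lit 1764) (nat_lit 0) (XT.nd (nat_lit 658) (nat_lit 3864) (nat_lit 0) (XT.nd (nat_lit 282) (nat_lit 2184) (nat_lit 0) (XT.nd (nat_lit 94) (nat_lit 840) (nat_lit 0) (XT.lf (nat_lit 0) (nat_lit 5887400244) (nat_lit 756) (nat_lit 732488747) (nat_lit 840) (nat_lit 2309331954) (nat_lit 186) (nat_lit 5) (nat_lit 195) (nat_lit 5) (nat_lit 196) (nat_lit 5) (nat_lit 294) (nat_lit 245) (nat_lit 181)) (XT.nd (nat_lit 94) (nat_lit 0) (nat_lit 0) (XT.lf (nat_lit 0) (nat_lit 218727006) (nat_lit 840) (nat_lit 6120910346) (nat_lit 84) (nat_lit 2680379277) (nat_lit 176) (nat_lit 5) (nat_lit 186) (nat_lit 5) (nat_lit 177) (nat_lit 5) (nat_lit 295) (nat_lit 245) (nat_lit 180)) (XT.lf (nat_lit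 0) (nat_lit 2760696243) (nat_lit 840) (nat_lit 160693336) (nat_lit 84) (nat_lit 6191220075) (nat_lit 176) (nat_lit 5) (nat_lit 186) (nat_lit 5) (nat_lit 177) (nat_lit 5) (nat_lit 296) (nat_lit 245) (nat_lit 179)))) (XT.nd (nat_lit 188) (nat_lit 756) (nat_lit 0) (XT.nd (nat_lit 94) (nat_lit 672) (nat_lit 0) (XT.lf (nat_lit 0) (nat_lit 5370582518) (nat_lit 840) (nat_lit 3236021923) (nat_lit 84) (nat_lit 600371423) (nat_lit 167) (nat_lit 5) (nat_lit 177) (nat_lit 5) (nat_lit 168) (nat_lit 5) (nat_lit 297) (nat_lit 245) (nat_lit 178)) (XT.lf (nat_lit 0) (nat_lit 2915484501) (nat_lit 672) (nat_lit 5131135537) (nat_lit 756) (nat_lit 1256605949) (nat_lit 159) (nat_lit 5) (nat_lit 167) (nat_lit 5) (nat_lit 168) (nat_lit 5) (nat_lit 298) (nat_lit 245) (nat_lit 177))) (XT.nd (nat_lit 94) (nat_lit 672) (nat_lit 0) (XT.lf (nat_lit 0) (nat_lit 1349840126) (nat_lit 756) (nat_lit 202353332) (nat_lit 84) (nat_lit 7849408771)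 (nat_lit 158) (nat_lit 5) (nat_lit 167) (nat_lit 5) (nat_lit 159) (nat_lit 5) (nat_lit 299) (nat_lit 245) (nat_lit 176)) (XT.lf (nat_lit 0) (nat_lit 4020764228) (nat_lit 756) (nat_lit 3359424482) (nat_lit 84) (nat_lit 2121188843) (nat_lit 150) (nat_lit 5) (nat_lit 159) (nat_lit 5) (nat_lit 151) (nat_lit 5) (nat_lit 300) (nat_lit 245) (nat_lit 175))))) (XT.nd (nat_lit 376) (nat_lit 1848) (nat_lit 0) (XT.nd (nat_lit 188) (nat_lit 1344) (nat_lit 0) (XT.nd (nat_lit 94) (nat_lit 0) (nat_lit 0) (XT.lf (nat_lit 0) (nat_lit 3016262543) (nat_lit 672) (nat_lit 3735295897) (nat_lit 756) (nat_lit 2851765079) (nat_lit 142) (nat_lit 5) (nat_lit 150) (nat_lit 5) (nat_lit 151) (nat_lit 5) (nat_lit 301) (nat_lit 245) (nat_lit 174)) (XT.lf (nat_lit 0) (nat_lit 9534532566) (nat_lit 756) (nat_lit 166459756) (nat_lit 84) (nat_lit 6693721) (nat_lit 142) (nat_lit 5) (nat_lit 151) (nat_lit 5) (nat_lit 143) (nat_lit 5) (nat_lit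 302) (nat_lit 245) (nat_lit 173))) (XT.nd (nat_lit 94) (nat_lit 588) (nat_lit 0) (XT.lf (nat_lit 0) (nat_lit 2568558997) (nat_lit 756) (nat_lit 3412217671) (nat_lit 84) (nat_lit 3832261657) (nat_lit 133) (nat_lit 5) (nat_lit 142) (nat_lit 5) (nat_lit 134) (nat_lit 5) (nat_lit 303) (nat_lit 245) (nat_lit 172)) (XT.lf (nat_lit 0) (nat_lit 3198133976) (nat_lit 588) (nat_lit 2161984465) (nat_lit 672) (nat_lit 4560736466) (nat_lit 126) (nat_lit 5) (nat_lit 133) (nat_lit 5) (nat_lit 134) (nat_lit 5) (nat_lit 304) (nat_lit 245) (nat_lit 171)))) (XT.nd (nat_lit 188) (nat_lit 1176) (nat_lit 0) (XT.nd (nat_lit 94) (nat_lit 672) (nat_lit 0) (XT.lf (nat_lit 0) (nat_lit 8219270065) (nat_lit 672) (nat_lit 79574943) (nat_lit 84) (nat_lit 1732062532) (nat_lit 126) (nat_lit 5) (nat_lit 134) (nat_lit 5) (nat_lit 127) (nat_lit 5) (nat_lit 305) (nat_lit 245) (nat_lit 170)) (XT.lf (nat_lit 0) (nat_lit 1016704563) (nat_lit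 672) (nat_lit 3399279495) (nat_lit 84) (nat_lit 5726511885) (nat_lit 118) (nat_lit 5) (nat_lit 126) (nat_lit 5) (nat_lit 119) (nat_lit 5) (nat_lit 306) (nat_lit 245) (nat_lit 169))) (XT.nd (nat_lit 94) (nat_lit 588) (nat_lit 0) (XT.lf (nat_lit 0) (nat_lit 3456722274) (nat_lit 588) (nat_lit 418323402) (nat_lit 672) (nat_lit 6381325718) (nat_lit 111) (nat_lit 5) (nat_lit 118) (nat_lit 5) (nat_lit 119) (nat_lit 5) (nat_lit 307) (nat_lit 245) (nat_lit 168)) (XT.lf (nat_lit 0) (nat_lit 75965507) (nat_lit 588) (nat_lit 6741791795) (nat_lit 672) (nat_lit 3554522090) (nat_lit 104) (nat_lit 5) (nat_lit 111) (nat_lit 5) (nat_lit 112) (nat_lit 5) (nat_lit 308) (nat_lit 245) (nat_lit 167)))))) (XT.nd (nat_lit 39480) (nat_lit 0) (nat_lit 35532) (XT.nd (nat_lit 282) (nat_lit 588) (nat_lit 0) (XT.nd (nat_lit 94) (nat_lit 1176) (nat_lit 0) (XT.lf (nat_lit 0) (nat_lit 7160655547) (nat_lit 588) (nat_lit 2687699117) (nat_lit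 672) (nat_lit 641873488) (nat_lit 104) (nat_lit 5) (nat_lit 111) (nat_lit 5) (nat_lit 112) (nat_lit 5) (nat_lit 309) (nat_lit 245) (nat_lit 166)) (XT.nd (nat_lit 94) (nat_lit 588) (nat_lit 0) (XT.lf (nat_lit 0) (nat_lit 2309150682) (nat_lit 588) (nat_lit 6832919647) (nat_lit 84) (nat_lit 1468161173) (nat_lit 97) (nat_lit 5) (nat_lit 104) (nat_lit 5) (nat_lit 98) (nat_lit 5) (nat_lit 310) (nat_lit 245) (nat_lit 165)) (XT.lf (nat_lit 0) (nat_lit 297316442) (nat_lit 588) (nat_lit 5035399608) (nat_lit 672) (nat_lit 5399680597) (nat_lit 90) (nat_lit 5) (nat_lit 97) (nat_lit 5) (nat_lit 98) (nat_lit 5) (nat_lit 311) (nat_lit 245) (nat_lit 164)))) (XT.nd (nat_lit 39010) (nat_lit 0) (nat_lit 37464) (XT.nd (nat_lit 94) (nat_lit 588) (nat_lit 0) (XT.lf (nat_lit 0) (nat_lit 7646271815) (nat_lit 588) (nat_lit 797955128) (nat_lit 672) (nat_lit 2412551087) (nat_lit 90) (nat_lit 5) (nat_lit 97) (nat_lit 5) (nat_lit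 98) (nat_lit 5) (nat_lit 312) (nat_lit 245) (nat_lit 163)) (XT.lf (nat_lit 0) (nat_lit 657623164) (nat_lit 588) (nat_lit 6820071167) (nat_lit 84) (nat_lit 3505517026) (nat_lit 83) (nat_lit 5) (nat_lit 90) (nat_lit 5) (nat_lit 84) (nat_lit 5) (nat_lit 313) (nat_lit 245) (nat_lit 162))) (XT.nd (nat_lit 94) (nat_lit 0) (nat_lit 0) (XT.lf (nat_lit 0) (nat_lit 1356760927) (nat_lit 588) (nat_lit 952741382) (nat_lit 588) (nat_lit 952741382) (nat_lit 529) (nat_lit 3) (nat_lit 536) (nat_lit 3) (nat_lit 536) (nat_lit 5) (nat_lit 246) (nat_lit 246) (nat_lit 228)) (XT.lf (nat_lit 84) (nat_lit 1376588178) (nat_lit 0) (nat_lit 3967855192) (nat_lit 588) (nat_lit 1194589772) (nat_lit 530) (nat_lit 5) (nat_lit 529) (nat_lit 3) (nat_lit 536) (nat_lit 5) (nat_lit 247) (nat_lit 246) (nat_lit 227))))) (XT.nd (nat_lit 376) (nat_lit 672) (nat_lit 0) (XT.nd (nat_lit 188) (nat_lit 672) (nat_lit 0) (XT.nd (nat_lit 94) (nat_lit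 0) (nat_lit 0) (XT.lf (nat_lit 0) (nat_lit 1396749869) (nat_lit 588) (nat_lit 1844709920) (nat_lit 672) (nat_lit 3313555650) (nat_lit 522) (nat_lit 5) (nat_lit 529) (nat_lit 3) (nat_lit 530) (nat_lit 5) (nat_lit 248) (nat_lit 246) (nat_lit 226)) (XT.lf (nat_lit 84) (nat_lit 1520268441) (nat_lit 0) (nat_lit 2444233781) (nat_lit 672) (nat_lit 2608042072) (nat_lit 523) (nat_lit 5) (nat_lit 522) (nat_lit 5) (nat_lit 530) (nat_lit 5) (nat_lit 249) (nat_lit 246) (nat_lit 225))) (XT.nd (nat_lit 94) (nat_lit 672) (nat_lit 0) (XT.lf (nat_lit 84) (nat_lit 4948161853) (nat_lit 0) (nat_lit 1581681472) (nat_lit 672) (nat_lit 61911297) (nat_lit 523) (nat_lit 5) (nat_lit 522) (nat_lit 5) (nat_lit 530) (nat_lit 5) (nat_lit 250) (nat_lit 246) (nat_lit 224)) (XT.lf (nat_lit 84) (nat_lit 1809166590) (nat_lit 0) (nat_lit 635884605) (nat_lit 756) (nat_lit 4167227407) (nat_lit 515) (nat_lit 5) (nat_lit 514) (nat_lit 5) (nat_lit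 523) (nat_lit 5) (nat_lit 251) (nat_lit 246) (nat_lit 223)))) (XT.nd (nat_lit 188) (nat_lit 0) (nat_lit 0) (XT.nd (nat_lit 94) (nat_lit 756) (nat_lit 0) (XT.lf (nat_lit 0) (nat_lit 4950846092) (nat_lit 672) (nat_lit 1313814829) (nat_lit 756) (nat_lit 369802278) (nat_lit 515) (nat_lit 5) (nat_lit 523) (nat_lit 5) (nat_lit 524) (nat_lit 5) (nat_lit 252) (nat_lit 246) (nat_lit 222)) (XT.lf (nat_lit 0) (nat_lit 794075489) (nat_lit 756) (nat_lit 4423540226) (nat_lit 840) (nat_lit 1440447662) (nat_lit 506) (nat_lit 5) (nat_lit 515) (nat_lit 5) (nat_lit 516) (nat_lit 5) (nat_lit 253) (nat_lit 246) (nat_lit 221))) (XT.nd (nat_lit 94) (nat_lit 0) (nat_lit 0) (XT.lf (nat_lit 0) (nat_lit 3243487372) (nat_lit 756) (nat_lit 853952973) (nat_lit 840) (nat_lit 2585748922) (nat_lit 506) (nat_lit 5) (nat_lit 515) (nat_lit 5) (nat_lit 516) (nat_lit 5) (nat_lit 254) (nat_lit 246) (nat_lit 220)) (XT.lf (nat_lit 84) (nat_lit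 2795085727) (nat_lit 0) (nat_lit 2905287806) (nat_lit 840) (nat_lit 1009515474) (nat_lit 507) (nat_lit 5) (nat_lit 506) (nat_lit 5) (nat_lit 516) (nat_lit 5) (nat_lit 255) (nat_lit 246) (nat_lit 219))))))) (XT.nd (nat_lit 1410) (nat_lit 13188) (nat_lit 0) (XT.nd (nat_lit 658) (nat_lit 6048) (nat_lit 0) (XT.nd (nat_lit 282) (nat_lit 1764) (nat_lit 0) (XT.nd (nat_lit 94) (nat_lit 0) (nat_lit 0) (XT.lf (nat_lit 0) (nat_lit 1393608522) (nat_lit 840) (nat_lit 250439348) (nat_lit 924) (nat_lit 5094201733) (nat_lit 496) (nat_lit 5) (nat_lit 506) (nat_lit 5) (nat_lit 507) (nat_lit 5) (nat_lit 256) (nat_lit 246) (nat_lit 218)) (XT.nd (nat_lit 94) (nat_lit 0) (nat_lit 84) (XT.lf (nat_lit 84) (nat_lit 3498428555) (nat_lit 0) (nat_lit 296998075) (nat_lit 924) (nat_lit 2972510738) (nat_lit 497) (nat_lit 5) (nat_lit 496) (nat_lit 5) (nat_lit 507) (nat_lit 5) (nat_lit 257) (nat_lit 246) (nat_lit 217)) (XT.lf (nat_lit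 84) (nat_lit 494258900) (nat_lit 0) (nat_lit 5705944777) (nat_lit 924) (nat_lit 599171970) (nat_lit 498) (nat_lit 5) (nat_lit 497) (nat_lit 5) (nat_lit 508) (nat_lit 5) (nat_lit 258) (nat_lit 246) (nat_lit 216)))) (XT.nd (nat_lit 188) (nat_lit 924) (nat_lit 0) (XT.nd (nat_lit 94) (nat_lit 0) (nat_lit 0) (XT.lf (nat_lit 0) (nat_lit 1764225015) (nat_lit 924) (nat_lit 2497710569) (nat_lit 1008) (nat_lit 2570072461) (nat_lit 486) (nat_lit 5) (nat_lit 497) (nat_lit 5) (nat_lit 498) (nat_lit 5) (nat_lit 259) (nat_lit 246) (nat_lit 215)) (XT.lf (nat_lit 84) (nat_lit 1368644290) (nat_lit 0) (nat_lit 2750906505) (nat_lit 1008) (nat_lit 2746839011) (nat_lit 487) (nat_lit 5) (nat_lit 486) (nat_lit 5) (nat_lit 498) (nat_lit 5) (nat_lit 260) (nat_lit 246) (nat_lit 214))) (XT.nd (nat_lit 94) (nat_lit 924) (nat_lit 0) (XT.lf (nat_lit 84) (nat_lit 5317487821) (nat_lit 0) (nat_lit 1167688546) (nat_lit 1008) (nat_lit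 417264982) (nat_lit 487) (nat_lit 5) (nat_lit 486) (nat_lit 5) (nat_lit 498) (nat_lit 5) (nat_lit 261) (nat_lit 246) (nat_lit 213)) (XT.lf (nat_lit 0) (nat_lit 1896803402) (nat_lit 1008) (nat_lit 4548932460) (nat_lit 84) (nat_lit 494088896) (nat_lit 475) (nat_lit 5) (nat_lit 487) (nat_lit 5) (nat_lit 476) (nat_lit 5) (nat_lit 262) (nat_lit 246) (nat_lit 212))))) (XT.nd (nat_lit 376) (nat_lit 3864) (nat_lit 0) (XT.nd (nat_lit 188) (nat_lit 1176) (nat_lit 0) (XT.nd (nat_lit 94) (nat_lit 1008) (nat_lit 0) (XT.lf (nat_lit 0) (nat_lit 4217951635) (nat_lit 1008) (nat_lit 552520747) (nat_lit 84) (nat_lit 2208320517) (nat_lit 475) (nat_lit 5) (nat_lit 487) (nat_lit 5) (nat_lit 476) (nat_lit 5) (nat_lit 263) (nat_lit 246) (nat_lit 211)) (XT.lf (nat_lit 0) (nat_lit 3542718711) (nat_lit 1008) (nat_lit 3015949725) (nat_lit 1092) (nat_lit 460642830) (nat_lit 463) (nat_lit 5) (nat_lit 475) (nat_lit 5) (nat_lit 476)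 (nat_lit 5) (nat_lit 264) (nat_lit 246) (nat_lit 210))) (XT.nd (nat_lit 94) (nat_lit 0) (nat_lit 0) (XT.lf (nat_lit 0) (nat_lit 630612148) (nat_lit 1092) (nat_lit 1184725342) (nat_lit 1176) (nat_lit 5246134497) (nat_lit 449) (nat_lit 5) (nat_lit 462) (nat_lit 5) (nat_lit 463) (nat_lit 5) (nat_lit 265) (nat_lit 246) (nat_lit 209)) (XT.lf (nat_lit 0) (nat_lit 4110194695) (nat_lit 1176) (nat_lit 2274008695) (nat_lit 84) (nat_lit 720820186) (nat_lit 449) (nat_lit 5) (nat_lit 463) (nat_lit 5) (nat_lit 450) (nat_lit 5) (nat_lit 266) (nat_lit 246) (nat_lit 208)))) (XT.nd (nat_lit 188) (nat_lit 2604) (nat_lit 0) (XT.nd (nat_lit 94) (nat_lit 84) (nat_lit 0) (XT.lf (nat_lit 0) (nat_lit 1953015590) (nat_lit 1176) (nat_lit 4471075008) (nat_lit 1260) (nat_lit 726134561) (nat_lit 435) (nat_lit 5) (nat_lit 449) (nat_lit 5) (nat_lit 450) (nat_lit 5) (nat_lit 267) (nat_lit 246) (nat_lit 207)) (XT.lf (nat_lit 0) (nat_lit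 1532955606) (nat_lit 1260) (nat_lit 941789904) (nat_lit 84) (nat_lit 4722230843) (nat_lit 434) (nat_lit 5) (nat_lit 449) (nat_lit 5) (nat_lit 435) (nat_lit 5) (nat_lit 268) (nat_lit 246) (nat_lit 206))) (XT.nd (nat_lit 94) (nat_lit 1344) (nat_lit 0) (XT.lf (nat_lit 0) (nat_lit 3410706655) (nat_lit 1260) (nat_lit 392299604) (nat_lit 1344) (nat_lit 3442250633) (nat_lit 419) (nat_lit 5) (nat_lit 434) (nat_lit 5) (nat_lit 435) (nat_lit 5) (nat_lit 269) (nat_lit 246) (nat_lit 205)) (XT.lf (nat_lit 0) (nat_lit 532527436) (nat_lit 1344) (nat_lit 5562213123) (nat_lit 1428) (nat_lit 1200480708) (nat_lit 403) (nat_lit 5) (nat_lit 419) (nat_lit 5) (nat_lit 420) (nat_lit 5) (nat_lit 270) (nat_lit 246) (nat_lit 204)))))) (XT.nd (nat_lit 658) (nat_lit 6804) (nat_lit 0) (XT.nd (nat_lit 282) (nat_lit 4872) (nat_lit 0) (XT.nd (nat_lit 94) (nat_lit 1428) (nat_lit 0) (XT.lf (nat_lit 0) (nat_lit 1055308295) (nat_lit 1428)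 (nat_lit 2345292219) (nat_lit 84) (nat_lit 3945944451) (nat_lit 402) (nat_lit 5) (nat_lit 419) (nat_lit 5) (nat_lit 403) (nat_lit 5) (nat_lit 271) (nat_lit 246) (nat_lit 203)) (XT.nd (nat_lit 94) (nat_lit 0) (nat_lit 0) (XT.lf (nat_lit 0) (nat_lit 2150677965) (nat_lit 1428) (nat_lit 1157815681) (nat_lit 1512) (nat_lit 4091072188) (nat_lit 385) (nat_lit 5) (nat_lit 402) (nat_lit 5) (nat_lit 403) (nat_lit 5) (nat_lit 272) (nat_lit 246) (nat_lit 202)) (XT.lf (nat_lit 0) (nat_lit 5587744262) (nat_lit 1512) (nat_lit 722688397) (nat_lit 84) (nat_lit 1143837607) (nat_lit 385) (nat_lit 5) (nat_lit 403) (nat_lit 5) (nat_lit 386) (nat_lit 5) (nat_lit 273) (nat_lit 246) (nat_lit 201)))) (XT.nd (nat_lit 188) (nat_lit 1680) (nat_lit 0) (XT.nd (nat_lit 94) (nat_lit 1596) (nat_lit 0) (XT.lf (nat_lit 0) (nat_lit 389317009) (nat_lit 1596) (nat_lit 3603071116) (nat_lit 84) (nat_lit 3517985493) (nat_lit 366) (nat_lit 5)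 (nat_lit 385) (nat_lit 5) (nat_lit 367) (nat_lit 5) (nat_lit 274) (nat_lit 246) (nat_lit 200)) (XT.lf (nat_lit 0) (nat_lit 1042541788) (nat_lit 1596) (nat_lit 1589996517) (nat_lit 1680) (nat_lit 4935639046) (nat_lit 347) (nat_lit 5) (nat_lit 366) (nat_lit 5) (nat_lit 367) (nat_lit 5) (nat_lit 275) (nat_lit 246) (nat_lit 199))) (XT.nd (nat_lit 94) (nat_lit 1680) (nat_lit 0) (XT.lf (nat_lit 0) (nat_lit 4911278177) (nat_lit 1680) (nat_lit 1830828822) (nat_lit 84) (nat_lit 885450078) (nat_lit 347) (nat_lit 5) (nat_lit 367) (nat_lit 5) (nat_lit 348) (nat_lit 5) (nat_lit 276) (nat_lit 246) (nat_lit 198)) (XT.lf (nat_lit 0) (nat_lit 2957210302) (nat_lit 1680) (nat_lit 4269784630) (nat_lit 1764) (nat_lit 461537643) (nat_lit 327) (nat_lit 5) (nat_lit 347) (nat_lit 5) (nat_lit 348) (nat_lit 5) (nat_lit 277) (nat_lit 246) (nat_lit 197))))) (XT.nd (nat_lit 376) (nat_lit 3024) (nat_lit 0) (XT.nd (nat_lit 188) (nat_lit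 1932) (nat_lit 0) (XT.nd (nat_lit 94) (nat_lit 0) (nat_lit 0) (XT.lf (nat_lit 0) (nat_lit 73776859) (nat_lit 1764) (nat_lit 1711207500) (nat_lit 1848) (nat_lit 5966264575) (nat_lit 305) (nat_lit 5) (nat_lit 326) (nat_lit 5) (nat_lit 327) (nat_lit 5) (nat_lit 278) (nat_lit 246) (nat_lit 196)) (XT.lf (nat_lit 0) (nat_lit 4071056687) (nat_lit 1848) (nat_lit 2811525403) (nat_lit 84) (nat_lit 932756787) (nat_lit 305) (nat_lit 5) (nat_lit 327) (nat_lit 5) (nat_lit 306) (nat_lit 5) (nat_lit 279) (nat_lit 246) (nat_lit 195))) (XT.nd (nat_lit 94) (nat_lit 84) (nat_lit 0) (XT.lf (nat_lit 0) (nat_lit 2138575107) (nat_lit 1848) (nat_lit 4252783377) (nat_lit 1932) (nat_lit 1489833727) (nat_lit 283) (nat_lit 5) (nat_lit 305) (nat_lit 5) (nat_lit 306) (nat_lit 5) (nat_lit 280) (nat_lit 246) (nat_lit 194)) (XT.lf (nat_lit 0) (nat_lit 779984639) (nat_lit 1932) (nat_lit 755998241) (nat_lit 84) (nat_lit 6412878855) (nat_lit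 282) (nat_lit 5) (nat_lit 305) (nat_lit 5) (nat_lit 283) (nat_lit 5) (nat_lit 281) (nat_lit 246) (nat_lit 193)))) (XT.nd (nat_lit 188) (nat_lit 1008) (nat_lit 0) (XT.nd (nat_lit 94) (nat_lit 924) (nat_lit 0) (XT.lf (nat_lit 0) (nat_lit 3075475469) (nat_lit 1176) (nat_lit 3675716352) (nat_lit 84) (nat_lit 1266640888) (nat_lit 269) (nat_lit 5) (nat_lit 283) (nat_lit 5) (nat_lit 270) (nat_lit 5) (nat_lit 282) (nat_lit 246) (nat_lit 192)) (XT.lf (nat_lit 0) (nat_lit 1443733603) (nat_lit 924) (nat_lit 3962977309) (nat_lit 1008) (nat_lit 2681934768) (nat_lit 258) (nat_lit 5) (nat_lit 269) (nat_lit 5) (nat_lit 270) (nat_lit 5) (nat_lit 283) (nat_lit 246) (nat_lit 191))) (XT.nd (nat_lit 94) (nat_lit 1008) (nat_lit 0) (XT.lf (nat_lit 0) (nat_lit 6689687061) (nat_lit 924) (nat_lit 1085458327) (nat_lit 1008) (nat_lit 386181088) (nat_lit 258) (nat_lit 5) (nat_lit 269) (nat_lit 5) (nat_lit 270) (nat_lit 5) (nat_lit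 284) (nat_lit 246) (nat_lit 190)) (XT.lf (nat_lit 0) (nat_lit 1931898826) (nat_lit 1008) (nat_lit 4433401642) (nat_lit 84) (nat_lit 1869997493) (nat_lit 246) (nat_lit 5) (nat_lit 258) (nat_lit 5) (nat_lit 247) (nat_lit 5) (nat_lit 285) (nat_lit 246) (nat_lit 189))))))))
noncomputable def xc30 : XT := (XT.nd (nat_lit 41736) (nat_lit 0) (nat_lit 19824) (XT.nd (nat_lit 1410) (nat_lit 5040) (nat_lit 0) (XT.nd (nat_lit 658) (nat_lit 3780) (nat_lit 0) (XT.nd (nat_lit 282) (nat_lit 2520) (nat_lit 0) (XT.nd (nat_lit 94) (nat_lit 924) (nat_lit 0) (XT.lf (nat_lit 0) (nat_lit 863093138) (nat_lit 840) (nat_lit 3417137907) (nat_lit 924) (nat_lit 4030935260) (nat_lit 236) (nat_lit 5) (nat_lit 246) (nat_lit 5) (nat_lit 247) (nat_lit 5) (nat_lit 286) (nat_lit 246) (nat_lit 188)) (XT.nd (nat_lit 94) (nat_lit 924) (nat_lit 0) (XT.lf (nat_lit 0) (nat_lit 6301306105) (nat_lit 840) (nat_lit 372177125) (nat_lit 924) (nat_lit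 1715368878) (nat_lit 236) (nat_lit 5) (nat_lit 246) (nat_lit 5) (nat_lit 247) (nat_lit 5) (nat_lit 287) (nat_lit 246) (nat_lit 187)) (XT.lf (nat_lit 0) (nat_lit 646733019) (nat_lit 924) (nat_lit 5093720923) (nat_lit 84) (nat_lit 2727581641) (nat_lit 225) (nat_lit 5) (nat_lit 236) (nat_lit 5) (nat_lit 226) (nat_lit 5) (nat_lit 288) (nat_lit 246) (nat_lit 186)))) (XT.nd (nat_lit 188) (nat_lit 1680) (nat_lit 0) (XT.nd (nat_lit 94) (nat_lit 0) (nat_lit 0) (XT.lf (nat_lit 0) (nat_lit 387930639) (nat_lit 840) (nat_lit 2630238826) (nat_lit 924) (nat_lit 5530899287) (nat_lit 215) (nat_lit 5) (nat_lit 225) (nat_lit 5) (nat_lit 226) (nat_lit 5) (nat_lit 289) (nat_lit 246) (nat_lit 185)) (XT.lf (nat_lit 0) (nat_lit 5445708698) (nat_lit 924) (nat_lit 2610735321) (nat_lit 84) (nat_lit 575354147) (nat_lit 215) (nat_lit 5) (nat_lit 226) (nat_lit 5) (nat_lit 216) (nat_lit 5) (nat_lit 290) (nat_lit 246) (nat_lit 184)))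 (XT.nd (nat_lit 94) (nat_lit 840) (nat_lit 0) (XT.lf (nat_lit 0) (nat_lit 3045641831) (nat_lit 840) (nat_lit 4884797027) (nat_lit 924) (nat_lit 785825498) (nat_lit 205) (nat_lit 5) (nat_lit 215) (nat_lit 5) (nat_lit 216) (nat_lit 5) (nat_lit 291) (nat_lit 246) (nat_lit 183)) (XT.lf (nat_lit 0) (nat_lit 10322428) (nat_lit 756) (nat_lit 1615590885) (nat_lit 840) (nat_lit 7176795195) (nat_lit 195) (nat_lit 5) (nat_lit 204) (nat_lit 5) (nat_lit 205) (nat_lit 5) (nat_lit 292) (nat_lit 246) (nat_lit 182))))) (XT.nd (nat_lit 376) (nat_lit 2184) (nat_lit 0) (XT.nd (nat_lit 188) (nat_lit 840) (nat_lit 0) (XT.nd (nat_lit 94) (nat_lit 756) (nat_lit 0) (XT.lf (nat_lit 0) (nat_lit 4097279331) (nat_lit 840) (nat_lit 3049076293) (nat_lit 84) (nat_lit 1744173950) (nat_lit 195) (nat_lit 5) (nat_lit 205) (nat_lit 5) (nat_lit 196) (nat_lit 5) (nat_lit 293) (nat_lit 246) (nat_lit 181)) (XT.lf (nat_lit 0) (nat_lit 2808606437)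 (nat_lit 756) (nat_lit 3810614026) (nat_lit 840) (nat_lit 2361145728) (nat_lit 186) (nat_lit 5) (nat_lit 195) (nat_lit 5) (nat_lit 196) (nat_lit 5) (nat_lit 294) (nat_lit 246) (nat_lit 180))) (XT.nd (nat_lit 94) (nat_lit 756) (nat_lit 0) (XT.lf (nat_lit 0) (nat_lit 110017627) (nat_lit 840) (nat_lit 272931474) (nat_lit 84) (nat_lit 8689489015) (nat_lit 185) (nat_lit 5) (nat_lit 195) (nat_lit 5) (nat_lit 186) (nat_lit 5) (nat_lit 295) (nat_lit 246) (nat_lit 179)) (XT.lf (nat_lit 0) (nat_lit 2630007278) (nat_lit 840) (nat_lit 3406879786) (nat_lit 84) (nat_lit 3128627628) (nat_lit 176) (nat_lit 5) (nat_lit 186) (nat_lit 5) (nat_lit 177) (nat_lit 5) (nat_lit 296) (nat_lit 246) (nat_lit 178)))) (XT.nd (nat_lit 188) (nat_lit 1428) (nat_lit 0) (XT.nd (nat_lit 94) (nat_lit 0) (nat_lit 0) (XT.lf (nat_lit 0) (nat_lit 2661473582) (nat_lit 756) (nat_lit 2533581917) (nat_lit 840) (nat_lit 4065811841) (nat_lit 167)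 (nat_lit 5) (nat_lit 176) (nat_lit 5) (nat_lit 177) (nat_lit 5) (nat_lit 297) (nat_lit 246) (nat_lit 177)) (XT.lf (nat_lit 0) (nat_lit 7815584427) (nat_lit 840) (nat_lit 492029383) (nat_lit 84) (nat_lit 1050724842) (nat_lit 167) (nat_lit 5) (nat_lit 177) (nat_lit 5) (nat_lit 168) (nat_lit 5) (nat_lit 298) (nat_lit 246) (nat_lit 176))) (XT.nd (nat_lit 94) (nat_lit 672) (nat_lit 0) (XT.lf (nat_lit 0) (nat_lit 1047634313) (nat_lit 756) (nat_lit 3690477947) (nat_lit 84) (nat_lit 4719091414) (nat_lit 158) (nat_lit 5) (nat_lit 167) (nat_lit 5) (nat_lit 159) (nat_lit 5) (nat_lit 299) (nat_lit 246) (nat_lit 175)) (XT.lf (nat_lit 0) (nat_lit 2598374977) (nat_lit 672) (nat_lit 1063259791) (nat_lit 756) (nat_lit 5896596549) (nat_lit 150) (nat_lit 5) (nat_lit 158) (nat_lit 5) (nat_lit 159) (nat_lit 5) (nat_lit 300) (nat_lit 246) (nat_lit 174)))))) (XT.nd (nat_lit 658) (nat_lit 2352) (nat_lit 0) (XT.nd (nat_lit 282)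 (nat_lit 1260) (nat_lit 0) (XT.nd (nat_lit 94) (nat_lit 1428) (nat_lit 0) (XT.lf (nat_lit 0) (nat_lit 6347312750) (nat_lit 756) (nat_lit 640078993) (nat_lit 84) (nat_lit 2673778098) (nat_lit 150) (nat_lit 5) (nat_lit 159) (nat_lit 5) (nat_lit 151) (nat_lit 5) (nat_lit 301) (nat_lit 246) (nat_lit 173)) (XT.nd (nat_lit 94) (nat_lit 756) (nat_lit 0) (XT.lf (nat_lit 0) (nat_lit 5855685379) (nat_lit 672) (nat_lit 3254074153) (nat_lit 756) (nat_lit 656224435) (nat_lit 142) (nat_lit 5) (nat_lit 150) (nat_lit 5) (nat_lit 151) (nat_lit 5) (nat_lit 302) (nat_lit 246) (nat_lit 172)) (XT.lf (nat_lit 0) (nat_lit 2026214370) (nat_lit 756) (nat_lit 7263143003) (nat_lit 84) (nat_lit 583511670) (nat_lit 133) (nat_lit 5) (nat_lit 142) (nat_lit 5) (nat_lit 134) (nat_lit 5) (nat_lit 303) (nat_lit 246) (nat_lit 171)))) (XT.nd (nat_lit 188) (nat_lit 672) (nat_lit 0) (XT.nd (nat_lit 94) (nat_lit 588) (nat_lit 0) (XT.lf (nat_lit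 0) (nat_lit 4779535861) (nat_lit 756) (nat_lit 718717321) (nat_lit 84) (nat_lit 4483273678) (nat_lit 133) (nat_lit 5) (nat_lit 142) (nat_lit 5) (nat_lit 134) (nat_lit 5) (nat_lit 304) (nat_lit 246) (nat_lit 170)) (XT.lf (nat_lit 0) (nat_lit 6017052694) (nat_lit 588) (nat_lit 1588657567) (nat_lit 672) (nat_lit 2486594732) (nat_lit 126) (nat_lit 5) (nat_lit 133) (nat_lit 5) (nat_lit 134) (nat_lit 5) (nat_lit 305) (nat_lit 246) (nat_lit 169))) (XT.nd (nat_lit 94) (nat_lit 0) (nat_lit 0) (XT.lf (nat_lit 0) (nat_lit 295845470) (nat_lit 672) (nat_lit 7519147504) (nat_lit 84) (nat_lit 2390229908) (nat_lit 118) (nat_lit 5) (nat_lit 126) (nat_lit 5) (nat_lit 119) (nat_lit 5) (nat_lit 306) (nat_lit 246) (nat_lit 168)) (XT.lf (nat_lit 0) (nat_lit 3114672472) (nat_lit 672) (nat_lit 732601718) (nat_lit 84) (nat_lit 6472693455) (nat_lit 118) (nat_lit 5) (nat_lit 126) (nat_lit 5) (nat_lit 119) (nat_lit 5) (nat_lit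 307) (nat_lit 246) (nat_lit 167))))) (XT.nd (nat_lit 376) (nat_lit 588) (nat_lit 0) (XT.nd (nat_lit 188) (nat_lit 588) (nat_lit 0) (XT.nd (nat_lit 94) (nat_lit 588) (nat_lit 0) (XT.lf (nat_lit 0) (nat_lit 6012340541) (nat_lit 672) (nat_lit 4184222926) (nat_lit 84) (nat_lit 240303133) (nat_lit 111) (nat_lit 5) (nat_lit 119) (nat_lit 5) (nat_lit 112) (nat_lit 5) (nat_lit 308) (nat_lit 246) (nat_lit 166)) (XT.lf (nat_lit 0) (nat_lit 2819648153) (nat_lit 588) (nat_lit 6178482324) (nat_lit 672) (nat_lit 1557670646) (nat_lit 104) (nat_lit 5) (nat_lit 111) (nat_lit 5) (nat_lit 112) (nat_lit 5) (nat_lit 309) (nat_lit 246) (nat_lit 165))) (XT.nd (nat_lit 94) (nat_lit 504) (nat_lit 0) (XT.lf (nat_lit 0) (nat_lit 1354592250) (nat_lit 672) (nat_lit 685920708) (nat_lit 84) (nat_lit 8636577968) (nat_lit 103) (nat_lit 5) (nat_lit 111) (nat_lit 5) (nat_lit 104) (nat_lit 5) (nat_lit 310) (nat_lit 246) (nat_lit 164))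 (XT.lf (nat_lit 0) (nat_lit 4342289279) (nat_lit 588) (nat_lit 4252212928) (nat_lit 84) (nat_lit 2205542968) (nat_lit 97) (nat_lit 5) (nat_lit 104) (nat_lit 5) (nat_lit 98) (nat_lit 5) (nat_lit 311) (nat_lit 246) (nat_lit 163)))) (XT.nd (nat_lit 39104) (nat_lit 0) (nat_lit 36288) (XT.nd (nat_lit 94) (nat_lit 0) (nat_lit 0) (XT.lf (nat_lit 0) (nat_lit 3015150286) (nat_lit 588) (nat_lit 4393863355) (nat_lit 672) (nat_lit 3516398220) (nat_lit 90) (nat_lit 5) (nat_lit 97) (nat_lit 5) (nat_lit 98) (nat_lit 5) (nat_lit 312) (nat_lit 246) (nat_lit 162)) (XT.lf (nat_lit 0) (nat_lit 10467418252) (nat_lit 588) (nat_lit 79389745) (nat_lit 672) (nat_lit 506649373) (nat_lit 90) (nat_lit 5) (nat_lit 97) (nat_lit 5) (nat_lit 98) (nat_lit 5) (nat_lit 313) (nat_lit 246) (nat_lit 161))) (XT.nd (nat_lit 94) (nat_lit 0) (nat_lit 0) (XT.lf (nat_lit 0) (nat_lit 338539061) (nat_lit 0) (nat_lit 338539061) (nat_lit 588) (nat_lit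 2600118590) (nat_lit 522) (nat_lit 5) (nat_lit 522) (nat_lit 3) (nat_lit 529) (nat_lit 3) (nat_lit 247) (nat_lit 247) (nat_lit 226)) (XT.lf (nat_lit 0) (nat_lit 3886947933) (nat_lit 588) (nat_lit 2582528242) (nat_lit 672) (nat_lit 101621867) (nat_lit 522) (nat_lit 5) (nat_lit 529) (nat_lit 3) (nat_lit 530) (nat_lit 5) (nat_lit 248) (nat_lit 247) (nat_lit 225))))))) (XT.nd (nat_lit 1410) (nat_lit 12432) (nat_lit 0) (XT.nd (nat_lit 658) (nat_lit 1848) (nat_lit 0) (XT.nd (nat_lit 282) (nat_lit 1512) (nat_lit 0) (XT.nd (nat_lit 94) (nat_lit 672) (nat_lit 0) (XT.lf (nat_lit 84) (nat_lit 752545473) (nat_lit 0) (nat_lit 5660953193) (nat_lit 672) (nat_lit 176034667) (nat_lit 523) (nat_lit 5) (nat_lit 522) (nat_lit 5) (nat_lit 530) (nat_lit 5) (nat_lit 249) (nat_lit 247) (nat_lit 224)) (XT.nd (nat_lit 94) (nat_lit 0) (nat_lit 0) (XT.lf (nat_lit 0) (nat_lit 2300606648) (nat_lit 672) (nat_lit 2464414939) (nat_lit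 756) (nat_lit 1844128410) (nat_lit 514) (nat_lit 5) (nat_lit 522) (nat_lit 5) (nat_lit 523) (nat_lit 5) (nat_lit 250) (nat_lit 247) (nat_lit 223)) (XT.lf (nat_lit 84) (nat_lit 956813300) (nat_lit 0) (nat_lit 3809201088) (nat_lit 756) (nat_lit 1864544471) (nat_lit 515) (nat_lit 5) (nat_lit 514) (nat_lit 5) (nat_lit 523) (nat_lit 5) (nat_lit 251) (nat_lit 247) (nat_lit 222)))) (XT.nd (nat_lit 188) (nat_lit 756) (nat_lit 0) (XT.nd (nat_lit 94) (nat_lit 0) (nat_lit 0) (XT.lf (nat_lit 0) (nat_lit 573229865) (nat_lit 756) (nat_lit 2205343713) (nat_lit 840) (nat_lit 3874885092) (nat_lit 505) (nat_lit 5) (nat_lit 514) (nat_lit 5) (nat_lit 515) (nat_lit 5) (nat_lit 252) (nat_lit 247) (nat_lit 221)) (XT.lf (nat_lit 84) (nat_lit 1306666722) (nat_lit 0) (nat_lit 1672112200) (nat_lit 840) (nat_lit 3699069754) (nat_lit 506) (nat_lit 5) (nat_lit 505) (nat_lit 5) (nat_lit 515) (nat_lit 5) (nat_lit 253) (nat_lit 247)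 (nat_lit 220))) (XT.nd (nat_lit 94) (nat_lit 756) (nat_lit 0) (XT.lf (nat_lit 84) (nat_lit 4891210164) (nat_lit 0) (nat_lit 495800886) (nat_lit 840) (nat_lit 1316869470) (nat_lit 506) (nat_lit 5) (nat_lit 505) (nat_lit 5) (nat_lit 515) (nat_lit 5) (nat_lit 254) (nat_lit 247) (nat_lit 219)) (XT.lf (nat_lit 0) (nat_lit 1054303763) (nat_lit 840) (nat_lit 4932511653) (nat_lit 924) (nat_lit 744535890) (nat_lit 496) (nat_lit 5) (nat_lit 506) (nat_lit 5) (nat_lit 507) (nat_lit 5) (nat_lit 255) (nat_lit 247) (nat_lit 218))))) (XT.nd (nat_lit 376) (nat_lit 924) (nat_lit 0) (XT.nd (nat_lit 188) (nat_lit 924) (nat_lit 0) (XT.nd (nat_lit 94) (nat_lit 0) (nat_lit 0) (XT.lf (nat_lit 0) (nat_lit 3411119657) (nat_lit 840) (nat_lit 1294701409) (nat_lit 924) (nat_lit 2054431526) (nat_lit 496) (nat_lit 5) (nat_lit 506) (nat_lit 5) (nat_lit 507) (nat_lit 5) (nat_lit 256) (nat_lit 247) (nat_lit 217)) (XT.lf (nat_lit 84)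 (nat_lit 2419683266) (nat_lit 0) (nat_lit 3354486324) (nat_lit 924) (nat_lit 1016623668) (nat_lit 497) (nat_lit 5) (nat_lit 496) (nat_lit 5) (nat_lit 507) (nat_lit 5) (nat_lit 257) (nat_lit 247) (nat_lit 216))) (XT.nd (nat_lit 94) (nat_lit 0) (nat_lit 0) (XT.lf (nat_lit 0) (nat_lit 1294921976) (nat_lit 924) (nat_lit 635423878) (nat_lit 1008) (nat_lit 4892602617) (nat_lit 485) (nat_lit 5) (nat_lit 496) (nat_lit 5) (nat_lit 497) (nat_lit 5) (nat_lit 258) (nat_lit 247) (nat_lit 215)) (XT.lf (nat_lit 84) (nat_lit 3182785950) (nat_lit 0) (nat_lit 421362520) (nat_lit 1008) (nat_lit 3252340392) (nat_lit 486) (nat_lit 5) (nat_lit 485) (nat_lit 5) (nat_lit 497) (nat_lit 5) (nat_lit 259) (nat_lit 247) (nat_lit 214)))) (XT.nd (nat_lit 188) (nat_lit 0) (nat_lit 0) (XT.nd (nat_lit 94) (nat_lit 1008) (nat_lit 0) (XT.lf (nat_lit 84) (nat_lit 158791209) (nat_lit 0) (nat_lit 5759547058) (nat_lit 1008) (nat_lit 973437348)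 (nat_lit 487) (nat_lit 5) (nat_lit 486) (nat_lit 5) (nat_lit 498) (nat_lit 5) (nat_lit 260) (nat_lit 247) (nat_lit 213)) (XT.lf (nat_lit 0) (nat_lit 1307374225) (nat_lit 1008) (nat_lit 2849575647) (nat_lit 1092) (nat_lit 2771307819) (nat_lit 474) (nat_lit 5) (nat_lit 486) (nat_lit 5) (nat_lit 487) (nat_lit 5) (nat_lit 261) (nat_lit 247) (nat_lit 212))) (XT.nd (nat_lit 94) (nat_lit 0) (nat_lit 0) (XT.lf (nat_lit 84) (nat_lit 1088842605) (nat_lit 0) (nat_lit 2485117754) (nat_lit 1092) (nat_lit 3392527741) (nat_lit 475) (nat_lit 5) (nat_lit 474) (nat_lit 5) (nat_lit 487) (nat_lit 5) (nat_lit 262) (nat_lit 247) (nat_lit 211)) (XT.lf (nat_lit 84) (nat_lit 5117725245) (nat_lit 0) (nat_lit 736872661) (nat_lit 1092) (nat_lit 1151749570) (nat_lit 475) (nat_lit 5) (nat_lit 474) (nat_lit 5) (nat_lit 487) (nat_lit 5) (nat_lit 263) (nat_lit 247) (nat_lit 210)))))) (XT.nd (nat_lit 658) (nat_lit 7728) (nat_lit 0) (XT.nd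 (nat_lit 282) (nat_lit 2604) (nat_lit 0) (XT.nd (nat_lit 94) (nat_lit 1092) (nat_lit 0) (XT.lf (nat_lit 0) (nat_lit 1089137135) (nat_lit 1092) (nat_lit 4882952250) (nat_lit 84) (nat_lit 1075537433) (nat_lit 462) (nat_lit 5) (nat_lit 475) (nat_lit 5) (nat_lit 463) (nat_lit 5) (nat_lit 264) (nat_lit 247) (nat_lit 209)) (XT.nd (nat_lit 94) (nat_lit 1092) (nat_lit 0) (XT.lf (nat_lit 0) (nat_lit 3326794312) (nat_lit 1092) (nat_lit 807783253) (nat_lit 84) (nat_lit 2955834931) (nat_lit 462) (nat_lit 5) (nat_lit 475) (nat_lit 5) (nat_lit 463) (nat_lit 5) (nat_lit 265) (nat_lit 247) (nat_lit 208)) (XT.lf (nat_lit 0) (nat_lit 3366609580) (nat_lit 1092) (nat_lit 2217244118) (nat_lit 1176) (nat_lit 1550941940) (nat_lit 449) (nat_lit 5) (nat_lit 462) (nat_lit 5) (nat_lit 463) (nat_lit 5) (nat_lit 266) (nat_lit 247) (nat_lit 207)))) (XT.nd (nat_lit 188) (nat_lit 1344) (nat_lit 0) (XT.nd (nat_lit 94) (nat_lit 0) (nat_lit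 0) (XT.lf (nat_lit 0) (nat_lit 426501046) (nat_lit 1176) (nat_lit 229418345) (nat_lit 1260) (nat_lit 6525098241) (nat_lit 434) (nat_lit 5) (nat_lit 448) (nat_lit 5) (nat_lit 449) (nat_lit 5) (nat_lit 267) (nat_lit 247) (nat_lit 206)) (XT.lf (nat_lit 0) (nat_lit 2877028467) (nat_lit 1260) (nat_lit 2522606043) (nat_lit 84) (nat_lit 1828626016) (nat_lit 434) (nat_lit 5) (nat_lit 449) (nat_lit 5) (nat_lit 435) (nat_lit 5) (nat_lit 268) (nat_lit 247) (nat_lit 205))) (XT.nd (nat_lit 94) (nat_lit 84) (nat_lit 0) (XT.lf (nat_lit 0) (nat_lit 1786962437) (nat_lit 1260) (nat_lit 3323219408) (nat_lit 1344) (nat_lit 2167170961) (nat_lit 419) (nat_lit 5) (nat_lit 434) (nat_lit 5) (nat_lit 435) (nat_lit 5) (nat_lit 269) (nat_lit 247) (nat_lit 204)) (XT.lf (nat_lit 0) (nat_lit 32009664) (nat_lit 1344) (nat_lit 1138664607) (nat_lit 84) (nat_lit 6157544547) (nat_lit 418) (nat_lit 5) (nat_lit 434) (nat_lit 5) (nat_lit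 419) (nat_lit 5) (nat_lit 270) (nat_lit 247) (nat_lit 203))))) (XT.nd (nat_lit 376) (nat_lit 3360) (nat_lit 0) (XT.nd (nat_lit 188) (nat_lit 1596) (nat_lit 0) (XT.nd (nat_lit 94) (nat_lit 1428) (nat_lit 0) (XT.lf (nat_lit 0) (nat_lit 2229211042) (nat_lit 1428) (nat_lit 4086658814) (nat_lit 84) (nat_lit 1064393061) (nat_lit 402) (nat_lit 5) (nat_lit 419) (nat_lit 5) (nat_lit 403) (nat_lit 5) (nat_lit 271) (nat_lit 247) (nat_lit 202)) (XT.lf (nat_lit 0) (nat_lit 363806158) (nat_lit 1428) (nat_lit 4081724474) (nat_lit 1512) (nat_lit 2988564201) (nat_lit 385) (nat_lit 5) (nat_lit 402) (nat_lit 5) (nat_lit 403) (nat_lit 5) (nat_lit 272) (nat_lit 247) (nat_lit 201))) (XT.nd (nat_lit 94) (nat_lit 1596) (nat_lit 0) (XT.lf (nat_lit 0) (nat_lit 4933533132) (nat_lit 1428) (nat_lit 1759223563) (nat_lit 1512) (nat_lit 796747110) (nat_lit 385) (nat_lit 5) (nat_lit 402) (nat_lit 5) (nat_lit 403) (nat_lit 5) (nat_lit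 273) (nat_lit 247) (nat_lit 200)) (XT.lf (nat_lit 0) (nat_lit 1394279927) (nat_lit 1596) (nat_lit 5514037696) (nat_lit 84) (nat_lit 638208859) (nat_lit 366) (nat_lit 5) (nat_lit 385) (nat_lit 5) (nat_lit 367) (nat_lit 5) (nat_lit 274) (nat_lit 247) (nat_lit 199)))) (XT.nd (nat_lit 188) (nat_lit 1764) (nat_lit 0) (XT.nd (nat_lit 94) (nat_lit 1596) (nat_lit 0) (XT.lf (nat_lit 0) (nat_lit 3607051280) (nat_lit 1596) (nat_lit 903377921) (nat_lit 84) (nat_lit 3094570913) (nat_lit 366) (nat_lit 5) (nat_lit 385) (nat_lit 5) (nat_lit 367) (nat_lit 5) (nat_lit 275) (nat_lit 247) (nat_lit 198)) (XT.lf (nat_lit 0) (nat_lit 3824353994) (nat_lit 1596) (nat_lit 2025839655) (nat_lit 1680) (nat_lit 1814969335) (nat_lit 347) (nat_lit 5) (nat_lit 366) (nat_lit 5) (nat_lit 367) (nat_lit 5) (nat_lit 276) (nat_lit 247) (nat_lit 197))) (XT.nd (nat_lit 94) (nat_lit 0) (nat_lit 0) (XT.lf (nat_lit 0) (nat_lit 381907684) (nat_lit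 1764) (nat_lit 6817691274) (nat_lit 84) (nat_lit 527604270) (nat_lit 326) (nat_lit 5) (nat_lit 347) (nat_lit 5) (nat_lit 327) (nat_lit 5) (nat_lit 277) (nat_lit 247) (nat_lit 196)) (XT.lf (nat_lit 0) (nat_lit 2599273142) (nat_lit 1764) (nat_lit 2036995089) (nat_lit 84) (nat_lit 3154074224) (nat_lit 326) (nat_lit 5) (nat_lit 347) (nat_lit 5) (nat_lit 327) (nat_lit 5) (nat_lit 278) (nat_lit 247) (nat_lit 195))))))))
noncomputable def xc31 : XT := (XT.nd (nat_lit 2820) (nat_lit 1764) (nat_lit 0) (XT.nd (nat_lit 1410) (nat_lit 7056) (nat_lit 0) (XT.nd (nat_lit 658) (nat_lit 4284) (nat_lit 0) (XT.nd (nat_lit 282) (nat_lit 3024) (nat_lit 0) (XT.nd (nat_lit 94) (nat_lit 1932) (nat_lit 0) (XT.lf (nat_lit 0) (nat_lit 2850255454) (nat_lit 1764) (nat_lit 1991974643) (nat_lit 1848) (nat_lit 3013150839) (nat_lit 305) (nat_lit 5) (nat_lit 326) (nat_lit 5) (nat_lit 327) (nat_lit 5) (nat_lit 279) (nat_lit 247) (nat_lit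 194)) (XT.nd (nat_lit 94) (nat_lit 1932) (nat_lit 0) (XT.lf (nat_lit 0) (nat_lit 7111935274) (nat_lit 1848) (nat_lit 91595417) (nat_lit 84) (nat_lit 718816704) (nat_lit 305) (nat_lit 5) (nat_lit 327) (nat_lit 5) (nat_lit 306) (nat_lit 5) (nat_lit 280) (nat_lit 247) (nat_lit 193)) (XT.lf (nat_lit 0) (nat_lit 1427942668) (nat_lit 1932) (nat_lit 3053632189) (nat_lit 84) (nat_lit 3508812501) (nat_lit 282) (nat_lit 5) (nat_lit 305) (nat_lit 5) (nat_lit 283) (nat_lit 5) (nat_lit 281) (nat_lit 247) (nat_lit 192)))) (XT.nd (nat_lit 188) (nat_lit 1932) (nat_lit 0) (XT.nd (nat_lit 94) (nat_lit 0) (nat_lit 0) (XT.lf (nat_lit 0) (nat_lit 2000286532) (nat_lit 1092) (nat_lit 1676685837) (nat_lit 1176) (nat_lit 4383408107) (nat_lit 269) (nat_lit 5) (nat_lit 282) (nat_lit 5) (nat_lit 283) (nat_lit 5) (nat_lit 282) (nat_lit 247) (nat_lit 191)) (XT.lf (nat_lit 0) (nat_lit 5965730079) (nat_lit 1176) (nat_lit 969490463)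 (nat_lit 84) (nat_lit 1196907416) (nat_lit 269) (nat_lit 5) (nat_lit 283) (nat_lit 5) (nat_lit 270) (nat_lit 5) (nat_lit 283) (nat_lit 247) (nat_lit 190))) (XT.nd (nat_lit 94) (nat_lit 924) (nat_lit 0) (XT.lf (nat_lit 0) (nat_lit 100333809) (nat_lit 1008) (nat_lit 3963682922) (nat_lit 84) (nat_lit 4141369245) (nat_lit 257) (nat_lit 5) (nat_lit 269) (nat_lit 5) (nat_lit 258) (nat_lit 5) (nat_lit 284) (nat_lit 247) (nat_lit 189)) (XT.lf (nat_lit 0) (nat_lit 1264457101) (nat_lit 924) (nat_lit 1097037812) (nat_lit 1008) (nat_lit 5918931874) (nat_lit 246) (nat_lit 5) (nat_lit 257) (nat_lit 5) (nat_lit 258) (nat_lit 5) (nat_lit 285) (nat_lit 247) (nat_lit 188))))) (XT.nd (nat_lit 376) (nat_lit 2520) (nat_lit 0) (XT.nd (nat_lit 188) (nat_lit 924) (nat_lit 0) (XT.nd (nat_lit 94) (nat_lit 840) (nat_lit 0) (XT.lf (nat_lit 0) (nat_lit 4676479027) (nat_lit 1008) (nat_lit 1744085552) (nat_lit 84) (nat_lit 1936464211)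 (nat_lit 246) (nat_lit 5) (nat_lit 258) (nat_lit 5) (nat_lit 247) (nat_lit 5) (nat_lit 286) (nat_lit 247) (nat_lit 187)) (XT.lf (nat_lit 0) (nat_lit 3648790614) (nat_lit 840) (nat_lit 3389225792) (nat_lit 924) (nat_lit 1397395911) (nat_lit 236) (nat_lit 5) (nat_lit 246) (nat_lit 5) (nat_lit 247) (nat_lit 5) (nat_lit 287) (nat_lit 247) (nat_lit 186))) (XT.nd (nat_lit 94) (nat_lit 0) (nat_lit 0) (XT.lf (nat_lit 0) (nat_lit 633659179) (nat_lit 840) (nat_lit 268253520) (nat_lit 924) (nat_lit 7613913960) (nat_lit 225) (nat_lit 5) (nat_lit 235) (nat_lit 5) (nat_lit 236) (nat_lit 5) (nat_lit 288) (nat_lit 247) (nat_lit 185)) (XT.lf (nat_lit 0) (nat_lit 3250099631) (nat_lit 924) (nat_lit 2424148908) (nat_lit 84) (nat_lit 2923122779) (nat_lit 225) (nat_lit 5) (nat_lit 236) (nat_lit 5) (nat_lit 226) (nat_lit 5) (nat_lit 289) (nat_lit 247) (nat_lit 184)))) (XT.nd (nat_lit 188) (nat_lit 840) (nat_lit 0) (XT.nd (nat_lit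 94) (nat_lit 840) (nat_lit 0) (XT.lf (nat_lit 0) (nat_lit 3157995195) (nat_lit 840) (nat_lit 2479648636) (nat_lit 924) (nat_lit 3043336793) (nat_lit 215) (nat_lit 5) (nat_lit 225) (nat_lit 5) (nat_lit 226) (nat_lit 5) (nat_lit 290) (nat_lit 247) (nat_lit 183)) (XT.lf (nat_lit 0) (nat_lit 88695873) (nat_lit 840) (nat_lit 7977019214) (nat_lit 924) (nat_lit 700978222) (nat_lit 205) (nat_lit 5) (nat_lit 215) (nat_lit 5) (nat_lit 216) (nat_lit 5) (nat_lit 291) (nat_lit 247) (nat_lit 182))) (XT.nd (nat_lit 94) (nat_lit 756) (nat_lit 0) (XT.lf (nat_lit 0) (nat_lit 1691649696) (nat_lit 924) (nat_lit 3017692551) (nat_lit 84) (nat_lit 4144175471) (nat_lit 204) (nat_lit 5) (nat_lit 215) (nat_lit 5) (nat_lit 205) (nat_lit 5) (nat_lit 292) (nat_lit 247) (nat_lit 181)) (XT.lf (nat_lit 0) (nat_lit 2762478526) (nat_lit 756) (nat_lit 1348549166) (nat_lit 840) (nat_lit 4831454828) (nat_lit 195) (nat_lit 5) (nat_lit 204)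 (nat_lit 5) (nat_lit 205) (nat_lit 5) (nat_lit 293) (nat_lit 247) (nat_lit 180)))))) (XT.nd (nat_lit 658) (nat_lit 3948) (nat_lit 0) (XT.nd (nat_lit 282) (nat_lit 1512) (nat_lit 0) (XT.nd (nat_lit 94) (nat_lit 1596) (nat_lit 0) (XT.lf (nat_lit 0) (nat_lit 6586147137) (nat_lit 840) (nat_lit 372849516) (nat_lit 84) (nat_lit 2074352563) (nat_lit 195) (nat_lit 5) (nat_lit 205) (nat_lit 5) (nat_lit 196) (nat_lit 5) (nat_lit 294) (nat_lit 247) (nat_lit 179)) (XT.nd (nat_lit 94) (nat_lit 756) (nat_lit 0) (XT.lf (nat_lit 0) (nat_lit 5384821) (nat_lit 840) (nat_lit 3532034905) (nat_lit 84) (nat_lit 5588450851) (nat_lit 185) (nat_lit 5) (nat_lit 195) (nat_lit 5) (nat_lit 186) (nat_lit 5) (nat_lit 295) (nat_lit 247) (nat_lit 178)) (XT.lf (nat_lit 0) (nat_lit 2455367049) (nat_lit 756) (nat_lit 6967744) (nat_lit 840) (nat_lit 6757999232) (nat_lit 176) (nat_lit 5) (nat_lit 185) (nat_lit 5) (nat_lit 186) (nat_lit 5)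 (nat_lit 296) (nat_lit 247) (nat_lit 177)))) (XT.nd (nat_lit 188) (nat_lit 756) (nat_lit 0) (XT.nd (nat_lit 94) (nat_lit 756) (nat_lit 0) (XT.lf (nat_lit 0) (nat_lit 4991845554) (nat_lit 840) (nat_lit 754464722) (nat_lit 84) (nat_lit 3570158221) (nat_lit 176) (nat_lit 5) (nat_lit 186) (nat_lit 5) (nat_lit 177) (nat_lit 5) (nat_lit 297) (nat_lit 247) (nat_lit 176)) (XT.lf (nat_lit 0) (nat_lit 5427680836) (nat_lit 756) (nat_lit 2155334865) (nat_lit 840) (nat_lit 1831570002) (nat_lit 167) (nat_lit 5) (nat_lit 176) (nat_lit 5) (nat_lit 177) (nat_lit 5) (nat_lit 298) (nat_lit 247) (nat_lit 175))) (XT.nd (nat_lit 94) (nat_lit 0) (nat_lit 0) (XT.lf (nat_lit 0) (nat_lit 705943176) (nat_lit 756) (nat_lit 7295491790) (nat_lit 84) (nat_lit 1513315794) (nat_lit 158) (nat_lit 5) (nat_lit 167) (nat_lit 5) (nat_lit 159) (nat_lit 5) (nat_lit 299) (nat_lit 247) (nat_lit 174)) (XT.lf (nat_lit 0) (nat_lit 3285544618) (nat_lit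 756) (nat_lit 1063493107) (nat_lit 84) (nat_lit 5267497458) (nat_lit 158) (nat_lit 5) (nat_lit 167) (nat_lit 5) (nat_lit 159) (nat_lit 5) (nat_lit 300) (nat_lit 247) (nat_lit 173))))) (XT.nd (nat_lit 376) (nat_lit 1848) (nat_lit 0) (XT.nd (nat_lit 188) (nat_lit 756) (nat_lit 0) (XT.nd (nat_lit 94) (nat_lit 672) (nat_lit 0) (XT.lf (nat_lit 0) (nat_lit 5344141698) (nat_lit 672) (nat_lit 584384881) (nat_lit 756) (nat_lit 3791886439) (nat_lit 150) (nat_lit 5) (nat_lit 158) (nat_lit 5) (nat_lit 159) (nat_lit 5) (nat_lit 301) (nat_lit 247) (nat_lit 172)) (XT.lf (nat_lit 0) (nat_lit 2049650481) (nat_lit 672) (nat_lit 6594675905) (nat_lit 756) (nat_lit 1181926992) (nat_lit 142) (nat_lit 5) (nat_lit 150) (nat_lit 5) (nat_lit 151) (nat_lit 5) (nat_lit 302) (nat_lit 247) (nat_lit 171))) (XT.nd (nat_lit 94) (nat_lit 672) (nat_lit 0) (XT.lf (nat_lit 0) (nat_lit 1469957747) (nat_lit 756) (nat_lit 1305445007) (nat_lit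 84) (nat_lit 7158656853) (nat_lit 141) (nat_lit 5) (nat_lit 150) (nat_lit 5) (nat_lit 142) (nat_lit 5) (nat_lit 303) (nat_lit 247) (nat_lit 170)) (XT.lf (nat_lit 0) (nat_lit 4178881660) (nat_lit 756) (nat_lit 4713960388) (nat_lit 84) (nat_lit 1150852121) (nat_lit 133) (nat_lit 5) (nat_lit 142) (nat_lit 5) (nat_lit 134) (nat_lit 5) (nat_lit 304) (nat_lit 247) (nat_lit 169)))) (XT.nd (nat_lit 188) (nat_lit 1260) (nat_lit 0) (XT.nd (nat_lit 94) (nat_lit 0) (nat_lit 0) (XT.lf (nat_lit 0) (nat_lit 1944129855) (nat_lit 588) (nat_lit 5017115223) (nat_lit 672) (nat_lit 3194191065) (nat_lit 126) (nat_lit 5) (nat_lit 133) (nat_lit 5) (nat_lit 134) (nat_lit 5) (nat_lit 305) (nat_lit 247) (nat_lit 168)) (XT.lf (nat_lit 0) (nat_lit 8780927971) (nat_lit 588) (nat_lit 1029160865) (nat_lit 672) (nat_lit 459431701) (nat_lit 126) (nat_lit 5) (nat_lit 133) (nat_lit 5) (nat_lit 134) (nat_lit 5) (nat_lit 306) (nat_lit 247)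 (nat_lit 167))) (XT.nd (nat_lit 94) (nat_lit 588) (nat_lit 0) (XT.lf (nat_lit 0) (nat_lit 2333274235) (nat_lit 672) (nat_lit 5002120680) (nat_lit 84) (nat_lit 3049662626) (nat_lit 118) (nat_lit 5) (nat_lit 126) (nat_lit 5) (nat_lit 119) (nat_lit 5) (nat_lit 307) (nat_lit 247) (nat_lit 166)) (XT.lf (nat_lit 0) (nat_lit 1903400639) (nat_lit 588) (nat_lit 3280554726) (nat_lit 672) (nat_lit 5319034846) (nat_lit 111) (nat_lit 5) (nat_lit 118) (nat_lit 5) (nat_lit 119) (nat_lit 5) (nat_lit 308) (nat_lit 247) (nat_lit 165))))))) (XT.nd (nat_lit 40420) (nat_lit 0) (nat_lit 24696) (XT.nd (nat_lit 39668) (nat_lit 0) (nat_lit 33180) (XT.nd (nat_lit 282) (nat_lit 588) (nat_lit 0) (XT.nd (nat_lit 94) (nat_lit 1176) (nat_lit 0) (XT.lf (nat_lit 0) (nat_lit 8112176143) (nat_lit 672) (nat_lit 1631933646) (nat_lit 84) (nat_lit 879081466) (nat_lit 111) (nat_lit 5) (nat_lit 119) (nat_lit 5) (nat_lit 112) (nat_lit 5) (nat_lit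 309) (nat_lit 247) (nat_lit 164)) (XT.nd (nat_lit 94) (nat_lit 504) (nat_lit 0) (XT.lf (nat_lit 0) (nat_lit 389050790) (nat_lit 672) (nat_lit 5241163479) (nat_lit 84) (nat_lit 5114986608) (nat_lit 103) (nat_lit 5) (nat_lit 111) (nat_lit 5) (nat_lit 104) (nat_lit 5) (nat_lit 310) (nat_lit 247) (nat_lit 163)) (XT.lf (nat_lit 0) (nat_lit 1923409572) (nat_lit 504) (nat_lit 1390595758) (nat_lit 588) (nat_lit 7555530130) (nat_lit 97) (nat_lit 5) (nat_lit 103) (nat_lit 5) (nat_lit 104) (nat_lit 5) (nat_lit 311) (nat_lit 247) (nat_lit 162)))) (XT.nd (nat_lit 39198) (nat_lit 0) (nat_lit 35532) (XT.nd (nat_lit 94) (nat_lit 588) (nat_lit 0) (XT.lf (nat_lit 0) (nat_lit 6335730269) (nat_lit 588) (nat_lit 1731043769) (nat_lit 84) (nat_lit 2929118097) (nat_lit 97) (nat_lit 5) (nat_lit 104) (nat_lit 5) (nat_lit 98) (nat_lit 5) (nat_lit 312) (nat_lit 247) (nat_lit 161)) (XT.lf (nat_lit 0) (nat_lit 5677304000) (nat_lit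 588) (nat_lit 3770253989) (nat_lit 672) (nat_lit 1676950920) (nat_lit 90) (nat_lit 5) (nat_lit 97) (nat_lit 5) (nat_lit 98) (nat_lit 5) (nat_lit 313) (nat_lit 247) (nat_lit 160))) (XT.nd (nat_lit 94) (nat_lit 756) (nat_lit 0) (XT.lf (nat_lit 0) (nat_lit 1595602509) (nat_lit 0) (nat_lit 1595602509) (nat_lit 588) (nat_lit 103106935) (nat_lit 522) (nat_lit 5) (nat_lit 522) (nat_lit 3) (nat_lit 529) (nat_lit 3) (nat_lit 248) (nat_lit 248) (nat_lit 224)) (XT.lf (nat_lit 0) (nat_lit 2222021928) (nat_lit 756) (nat_lit 101621867) (nat_lit 756) (nat_lit 4284082619) (nat_lit 513) (nat_lit 3) (nat_lit 522) (nat_lit 3) (nat_lit 522) (nat_lit 5) (nat_lit 249) (nat_lit 248) (nat_lit 223))))) (XT.nd (nat_lit 376) (nat_lit 1596) (nat_lit 0) (XT.nd (nat_lit 188) (nat_lit 0) (nat_lit 84) (XT.nd (nat_lit 94) (nat_lit 756) (nat_lit 0) (XT.lf (nat_lit 84) (nat_lit 3276642598) (nat_lit 0) (nat_lit 1377413644) (nat_lit 756)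 (nat_lit 1974184823) (nat_lit 514) (nat_lit 5) (nat_lit 513) (nat_lit 3) (nat_lit 522) (nat_lit 5) (nat_lit 250) (nat_lit 248) (nat_lit 222)) (XT.lf (nat_lit 84) (nat_lit 42179404) (nat_lit 0) (nat_lit 373027399) (nat_lit 840) (nat_lit 6235421990) (nat_lit 505) (nat_lit 5) (nat_lit 504) (nat_lit 5) (nat_lit 514) (nat_lit 5) (nat_lit 251) (nat_lit 248) (nat_lit 221))) (XT.nd (nat_lit 94) (nat_lit 0) (nat_lit 0) (XT.lf (nat_lit 0) (nat_lit 2789978091) (nat_lit 756) (nat_lit 3169436870) (nat_lit 840) (nat_lit 714616697) (nat_lit 505) (nat_lit 5) (nat_lit 514) (nat_lit 5) (nat_lit 515) (nat_lit 5) (nat_lit 252) (nat_lit 248) (nat_lit 220)) (XT.lf (nat_lit 84) (nat_lit 309855352) (nat_lit 0) (nat_lit 4845801693) (nat_lit 840) (nat_lit 1543641761) (nat_lit 506) (nat_lit 5) (nat_lit 505) (nat_lit 5) (nat_lit 515) (nat_lit 5) (nat_lit 253) (nat_lit 248) (nat_lit 219)))) (XT.nd (nat_lit 188) (nat_lit 840) (nat_lit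 0) (XT.nd (nat_lit 94) (nat_lit 0) (nat_lit 0) (XT.lf (nat_lit 0) (nat_lit 794052225) (nat_lit 840) (nat_lit 2855607261) (nat_lit 924) (nat_lit 3076253178) (nat_lit 495) (nat_lit 5) (nat_lit 505) (nat_lit 5) (nat_lit 506) (nat_lit 5) (nat_lit 254) (nat_lit 248) (nat_lit 218)) (XT.lf (nat_lit 84) (nat_lit 718076567) (nat_lit 0) (nat_lit 2383332750) (nat_lit 924) (nat_lit 3652754442) (nat_lit 496) (nat_lit 5) (nat_lit 495) (nat_lit 5) (nat_lit 506) (nat_lit 5) (nat_lit 255) (nat_lit 248) (nat_lit 217))) (XT.nd (nat_lit 94) (nat_lit 840) (nat_lit 0) (XT.lf (nat_lit 84) (nat_lit 4376296117) (nat_lit 0) (nat_lit 1041285355) (nat_lit 924) (nat_lit 1366377735) (nat_lit 496) (nat_lit 5) (nat_lit 495) (nat_lit 5) (nat_lit 506) (nat_lit 5) (nat_lit 256) (nat_lit 248) (nat_lit 216)) (XT.lf (nat_lit 0) (nat_lit 905925274) (nat_lit 924) (nat_lit 5542884423) (nat_lit 1008) (nat_lit 366557173) (nat_lit 485) (nat_lit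 5) (nat_lit 496) (nat_lit 5) (nat_lit 497) (nat_lit 5) (nat_lit 257) (nat_lit 248) (nat_lit 215)))))) (XT.nd (nat_lit 752) (nat_lit 6468) (nat_lit 0) (XT.nd (nat_lit 376) (nat_lit 1008) (nat_lit 0) (XT.nd (nat_lit 188) (nat_lit 1008) (nat_lit 0) (XT.nd (nat_lit 94) (nat_lit 0) (nat_lit 0) (XT.lf (nat_lit 0) (nat_lit 3172719432) (nat_lit 924) (nat_lit 1833284004) (nat_lit 1008) (nat_lit 1842021725) (nat_lit 485) (nat_lit 5) (nat_lit 496) (nat_lit 5) (nat_lit 497) (nat_lit 5) (nat_lit 258) (nat_lit 248) (nat_lit 214)) (XT.lf (nat_lit 84) (nat_lit 1948712841) (nat_lit 0) (nat_lit 3494981756) (nat_lit 1008) (nat_lit 1438712485) (nat_lit 486) (nat_lit 5) (nat_lit 485) (nat_lit 5) (nat_lit 497) (nat_lit 5) (nat_lit 259) (nat_lit 248) (nat_lit 213))) (XT.nd (nat_lit 94) (nat_lit 0) (nat_lit 0) (XT.lf (nat_lit 0) (nat_lit 789547722) (nat_lit 1008) (nat_lit 1119960918) (nat_lit 1092) (nat_lit 5008901439) (nat_lit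 473) (nat_lit 5) (nat_lit 485) (nat_lit 5) (nat_lit 486) (nat_lit 5) (nat_lit 260) (nat_lit 248) (nat_lit 212)) (XT.lf (nat_lit 84) (nat_lit 2770038601) (nat_lit 0) (nat_lit 237637150) (nat_lit 1092) (nat_lit 3948134440) (nat_lit 474) (nat_lit 5) (nat_lit 473) (nat_lit 5) (nat_lit 486) (nat_lit 5) (nat_lit 261) (nat_lit 248) (nat_lit 211)))) (XT.nd (nat_lit 188) (nat_lit 0) (nat_lit 0) (XT.nd (nat_lit 94) (nat_lit 1092) (nat_lit 0) (XT.lf (nat_lit 0) (nat_lit 5236828168) (nat_lit 1008) (nat_lit 280226540) (nat_lit 1092) (nat_lit 1477809435) (nat_lit 474) (nat_lit 5) (nat_lit 486) (nat_lit 5) (nat_lit 487) (nat_lit 5) (nat_lit 262) (nat_lit 248) (nat_lit 210)) (XT.lf (nat_lit 0) (nat_lit 446032809) (nat_lit 1092) (nat_lit 3312782767) (nat_lit 1176) (nat_lit 3276486931) (nat_lit 461) (nat_lit 5) (nat_lit 474) (nat_lit 5) (nat_lit 475) (nat_lit 5) (nat_lit 263) (nat_lit 248) (nat_lit 209))) (XT.nd (nat_lit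 94) (nat_lit 0) (nat_lit 0) (XT.lf (nat_lit 84) (nat_lit 700308732) (nat_lit 0) (nat_lit 1924641350) (nat_lit 1176) (nat_lit 4452449647) (nat_lit 462) (nat_lit 5) (nat_lit 461) (nat_lit 5) (nat_lit 475) (nat_lit 5) (nat_lit 264) (nat_lit 248) (nat_lit 208)) (XT.lf (nat_lit 84) (nat_lit 4813547904) (nat_lit 0) (nat_lit 8801394) (nat_lit 1176) (nat_lit 2298721784) (nat_lit 462) (nat_lit 5) (nat_lit 461) (nat_lit 5) (nat_lit 475) (nat_lit 5) (nat_lit 265) (nat_lit 248) (nat_lit 207))))) (XT.nd (nat_lit 376) (nat_lit 2940) (nat_lit 0) (XT.nd (nat_lit 188) (nat_lit 2436) (nat_lit 0) (XT.nd (nat_lit 94) (nat_lit 84) (nat_lit 0) (XT.lf (nat_lit 0) (nat_lit 1825907521) (nat_lit 1092) (nat_lit 5216425543) (nat_lit 1176) (nat_lit 123936823) (nat_lit 449) (nat_lit 5) (nat_lit 462) (nat_lit 5) (nat_lit 463) (nat_lit 5) (nat_lit 266) (nat_lit 248) (nat_lit 206)) (XT.lf (nat_lit 0) (nat_lit 2033535758) (nat_lit 1176)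 (nat_lit 1181057816) (nat_lit 84) (nat_lit 3998309057) (nat_lit 448) (nat_lit 5) (nat_lit 462) (nat_lit 5) (nat_lit 449) (nat_lit 5) (nat_lit 267) (nat_lit 248) (nat_lit 205))) (XT.nd (nat_lit 94) (nat_lit 1260) (nat_lit 0) (XT.lf (nat_lit 0) (nat_lit 3075406049) (nat_lit 1176) (nat_lit 1132109963) (nat_lit 1260) (nat_lit 3053666348) (nat_lit 434) (nat_lit 5) (nat_lit 448) (nat_lit 5) (nat_lit 449) (nat_lit 5) (nat_lit 268) (nat_lit 248) (nat_lit 204)) (XT.lf (nat_lit 0) (nat_lit 88269525) (nat_lit 1260) (nat_lit 6307449712) (nat_lit 1344) (nat_lit 915544306) (nat_lit 419) (nat_lit 5) (nat_lit 434) (nat_lit 5) (nat_lit 435) (nat_lit 5) (nat_lit 269) (nat_lit 248) (nat_lit 203)))) (XT.nd (nat_lit 188) (nat_lit 1512) (nat_lit 0) (XT.nd (nat_lit 94) (nat_lit 1344) (nat_lit 0) (XT.lf (nat_lit 0) (nat_lit 1241044027) (nat_lit 1344) (nat_lit 2899525028) (nat_lit 84) (nat_lit 3221904782) (nat_lit 418) (nat_lit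 5) (nat_lit 434) (nat_lit 5) (nat_lit 419) (nat_lit 5) (nat_lit 270) (nat_lit 248) (nat_lit 202)) (XT.lf (nat_lit 0) (nat_lit 1495671664) (nat_lit 1344) (nat_lit 1897981830) (nat_lit 1428) (nat_lit 4021845466) (nat_lit 402) (nat_lit 5) (nat_lit 418) (nat_lit 5) (nat_lit 419) (nat_lit 5) (nat_lit 271) (nat_lit 248) (nat_lit 201))) (XT.nd (nat_lit 94) (nat_lit 1512) (nat_lit 0) (XT.lf (nat_lit 0) (nat_lit 5570243976) (nat_lit 1428) (nat_lit 1480425542) (nat_lit 84) (nat_lit 419535397) (nat_lit 402) (nat_lit 5) (nat_lit 419) (nat_lit 5) (nat_lit 403) (nat_lit 5) (nat_lit 272) (nat_lit 248) (nat_lit 200)) (XT.lf (nat_lit 0) (nat_lit 253459602) (nat_lit 1512) (nat_lit 4479728772) (nat_lit 84) (nat_lit 2793132021) (nat_lit 384) (nat_lit 5) (nat_lit 402) (nat_lit 5) (nat_lit 385) (nat_lit 5) (nat_lit 273) (nat_lit 248) (nat_lit 199))))))))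
noncomputable def xc32 : XT := (XT.nd (nat_lit 2820) (nat_lit 4284) (nat_lit 0) (XT.nd (nat_lit 1410) (nat_lit 7896) (nat_lit 0) (XT.nd (nat_lit 658) (nat_lit 5880) (nat_lit 0) (XT.nd (nat_lit 282) (nat_lit 3528) (nat_lit 0) (XT.nd (nat_lit 94) (nat_lit 1596) (nat_lit 0) (XT.lf (nat_lit 0) (nat_lit 60169046) (nat_lit 1512) (nat_lit 2331235053) (nat_lit 1596) (nat_lit 5192729464) (nat_lit 366) (nat_lit 5) (nat_lit 384) (nat_lit 5) (nat_lit 385) (nat_lit 5) (nat_lit 274) (nat_lit 248) (nat_lit 198)) (XT.nd (nat_lit 94) (nat_lit 1596) (nat_lit 0) (XT.lf (nat_lit 0) (nat_lit 4565041460) (nat_lit 1596) (nat_lit 2916206838) (nat_lit 84) (nat_lit 162219844) (nat_lit 366) (nat_lit 5) (nat_lit 385) (nat_lit 5) (nat_lit 367) (nat_lit 5) (nat_lit 275) (nat_lit 248) (nat_lit 197)) (XT.lf (nat_lit 0) (nat_lit 1762743224) (nat_lit 1596) (nat_lit 5008712158) (nat_lit 1680) (nat_lit 932983656) (nat_lit 347) (nat_lit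 5) (nat_lit 366) (nat_lit 5) (nat_lit 367) (nat_lit 5) (nat_lit 276) (nat_lit 248) (nat_lit 196)))) (XT.nd (nat_lit 188) (nat_lit 1764) (nat_lit 0) (XT.nd (nat_lit 94) (nat_lit 1680) (nat_lit 0) (XT.lf (nat_lit 0) (nat_lit 1219008777) (nat_lit 1680) (nat_lit 1226186015) (nat_lit 84) (nat_lit 5321854260) (nat_lit 346) (nat_lit 5) (nat_lit 366) (nat_lit 5) (nat_lit 347) (nat_lit 5) (nat_lit 277) (nat_lit 248) (nat_lit 195)) (XT.lf (nat_lit 0) (nat_lit 3388519786) (nat_lit 1764) (nat_lit 4232791729) (nat_lit 84) (nat_lit 209929561) (nat_lit 326) (nat_lit 5) (nat_lit 347) (nat_lit 5) (nat_lit 327) (nat_lit 5) (nat_lit 278) (nat_lit 248) (nat_lit 194))) (XT.nd (nat_lit 94) (nat_lit 0) (nat_lit 0) (XT.lf (nat_lit 0) (nat_lit 602890960) (nat_lit 1764) (nat_lit 4991530132) (nat_lit 1848) (nat_lit 2302673691) (nat_lit 305) (nat_lit 5) (nat_lit 326) (nat_lit 5) (nat_lit 327) (nat_lit 5) (nat_lit 279) (nat_lit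 248) (nat_lit 193)) (XT.lf (nat_lit 0) (nat_lit 5569637007) (nat_lit 1764) (nat_lit 2268564292) (nat_lit 1848) (nat_lit 126430291) (nat_lit 305) (nat_lit 5) (nat_lit 326) (nat_lit 5) (nat_lit 327) (nat_lit 5) (nat_lit 280) (nat_lit 248) (nat_lit 192))))) (XT.nd (nat_lit 376) (nat_lit 1848) (nat_lit 0) (XT.nd (nat_lit 188) (nat_lit 2100) (nat_lit 0) (XT.nd (nat_lit 94) (nat_lit 0) (nat_lit 0) (XT.lf (nat_lit 0) (nat_lit 2048586197) (nat_lit 1932) (nat_lit 5441621507) (nat_lit 84) (nat_lit 543533371) (nat_lit 282) (nat_lit 5) (nat_lit 305) (nat_lit 5) (nat_lit 283) (nat_lit 5) (nat_lit 281) (nat_lit 248) (nat_lit 191)) (XT.lf (nat_lit 0) (nat_lit 4263251297) (nat_lit 1932) (nat_lit 435776635) (nat_lit 84) (nat_lit 3405462282) (nat_lit 282) (nat_lit 5) (nat_lit 305) (nat_lit 5) (nat_lit 283) (nat_lit 5) (nat_lit 282) (nat_lit 248) (nat_lit 190))) (XT.nd (nat_lit 94) (nat_lit 1008) (nat_lit 0) (XT.lf (nat_lit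 0) (nat_lit 4709922655) (nat_lit 1092) (nat_lit 1810467113) (nat_lit 1176) (nat_lit 1656543551) (nat_lit 269) (nat_lit 5) (nat_lit 282) (nat_lit 5) (nat_lit 283) (nat_lit 5) (nat_lit 283) (nat_lit 248) (nat_lit 189)) (XT.lf (nat_lit 0) (nat_lit 552098100) (nat_lit 1008) (nat_lit 6553218677) (nat_lit 84) (nat_lit 1145911084) (nat_lit 257) (nat_lit 5) (nat_lit 269) (nat_lit 5) (nat_lit 258) (nat_lit 5) (nat_lit 284) (nat_lit 248) (nat_lit 188)))) (XT.nd (nat_lit 188) (nat_lit 924) (nat_lit 0) (XT.nd (nat_lit 94) (nat_lit 924) (nat_lit 0) (XT.lf (nat_lit 0) (nat_lit 2785007252) (nat_lit 1008) (nat_lit 1362577685) (nat_lit 84) (nat_lit 4179305277) (nat_lit 257) (nat_lit 5) (nat_lit 269) (nat_lit 5) (nat_lit 258) (nat_lit 5) (nat_lit 285) (nat_lit 248) (nat_lit 187)) (XT.lf (nat_lit 0) (nat_lit 3961152135) (nat_lit 924) (nat_lit 1096028916) (nat_lit 1008) (nat_lit 3347252993) (nat_lit 246) (nat_lit 5) (nat_lit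 257) (nat_lit 5) (nat_lit 258) (nat_lit 5) (nat_lit 286) (nat_lit 248) (nat_lit 186))) (XT.nd (nat_lit 94) (nat_lit 84) (nat_lit 0) (XT.lf (nat_lit 0) (nat_lit 898648438) (nat_lit 840) (nat_lit 6474112803) (nat_lit 924) (nat_lit 1111067390) (nat_lit 236) (nat_lit 5) (nat_lit 246) (nat_lit 5) (nat_lit 247) (nat_lit 5) (nat_lit 287) (nat_lit 248) (nat_lit 185)) (XT.lf (nat_lit 0) (nat_lit 1161174436) (nat_lit 924) (nat_lit 2195338863) (nat_lit 84) (nat_lit 5208189542) (nat_lit 235) (nat_lit 5) (nat_lit 246) (nat_lit 5) (nat_lit 236) (nat_lit 5) (nat_lit 288) (nat_lit 248) (nat_lit 184)))))) (XT.nd (nat_lit 658) (nat_lit 3780) (nat_lit 0) (XT.nd (nat_lit 282) (nat_lit 2436) (nat_lit 0) (XT.nd (nat_lit 94) (nat_lit 840) (nat_lit 0) (XT.lf (nat_lit 0) (nat_lit 3314599613) (nat_lit 840) (nat_lit 139600307) (nat_lit 924) (nat_lit 5193261133) (nat_lit 225) (nat_lit 5) (nat_lit 235) (nat_lit 5) (nat_lit 236)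 (nat_lit 5) (nat_lit 289) (nat_lit 248) (nat_lit 183)) (XT.nd (nat_lit 94) (nat_lit 0) (nat_lit 0) (XT.lf (nat_lit 0) (nat_lit 188398975) (nat_lit 840) (nat_lit 5613413358) (nat_lit 924) (nat_lit 2930136523) (nat_lit 215) (nat_lit 5) (nat_lit 225) (nat_lit 5) (nat_lit 226) (nat_lit 5) (nat_lit 290) (nat_lit 248) (nat_lit 182)) (XT.lf (nat_lit 0) (nat_lit 5871389122) (nat_lit 840) (nat_lit 2334623463) (nat_lit 924) (nat_lit 612174119) (nat_lit 215) (nat_lit 5) (nat_lit 225) (nat_lit 5) (nat_lit 226) (nat_lit 5) (nat_lit 291) (nat_lit 248) (nat_lit 181)))) (XT.nd (nat_lit 188) (nat_lit 1512) (nat_lit 0) (XT.nd (nat_lit 94) (nat_lit 0) (nat_lit 0) (XT.lf (nat_lit 0) (nat_lit 1723660340) (nat_lit 924) (nat_lit 6151517827) (nat_lit 84) (nat_lit 1031040346) (nat_lit 204) (nat_lit 5) (nat_lit 215) (nat_lit 5) (nat_lit 205) (nat_lit 5) (nat_lit 292) (nat_lit 248) (nat_lit 180)) (XT.lf (nat_lit 0) (nat_lit 4106304001)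 (nat_lit 924) (nat_lit 430175262) (nat_lit 84) (nat_lit 4459512209) (nat_lit 204) (nat_lit 5) (nat_lit 215) (nat_lit 5) (nat_lit 205) (nat_lit 5) (nat_lit 293) (nat_lit 248) (nat_lit 179))) (XT.nd (nat_lit 94) (nat_lit 756) (nat_lit 0) (XT.lf (nat_lit 0) (nat_lit 5457978913) (nat_lit 756) (nat_lit 1088519446) (nat_lit 840) (nat_lit 2541128159) (nat_lit 195) (nat_lit 5) (nat_lit 204) (nat_lit 5) (nat_lit 205) (nat_lit 5) (nat_lit 294) (nat_lit 248) (nat_lit 178)) (XT.lf (nat_lit 0) (nat_lit 2278232127) (nat_lit 756) (nat_lit 6765605798) (nat_lit 840) (nat_lit 137363472) (nat_lit 186) (nat_lit 5) (nat_lit 195) (nat_lit 5) (nat_lit 196) (nat_lit 5) (nat_lit 295) (nat_lit 248) (nat_lit 177))))) (XT.nd (nat_lit 376) (nat_lit 2100) (nat_lit 0) (XT.nd (nat_lit 188) (nat_lit 840) (nat_lit 0) (XT.nd (nat_lit 94) (nat_lit 756) (nat_lit 0) (XT.lf (nat_lit 0) (nat_lit 2287701545) (nat_lit 840) (nat_lit 968900225)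 (nat_lit 84) (nat_lit 6019829596) (nat_lit 185) (nat_lit 5) (nat_lit 195) (nat_lit 5) (nat_lit 186) (nat_lit 5) (nat_lit 296) (nat_lit 248) (nat_lit 176)) (XT.lf (nat_lit 0) (nat_lit 4770837152) (nat_lit 840) (nat_lit 4245089538) (nat_lit 84) (nat_lit 357659402) (nat_lit 176) (nat_lit 5) (nat_lit 186) (nat_lit 5) (nat_lit 177) (nat_lit 5) (nat_lit 297) (nat_lit 248) (nat_lit 175))) (XT.nd (nat_lit 94) (nat_lit 84) (nat_lit 0) (XT.lf (nat_lit 0) (nat_lit 1867037721) (nat_lit 756) (nat_lit 5453780738) (nat_lit 840) (nat_lit 2151790994) (nat_lit 167) (nat_lit 5) (nat_lit 176) (nat_lit 5) (nat_lit 177) (nat_lit 5) (nat_lit 298) (nat_lit 248) (nat_lit 174)) (XT.lf (nat_lit 0) (nat_lit 347778175) (nat_lit 840) (nat_lit 1436902617) (nat_lit 84) (nat_lit 7789080137) (nat_lit 166) (nat_lit 5) (nat_lit 176) (nat_lit 5) (nat_lit 167) (nat_lit 5) (nat_lit 299) (nat_lit 248) (nat_lit 173)))) (XT.nd (nat_lit 188)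 (nat_lit 756) (nat_lit 0) (XT.nd (nat_lit 94) (nat_lit 672) (nat_lit 0) (XT.lf (nat_lit 0) (nat_lit 2888658222) (nat_lit 756) (nat_lit 4806114571) (nat_lit 84) (nat_lit 1981624429) (nat_lit 158) (nat_lit 5) (nat_lit 167) (nat_lit 5) (nat_lit 159) (nat_lit 5) (nat_lit 300) (nat_lit 248) (nat_lit 172)) (XT.lf (nat_lit 0) (nat_lit 1527953086) (nat_lit 672) (nat_lit 3961290063) (nat_lit 756) (nat_lit 4291964644) (nat_lit 150) (nat_lit 5) (nat_lit 158) (nat_lit 5) (nat_lit 159) (nat_lit 5) (nat_lit 301) (nat_lit 248) (nat_lit 171))) (XT.nd (nat_lit 94) (nat_lit 756) (nat_lit 0) (XT.lf (nat_lit 0) (nat_lit 8035809185) (nat_lit 672) (nat_lit 116365982) (nat_lit 756) (nat_lit 1736036076) (nat_lit 150) (nat_lit 5) (nat_lit 158) (nat_lit 5) (nat_lit 159) (nat_lit 5) (nat_lit 302) (nat_lit 248) (nat_lit 170)) (XT.lf (nat_lit 0) (nat_lit 894556178) (nat_lit 756) (nat_lit 5310803098) (nat_lit 84) (nat_lit 3791389046)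 (nat_lit 141) (nat_lit 5) (nat_lit 150) (nat_lit 5) (nat_lit 142) (nat_lit 5) (nat_lit 303) (nat_lit 248) (nat_lit 169))))))) (XT.nd (nat_lit 40514) (nat_lit 0) (nat_lit 28896) (XT.nd (nat_lit 658) (nat_lit 1176) (nat_lit 0) (XT.nd (nat_lit 282) (nat_lit 1848) (nat_lit 0) (XT.nd (nat_lit 94) (nat_lit 588) (nat_lit 0) (XT.lf (nat_lit 0) (nat_lit 1255623402) (nat_lit 672) (nat_lit 2295820586) (nat_lit 756) (nat_lit 6556083692) (nat_lit 133) (nat_lit 5) (nat_lit 141) (nat_lit 5) (nat_lit 142) (nat_lit 5) (nat_lit 304) (nat_lit 248) (nat_lit 168)) (XT.nd (nat_lit 94) (nat_lit 588) (nat_lit 0) (XT.lf (nat_lit 0) (nat_lit 6289125211) (nat_lit 756) (nat_lit 2224069376) (nat_lit 84) (nat_lit 1707058075) (nat_lit 133) (nat_lit 5) (nat_lit 142) (nat_lit 5) (nat_lit 134) (nat_lit 5) (nat_lit 305) (nat_lit 248) (nat_lit 167)) (XT.lf (nat_lit 0) (nat_lit 4561754057) (nat_lit 588) (nat_lit 4545840909) (nat_lit 672)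 (nat_lit 1227410318) (nat_lit 126) (nat_lit 5) (nat_lit 133) (nat_lit 5) (nat_lit 134) (nat_lit 5) (nat_lit 306) (nat_lit 248) (nat_lit 166)))) (XT.nd (nat_lit 188) (nat_lit 1176) (nat_lit 0) (XT.nd (nat_lit 94) (nat_lit 0) (nat_lit 0) (XT.lf (nat_lit 0) (nat_lit 1045191553) (nat_lit 588) (nat_lit 463971287) (nat_lit 672) (nat_lit 8942978069) (nat_lit 118) (nat_lit 5) (nat_lit 125) (nat_lit 5) (nat_lit 126) (nat_lit 5) (nat_lit 307) (nat_lit 248) (nat_lit 165)) (XT.lf (nat_lit 0) (nat_lit 4329030659) (nat_lit 672) (nat_lit 2543963257) (nat_lit 84) (nat_lit 3697757555) (nat_lit 118) (nat_lit 5) (nat_lit 126) (nat_lit 5) (nat_lit 119) (nat_lit 5) (nat_lit 308) (nat_lit 248) (nat_lit 164))) (XT.nd (nat_lit 94) (nat_lit 588) (nat_lit 0) (XT.lf (nat_lit 0) (nat_lit 4494918267) (nat_lit 588) (nat_lit 2723813720) (nat_lit 672) (nat_lit 3473067957) (nat_lit 111) (nat_lit 5) (nat_lit 118) (nat_lit 5) (nat_lit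 119) (nat_lit 5) (nat_lit 309) (nat_lit 248) (nat_lit 163)) (XT.lf (nat_lit 0) (nat_lit 876509442) (nat_lit 588) (nat_lit 9304144794) (nat_lit 672) (nat_lit 634667002) (nat_lit 104) (nat_lit 5) (nat_lit 111) (nat_lit 5) (nat_lit 112) (nat_lit 5) (nat_lit 310) (nat_lit 248) (nat_lit 162))))) (XT.nd (nat_lit 39480) (nat_lit 0) (nat_lit 33936) (XT.nd (nat_lit 188) (nat_lit 588) (nat_lit 0) (XT.nd (nat_lit 94) (nat_lit 504) (nat_lit 0) (XT.lf (nat_lit 0) (nat_lit 2272278354) (nat_lit 672) (nat_lit 2815649783) (nat_lit 84) (nat_lit 5852424453) (nat_lit 103) (nat_lit 5) (nat_lit 111) (nat_lit 5) (nat_lit 104) (nat_lit 5) (nat_lit 311) (nat_lit 248) (nat_lit 161)) (XT.lf (nat_lit 0) (nat_lit 4488180529) (nat_lit 504) (nat_lit 751014515) (nat_lit 588) (nat_lit 5828720001) (nat_lit 97) (nat_lit 5) (nat_lit 103) (nat_lit 5) (nat_lit 104) (nat_lit 5) (nat_lit 312) (nat_lit 248) (nat_lit 160))) (XT.nd (nat_lit 39198)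 (nat_lit 0) (nat_lit 35532) (XT.lf (nat_lit 0) (nat_lit 744961530) (nat_lit 588) (nat_lit 7552540995) (nat_lit 672) (nat_lit 2900206740) (nat_lit 90) (nat_lit 5) (nat_lit 97) (nat_lit 5) (nat_lit 98) (nat_lit 5) (nat_lit 313) (nat_lit 248) (nat_lit 159)) (XT.lf (nat_lit 0) (nat_lit 2306352131) (nat_lit 756) (nat_lit 503713293) (nat_lit 756) (nat_lit 503713293) (nat_lit 513) (nat_lit 3) (nat_lit 522) (nat_lit 3) (nat_lit 522) (nat_lit 5) (nat_lit 249) (nat_lit 249) (nat_lit 222)))) (XT.nd (nat_lit 188) (nat_lit 840) (nat_lit 0) (XT.nd (nat_lit 94) (nat_lit 0) (nat_lit 0) (XT.lf (nat_lit 0) (nat_lit 350147916) (nat_lit 756) (nat_lit 4311437561) (nat_lit 840) (nat_lit 1987322165) (nat_lit 504) (nat_lit 5) (nat_lit 513) (nat_lit 3) (nat_lit 514) (nat_lit 5) (nat_lit 250) (nat_lit 249) (nat_lit 221)) (XT.lf (nat_lit 0) (nat_lit 2677329886) (nat_lit 756) (nat_lit 949985669) (nat_lit 840) (nat_lit 3044413490)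 (nat_lit 504) (nat_lit 5) (nat_lit 513) (nat_lit 3) (nat_lit 514) (nat_lit 5) (nat_lit 251) (nat_lit 249) (nat_lit 220))) (XT.nd (nat_lit 94) (nat_lit 840) (nat_lit 0) (XT.lf (nat_lit 84) (nat_lit 2486297064) (nat_lit 0) (nat_lit 2520894547) (nat_lit 840) (nat_lit 1688928310) (nat_lit 505) (nat_lit 5) (nat_lit 504) (nat_lit 5) (nat_lit 514) (nat_lit 5) (nat_lit 252) (nat_lit 249) (nat_lit 219)) (XT.lf (nat_lit 0) (nat_lit 599196530) (nat_lit 840) (nat_lit 748967734) (nat_lit 924) (nat_lit 5374064587) (nat_lit 494) (nat_lit 5) (nat_lit 504) (nat_lit 5) (nat_lit 505) (nat_lit 5) (nat_lit 253) (nat_lit 249) (nat_lit 218)))))) (XT.nd (nat_lit 658) (nat_lit 3276) (nat_lit 0) (XT.nd (nat_lit 282) (nat_lit 924) (nat_lit 0) (XT.nd (nat_lit 94) (nat_lit 840) (nat_lit 0) (XT.lf (nat_lit 84) (nat_lit 2780915287) (nat_lit 0) (nat_lit 87579671) (nat_lit 924) (nat_lit 3881121414) (nat_lit 495) (nat_lit 5) (nat_lit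 494) (nat_lit 5) (nat_lit 505) (nat_lit 5) (nat_lit 254) (nat_lit 249) (nat_lit 217)) (XT.nd (nat_lit 94) (nat_lit 924) (nat_lit 0) (XT.lf (nat_lit 0) (nat_lit 5139065895) (nat_lit 840) (nat_lit 422641634) (nat_lit 924) (nat_lit 1216969234) (nat_lit 495) (nat_lit 5) (nat_lit 505) (nat_lit 5) (nat_lit 506) (nat_lit 5) (nat_lit 255) (nat_lit 249) (nat_lit 216)) (XT.lf (nat_lit 0) (nat_lit 603645897) (nat_lit 924) (nat_lit 3601947943) (nat_lit 1008) (nat_lit 2603520714) (nat_lit 484) (nat_lit 5) (nat_lit 495) (nat_lit 5) (nat_lit 496) (nat_lit 5) (nat_lit 256) (nat_lit 249) (nat_lit 215)))) (XT.nd (nat_lit 188) (nat_lit 924) (nat_lit 0) (XT.nd (nat_lit 94) (nat_lit 0) (nat_lit 0) (XT.lf (nat_lit 84) (nat_lit 35483409) (nat_lit 0) (nat_lit 2779239169) (nat_lit 1008) (nat_lit 4026499526) (nat_lit 485) (nat_lit 5) (nat_lit 484) (nat_lit 5) (nat_lit 496) (nat_lit 5) (nat_lit 257) (nat_lit 249) (nat_lit 214))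 (XT.lf (nat_lit 84) (nat_lit 3770936329) (nat_lit 0) (nat_lit 1270371653) (nat_lit 1008) (nat_lit 1833457006) (nat_lit 485) (nat_lit 5) (nat_lit 484) (nat_lit 5) (nat_lit 496) (nat_lit 5) (nat_lit 258) (nat_lit 249) (nat_lit 213))) (XT.nd (nat_lit 94) (nat_lit 0) (nat_lit 0) (XT.lf (nat_lit 0) (nat_lit 349863392) (nat_lit 1008) (nat_lit 6262235075) (nat_lit 1092) (nat_lit 298029527) (nat_lit 473) (nat_lit 5) (nat_lit 485) (nat_lit 5) (nat_lit 486) (nat_lit 5) (nat_lit 259) (nat_lit 249) (nat_lit 212)) (XT.lf (nat_lit 0) (nat_lit 2528861690) (nat_lit 1008) (nat_lit 2477078210) (nat_lit 1092) (nat_lit 1940593506) (nat_lit 473) (nat_lit 5) (nat_lit 485) (nat_lit 5) (nat_lit 486) (nat_lit 5) (nat_lit 260) (nat_lit 249) (nat_lit 211))))) (XT.nd (nat_lit 376) (nat_lit 2268) (nat_lit 0) (XT.nd (nat_lit 188) (nat_lit 1008) (nat_lit 0) (XT.nd (nat_lit 94) (nat_lit 0) (nat_lit 0) (XT.lf (nat_lit 84) (nat_lit 1374893145)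 (nat_lit 0) (nat_lit 3334233116) (nat_lit 1092) (nat_lit 2275640254) (nat_lit 474) (nat_lit 5) (nat_lit 473) (nat_lit 5) (nat_lit 486) (nat_lit 5) (nat_lit 261) (nat_lit 249) (nat_lit 210)) (XT.lf (nat_lit 84) (nat_lit 5312603723) (nat_lit 0) (nat_lit 1587543139) (nat_lit 1092) (nat_lit 124512503) (nat_lit 474) (nat_lit 5) (nat_lit 473) (nat_lit 5) (nat_lit 486) (nat_lit 5) (nat_lit 262) (nat_lit 249) (nat_lit 209))) (XT.nd (nat_lit 94) (nat_lit 0) (nat_lit 0) (XT.lf (nat_lit 0) (nat_lit 2007176565) (nat_lit 1092) (nat_lit 4814550666) (nat_lit 1176) (nat_lit 244189247) (nat_lit 461) (nat_lit 5) (nat_lit 474) (nat_lit 5) (nat_lit 475) (nat_lit 5) (nat_lit 263) (nat_lit 249) (nat_lit 208)) (XT.lf (nat_lit 0) (nat_lit 4154569469) (nat_lit 1092) (nat_lit 829881892) (nat_lit 1176) (nat_lit 2124255875) (nat_lit 461) (nat_lit 5) (nat_lit 474) (nat_lit 5) (nat_lit 475) (nat_lit 5) (nat_lit 264) (nat_lit 249)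 (nat_lit 207)))) (XT.nd (nat_lit 188) (nat_lit 1092) (nat_lit 0) (XT.nd (nat_lit 94) (nat_lit 1176) (nat_lit 0) (XT.lf (nat_lit 84) (nat_lit 3253026133) (nat_lit 0) (nat_lit 3066850369) (nat_lit 1176) (nat_lit 833208114) (nat_lit 462) (nat_lit 5) (nat_lit 461) (nat_lit 5) (nat_lit 475) (nat_lit 5) (nat_lit 265) (nat_lit 249) (nat_lit 206)) (XT.lf (nat_lit 84) (nat_lit 196352314) (nat_lit 0) (nat_lit 1074380578) (nat_lit 1260) (nat_lit 5928473752) (nat_lit 448) (nat_lit 5) (nat_lit 447) (nat_lit 5) (nat_lit 462) (nat_lit 5) (nat_lit 266) (nat_lit 249) (nat_lit 205))) (XT.nd (nat_lit 94) (nat_lit 1176) (nat_lit 0) (XT.lf (nat_lit 0) (nat_lit 3393525379) (nat_lit 1176) (nat_lit 2855443623) (nat_lit 84) (nat_lit 997574654) (nat_lit 448) (nat_lit 5) (nat_lit 462) (nat_lit 5) (nat_lit 449) (nat_lit 5) (nat_lit 267) (nat_lit 249) (nat_lit 204)) (XT.lf (nat_lit 0) (nat_lit 1358022140) (nat_lit 1176) (nat_lit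 4172551587) (nat_lit 1260) (nat_lit 1765062160) (nat_lit 434) (nat_lit 5) (nat_lit 448) (nat_lit 5) (nat_lit 449) (nat_lit 5) (nat_lit 268) (nat_lit 249) (nat_lit 203))))))))
noncomputable def xc33 : XT := (XT.nd (nat_lit 2820) (nat_lit 6132) (nat_lit 0) (XT.nd (nat_lit 1410) (nat_lit 7812) (nat_lit 0) (XT.nd (nat_lit 658) (nat_lit 8148) (nat_lit 0) (XT.nd (nat_lit 282) (nat_lit 4368) (nat_lit 0) (XT.nd (nat_lit 94) (nat_lit 1260) (nat_lit 0) (XT.lf (nat_lit 0) (nat_lit 335277231) (nat_lit 1260) (nat_lit 1678676913) (nat_lit 84) (nat_lit 5332417469) (nat_lit 433) (nat_lit 5) (nat_lit 448) (nat_lit 5) (nat_lit 434) (nat_lit 5) (nat_lit 269) (nat_lit 249) (nat_lit 202)) (XT.nd (nat_lit 94) (nat_lit 0) (nat_lit 0) (XT.lf (nat_lit 0) (nat_lit 2428076175) (nat_lit 1344) (nat_lit 4737390312) (nat_lit 84) (nat_lit 233085204) (nat_lit 418) (nat_lit 5) (nat_lit 434) (nat_lit 5) (nat_lit 419) (nat_lit 5) (nat_lit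 270) (nat_lit 249) (nat_lit 201)) (XT.lf (nat_lit 0) (nat_lit 4546512941) (nat_lit 1344) (nat_lit 382253462) (nat_lit 84) (nat_lit 2523562208) (nat_lit 418) (nat_lit 5) (nat_lit 434) (nat_lit 5) (nat_lit 419) (nat_lit 5) (nat_lit 271) (nat_lit 249) (nat_lit 200)))) (XT.nd (nat_lit 188) (nat_lit 1512) (nat_lit 0) (XT.nd (nat_lit 94) (nat_lit 1512) (nat_lit 0) (XT.lf (nat_lit 0) (nat_lit 4090983371) (nat_lit 1344) (nat_lit 2603181901) (nat_lit 1428) (nat_lit 813505934) (nat_lit 402) (nat_lit 5) (nat_lit 418) (nat_lit 5) (nat_lit 419) (nat_lit 5) (nat_lit 272) (nat_lit 249) (nat_lit 199)) (XT.lf (nat_lit 0) (nat_lit 1073124519) (nat_lit 1428) (nat_lit 196994529) (nat_lit 1512) (nat_lit 6294688615) (nat_lit 384) (nat_lit 5) (nat_lit 401) (nat_lit 5) (nat_lit 402) (nat_lit 5) (nat_lit 273) (nat_lit 249) (nat_lit 198))) (XT.nd (nat_lit 94) (nat_lit 1512) (nat_lit 0) (XT.lf (nat_lit 0) (nat_lit 3383813491)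 (nat_lit 1512) (nat_lit 1969961696) (nat_lit 84) (nat_lit 2269379145) (nat_lit 384) (nat_lit 5) (nat_lit 402) (nat_lit 5) (nat_lit 385) (nat_lit 5) (nat_lit 274) (nat_lit 249) (nat_lit 197)) (XT.lf (nat_lit 0) (nat_lit 2650962669) (nat_lit 1512) (nat_lit 2869010227) (nat_lit 1596) (nat_lit 2163340530) (nat_lit 366) (nat_lit 5) (nat_lit 384) (nat_lit 5) (nat_lit 385) (nat_lit 5) (nat_lit 275) (nat_lit 249) (nat_lit 196))))) (XT.nd (nat_lit 376) (nat_lit 4788) (nat_lit 0) (XT.nd (nat_lit 188) (nat_lit 1680) (nat_lit 0) (XT.nd (nat_lit 94) (nat_lit 1680) (nat_lit 0) (XT.lf (nat_lit 0) (nat_lit 7366213514) (nat_lit 1512) (nat_lit 307804197) (nat_lit 1596) (nat_lit 71418733) (nat_lit 366) (nat_lit 5) (nat_lit 384) (nat_lit 5) (nat_lit 385) (nat_lit 5) (nat_lit 276) (nat_lit 249) (nat_lit 195)) (XT.lf (nat_lit 0) (nat_lit 2041820155) (nat_lit 1680) (nat_lit 3437531136) (nat_lit 84) (nat_lit 2329139722) (nat_lit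 346) (nat_lit 5) (nat_lit 366) (nat_lit 5) (nat_lit 347) (nat_lit 5) (nat_lit 277) (nat_lit 249) (nat_lit 194))) (XT.nd (nat_lit 94) (nat_lit 0) (nat_lit 0) (XT.lf (nat_lit 0) (nat_lit 1337620434) (nat_lit 1680) (nat_lit 2835147523) (nat_lit 1764) (nat_lit 3700763471) (nat_lit 326) (nat_lit 5) (nat_lit 346) (nat_lit 5) (nat_lit 347) (nat_lit 5) (nat_lit 278) (nat_lit 249) (nat_lit 193)) (XT.lf (nat_lit 0) (nat_lit 6232131302) (nat_lit 1680) (nat_lit 102181794) (nat_lit 1764) (nat_lit 1606047874) (nat_lit 326) (nat_lit 5) (nat_lit 346) (nat_lit 5) (nat_lit 347) (nat_lit 5) (nat_lit 279) (nat_lit 249) (nat_lit 192)))) (XT.nd (nat_lit 188) (nat_lit 1092) (nat_lit 0) (XT.nd (nat_lit 94) (nat_lit 1848) (nat_lit 0) (XT.lf (nat_lit 0) (nat_lit 528387941) (nat_lit 1848) (nat_lit 4796808587) (nat_lit 84) (nat_lit 2683350983) (nat_lit 304) (nat_lit 5) (nat_lit 326) (nat_lit 5) (nat_lit 305) (nat_lit 5) (nat_lit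 280) (nat_lit 249) (nat_lit 191)) (XT.lf (nat_lit 0) (nat_lit 139495985) (nat_lit 1848) (nat_lit 2520668482) (nat_lit 1932) (nat_lit 5418383933) (nat_lit 282) (nat_lit 5) (nat_lit 304) (nat_lit 5) (nat_lit 305) (nat_lit 5) (nat_lit 281) (nat_lit 249) (nat_lit 190))) (XT.nd (nat_lit 94) (nat_lit 1092) (nat_lit 0) (XT.lf (nat_lit 0) (nat_lit 4837191189) (nat_lit 1932) (nat_lit 2934100915) (nat_lit 84) (nat_lit 378833480) (nat_lit 282) (nat_lit 5) (nat_lit 305) (nat_lit 5) (nat_lit 283) (nat_lit 5) (nat_lit 282) (nat_lit 249) (nat_lit 189)) (XT.lf (nat_lit 0) (nat_lit 2156376236) (nat_lit 1092) (nat_lit 4900504555) (nat_lit 1176) (nat_lit 1166511773) (nat_lit 269) (nat_lit 5) (nat_lit 282) (nat_lit 5) (nat_lit 283) (nat_lit 5) (nat_lit 283) (nat_lit 249) (nat_lit 188)))))) (XT.nd (nat_lit 658) (nat_lit 4116) (nat_lit 0) (XT.nd (nat_lit 282) (nat_lit 1764) (nat_lit 0) (XT.nd (nat_lit 94) (nat_lit 1848) (nat_lit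 0) (XT.lf (nat_lit 0) (nat_lit 995521035) (nat_lit 1176) (nat_lit 940190620) (nat_lit 84) (nat_lit 6362768775) (nat_lit 268) (nat_lit 5) (nat_lit 282) (nat_lit 5) (nat_lit 269) (nat_lit 5) (nat_lit 284) (nat_lit 249) (nat_lit 187)) (XT.nd (nat_lit 94) (nat_lit 924) (nat_lit 0) (XT.lf (nat_lit 0) (nat_lit 3188966468) (nat_lit 1008) (nat_lit 4066952833) (nat_lit 84) (nat_lit 1119091684) (nat_lit 257) (nat_lit 5) (nat_lit 269) (nat_lit 5) (nat_lit 258) (nat_lit 5) (nat_lit 285) (nat_lit 249) (nat_lit 186)) (XT.lf (nat_lit 0) (nat_lit 1198520895) (nat_lit 924) (nat_lit 4224515204) (nat_lit 1008) (nat_lit 3030357008) (nat_lit 246) (nat_lit 5) (nat_lit 257) (nat_lit 5) (nat_lit 258) (nat_lit 5) (nat_lit 286) (nat_lit 249) (nat_lit 185)))) (XT.nd (nat_lit 188) (nat_lit 840) (nat_lit 0) (XT.nd (nat_lit 94) (nat_lit 924) (nat_lit 0) (XT.lf (nat_lit 0) (nat_lit 6603508456) (nat_lit 924) (nat_lit 1096068681) (nat_lit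 1008) (nat_lit 834069417) (nat_lit 246) (nat_lit 5) (nat_lit 257) (nat_lit 5) (nat_lit 258) (nat_lit 5) (nat_lit 287) (nat_lit 249) (nat_lit 184)) (XT.lf (nat_lit 0) (nat_lit 1394291569) (nat_lit 924) (nat_lit 5115379002) (nat_lit 84) (nat_lit 2105684392) (nat_lit 235) (nat_lit 5) (nat_lit 246) (nat_lit 5) (nat_lit 236) (nat_lit 5) (nat_lit 288) (nat_lit 249) (nat_lit 183))) (XT.nd (nat_lit 94) (nat_lit 0) (nat_lit 0) (XT.lf (nat_lit 0) (nat_lit 333164902) (nat_lit 840) (nat_lit 3315270532) (nat_lit 924) (nat_lit 5050533136) (nat_lit 225) (nat_lit 5) (nat_lit 235) (nat_lit 5) (nat_lit 236) (nat_lit 5) (nat_lit 289) (nat_lit 249) (nat_lit 182)) (XT.lf (nat_lit 0) (nat_lit 5940934673) (nat_lit 840) (nat_lit 13847338) (nat_lit 924) (nat_lit 2829582211) (nat_lit 225) (nat_lit 5) (nat_lit 235) (nat_lit 5) (nat_lit 236) (nat_lit 5) (nat_lit 290) (nat_lit 249) (nat_lit 181))))) (XT.nd (nat_lit 376) (nat_lit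 1596) (nat_lit 0) (XT.nd (nat_lit 188) (nat_lit 1596) (nat_lit 0) (XT.nd (nat_lit 94) (nat_lit 84) (nat_lit 0) (XT.lf (nat_lit 0) (nat_lit 2779547698) (nat_lit 840) (nat_lit 5541627197) (nat_lit 924) (nat_lit 550258937) (nat_lit 215) (nat_lit 5) (nat_lit 225) (nat_lit 5) (nat_lit 226) (nat_lit 5) (nat_lit 291) (nat_lit 249) (nat_lit 180)) (XT.lf (nat_lit 0) (nat_lit 1740643556) (nat_lit 924) (nat_lit 441407100) (nat_lit 84) (nat_lit 6778374166) (nat_lit 214) (nat_lit 5) (nat_lit 225) (nat_lit 5) (nat_lit 215) (nat_lit 5) (nat_lit 292) (nat_lit 249) (nat_lit 179))) (XT.nd (nat_lit 94) (nat_lit 756) (nat_lit 0) (XT.lf (nat_lit 0) (nat_lit 4087841152) (nat_lit 924) (nat_lit 3690073798) (nat_lit 84) (nat_lit 1273062644) (nat_lit 204) (nat_lit 5) (nat_lit 215) (nat_lit 5) (nat_lit 205) (nat_lit 5) (nat_lit 293) (nat_lit 249) (nat_lit 178)) (XT.lf (nat_lit 0) (nat_lit 2131945789) (nat_lit 756) (nat_lit 4356067483)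 (nat_lit 840) (nat_lit 2655479858) (nat_lit 195) (nat_lit 5) (nat_lit 204) (nat_lit 5) (nat_lit 205) (nat_lit 5) (nat_lit 294) (nat_lit 249) (nat_lit 177)))) (XT.nd (nat_lit 188) (nat_lit 756) (nat_lit 0) (XT.nd (nat_lit 94) (nat_lit 840) (nat_lit 0) (XT.lf (nat_lit 0) (nat_lit 8100568782) (nat_lit 756) (nat_lit 835107143) (nat_lit 840) (nat_lit 302484976) (nat_lit 195) (nat_lit 5) (nat_lit 204) (nat_lit 5) (nat_lit 205) (nat_lit 5) (nat_lit 295) (nat_lit 249) (nat_lit 176)) (XT.lf (nat_lit 0) (nat_lit 2094707232) (nat_lit 840) (nat_lit 4469842964) (nat_lit 84) (nat_lit 2769532076) (nat_lit 185) (nat_lit 5) (nat_lit 195) (nat_lit 5) (nat_lit 186) (nat_lit 5) (nat_lit 296) (nat_lit 249) (nat_lit 175))) (XT.nd (nat_lit 94) (nat_lit 0) (nat_lit 0) (XT.lf (nat_lit 0) (nat_lit 1560629547) (nat_lit 756) (nat_lit 2973518853) (nat_lit 840) (nat_lit 4898049875) (nat_lit 176) (nat_lit 5) (nat_lit 185) (nat_lit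 5) (nat_lit 186) (nat_lit 5) (nat_lit 297) (nat_lit 249) (nat_lit 174)) (XT.lf (nat_lit 0) (nat_lit 7034164408) (nat_lit 840) (nat_lit 1783482113) (nat_lit 84) (nat_lit 714674351) (nat_lit 176) (nat_lit 5) (nat_lit 186) (nat_lit 5) (nat_lit 177) (nat_lit 5) (nat_lit 298) (nat_lit 249) (nat_lit 173))))))) (XT.nd (nat_lit 40702) (nat_lit 0) (nat_lit 28896) (XT.nd (nat_lit 658) (nat_lit 2520) (nat_lit 0) (XT.nd (nat_lit 282) (nat_lit 2100) (nat_lit 0) (XT.nd (nat_lit 94) (nat_lit 756) (nat_lit 0) (XT.lf (nat_lit 0) (nat_lit 4444646116) (nat_lit 756) (nat_lit 5167205563) (nat_lit 840) (nat_lit 22295727) (nat_lit 167) (nat_lit 5) (nat_lit 176) (nat_lit 5) (nat_lit 177) (nat_lit 5) (nat_lit 299) (nat_lit 249) (nat_lit 172)) (XT.nd (nat_lit 94) (nat_lit 0) (nat_lit 0) (XT.lf (nat_lit 0) (nat_lit 1059353085) (nat_lit 672) (nat_lit 1402919023) (nat_lit 756) (nat_lit 7275761020) (nat_lit 158) (nat_lit 5) (nat_lit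 166) (nat_lit 5) (nat_lit 167) (nat_lit 5) (nat_lit 300) (nat_lit 249) (nat_lit 171)) (XT.lf (nat_lit 0) (nat_lit 5027093810) (nat_lit 756) (nat_lit 2374827904) (nat_lit 84) (nat_lit 2441708775) (nat_lit 158) (nat_lit 5) (nat_lit 167) (nat_lit 5) (nat_lit 159) (nat_lit 5) (nat_lit 301) (nat_lit 249) (nat_lit 170)))) (XT.nd (nat_lit 188) (nat_lit 672) (nat_lit 0) (XT.nd (nat_lit 94) (nat_lit 756) (nat_lit 0) (XT.lf (nat_lit 0) (nat_lit 4080253346) (nat_lit 672) (nat_lit 3577914603) (nat_lit 756) (nat_lit 2293166863) (nat_lit 150) (nat_lit 5) (nat_lit 158) (nat_lit 5) (nat_lit 159) (nat_lit 5) (nat_lit 302) (nat_lit 249) (nat_lit 169)) (XT.lf (nat_lit 0) (nat_lit 276899536) (nat_lit 756) (nat_lit 9441585522) (nat_lit 84) (nat_lit 342982250) (nat_lit 141) (nat_lit 5) (nat_lit 150) (nat_lit 5) (nat_lit 142) (nat_lit 5) (nat_lit 303) (nat_lit 249) (nat_lit 168))) (XT.nd (nat_lit 94) (nat_lit 672) (nat_lit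 0) (XT.lf (nat_lit 0) (nat_lit 2910521218) (nat_lit 756) (nat_lit 2911297101) (nat_lit 84) (nat_lit 4350940201) (nat_lit 141) (nat_lit 5) (nat_lit 150) (nat_lit 5) (nat_lit 142) (nat_lit 5) (nat_lit 304) (nat_lit 249) (nat_lit 167)) (XT.lf (nat_lit 0) (nat_lit 3781404330) (nat_lit 672) (nat_lit 1819278330) (nat_lit 756) (nat_lit 4685846277) (nat_lit 133) (nat_lit 5) (nat_lit 141) (nat_lit 5) (nat_lit 142) (nat_lit 5) (nat_lit 305) (nat_lit 249) (nat_lit 166))))) (XT.nd (nat_lit 376) (nat_lit 1260) (nat_lit 0) (XT.nd (nat_lit 188) (nat_lit 588) (nat_lit 0) (XT.nd (nat_lit 94) (nat_lit 84) (nat_lit 0) (XT.lf (nat_lit 0) (nat_lit 213210223) (nat_lit 588) (nat_lit 8148144007) (nat_lit 672) (nat_lit 2041198889) (nat_lit 126) (nat_lit 5) (nat_lit 133) (nat_lit 5) (nat_lit 134) (nat_lit 5) (nat_lit 306) (nat_lit 249) (nat_lit 165)) (XT.lf (nat_lit 0) (nat_lit 685859713) (nat_lit 672) (nat_lit 3398045048) (nat_lit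 84) (nat_lit 6436378699) (nat_lit 125) (nat_lit 5) (nat_lit 133) (nat_lit 5) (nat_lit 126) (nat_lit 5) (nat_lit 307) (nat_lit 249) (nat_lit 164))) (XT.nd (nat_lit 94) (nat_lit 0) (nat_lit 0) (XT.lf (nat_lit 0) (nat_lit 3441554633) (nat_lit 672) (nat_lit 7097604714) (nat_lit 84) (nat_lit 101146477) (nat_lit 118) (nat_lit 5) (nat_lit 126) (nat_lit 5) (nat_lit 119) (nat_lit 5) (nat_lit 308) (nat_lit 249) (nat_lit 163)) (XT.lf (nat_lit 0) (nat_lit 6285881757) (nat_lit 672) (nat_lit 141104772) (nat_lit 84) (nat_lit 4335366001) (nat_lit 118) (nat_lit 5) (nat_lit 126) (nat_lit 5) (nat_lit 119) (nat_lit 5) (nat_lit 309) (nat_lit 249) (nat_lit 162)))) (XT.nd (nat_lit 188) (nat_lit 0) (nat_lit 0) (XT.nd (nat_lit 94) (nat_lit 672) (nat_lit 0) (XT.lf (nat_lit 0) (nat_lit 7034861395) (nat_lit 588) (nat_lit 2181609480) (nat_lit 672) (nat_lit 1670092278) (nat_lit 111) (nat_lit 5) (nat_lit 118) (nat_lit 5) (nat_lit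 119) (nat_lit 5) (nat_lit 310) (nat_lit 249) (nat_lit 161)) (XT.lf (nat_lit 0) (nat_lit 1195026203) (nat_lit 672) (nat_lit 7666720761) (nat_lit 84) (nat_lit 2151258090) (nat_lit 103) (nat_lit 5) (nat_lit 111) (nat_lit 5) (nat_lit 104) (nat_lit 5) (nat_lit 311) (nat_lit 249) (nat_lit 160))) (XT.nd (nat_lit 39386) (nat_lit 0) (nat_lit 33684) (XT.lf (nat_lit 0) (nat_lit 4117095824) (nat_lit 672) (nat_lit 444986885) (nat_lit 84) (nat_lit 6579471437) (nat_lit 103) (nat_lit 5) (nat_lit 111) (nat_lit 5) (nat_lit 104) (nat_lit 5) (nat_lit 312) (nat_lit 249) (nat_lit 159)) (XT.lf (nat_lit 0) (nat_lit 659566652) (nat_lit 0) (nat_lit 659566652) (nat_lit 756) (nat_lit 2016364228) (nat_lit 504) (nat_lit 5) (nat_lit 504) (nat_lit 3) (nat_lit 513) (nat_lit 3) (nat_lit 250) (nat_lit 250) (nat_lit 220)))))) (XT.nd (nat_lit 658) (nat_lit 3024) (nat_lit 0) (XT.nd (nat_lit 282) (nat_lit 924) (nat_lit 0) (XT.nd (nat_lit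 94) (nat_lit 840) (nat_lit 0) (XT.lf (nat_lit 0) (nat_lit 4694779056) (nat_lit 0) (nat_lit 230158427) (nat_lit 756) (nat_lit 1769770228) (nat_lit 504) (nat_lit 5) (nat_lit 504) (nat_lit 3) (nat_lit 513) (nat_lit 3) (nat_lit 251) (nat_lit 250) (nat_lit 219)) (XT.nd (nat_lit 94) (nat_lit 0) (nat_lit 0) (XT.lf (nat_lit 0) (nat_lit 486296458) (nat_lit 840) (nat_lit 5318000691) (nat_lit 924) (nat_lit 915634632) (nat_lit 494) (nat_lit 5) (nat_lit 504) (nat_lit 5) (nat_lit 505) (nat_lit 5) (nat_lit 252) (nat_lit 250) (nat_lit 218)) (XT.lf (nat_lit 0) (nat_lit 2718387561) (nat_lit 840) (nat_lit 1886421325) (nat_lit 924) (nat_lit 2141664724) (nat_lit 494) (nat_lit 5) (nat_lit 504) (nat_lit 5) (nat_lit 505) (nat_lit 5) (nat_lit 253) (nat_lit 250) (nat_lit 217)))) (XT.nd (nat_lit 188) (nat_lit 0) (nat_lit 0) (XT.nd (nat_lit 94) (nat_lit 924) (nat_lit 0) (XT.lf (nat_lit 84) (nat_lit 1609718843) (nat_lit 0) (nat_lit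 3338599197) (nat_lit 924) (nat_lit 1826409184) (nat_lit 495) (nat_lit 5) (nat_lit 494) (nat_lit 5) (nat_lit 505) (nat_lit 5) (nat_lit 254) (nat_lit 250) (nat_lit 216)) (XT.lf (nat_lit 0) (nat_lit 369564533) (nat_lit 924) (nat_lit 1630246885) (nat_lit 1008) (nat_lit 4804781423) (nat_lit 483) (nat_lit 5) (nat_lit 494) (nat_lit 5) (nat_lit 495) (nat_lit 5) (nat_lit 255) (nat_lit 250) (nat_lit 215))) (XT.nd (nat_lit 94) (nat_lit 0) (nat_lit 84) (XT.lf (nat_lit 84) (nat_lit 1963229092) (nat_lit 0) (nat_lit 576983967) (nat_lit 1008) (nat_lit 4295638466) (nat_lit 484) (nat_lit 5) (nat_lit 483) (nat_lit 5) (nat_lit 495) (nat_lit 5) (nat_lit 256) (nat_lit 250) (nat_lit 214)) (XT.lf (nat_lit 0) (nat_lit 4717508021) (nat_lit 924) (nat_lit 1249041231) (nat_lit 1008) (nat_lit 902153021) (nat_lit 484) (nat_lit 5) (nat_lit 495) (nat_lit 5) (nat_lit 496) (nat_lit 5) (nat_lit 257) (nat_lit 250) (nat_lit 213))))) (XT.nd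 (nat_lit 376) (nat_lit 2100) (nat_lit 0) (XT.nd (nat_lit 188) (nat_lit 0) (nat_lit 0) (XT.nd (nat_lit 94) (nat_lit 0) (nat_lit 0) (XT.lf (nat_lit 0) (nat_lit 3033027) (nat_lit 1008) (nat_lit 4452266019) (nat_lit 1092) (nat_lit 2447780228) (nat_lit 472) (nat_lit 5) (nat_lit 484) (nat_lit 5) (nat_lit 485) (nat_lit 5) (nat_lit 258) (nat_lit 250) (nat_lit 212)) (XT.lf (nat_lit 0) (nat_lit 2124668377) (nat_lit 1008) (nat_lit 738133107) (nat_lit 1092) (nat_lit 4076129575) (nat_lit 472) (nat_lit 5) (nat_lit 484) (nat_lit 5) (nat_lit 485) (nat_lit 5) (nat_lit 259) (nat_lit 250) (nat_lit 211))) (XT.nd (nat_lit 94) (nat_lit 0) (nat_lit 84) (XT.lf (nat_lit 84) (nat_lit 3067533937) (nat_lit 0) (nat_lit 1190924486) (nat_lit 1092) (nat_lit 2717872630) (nat_lit 473) (nat_lit 5) (nat_lit 472) (nat_lit 5) (nat_lit 485) (nat_lit 5) (nat_lit 260) (nat_lit 250) (nat_lit 210)) (XT.lf (nat_lit 0) (nat_lit 6393121697) (nat_lit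 1008) (nat_lit 85692946) (nat_lit 1092) (nat_lit 536752747) (nat_lit 473) (nat_lit 5) (nat_lit 485) (nat_lit 5) (nat_lit 486) (nat_lit 5) (nat_lit 261) (nat_lit 250) (nat_lit 209)))) (XT.nd (nat_lit 188) (nat_lit 1092) (nat_lit 0) (XT.nd (nat_lit 94) (nat_lit 0) (nat_lit 0) (XT.lf (nat_lit 0) (nat_lit 1478984519) (nat_lit 1092) (nat_lit 3233409322) (nat_lit 1176) (nat_lit 2343435791) (nat_lit 460) (nat_lit 5) (nat_lit 473) (nat_lit 5) (nat_lit 474) (nat_lit 5) (nat_lit 262) (nat_lit 250) (nat_lit 208)) (XT.lf (nat_lit 84) (nat_lit 690995966) (nat_lit 0) (nat_lit 2878518282) (nat_lit 1176) (nat_lit 3528419035) (nat_lit 461) (nat_lit 5) (nat_lit 460) (nat_lit 5) (nat_lit 474) (nat_lit 5) (nat_lit 263) (nat_lit 250) (nat_lit 207))) (XT.nd (nat_lit 94) (nat_lit 1092) (nat_lit 0) (XT.lf (nat_lit 84) (nat_lit 4715035662) (nat_lit 0) (nat_lit 962256827) (nat_lit 1176) (nat_lit 1464303075) (nat_lit 461) (nat_lit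 5) (nat_lit 460) (nat_lit 5) (nat_lit 474) (nat_lit 5) (nat_lit 264) (nat_lit 250) (nat_lit 206)) (XT.lf (nat_lit 0) (nat_lit 602972442) (nat_lit 1176) (nat_lit 5569138446) (nat_lit 1260) (nat_lit 1014731482) (nat_lit 447) (nat_lit 5) (nat_lit 461) (nat_lit 5) (nat_lit 462) (nat_lit 5) (nat_lit 265) (nat_lit 250) (nat_lit 205))))))))
noncomputable def xc34 : XT := (XT.nd (nat_lit 2820) (nat_lit 7728) (nat_lit 0) (XT.nd (nat_lit 1410) (nat_lit 9156) (nat_lit 0) (XT.nd (nat_lit 658) (nat_lit 8148) (nat_lit 0) (XT.nd (nat_lit 282) (nat_lit 3864) (nat_lit 0) (XT.nd (nat_lit 94) (nat_lit 0) (nat_lit 0) (XT.lf (nat_lit 0) (nat_lit 2668349056) (nat_lit 1176) (nat_lit 1499286886) (nat_lit 1260) (nat_lit 3065782279) (nat_lit 447) (nat_lit 5) (nat_lit 461) (nat_lit 5) (nat_lit 462) (nat_lit 5) (nat_lit 266) (nat_lit 250) (nat_lit 204)) (XT.nd (nat_lit 94) (nat_lit 0) (nat_lit 84) (XT.lf (nat_lit 84) (nat_lit 2663251789)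 (nat_lit 0) (nat_lit 2085095086) (nat_lit 1260) (nat_lit 2533349842) (nat_lit 448) (nat_lit 5) (nat_lit 447) (nat_lit 5) (nat_lit 462) (nat_lit 5) (nat_lit 267) (nat_lit 250) (nat_lit 203)) (XT.lf (nat_lit 0) (nat_lit 6836702183) (nat_lit 1176) (nat_lit 427555567) (nat_lit 84) (nat_lit 67602442) (nat_lit 448) (nat_lit 5) (nat_lit 462) (nat_lit 5) (nat_lit 449) (nat_lit 5) (nat_lit 268) (nat_lit 250) (nat_lit 202)))) (XT.nd (nat_lit 188) (nat_lit 1428) (nat_lit 0) (XT.nd (nat_lit 94) (nat_lit 1260) (nat_lit 0) (XT.lf (nat_lit 0) (nat_lit 1559832027) (nat_lit 1260) (nat_lit 3533908375) (nat_lit 84) (nat_lit 2289251801) (nat_lit 433) (nat_lit 5) (nat_lit 448) (nat_lit 5) (nat_lit 434) (nat_lit 5) (nat_lit 269) (nat_lit 250) (nat_lit 201)) (XT.lf (nat_lit 0) (nat_lit 762580591) (nat_lit 1260) (nat_lit 2851398857) (nat_lit 1344) (nat_lit 3822043166) (nat_lit 418) (nat_lit 5) (nat_lit 433) (nat_lit 5) (nat_lit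 434) (nat_lit 5) (nat_lit 270) (nat_lit 250) (nat_lit 200))) (XT.nd (nat_lit 94) (nat_lit 1428) (nat_lit 0) (XT.lf (nat_lit 0) (nat_lit 5170839951) (nat_lit 1260) (nat_lit 521970793) (nat_lit 1344) (nat_lit 1797860112) (nat_lit 418) (nat_lit 5) (nat_lit 433) (nat_lit 5) (nat_lit 434) (nat_lit 5) (nat_lit 271) (nat_lit 250) (nat_lit 199)) (XT.lf (nat_lit 0) (nat_lit 249575011) (nat_lit 1428) (nat_lit 5437829264) (nat_lit 84) (nat_lit 1859456971) (nat_lit 401) (nat_lit 5) (nat_lit 418) (nat_lit 5) (nat_lit 402) (nat_lit 5) (nat_lit 272) (nat_lit 250) (nat_lit 198))))) (XT.nd (nat_lit 376) (nat_lit 5124) (nat_lit 0) (XT.nd (nat_lit 188) (nat_lit 1596) (nat_lit 0) (XT.nd (nat_lit 94) (nat_lit 1428) (nat_lit 0) (XT.lf (nat_lit 0) (nat_lit 2291519802) (nat_lit 1428) (nat_lit 987194907) (nat_lit 84) (nat_lit 4325814698) (nat_lit 401) (nat_lit 5) (nat_lit 418) (nat_lit 5) (nat_lit 402) (nat_lit 5) (nat_lit 273)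 (nat_lit 250) (nat_lit 197)) (XT.lf (nat_lit 0) (nat_lit 3577411832) (nat_lit 1428) (nat_lit 782300742) (nat_lit 1512) (nat_lit 3304164538) (nat_lit 384) (nat_lit 5) (nat_lit 401) (nat_lit 5) (nat_lit 402) (nat_lit 5) (nat_lit 274) (nat_lit 250) (nat_lit 196))) (XT.nd (nat_lit 94) (nat_lit 84) (nat_lit 0) (XT.lf (nat_lit 0) (nat_lit 491005329) (nat_lit 1512) (nat_lit 5962444813) (nat_lit 1596) (nat_lit 1271519345) (nat_lit 366) (nat_lit 5) (nat_lit 384) (nat_lit 5) (nat_lit 385) (nat_lit 5) (nat_lit 275) (nat_lit 250) (nat_lit 195)) (XT.lf (nat_lit 0) (nat_lit 787304127) (nat_lit 1596) (nat_lit 2604777780) (nat_lit 84) (nat_lit 4395350233) (nat_lit 365) (nat_lit 5) (nat_lit 384) (nat_lit 5) (nat_lit 366) (nat_lit 5) (nat_lit 276) (nat_lit 250) (nat_lit 194)))) (XT.nd (nat_lit 188) (nat_lit 3528) (nat_lit 0) (XT.nd (nat_lit 94) (nat_lit 0) (nat_lit 0) (XT.lf (nat_lit 0) (nat_lit 2111602416) (nat_lit 1596)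 (nat_lit 734038198) (nat_lit 1680) (nat_lit 5006020126) (nat_lit 346) (nat_lit 5) (nat_lit 365) (nat_lit 5) (nat_lit 366) (nat_lit 5) (nat_lit 277) (nat_lit 250) (nat_lit 193)) (XT.lf (nat_lit 0) (nat_lit 4941351551) (nat_lit 1680) (nat_lit 996995813) (nat_lit 84) (nat_lit 1979129002) (nat_lit 346) (nat_lit 5) (nat_lit 366) (nat_lit 5) (nat_lit 347) (nat_lit 5) (nat_lit 278) (nat_lit 250) (nat_lit 192))) (XT.nd (nat_lit 94) (nat_lit 1848) (nat_lit 0) (XT.lf (nat_lit 0) (nat_lit 3865023960) (nat_lit 1680) (nat_lit 3210500357) (nat_lit 1764) (nat_lit 909383783) (nat_lit 326) (nat_lit 5) (nat_lit 346) (nat_lit 5) (nat_lit 347) (nat_lit 5) (nat_lit 279) (nat_lit 250) (nat_lit 191)) (XT.lf (nat_lit 0) (nat_lit 761539927) (nat_lit 1764) (nat_lit 396613641) (nat_lit 1848) (nat_lit 6896082912) (nat_lit 304) (nat_lit 5) (nat_lit 325) (nat_lit 5) (nat_lit 326) (nat_lit 5) (nat_lit 280) (nat_lit 250) (nat_lit 190))))))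 (XT.nd (nat_lit 658) (nat_lit 4284) (nat_lit 0) (XT.nd (nat_lit 282) (nat_lit 3024) (nat_lit 0) (XT.nd (nat_lit 94) (nat_lit 1848) (nat_lit 0) (XT.lf (nat_lit 0) (nat_lit 3266550150) (nat_lit 1848) (nat_lit 2373717183) (nat_lit 84) (nat_lit 2484484395) (nat_lit 304) (nat_lit 5) (nat_lit 326) (nat_lit 5) (nat_lit 305) (nat_lit 5) (nat_lit 281) (nat_lit 250) (nat_lit 189)) (XT.nd (nat_lit 94) (nat_lit 0) (nat_lit 0) (XT.lf (nat_lit 0) (nat_lit 2652910903) (nat_lit 1848) (nat_lit 2751504050) (nat_lit 1932) (nat_lit 2792775520) (nat_lit 282) (nat_lit 5) (nat_lit 304) (nat_lit 5) (nat_lit 305) (nat_lit 5) (nat_lit 282) (nat_lit 250) (nat_lit 188)) (XT.lf (nat_lit 0) (nat_lit 7570299796) (nat_lit 1932) (nat_lit 483307420) (nat_lit 84) (nat_lit 218033942) (nat_lit 282) (nat_lit 5) (nat_lit 305) (nat_lit 5) (nat_lit 283) (nat_lit 5) (nat_lit 283) (nat_lit 250) (nat_lit 187)))) (XT.nd (nat_lit 188) (nat_lit 924)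 (nat_lit 0) (XT.nd (nat_lit 94) (nat_lit 924) (nat_lit 0) (XT.lf (nat_lit 0) (nat_lit 1431771167) (nat_lit 1176) (nat_lit 3656739513) (nat_lit 84) (nat_lit 3258634296) (nat_lit 268) (nat_lit 5) (nat_lit 282) (nat_lit 5) (nat_lit 269) (nat_lit 5) (nat_lit 284) (nat_lit 250) (nat_lit 186)) (XT.lf (nat_lit 0) (nat_lit 1542019152) (nat_lit 924) (nat_lit 2037048064) (nat_lit 1008) (nat_lit 4845623600) (nat_lit 257) (nat_lit 5) (nat_lit 268) (nat_lit 5) (nat_lit 269) (nat_lit 5) (nat_lit 285) (nat_lit 250) (nat_lit 185))) (XT.nd (nat_lit 94) (nat_lit 924) (nat_lit 0) (XT.lf (nat_lit 0) (nat_lit 5772060464) (nat_lit 1008) (nat_lit 1638017993) (nat_lit 84) (nat_lit 1093898163) (nat_lit 257) (nat_lit 5) (nat_lit 269) (nat_lit 5) (nat_lit 258) (nat_lit 5) (nat_lit 286) (nat_lit 250) (nat_lit 184)) (XT.lf (nat_lit 0) (nat_lit 3725094787) (nat_lit 924) (nat_lit 4293899871) (nat_lit 1008) (nat_lit 565886759) (nat_lit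 246) (nat_lit 5) (nat_lit 257) (nat_lit 5) (nat_lit 258) (nat_lit 5) (nat_lit 287) (nat_lit 250) (nat_lit 183))))) (XT.nd (nat_lit 376) (nat_lit 2520) (nat_lit 0) (XT.nd (nat_lit 188) (nat_lit 840) (nat_lit 0) (XT.nd (nat_lit 94) (nat_lit 0) (nat_lit 0) (XT.lf (nat_lit 0) (nat_lit 523062214) (nat_lit 840) (nat_lit 1081502378) (nat_lit 924) (nat_lit 7063172239) (nat_lit 235) (nat_lit 5) (nat_lit 245) (nat_lit 5) (nat_lit 246) (nat_lit 5) (nat_lit 288) (nat_lit 250) (nat_lit 182)) (XT.lf (nat_lit 0) (nat_lit 3831367108) (nat_lit 924) (nat_lit 2711280758) (nat_lit 84) (nat_lit 2209304081) (nat_lit 235) (nat_lit 5) (nat_lit 246) (nat_lit 5) (nat_lit 236) (nat_lit 5) (nat_lit 289) (nat_lit 250) (nat_lit 181))) (XT.nd (nat_lit 94) (nat_lit 0) (nat_lit 0) (XT.lf (nat_lit 0) (nat_lit 2838942543) (nat_lit 840) (nat_lit 3262155431) (nat_lit 924) (nat_lit 2737055172) (nat_lit 225) (nat_lit 5) (nat_lit 235) (nat_lit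 5) (nat_lit 236) (nat_lit 5) (nat_lit 290) (nat_lit 250) (nat_lit 180)) (XT.lf (nat_lit 0) (nat_lit 8407892721) (nat_lit 924) (nat_lit 411028170) (nat_lit 84) (nat_lit 107613023) (nat_lit 225) (nat_lit 5) (nat_lit 236) (nat_lit 5) (nat_lit 226) (nat_lit 5) (nat_lit 291) (nat_lit 250) (nat_lit 179)))) (XT.nd (nat_lit 188) (nat_lit 756) (nat_lit 0) (XT.nd (nat_lit 94) (nat_lit 840) (nat_lit 0) (XT.lf (nat_lit 0) (nat_lit 1752265805) (nat_lit 924) (nat_lit 3711370037) (nat_lit 84) (nat_lit 3552313990) (nat_lit 214) (nat_lit 5) (nat_lit 225) (nat_lit 5) (nat_lit 215) (nat_lit 5) (nat_lit 292) (nat_lit 250) (nat_lit 178)) (XT.lf (nat_lit 0) (nat_lit 2034676743) (nat_lit 840) (nat_lit 2015633708) (nat_lit 924) (nat_lit 5057273517) (nat_lit 204) (nat_lit 5) (nat_lit 214) (nat_lit 5) (nat_lit 215) (nat_lit 5) (nat_lit 293) (nat_lit 250) (nat_lit 177))) (XT.nd (nat_lit 94) (nat_lit 756) (nat_lit 0) (XT.lf (nat_lit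 0) (nat_lit 6404959794) (nat_lit 924) (nat_lit 1285073325) (nat_lit 84) (nat_lit 1511067887) (nat_lit 204) (nat_lit 5) (nat_lit 215) (nat_lit 5) (nat_lit 205) (nat_lit 5) (nat_lit 294) (nat_lit 250) (nat_lit 176)) (XT.lf (nat_lit 0) (nat_lit 4647062229) (nat_lit 756) (nat_lit 4180511798) (nat_lit 840) (nat_lit 468745814) (nat_lit 195) (nat_lit 5) (nat_lit 204) (nat_lit 5) (nat_lit 205) (nat_lit 5) (nat_lit 295) (nat_lit 250) (nat_lit 175))))))) (XT.nd (nat_lit 1410) (nat_lit 672) (nat_lit 0) (XT.nd (nat_lit 658) (nat_lit 3276) (nat_lit 0) (XT.nd (nat_lit 282) (nat_lit 2184) (nat_lit 0) (XT.nd (nat_lit 94) (nat_lit 756) (nat_lit 0) (XT.lf (nat_lit 0) (nat_lit 1305103671) (nat_lit 756) (nat_lit 564689037) (nat_lit 840) (nat_lit 7523817624) (nat_lit 185) (nat_lit 5) (nat_lit 194) (nat_lit 5) (nat_lit 195) (nat_lit 5) (nat_lit 296) (nat_lit 250) (nat_lit 174)) (XT.nd (nat_lit 94) (nat_lit 756) (nat_lit 0)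 (XT.lf (nat_lit 0) (nat_lit 4278756239) (nat_lit 840) (nat_lit 2094238663) (nat_lit 84) (nat_lit 3119401941) (nat_lit 185) (nat_lit 5) (nat_lit 195) (nat_lit 5) (nat_lit 186) (nat_lit 5) (nat_lit 297) (nat_lit 250) (nat_lit 173)) (XT.lf (nat_lit 0) (nat_lit 4051024251) (nat_lit 756) (nat_lit 2692313223) (nat_lit 840) (nat_lit 2849961531) (nat_lit 176) (nat_lit 5) (nat_lit 185) (nat_lit 5) (nat_lit 186) (nat_lit 5) (nat_lit 298) (nat_lit 250) (nat_lit 172)))) (XT.nd (nat_lit 188) (nat_lit 1344) (nat_lit 0) (XT.nd (nat_lit 94) (nat_lit 84) (nat_lit 0) (XT.lf (nat_lit 0) (nat_lit 632575758) (nat_lit 756) (nat_lit 8627291348) (nat_lit 840) (nat_lit 436603901) (nat_lit 167) (nat_lit 5) (nat_lit 176) (nat_lit 5) (nat_lit 177) (nat_lit 5) (nat_lit 299) (nat_lit 250) (nat_lit 171)) (XT.lf (nat_lit 0) (nat_lit 2031648410) (nat_lit 840) (nat_lit 2844985989) (nat_lit 84) (nat_lit 4924277480) (nat_lit 166) (nat_lit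 5) (nat_lit 176) (nat_lit 5) (nat_lit 167) (nat_lit 5) (nat_lit 300) (nat_lit 250) (nat_lit 170))) (XT.nd (nat_lit 94) (nat_lit 672) (nat_lit 0) (XT.lf (nat_lit 0) (nat_lit 3523412316) (nat_lit 672) (nat_lit 1020304734) (nat_lit 756) (nat_lit 5363952757) (nat_lit 158) (nat_lit 5) (nat_lit 166) (nat_lit 5) (nat_lit 167) (nat_lit 5) (nat_lit 301) (nat_lit 250) (nat_lit 169)) (XT.lf (nat_lit 0) (nat_lit 1924448) (nat_lit 672) (nat_lit 7122296023) (nat_lit 756) (nat_lit 2892266215) (nat_lit 150) (nat_lit 5) (nat_lit 158) (nat_lit 5) (nat_lit 159) (nat_lit 5) (nat_lit 302) (nat_lit 250) (nat_lit 168))))) (XT.nd (nat_lit 376) (nat_lit 1848) (nat_lit 0) (XT.nd (nat_lit 188) (nat_lit 672) (nat_lit 0) (XT.nd (nat_lit 94) (nat_lit 756) (nat_lit 0) (XT.lf (nat_lit 0) (nat_lit 6581434789) (nat_lit 672) (nat_lit 3206144235) (nat_lit 756) (nat_lit 339544665) (nat_lit 150) (nat_lit 5) (nat_lit 158) (nat_lit 5) (nat_lit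 159) (nat_lit 5) (nat_lit 303) (nat_lit 250) (nat_lit 167)) (XT.lf (nat_lit 0) (nat_lit 2236303266) (nat_lit 756) (nat_lit 7187124605) (nat_lit 84) (nat_lit 816418853) (nat_lit 141) (nat_lit 5) (nat_lit 150) (nat_lit 5) (nat_lit 142) (nat_lit 5) (nat_lit 304) (nat_lit 250) (nat_lit 166))) (XT.nd (nat_lit 94) (nat_lit 672) (nat_lit 0) (XT.lf (nat_lit 0) (nat_lit 4885816814) (nat_lit 756) (nat_lit 566171667) (nat_lit 84) (nat_lit 4902522915) (nat_lit 141) (nat_lit 5) (nat_lit 150) (nat_lit 5) (nat_lit 142) (nat_lit 5) (nat_lit 305) (nat_lit 250) (nat_lit 165)) (XT.lf (nat_lit 0) (nat_lit 6256357294) (nat_lit 672) (nat_lit 1354698927) (nat_lit 756) (nat_lit 2860258864) (nat_lit 133) (nat_lit 5) (nat_lit 141) (nat_lit 5) (nat_lit 142) (nat_lit 5) (nat_lit 306) (nat_lit 250) (nat_lit 164)))) (XT.nd (nat_lit 188) (nat_lit 1176) (nat_lit 0) (XT.nd (nat_lit 94) (nat_lit 84) (nat_lit 0) (XT.lf (nat_lit 0) (nat_lit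 2630025853) (nat_lit 588) (nat_lit 7782512119) (nat_lit 672) (nat_lit 177792169) (nat_lit 126) (nat_lit 5) (nat_lit 133) (nat_lit 5) (nat_lit 134) (nat_lit 5) (nat_lit 307) (nat_lit 250) (nat_lit 163)) (XT.lf (nat_lit 0) (nat_lit 2541288463) (nat_lit 672) (nat_lit 1085707335) (nat_lit 84) (nat_lit 7084246422) (nat_lit 125) (nat_lit 5) (nat_lit 133) (nat_lit 5) (nat_lit 126) (nat_lit 5) (nat_lit 308) (nat_lit 250) (nat_lit 162))) (XT.nd (nat_lit 94) (nat_lit 588) (nat_lit 0) (XT.lf (nat_lit 0) (nat_lit 5338807410) (nat_lit 672) (nat_lit 4847856053) (nat_lit 84) (nat_lit 647655242) (nat_lit 118) (nat_lit 5) (nat_lit 126) (nat_lit 5) (nat_lit 119) (nat_lit 5) (nat_lit 309) (nat_lit 250) (nat_lit 161)) (XT.lf (nat_lit 0) (nat_lit 2242191254) (nat_lit 588) (nat_lit 5980278931) (nat_lit 672) (nat_lit 2737091522) (nat_lit 111) (nat_lit 5) (nat_lit 118) (nat_lit 5) (nat_lit 119) (nat_lit 5) (nat_lit 310) (nat_lit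 250) (nat_lit 160)))))) (XT.nd (nat_lit 40044) (nat_lit 0) (nat_lit 29904) (XT.nd (nat_lit 39668) (nat_lit 0) (nat_lit 31920) (XT.nd (nat_lit 94) (nat_lit 588) (nat_lit 0) (XT.lf (nat_lit 0) (nat_lit 91174573) (nat_lit 672) (nat_lit 1561273035) (nat_lit 84) (nat_lit 9434872064) (nat_lit 110) (nat_lit 5) (nat_lit 118) (nat_lit 5) (nat_lit 111) (nat_lit 5) (nat_lit 311) (nat_lit 250) (nat_lit 159)) (XT.nd (nat_lit 39480) (nat_lit 0) (nat_lit 32760) (XT.lf (nat_lit 0) (nat_lit 2977507921) (nat_lit 672) (nat_lit 5455146745) (nat_lit 84) (nat_lit 2784000294) (nat_lit 103) (nat_lit 5) (nat_lit 111) (nat_lit 5) (nat_lit 104) (nat_lit 5) (nat_lit 312) (nat_lit 250) (nat_lit 158)) (XT.lf (nat_lit 0) (nat_lit 226843413) (nat_lit 924) (nat_lit 1566342248) (nat_lit 924) (nat_lit 1566342248) (nat_lit 493) (nat_lit 3) (nat_lit 504) (nat_lit 3) (nat_lit 504) (nat_lit 5) (nat_lit 251) (nat_lit 251) (nat_lit 218))))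 (XT.nd (nat_lit 188) (nat_lit 840) (nat_lit 0) (XT.nd (nat_lit 94) (nat_lit 0) (nat_lit 0) (XT.lf (nat_lit 84) (nat_lit 230158427) (nat_lit 0) (nat_lit 2407391889) (nat_lit 924) (nat_lit 4107479913) (nat_lit 494) (nat_lit 5) (nat_lit 493) (nat_lit 3) (nat_lit 504) (nat_lit 5) (nat_lit 252) (nat_lit 251) (nat_lit 217)) (XT.lf (nat_lit 84) (nat_lit 3681253717) (nat_lit 0) (nat_lit 1148394326) (nat_lit 924) (nat_lit 1942803870) (nat_lit 494) (nat_lit 5) (nat_lit 493) (nat_lit 3) (nat_lit 504) (nat_lit 5) (nat_lit 253) (nat_lit 251) (nat_lit 216))) (XT.nd (nat_lit 94) (nat_lit 0) (nat_lit 0) (XT.lf (nat_lit 0) (nat_lit 207494829) (nat_lit 924) (nat_lit 6424362228) (nat_lit 1008) (nat_lit 169856193) (nat_lit 483) (nat_lit 5) (nat_lit 494) (nat_lit 5) (nat_lit 495) (nat_lit 5) (nat_lit 254) (nat_lit 251) (nat_lit 215)) (XT.lf (nat_lit 0) (nat_lit 2347124699) (nat_lit 924) (nat_lit 2919440969) (nat_lit 1008)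 (nat_lit 1565387810) (nat_lit 483) (nat_lit 5) (nat_lit 494) (nat_lit 5) (nat_lit 495) (nat_lit 5) (nat_lit 255) (nat_lit 251) (nat_lit 214))))) (XT.nd (nat_lit 376) (nat_lit 1008) (nat_lit 0) (XT.nd (nat_lit 188) (nat_lit 1008) (nat_lit 0) (XT.nd (nat_lit 94) (nat_lit 0) (nat_lit 0) (XT.lf (nat_lit 84) (nat_lit 638486498) (nat_lit 0) (nat_lit 3840459133) (nat_lit 1008) (nat_lit 2385120737) (nat_lit 484) (nat_lit 5) (nat_lit 483) (nat_lit 5) (nat_lit 495) (nat_lit 5) (nat_lit 256) (nat_lit 251) (nat_lit 213)) (XT.lf (nat_lit 84) (nat_lit 4285233073) (nat_lit 0) (nat_lit 2335612450) (nat_lit 1008) (nat_lit 276850286) (nat_lit 484) (nat_lit 5) (nat_lit 483) (nat_lit 5) (nat_lit 495) (nat_lit 5) (nat_lit 257) (nat_lit 251) (nat_lit 212))) (XT.nd (nat_lit 94) (nat_lit 0) (nat_lit 84) (XT.lf (nat_lit 84) (nat_lit 1048684386) (nat_lit 0) (nat_lit 751997289) (nat_lit 1092) (nat_lit 5132190777) (nat_lit 472)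 (nat_lit 5) (nat_lit 471) (nat_lit 5) (nat_lit 484) (nat_lit 5) (nat_lit 258) (nat_lit 251) (nat_lit 211)) (XT.lf (nat_lit 0) (nat_lit 3889081020) (nat_lit 1008) (nat_lit 2181691104) (nat_lit 1092) (nat_lit 898683306) (nat_lit 472) (nat_lit 5) (nat_lit 484) (nat_lit 5) (nat_lit 485) (nat_lit 5) (nat_lit 259) (nat_lit 251) (nat_lit 210)))) (XT.nd (nat_lit 188) (nat_lit 0) (nat_lit 0) (XT.nd (nat_lit 94) (nat_lit 1092) (nat_lit 0) (XT.lf (nat_lit 84) (nat_lit 1586010474) (nat_lit 0) (nat_lit 4399028140) (nat_lit 1092) (nat_lit 1022649123) (nat_lit 473) (nat_lit 5) (nat_lit 472) (nat_lit 5) (nat_lit 485) (nat_lit 5) (nat_lit 260) (nat_lit 251) (nat_lit 209)) (XT.lf (nat_lit 0) (nat_lit 1026414128) (nat_lit 1092) (nat_lit 1619208494) (nat_lit 1176) (nat_lit 4401813406) (nat_lit 459) (nat_lit 5) (nat_lit 472) (nat_lit 5) (nat_lit 473) (nat_lit 5) (nat_lit 261) (nat_lit 251) (nat_lit 208))) (XT.nd (nat_lit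 94) (nat_lit 0) (nat_lit 84) (XT.lf (nat_lit 84) (nat_lit 2258561487) (nat_lit 0) (nat_lit 809601938) (nat_lit 1176) (nat_lit 4020553047) (nat_lit 460) (nat_lit 5) (nat_lit 459) (nat_lit 5) (nat_lit 473) (nat_lit 5) (nat_lit 262) (nat_lit 251) (nat_lit 207)) (XT.lf (nat_lit 0) (nat_lit 5122100524) (nat_lit 1092) (nat_lit 926992617) (nat_lit 1176) (nat_lit 1082532019) (nat_lit 460) (nat_lit 5) (nat_lit 473) (nat_lit 5) (nat_lit 474) (nat_lit 5) (nat_lit 263) (nat_lit 251) (nat_lit 206))))))))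
noncomputable def xc35 : XT := (XT.nd (nat_lit 2820) (nat_lit 9324) (nat_lit 0) (XT.nd (nat_lit 1410) (nat_lit 11088) (nat_lit 0) (XT.nd (nat_lit 658) (nat_lit 7224) (nat_lit 0) (XT.nd (nat_lit 282) (nat_lit 1176) (nat_lit 0) (XT.nd (nat_lit 94) (nat_lit 0) (nat_lit 0) (XT.lf (nat_lit 0) (nat_lit 21404648) (nat_lit 1176) (nat_lit 4109583565) (nat_lit 1260) (nat_lit 3045003481) (nat_lit 446) (nat_lit 5) (nat_lit 460) (nat_lit 5) (nat_lit 461) (nat_lit 5) (nat_lit 264) (nat_lit 251) (nat_lit 205)) (XT.nd (nat_lit 94) (nat_lit 0) (nat_lit 0) (XT.lf (nat_lit 0) (nat_lit 2023579329) (nat_lit 1176) (nat_lit 108599563) (nat_lit 1260) (nat_lit 5089798361) (nat_lit 446) (nat_lit 5) (nat_lit 460) (nat_lit 5) (nat_lit 461) (nat_lit 5) (nat_lit 265) (nat_lit 251) (nat_lit 204)) (XT.lf (nat_lit 84) (nat_lit 4004576605) (nat_lit 0) (nat_lit 44091630) (nat_lit 1260) (nat_lit 3220771199) (nat_lit 447) (nat_lit 5) (nat_lit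 446) (nat_lit 5) (nat_lit 461) (nat_lit 5) (nat_lit 266) (nat_lit 251) (nat_lit 203)))) (XT.nd (nat_lit 188) (nat_lit 0) (nat_lit 0) (XT.nd (nat_lit 94) (nat_lit 1260) (nat_lit 0) (XT.lf (nat_lit 84) (nat_lit 854905903) (nat_lit 0) (nat_lit 5236471679) (nat_lit 1260) (nat_lit 1227160693) (nat_lit 448) (nat_lit 5) (nat_lit 447) (nat_lit 5) (nat_lit 462) (nat_lit 5) (nat_lit 267) (nat_lit 251) (nat_lit 202)) (XT.lf (nat_lit 0) (nat_lit 774990094) (nat_lit 1260) (nat_lit 2295291768) (nat_lit 1344) (nat_lit 4298828704) (nat_lit 432) (nat_lit 5) (nat_lit 447) (nat_lit 5) (nat_lit 448) (nat_lit 5) (nat_lit 268) (nat_lit 251) (nat_lit 201))) (XT.nd (nat_lit 94) (nat_lit 0) (nat_lit 84) (XT.lf (nat_lit 84) (nat_lit 1949745366) (nat_lit 0) (nat_lit 820046300) (nat_lit 1344) (nat_lit 4651540559) (nat_lit 433) (nat_lit 5) (nat_lit 432) (nat_lit 5) (nat_lit 448) (nat_lit 5) (nat_lit 269) (nat_lit 251) (nat_lit 200))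 (XT.lf (nat_lit 0) (nat_lit 4789739405) (nat_lit 1260) (nat_lit 1197559634) (nat_lit 84) (nat_lit 1487815990) (nat_lit 433) (nat_lit 5) (nat_lit 448) (nat_lit 5) (nat_lit 434) (nat_lit 5) (nat_lit 270) (nat_lit 251) (nat_lit 199))))) (XT.nd (nat_lit 376) (nat_lit 3192) (nat_lit 0) (XT.nd (nat_lit 188) (nat_lit 1428) (nat_lit 0) (XT.nd (nat_lit 94) (nat_lit 1428) (nat_lit 0) (XT.lf (nat_lit 0) (nat_lit 3176004624) (nat_lit 1260) (nat_lit 3661355696) (nat_lit 1344) (nat_lit 693089578) (nat_lit 418) (nat_lit 5) (nat_lit 433) (nat_lit 5) (nat_lit 434) (nat_lit 5) (nat_lit 271) (nat_lit 251) (nat_lit 198)) (XT.lf (nat_lit 0) (nat_lit 33034756) (nat_lit 1344) (nat_lit 1254843661) (nat_lit 1428) (nat_lit 6299700950) (nat_lit 401) (nat_lit 5) (nat_lit 417) (nat_lit 5) (nat_lit 418) (nat_lit 5) (nat_lit 272) (nat_lit 251) (nat_lit 197))) (XT.nd (nat_lit 94) (nat_lit 1428) (nat_lit 0) (XT.lf (nat_lit 0) (nat_lit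 3299046109) (nat_lit 1428) (nat_lit 3112512602) (nat_lit 84) (nat_lit 1234365913) (nat_lit 401) (nat_lit 5) (nat_lit 418) (nat_lit 5) (nat_lit 402) (nat_lit 5) (nat_lit 273) (nat_lit 251) (nat_lit 196)) (XT.lf (nat_lit 0) (nat_lit 1403621331) (nat_lit 1428) (nat_lit 3926764681) (nat_lit 1512) (nat_lit 2375697080) (nat_lit 384) (nat_lit 5) (nat_lit 401) (nat_lit 5) (nat_lit 402) (nat_lit 5) (nat_lit 274) (nat_lit 251) (nat_lit 195)))) (XT.nd (nat_lit 188) (nat_lit 1596) (nat_lit 0) (XT.nd (nat_lit 94) (nat_lit 1596) (nat_lit 0) (XT.lf (nat_lit 0) (nat_lit 6031142727) (nat_lit 1428) (nat_lit 1355740398) (nat_lit 1512) (nat_lit 381111632) (nat_lit 384) (nat_lit 5) (nat_lit 401) (nat_lit 5) (nat_lit 402) (nat_lit 5) (nat_lit 275) (nat_lit 251) (nat_lit 194)) (XT.lf (nat_lit 0) (nat_lit 1621761891) (nat_lit 1596) (nat_lit 4915620246) (nat_lit 84) (nat_lit 1293884492) (nat_lit 365) (nat_lit 5) (nat_lit 384)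 (nat_lit 5) (nat_lit 366) (nat_lit 5) (nat_lit 276) (nat_lit 251) (nat_lit 193))) (XT.nd (nat_lit 94) (nat_lit 1596) (nat_lit 0) (XT.lf (nat_lit 0) (nat_lit 3644681403) (nat_lit 1596) (nat_lit 246980611) (nat_lit 84) (nat_lit 4004612388) (nat_lit 365) (nat_lit 5) (nat_lit 384) (nat_lit 5) (nat_lit 366) (nat_lit 5) (nat_lit 277) (nat_lit 251) (nat_lit 192)) (XT.lf (nat_lit 0) (nat_lit 4555705202) (nat_lit 1596) (nat_lit 1148538852) (nat_lit 1680) (nat_lit 2258641236) (nat_lit 346) (nat_lit 5) (nat_lit 365) (nat_lit 5) (nat_lit 366) (nat_lit 5) (nat_lit 278) (nat_lit 251) (nat_lit 191)))))) (XT.nd (nat_lit 658) (nat_lit 4536) (nat_lit 0) (XT.nd (nat_lit 282) (nat_lit 3024) (nat_lit 0) (XT.nd (nat_lit 94) (nat_lit 1848) (nat_lit 0) (XT.lf (nat_lit 0) (nat_lit 1410383381) (nat_lit 1680) (nat_lit 6382759420) (nat_lit 1764) (nat_lit 238170252) (nat_lit 326) (nat_lit 5) (nat_lit 346) (nat_lit 5) (nat_lit 347)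 (nat_lit 5) (nat_lit 279) (nat_lit 251) (nat_lit 190)) (XT.nd (nat_lit 94) (nat_lit 1764) (nat_lit 0) (XT.lf (nat_lit 0) (nat_lit 1794826438) (nat_lit 1764) (nat_lit 1772697698) (nat_lit 84) (nat_lit 4533559317) (nat_lit 325) (nat_lit 5) (nat_lit 346) (nat_lit 5) (nat_lit 326) (nat_lit 5) (nat_lit 280) (nat_lit 251) (nat_lit 189)) (XT.lf (nat_lit 0) (nat_lit 3191926316) (nat_lit 1764) (nat_lit 661375520) (nat_lit 1848) (nat_lit 4319395132) (nat_lit 304) (nat_lit 5) (nat_lit 325) (nat_lit 5) (nat_lit 326) (nat_lit 5) (nat_lit 281) (nat_lit 251) (nat_lit 188)))) (XT.nd (nat_lit 188) (nat_lit 1176) (nat_lit 0) (XT.nd (nat_lit 94) (nat_lit 1848) (nat_lit 0) (XT.lf (nat_lit 0) (nat_lit 5948830184) (nat_lit 1848) (nat_lit 5010357) (nat_lit 84) (nat_lit 2292226574) (nat_lit 304) (nat_lit 5) (nat_lit 326) (nat_lit 5) (nat_lit 305) (nat_lit 5) (nat_lit 282) (nat_lit 251) (nat_lit 187)) (XT.lf (nat_lit 0) (nat_lit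 5114706691) (nat_lit 1848) (nat_lit 2979948627) (nat_lit 1932) (nat_lit 226303794) (nat_lit 282) (nat_lit 5) (nat_lit 304) (nat_lit 5) (nat_lit 305) (nat_lit 5) (nat_lit 283) (nat_lit 251) (nat_lit 186))) (XT.nd (nat_lit 94) (nat_lit 0) (nat_lit 0) (XT.lf (nat_lit 0) (nat_lit 1840617603) (nat_lit 1176) (nat_lit 6469038563) (nat_lit 84) (nat_lit 88038001) (nat_lit 268) (nat_lit 5) (nat_lit 282) (nat_lit 5) (nat_lit 269) (nat_lit 5) (nat_lit 284) (nat_lit 251) (nat_lit 185)) (XT.lf (nat_lit 0) (nat_lit 3959024098) (nat_lit 1176) (nat_lit 1309904041) (nat_lit 84) (nat_lit 3206947439) (nat_lit 268) (nat_lit 5) (nat_lit 282) (nat_lit 5) (nat_lit 269) (nat_lit 5) (nat_lit 285) (nat_lit 251) (nat_lit 184))))) (XT.nd (nat_lit 376) (nat_lit 1764) (nat_lit 0) (XT.nd (nat_lit 188) (nat_lit 924) (nat_lit 0) (XT.nd (nat_lit 94) (nat_lit 924) (nat_lit 0) (XT.lf (nat_lit 0) (nat_lit 3985684527) (nat_lit 924) (nat_lit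 2131316641) (nat_lit 1008) (nat_lit 2438930568) (nat_lit 257) (nat_lit 5) (nat_lit 268) (nat_lit 5) (nat_lit 269) (nat_lit 5) (nat_lit 286) (nat_lit 251) (nat_lit 183)) (XT.lf (nat_lit 0) (nat_lit 747867480) (nat_lit 924) (nat_lit 7562417687) (nat_lit 1008) (nat_lit 327731671) (nat_lit 246) (nat_lit 5) (nat_lit 257) (nat_lit 5) (nat_lit 258) (nat_lit 5) (nat_lit 287) (nat_lit 251) (nat_lit 182))) (XT.nd (nat_lit 94) (nat_lit 840) (nat_lit 0) (XT.lf (nat_lit 0) (nat_lit 1818428151) (nat_lit 1008) (nat_lit 2533954512) (nat_lit 84) (nat_lit 4368911218) (nat_lit 245) (nat_lit 5) (nat_lit 257) (nat_lit 5) (nat_lit 246) (nat_lit 5) (nat_lit 288) (nat_lit 251) (nat_lit 181)) (XT.lf (nat_lit 0) (nat_lit 2945644880) (nat_lit 840) (nat_lit 1048414885) (nat_lit 924) (nat_lit 4812574992) (nat_lit 235) (nat_lit 5) (nat_lit 245) (nat_lit 5) (nat_lit 246) (nat_lit 5) (nat_lit 289) (nat_lit 251) (nat_lit 180)))) (XT.nd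 (nat_lit 188) (nat_lit 924) (nat_lit 0) (XT.nd (nat_lit 94) (nat_lit 840) (nat_lit 0) (XT.lf (nat_lit 0) (nat_lit 6219571006) (nat_lit 924) (nat_lit 361474523) (nat_lit 84) (nat_lit 2312763257) (nat_lit 235) (nat_lit 5) (nat_lit 246) (nat_lit 5) (nat_lit 236) (nat_lit 5) (nat_lit 290) (nat_lit 251) (nat_lit 179)) (XT.lf (nat_lit 0) (nat_lit 5293439763) (nat_lit 840) (nat_lit 3213240243) (nat_lit 924) (nat_lit 475942636) (nat_lit 225) (nat_lit 5) (nat_lit 235) (nat_lit 5) (nat_lit 236) (nat_lit 5) (nat_lit 291) (nat_lit 251) (nat_lit 178))) (XT.nd (nat_lit 94) (nat_lit 0) (nat_lit 0) (XT.lf (nat_lit 0) (nat_lit 1731404287) (nat_lit 924) (nat_lit 7088907257) (nat_lit 84) (nat_lit 253105116) (nat_lit 214) (nat_lit 5) (nat_lit 225) (nat_lit 5) (nat_lit 215) (nat_lit 5) (nat_lit 292) (nat_lit 251) (nat_lit 177)) (XT.lf (nat_lit 0) (nat_lit 3999112379) (nat_lit 924) (nat_lit 1389410610) (nat_lit 84) (nat_lit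 3777195211) (nat_lit 214) (nat_lit 5) (nat_lit 225) (nat_lit 5) (nat_lit 215) (nat_lit 5) (nat_lit 293) (nat_lit 251) (nat_lit 176))))))) (XT.nd (nat_lit 1410) (nat_lit 1848) (nat_lit 0) (XT.nd (nat_lit 658) (nat_lit 3444) (nat_lit 0) (XT.nd (nat_lit 282) (nat_lit 2352) (nat_lit 0) (XT.nd (nat_lit 94) (nat_lit 840) (nat_lit 0) (XT.lf (nat_lit 0) (nat_lit 4465677514) (nat_lit 840) (nat_lit 1851497509) (nat_lit 924) (nat_lit 2942865122) (nat_lit 204) (nat_lit 5) (nat_lit 214) (nat_lit 5) (nat_lit 215) (nat_lit 5) (nat_lit 294) (nat_lit 251) (nat_lit 175)) (XT.nd (nat_lit 94) (nat_lit 84) (nat_lit 0) (XT.lf (nat_lit 0) (nat_lit 1082544108) (nat_lit 756) (nat_lit 7603367520) (nat_lit 840) (nat_lit 670532660) (nat_lit 195) (nat_lit 5) (nat_lit 204) (nat_lit 5) (nat_lit 205) (nat_lit 5) (nat_lit 295) (nat_lit 251) (nat_lit 174)) (XT.lf (nat_lit 0) (nat_lit 1646416298) (nat_lit 840) (nat_lit 2354074925) (nat_lit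 84) (nat_lit 5453814088) (nat_lit 194) (nat_lit 5) (nat_lit 204) (nat_lit 5) (nat_lit 195) (nat_lit 5) (nat_lit 296) (nat_lit 251) (nat_lit 173)))) (XT.nd (nat_lit 188) (nat_lit 840) (nat_lit 0) (XT.nd (nat_lit 94) (nat_lit 756) (nat_lit 0) (XT.lf (nat_lit 0) (nat_lit 3710567239) (nat_lit 756) (nat_lit 290260303) (nat_lit 840) (nat_lit 5553464430) (nat_lit 185) (nat_lit 5) (nat_lit 194) (nat_lit 5) (nat_lit 195) (nat_lit 5) (nat_lit 297) (nat_lit 251) (nat_lit 172)) (XT.lf (nat_lit 0) (nat_lit 231600941) (nat_lit 756) (nat_lit 6189848356) (nat_lit 840) (nat_lit 3234711946) (nat_lit 176) (nat_lit 5) (nat_lit 185) (nat_lit 5) (nat_lit 186) (nat_lit 5) (nat_lit 298) (nat_lit 251) (nat_lit 171))) (XT.nd (nat_lit 94) (nat_lit 840) (nat_lit 0) (XT.lf (nat_lit 0) (nat_lit 6491605355) (nat_lit 756) (nat_lit 2419683555) (nat_lit 840) (nat_lit 848631517) (nat_lit 176) (nat_lit 5) (nat_lit 185) (nat_lit 5) (nat_lit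 186) (nat_lit 5) (nat_lit 299) (nat_lit 251) (nat_lit 170)) (XT.lf (nat_lit 0) (nat_lit 1570106538) (nat_lit 840) (nat_lit 6854523648) (nat_lit 84) (nat_lit 1441015554) (nat_lit 166) (nat_lit 5) (nat_lit 176) (nat_lit 5) (nat_lit 167) (nat_lit 5) (nat_lit 300) (nat_lit 251) (nat_lit 169))))) (XT.nd (nat_lit 376) (nat_lit 2016) (nat_lit 0) (XT.nd (nat_lit 188) (nat_lit 756) (nat_lit 0) (XT.nd (nat_lit 94) (nat_lit 672) (nat_lit 0) (XT.lf (nat_lit 0) (nat_lit 4042967858) (nat_lit 840) (nat_lit 553760764) (nat_lit 84) (nat_lit 5376537607) (nat_lit 166) (nat_lit 5) (nat_lit 176) (nat_lit 5) (nat_lit 167) (nat_lit 5) (nat_lit 301) (nat_lit 251) (nat_lit 168)) (XT.lf (nat_lit 0) (nat_lit 5937730500) (nat_lit 672) (nat_lit 646882754) (nat_lit 756) (nat_lit 3498324731) (nat_lit 158) (nat_lit 5) (nat_lit 166) (nat_lit 5) (nat_lit 167) (nat_lit 5) (nat_lit 302) (nat_lit 251) (nat_lit 167))) (XT.nd (nat_lit 94)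 (nat_lit 84) (nat_lit 0) (XT.lf (nat_lit 0) (nat_lit 2361473507) (nat_lit 672) (nat_lit 6838199364) (nat_lit 756) (nat_lit 994964692) (nat_lit 150) (nat_lit 5) (nat_lit 158) (nat_lit 5) (nat_lit 159) (nat_lit 5) (nat_lit 303) (nat_lit 251) (nat_lit 166)) (XT.lf (nat_lit 0) (nat_lit 1549067348) (nat_lit 756) (nat_lit 1284871528) (nat_lit 84) (nat_lit 7474432068) (nat_lit 149) (nat_lit 5) (nat_lit 158) (nat_lit 5) (nat_lit 150) (nat_lit 5) (nat_lit 304) (nat_lit 251) (nat_lit 165)))) (XT.nd (nat_lit 188) (nat_lit 672) (nat_lit 0) (XT.nd (nat_lit 94) (nat_lit 672) (nat_lit 0) (XT.lf (nat_lit 0) (nat_lit 4155623396) (nat_lit 756) (nat_lit 4987928264) (nat_lit 84) (nat_lit 1280429021) (nat_lit 141) (nat_lit 5) (nat_lit 150) (nat_lit 5) (nat_lit 142) (nat_lit 5) (nat_lit 305) (nat_lit 251) (nat_lit 164)) (XT.lf (nat_lit 0) (nat_lit 1753192685) (nat_lit 672) (nat_lit 5082464944) (nat_lit 756) (nat_lit 3706121255)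 (nat_lit 133) (nat_lit 5) (nat_lit 141) (nat_lit 5) (nat_lit 142) (nat_lit 5) (nat_lit 306) (nat_lit 251) (nat_lit 163))) (XT.nd (nat_lit 94) (nat_lit 672) (nat_lit 0) (XT.lf (nat_lit 0) (nat_lit 8683895390) (nat_lit 672) (nat_lit 901389565) (nat_lit 756) (nat_lit 1076649781) (nat_lit 133) (nat_lit 5) (nat_lit 141) (nat_lit 5) (nat_lit 142) (nat_lit 5) (nat_lit 307) (nat_lit 251) (nat_lit 162)) (XT.lf (nat_lit 0) (nat_lit 1621637423) (nat_lit 672) (nat_lit 5798427562) (nat_lit 84) (nat_lit 3363664968) (nat_lit 125) (nat_lit 5) (nat_lit 133) (nat_lit 5) (nat_lit 126) (nat_lit 5) (nat_lit 308) (nat_lit 251) (nat_lit 161)))))) (XT.nd (nat_lit 40138) (nat_lit 0) (nat_lit 29820) (XT.nd (nat_lit 282) (nat_lit 672) (nat_lit 0) (XT.nd (nat_lit 94) (nat_lit 588) (nat_lit 0) (XT.lf (nat_lit 0) (nat_lit 1193020040) (nat_lit 588) (nat_lit 3174635705) (nat_lit 672) (nat_lit 6540283706) (nat_lit 118) (nat_lit 5) (nat_lit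 125) (nat_lit 5) (nat_lit 126) (nat_lit 5) (nat_lit 309) (nat_lit 251) (nat_lit 160)) (XT.nd (nat_lit 94) (nat_lit 588) (nat_lit 0) (XT.lf (nat_lit 0) (nat_lit 7200221420) (nat_lit 672) (nat_lit 2651078708) (nat_lit 84) (nat_lit 1183006462) (nat_lit 118) (nat_lit 5) (nat_lit 126) (nat_lit 5) (nat_lit 119) (nat_lit 5) (nat_lit 310) (nat_lit 251) (nat_lit 159)) (XT.lf (nat_lit 0) (nat_lit 4578301984) (nat_lit 588) (nat_lit 5547770865) (nat_lit 672) (nat_lit 1036699633) (nat_lit 111) (nat_lit 5) (nat_lit 118) (nat_lit 5) (nat_lit 119) (nat_lit 5) (nat_lit 311) (nat_lit 251) (nat_lit 158)))) (XT.nd (nat_lit 39668) (nat_lit 0) (nat_lit 31836) (XT.nd (nat_lit 39574) (nat_lit 0) (nat_lit 32760) (XT.lf (nat_lit 0) (nat_lit 676491352) (nat_lit 588) (nat_lit 1119403705) (nat_lit 672) (nat_lit 9497885925) (nat_lit 103) (nat_lit 5) (nat_lit 110) (nat_lit 5) (nat_lit 111) (nat_lit 5) (nat_lit 312) (nat_lit 251) (nat_lit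 157)) (XT.lf (nat_lit 0) (nat_lit 2393558482) (nat_lit 924) (nat_lit 496160551) (nat_lit 924) (nat_lit 496160551) (nat_lit 493) (nat_lit 3) (nat_lit 504) (nat_lit 3) (nat_lit 504) (nat_lit 5) (nat_lit 252) (nat_lit 252) (nat_lit 216))) (XT.nd (nat_lit 94) (nat_lit 0) (nat_lit 0) (XT.lf (nat_lit 0) (nat_lit 139532690) (nat_lit 924) (nat_lit 4372480106) (nat_lit 1008) (nat_lit 2287973822) (nat_lit 482) (nat_lit 5) (nat_lit 493) (nat_lit 3) (nat_lit 494) (nat_lit 5) (nat_lit 253) (nat_lit 252) (nat_lit 215)) (XT.lf (nat_lit 0) (nat_lit 2227900801) (nat_lit 924) (nat_lit 937804061) (nat_lit 1008) (nat_lit 3663985491) (nat_lit 482) (nat_lit 5) (nat_lit 493) (nat_lit 3) (nat_lit 494) (nat_lit 5) (nat_lit 254) (nat_lit 252) (nat_lit 214))))) (XT.nd (nat_lit 376) (nat_lit 1092) (nat_lit 0) (XT.nd (nat_lit 188) (nat_lit 924) (nat_lit 0) (XT.nd (nat_lit 94) (nat_lit 0) (nat_lit 0) (XT.lf (nat_lit 84) (nat_lit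 2578239368) (nat_lit 0) (nat_lit 1742938297) (nat_lit 1008) (nat_lit 2539772682) (nat_lit 483) (nat_lit 5) (nat_lit 482) (nat_lit 5) (nat_lit 494) (nat_lit 5) (nat_lit 255) (nat_lit 252) (nat_lit 213)) (XT.lf (nat_lit 84) (nat_lit 6154538106) (nat_lit 0) (nat_lit 254551822) (nat_lit 1008) (nat_lit 484939300) (nat_lit 483) (nat_lit 5) (nat_lit 482) (nat_lit 5) (nat_lit 494) (nat_lit 5) (nat_lit 256) (nat_lit 252) (nat_lit 212))) (XT.nd (nat_lit 94) (nat_lit 0) (nat_lit 0) (XT.lf (nat_lit 0) (nat_lit 1564294306) (nat_lit 1008) (nat_lit 4057451639) (nat_lit 1092) (nat_lit 1306442754) (nat_lit 471) (nat_lit 5) (nat_lit 483) (nat_lit 5) (nat_lit 484) (nat_lit 5) (nat_lit 257) (nat_lit 252) (nat_lit 211)) (XT.lf (nat_lit 0) (nat_lit 3602522318) (nat_lit 1008) (nat_lit 429440602) (nat_lit 1092) (nat_lit 2932135998) (nat_lit 471) (nat_lit 5) (nat_lit 483) (nat_lit 5) (nat_lit 484) (nat_lit 5) (nat_lit 258) (nat_lit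 252) (nat_lit 210)))) (XT.nd (nat_lit 188) (nat_lit 0) (nat_lit 84) (XT.nd (nat_lit 94) (nat_lit 1092) (nat_lit 0) (XT.lf (nat_lit 84) (nat_lit 3294058056) (nat_lit 0) (nat_lit 2359904277) (nat_lit 1092) (nat_lit 1347532669) (nat_lit 472) (nat_lit 5) (nat_lit 471) (nat_lit 5) (nat_lit 484) (nat_lit 5) (nat_lit 259) (nat_lit 252) (nat_lit 209)) (XT.lf (nat_lit 84) (nat_lit 29237385) (nat_lit 0) (nat_lit 620221943) (nat_lit 1176) (nat_lit 6391267780) (nat_lit 459) (nat_lit 5) (nat_lit 458) (nat_lit 5) (nat_lit 472) (nat_lit 5) (nat_lit 260) (nat_lit 252) (nat_lit 208))) (XT.nd (nat_lit 94) (nat_lit 0) (nat_lit 0) (XT.lf (nat_lit 0) (nat_lit 2652951767) (nat_lit 1092) (nat_lit 3228424997) (nat_lit 1176) (nat_lit 1199616884) (nat_lit 459) (nat_lit 5) (nat_lit 472) (nat_lit 5) (nat_lit 473) (nat_lit 5) (nat_lit 261) (nat_lit 252) (nat_lit 207)) (XT.lf (nat_lit 84) (nat_lit 609410493) (nat_lit 0) (nat_lit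 4047688657) (nat_lit 1176) (nat_lit 2466002184) (nat_lit 460) (nat_lit 5) (nat_lit 459) (nat_lit 5) (nat_lit 473) (nat_lit 5) (nat_lit 262) (nat_lit 252) (nat_lit 206))))))))
noncomputable def xc36 : XT := (XT.nd (nat_lit 2820) (nat_lit 9576) (nat_lit 0) (XT.nd (nat_lit 1410) (nat_lit 11844) (nat_lit 0) (XT.nd (nat_lit 658) (nat_lit 5544) (nat_lit 0) (XT.nd (nat_lit 282) (nat_lit 1176) (nat_lit 0) (XT.nd (nat_lit 94) (nat_lit 1176) (nat_lit 0) (XT.lf (nat_lit 84) (nat_lit 4547412974) (nat_lit 0) (nat_lit 2130386960) (nat_lit 1176) (nat_lit 488941287) (nat_lit 460) (nat_lit 5) (nat_lit 459) (nat_lit 5) (nat_lit 473) (nat_lit 5) (nat_lit 263) (nat_lit 252) (nat_lit 205)) (XT.nd (nat_lit 94) (nat_lit 0) (nat_lit 84) (XT.lf (nat_lit 84) (nat_lit 1336527194) (nat_lit 0) (nat_lit 131904050) (nat_lit 1260) (nat_lit 5743574641) (nat_lit 446) (nat_lit 5) (nat_lit 445) (nat_lit 5) (nat_lit 460) (nat_lit 5) (nat_lit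 264) (nat_lit 252) (nat_lit 204)) (XT.lf (nat_lit 0) (nat_lit 3445106914) (nat_lit 1176) (nat_lit 1890126881) (nat_lit 1260) (nat_lit 1923318626) (nat_lit 446) (nat_lit 5) (nat_lit 460) (nat_lit 5) (nat_lit 461) (nat_lit 5) (nat_lit 265) (nat_lit 252) (nat_lit 203)))) (XT.nd (nat_lit 188) (nat_lit 0) (nat_lit 84) (XT.nd (nat_lit 94) (nat_lit 1260) (nat_lit 0) (XT.lf (nat_lit 84) (nat_lit 2180562635) (nat_lit 0) (nat_lit 3252609553) (nat_lit 1260) (nat_lit 1873656935) (nat_lit 447) (nat_lit 5) (nat_lit 446) (nat_lit 5) (nat_lit 461) (nat_lit 5) (nat_lit 266) (nat_lit 252) (nat_lit 202)) (XT.lf (nat_lit 0) (nat_lit 73178691) (nat_lit 1260) (nat_lit 1020953904) (nat_lit 1344) (nat_lit 6262767609) (nat_lit 431) (nat_lit 5) (nat_lit 446) (nat_lit 5) (nat_lit 447) (nat_lit 5) (nat_lit 267) (nat_lit 252) (nat_lit 201))) (XT.nd (nat_lit 94) (nat_lit 0) (nat_lit 0) (XT.lf (nat_lit 0) (nat_lit 2019074515) (nat_lit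 1260) (nat_lit 4242381696) (nat_lit 1344) (nat_lit 1146672732) (nat_lit 432) (nat_lit 5) (nat_lit 447) (nat_lit 5) (nat_lit 448) (nat_lit 5) (nat_lit 268) (nat_lit 252) (nat_lit 200)) (XT.lf (nat_lit 0) (nat_lit 3977136623) (nat_lit 1260) (nat_lit 41955580) (nat_lit 1344) (nat_lit 3442066667) (nat_lit 432) (nat_lit 5) (nat_lit 447) (nat_lit 5) (nat_lit 448) (nat_lit 5) (nat_lit 269) (nat_lit 252) (nat_lit 199))))) (XT.nd (nat_lit 376) (nat_lit 3024) (nat_lit 0) (XT.nd (nat_lit 188) (nat_lit 1344) (nat_lit 0) (XT.nd (nat_lit 94) (nat_lit 1260) (nat_lit 0) (XT.lf (nat_lit 84) (nat_lit 4279821806) (nat_lit 0) (nat_lit 1683730433) (nat_lit 1344) (nat_lit 1552127141) (nat_lit 433) (nat_lit 5) (nat_lit 432) (nat_lit 5) (nat_lit 448) (nat_lit 5) (nat_lit 270) (nat_lit 252) (nat_lit 198)) (XT.lf (nat_lit 0) (nat_lit 384756555) (nat_lit 1344) (nat_lit 6471602264) (nat_lit 84) (nat_lit 715665832) (nat_lit 417)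 (nat_lit 5) (nat_lit 433) (nat_lit 5) (nat_lit 418) (nat_lit 5) (nat_lit 271) (nat_lit 252) (nat_lit 197))) (XT.nd (nat_lit 94) (nat_lit 1344) (nat_lit 0) (XT.lf (nat_lit 0) (nat_lit 2333754730) (nat_lit 1344) (nat_lit 2106315018) (nat_lit 84) (nat_lit 3189459474) (nat_lit 417) (nat_lit 5) (nat_lit 433) (nat_lit 5) (nat_lit 418) (nat_lit 5) (nat_lit 272) (nat_lit 252) (nat_lit 196)) (XT.lf (nat_lit 0) (nat_lit 2355740037) (nat_lit 1344) (nat_lit 1943635936) (nat_lit 1428) (nat_lit 3389500527) (nat_lit 401) (nat_lit 5) (nat_lit 417) (nat_lit 5) (nat_lit 418) (nat_lit 5) (nat_lit 273) (nat_lit 252) (nat_lit 195)))) (XT.nd (nat_lit 188) (nat_lit 1512) (nat_lit 0) (XT.nd (nat_lit 94) (nat_lit 1512) (nat_lit 0) (XT.lf (nat_lit 0) (nat_lit 6285964114) (nat_lit 1428) (nat_lit 840168005) (nat_lit 84) (nat_lit 623887388) (nat_lit 401) (nat_lit 5) (nat_lit 418) (nat_lit 5) (nat_lit 402) (nat_lit 5) (nat_lit 274)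 (nat_lit 252) (nat_lit 194)) (XT.lf (nat_lit 0) (nat_lit 496045416) (nat_lit 1512) (nat_lit 4057699552) (nat_lit 84) (nat_lit 3258693618) (nat_lit 383) (nat_lit 5) (nat_lit 401) (nat_lit 5) (nat_lit 384) (nat_lit 5) (nat_lit 275) (nat_lit 252) (nat_lit 193))) (XT.nd (nat_lit 94) (nat_lit 0) (nat_lit 0) (XT.lf (nat_lit 0) (nat_lit 550832740) (nat_lit 1512) (nat_lit 1896051681) (nat_lit 1596) (nat_lit 5429790307) (nat_lit 365) (nat_lit 5) (nat_lit 383) (nat_lit 5) (nat_lit 384) (nat_lit 5) (nat_lit 276) (nat_lit 252) (nat_lit 192)) (XT.lf (nat_lit 0) (nat_lit 4436360991) (nat_lit 1596) (nat_lit 2660650114) (nat_lit 84) (nat_lit 845407143) (nat_lit 365) (nat_lit 5) (nat_lit 384) (nat_lit 5) (nat_lit 366) (nat_lit 5) (nat_lit 277) (nat_lit 252) (nat_lit 191)))))) (XT.nd (nat_lit 658) (nat_lit 4788) (nat_lit 0) (XT.nd (nat_lit 282) (nat_lit 3696) (nat_lit 0) (XT.nd (nat_lit 94) (nat_lit 1764) (nat_lit 0)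 (XT.lf (nat_lit 0) (nat_lit 2089931886) (nat_lit 1596) (nat_lit 4368919720) (nat_lit 1680) (nat_lit 1550993114) (nat_lit 346) (nat_lit 5) (nat_lit 365) (nat_lit 5) (nat_lit 366) (nat_lit 5) (nat_lit 278) (nat_lit 252) (nat_lit 190)) (XT.nd (nat_lit 94) (nat_lit 1680) (nat_lit 0) (XT.lf (nat_lit 0) (nat_lit 421323075) (nat_lit 1680) (nat_lit 1130757828) (nat_lit 84) (nat_lit 6527028650) (nat_lit 345) (nat_lit 5) (nat_lit 365) (nat_lit 5) (nat_lit 346) (nat_lit 5) (nat_lit 279) (nat_lit 252) (nat_lit 189)) (XT.lf (nat_lit 0) (nat_lit 2412571895) (nat_lit 1764) (nat_lit 4385987739) (nat_lit 84) (nat_lit 1351125979) (nat_lit 325) (nat_lit 5) (nat_lit 346) (nat_lit 5) (nat_lit 326) (nat_lit 5) (nat_lit 280) (nat_lit 252) (nat_lit 188)))) (XT.nd (nat_lit 188) (nat_lit 1932) (nat_lit 0) (XT.nd (nat_lit 94) (nat_lit 0) (nat_lit 0) (XT.lf (nat_lit 0) (nat_lit 523503062) (nat_lit 1764) (nat_lit 3909916299) (nat_lit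 1848) (nat_lit 3788707580) (nat_lit 304) (nat_lit 5) (nat_lit 325) (nat_lit 5) (nat_lit 326) (nat_lit 5) (nat_lit 281) (nat_lit 252) (nat_lit 187)) (XT.lf (nat_lit 0) (nat_lit 5572985922) (nat_lit 1764) (nat_lit 921057711) (nat_lit 1848) (nat_lit 1802221346) (nat_lit 304) (nat_lit 5) (nat_lit 325) (nat_lit 5) (nat_lit 326) (nat_lit 5) (nat_lit 282) (nat_lit 252) (nat_lit 186))) (XT.nd (nat_lit 94) (nat_lit 0) (nat_lit 0) (XT.lf (nat_lit 0) (nat_lit 220309736) (nat_lit 1932) (nat_lit 6027222793) (nat_lit 84) (nat_lit 2124562036) (nat_lit 281) (nat_lit 5) (nat_lit 304) (nat_lit 5) (nat_lit 282) (nat_lit 5) (nat_lit 283) (nat_lit 252) (nat_lit 185)) (XT.lf (nat_lit 0) (nat_lit 2251801865) (nat_lit 1932) (nat_lit 937833301) (nat_lit 84) (nat_lit 5259866723) (nat_lit 281) (nat_lit 5) (nat_lit 304) (nat_lit 5) (nat_lit 282) (nat_lit 5) (nat_lit 284) (nat_lit 252) (nat_lit 184))))) (XT.nd (nat_lit 376) (nat_lit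 1764) (nat_lit 0) (XT.nd (nat_lit 188) (nat_lit 1008) (nat_lit 0) (XT.nd (nat_lit 94) (nat_lit 924) (nat_lit 0) (XT.lf (nat_lit 0) (nat_lit 4292167295) (nat_lit 1092) (nat_lit 31195427) (nat_lit 1176) (nat_lit 4205351182) (nat_lit 268) (nat_lit 5) (nat_lit 281) (nat_lit 5) (nat_lit 282) (nat_lit 5) (nat_lit 285) (nat_lit 252) (nat_lit 183)) (XT.lf (nat_lit 0) (nat_lit 999582295) (nat_lit 924) (nat_lit 5443121768) (nat_lit 1008) (nat_lit 2166915987) (nat_lit 257) (nat_lit 5) (nat_lit 268) (nat_lit 5) (nat_lit 269) (nat_lit 5) (nat_lit 286) (nat_lit 252) (nat_lit 182))) (XT.nd (nat_lit 94) (nat_lit 1008) (nat_lit 0) (XT.lf (nat_lit 0) (nat_lit 6380480997) (nat_lit 924) (nat_lit 2225552928) (nat_lit 1008) (nat_lit 86330217) (nat_lit 257) (nat_lit 5) (nat_lit 268) (nat_lit 5) (nat_lit 269) (nat_lit 5) (nat_lit 287) (nat_lit 252) (nat_lit 181)) (XT.lf (nat_lit 0) (nat_lit 2006902553) (nat_lit 1008) (nat_lit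 5684998636) (nat_lit 84) (nat_lit 1084790067) (nat_lit 245) (nat_lit 5) (nat_lit 257) (nat_lit 5) (nat_lit 246) (nat_lit 5) (nat_lit 288) (nat_lit 252) (nat_lit 180)))) (XT.nd (nat_lit 188) (nat_lit 924) (nat_lit 0) (XT.nd (nat_lit 94) (nat_lit 840) (nat_lit 0) (XT.lf (nat_lit 0) (nat_lit 4145145991) (nat_lit 1008) (nat_lit 264507637) (nat_lit 84) (nat_lit 4453201044) (nat_lit 245) (nat_lit 5) (nat_lit 257) (nat_lit 5) (nat_lit 246) (nat_lit 5) (nat_lit 289) (nat_lit 252) (nat_lit 179)) (XT.lf (nat_lit 0) (nat_lit 5318837992) (nat_lit 840) (nat_lit 1017021978) (nat_lit 924) (nat_lit 2614934272) (nat_lit 235) (nat_lit 5) (nat_lit 245) (nat_lit 5) (nat_lit 246) (nat_lit 5) (nat_lit 290) (nat_lit 252) (nat_lit 178))) (XT.nd (nat_lit 94) (nat_lit 84) (nat_lit 0) (XT.lf (nat_lit 0) (nat_lit 1965722772) (nat_lit 840) (nat_lit 6610472499) (nat_lit 924) (nat_lit 464441846) (nat_lit 225) (nat_lit 5) (nat_lit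 235) (nat_lit 5) (nat_lit 236) (nat_lit 5) (nat_lit 291) (nat_lit 252) (nat_lit 177)) (XT.lf (nat_lit 0) (nat_lit 1711045651) (nat_lit 924) (nat_lit 1444704722) (nat_lit 84) (nat_lit 5976376225) (nat_lit 224) (nat_lit 5) (nat_lit 235) (nat_lit 5) (nat_lit 225) (nat_lit 5) (nat_lit 292) (nat_lit 252) (nat_lit 176))))))) (XT.nd (nat_lit 1410) (nat_lit 1932) (nat_lit 0) (XT.nd (nat_lit 658) (nat_lit 3612) (nat_lit 0) (XT.nd (nat_lit 282) (nat_lit 2352) (nat_lit 0) (XT.nd (nat_lit 94) (nat_lit 840) (nat_lit 0) (XT.lf (nat_lit 0) (nat_lit 3930255188) (nat_lit 924) (nat_lit 4892994754) (nat_lit 84) (nat_lit 402245164) (nat_lit 214) (nat_lit 5) (nat_lit 225) (nat_lit 5) (nat_lit 215) (nat_lit 5) (nat_lit 293) (nat_lit 252) (nat_lit 175)) (XT.nd (nat_lit 94) (nat_lit 0) (nat_lit 0) (XT.lf (nat_lit 0) (nat_lit 894142003) (nat_lit 840) (nat_lit 5313566614) (nat_lit 924) (nat_lit 3113001837) (nat_lit 204) (nat_lit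 5) (nat_lit 214) (nat_lit 5) (nat_lit 215) (nat_lit 5) (nat_lit 294) (nat_lit 252) (nat_lit 174)) (XT.lf (nat_lit 0) (nat_lit 6848531741) (nat_lit 840) (nat_lit 1692629368) (nat_lit 924) (nat_lit 876729738) (nat_lit 204) (nat_lit 5) (nat_lit 214) (nat_lit 5) (nat_lit 215) (nat_lit 5) (nat_lit 295) (nat_lit 252) (nat_lit 173)))) (XT.nd (nat_lit 188) (nat_lit 1512) (nat_lit 0) (XT.nd (nat_lit 94) (nat_lit 0) (nat_lit 0) (XT.lf (nat_lit 0) (nat_lit 1397555131) (nat_lit 840) (nat_lit 6108526039) (nat_lit 84) (nat_lit 2010706961) (nat_lit 194) (nat_lit 5) (nat_lit 204) (nat_lit 5) (nat_lit 195) (nat_lit 5) (nat_lit 296) (nat_lit 252) (nat_lit 172)) (XT.lf (nat_lit 0) (nat_lit 3710983088) (nat_lit 840) (nat_lit 113772104) (nat_lit 84) (nat_lit 5792921232) (nat_lit 194) (nat_lit 5) (nat_lit 204) (nat_lit 5) (nat_lit 195) (nat_lit 5) (nat_lit 297) (nat_lit 252) (nat_lit 171))) (XT.nd (nat_lit 94) (nat_lit 756)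 (nat_lit 0) (XT.lf (nat_lit 0) (nat_lit 6067726473) (nat_lit 756) (nat_lit 22011002) (nat_lit 840) (nat_lit 3630729302) (nat_lit 185) (nat_lit 5) (nat_lit 194) (nat_lit 5) (nat_lit 195) (nat_lit 5) (nat_lit 298) (nat_lit 252) (nat_lit 170)) (XT.lf (nat_lit 0) (nat_lit 2537536251) (nat_lit 756) (nat_lit 6001308230) (nat_lit 840) (nat_lit 1286277597) (nat_lit 176) (nat_lit 5) (nat_lit 185) (nat_lit 5) (nat_lit 186) (nat_lit 5) (nat_lit 299) (nat_lit 252) (nat_lit 169))))) (XT.nd (nat_lit 376) (nat_lit 2100) (nat_lit 0) (XT.nd (nat_lit 188) (nat_lit 672) (nat_lit 0) (XT.nd (nat_lit 94) (nat_lit 756) (nat_lit 0) (XT.lf (nat_lit 0) (nat_lit 1092851323) (nat_lit 840) (nat_lit 1054266304) (nat_lit 84) (nat_lit 7784808426) (nat_lit 175) (nat_lit 5) (nat_lit 185) (nat_lit 5) (nat_lit 176) (nat_lit 5) (nat_lit 300) (nat_lit 252) (nat_lit 168)) (XT.lf (nat_lit 0) (nat_lit 3528937712) (nat_lit 840) (nat_lit 4702177457)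 (nat_lit 84) (nat_lit 1809240423) (nat_lit 166) (nat_lit 5) (nat_lit 176) (nat_lit 5) (nat_lit 167) (nat_lit 5) (nat_lit 301) (nat_lit 252) (nat_lit 167))) (XT.nd (nat_lit 94) (nat_lit 0) (nat_lit 0) (XT.lf (nat_lit 0) (nat_lit 1712286100) (nat_lit 672) (nat_lit 4314689851) (nat_lit 756) (nat_lit 4124010754) (nat_lit 158) (nat_lit 5) (nat_lit 166) (nat_lit 5) (nat_lit 167) (nat_lit 5) (nat_lit 302) (nat_lit 252) (nat_lit 166)) (XT.lf (nat_lit 0) (nat_lit 8305640523) (nat_lit 672) (nat_lit 282105320) (nat_lit 756) (nat_lit 1676134813) (nat_lit 158) (nat_lit 5) (nat_lit 166) (nat_lit 5) (nat_lit 167) (nat_lit 5) (nat_lit 303) (nat_lit 252) (nat_lit 165)))) (XT.nd (nat_lit 188) (nat_lit 672) (nat_lit 0) (XT.nd (nat_lit 94) (nat_lit 672) (nat_lit 0) (XT.lf (nat_lit 0) (nat_lit 848167633) (nat_lit 756) (nat_lit 5712192979) (nat_lit 84) (nat_lit 3818010067) (nat_lit 149) (nat_lit 5) (nat_lit 158) (nat_lit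 5) (nat_lit 150) (nat_lit 5) (nat_lit 304) (nat_lit 252) (nat_lit 164)) (XT.lf (nat_lit 0) (nat_lit 937206826) (nat_lit 672) (nat_lit 2463159604) (nat_lit 756) (nat_lit 7094809843) (nat_lit 141) (nat_lit 5) (nat_lit 149) (nat_lit 5) (nat_lit 150) (nat_lit 5) (nat_lit 305) (nat_lit 252) (nat_lit 163))) (XT.nd (nat_lit 94) (nat_lit 672) (nat_lit 0) (XT.lf (nat_lit 0) (nat_lit 6037521123) (nat_lit 756) (nat_lit 2840746273) (nat_lit 84) (nat_lit 1735650432) (nat_lit 141) (nat_lit 5) (nat_lit 150) (nat_lit 5) (nat_lit 142) (nat_lit 5) (nat_lit 306) (nat_lit 252) (nat_lit 162)) (XT.lf (nat_lit 0) (nat_lit 4032367851) (nat_lit 672) (nat_lit 4721566122) (nat_lit 756) (nat_lit 1980870426) (nat_lit 133) (nat_lit 5) (nat_lit 141) (nat_lit 5) (nat_lit 142) (nat_lit 5) (nat_lit 307) (nat_lit 252) (nat_lit 161)))))) (XT.nd (nat_lit 40232) (nat_lit 0) (nat_lit 29232) (XT.nd (nat_lit 282) (nat_lit 672) (nat_lit 0) (XT.nd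 (nat_lit 94) (nat_lit 588) (nat_lit 0) (XT.lf (nat_lit 0) (nat_lit 207100646) (nat_lit 588) (nat_lit 452315450) (nat_lit 672) (nat_lit 10198887755) (nat_lit 125) (nat_lit 5) (nat_lit 132) (nat_lit 5) (nat_lit 133) (nat_lit 5) (nat_lit 308) (nat_lit 252) (nat_lit 160)) (XT.nd (nat_lit 94) (nat_lit 588) (nat_lit 0) (XT.lf (nat_lit 0) (nat_lit 3381345514) (nat_lit 672) (nat_lit 3689760433) (nat_lit 84) (nat_lit 3911937360) (nat_lit 125) (nat_lit 5) (nat_lit 133) (nat_lit 5) (nat_lit 126) (nat_lit 5) (nat_lit 309) (nat_lit 252) (nat_lit 159)) (XT.lf (nat_lit 0) (nat_lit 3439337020) (nat_lit 588) (nat_lit 2727141069) (nat_lit 672) (nat_lit 4943975884) (nat_lit 118) (nat_lit 5) (nat_lit 125) (nat_lit 5) (nat_lit 126) (nat_lit 5) (nat_lit 310) (nat_lit 252) (nat_lit 158)))) (XT.nd (nat_lit 39762) (nat_lit 0) (nat_lit 31248) (XT.nd (nat_lit 94) (nat_lit 672) (nat_lit 0) (XT.lf (nat_lit 0) (nat_lit 9028312229)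 (nat_lit 672) (nat_lit 504074089) (nat_lit 84) (nat_lit 1707941927) (nat_lit 118) (nat_lit 5) (nat_lit 126) (nat_lit 5) (nat_lit 119) (nat_lit 5) (nat_lit 311) (nat_lit 252) (nat_lit 157)) (XT.lf (nat_lit 0) (nat_lit 617099468) (nat_lit 672) (nat_lit 4508113662) (nat_lit 84) (nat_lit 6246756766) (nat_lit 110) (nat_lit 5) (nat_lit 118) (nat_lit 5) (nat_lit 111) (nat_lit 5) (nat_lit 312) (nat_lit 252) (nat_lit 156))) (XT.nd (nat_lit 94) (nat_lit 0) (nat_lit 0) (XT.lf (nat_lit 0) (nat_lit 546540295) (nat_lit 0) (nat_lit 546540295) (nat_lit 924) (nat_lit 2321409508) (nat_lit 482) (nat_lit 5) (nat_lit 482) (nat_lit 3) (nat_lit 493) (nat_lit 3) (nat_lit 253) (nat_lit 253) (nat_lit 214)) (XT.lf (nat_lit 0) (nat_lit 4237365795) (nat_lit 924) (nat_lit 2308932020) (nat_lit 1008) (nat_lit 313203714) (nat_lit 482) (nat_lit 5) (nat_lit 493) (nat_lit 3) (nat_lit 494) (nat_lit 5) (nat_lit 254) (nat_lit 253) (nat_lit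 213))))) (XT.nd (nat_lit 376) (nat_lit 1008) (nat_lit 0) (XT.nd (nat_lit 188) (nat_lit 0) (nat_lit 0) (XT.nd (nat_lit 94) (nat_lit 1008) (nat_lit 0) (XT.lf (nat_lit 84) (nat_lit 1171691459) (nat_lit 0) (nat_lit 5120187188) (nat_lit 1008) (nat_lit 599735684) (nat_lit 483) (nat_lit 5) (nat_lit 482) (nat_lit 5) (nat_lit 494) (nat_lit 5) (nat_lit 255) (nat_lit 253) (nat_lit 212)) (XT.lf (nat_lit 0) (nat_lit 1405700838) (nat_lit 1008) (nat_lit 2202535223) (nat_lit 1092) (nat_lit 3316854775) (nat_lit 470) (nat_lit 5) (nat_lit 482) (nat_lit 5) (nat_lit 483) (nat_lit 5) (nat_lit 256) (nat_lit 253) (nat_lit 211))) (XT.nd (nat_lit 94) (nat_lit 0) (nat_lit 0) (XT.lf (nat_lit 84) (nat_lit 1377102109) (nat_lit 0) (nat_lit 2022870685) (nat_lit 1092) (nat_lit 3560257011) (nat_lit 471) (nat_lit 5) (nat_lit 470) (nat_lit 5) (nat_lit 483) (nat_lit 5) (nat_lit 257) (nat_lit 253) (nat_lit 210)) (XT.lf (nat_lit 84) (nat_lit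 5038006409) (nat_lit 0) (nat_lit 361110320) (nat_lit 1092) (nat_lit 1597883146) (nat_lit 471) (nat_lit 5) (nat_lit 470) (nat_lit 5) (nat_lit 483) (nat_lit 5) (nat_lit 258) (nat_lit 253) (nat_lit 209)))) (XT.nd (nat_lit 188) (nat_lit 0) (nat_lit 0) (XT.nd (nat_lit 94) (nat_lit 0) (nat_lit 0) (XT.lf (nat_lit 0) (nat_lit 369492951) (nat_lit 1092) (nat_lit 5308792430) (nat_lit 1176) (nat_lit 1356940183) (nat_lit 458) (nat_lit 5) (nat_lit 471) (nat_lit 5) (nat_lit 472) (nat_lit 5) (nat_lit 259) (nat_lit 253) (nat_lit 208)) (XT.lf (nat_lit 0) (nat_lit 2320481959) (nat_lit 1092) (nat_lit 1597788127) (nat_lit 1176) (nat_lit 3156561484) (nat_lit 458) (nat_lit 5) (nat_lit 471) (nat_lit 5) (nat_lit 472) (nat_lit 5) (nat_lit 260) (nat_lit 253) (nat_lit 207))) (XT.nd (nat_lit 94) (nat_lit 0) (nat_lit 0) (XT.lf (nat_lit 84) (nat_lit 2195517352) (nat_lit 0) (nat_lit 2082310625) (nat_lit 1176) (nat_lit 2838285354) (nat_lit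 459) (nat_lit 5) (nat_lit 458) (nat_lit 5) (nat_lit 472) (nat_lit 5) (nat_lit 261) (nat_lit 253) (nat_lit 206)) (XT.lf (nat_lit 84) (nat_lit 6065399211) (nat_lit 0) (nat_lit 173339056) (nat_lit 1176) (nat_lit 920433967) (nat_lit 459) (nat_lit 5) (nat_lit 458) (nat_lit 5) (nat_lit 472) (nat_lit 5) (nat_lit 262) (nat_lit 253) (nat_lit 205))))))))
noncomputable def xc37 : XT := (XT.nd (nat_lit 2820) (nat_lit 9492) (nat_lit 0) (XT.nd (nat_lit 1410) (nat_lit 11844) (nat_lit 0) (XT.nd (nat_lit 658) (nat_lit 5544) (nat_lit 0) (XT.nd (nat_lit 282) (nat_lit 1176) (nat_lit 0) (XT.nd (nat_lit 94) (nat_lit 0) (nat_lit 0) (XT.lf (nat_lit 0) (nat_lit 1007164318) (nat_lit 1176) (nat_lit 4397059657) (nat_lit 1260) (nat_lit 1799175925) (nat_lit 445) (nat_lit 5) (nat_lit 459) (nat_lit 5) (nat_lit 460) (nat_lit 5) (nat_lit 263) (nat_lit 253) (nat_lit 204)) (XT.nd (nat_lit 94) (nat_lit 0) (nat_lit 0) (XT.lf (nat_lit 0)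 (nat_lit 2923466827) (nat_lit 1176) (nat_lit 479675786) (nat_lit 1260) (nat_lit 3846193937) (nat_lit 445) (nat_lit 5) (nat_lit 459) (nat_lit 5) (nat_lit 460) (nat_lit 5) (nat_lit 264) (nat_lit 253) (nat_lit 203)) (XT.lf (nat_lit 84) (nat_lit 3543794278) (nat_lit 0) (nat_lit 1314889921) (nat_lit 1260) (nat_lit 2438110971) (nat_lit 446) (nat_lit 5) (nat_lit 445) (nat_lit 5) (nat_lit 460) (nat_lit 5) (nat_lit 265) (nat_lit 253) (nat_lit 202)))) (XT.nd (nat_lit 188) (nat_lit 0) (nat_lit 0) (XT.nd (nat_lit 94) (nat_lit 1260) (nat_lit 0) (XT.lf (nat_lit 84) (nat_lit 283870498) (nat_lit 0) (nat_lit 6516488664) (nat_lit 1260) (nat_lit 545733295) (nat_lit 447) (nat_lit 5) (nat_lit 446) (nat_lit 5) (nat_lit 461) (nat_lit 5) (nat_lit 266) (nat_lit 253) (nat_lit 201)) (XT.lf (nat_lit 0) (nat_lit 1358688200) (nat_lit 1260) (nat_lit 2982460133) (nat_lit 1344) (nat_lit 3055319436) (nat_lit 431) (nat_lit 5) (nat_lit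 446) (nat_lit 5) (nat_lit 447) (nat_lit 5) (nat_lit 267) (nat_lit 253) (nat_lit 200))) (XT.nd (nat_lit 94) (nat_lit 0) (nat_lit 84) (XT.lf (nat_lit 84) (nat_lit 1168070583) (nat_lit 0) (nat_lit 2091149302) (nat_lit 1344) (nat_lit 4189474635) (nat_lit 432) (nat_lit 5) (nat_lit 431) (nat_lit 5) (nat_lit 447) (nat_lit 5) (nat_lit 268) (nat_lit 253) (nat_lit 199)) (XT.lf (nat_lit 0) (nat_lit 5180027174) (nat_lit 1260) (nat_lit 2081474752) (nat_lit 1344) (nat_lit 241042127) (nat_lit 432) (nat_lit 5) (nat_lit 447) (nat_lit 5) (nat_lit 448) (nat_lit 5) (nat_lit 269) (nat_lit 253) (nat_lit 198))))) (XT.nd (nat_lit 376) (nat_lit 3024) (nat_lit 0) (XT.nd (nat_lit 188) (nat_lit 1260) (nat_lit 0) (XT.nd (nat_lit 94) (nat_lit 1344) (nat_lit 0) (XT.lf (nat_lit 84) (nat_lit 2194441987) (nat_lit 0) (nat_lit 4935268394) (nat_lit 1344) (nat_lit 428162296) (nat_lit 433) (nat_lit 5) (nat_lit 432) (nat_lit 5) (nat_lit 448)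 (nat_lit 5) (nat_lit 270) (nat_lit 253) (nat_lit 197)) (XT.lf (nat_lit 0) (nat_lit 1457808780) (nat_lit 1344) (nat_lit 1061823498) (nat_lit 1428) (nat_lit 5095173458) (nat_lit 416) (nat_lit 5) (nat_lit 432) (nat_lit 5) (nat_lit 433) (nat_lit 5) (nat_lit 271) (nat_lit 253) (nat_lit 196))) (XT.nd (nat_lit 94) (nat_lit 1260) (nat_lit 0) (XT.lf (nat_lit 84) (nat_lit 3347812354) (nat_lit 0) (nat_lit 12119405) (nat_lit 1428) (nat_lit 4313409803) (nat_lit 417) (nat_lit 5) (nat_lit 416) (nat_lit 5) (nat_lit 433) (nat_lit 5) (nat_lit 272) (nat_lit 253) (nat_lit 195)) (XT.lf (nat_lit 0) (nat_lit 87882519) (nat_lit 1344) (nat_lit 5200604256) (nat_lit 1428) (nat_lit 2445017521) (nat_lit 401) (nat_lit 5) (nat_lit 417) (nat_lit 5) (nat_lit 418) (nat_lit 5) (nat_lit 273) (nat_lit 253) (nat_lit 194)))) (XT.nd (nat_lit 188) (nat_lit 1512) (nat_lit 0) (XT.nd (nat_lit 94) (nat_lit 1512) (nat_lit 0) (XT.lf (nat_lit 0) (nat_lit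 4630653045) (nat_lit 1344) (nat_lit 2619422104) (nat_lit 1428) (nat_lit 545122150) (nat_lit 401) (nat_lit 5) (nat_lit 417) (nat_lit 5) (nat_lit 418) (nat_lit 5) (nat_lit 274) (nat_lit 253) (nat_lit 193)) (XT.lf (nat_lit 0) (nat_lit 1345882237) (nat_lit 1512) (nat_lit 6465965493) (nat_lit 84) (nat_lit 46853579) (nat_lit 383) (nat_lit 5) (nat_lit 401) (nat_lit 5) (nat_lit 384) (nat_lit 5) (nat_lit 275) (nat_lit 253) (nat_lit 192))) (XT.nd (nat_lit 94) (nat_lit 1512) (nat_lit 0) (XT.lf (nat_lit 0) (nat_lit 3272953342) (nat_lit 1512) (nat_lit 1881619334) (nat_lit 84) (nat_lit 2768887670) (nat_lit 383) (nat_lit 5) (nat_lit 401) (nat_lit 5) (nat_lit 384) (nat_lit 5) (nat_lit 276) (nat_lit 253) (nat_lit 191)) (XT.lf (nat_lit 0) (nat_lit 2811928233) (nat_lit 1512) (nat_lit 2411260602) (nat_lit 1596) (nat_lit 2766878332) (nat_lit 365) (nat_lit 5) (nat_lit 383) (nat_lit 5) (nat_lit 384) (nat_lit 5) (nat_lit 277)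 (nat_lit 253) (nat_lit 190)))))) (XT.nd (nat_lit 658) (nat_lit 4788) (nat_lit 0) (XT.nd (nat_lit 282) (nat_lit 3696) (nat_lit 0) (XT.nd (nat_lit 94) (nat_lit 3360) (nat_lit 0) (XT.lf (nat_lit 0) (nat_lit 7194528579) (nat_lit 1596) (nat_lit 456714357) (nat_lit 84) (nat_lit 407376024) (nat_lit 365) (nat_lit 5) (nat_lit 384) (nat_lit 5) (nat_lit 366) (nat_lit 5) (nat_lit 278) (nat_lit 253) (nat_lit 189)) (XT.nd (nat_lit 94) (nat_lit 1680) (nat_lit 0) (XT.lf (nat_lit 0) (nat_lit 1076078850) (nat_lit 1680) (nat_lit 3754185175) (nat_lit 84) (nat_lit 3298001696) (nat_lit 345) (nat_lit 5) (nat_lit 365) (nat_lit 5) (nat_lit 346) (nat_lit 5) (nat_lit 279) (nat_lit 253) (nat_lit 188)) (XT.lf (nat_lit 0) (nat_lit 1095639933) (nat_lit 1680) (nat_lit 1924325353) (nat_lit 1764) (nat_lit 5179918468) (nat_lit 325) (nat_lit 5) (nat_lit 345) (nat_lit 5) (nat_lit 346) (nat_lit 5) (nat_lit 280) (nat_lit 253) (nat_lit 187))))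 (XT.nd (nat_lit 188) (nat_lit 1932) (nat_lit 0) (XT.nd (nat_lit 94) (nat_lit 1764) (nat_lit 0) (XT.lf (nat_lit 0) (nat_lit 5005156996) (nat_lit 1764) (nat_lit 2204925653) (nat_lit 84) (nat_lit 1063026860) (nat_lit 325) (nat_lit 5) (nat_lit 346) (nat_lit 5) (nat_lit 326) (nat_lit 5) (nat_lit 281) (nat_lit 253) (nat_lit 186)) (XT.lf (nat_lit 0) (nat_lit 2796113307) (nat_lit 1764) (nat_lit 4235789575) (nat_lit 1848) (nat_lit 1316089989) (nat_lit 304) (nat_lit 5) (nat_lit 325) (nat_lit 5) (nat_lit 326) (nat_lit 5) (nat_lit 282) (nat_lit 253) (nat_lit 185))) (XT.nd (nat_lit 94) (nat_lit 1848) (nat_lit 0) (XT.lf (nat_lit 0) (nat_lit 649585256) (nat_lit 1848) (nat_lit 521629566) (nat_lit 84) (nat_lit 7253628241) (nat_lit 303) (nat_lit 5) (nat_lit 325) (nat_lit 5) (nat_lit 304) (nat_lit 5) (nat_lit 283) (nat_lit 253) (nat_lit 184)) (XT.lf (nat_lit 0) (nat_lit 2651529485) (nat_lit 1932) (nat_lit 3872826397) (nat_lit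 84) (nat_lit 1978544559) (nat_lit 281) (nat_lit 5) (nat_lit 304) (nat_lit 5) (nat_lit 282) (nat_lit 5) (nat_lit 284) (nat_lit 253) (nat_lit 183))))) (XT.nd (nat_lit 376) (nat_lit 2688) (nat_lit 0) (XT.nd (nat_lit 188) (nat_lit 1008) (nat_lit 0) (XT.nd (nat_lit 94) (nat_lit 0) (nat_lit 0) (XT.lf (nat_lit 0) (nat_lit 1297994091) (nat_lit 1092) (nat_lit 3386735147) (nat_lit 1176) (nat_lit 3898227162) (nat_lit 268) (nat_lit 5) (nat_lit 281) (nat_lit 5) (nat_lit 282) (nat_lit 5) (nat_lit 285) (nat_lit 253) (nat_lit 182)) (XT.lf (nat_lit 0) (nat_lit 6608186388) (nat_lit 1092) (nat_lit 149150278) (nat_lit 1176) (nat_lit 1907554025) (nat_lit 268) (nat_lit 5) (nat_lit 281) (nat_lit 5) (nat_lit 282) (nat_lit 5) (nat_lit 286) (nat_lit 253) (nat_lit 181))) (XT.nd (nat_lit 94) (nat_lit 0) (nat_lit 0) (XT.lf (nat_lit 0) (nat_lit 137856010) (nat_lit 1008) (nat_lit 5470324288) (nat_lit 84) (nat_lit 3140146408) (nat_lit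 256) (nat_lit 5) (nat_lit 268) (nat_lit 5) (nat_lit 257) (nat_lit 5) (nat_lit 287) (nat_lit 253) (nat_lit 180)) (XT.lf (nat_lit 0) (nat_lit 2183635267) (nat_lit 1008) (nat_lit 120081591) (nat_lit 84) (nat_lit 6529940055) (nat_lit 256) (nat_lit 5) (nat_lit 268) (nat_lit 5) (nat_lit 257) (nat_lit 5) (nat_lit 288) (nat_lit 253) (nat_lit 179)))) (XT.nd (nat_lit 188) (nat_lit 924) (nat_lit 0) (XT.nd (nat_lit 94) (nat_lit 840) (nat_lit 0) (XT.lf (nat_lit 0) (nat_lit 4288542101) (nat_lit 1008) (nat_lit 3534927829) (nat_lit 84) (nat_lit 1097083805) (nat_lit 245) (nat_lit 5) (nat_lit 257) (nat_lit 5) (nat_lit 246) (nat_lit 5) (nat_lit 289) (nat_lit 253) (nat_lit 178)) (XT.lf (nat_lit 0) (nat_lit 1984420306) (nat_lit 840) (nat_lit 4455376984) (nat_lit 924) (nat_lit 2569564107) (nat_lit 235) (nat_lit 5) (nat_lit 245) (nat_lit 5) (nat_lit 246) (nat_lit 5) (nat_lit 290) (nat_lit 253) (nat_lit 177))) (XT.nd (nat_lit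 94) (nat_lit 924) (nat_lit 0) (XT.lf (nat_lit 0) (nat_lit 7645928336) (nat_lit 840) (nat_lit 987257765) (nat_lit 924) (nat_lit 467050995) (nat_lit 235) (nat_lit 5) (nat_lit 245) (nat_lit 5) (nat_lit 246) (nat_lit 5) (nat_lit 291) (nat_lit 253) (nat_lit 176)) (XT.lf (nat_lit 0) (nat_lit 1675477554) (nat_lit 924) (nat_lit 4954994125) (nat_lit 84) (nat_lit 2561981229) (nat_lit 224) (nat_lit 5) (nat_lit 235) (nat_lit 5) (nat_lit 225) (nat_lit 5) (nat_lit 292) (nat_lit 253) (nat_lit 175))))))) (XT.nd (nat_lit 1410) (nat_lit 2520) (nat_lit 0) (XT.nd (nat_lit 658) (nat_lit 3696) (nat_lit 0) (XT.nd (nat_lit 282) (nat_lit 1596) (nat_lit 0) (XT.nd (nat_lit 94) (nat_lit 840) (nat_lit 0) (XT.lf (nat_lit 0) (nat_lit 757700240) (nat_lit 840) (nat_lit 3093548622) (nat_lit 924) (nat_lit 5435528196) (nat_lit 214) (nat_lit 5) (nat_lit 224) (nat_lit 5) (nat_lit 225) (nat_lit 5) (nat_lit 293) (nat_lit 253) (nat_lit 174))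 (XT.nd (nat_lit 94) (nat_lit 840) (nat_lit 0) (XT.lf (nat_lit 0) (nat_lit 6085455226) (nat_lit 924) (nat_lit 2748936963) (nat_lit 84) (nat_lit 548551652) (nat_lit 214) (nat_lit 5) (nat_lit 225) (nat_lit 5) (nat_lit 215) (nat_lit 5) (nat_lit 294) (nat_lit 253) (nat_lit 173)) (XT.lf (nat_lit 0) (nat_lit 3149242992) (nat_lit 840) (nat_lit 5235160690) (nat_lit 924) (nat_lit 1096479642) (nat_lit 204) (nat_lit 5) (nat_lit 214) (nat_lit 5) (nat_lit 215) (nat_lit 5) (nat_lit 295) (nat_lit 253) (nat_lit 172)))) (XT.nd (nat_lit 188) (nat_lit 756) (nat_lit 0) (XT.nd (nat_lit 94) (nat_lit 756) (nat_lit 0) (XT.lf (nat_lit 0) (nat_lit 1127628889) (nat_lit 924) (nat_lit 402809096) (nat_lit 84) (nat_lit 8050550572) (nat_lit 203) (nat_lit 5) (nat_lit 214) (nat_lit 5) (nat_lit 204) (nat_lit 5) (nat_lit 296) (nat_lit 253) (nat_lit 171)) (XT.lf (nat_lit 0) (nat_lit 3412983958) (nat_lit 840) (nat_lit 4000161685) (nat_lit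 84) (nat_lit 2269348810) (nat_lit 194) (nat_lit 5) (nat_lit 204) (nat_lit 5) (nat_lit 195) (nat_lit 5) (nat_lit 297) (nat_lit 253) (nat_lit 170))) (XT.nd (nat_lit 94) (nat_lit 0) (nat_lit 0) (XT.lf (nat_lit 0) (nat_lit 2108568516) (nat_lit 756) (nat_lit 3641035535) (nat_lit 840) (nat_lit 4036607710) (nat_lit 185) (nat_lit 5) (nat_lit 194) (nat_lit 5) (nat_lit 195) (nat_lit 5) (nat_lit 298) (nat_lit 253) (nat_lit 169)) (XT.lf (nat_lit 0) (nat_lit 8141099282) (nat_lit 840) (nat_lit 1514055159) (nat_lit 84) (nat_lit 236980079) (nat_lit 185) (nat_lit 5) (nat_lit 195) (nat_lit 5) (nat_lit 186) (nat_lit 5) (nat_lit 299) (nat_lit 253) (nat_lit 168))))) (XT.nd (nat_lit 376) (nat_lit 1428) (nat_lit 0) (XT.nd (nat_lit 188) (nat_lit 672) (nat_lit 0) (XT.nd (nat_lit 94) (nat_lit 756) (nat_lit 0) (XT.lf (nat_lit 0) (nat_lit 610093040) (nat_lit 840) (nat_lit 5207850340) (nat_lit 84) (nat_lit 4181611230) (nat_lit 175)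 (nat_lit 5) (nat_lit 185) (nat_lit 5) (nat_lit 176) (nat_lit 5) (nat_lit 300) (nat_lit 253) (nat_lit 167)) (XT.lf (nat_lit 0) (nat_lit 1121370538) (nat_lit 756) (nat_lit 1868222329) (nat_lit 840) (nat_lit 7119636186) (nat_lit 166) (nat_lit 5) (nat_lit 175) (nat_lit 5) (nat_lit 176) (nat_lit 5) (nat_lit 301) (nat_lit 253) (nat_lit 166))) (XT.nd (nat_lit 94) (nat_lit 672) (nat_lit 0) (XT.lf (nat_lit 0) (nat_lit 5448908766) (nat_lit 840) (nat_lit 2600569361) (nat_lit 84) (nat_lit 2171233930) (nat_lit 166) (nat_lit 5) (nat_lit 176) (nat_lit 5) (nat_lit 167) (nat_lit 5) (nat_lit 302) (nat_lit 253) (nat_lit 165)) (XT.lf (nat_lit 0) (nat_lit 3939075721) (nat_lit 672) (nat_lit 4038762876) (nat_lit 756) (nat_lit 2356467893) (nat_lit 158) (nat_lit 5) (nat_lit 166) (nat_lit 5) (nat_lit 167) (nat_lit 5) (nat_lit 303) (nat_lit 253) (nat_lit 164)))) (XT.nd (nat_lit 188) (nat_lit 672) (nat_lit 0) (XT.nd (nat_lit 94)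 (nat_lit 0) (nat_lit 0) (XT.lf (nat_lit 0) (nat_lit 105583444) (nat_lit 756) (nat_lit 10269364354) (nat_lit 84) (nat_lit 75540431) (nat_lit 149) (nat_lit 5) (nat_lit 158) (nat_lit 5) (nat_lit 150) (nat_lit 5) (nat_lit 304) (nat_lit 253) (nat_lit 163)) (XT.lf (nat_lit 0) (nat_lit 2638396457) (nat_lit 756) (nat_lit 3649165756) (nat_lit 84) (nat_lit 4280158100) (nat_lit 149) (nat_lit 5) (nat_lit 158) (nat_lit 5) (nat_lit 150) (nat_lit 5) (nat_lit 305) (nat_lit 253) (nat_lit 162))) (XT.nd (nat_lit 94) (nat_lit 0) (nat_lit 0) (XT.lf (nat_lit 0) (nat_lit 3130702415) (nat_lit 672) (nat_lit 2093383590) (nat_lit 756) (nat_lit 5463508095) (nat_lit 141) (nat_lit 5) (nat_lit 149) (nat_lit 5) (nat_lit 150) (nat_lit 5) (nat_lit 306) (nat_lit 253) (nat_lit 161)) (XT.lf (nat_lit 0) (nat_lit 7884565294) (nat_lit 756) (nat_lit 742447109) (nat_lit 84) (nat_lit 2182698805) (nat_lit 141) (nat_lit 5) (nat_lit 150) (nat_lit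 5) (nat_lit 142) (nat_lit 5) (nat_lit 307) (nat_lit 253) (nat_lit 160)))))) (XT.nd (nat_lit 40326) (nat_lit 0) (nat_lit 27972) (XT.nd (nat_lit 282) (nat_lit 1176) (nat_lit 0) (XT.nd (nat_lit 94) (nat_lit 672) (nat_lit 0) (XT.lf (nat_lit 0) (nat_lit 6266258738) (nat_lit 672) (nat_lit 4372860114) (nat_lit 756) (nat_lit 294614080) (nat_lit 133) (nat_lit 5) (nat_lit 141) (nat_lit 5) (nat_lit 142) (nat_lit 5) (nat_lit 308) (nat_lit 253) (nat_lit 159)) (XT.nd (nat_lit 94) (nat_lit 0) (nat_lit 0) (XT.lf (nat_lit 0) (nat_lit 2357550250) (nat_lit 672) (nat_lit 8694142386) (nat_lit 84) (nat_lit 8454106) (nat_lit 125) (nat_lit 5) (nat_lit 133) (nat_lit 5) (nat_lit 126) (nat_lit 5) (nat_lit 309) (nat_lit 253) (nat_lit 158)) (XT.lf (nat_lit 0) (nat_lit 5106341604) (nat_lit 672) (nat_lit 1629942542) (nat_lit 84) (nat_lit 4452072770) (nat_lit 125) (nat_lit 5) (nat_lit 133) (nat_lit 5) (nat_lit 126) (nat_lit 5) (nat_lit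 310) (nat_lit 253) (nat_lit 157)))) (XT.nd (nat_lit 39856) (nat_lit 0) (nat_lit 30072) (XT.nd (nat_lit 94) (nat_lit 588) (nat_lit 0) (XT.lf (nat_lit 0) (nat_lit 5640521389) (nat_lit 588) (nat_lit 2291834633) (nat_lit 672) (nat_lit 3386663199) (nat_lit 118) (nat_lit 5) (nat_lit 125) (nat_lit 5) (nat_lit 126) (nat_lit 5) (nat_lit 311) (nat_lit 253) (nat_lit 156)) (XT.lf (nat_lit 0) (nat_lit 1619567840) (nat_lit 588) (nat_lit 9217478752) (nat_lit 672) (nat_lit 615146421) (nat_lit 111) (nat_lit 5) (nat_lit 118) (nat_lit 5) (nat_lit 119) (nat_lit 5) (nat_lit 312) (nat_lit 253) (nat_lit 155))) (XT.nd (nat_lit 94) (nat_lit 1092) (nat_lit 0) (XT.lf (nat_lit 0) (nat_lit 1563798892) (nat_lit 0) (nat_lit 1563798892) (nat_lit 924) (nat_lit 317780768) (nat_lit 482) (nat_lit 5) (nat_lit 482) (nat_lit 3) (nat_lit 493) (nat_lit 3) (nat_lit 254) (nat_lit 254) (nat_lit 212)) (XT.lf (nat_lit 0) (nat_lit 1319469512) (nat_lit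 1092) (nat_lit 313203714) (nat_lit 1092) (nat_lit 5291022021) (nat_lit 469) (nat_lit 3) (nat_lit 482) (nat_lit 3) (nat_lit 482) (nat_lit 5) (nat_lit 255) (nat_lit 254) (nat_lit 211))))) (XT.nd (nat_lit 376) (nat_lit 1092) (nat_lit 0) (XT.nd (nat_lit 188) (nat_lit 1008) (nat_lit 0) (XT.nd (nat_lit 94) (nat_lit 0) (nat_lit 84) (XT.lf (nat_lit 84) (nat_lit 3225740148) (nat_lit 0) (nat_lit 49141172) (nat_lit 1092) (nat_lit 3683106952) (nat_lit 470) (nat_lit 5) (nat_lit 469) (nat_lit 3) (nat_lit 482) (nat_lit 5) (nat_lit 256) (nat_lit 254) (nat_lit 210)) (XT.lf (nat_lit 0) (nat_lit 5231766184) (nat_lit 1008) (nat_lit 186903864) (nat_lit 1092) (nat_lit 1575279709) (nat_lit 470) (nat_lit 5) (nat_lit 482) (nat_lit 5) (nat_lit 483) (nat_lit 5) (nat_lit 257) (nat_lit 254) (nat_lit 209))) (XT.nd (nat_lit 94) (nat_lit 0) (nat_lit 0) (XT.lf (nat_lit 0) (nat_lit 169005318) (nat_lit 1092) (nat_lit 3575991774) (nat_lit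 1176) (nat_lit 3286313998) (nat_lit 457) (nat_lit 5) (nat_lit 470) (nat_lit 5) (nat_lit 471) (nat_lit 5) (nat_lit 258) (nat_lit 254) (nat_lit 208)) (XT.lf (nat_lit 84) (nat_lit 69292888) (nat_lit 0) (nat_lit 1996030267) (nat_lit 1176) (nat_lit 5005020178) (nat_lit 458) (nat_lit 5) (nat_lit 457) (nat_lit 5) (nat_lit 471) (nat_lit 5) (nat_lit 259) (nat_lit 254) (nat_lit 207)))) (XT.nd (nat_lit 188) (nat_lit 1092) (nat_lit 0) (XT.nd (nat_lit 94) (nat_lit 0) (nat_lit 84) (XT.lf (nat_lit 84) (nat_lit 3818532350) (nat_lit 0) (nat_lit 158875355) (nat_lit 1176) (nat_lit 3133397532) (nat_lit 458) (nat_lit 5) (nat_lit 457) (nat_lit 5) (nat_lit 471) (nat_lit 5) (nat_lit 260) (nat_lit 254) (nat_lit 206)) (XT.lf (nat_lit 84) (nat_lit 462215643) (nat_lit 0) (nat_lit 5433797455) (nat_lit 1176) (nat_lit 1256926194) (nat_lit 459) (nat_lit 5) (nat_lit 458) (nat_lit 5) (nat_lit 472) (nat_lit 5) (nat_lit 261) (nat_lit 254)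 (nat_lit 205))) (XT.nd (nat_lit 94) (nat_lit 0) (nat_lit 0) (XT.lf (nat_lit 0) (nat_lit 626400689) (nat_lit 1176) (nat_lit 2883849337) (nat_lit 1260) (nat_lit 3686194705) (nat_lit 444) (nat_lit 5) (nat_lit 458) (nat_lit 5) (nat_lit 459) (nat_lit 5) (nat_lit 262) (nat_lit 254) (nat_lit 204)) (XT.lf (nat_lit 84) (nat_lit 981610815) (nat_lit 0) (nat_lit 1508568290) (nat_lit 1260) (nat_lit 4751461431) (nat_lit 445) (nat_lit 5) (nat_lit 444) (nat_lit 5) (nat_lit 459) (nat_lit 5) (nat_lit 263) (nat_lit 254) (nat_lit 203))))))))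
noncomputable def xc38 : XT := (XT.nd (nat_lit 2820) (nat_lit 8904) (nat_lit 0) (XT.nd (nat_lit 1410) (nat_lit 11844) (nat_lit 0) (XT.nd (nat_lit 658) (nat_lit 4200) (nat_lit 0) (XT.nd (nat_lit 282) (nat_lit 1260) (nat_lit 0) (XT.nd (nat_lit 94) (nat_lit 1260) (nat_lit 0) (XT.lf (nat_lit 0) (nat_lit 4371755966) (nat_lit 1176) (nat_lit 2347299650) (nat_lit 1260) (nat_lit 569285533) (nat_lit 445) (nat_lit 5) (nat_lit 459) (nat_lit 5) (nat_lit 460) (nat_lit 5) (nat_lit 264) (nat_lit 254) (nat_lit 202)) (XT.nd (nat_lit 94) (nat_lit 1260) (nat_lit 0) (XT.lf (nat_lit 84) (nat_lit 1633589192) (nat_lit 0) (nat_lit 4636313744) (nat_lit 1260) (nat_lit 1066712382) (nat_lit 446) (nat_lit 5) (nat_lit 445) (nat_lit 5) (nat_lit 460) (nat_lit 5) (nat_lit 265) (nat_lit 254) (nat_lit 201)) (XT.lf (nat_lit 0) (nat_lit 782478591) (nat_lit 1260) (nat_lit 1685384114) (nat_lit 1344) (nat_lit 4918608989) (nat_lit 430) (nat_lit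 5) (nat_lit 445) (nat_lit 5) (nat_lit 446) (nat_lit 5) (nat_lit 266) (nat_lit 254) (nat_lit 200)))) (XT.nd (nat_lit 188) (nat_lit 1260) (nat_lit 0) (XT.nd (nat_lit 94) (nat_lit 0) (nat_lit 84) (XT.lf (nat_lit 84) (nat_lit 2417430832) (nat_lit 0) (nat_lit 210473032) (nat_lit 1344) (nat_lit 4809982610) (nat_lit 431) (nat_lit 5) (nat_lit 430) (nat_lit 5) (nat_lit 446) (nat_lit 5) (nat_lit 267) (nat_lit 254) (nat_lit 199)) (XT.lf (nat_lit 0) (nat_lit 4496319870) (nat_lit 1260) (nat_lit 900655920) (nat_lit 1344) (nat_lit 2093843979) (nat_lit 431) (nat_lit 5) (nat_lit 446) (nat_lit 5) (nat_lit 447) (nat_lit 5) (nat_lit 268) (nat_lit 254) (nat_lit 198))) (XT.nd (nat_lit 94) (nat_lit 1344) (nat_lit 0) (XT.lf (nat_lit 84) (nat_lit 3325666366) (nat_lit 0) (nat_lit 3061284375) (nat_lit 1344) (nat_lit 1158382441) (nat_lit 432) (nat_lit 5) (nat_lit 431) (nat_lit 5) (nat_lit 447) (nat_lit 5) (nat_lit 269) (nat_lit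 254) (nat_lit 197)) (XT.lf (nat_lit 84) (nat_lit 21770168) (nat_lit 0) (nat_lit 649178335) (nat_lit 1428) (nat_lit 6930795281) (nat_lit 416) (nat_lit 5) (nat_lit 415) (nat_lit 5) (nat_lit 432) (nat_lit 5) (nat_lit 270) (nat_lit 254) (nat_lit 196))))) (XT.nd (nat_lit 376) (nat_lit 2940) (nat_lit 0) (XT.nd (nat_lit 188) (nat_lit 1344) (nat_lit 0) (XT.nd (nat_lit 94) (nat_lit 0) (nat_lit 0) (XT.lf (nat_lit 0) (nat_lit 2524919653) (nat_lit 1344) (nat_lit 3292474000) (nat_lit 1428) (nat_lit 1841784419) (nat_lit 416) (nat_lit 5) (nat_lit 432) (nat_lit 5) (nat_lit 433) (nat_lit 5) (nat_lit 271) (nat_lit 254) (nat_lit 195)) (XT.lf (nat_lit 84) (nat_lit 1068995282) (nat_lit 0) (nat_lit 3321062569) (nat_lit 1428) (nat_lit 3328469711) (nat_lit 417) (nat_lit 5) (nat_lit 416) (nat_lit 5) (nat_lit 433) (nat_lit 5) (nat_lit 272) (nat_lit 254) (nat_lit 194))) (XT.nd (nat_lit 94) (nat_lit 1344) (nat_lit 0) (XT.lf (nat_lit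 84) (nat_lit 5544788500) (nat_lit 0) (nat_lit 734482755) (nat_lit 1428) (nat_lit 1500284558) (nat_lit 417) (nat_lit 5) (nat_lit 416) (nat_lit 5) (nat_lit 433) (nat_lit 5) (nat_lit 273) (nat_lit 254) (nat_lit 193)) (XT.lf (nat_lit 0) (nat_lit 352158668) (nat_lit 1428) (nat_lit 5579657111) (nat_lit 84) (nat_lit 1910287736) (nat_lit 400) (nat_lit 5) (nat_lit 417) (nat_lit 5) (nat_lit 401) (nat_lit 5) (nat_lit 274) (nat_lit 254) (nat_lit 192)))) (XT.nd (nat_lit 188) (nat_lit 1512) (nat_lit 0) (XT.nd (nat_lit 94) (nat_lit 1428) (nat_lit 0) (XT.lf (nat_lit 0) (nat_lit 2205288829) (nat_lit 1428) (nat_lit 1061537502) (nat_lit 84) (nat_lit 4639356267) (nat_lit 400) (nat_lit 5) (nat_lit 417) (nat_lit 5) (nat_lit 401) (nat_lit 5) (nat_lit 275) (nat_lit 254) (nat_lit 191)) (XT.lf (nat_lit 0) (nat_lit 3576714346) (nat_lit 1428) (nat_lit 508854956) (nat_lit 1512) (nat_lit 3886401727) (nat_lit 383) (nat_lit 5) (nat_lit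 400) (nat_lit 5) (nat_lit 401) (nat_lit 5) (nat_lit 276) (nat_lit 254) (nat_lit 190))) (XT.nd (nat_lit 94) (nat_lit 0) (nat_lit 0) (XT.lf (nat_lit 0) (nat_lit 249447490) (nat_lit 1512) (nat_lit 5745480422) (nat_lit 1596) (nat_lit 2044549231) (nat_lit 365) (nat_lit 5) (nat_lit 383) (nat_lit 5) (nat_lit 384) (nat_lit 5) (nat_lit 277) (nat_lit 254) (nat_lit 189)) (XT.lf (nat_lit 0) (nat_lit 5026985125) (nat_lit 1512) (nat_lit 2917638194) (nat_lit 1596) (nat_lit 163881791) (nat_lit 365) (nat_lit 5) (nat_lit 383) (nat_lit 5) (nat_lit 384) (nat_lit 5) (nat_lit 278) (nat_lit 254) (nat_lit 188)))))) (XT.nd (nat_lit 658) (nat_lit 4788) (nat_lit 0) (XT.nd (nat_lit 282) (nat_lit 3696) (nat_lit 0) (XT.nd (nat_lit 94) (nat_lit 1680) (nat_lit 0) (XT.lf (nat_lit 0) (nat_lit 1707789685) (nat_lit 1680) (nat_lit 6467757151) (nat_lit 84) (nat_lit 3780380) (nat_lit 345) (nat_lit 5) (nat_lit 365) (nat_lit 5) (nat_lit 346)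 (nat_lit 5) (nat_lit 279) (nat_lit 254) (nat_lit 187)) (XT.nd (nat_lit 94) (nat_lit 1680) (nat_lit 0) (XT.lf (nat_lit 0) (nat_lit 3625749261) (nat_lit 1680) (nat_lit 1649405692) (nat_lit 84) (nat_lit 2976360688) (nat_lit 345) (nat_lit 5) (nat_lit 365) (nat_lit 5) (nat_lit 346) (nat_lit 5) (nat_lit 280) (nat_lit 254) (nat_lit 186)) (XT.lf (nat_lit 0) (nat_lit 3291306707) (nat_lit 1680) (nat_lit 2282187382) (nat_lit 1764) (nat_lit 2752071136) (nat_lit 325) (nat_lit 5) (nat_lit 345) (nat_lit 5) (nat_lit 346) (nat_lit 5) (nat_lit 281) (nat_lit 254) (nat_lit 185)))) (XT.nd (nat_lit 188) (nat_lit 1848) (nat_lit 0) (XT.nd (nat_lit 94) (nat_lit 1848) (nat_lit 0) (XT.lf (nat_lit 0) (nat_lit 7546622695) (nat_lit 1764) (nat_lit 72879968) (nat_lit 84) (nat_lit 782125506) (nat_lit 325) (nat_lit 5) (nat_lit 346) (nat_lit 5) (nat_lit 326) (nat_lit 5) (nat_lit 282) (nat_lit 254) (nat_lit 184)) (XT.lf (nat_lit 0) (nat_lit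 1086194579) (nat_lit 1848) (nat_lit 3464399190) (nat_lit 84) (nat_lit 3928204684) (nat_lit 303) (nat_lit 5) (nat_lit 325) (nat_lit 5) (nat_lit 304) (nat_lit 5) (nat_lit 283) (nat_lit 254) (nat_lit 183))) (XT.nd (nat_lit 94) (nat_lit 0) (nat_lit 0) (XT.lf (nat_lit 0) (nat_lit 1643244193) (nat_lit 1848) (nat_lit 1392283960) (nat_lit 1932) (nat_lit 5522485113) (nat_lit 281) (nat_lit 5) (nat_lit 303) (nat_lit 5) (nat_lit 304) (nat_lit 5) (nat_lit 284) (nat_lit 254) (nat_lit 182)) (XT.lf (nat_lit 0) (nat_lit 5032898178) (nat_lit 1932) (nat_lit 1768435153) (nat_lit 84) (nat_lit 1837524149) (nat_lit 281) (nat_lit 5) (nat_lit 304) (nat_lit 5) (nat_lit 282) (nat_lit 5) (nat_lit 285) (nat_lit 254) (nat_lit 181))))) (XT.nd (nat_lit 376) (nat_lit 1764) (nat_lit 0) (XT.nd (nat_lit 188) (nat_lit 924) (nat_lit 0) (XT.nd (nat_lit 94) (nat_lit 1008) (nat_lit 0) (XT.lf (nat_lit 0) (nat_lit 3500318466) (nat_lit 1092) (nat_lit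 3575987501) (nat_lit 1176) (nat_lit 1645128195) (nat_lit 268) (nat_lit 5) (nat_lit 281) (nat_lit 5) (nat_lit 282) (nat_lit 5) (nat_lit 286) (nat_lit 254) (nat_lit 180)) (XT.lf (nat_lit 0) (nat_lit 72922327) (nat_lit 924) (nat_lit 261707015) (nat_lit 1008) (nat_lit 8471560910) (nat_lit 256) (nat_lit 5) (nat_lit 267) (nat_lit 5) (nat_lit 268) (nat_lit 5) (nat_lit 287) (nat_lit 254) (nat_lit 179))) (XT.nd (nat_lit 94) (nat_lit 924) (nat_lit 0) (XT.lf (nat_lit 0) (nat_lit 2362605050) (nat_lit 1008) (nat_lit 3396899892) (nat_lit 84) (nat_lit 3132407195) (nat_lit 256) (nat_lit 5) (nat_lit 268) (nat_lit 5) (nat_lit 257) (nat_lit 5) (nat_lit 288) (nat_lit 254) (nat_lit 178)) (XT.lf (nat_lit 0) (nat_lit 2053399589) (nat_lit 924) (nat_lit 2366793117) (nat_lit 1008) (nat_lit 4559657275) (nat_lit 245) (nat_lit 5) (nat_lit 256) (nat_lit 5) (nat_lit 257) (nat_lit 5) (nat_lit 289) (nat_lit 254) (nat_lit 177)))) (XT.nd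 (nat_lit 188) (nat_lit 924) (nat_lit 0) (XT.nd (nat_lit 94) (nat_lit 840) (nat_lit 0) (XT.lf (nat_lit 0) (nat_lit 6525084346) (nat_lit 1008) (nat_lit 1434452461) (nat_lit 84) (nat_lit 1110140834) (nat_lit 245) (nat_lit 5) (nat_lit 257) (nat_lit 5) (nat_lit 246) (nat_lit 5) (nat_lit 290) (nat_lit 254) (nat_lit 176)) (XT.lf (nat_lit 0) (nat_lit 4190578442) (nat_lit 840) (nat_lit 4502378941) (nat_lit 924) (nat_lit 468157305) (nat_lit 235) (nat_lit 5) (nat_lit 245) (nat_lit 5) (nat_lit 246) (nat_lit 5) (nat_lit 291) (nat_lit 254) (nat_lit 175))) (XT.nd (nat_lit 94) (nat_lit 0) (nat_lit 0) (XT.lf (nat_lit 0) (nat_lit 673154203) (nat_lit 840) (nat_lit 942262183) (nat_lit 924) (nat_lit 7639211644) (nat_lit 224) (nat_lit 5) (nat_lit 234) (nat_lit 5) (nat_lit 235) (nat_lit 5) (nat_lit 292) (nat_lit 254) (nat_lit 174)) (XT.lf (nat_lit 0) (nat_lit 3764356582) (nat_lit 924) (nat_lit 2888587977) (nat_lit 84) (nat_lit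 2696597906) (nat_lit 224) (nat_lit 5) (nat_lit 235) (nat_lit 5) (nat_lit 225) (nat_lit 5) (nat_lit 293) (nat_lit 254) (nat_lit 173))))))) (XT.nd (nat_lit 1410) (nat_lit 1260) (nat_lit 0) (XT.nd (nat_lit 658) (nat_lit 3528) (nat_lit 0) (XT.nd (nat_lit 282) (nat_lit 2352) (nat_lit 0) (XT.nd (nat_lit 94) (nat_lit 924) (nat_lit 0) (XT.lf (nat_lit 0) (nat_lit 2934063209) (nat_lit 840) (nat_lit 3025143045) (nat_lit 924) (nat_lit 3487368840) (nat_lit 214) (nat_lit 5) (nat_lit 224) (nat_lit 5) (nat_lit 225) (nat_lit 5) (nat_lit 294) (nat_lit 254) (nat_lit 172)) (XT.nd (nat_lit 94) (nat_lit 924) (nat_lit 0) (XT.lf (nat_lit 0) (nat_lit 8199963403) (nat_lit 924) (nat_lit 653608724) (nat_lit 84) (nat_lit 692222660) (nat_lit 214) (nat_lit 5) (nat_lit 225) (nat_lit 5) (nat_lit 215) (nat_lit 5) (nat_lit 295) (nat_lit 254) (nat_lit 171)) (XT.lf (nat_lit 0) (nat_lit 862995162) (nat_lit 924) (nat_lit 4293978210) (nat_lit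 84) (nat_lit 4489380940) (nat_lit 203) (nat_lit 5) (nat_lit 214) (nat_lit 5) (nat_lit 204) (nat_lit 5) (nat_lit 296) (nat_lit 254) (nat_lit 170)))) (XT.nd (nat_lit 188) (nat_lit 1596) (nat_lit 0) (XT.nd (nat_lit 94) (nat_lit 0) (nat_lit 0) (XT.lf (nat_lit 0) (nat_lit 1735613068) (nat_lit 756) (nat_lit 1354291650) (nat_lit 840) (nat_lit 6659241291) (nat_lit 194) (nat_lit 5) (nat_lit 203) (nat_lit 5) (nat_lit 204) (nat_lit 5) (nat_lit 297) (nat_lit 254) (nat_lit 169)) (XT.lf (nat_lit 0) (nat_lit 5388225676) (nat_lit 840) (nat_lit 1940930888) (nat_lit 84) (nat_lit 2524549333) (nat_lit 194) (nat_lit 5) (nat_lit 204) (nat_lit 5) (nat_lit 195) (nat_lit 5) (nat_lit 298) (nat_lit 254) (nat_lit 168))) (XT.nd (nat_lit 94) (nat_lit 840) (nat_lit 0) (XT.lf (nat_lit 0) (nat_lit 4286672601) (nat_lit 756) (nat_lit 3463859968) (nat_lit 840) (nat_lit 2209738232) (nat_lit 185) (nat_lit 5) (nat_lit 194) (nat_lit 5) (nat_lit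 195) (nat_lit 5) (nat_lit 299) (nat_lit 254) (nat_lit 167)) (XT.lf (nat_lit 0) (nat_lit 89663614) (nat_lit 840) (nat_lit 9484476299) (nat_lit 84) (nat_lit 495126192) (nat_lit 175) (nat_lit 5) (nat_lit 185) (nat_lit 5) (nat_lit 176) (nat_lit 5) (nat_lit 300) (nat_lit 254) (nat_lit 166))))) (XT.nd (nat_lit 376) (nat_lit 2100) (nat_lit 0) (XT.nd (nat_lit 188) (nat_lit 672) (nat_lit 0) (XT.nd (nat_lit 94) (nat_lit 756) (nat_lit 0) (XT.lf (nat_lit 0) (nat_lit 2448085565) (nat_lit 840) (nat_lit 3186728922) (nat_lit 84) (nat_lit 4544589774) (nat_lit 175) (nat_lit 5) (nat_lit 185) (nat_lit 5) (nat_lit 176) (nat_lit 5) (nat_lit 301) (nat_lit 254) (nat_lit 165)) (XT.lf (nat_lit 0) (nat_lit 3266299444) (nat_lit 756) (nat_lit 1589461579) (nat_lit 840) (nat_lit 5436262333) (nat_lit 166) (nat_lit 5) (nat_lit 175) (nat_lit 5) (nat_lit 176) (nat_lit 5) (nat_lit 302) (nat_lit 254) (nat_lit 164))) (XT.nd (nat_lit 94)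 (nat_lit 672) (nat_lit 0) (XT.lf (nat_lit 0) (nat_lit 7332655173) (nat_lit 840) (nat_lit 546638012) (nat_lit 84) (nat_lit 2527469389) (nat_lit 166) (nat_lit 5) (nat_lit 176) (nat_lit 5) (nat_lit 167) (nat_lit 5) (nat_lit 303) (nat_lit 254) (nat_lit 163)) (XT.lf (nat_lit 0) (nat_lit 6121621324) (nat_lit 672) (nat_lit 3772559813) (nat_lit 756) (nat_lit 629181835) (nat_lit 158) (nat_lit 5) (nat_lit 166) (nat_lit 5) (nat_lit 167) (nat_lit 5) (nat_lit 304) (nat_lit 254) (nat_lit 162)))) (XT.nd (nat_lit 188) (nat_lit 1344) (nat_lit 0) (XT.nd (nat_lit 94) (nat_lit 0) (nat_lit 0) (XT.lf (nat_lit 0) (nat_lit 1841339876) (nat_lit 756) (nat_lit 8353709678) (nat_lit 84) (nat_lit 447213878) (nat_lit 149) (nat_lit 5) (nat_lit 158) (nat_lit 5) (nat_lit 150) (nat_lit 5) (nat_lit 305) (nat_lit 254) (nat_lit 161)) (XT.lf (nat_lit 0) (nat_lit 4392560158) (nat_lit 756) (nat_lit 1633967273) (nat_lit 84) (nat_lit 4736368111)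 (nat_lit 149) (nat_lit 5) (nat_lit 158) (nat_lit 5) (nat_lit 150) (nat_lit 5) (nat_lit 306) (nat_lit 254) (nat_lit 160))) (XT.nd (nat_lit 94) (nat_lit 672) (nat_lit 0) (XT.lf (nat_lit 0) (nat_lit 5279913266) (nat_lit 672) (nat_lit 1733528962) (nat_lit 756) (nat_lit 3872441562) (nat_lit 141) (nat_lit 5) (nat_lit 149) (nat_lit 5) (nat_lit 150) (nat_lit 5) (nat_lit 307) (nat_lit 254) (nat_lit 159)) (XT.lf (nat_lit 0) (nat_lit 1329131259) (nat_lit 672) (nat_lit 8379573260) (nat_lit 756) (nat_lit 1302505402) (nat_lit 133) (nat_lit 5) (nat_lit 141) (nat_lit 5) (nat_lit 142) (nat_lit 5) (nat_lit 308) (nat_lit 254) (nat_lit 158)))))) (XT.nd (nat_lit 40420) (nat_lit 0) (nat_lit 26124) (XT.nd (nat_lit 282) (nat_lit 0) (nat_lit 0) (XT.nd (nat_lit 94) (nat_lit 1176) (nat_lit 0) (XT.lf (nat_lit 0) (nat_lit 1335549880) (nat_lit 756) (nat_lit 2690343029) (nat_lit 84) (nat_lit 7112518540) (nat_lit 132) (nat_lit 5) (nat_lit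 141) (nat_lit 5) (nat_lit 133) (nat_lit 5) (nat_lit 309) (nat_lit 254) (nat_lit 157)) (XT.nd (nat_lit 94) (nat_lit 588) (nat_lit 0) (XT.lf (nat_lit 0) (nat_lit 4024491198) (nat_lit 672) (nat_lit 6790508803) (nat_lit 84) (nat_lit 452938323) (nat_lit 125) (nat_lit 5) (nat_lit 133) (nat_lit 5) (nat_lit 126) (nat_lit 5) (nat_lit 310) (nat_lit 254) (nat_lit 156)) (XT.lf (nat_lit 0) (nat_lit 389619400) (nat_lit 588) (nat_lit 6412145135) (nat_lit 672) (nat_lit 4597908398) (nat_lit 118) (nat_lit 5) (nat_lit 125) (nat_lit 5) (nat_lit 126) (nat_lit 5) (nat_lit 311) (nat_lit 254) (nat_lit 155)))) (XT.nd (nat_lit 39950) (nat_lit 0) (nat_lit 28392) (XT.nd (nat_lit 39856) (nat_lit 0) (nat_lit 29484) (XT.lf (nat_lit 0) (nat_lit 7799607129) (nat_lit 588) (nat_lit 1868046162) (nat_lit 672) (nat_lit 1866047074) (nat_lit 118) (nat_lit 5) (nat_lit 125) (nat_lit 5) (nat_lit 126) (nat_lit 5) (nat_lit 312) (nat_lit 254) (nat_lit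 154)) (XT.lf (nat_lit 0) (nat_lit 1618763203) (nat_lit 1092) (nat_lit 929904855) (nat_lit 1092) (nat_lit 929904855) (nat_lit 469) (nat_lit 3) (nat_lit 482) (nat_lit 3) (nat_lit 482) (nat_lit 5) (nat_lit 255) (nat_lit 255) (nat_lit 210))) (XT.nd (nat_lit 94) (nat_lit 1092) (nat_lit 0) (XT.lf (nat_lit 84) (nat_lit 1642419268) (nat_lit 0) (nat_lit 3512019399) (nat_lit 1092) (nat_lit 1837847177) (nat_lit 470) (nat_lit 5) (nat_lit 469) (nat_lit 3) (nat_lit 482) (nat_lit 5) (nat_lit 256) (nat_lit 255) (nat_lit 209)) (XT.lf (nat_lit 0) (nat_lit 43483494) (nat_lit 1092) (nat_lit 1807849144) (nat_lit 1176) (nat_lit 5177746386) (nat_lit 456) (nat_lit 5) (nat_lit 469) (nat_lit 3) (nat_lit 470) (nat_lit 5) (nat_lit 257) (nat_lit 255) (nat_lit 208))))) (XT.nd (nat_lit 376) (nat_lit 1176) (nat_lit 0) (XT.nd (nat_lit 188) (nat_lit 1092) (nat_lit 0) (XT.nd (nat_lit 94) (nat_lit 0) (nat_lit 84) (XT.lf (nat_lit 84) (nat_lit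 1796488106) (nat_lit 0) (nat_lit 102182217) (nat_lit 1176) (nat_lit 5168607543) (nat_lit 457) (nat_lit 5) (nat_lit 456) (nat_lit 5) (nat_lit 470) (nat_lit 5) (nat_lit 258) (nat_lit 255) (nat_lit 207)) (XT.lf (nat_lit 0) (nat_lit 3767973159) (nat_lit 1092) (nat_lit 1640227518) (nat_lit 1176) (nat_lit 1698703763) (nat_lit 457) (nat_lit 5) (nat_lit 470) (nat_lit 5) (nat_lit 471) (nat_lit 5) (nat_lit 259) (nat_lit 255) (nat_lit 206))) (XT.nd (nat_lit 94) (nat_lit 1176) (nat_lit 0) (XT.lf (nat_lit 84) (nat_lit 2070694407) (nat_lit 0) (nat_lit 3572168326) (nat_lit 1176) (nat_lit 1505321899) (nat_lit 458) (nat_lit 5) (nat_lit 457) (nat_lit 5) (nat_lit 471) (nat_lit 5) (nat_lit 260) (nat_lit 255) (nat_lit 205)) (XT.lf (nat_lit 0) (nat_lit 325020450) (nat_lit 1176) (nat_lit 1334191520) (nat_lit 1260) (nat_lit 5531945786) (nat_lit 443) (nat_lit 5) (nat_lit 457) (nat_lit 5) (nat_lit 458) (nat_lit 5) (nat_lit 261)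 (nat_lit 255) (nat_lit 204)))) (XT.nd (nat_lit 188) (nat_lit 1260) (nat_lit 0) (XT.nd (nat_lit 94) (nat_lit 0) (nat_lit 0) (XT.lf (nat_lit 0) (nat_lit 2144244987) (nat_lit 1176) (nat_lit 4750161399) (nat_lit 1260) (nat_lit 341071805) (nat_lit 444) (nat_lit 5) (nat_lit 458) (nat_lit 5) (nat_lit 459) (nat_lit 5) (nat_lit 262) (nat_lit 255) (nat_lit 203)) (XT.lf (nat_lit 0) (nat_lit 3977091033) (nat_lit 1176) (nat_lit 913431190) (nat_lit 1260) (nat_lit 2390832284) (nat_lit 444) (nat_lit 5) (nat_lit 458) (nat_lit 5) (nat_lit 459) (nat_lit 5) (nat_lit 263) (nat_lit 255) (nat_lit 202))) (XT.nd (nat_lit 94) (nat_lit 1260) (nat_lit 0) (XT.lf (nat_lit 84) (nat_lit 3022369683) (nat_lit 0) (nat_lit 2802054156) (nat_lit 1260) (nat_lit 1504384651) (nat_lit 445) (nat_lit 5) (nat_lit 444) (nat_lit 5) (nat_lit 459) (nat_lit 5) (nat_lit 264) (nat_lit 255) (nat_lit 201)) (XT.lf (nat_lit 0) (nat_lit 290172805) (nat_lit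 1260) (nat_lit 350539366) (nat_lit 1344) (nat_lit 6737423808) (nat_lit 429) (nat_lit 5) (nat_lit 444) (nat_lit 5) (nat_lit 445) (nat_lit 5) (nat_lit 265) (nat_lit 255) (nat_lit 200))))))))
noncomputable def xc39 : XT := (XT.nd (nat_lit 2820) (nat_lit 8064) (nat_lit 0) (XT.nd (nat_lit 1410) (nat_lit 11004) (nat_lit 0) (XT.nd (nat_lit 658) (nat_lit 5880) (nat_lit 0) (XT.nd (nat_lit 282) (nat_lit 1260) (nat_lit 0) (XT.nd (nat_lit 94) (nat_lit 0) (nat_lit 0) (XT.lf (nat_lit 0) (nat_lit 2094151050) (nat_lit 1260) (nat_lit 3734197268) (nat_lit 1344) (nat_lit 1600133542) (nat_lit 430) (nat_lit 5) (nat_lit 445) (nat_lit 5) (nat_lit 446) (nat_lit 5) (nat_lit 266) (nat_lit 255) (nat_lit 199)) (XT.nd (nat_lit 94) (nat_lit 0) (nat_lit 0) (XT.lf (nat_lit 84) (nat_lit 323815720) (nat_lit 0) (nat_lit 3578603821) (nat_lit 1344) (nat_lit 3578294547) (nat_lit 431) (nat_lit 5) (nat_lit 430) (nat_lit 5) (nat_lit 446) (nat_lit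 5) (nat_lit 267) (nat_lit 255) (nat_lit 198)) (XT.lf (nat_lit 84) (nat_lit 4497473193) (nat_lit 0) (nat_lit 1236361221) (nat_lit 1344) (nat_lit 1800626995) (nat_lit 431) (nat_lit 5) (nat_lit 430) (nat_lit 5) (nat_lit 446) (nat_lit 5) (nat_lit 268) (nat_lit 255) (nat_lit 197)))) (XT.nd (nat_lit 188) (nat_lit 0) (nat_lit 0) (XT.nd (nat_lit 94) (nat_lit 1344) (nat_lit 0) (XT.lf (nat_lit 84) (nat_lit 1152084298) (nat_lit 0) (nat_lit 6426744743) (nat_lit 1344) (nat_lit 11149779) (nat_lit 432) (nat_lit 5) (nat_lit 431) (nat_lit 5) (nat_lit 447) (nat_lit 5) (nat_lit 269) (nat_lit 255) (nat_lit 196)) (XT.lf (nat_lit 0) (nat_lit 1780358263) (nat_lit 1344) (nat_lit 2219895657) (nat_lit 1428) (nat_lit 3646424298) (nat_lit 415) (nat_lit 5) (nat_lit 431) (nat_lit 5) (nat_lit 432) (nat_lit 5) (nat_lit 270) (nat_lit 255) (nat_lit 195))) (XT.nd (nat_lit 94) (nat_lit 0) (nat_lit 84) (XT.lf (nat_lit 84) (nat_lit 2091356983)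 (nat_lit 0) (nat_lit 1492822704) (nat_lit 1428) (nat_lit 4121036113) (nat_lit 416) (nat_lit 5) (nat_lit 415) (nat_lit 5) (nat_lit 432) (nat_lit 5) (nat_lit 271) (nat_lit 255) (nat_lit 194)) (XT.lf (nat_lit 0) (nat_lit 5410763945) (nat_lit 1344) (nat_lit 1272166782) (nat_lit 1428) (nat_lit 1082482751) (nat_lit 416) (nat_lit 5) (nat_lit 432) (nat_lit 5) (nat_lit 433) (nat_lit 5) (nat_lit 272) (nat_lit 255) (nat_lit 193))))) (XT.nd (nat_lit 376) (nat_lit 3192) (nat_lit 0) (XT.nd (nat_lit 188) (nat_lit 1344) (nat_lit 0) (XT.nd (nat_lit 94) (nat_lit 1428) (nat_lit 0) (XT.lf (nat_lit 84) (nat_lit 3170129885) (nat_lit 0) (nat_lit 4100678513) (nat_lit 1428) (nat_lit 556275046) (nat_lit 417) (nat_lit 5) (nat_lit 416) (nat_lit 5) (nat_lit 433) (nat_lit 5) (nat_lit 273) (nat_lit 255) (nat_lit 192)) (XT.lf (nat_lit 0) (nat_lit 1232861825) (nat_lit 1428) (nat_lit 200016243) (nat_lit 1512) (nat_lit 6457698753) (nat_lit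 399) (nat_lit 5) (nat_lit 416) (nat_lit 5) (nat_lit 417) (nat_lit 5) (nat_lit 274) (nat_lit 255) (nat_lit 191))) (XT.nd (nat_lit 94) (nat_lit 1428) (nat_lit 0) (XT.lf (nat_lit 0) (nat_lit 3054993674) (nat_lit 1428) (nat_lit 3580434748) (nat_lit 84) (nat_lit 1319909445) (nat_lit 400) (nat_lit 5) (nat_lit 417) (nat_lit 5) (nat_lit 401) (nat_lit 5) (nat_lit 275) (nat_lit 255) (nat_lit 190)) (XT.lf (nat_lit 0) (nat_lit 1005893034) (nat_lit 1428) (nat_lit 3892149294) (nat_lit 1512) (nat_lit 3123903069) (nat_lit 383) (nat_lit 5) (nat_lit 400) (nat_lit 5) (nat_lit 401) (nat_lit 5) (nat_lit 276) (nat_lit 255) (nat_lit 189)))) (XT.nd (nat_lit 188) (nat_lit 1596) (nat_lit 0) (XT.nd (nat_lit 94) (nat_lit 1596) (nat_lit 0) (XT.lf (nat_lit 0) (nat_lit 5716692279) (nat_lit 1428) (nat_lit 1053747822) (nat_lit 1512) (nat_lit 1319824549) (nat_lit 383) (nat_lit 5) (nat_lit 400) (nat_lit 5) (nat_lit 401) (nat_lit 5) (nat_lit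 277) (nat_lit 255) (nat_lit 188)) (XT.lf (nat_lit 0) (nat_lit 509548640) (nat_lit 1596) (nat_lit 5802139944) (nat_lit 84) (nat_lit 1848466902) (nat_lit 364) (nat_lit 5) (nat_lit 383) (nat_lit 5) (nat_lit 365) (nat_lit 5) (nat_lit 278) (nat_lit 255) (nat_lit 187))) (XT.nd (nat_lit 94) (nat_lit 1596) (nat_lit 0) (XT.lf (nat_lit 0) (nat_lit 2348606255) (nat_lit 1596) (nat_lit 1049895178) (nat_lit 84) (nat_lit 4833116052) (nat_lit 364) (nat_lit 5) (nat_lit 383) (nat_lit 5) (nat_lit 365) (nat_lit 5) (nat_lit 279) (nat_lit 255) (nat_lit 186)) (XT.lf (nat_lit 0) (nat_lit 3832313771) (nat_lit 1596) (nat_lit 387428042) (nat_lit 1680) (nat_lit 4085094225) (nat_lit 345) (nat_lit 5) (nat_lit 364) (nat_lit 5) (nat_lit 365) (nat_lit 5) (nat_lit 280) (nat_lit 255) (nat_lit 185)))))) (XT.nd (nat_lit 658) (nat_lit 4452) (nat_lit 0) (XT.nd (nat_lit 282) (nat_lit 3024) (nat_lit 0) (XT.nd (nat_lit 94) (nat_lit 1848) (nat_lit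 0) (XT.lf (nat_lit 0) (nat_lit 414489961) (nat_lit 1680) (nat_lit 5712394158) (nat_lit 1764) (nat_lit 2252894762) (nat_lit 325) (nat_lit 5) (nat_lit 345) (nat_lit 5) (nat_lit 346) (nat_lit 5) (nat_lit 281) (nat_lit 255) (nat_lit 184)) (XT.nd (nat_lit 94) (nat_lit 1848) (nat_lit 0) (XT.lf (nat_lit 0) (nat_lit 5442792488) (nat_lit 1680) (nat_lit 2634484260) (nat_lit 1764) (nat_lit 379065266) (nat_lit 325) (nat_lit 5) (nat_lit 345) (nat_lit 5) (nat_lit 346) (nat_lit 5) (nat_lit 282) (nat_lit 255) (nat_lit 183)) (XT.lf (nat_lit 0) (nat_lit 1498174701) (nat_lit 1848) (nat_lit 6503137658) (nat_lit 84) (nat_lit 533381666) (nat_lit 303) (nat_lit 5) (nat_lit 325) (nat_lit 5) (nat_lit 304) (nat_lit 5) (nat_lit 283) (nat_lit 255) (nat_lit 182)))) (XT.nd (nat_lit 188) (nat_lit 1176) (nat_lit 0) (XT.nd (nat_lit 94) (nat_lit 1848) (nat_lit 0) (XT.lf (nat_lit 0) (nat_lit 3419236462) (nat_lit 1848) (nat_lit 1434273836)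 (nat_lit 84) (nat_lit 3761020518) (nat_lit 303) (nat_lit 5) (nat_lit 325) (nat_lit 5) (nat_lit 304) (nat_lit 5) (nat_lit 284) (nat_lit 255) (nat_lit 181)) (XT.lf (nat_lit 0) (nat_lit 3770514466) (nat_lit 1848) (nat_lit 1606128806) (nat_lit 1932) (nat_lit 3319610949) (nat_lit 281) (nat_lit 5) (nat_lit 303) (nat_lit 5) (nat_lit 304) (nat_lit 5) (nat_lit 285) (nat_lit 255) (nat_lit 180))) (XT.nd (nat_lit 94) (nat_lit 84) (nat_lit 0) (XT.lf (nat_lit 0) (nat_lit 293222452) (nat_lit 1092) (nat_lit 7076586436) (nat_lit 1176) (nat_lit 1410127344) (nat_lit 268) (nat_lit 5) (nat_lit 281) (nat_lit 5) (nat_lit 282) (nat_lit 5) (nat_lit 286) (nat_lit 255) (nat_lit 179)) (XT.lf (nat_lit 0) (nat_lit 549892244) (nat_lit 1176) (nat_lit 3210562582) (nat_lit 84) (nat_lit 5104560438) (nat_lit 267) (nat_lit 5) (nat_lit 281) (nat_lit 5) (nat_lit 268) (nat_lit 5) (nat_lit 287) (nat_lit 255) (nat_lit 178))))) (XT.nd (nat_lit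 376) (nat_lit 1764) (nat_lit 0) (XT.nd (nat_lit 188) (nat_lit 1764) (nat_lit 0) (XT.nd (nat_lit 94) (nat_lit 0) (nat_lit 0) (XT.lf (nat_lit 0) (nat_lit 2172693289) (nat_lit 924) (nat_lit 343731782) (nat_lit 1008) (nat_lit 6435663821) (nat_lit 256) (nat_lit 5) (nat_lit 267) (nat_lit 5) (nat_lit 268) (nat_lit 5) (nat_lit 288) (nat_lit 255) (nat_lit 177)) (XT.lf (nat_lit 0) (nat_lit 4541676896) (nat_lit 1008) (nat_lit 1371291683) (nat_lit 84) (nat_lit 3127769545) (nat_lit 256) (nat_lit 5) (nat_lit 268) (nat_lit 5) (nat_lit 257) (nat_lit 5) (nat_lit 289) (nat_lit 255) (nat_lit 176))) (XT.nd (nat_lit 94) (nat_lit 840) (nat_lit 0) (XT.lf (nat_lit 0) (nat_lit 4183734531) (nat_lit 924) (nat_lit 2429861309) (nat_lit 1008) (nat_lit 2517695345) (nat_lit 245) (nat_lit 5) (nat_lit 256) (nat_lit 5) (nat_lit 257) (nat_lit 5) (nat_lit 290) (nat_lit 255) (nat_lit 175)) (XT.lf (nat_lit 0) (nat_lit 628515786) (nat_lit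 840) (nat_lit 8095556922) (nat_lit 924) (nat_lit 499918239) (nat_lit 235) (nat_lit 5) (nat_lit 245) (nat_lit 5) (nat_lit 246) (nat_lit 5) (nat_lit 291) (nat_lit 255) (nat_lit 174)))) (XT.nd (nat_lit 188) (nat_lit 840) (nat_lit 0) (XT.nd (nat_lit 94) (nat_lit 840) (nat_lit 0) (XT.lf (nat_lit 0) (nat_lit 1564708949) (nat_lit 924) (nat_lit 2976321286) (nat_lit 84) (nat_lit 4776905918) (nat_lit 234) (nat_lit 5) (nat_lit 245) (nat_lit 5) (nat_lit 235) (nat_lit 5) (nat_lit 292) (nat_lit 255) (nat_lit 173)) (XT.lf (nat_lit 0) (nat_lit 2772943649) (nat_lit 840) (nat_lit 885304423) (nat_lit 924) (nat_lit 5755821340) (nat_lit 224) (nat_lit 5) (nat_lit 234) (nat_lit 5) (nat_lit 235) (nat_lit 5) (nat_lit 293) (nat_lit 255) (nat_lit 172))) (XT.nd (nat_lit 94) (nat_lit 840) (nat_lit 0) (XT.lf (nat_lit 0) (nat_lit 5811796606) (nat_lit 924) (nat_lit 869370667) (nat_lit 84) (nat_lit 2830843394) (nat_lit 224) (nat_lit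 5) (nat_lit 235) (nat_lit 5) (nat_lit 225) (nat_lit 5) (nat_lit 294) (nat_lit 255) (nat_lit 171)) (XT.lf (nat_lit 0) (nat_lit 5066326001) (nat_lit 840) (nat_lit 2961044458) (nat_lit 924) (nat_lit 1584413931) (nat_lit 214) (nat_lit 5) (nat_lit 224) (nat_lit 5) (nat_lit 225) (nat_lit 5) (nat_lit 295) (nat_lit 255) (nat_lit 170))))))) (XT.nd (nat_lit 1410) (nat_lit 1176) (nat_lit 0) (XT.nd (nat_lit 658) (nat_lit 3612) (nat_lit 0) (XT.nd (nat_lit 282) (nat_lit 1596) (nat_lit 0) (XT.nd (nat_lit 94) (nat_lit 756) (nat_lit 0) (XT.lf (nat_lit 0) (nat_lit 564612928) (nat_lit 924) (nat_lit 8301540015) (nat_lit 84) (nat_lit 847619554) (nat_lit 203) (nat_lit 5) (nat_lit 214) (nat_lit 5) (nat_lit 204) (nat_lit 5) (nat_lit 296) (nat_lit 255) (nat_lit 169)) (XT.nd (nat_lit 94) (nat_lit 756) (nat_lit 0) (XT.lf (nat_lit 0) (nat_lit 2765645255) (nat_lit 924) (nat_lit 2311845327) (nat_lit 84) (nat_lit 4739642912) (nat_lit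 203) (nat_lit 5) (nat_lit 214) (nat_lit 5) (nat_lit 204) (nat_lit 5) (nat_lit 297) (nat_lit 255) (nat_lit 168)) (XT.lf (nat_lit 0) (nat_lit 3835388678) (nat_lit 756) (nat_lit 1180294806) (nat_lit 840) (nat_lit 4907072118) (nat_lit 194) (nat_lit 5) (nat_lit 203) (nat_lit 5) (nat_lit 204) (nat_lit 5) (nat_lit 298) (nat_lit 255) (nat_lit 167)))) (XT.nd (nat_lit 188) (nat_lit 840) (nat_lit 0) (XT.nd (nat_lit 94) (nat_lit 0) (nat_lit 0) (XT.lf (nat_lit 0) (nat_lit 73207879) (nat_lit 756) (nat_lit 7253309705) (nat_lit 840) (nat_lit 2703935322) (nat_lit 185) (nat_lit 5) (nat_lit 194) (nat_lit 5) (nat_lit 195) (nat_lit 5) (nat_lit 299) (nat_lit 255) (nat_lit 166)) (XT.lf (nat_lit 0) (nat_lit 6421906379) (nat_lit 756) (nat_lit 3293743882) (nat_lit 840) (nat_lit 424265166) (nat_lit 185) (nat_lit 5) (nat_lit 194) (nat_lit 5) (nat_lit 195) (nat_lit 5) (nat_lit 300) (nat_lit 255) (nat_lit 165))) (XT.nd (nat_lit 94)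 (nat_lit 0) (nat_lit 0) (XT.lf (nat_lit 0) (nat_lit 1876930223) (nat_lit 840) (nat_lit 7603414498) (nat_lit 84) (nat_lit 771168770) (nat_lit 175) (nat_lit 5) (nat_lit 185) (nat_lit 5) (nat_lit 176) (nat_lit 5) (nat_lit 301) (nat_lit 255) (nat_lit 164)) (XT.lf (nat_lit 0) (nat_lit 4248806470) (nat_lit 840) (nat_lit 1212100872) (nat_lit 84) (nat_lit 4904012826) (nat_lit 175) (nat_lit 5) (nat_lit 185) (nat_lit 5) (nat_lit 176) (nat_lit 5) (nat_lit 302) (nat_lit 255) (nat_lit 163))))) (XT.nd (nat_lit 376) (nat_lit 1428) (nat_lit 0) (XT.nd (nat_lit 188) (nat_lit 756) (nat_lit 0) (XT.nd (nat_lit 94) (nat_lit 672) (nat_lit 0) (XT.lf (nat_lit 0) (nat_lit 5368116130) (nat_lit 756) (nat_lit 1318190824) (nat_lit 840) (nat_lit 3794219094) (nat_lit 166) (nat_lit 5) (nat_lit 175) (nat_lit 5) (nat_lit 176) (nat_lit 5) (nat_lit 303) (nat_lit 255) (nat_lit 162)) (XT.lf (nat_lit 0) (nat_lit 1483940840) (nat_lit 672) (nat_lit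 7709351348) (nat_lit 756) (nat_lit 1405034153) (nat_lit 158) (nat_lit 5) (nat_lit 166) (nat_lit 5) (nat_lit 167) (nat_lit 5) (nat_lit 304) (nat_lit 255) (nat_lit 161))) (XT.nd (nat_lit 94) (nat_lit 672) (nat_lit 0) (XT.lf (nat_lit 0) (nat_lit 1045060255) (nat_lit 756) (nat_lit 2462842496) (nat_lit 84) (nat_lit 7210140880) (nat_lit 157) (nat_lit 5) (nat_lit 166) (nat_lit 5) (nat_lit 158) (nat_lit 5) (nat_lit 305) (nat_lit 255) (nat_lit 160)) (XT.lf (nat_lit 0) (nat_lit 3541456965) (nat_lit 756) (nat_lit 6487119344) (nat_lit 84) (nat_lit 811305551) (nat_lit 149) (nat_lit 5) (nat_lit 158) (nat_lit 5) (nat_lit 150) (nat_lit 5) (nat_lit 306) (nat_lit 255) (nat_lit 159)))) (XT.nd (nat_lit 188) (nat_lit 756) (nat_lit 0) (XT.nd (nat_lit 94) (nat_lit 0) (nat_lit 0) (XT.lf (nat_lit 0) (nat_lit 341235099) (nat_lit 672) (nat_lit 5774274282) (nat_lit 756) (nat_lit 4848390978) (nat_lit 141) (nat_lit 5) (nat_lit 149)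 (nat_lit 5) (nat_lit 150) (nat_lit 5) (nat_lit 307) (nat_lit 255) (nat_lit 158)) (XT.lf (nat_lit 0) (nat_lit 7387806414) (nat_lit 672) (nat_lit 1383044976) (nat_lit 756) (nat_lit 2319253348) (nat_lit 141) (nat_lit 5) (nat_lit 149) (nat_lit 5) (nat_lit 150) (nat_lit 5) (nat_lit 308) (nat_lit 255) (nat_lit 157))) (XT.nd (nat_lit 94) (nat_lit 0) (nat_lit 0) (XT.lf (nat_lit 0) (nat_lit 285183401) (nat_lit 756) (nat_lit 7852656213) (nat_lit 84) (nat_lit 3080687772) (nat_lit 132) (nat_lit 5) (nat_lit 141) (nat_lit 5) (nat_lit 133) (nat_lit 5) (nat_lit 309) (nat_lit 255) (nat_lit 156)) (XT.lf (nat_lit 0) (nat_lit 2927721581) (nat_lit 756) (nat_lit 760346613) (nat_lit 84) (nat_lit 7661006936) (nat_lit 132) (nat_lit 5) (nat_lit 141) (nat_lit 5) (nat_lit 133) (nat_lit 5) (nat_lit 310) (nat_lit 255) (nat_lit 155)))))) (XT.nd (nat_lit 40514) (nat_lit 0) (nat_lit 26124) (XT.nd (nat_lit 40138) (nat_lit 0) (nat_lit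 27300) (XT.nd (nat_lit 94) (nat_lit 588) (nat_lit 0) (XT.lf (nat_lit 0) (nat_lit 5659319696) (nat_lit 672) (nat_lit 4934216122) (nat_lit 84) (nat_lit 888278776) (nat_lit 125) (nat_lit 5) (nat_lit 133) (nat_lit 5) (nat_lit 126) (nat_lit 5) (nat_lit 311) (nat_lit 255) (nat_lit 154)) (XT.nd (nat_lit 39950) (nat_lit 0) (nat_lit 29484) (XT.lf (nat_lit 0) (nat_lit 2389379157) (nat_lit 588) (nat_lit 6089211512) (nat_lit 672) (nat_lit 3138276947) (nat_lit 118) (nat_lit 5) (nat_lit 125) (nat_lit 5) (nat_lit 126) (nat_lit 5) (nat_lit 312) (nat_lit 255) (nat_lit 153)) (XT.lf (nat_lit 0) (nat_lit 3510658521) (nat_lit 1092) (nat_lit 1802390) (nat_lit 1092) (nat_lit 1802390) (nat_lit 469) (nat_lit 3) (nat_lit 482) (nat_lit 3) (nat_lit 482) (nat_lit 5) (nat_lit 256) (nat_lit 256) (nat_lit 208)))) (XT.nd (nat_lit 188) (nat_lit 1092) (nat_lit 0) (XT.nd (nat_lit 94) (nat_lit 0) (nat_lit 0) (XT.lf (nat_lit 0) (nat_lit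 1821379332) (nat_lit 1092) (nat_lit 3517104352) (nat_lit 1176) (nat_lit 1727129465) (nat_lit 456) (nat_lit 5) (nat_lit 469) (nat_lit 3) (nat_lit 470) (nat_lit 5) (nat_lit 257) (nat_lit 256) (nat_lit 207)) (XT.lf (nat_lit 84) (nat_lit 48457583) (nat_lit 0) (nat_lit 3589875609) (nat_lit 1176) (nat_lit 3466319924) (nat_lit 457) (nat_lit 5) (nat_lit 456) (nat_lit 5) (nat_lit 470) (nat_lit 5) (nat_lit 258) (nat_lit 256) (nat_lit 206))) (XT.nd (nat_lit 94) (nat_lit 1092) (nat_lit 0) (XT.lf (nat_lit 84) (nat_lit 3717693759) (nat_lit 0) (nat_lit 1752342653) (nat_lit 1176) (nat_lit 1675070470) (nat_lit 457) (nat_lit 5) (nat_lit 456) (nat_lit 5) (nat_lit 470) (nat_lit 5) (nat_lit 259) (nat_lit 256) (nat_lit 205)) (XT.lf (nat_lit 0) (nat_lit 105786958) (nat_lit 1176) (nat_lit 6932236626) (nat_lit 1260) (nat_lit 149448952) (nat_lit 443) (nat_lit 5) (nat_lit 457) (nat_lit 5) (nat_lit 458) (nat_lit 5) (nat_lit 260)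 (nat_lit 256) (nat_lit 204))))) (XT.nd (nat_lit 376) (nat_lit 1176) (nat_lit 0) (XT.nd (nat_lit 188) (nat_lit 0) (nat_lit 0) (XT.nd (nat_lit 94) (nat_lit 0) (nat_lit 0) (XT.lf (nat_lit 0) (nat_lit 1890009994) (nat_lit 1176) (nat_lit 3213754544) (nat_lit 1260) (nat_lit 2126982854) (nat_lit 443) (nat_lit 5) (nat_lit 457) (nat_lit 5) (nat_lit 458) (nat_lit 5) (nat_lit 261) (nat_lit 256) (nat_lit 203)) (XT.lf (nat_lit 84) (nat_lit 566813732) (nat_lit 0) (nat_lit 3102360037) (nat_lit 1260) (nat_lit 3606775396) (nat_lit 444) (nat_lit 5) (nat_lit 443) (nat_lit 5) (nat_lit 458) (nat_lit 5) (nat_lit 262) (nat_lit 256) (nat_lit 202))) (XT.nd (nat_lit 94) (nat_lit 0) (nat_lit 84) (XT.lf (nat_lit 84) (nat_lit 4450869669) (nat_lit 0) (nat_lit 1012841230) (nat_lit 1260) (nat_lit 1858957377) (nat_lit 444) (nat_lit 5) (nat_lit 443) (nat_lit 5) (nat_lit 458) (nat_lit 5) (nat_lit 263) (nat_lit 256) (nat_lit 201)) (XT.lf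 (nat_lit 84) (nat_lit 1028529147) (nat_lit 0) (nat_lit 6238176727) (nat_lit 1260) (nat_lit 104391817) (nat_lit 445) (nat_lit 5) (nat_lit 444) (nat_lit 5) (nat_lit 459) (nat_lit 5) (nat_lit 264) (nat_lit 256) (nat_lit 200)))) (XT.nd (nat_lit 188) (nat_lit 0) (nat_lit 84) (XT.nd (nat_lit 94) (nat_lit 0) (nat_lit 0) (XT.lf (nat_lit 0) (nat_lit 1647311374) (nat_lit 1260) (nat_lit 2410842372) (nat_lit 1344) (nat_lit 3362551218) (nat_lit 429) (nat_lit 5) (nat_lit 444) (nat_lit 5) (nat_lit 445) (nat_lit 5) (nat_lit 265) (nat_lit 256) (nat_lit 199)) (XT.lf (nat_lit 84) (nat_lit 1601593969) (nat_lit 0) (nat_lit 1800938553) (nat_lit 1344) (nat_lit 4069590978) (nat_lit 430) (nat_lit 5) (nat_lit 429) (nat_lit 5) (nat_lit 445) (nat_lit 5) (nat_lit 266) (nat_lit 256) (nat_lit 198))) (XT.nd (nat_lit 94) (nat_lit 0) (nat_lit 0) (XT.lf (nat_lit 0) (nat_lit 5173901244) (nat_lit 1260) (nat_lit 1818683943) (nat_lit 1344)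 (nat_lit 532582337) (nat_lit 430) (nat_lit 5) (nat_lit 445) (nat_lit 5) (nat_lit 446) (nat_lit 5) (nat_lit 267) (nat_lit 256) (nat_lit 197)) (XT.lf (nat_lit 84) (nat_lit 2314167536) (nat_lit 0) (nat_lit 4656606865) (nat_lit 1344) (nat_lit 608900362) (nat_lit 431) (nat_lit 5) (nat_lit 430) (nat_lit 5) (nat_lit 446) (nat_lit 5) (nat_lit 268) (nat_lit 256) (nat_lit 196))))))))
noncomputable def xc40 : XT := (XT.nd (nat_lit 2820) (nat_lit 6552) (nat_lit 0) (XT.nd (nat_lit 1410) (nat_lit 10164) (nat_lit 0) (XT.nd (nat_lit 658) (nat_lit 6300) (nat_lit 0) (XT.nd (nat_lit 282) (nat_lit 1260) (nat_lit 0) (XT.nd (nat_lit 94) (nat_lit 0) (nat_lit 84) (XT.lf (nat_lit 0) (nat_lit 1125808648) (nat_lit 1344) (nat_lit 1107199895) (nat_lit 1428) (nat_lit 5402829434) (nat_lit 414) (nat_lit 5) (nat_lit 430) (nat_lit 5) (nat_lit 431) (nat_lit 5) (nat_lit 269) (nat_lit 256) (nat_lit 195)) (XT.nd (nat_lit 94) (nat_lit 0)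 (nat_lit 0) (XT.lf (nat_lit 0) (nat_lit 2872500623) (nat_lit 1344) (nat_lit 4540140900) (nat_lit 1428) (nat_lit 280876523) (nat_lit 415) (nat_lit 5) (nat_lit 431) (nat_lit 5) (nat_lit 432) (nat_lit 5) (nat_lit 270) (nat_lit 256) (nat_lit 194)) (XT.lf (nat_lit 0) (nat_lit 4641181304) (nat_lit 1344) (nat_lit 273326187) (nat_lit 1428) (nat_lit 2838321234) (nat_lit 415) (nat_lit 5) (nat_lit 431) (nat_lit 5) (nat_lit 432) (nat_lit 5) (nat_lit 271) (nat_lit 256) (nat_lit 193)))) (XT.nd (nat_lit 188) (nat_lit 0) (nat_lit 0) (XT.nd (nat_lit 94) (nat_lit 1344) (nat_lit 0) (XT.lf (nat_lit 84) (nat_lit 4118352541) (nat_lit 0) (nat_lit 2319705157) (nat_lit 1428) (nat_lit 1375622277) (nat_lit 416) (nat_lit 5) (nat_lit 415) (nat_lit 5) (nat_lit 432) (nat_lit 5) (nat_lit 272) (nat_lit 256) (nat_lit 192)) (XT.lf (nat_lit 0) (nat_lit 362812062) (nat_lit 1428) (nat_lit 7165409685) (nat_lit 1512) (nat_lit 348246671) (nat_lit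 399) (nat_lit 5) (nat_lit 416) (nat_lit 5) (nat_lit 417) (nat_lit 5) (nat_lit 273) (nat_lit 256) (nat_lit 191))) (XT.nd (nat_lit 94) (nat_lit 0) (nat_lit 0) (XT.lf (nat_lit 0) (nat_lit 2124673710) (nat_lit 1428) (nat_lit 2726987062) (nat_lit 1512) (nat_lit 3088637636) (nat_lit 399) (nat_lit 5) (nat_lit 416) (nat_lit 5) (nat_lit 417) (nat_lit 5) (nat_lit 274) (nat_lit 256) (nat_lit 190)) (XT.lf (nat_lit 84) (nat_lit 1806306243) (nat_lit 0) (nat_lit 2093745297) (nat_lit 1512) (nat_lit 4106036503) (nat_lit 400) (nat_lit 5) (nat_lit 399) (nat_lit 5) (nat_lit 417) (nat_lit 5) (nat_lit 275) (nat_lit 256) (nat_lit 189))))) (XT.nd (nat_lit 376) (nat_lit 3360) (nat_lit 0) (XT.nd (nat_lit 188) (nat_lit 1596) (nat_lit 0) (XT.nd (nat_lit 94) (nat_lit 1428) (nat_lit 0) (XT.lf (nat_lit 0) (nat_lit 5702508752) (nat_lit 1428) (nat_lit 1627603235) (nat_lit 84) (nat_lit 743476598) (nat_lit 400) (nat_lit 5) (nat_lit 417)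 (nat_lit 5) (nat_lit 401) (nat_lit 5) (nat_lit 276) (nat_lit 256) (nat_lit 188)) (XT.lf (nat_lit 0) (nat_lit 3044940702) (nat_lit 1428) (nat_lit 4499986028) (nat_lit 1512) (nat_lit 597640663) (nat_lit 383) (nat_lit 5) (nat_lit 400) (nat_lit 5) (nat_lit 401) (nat_lit 5) (nat_lit 277) (nat_lit 256) (nat_lit 187))) (XT.nd (nat_lit 94) (nat_lit 1512) (nat_lit 0) (XT.lf (nat_lit 0) (nat_lit 1173123149) (nat_lit 1512) (nat_lit 406110195) (nat_lit 84) (nat_lit 6634172279) (nat_lit 382) (nat_lit 5) (nat_lit 400) (nat_lit 5) (nat_lit 383) (nat_lit 5) (nat_lit 278) (nat_lit 256) (nat_lit 186)) (XT.lf (nat_lit 0) (nat_lit 2980329256) (nat_lit 1596) (nat_lit 3876729101) (nat_lit 84) (nat_lit 1428509998) (nat_lit 364) (nat_lit 5) (nat_lit 383) (nat_lit 5) (nat_lit 365) (nat_lit 5) (nat_lit 279) (nat_lit 256) (nat_lit 185)))) (XT.nd (nat_lit 188) (nat_lit 1764) (nat_lit 0) (XT.nd (nat_lit 94) (nat_lit 0) (nat_lit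 0) (XT.lf (nat_lit 0) (nat_lit 949546558) (nat_lit 1596) (nat_lit 3864117679) (nat_lit 1680) (nat_lit 3545954283) (nat_lit 345) (nat_lit 5) (nat_lit 364) (nat_lit 5) (nat_lit 365) (nat_lit 5) (nat_lit 280) (nat_lit 256) (nat_lit 184)) (XT.lf (nat_lit 0) (nat_lit 5910968891) (nat_lit 1596) (nat_lit 770632213) (nat_lit 1680) (nat_lit 1753822778) (nat_lit 345) (nat_lit 5) (nat_lit 364) (nat_lit 5) (nat_lit 365) (nat_lit 5) (nat_lit 281) (nat_lit 256) (nat_lit 183))) (XT.nd (nat_lit 94) (nat_lit 0) (nat_lit 0) (XT.lf (nat_lit 0) (nat_lit 77573705) (nat_lit 1764) (nat_lit 6055506005) (nat_lit 84) (nat_lit 2379784000) (nat_lit 324) (nat_lit 5) (nat_lit 345) (nat_lit 5) (nat_lit 325) (nat_lit 5) (nat_lit 282) (nat_lit 256) (nat_lit 182)) (XT.lf (nat_lit 0) (nat_lit 1914524886) (nat_lit 1764) (nat_lit 1052999668) (nat_lit 84) (nat_lit 5624398001) (nat_lit 324) (nat_lit 5) (nat_lit 345) (nat_lit 5) (nat_lit 325)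 (nat_lit 5) (nat_lit 283) (nat_lit 256) (nat_lit 181)))))) (XT.nd (nat_lit 658) (nat_lit 3528) (nat_lit 0) (XT.nd (nat_lit 282) (nat_lit 3024) (nat_lit 0) (XT.nd (nat_lit 94) (nat_lit 1848) (nat_lit 0) (XT.lf (nat_lit 0) (nat_lit 3790572511) (nat_lit 1848) (nat_lit 4585206553) (nat_lit 84) (nat_lit 296970594) (nat_lit 303) (nat_lit 5) (nat_lit 325) (nat_lit 5) (nat_lit 304) (nat_lit 5) (nat_lit 284) (nat_lit 256) (nat_lit 180)) (XT.nd (nat_lit 94) (nat_lit 0) (nat_lit 0) (XT.lf (nat_lit 0) (nat_lit 558855620) (nat_lit 1848) (nat_lit 5150385264) (nat_lit 1932) (nat_lit 3046084425) (nat_lit 281) (nat_lit 5) (nat_lit 303) (nat_lit 5) (nat_lit 304) (nat_lit 5) (nat_lit 285) (nat_lit 256) (nat_lit 179)) (XT.lf (nat_lit 0) (nat_lit 5855525080) (nat_lit 1848) (nat_lit 1816875229) (nat_lit 1932) (nat_lit 1167267145) (nat_lit 281) (nat_lit 5) (nat_lit 303) (nat_lit 5) (nat_lit 304) (nat_lit 5) (nat_lit 286) (nat_lit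 256) (nat_lit 178)))) (XT.nd (nat_lit 188) (nat_lit 1848) (nat_lit 0) (XT.nd (nat_lit 94) (nat_lit 0) (nat_lit 0) (XT.lf (nat_lit 0) (nat_lit 739095150) (nat_lit 1176) (nat_lit 6595209438) (nat_lit 84) (nat_lit 1591507346) (nat_lit 267) (nat_lit 5) (nat_lit 281) (nat_lit 5) (nat_lit 268) (nat_lit 5) (nat_lit 287) (nat_lit 256) (nat_lit 177)) (XT.lf (nat_lit 0) (nat_lit 2674991975) (nat_lit 1176) (nat_lit 1257764046) (nat_lit 84) (nat_lit 5080803533) (nat_lit 267) (nat_lit 5) (nat_lit 281) (nat_lit 5) (nat_lit 268) (nat_lit 5) (nat_lit 288) (nat_lit 256) (nat_lit 176))) (XT.nd (nat_lit 94) (nat_lit 924) (nat_lit 0) (XT.lf (nat_lit 0) (nat_lit 4229299446) (nat_lit 924) (nat_lit 424312915) (nat_lit 1008) (nat_lit 4449622316) (nat_lit 256) (nat_lit 5) (nat_lit 267) (nat_lit 5) (nat_lit 268) (nat_lit 5) (nat_lit 289) (nat_lit 256) (nat_lit 175)) (XT.lf (nat_lit 0) (nat_lit 618333548) (nat_lit 924) (nat_lit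 6064167520) (nat_lit 1008) (nat_lit 2512233334) (nat_lit 245) (nat_lit 5) (nat_lit 256) (nat_lit 5) (nat_lit 257) (nat_lit 5) (nat_lit 290) (nat_lit 256) (nat_lit 174))))) (XT.nd (nat_lit 376) (nat_lit 1764) (nat_lit 0) (XT.nd (nat_lit 188) (nat_lit 840) (nat_lit 0) (XT.nd (nat_lit 94) (nat_lit 924) (nat_lit 0) (XT.lf (nat_lit 0) (nat_lit 6272131015) (nat_lit 924) (nat_lit 2493848571) (nat_lit 1008) (nat_lit 522048542) (nat_lit 245) (nat_lit 5) (nat_lit 256) (nat_lit 5) (nat_lit 257) (nat_lit 5) (nat_lit 291) (nat_lit 256) (nat_lit 173)) (XT.lf (nat_lit 0) (nat_lit 1488883102) (nat_lit 924) (nat_lit 6725986532) (nat_lit 84) (nat_lit 1168295484) (nat_lit 234) (nat_lit 5) (nat_lit 245) (nat_lit 5) (nat_lit 235) (nat_lit 5) (nat_lit 292) (nat_lit 256) (nat_lit 172))) (XT.nd (nat_lit 94) (nat_lit 840) (nat_lit 0) (XT.lf (nat_lit 0) (nat_lit 3548683153) (nat_lit 924) (nat_lit 1031086358) (nat_lit 84) (nat_lit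 4900271125) (nat_lit 234) (nat_lit 5) (nat_lit 245) (nat_lit 5) (nat_lit 235) (nat_lit 5) (nat_lit 293) (nat_lit 256) (nat_lit 171)) (XT.lf (nat_lit 0) (nat_lit 4830130307) (nat_lit 840) (nat_lit 830402261) (nat_lit 924) (nat_lit 3918366704) (nat_lit 224) (nat_lit 5) (nat_lit 234) (nat_lit 5) (nat_lit 235) (nat_lit 5) (nat_lit 294) (nat_lit 256) (nat_lit 170)))) (XT.nd (nat_lit 188) (nat_lit 840) (nat_lit 0) (XT.nd (nat_lit 94) (nat_lit 84) (nat_lit 0) (XT.lf (nat_lit 0) (nat_lit 1121721918) (nat_lit 840) (nat_lit 6706876418) (nat_lit 924) (nat_lit 1851119838) (nat_lit 214) (nat_lit 5) (nat_lit 224) (nat_lit 5) (nat_lit 225) (nat_lit 5) (nat_lit 295) (nat_lit 256) (nat_lit 169)) (XT.lf (nat_lit 0) (nat_lit 272116015) (nat_lit 924) (nat_lit 2626974133) (nat_lit 84) (nat_lit 6883309841) (nat_lit 213) (nat_lit 5) (nat_lit 224) (nat_lit 5) (nat_lit 214) (nat_lit 5) (nat_lit 296) (nat_lit 256) (nat_lit 168)))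 (XT.nd (nat_lit 94) (nat_lit 0) (nat_lit 0) (XT.lf (nat_lit 0) (nat_lit 2420150068) (nat_lit 924) (nat_lit 6452275262) (nat_lit 84) (nat_lit 1014501618) (nat_lit 203) (nat_lit 5) (nat_lit 214) (nat_lit 5) (nat_lit 204) (nat_lit 5) (nat_lit 297) (nat_lit 256) (nat_lit 167)) (XT.lf (nat_lit 0) (nat_lit 4629929427) (nat_lit 924) (nat_lit 374546791) (nat_lit 84) (nat_lit 4988958533) (nat_lit 203) (nat_lit 5) (nat_lit 214) (nat_lit 5) (nat_lit 204) (nat_lit 5) (nat_lit 298) (nat_lit 256) (nat_lit 166))))))) (XT.nd (nat_lit 41360) (nat_lit 0) (nat_lit 24192) (XT.nd (nat_lit 658) (nat_lit 2688) (nat_lit 0) (XT.nd (nat_lit 282) (nat_lit 2268) (nat_lit 0) (XT.nd (nat_lit 94) (nat_lit 840) (nat_lit 0) (XT.lf (nat_lit 0) (nat_lit 5893557274) (nat_lit 756) (nat_lit 1011149390) (nat_lit 840) (nat_lit 3197218642) (nat_lit 194) (nat_lit 5) (nat_lit 203) (nat_lit 5) (nat_lit 204) (nat_lit 5) (nat_lit 299) (nat_lit 256)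 (nat_lit 165)) (XT.nd (nat_lit 94) (nat_lit 84) (nat_lit 0) (XT.lf (nat_lit 0) (nat_lit 2071811585) (nat_lit 756) (nat_lit 7171863922) (nat_lit 840) (nat_lit 968815923) (nat_lit 185) (nat_lit 5) (nat_lit 194) (nat_lit 5) (nat_lit 195) (nat_lit 5) (nat_lit 300) (nat_lit 256) (nat_lit 164)) (XT.lf (nat_lit 0) (nat_lit 1303329119) (nat_lit 840) (nat_lit 1817419974) (nat_lit 84) (nat_lit 7204237398) (nat_lit 184) (nat_lit 5) (nat_lit 194) (nat_lit 5) (nat_lit 185) (nat_lit 5) (nat_lit 301) (nat_lit 256) (nat_lit 163)))) (XT.nd (nat_lit 188) (nat_lit 756) (nat_lit 0) (XT.nd (nat_lit 94) (nat_lit 756) (nat_lit 0) (XT.lf (nat_lit 0) (nat_lit 3627482005) (nat_lit 840) (nat_lit 5769969376) (nat_lit 84) (nat_lit 1041991701) (nat_lit 175) (nat_lit 5) (nat_lit 185) (nat_lit 5) (nat_lit 176) (nat_lit 5) (nat_lit 302) (nat_lit 256) (nat_lit 162)) (XT.lf (nat_lit 0) (nat_lit 729390349) (nat_lit 756) (nat_lit 5290550568)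 (nat_lit 840) (nat_lit 4536098959) (nat_lit 166) (nat_lit 5) (nat_lit 175) (nat_lit 5) (nat_lit 176) (nat_lit 5) (nat_lit 303) (nat_lit 256) (nat_lit 161))) (XT.nd (nat_lit 94) (nat_lit 756) (nat_lit 0) (XT.lf (nat_lit 0) (nat_lit 7429717982) (nat_lit 756) (nat_lit 1053994659) (nat_lit 840) (nat_lit 2191078226) (nat_lit 166) (nat_lit 5) (nat_lit 175) (nat_lit 5) (nat_lit 176) (nat_lit 5) (nat_lit 304) (nat_lit 256) (nat_lit 160)) (XT.lf (nat_lit 0) (nat_lit 227420736) (nat_lit 756) (nat_lit 7317239889) (nat_lit 84) (nat_lit 3250914888) (nat_lit 157) (nat_lit 5) (nat_lit 166) (nat_lit 5) (nat_lit 158) (nat_lit 5) (nat_lit 305) (nat_lit 256) (nat_lit 159))))) (XT.nd (nat_lit 376) (nat_lit 1344) (nat_lit 0) (XT.nd (nat_lit 188) (nat_lit 672) (nat_lit 0) (XT.nd (nat_lit 94) (nat_lit 672) (nat_lit 0) (XT.lf (nat_lit 0) (nat_lit 2675373953) (nat_lit 756) (nat_lit 572373837) (nat_lit 84) (nat_lit 7670731708)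 (nat_lit 157) (nat_lit 5) (nat_lit 166) (nat_lit 5) (nat_lit 158) (nat_lit 5) (nat_lit 306) (nat_lit 256) (nat_lit 158)) (XT.lf (nat_lit 0) (nat_lit 5208294853) (nat_lit 756) (nat_lit 4666788238) (nat_lit 84) (nat_lit 1168319802) (nat_lit 149) (nat_lit 5) (nat_lit 158) (nat_lit 5) (nat_lit 150) (nat_lit 5) (nat_lit 307) (nat_lit 256) (nat_lit 157))) (XT.nd (nat_lit 94) (nat_lit 0) (nat_lit 0) (XT.lf (nat_lit 0) (nat_lit 2297602405) (nat_lit 672) (nat_lit 5521052326) (nat_lit 756) (nat_lit 3351942147) (nat_lit 141) (nat_lit 5) (nat_lit 149) (nat_lit 5) (nat_lit 150) (nat_lit 5) (nat_lit 308) (nat_lit 256) (nat_lit 156)) (XT.lf (nat_lit 0) (nat_lit 9457246309) (nat_lit 672) (nat_lit 1041401524) (nat_lit 756) (nat_lit 801672780) (nat_lit 141) (nat_lit 5) (nat_lit 149) (nat_lit 5) (nat_lit 150) (nat_lit 5) (nat_lit 309) (nat_lit 256) (nat_lit 155)))) (XT.nd (nat_lit 188) (nat_lit 0) (nat_lit 0) (XT.nd (nat_lit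 94) (nat_lit 588) (nat_lit 0) (XT.lf (nat_lit 0) (nat_lit 1820605776) (nat_lit 756) (nat_lit 6079050694) (nat_lit 84) (nat_lit 3532037255) (nat_lit 132) (nat_lit 5) (nat_lit 141) (nat_lit 5) (nat_lit 133) (nat_lit 5) (nat_lit 310) (nat_lit 256) (nat_lit 154)) (XT.lf (nat_lit 0) (nat_lit 1143866793) (nat_lit 588) (nat_lit 3352643948) (nat_lit 672) (nat_lit 7069147698) (nat_lit 125) (nat_lit 5) (nat_lit 132) (nat_lit 5) (nat_lit 133) (nat_lit 5) (nat_lit 311) (nat_lit 256) (nat_lit 153))) (XT.nd (nat_lit 40044) (nat_lit 0) (nat_lit 27804) (XT.lf (nat_lit 0) (nat_lit 7264258792) (nat_lit 672) (nat_lit 3122505977) (nat_lit 84) (nat_lit 1315080196) (nat_lit 125) (nat_lit 5) (nat_lit 133) (nat_lit 5) (nat_lit 126) (nat_lit 5) (nat_lit 312) (nat_lit 256) (nat_lit 152)) (XT.lf (nat_lit 0) (nat_lit 899769389) (nat_lit 0) (nat_lit 899769389) (nat_lit 1092) (nat_lit 1752369158) (nat_lit 456) (nat_lit 5) (nat_lit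 456) (nat_lit 3) (nat_lit 469) (nat_lit 3) (nat_lit 257) (nat_lit 257) (nat_lit 206)))))) (XT.nd (nat_lit 658) (nat_lit 1260) (nat_lit 0) (XT.nd (nat_lit 282) (nat_lit 1176) (nat_lit 0) (XT.nd (nat_lit 94) (nat_lit 1176) (nat_lit 0) (XT.lf (nat_lit 0) (nat_lit 5377641348) (nat_lit 1092) (nat_lit 1739899957) (nat_lit 1176) (nat_lit 26159117) (nat_lit 456) (nat_lit 5) (nat_lit 469) (nat_lit 3) (nat_lit 470) (nat_lit 5) (nat_lit 258) (nat_lit 257) (nat_lit 205)) (XT.nd (nat_lit 94) (nat_lit 1176) (nat_lit 0) (XT.lf (nat_lit 84) (nat_lit 1890700670) (nat_lit 0) (nat_lit 5281291646) (nat_lit 1176) (nat_lit 12983621) (nat_lit 457) (nat_lit 5) (nat_lit 456) (nat_lit 5) (nat_lit 470) (nat_lit 5) (nat_lit 259) (nat_lit 257) (nat_lit 204)) (XT.lf (nat_lit 0) (nat_lit 1716607839) (nat_lit 1176) (nat_lit 1639335655) (nat_lit 1260) (nat_lit 3871738816) (nat_lit 442) (nat_lit 5) (nat_lit 456) (nat_lit 5) (nat_lit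 457) (nat_lit 5) (nat_lit 260) (nat_lit 257) (nat_lit 203)))) (XT.nd (nat_lit 188) (nat_lit 1176) (nat_lit 0) (XT.nd (nat_lit 94) (nat_lit 0) (nat_lit 84) (XT.lf (nat_lit 84) (nat_lit 2099885538) (nat_lit 0) (nat_lit 1350816237) (nat_lit 1260) (nat_lit 3821358232) (nat_lit 443) (nat_lit 5) (nat_lit 442) (nat_lit 5) (nat_lit 457) (nat_lit 5) (nat_lit 261) (nat_lit 257) (nat_lit 202)) (XT.lf (nat_lit 0) (nat_lit 5192808728) (nat_lit 1176) (nat_lit 1403641543) (nat_lit 1260) (nat_lit 721626757) (nat_lit 443) (nat_lit 5) (nat_lit 457) (nat_lit 5) (nat_lit 458) (nat_lit 5) (nat_lit 262) (nat_lit 257) (nat_lit 201))) (XT.nd (nat_lit 94) (nat_lit 1260) (nat_lit 0) (XT.lf (nat_lit 84) (nat_lit 2446505956) (nat_lit 0) (nat_lit 4507706459) (nat_lit 1260) (nat_lit 411312661) (nat_lit 444) (nat_lit 5) (nat_lit 443) (nat_lit 5) (nat_lit 458) (nat_lit 5) (nat_lit 263) (nat_lit 257) (nat_lit 200)) (XT.lf (nat_lit 0)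 (nat_lit 1285673973) (nat_lit 1260) (nat_lit 1048264992) (nat_lit 1344) (nat_lit 5080646123) (nat_lit 428) (nat_lit 5) (nat_lit 443) (nat_lit 5) (nat_lit 444) (nat_lit 5) (nat_lit 264) (nat_lit 257) (nat_lit 199))))) (XT.nd (nat_lit 376) (nat_lit 0) (nat_lit 84) (XT.nd (nat_lit 188) (nat_lit 1260) (nat_lit 0) (XT.nd (nat_lit 94) (nat_lit 0) (nat_lit 84) (XT.lf (nat_lit 84) (nat_lit 2920122071) (nat_lit 0) (nat_lit 69790663) (nat_lit 1344) (nat_lit 4475274406) (nat_lit 429) (nat_lit 5) (nat_lit 428) (nat_lit 5) (nat_lit 444) (nat_lit 5) (nat_lit 265) (nat_lit 257) (nat_lit 198)) (XT.lf (nat_lit 0) (nat_lit 4711504655) (nat_lit 1260) (nat_lit 568795630) (nat_lit 1344) (nat_lit 2237045235) (nat_lit 429) (nat_lit 5) (nat_lit 444) (nat_lit 5) (nat_lit 445) (nat_lit 5) (nat_lit 266) (nat_lit 257) (nat_lit 197))) (XT.nd (nat_lit 94) (nat_lit 1344) (nat_lit 0) (XT.lf (nat_lit 84) (nat_lit 3518217900) (nat_lit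 0) (nat_lit 2935343373) (nat_lit 1344) (nat_lit 1117473137) (nat_lit 430) (nat_lit 5) (nat_lit 429) (nat_lit 5) (nat_lit 445) (nat_lit 5) (nat_lit 267) (nat_lit 257) (nat_lit 196)) (XT.lf (nat_lit 84) (nat_lit 46814514) (nat_lit 0) (nat_lit 514479782) (nat_lit 1428) (nat_lit 7065350582) (nat_lit 414) (nat_lit 5) (nat_lit 413) (nat_lit 5) (nat_lit 430) (nat_lit 5) (nat_lit 268) (nat_lit 257) (nat_lit 195)))) (XT.nd (nat_lit 188) (nat_lit 0) (nat_lit 0) (XT.nd (nat_lit 94) (nat_lit 0) (nat_lit 0) (XT.lf (nat_lit 0) (nat_lit 2262933130) (nat_lit 1344) (nat_lit 3436119545) (nat_lit 1428) (nat_lit 1984194597) (nat_lit 414) (nat_lit 5) (nat_lit 430) (nat_lit 5) (nat_lit 431) (nat_lit 5) (nat_lit 269) (nat_lit 257) (nat_lit 194)) (XT.lf (nat_lit 84) (nat_lit 778674792) (nat_lit 0) (nat_lit 3191798873) (nat_lit 1428) (nat_lit 3771315008) (nat_lit 415) (nat_lit 5) (nat_lit 414) (nat_lit 5) (nat_lit 431) (nat_lit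 5) (nat_lit 270) (nat_lit 257) (nat_lit 193))) (XT.nd (nat_lit 94) (nat_lit 0) (nat_lit 84) (XT.lf (nat_lit 84) (nat_lit 5110164592) (nat_lit 0) (nat_lit 590653438) (nat_lit 1428) (nat_lit 2101124721) (nat_lit 415) (nat_lit 5) (nat_lit 414) (nat_lit 5) (nat_lit 431) (nat_lit 5) (nat_lit 271) (nat_lit 257) (nat_lit 192)) (XT.lf (nat_lit 84) (nat_lit 1654920640) (nat_lit 0) (nat_lit 5801637459) (nat_lit 1428) (nat_lit 407140901) (nat_lit 416) (nat_lit 5) (nat_lit 415) (nat_lit 5) (nat_lit 432) (nat_lit 5) (nat_lit 272) (nat_lit 257) (nat_lit 191))))))))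
noncomputable def xc41 : XT := (XT.nd (nat_lit 2820) (nat_lit 4200) (nat_lit 0) (XT.nd (nat_lit 1410) (nat_lit 8820) (nat_lit 0) (XT.nd (nat_lit 658) (nat_lit 7056) (nat_lit 0) (XT.nd (nat_lit 282) (nat_lit 2856) (nat_lit 0) (XT.nd (nat_lit 94) (nat_lit 0) (nat_lit 0) (XT.lf (nat_lit 0) (nat_lit 1290544135) (nat_lit 1428) (nat_lit 1830884756) (nat_lit 1512) (nat_lit 4805496382) (nat_lit 398) (nat_lit 5) (nat_lit 415) (nat_lit 5) (nat_lit 416) (nat_lit 5) (nat_lit 273) (nat_lit 257) (nat_lit 190)) (XT.nd (nat_lit 94) (nat_lit 0) (nat_lit 84) (XT.lf (nat_lit 84) (nat_lit 2651066175) (nat_lit 0) (nat_lit 349416740) (nat_lit 1512) (nat_lit 4991414651) (nat_lit 399) (nat_lit 5) (nat_lit 398) (nat_lit 5) (nat_lit 416) (nat_lit 5) (nat_lit 274) (nat_lit 257) (nat_lit 189)) (XT.lf (nat_lit 0) (nat_lit 4742062334) (nat_lit 1428) (nat_lit 844998111) (nat_lit 1512) (nat_lit 2471370320) (nat_lit 399) (nat_lit 5)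 (nat_lit 416) (nat_lit 5) (nat_lit 417) (nat_lit 5) (nat_lit 275) (nat_lit 257) (nat_lit 188)))) (XT.nd (nat_lit 188) (nat_lit 1512) (nat_lit 0) (XT.nd (nat_lit 94) (nat_lit 1428) (nat_lit 0) (XT.lf (nat_lit 84) (nat_lit 3773992292) (nat_lit 0) (nat_lit 2740902610) (nat_lit 1512) (nat_lit 1611688149) (nat_lit 400) (nat_lit 5) (nat_lit 399) (nat_lit 5) (nat_lit 417) (nat_lit 5) (nat_lit 276) (nat_lit 257) (nat_lit 187)) (XT.lf (nat_lit 0) (nat_lit 102105242) (nat_lit 1512) (nat_lit 7911769680) (nat_lit 84) (nat_lit 182922540) (nat_lit 382) (nat_lit 5) (nat_lit 400) (nat_lit 5) (nat_lit 383) (nat_lit 5) (nat_lit 277) (nat_lit 257) (nat_lit 186))) (XT.nd (nat_lit 94) (nat_lit 1512) (nat_lit 0) (XT.lf (nat_lit 0) (nat_lit 1846693429) (nat_lit 1512) (nat_lit 3238620832) (nat_lit 84) (nat_lit 3182614264) (nat_lit 382) (nat_lit 5) (nat_lit 400) (nat_lit 5) (nat_lit 383) (nat_lit 5) (nat_lit 278) (nat_lit 257)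 (nat_lit 185)) (XT.lf (nat_lit 0) (nat_lit 1531478172) (nat_lit 1512) (nat_lit 2074336235) (nat_lit 1596) (nat_lit 4735334723) (nat_lit 364) (nat_lit 5) (nat_lit 382) (nat_lit 5) (nat_lit 383) (nat_lit 5) (nat_lit 279) (nat_lit 257) (nat_lit 184))))) (XT.nd (nat_lit 376) (nat_lit 3696) (nat_lit 0) (XT.nd (nat_lit 188) (nat_lit 1764) (nat_lit 0) (XT.nd (nat_lit 94) (nat_lit 1596) (nat_lit 0) (XT.lf (nat_lit 0) (nat_lit 5400715287) (nat_lit 1596) (nat_lit 1996397828) (nat_lit 84) (nat_lit 1018931731) (nat_lit 364) (nat_lit 5) (nat_lit 383) (nat_lit 5) (nat_lit 365) (nat_lit 5) (nat_lit 280) (nat_lit 257) (nat_lit 183)) (XT.lf (nat_lit 0) (nat_lit 2921849711) (nat_lit 1596) (nat_lit 4315743487) (nat_lit 1680) (nat_lit 1254940306) (nat_lit 345) (nat_lit 5) (nat_lit 364) (nat_lit 5) (nat_lit 365) (nat_lit 5) (nat_lit 281) (nat_lit 257) (nat_lit 182))) (XT.nd (nat_lit 94) (nat_lit 1680) (nat_lit 0) (XT.lf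 (nat_lit 0) (nat_lit 518050846) (nat_lit 1680) (nat_lit 624432085) (nat_lit 84) (nat_lit 7428539056) (nat_lit 344) (nat_lit 5) (nat_lit 364) (nat_lit 5) (nat_lit 345) (nat_lit 5) (nat_lit 282) (nat_lit 257) (nat_lit 181)) (XT.lf (nat_lit 0) (nat_lit 2326197868) (nat_lit 1764) (nat_lit 4208210138) (nat_lit 84) (nat_lit 2116306518) (nat_lit 324) (nat_lit 5) (nat_lit 345) (nat_lit 5) (nat_lit 325) (nat_lit 5) (nat_lit 283) (nat_lit 257) (nat_lit 180)))) (XT.nd (nat_lit 188) (nat_lit 1932) (nat_lit 0) (XT.nd (nat_lit 94) (nat_lit 0) (nat_lit 0) (XT.lf (nat_lit 0) (nat_lit 874310756) (nat_lit 1764) (nat_lit 3287111052) (nat_lit 1848) (nat_lit 4571017940) (nat_lit 303) (nat_lit 5) (nat_lit 324) (nat_lit 5) (nat_lit 325) (nat_lit 5) (nat_lit 284) (nat_lit 257) (nat_lit 179)) (XT.lf (nat_lit 0) (nat_lit 6037174851) (nat_lit 1848) (nat_lit 2712857828) (nat_lit 84) (nat_lit 65926858) (nat_lit 303) (nat_lit 5)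 (nat_lit 325) (nat_lit 5) (nat_lit 304) (nat_lit 5) (nat_lit 285) (nat_lit 257) (nat_lit 178))) (XT.nd (nat_lit 94) (nat_lit 84) (nat_lit 0) (XT.lf (nat_lit 0) (nat_lit 2530112572) (nat_lit 1848) (nat_lit 5435329345) (nat_lit 1932) (nat_lit 935627397) (nat_lit 281) (nat_lit 5) (nat_lit 303) (nat_lit 5) (nat_lit 304) (nat_lit 5) (nat_lit 286) (nat_lit 257) (nat_lit 177)) (XT.lf (nat_lit 0) (nat_lit 924145557) (nat_lit 1932) (nat_lit 1093815785) (nat_lit 84) (nat_lit 6970167717) (nat_lit 280) (nat_lit 5) (nat_lit 303) (nat_lit 5) (nat_lit 281) (nat_lit 5) (nat_lit 287) (nat_lit 257) (nat_lit 176)))))) (XT.nd (nat_lit 658) (nat_lit 4116) (nat_lit 0) (XT.nd (nat_lit 282) (nat_lit 2688) (nat_lit 0) (XT.nd (nat_lit 94) (nat_lit 924) (nat_lit 0) (XT.lf (nat_lit 0) (nat_lit 2822871977) (nat_lit 1176) (nat_lit 4760430354) (nat_lit 84) (nat_lit 1493392098) (nat_lit 267) (nat_lit 5) (nat_lit 281) (nat_lit 5) (nat_lit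 268) (nat_lit 5) (nat_lit 288) (nat_lit 257) (nat_lit 175)) (XT.nd (nat_lit 94) (nat_lit 0) (nat_lit 0) (XT.lf (nat_lit 0) (nat_lit 661344714) (nat_lit 924) (nat_lit 4100218500) (nat_lit 1008) (nat_lit 4405684779) (nat_lit 256) (nat_lit 5) (nat_lit 267) (nat_lit 5) (nat_lit 268) (nat_lit 5) (nat_lit 289) (nat_lit 257) (nat_lit 174)) (XT.lf (nat_lit 0) (nat_lit 6245596956) (nat_lit 924) (nat_lit 503556992) (nat_lit 1008) (nat_lit 2510502326) (nat_lit 256) (nat_lit 5) (nat_lit 267) (nat_lit 5) (nat_lit 268) (nat_lit 5) (nat_lit 290) (nat_lit 257) (nat_lit 173)))) (XT.nd (nat_lit 188) (nat_lit 1680) (nat_lit 0) (XT.nd (nat_lit 94) (nat_lit 84) (nat_lit 0) (XT.lf (nat_lit 0) (nat_lit 2585316852) (nat_lit 924) (nat_lit 6207882839) (nat_lit 1008) (nat_lit 560617830) (nat_lit 245) (nat_lit 5) (nat_lit 256) (nat_lit 5) (nat_lit 257) (nat_lit 5) (nat_lit 291) (nat_lit 257) (nat_lit 172)) (XT.lf (nat_lit 0) (nat_lit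 1409551276) (nat_lit 1008) (nat_lit 1138832380) (nat_lit 84) (nat_lit 6901485895) (nat_lit 244) (nat_lit 5) (nat_lit 256) (nat_lit 5) (nat_lit 245) (nat_lit 5) (nat_lit 292) (nat_lit 257) (nat_lit 171))) (XT.nd (nat_lit 94) (nat_lit 840) (nat_lit 0) (XT.lf (nat_lit 0) (nat_lit 3429222294) (nat_lit 924) (nat_lit 4906527710) (nat_lit 84) (nat_lit 1211877903) (nat_lit 234) (nat_lit 5) (nat_lit 245) (nat_lit 5) (nat_lit 235) (nat_lit 5) (nat_lit 293) (nat_lit 257) (nat_lit 170)) (XT.lf (nat_lit 0) (nat_lit 884041545) (nat_lit 840) (nat_lit 4615530190) (nat_lit 924) (nat_lit 4147827808) (nat_lit 224) (nat_lit 5) (nat_lit 234) (nat_lit 5) (nat_lit 235) (nat_lit 5) (nat_lit 294) (nat_lit 257) (nat_lit 169))))) (XT.nd (nat_lit 376) (nat_lit 2352) (nat_lit 0) (XT.nd (nat_lit 188) (nat_lit 924) (nat_lit 0) (XT.nd (nat_lit 94) (nat_lit 840) (nat_lit 0) (XT.lf (nat_lit 0) (nat_lit 6847558781) (nat_lit 840) (nat_lit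 777460006) (nat_lit 924) (nat_lit 2124137270) (nat_lit 224) (nat_lit 5) (nat_lit 234) (nat_lit 5) (nat_lit 235) (nat_lit 5) (nat_lit 295) (nat_lit 257) (nat_lit 168)) (XT.lf (nat_lit 0) (nat_lit 3083435634) (nat_lit 840) (nat_lit 6732033033) (nat_lit 924) (nat_lit 37281200) (nat_lit 214) (nat_lit 5) (nat_lit 224) (nat_lit 5) (nat_lit 225) (nat_lit 5) (nat_lit 296) (nat_lit 257) (nat_lit 167))) (XT.nd (nat_lit 94) (nat_lit 840) (nat_lit 0) (XT.lf (nat_lit 0) (nat_lit 2066607127) (nat_lit 924) (nat_lit 763292565) (nat_lit 84) (nat_lit 7128365995) (nat_lit 213) (nat_lit 5) (nat_lit 224) (nat_lit 5) (nat_lit 214) (nat_lit 5) (nat_lit 297) (nat_lit 257) (nat_lit 166)) (XT.lf (nat_lit 0) (nat_lit 4238011741) (nat_lit 924) (nat_lit 4648864131) (nat_lit 84) (nat_lit 1178741864) (nat_lit 203) (nat_lit 5) (nat_lit 214) (nat_lit 5) (nat_lit 204) (nat_lit 5) (nat_lit 298) (nat_lit 257) (nat_lit 165)))) (XT.nd (nat_lit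 188) (nat_lit 1596) (nat_lit 0) (XT.nd (nat_lit 94) (nat_lit 0) (nat_lit 0) (XT.lf (nat_lit 0) (nat_lit 1542920674) (nat_lit 756) (nat_lit 4926490245) (nat_lit 840) (nat_lit 3705651689) (nat_lit 194) (nat_lit 5) (nat_lit 203) (nat_lit 5) (nat_lit 204) (nat_lit 5) (nat_lit 299) (nat_lit 257) (nat_lit 164)) (XT.lf (nat_lit 0) (nat_lit 7912942946) (nat_lit 756) (nat_lit 846592483) (nat_lit 840) (nat_lit 1527167879) (nat_lit 194) (nat_lit 5) (nat_lit 203) (nat_lit 5) (nat_lit 204) (nat_lit 5) (nat_lit 300) (nat_lit 257) (nat_lit 163))) (XT.nd (nat_lit 94) (nat_lit 756) (nat_lit 0) (XT.lf (nat_lit 0) (nat_lit 717558656) (nat_lit 840) (nat_lit 6376032398) (nat_lit 84) (nat_lit 3306474947) (nat_lit 184) (nat_lit 5) (nat_lit 194) (nat_lit 5) (nat_lit 185) (nat_lit 5) (nat_lit 301) (nat_lit 257) (nat_lit 162)) (XT.lf (nat_lit 0) (nat_lit 38145692) (nat_lit 756) (nat_lit 2951102467) (nat_lit 840) (nat_lit 7526428628)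 (nat_lit 175) (nat_lit 5) (nat_lit 184) (nat_lit 5) (nat_lit 185) (nat_lit 5) (nat_lit 302) (nat_lit 257) (nat_lit 161))))))) (XT.nd (nat_lit 41454) (nat_lit 0) (nat_lit 21504) (XT.nd (nat_lit 658) (nat_lit 1344) (nat_lit 0) (XT.nd (nat_lit 282) (nat_lit 2100) (nat_lit 0) (XT.nd (nat_lit 94) (nat_lit 756) (nat_lit 0) (XT.lf (nat_lit 0) (nat_lit 5343749512) (nat_lit 840) (nat_lit 3981398039) (nat_lit 84) (nat_lit 1307961096) (nat_lit 175) (nat_lit 5) (nat_lit 185) (nat_lit 5) (nat_lit 176) (nat_lit 5) (nat_lit 303) (nat_lit 257) (nat_lit 160)) (XT.nd (nat_lit 94) (nat_lit 0) (nat_lit 0) (XT.lf (nat_lit 0) (nat_lit 2647103568) (nat_lit 756) (nat_lit 5120057786) (nat_lit 840) (nat_lit 2985586201) (nat_lit 166) (nat_lit 5) (nat_lit 175) (nat_lit 5) (nat_lit 176) (nat_lit 5) (nat_lit 304) (nat_lit 257) (nat_lit 159)) (XT.lf (nat_lit 0) (nat_lit 9453902337) (nat_lit 756) (nat_lit 796473250) (nat_lit 840) (nat_lit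 624500211) (nat_lit 166) (nat_lit 5) (nat_lit 175) (nat_lit 5) (nat_lit 176) (nat_lit 5) (nat_lit 305) (nat_lit 257) (nat_lit 158)))) (XT.nd (nat_lit 188) (nat_lit 672) (nat_lit 0) (XT.nd (nat_lit 94) (nat_lit 672) (nat_lit 0) (XT.lf (nat_lit 0) (nat_lit 1805146471) (nat_lit 756) (nat_lit 5575429348) (nat_lit 84) (nat_lit 3617902461) (nat_lit 157) (nat_lit 5) (nat_lit 166) (nat_lit 5) (nat_lit 158) (nat_lit 5) (nat_lit 306) (nat_lit 257) (nat_lit 157)) (XT.lf (nat_lit 0) (nat_lit 1295523162) (nat_lit 672) (nat_lit 2986804730) (nat_lit 756) (nat_lit 6842300050) (nat_lit 149) (nat_lit 5) (nat_lit 157) (nat_lit 5) (nat_lit 158) (nat_lit 5) (nat_lit 307) (nat_lit 257) (nat_lit 156))) (XT.nd (nat_lit 94) (nat_lit 672) (nat_lit 0) (XT.lf (nat_lit 0) (nat_lit 6844131695) (nat_lit 756) (nat_lit 2890014972) (nat_lit 84) (nat_lit 1518743493) (nat_lit 149) (nat_lit 5) (nat_lit 158) (nat_lit 5) (nat_lit 150) (nat_lit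 5) (nat_lit 308) (nat_lit 257) (nat_lit 155)) (XT.lf (nat_lit 0) (nat_lit 4214008908) (nat_lit 672) (nat_lit 5278454380) (nat_lit 756) (nat_lit 1890847162) (nat_lit 141) (nat_lit 5) (nat_lit 149) (nat_lit 5) (nat_lit 150) (nat_lit 5) (nat_lit 309) (nat_lit 257) (nat_lit 154))))) (XT.nd (nat_lit 40420) (nat_lit 0) (nat_lit 26544) (XT.nd (nat_lit 188) (nat_lit 588) (nat_lit 0) (XT.nd (nat_lit 94) (nat_lit 672) (nat_lit 0) (XT.lf (nat_lit 0) (nat_lit 672658563) (nat_lit 756) (nat_lit 30461147) (nat_lit 84) (nat_lit 10813372666) (nat_lit 140) (nat_lit 5) (nat_lit 149) (nat_lit 5) (nat_lit 141) (nat_lit 5) (nat_lit 310) (nat_lit 257) (nat_lit 153)) (XT.lf (nat_lit 0) (nat_lit 3324681855) (nat_lit 756) (nat_lit 4349320426) (nat_lit 84) (nat_lit 3976980206) (nat_lit 132) (nat_lit 5) (nat_lit 141) (nat_lit 5) (nat_lit 133) (nat_lit 5) (nat_lit 311) (nat_lit 257) (nat_lit 152))) (XT.nd (nat_lit 40138) (nat_lit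 0) (nat_lit 27804) (XT.lf (nat_lit 0) (nat_lit 3019033334) (nat_lit 588) (nat_lit 3022086225) (nat_lit 672) (nat_lit 5747178283) (nat_lit 125) (nat_lit 5) (nat_lit 132) (nat_lit 5) (nat_lit 133) (nat_lit 5) (nat_lit 312) (nat_lit 257) (nat_lit 151)) (XT.lf (nat_lit 0) (nat_lit 1782763866) (nat_lit 0) (nat_lit 1782763866) (nat_lit 1092) (nat_lit 26541398) (nat_lit 456) (nat_lit 5) (nat_lit 456) (nat_lit 3) (nat_lit 469) (nat_lit 3) (nat_lit 258) (nat_lit 258) (nat_lit 204)))) (XT.nd (nat_lit 188) (nat_lit 0) (nat_lit 84) (XT.nd (nat_lit 94) (nat_lit 0) (nat_lit 84) (XT.lf (nat_lit 0) (nat_lit 1623956400) (nat_lit 1260) (nat_lit 26159117) (nat_lit 1260) (nat_lit 5576165973) (nat_lit 441) (nat_lit 3) (nat_lit 456) (nat_lit 3) (nat_lit 456) (nat_lit 5) (nat_lit 259) (nat_lit 258) (nat_lit 203)) (XT.lf (nat_lit 0) (nat_lit 3317521402) (nat_lit 1176) (nat_lit 3599220232) (nat_lit 1260) (nat_lit 353032663)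 (nat_lit 442) (nat_lit 5) (nat_lit 456) (nat_lit 5) (nat_lit 457) (nat_lit 5) (nat_lit 260) (nat_lit 258) (nat_lit 202))) (XT.nd (nat_lit 94) (nat_lit 0) (nat_lit 0) (XT.lf (nat_lit 84) (nat_lit 98457939) (nat_lit 0) (nat_lit 4915520274) (nat_lit 1260) (nat_lit 2301001798) (nat_lit 443) (nat_lit 5) (nat_lit 442) (nat_lit 5) (nat_lit 457) (nat_lit 5) (nat_lit 261) (nat_lit 258) (nat_lit 201)) (XT.lf (nat_lit 84) (nat_lit 3905713873) (nat_lit 0) (nat_lit 2822188745) (nat_lit 1260) (nat_lit 633714430) (nat_lit 443) (nat_lit 5) (nat_lit 442) (nat_lit 5) (nat_lit 457) (nat_lit 5) (nat_lit 262) (nat_lit 258) (nat_lit 200)))))) (XT.nd (nat_lit 658) (nat_lit 2688) (nat_lit 0) (XT.nd (nat_lit 282) (nat_lit 1176) (nat_lit 0) (XT.nd (nat_lit 94) (nat_lit 0) (nat_lit 84) (XT.lf (nat_lit 84) (nat_lit 359356035) (nat_lit 0) (nat_lit 652271325) (nat_lit 1344) (nat_lit 6398435659) (nat_lit 428) (nat_lit 5) (nat_lit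 427) (nat_lit 5) (nat_lit 443) (nat_lit 5) (nat_lit 263) (nat_lit 258) (nat_lit 199)) (XT.nd (nat_lit 94) (nat_lit 0) (nat_lit 0) (XT.lf (nat_lit 0) (nat_lit 2675873495) (nat_lit 1260) (nat_lit 3191385992) (nat_lit 1344) (nat_lit 1592389045) (nat_lit 428) (nat_lit 5) (nat_lit 443) (nat_lit 5) (nat_lit 444) (nat_lit 5) (nat_lit 264) (nat_lit 258) (nat_lit 198)) (XT.lf (nat_lit 84) (nat_lit 732627711) (nat_lit 0) (nat_lit 3610209741) (nat_lit 1344) (nat_lit 3168233178) (nat_lit 429) (nat_lit 5) (nat_lit 428) (nat_lit 5) (nat_lit 444) (nat_lit 5) (nat_lit 265) (nat_lit 258) (nat_lit 197)))) (XT.nd (nat_lit 188) (nat_lit 0) (nat_lit 0) (XT.nd (nat_lit 94) (nat_lit 1260) (nat_lit 0) (XT.lf (nat_lit 84) (nat_lit 4764805604) (nat_lit 0) (nat_lit 1262139111) (nat_lit 1344) (nat_lit 1537108956) (nat_lit 429) (nat_lit 5) (nat_lit 428) (nat_lit 5) (nat_lit 444) (nat_lit 5) (nat_lit 266) (nat_lit 258) (nat_lit 196))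 (XT.lf (nat_lit 0) (nat_lit 102807532) (nat_lit 1344) (nat_lit 6368411121) (nat_lit 1428) (nat_lit 1147518204) (nat_lit 413) (nat_lit 5) (nat_lit 429) (nat_lit 5) (nat_lit 430) (nat_lit 5) (nat_lit 267) (nat_lit 258) (nat_lit 195))) (XT.nd (nat_lit 94) (nat_lit 0) (nat_lit 0) (XT.lf (nat_lit 0) (nat_lit 1744554799) (nat_lit 1344) (nat_lit 2290638179) (nat_lit 1428) (nat_lit 3639439575) (nat_lit 413) (nat_lit 5) (nat_lit 429) (nat_lit 5) (nat_lit 430) (nat_lit 5) (nat_lit 268) (nat_lit 258) (nat_lit 194)) (XT.lf (nat_lit 84) (nat_lit 1877728127) (nat_lit 0) (nat_lit 1517328087) (nat_lit 1428) (nat_lit 4337303755) (nat_lit 414) (nat_lit 5) (nat_lit 413) (nat_lit 5) (nat_lit 430) (nat_lit 5) (nat_lit 269) (nat_lit 258) (nat_lit 193))))) (XT.nd (nat_lit 376) (nat_lit 1344) (nat_lit 0) (XT.nd (nat_lit 188) (nat_lit 1428) (nat_lit 0) (XT.nd (nat_lit 94) (nat_lit 0) (nat_lit 0) (XT.lf (nat_lit 0) (nat_lit 5066485314)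 (nat_lit 1344) (nat_lit 1653575535) (nat_lit 1428) (nat_lit 1071634975) (nat_lit 414) (nat_lit 5) (nat_lit 430) (nat_lit 5) (nat_lit 431) (nat_lit 5) (nat_lit 270) (nat_lit 258) (nat_lit 192)) (XT.lf (nat_lit 84) (nat_lit 2640514891) (nat_lit 0) (nat_lit 4124938393) (nat_lit 1428) (nat_lit 1087086897) (nat_lit 415) (nat_lit 5) (nat_lit 414) (nat_lit 5) (nat_lit 431) (nat_lit 5) (nat_lit 271) (nat_lit 258) (nat_lit 191))) (XT.nd (nat_lit 94) (nat_lit 0) (nat_lit 84) (XT.lf (nat_lit 0) (nat_lit 552209921) (nat_lit 1428) (nat_lit 891703453) (nat_lit 1512) (nat_lit 6471298755) (nat_lit 397) (nat_lit 5) (nat_lit 414) (nat_lit 5) (nat_lit 415) (nat_lit 5) (nat_lit 272) (nat_lit 258) (nat_lit 190)) (XT.lf (nat_lit 0) (nat_lit 2208467414) (nat_lit 1428) (nat_lit 4448351331) (nat_lit 1512) (nat_lit 1322338249) (nat_lit 398) (nat_lit 5) (nat_lit 415) (nat_lit 5) (nat_lit 416) (nat_lit 5) (nat_lit 273) (nat_lit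 258) (nat_lit 189)))) (XT.nd (nat_lit 188) (nat_lit 1428) (nat_lit 0) (XT.nd (nat_lit 94) (nat_lit 0) (nat_lit 0) (XT.lf (nat_lit 0) (nat_lit 3881139903) (nat_lit 1428) (nat_lit 17880279) (nat_lit 1512) (nat_lit 4145928963) (nat_lit 398) (nat_lit 5) (nat_lit 415) (nat_lit 5) (nat_lit 416) (nat_lit 5) (nat_lit 274) (nat_lit 258) (nat_lit 188)) (XT.lf (nat_lit 84) (nat_lit 4549279274) (nat_lit 0) (nat_lit 1037368958) (nat_lit 1512) (nat_lit 2525627677) (nat_lit 399) (nat_lit 5) (nat_lit 398) (nat_lit 5) (nat_lit 416) (nat_lit 5) (nat_lit 275) (nat_lit 258) (nat_lit 187))) (XT.nd (nat_lit 94) (nat_lit 1512) (nat_lit 0) (XT.lf (nat_lit 84) (nat_lit 1010237252) (nat_lit 0) (nat_lit 6304510021) (nat_lit 1512) (nat_lit 866665059) (nat_lit 400) (nat_lit 5) (nat_lit 399) (nat_lit 5) (nat_lit 417) (nat_lit 5) (nat_lit 276) (nat_lit 258) (nat_lit 186)) (XT.lf (nat_lit 0) (nat_lit 815537720) (nat_lit 1512) (nat_lit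 2555135526) (nat_lit 1596) (nat_lit 4881295662) (nat_lit 381) (nat_lit 5) (nat_lit 399) (nat_lit 5) (nat_lit 400) (nat_lit 5) (nat_lit 277) (nat_lit 258) (nat_lit 185))))))))
noncomputable def xc42 : XT := (XT.nd (nat_lit 2820) (nat_lit 2100) (nat_lit 0) (XT.nd (nat_lit 1410) (nat_lit 7308) (nat_lit 0) (XT.nd (nat_lit 658) (nat_lit 6720) (nat_lit 0) (XT.nd (nat_lit 282) (nat_lit 3360) (nat_lit 0) (XT.nd (nat_lit 94) (nat_lit 1428) (nat_lit 0) (XT.lf (nat_lit 84) (nat_lit 2160560395) (nat_lit 0) (nat_lit 342202217) (nat_lit 1596) (nat_lit 5821599351) (nat_lit 382) (nat_lit 5) (nat_lit 381) (nat_lit 5) (nat_lit 400) (nat_lit 5) (nat_lit 278) (nat_lit 258) (nat_lit 184)) (XT.nd (nat_lit 94) (nat_lit 1512) (nat_lit 0) (XT.lf (nat_lit 0) (nat_lit 4231717424) (nat_lit 1512) (nat_lit 1426832691) (nat_lit 84) (nat_lit 2739696110) (nat_lit 382) (nat_lit 5) (nat_lit 400) (nat_lit 5) (nat_lit 383) (nat_lit 5) (nat_lit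 279) (nat_lit 258) (nat_lit 183)) (XT.lf (nat_lit 0) (nat_lit 3434599152) (nat_lit 1512) (nat_lit 2557789826) (nat_lit 1596) (nat_lit 2481506007) (nat_lit 364) (nat_lit 5) (nat_lit 382) (nat_lit 5) (nat_lit 383) (nat_lit 5) (nat_lit 280) (nat_lit 258) (nat_lit 182)))) (XT.nd (nat_lit 188) (nat_lit 1680) (nat_lit 0) (XT.nd (nat_lit 94) (nat_lit 1680) (nat_lit 0) (XT.lf (nat_lit 0) (nat_lit 7774059372) (nat_lit 1596) (nat_lit 158413914) (nat_lit 84) (nat_lit 619124923) (nat_lit 364) (nat_lit 5) (nat_lit 383) (nat_lit 5) (nat_lit 365) (nat_lit 5) (nat_lit 281) (nat_lit 258) (nat_lit 181)) (XT.lf (nat_lit 0) (nat_lit 971385009) (nat_lit 1680) (nat_lit 3783131139) (nat_lit 84) (nat_lit 3875873936) (nat_lit 344) (nat_lit 5) (nat_lit 364) (nat_lit 5) (nat_lit 345) (nat_lit 5) (nat_lit 282) (nat_lit 258) (nat_lit 180))) (XT.nd (nat_lit 94) (nat_lit 0) (nat_lit 0) (XT.lf (nat_lit 0) (nat_lit 1239737255) (nat_lit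 1680) (nat_lit 1485881391) (nat_lit 1764) (nat_lit 5985650071) (nat_lit 324) (nat_lit 5) (nat_lit 344) (nat_lit 5) (nat_lit 345) (nat_lit 5) (nat_lit 283) (nat_lit 258) (nat_lit 179)) (XT.lf (nat_lit 0) (nat_lit 4528596779) (nat_lit 1764) (nat_lit 2404622894) (nat_lit 84) (nat_lit 1860483675) (nat_lit 324) (nat_lit 5) (nat_lit 345) (nat_lit 5) (nat_lit 325) (nat_lit 5) (nat_lit 284) (nat_lit 258) (nat_lit 178))))) (XT.nd (nat_lit 376) (nat_lit 1932) (nat_lit 0) (XT.nd (nat_lit 188) (nat_lit 3024) (nat_lit 0) (XT.nd (nat_lit 94) (nat_lit 0) (nat_lit 0) (XT.lf (nat_lit 0) (nat_lit 2776009224) (nat_lit 1764) (nat_lit 3595287536) (nat_lit 1848) (nat_lit 2506653542) (nat_lit 303) (nat_lit 5) (nat_lit 324) (nat_lit 5) (nat_lit 325) (nat_lit 5) (nat_lit 285) (nat_lit 258) (nat_lit 177)) (XT.lf (nat_lit 0) (nat_lit 8079808549) (nat_lit 1764) (nat_lit 162420941) (nat_lit 1848) (nat_lit 722091947) (nat_lit 303)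 (nat_lit 5) (nat_lit 324) (nat_lit 5) (nat_lit 325) (nat_lit 5) (nat_lit 286) (nat_lit 258) (nat_lit 176))) (XT.nd (nat_lit 94) (nat_lit 1092) (nat_lit 0) (XT.lf (nat_lit 0) (nat_lit 1112268081) (nat_lit 1932) (nat_lit 4598748666) (nat_lit 84) (nat_lit 3340822392) (nat_lit 280) (nat_lit 5) (nat_lit 303) (nat_lit 5) (nat_lit 281) (nat_lit 5) (nat_lit 287) (nat_lit 258) (nat_lit 175)) (XT.lf (nat_lit 0) (nat_lit 757569652) (nat_lit 1092) (nat_lit 2202779771) (nat_lit 1176) (nat_lit 6181169276) (nat_lit 267) (nat_lit 5) (nat_lit 280) (nat_lit 5) (nat_lit 281) (nat_lit 5) (nat_lit 288) (nat_lit 258) (nat_lit 174)))) (XT.nd (nat_lit 188) (nat_lit 1008) (nat_lit 0) (XT.nd (nat_lit 94) (nat_lit 924) (nat_lit 0) (XT.lf (nat_lit 0) (nat_lit 4864437491) (nat_lit 1176) (nat_lit 2969607863) (nat_lit 84) (nat_lit 1398788180) (nat_lit 267) (nat_lit 5) (nat_lit 281) (nat_lit 5) (nat_lit 268) (nat_lit 5) (nat_lit 289)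 (nat_lit 258) (nat_lit 173)) (XT.lf (nat_lit 0) (nat_lit 2557746472) (nat_lit 924) (nat_lit 4258827605) (nat_lit 1008) (nat_lit 2509447729) (nat_lit 256) (nat_lit 5) (nat_lit 267) (nat_lit 5) (nat_lit 268) (nat_lit 5) (nat_lit 290) (nat_lit 258) (nat_lit 172))) (XT.nd (nat_lit 94) (nat_lit 1008) (nat_lit 0) (XT.lf (nat_lit 0) (nat_lit 8224342725) (nat_lit 924) (nat_lit 581567044) (nat_lit 1008) (nat_lit 615476905) (nat_lit 256) (nat_lit 5) (nat_lit 267) (nat_lit 5) (nat_lit 268) (nat_lit 5) (nat_lit 291) (nat_lit 258) (nat_lit 171)) (XT.lf (nat_lit 0) (nat_lit 1329038969) (nat_lit 1008) (nat_lit 5015465374) (nat_lit 84) (nat_lit 3173524713) (nat_lit 244) (nat_lit 5) (nat_lit 256) (nat_lit 5) (nat_lit 245) (nat_lit 5) (nat_lit 292) (nat_lit 258) (nat_lit 170)))))) (XT.nd (nat_lit 658) (nat_lit 3864) (nat_lit 0) (XT.nd (nat_lit 282) (nat_lit 1764) (nat_lit 0) (XT.nd (nat_lit 94) (nat_lit 840) (nat_lit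 0) (XT.lf (nat_lit 0) (nat_lit 703249223) (nat_lit 840) (nat_lit 2595294259) (nat_lit 924) (nat_lit 6318347594) (nat_lit 234) (nat_lit 5) (nat_lit 244) (nat_lit 5) (nat_lit 245) (nat_lit 5) (nat_lit 293) (nat_lit 258) (nat_lit 169)) (XT.nd (nat_lit 94) (nat_lit 840) (nat_lit 0) (XT.lf (nat_lit 0) (nat_lit 5331006004) (nat_lit 924) (nat_lit 3130832581) (nat_lit 84) (nat_lit 1255657639) (nat_lit 234) (nat_lit 5) (nat_lit 245) (nat_lit 5) (nat_lit 235) (nat_lit 5) (nat_lit 294) (nat_lit 258) (nat_lit 168)) (XT.lf (nat_lit 0) (nat_lit 2773515515) (nat_lit 840) (nat_lit 4647393670) (nat_lit 924) (nat_lit 2399125517) (nat_lit 224) (nat_lit 5) (nat_lit 234) (nat_lit 5) (nat_lit 235) (nat_lit 5) (nat_lit 295) (nat_lit 258) (nat_lit 167)))) (XT.nd (nat_lit 188) (nat_lit 840) (nat_lit 0) (XT.nd (nat_lit 94) (nat_lit 924) (nat_lit 0) (XT.lf (nat_lit 0) (nat_lit 8827975187) (nat_lit 840) (nat_lit 726385863) (nat_lit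 924) (nat_lit 370521419) (nat_lit 224) (nat_lit 5) (nat_lit 234) (nat_lit 5) (nat_lit 235) (nat_lit 5) (nat_lit 296) (nat_lit 258) (nat_lit 166)) (XT.lf (nat_lit 0) (nat_lit 1712451856) (nat_lit 924) (nat_lit 5037855218) (nat_lit 84) (nat_lit 3280709163) (nat_lit 213) (nat_lit 5) (nat_lit 224) (nat_lit 5) (nat_lit 214) (nat_lit 5) (nat_lit 297) (nat_lit 258) (nat_lit 165))) (XT.nd (nat_lit 94) (nat_lit 0) (nat_lit 0) (XT.lf (nat_lit 0) (nat_lit 1075039420) (nat_lit 840) (nat_lit 2757023955) (nat_lit 924) (nat_lit 6307444358) (nat_lit 203) (nat_lit 5) (nat_lit 213) (nat_lit 5) (nat_lit 214) (nat_lit 5) (nat_lit 298) (nat_lit 258) (nat_lit 164)) (XT.lf (nat_lit 0) (nat_lit 6020712243) (nat_lit 924) (nat_lit 2888629820) (nat_lit 84) (nat_lit 1340551049) (nat_lit 203) (nat_lit 5) (nat_lit 214) (nat_lit 5) (nat_lit 204) (nat_lit 5) (nat_lit 299) (nat_lit 258) (nat_lit 163))))) (XT.nd (nat_lit 376) (nat_lit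 1512) (nat_lit 0) (XT.nd (nat_lit 188) (nat_lit 1512) (nat_lit 0) (XT.nd (nat_lit 94) (nat_lit 84) (nat_lit 0) (XT.lf (nat_lit 0) (nat_lit 3425913277) (nat_lit 756) (nat_lit 4852092020) (nat_lit 840) (nat_lit 2084250808) (nat_lit 194) (nat_lit 5) (nat_lit 203) (nat_lit 5) (nat_lit 204) (nat_lit 5) (nat_lit 300) (nat_lit 258) (nat_lit 162)) (XT.lf (nat_lit 0) (nat_lit 103982203) (nat_lit 840) (nat_lit 581620877) (nat_lit 84) (nat_lit 9791522399) (nat_lit 193) (nat_lit 5) (nat_lit 203) (nat_lit 5) (nat_lit 194) (nat_lit 5) (nat_lit 301) (nat_lit 258) (nat_lit 161))) (XT.nd (nat_lit 94) (nat_lit 756) (nat_lit 0) (XT.lf (nat_lit 0) (nat_lit 2354650308) (nat_lit 840) (nat_lit 4662098176) (nat_lit 84) (nat_lit 3576450252) (nat_lit 184) (nat_lit 5) (nat_lit 194) (nat_lit 5) (nat_lit 185) (nat_lit 5) (nat_lit 302) (nat_lit 258) (nat_lit 160)) (XT.lf (nat_lit 0) (nat_lit 1879790862) (nat_lit 756) (nat_lit 2774737715)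 (nat_lit 840) (nat_lit 6057303726) (nat_lit 175) (nat_lit 5) (nat_lit 184) (nat_lit 5) (nat_lit 185) (nat_lit 5) (nat_lit 303) (nat_lit 258) (nat_lit 159)))) (XT.nd (nat_lit 188) (nat_lit 756) (nat_lit 0) (XT.nd (nat_lit 94) (nat_lit 756) (nat_lit 0) (XT.lf (nat_lit 0) (nat_lit 7028078847) (nat_lit 840) (nat_lit 2235058679) (nat_lit 84) (nat_lit 1569430641) (nat_lit 175) (nat_lit 5) (nat_lit 185) (nat_lit 5) (nat_lit 176) (nat_lit 5) (nat_lit 304) (nat_lit 258) (nat_lit 158)) (XT.lf (nat_lit 0) (nat_lit 4526015541) (nat_lit 756) (nat_lit 4958032432) (nat_lit 840) (nat_lit 1471247829) (nat_lit 166) (nat_lit 5) (nat_lit 175) (nat_lit 5) (nat_lit 176) (nat_lit 5) (nat_lit 305) (nat_lit 258) (nat_lit 157))) (XT.nd (nat_lit 94) (nat_lit 0) (nat_lit 0) (XT.lf (nat_lit 0) (nat_lit 361265338) (nat_lit 672) (nat_lit 536003116) (nat_lit 756) (nat_lit 10183375701) (nat_lit 157) (nat_lit 5) (nat_lit 165) (nat_lit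 5) (nat_lit 166) (nat_lit 5) (nat_lit 306) (nat_lit 258) (nat_lit 156)) (XT.lf (nat_lit 0) (nat_lit 3350600784) (nat_lit 756) (nat_lit 3876337750) (nat_lit 84) (nat_lit 3980379964) (nat_lit 157) (nat_lit 5) (nat_lit 166) (nat_lit 5) (nat_lit 158) (nat_lit 5) (nat_lit 307) (nat_lit 258) (nat_lit 155))))))) (XT.nd (nat_lit 41548) (nat_lit 0) (nat_lit 17808) (XT.nd (nat_lit 40796) (nat_lit 0) (nat_lit 23520) (XT.nd (nat_lit 282) (nat_lit 756) (nat_lit 0) (XT.nd (nat_lit 94) (nat_lit 672) (nat_lit 0) (XT.lf (nat_lit 0) (nat_lit 3132609315) (nat_lit 672) (nat_lit 2730140643) (nat_lit 756) (nat_lit 5473923160) (nat_lit 149) (nat_lit 5) (nat_lit 157) (nat_lit 5) (nat_lit 158) (nat_lit 5) (nat_lit 308) (nat_lit 258) (nat_lit 154)) (XT.nd (nat_lit 94) (nat_lit 672) (nat_lit 0) (XT.lf (nat_lit 0) (nat_lit 8451167561) (nat_lit 756) (nat_lit 1154197123) (nat_lit 84) (nat_lit 1863046831) (nat_lit 149) (nat_lit 5)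 (nat_lit 158) (nat_lit 5) (nat_lit 150) (nat_lit 5) (nat_lit 309) (nat_lit 258) (nat_lit 153)) (XT.lf (nat_lit 0) (nat_lit 6093110433) (nat_lit 672) (nat_lit 5046024441) (nat_lit 756) (nat_lit 462975982) (nat_lit 141) (nat_lit 5) (nat_lit 149) (nat_lit 5) (nat_lit 150) (nat_lit 5) (nat_lit 310) (nat_lit 258) (nat_lit 152)))) (XT.nd (nat_lit 40326) (nat_lit 0) (nat_lit 25956) (XT.nd (nat_lit 94) (nat_lit 0) (nat_lit 0) (XT.lf (nat_lit 0) (nat_lit 1762908311) (nat_lit 672) (nat_lit 354234312) (nat_lit 756) (nat_lit 9621259504) (nat_lit 132) (nat_lit 5) (nat_lit 140) (nat_lit 5) (nat_lit 141) (nat_lit 5) (nat_lit 311) (nat_lit 258) (nat_lit 151)) (XT.lf (nat_lit 0) (nat_lit 4799495683) (nat_lit 756) (nat_lit 2660900229) (nat_lit 84) (nat_lit 4416071432) (nat_lit 132) (nat_lit 5) (nat_lit 141) (nat_lit 5) (nat_lit 133) (nat_lit 5) (nat_lit 312) (nat_lit 258) (nat_lit 150))) (XT.nd (nat_lit 94) (nat_lit 0)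 (nat_lit 0) (XT.lf (nat_lit 0) (nat_lit 1638170919) (nat_lit 1260) (nat_lit 998150031) (nat_lit 1260) (nat_lit 998150031) (nat_lit 441) (nat_lit 3) (nat_lit 456) (nat_lit 3) (nat_lit 456) (nat_lit 5) (nat_lit 259) (nat_lit 259) (nat_lit 202)) (XT.lf (nat_lit 84) (nat_lit 1662110602) (nat_lit 0) (nat_lit 3267544613) (nat_lit 1260) (nat_lit 2383665090) (nat_lit 442) (nat_lit 5) (nat_lit 441) (nat_lit 3) (nat_lit 456) (nat_lit 5) (nat_lit 260) (nat_lit 259) (nat_lit 201))))) (XT.nd (nat_lit 376) (nat_lit 1260) (nat_lit 0) (XT.nd (nat_lit 188) (nat_lit 0) (nat_lit 0) (XT.nd (nat_lit 94) (nat_lit 1176) (nat_lit 0) (XT.lf (nat_lit 84) (nat_lit 5406843952) (nat_lit 0) (nat_lit 1180825356) (nat_lit 1260) (nat_lit 771702450) (nat_lit 442) (nat_lit 5) (nat_lit 441) (nat_lit 3) (nat_lit 456) (nat_lit 5) (nat_lit 261) (nat_lit 259) (nat_lit 200)) (XT.lf (nat_lit 0) (nat_lit 837423735) (nat_lit 1260) (nat_lit 5590673385)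 (nat_lit 1344) (nat_lit 978767090) (nat_lit 427) (nat_lit 5) (nat_lit 442) (nat_lit 5) (nat_lit 443) (nat_lit 5) (nat_lit 262) (nat_lit 259) (nat_lit 199))) (XT.nd (nat_lit 94) (nat_lit 0) (nat_lit 0) (XT.lf (nat_lit 0) (nat_lit 2448929211) (nat_lit 1260) (nat_lit 1797514353) (nat_lit 1344) (nat_lit 3209310899) (nat_lit 427) (nat_lit 5) (nat_lit 442) (nat_lit 5) (nat_lit 443) (nat_lit 5) (nat_lit 263) (nat_lit 259) (nat_lit 198)) (XT.lf (nat_lit 84) (nat_lit 2084565275) (nat_lit 0) (nat_lit 1982350106) (nat_lit 1344) (nat_lit 3439442316) (nat_lit 428) (nat_lit 5) (nat_lit 427) (nat_lit 5) (nat_lit 443) (nat_lit 5) (nat_lit 264) (nat_lit 259) (nat_lit 197)))) (XT.nd (nat_lit 188) (nat_lit 1344) (nat_lit 0) (XT.nd (nat_lit 94) (nat_lit 0) (nat_lit 0) (XT.lf (nat_lit 0) (nat_lit 5693314113) (nat_lit 1260) (nat_lit 1506799651) (nat_lit 1344) (nat_lit 358558465) (nat_lit 428) (nat_lit 5) (nat_lit 443) (nat_lit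 5) (nat_lit 444) (nat_lit 5) (nat_lit 265) (nat_lit 259) (nat_lit 196)) (XT.lf (nat_lit 84) (nat_lit 2490859853) (nat_lit 0) (nat_lit 4854813468) (nat_lit 1344) (nat_lit 266680407) (nat_lit 429) (nat_lit 5) (nat_lit 428) (nat_lit 5) (nat_lit 444) (nat_lit 5) (nat_lit 266) (nat_lit 259) (nat_lit 195))) (XT.nd (nat_lit 94) (nat_lit 0) (nat_lit 84) (XT.lf (nat_lit 0) (nat_lit 1317120137) (nat_lit 1344) (nat_lit 1103154324) (nat_lit 1428) (nat_lit 5247395351) (nat_lit 412) (nat_lit 5) (nat_lit 428) (nat_lit 5) (nat_lit 429) (nat_lit 5) (nat_lit 267) (nat_lit 259) (nat_lit 194)) (XT.lf (nat_lit 0) (nat_lit 2913448048) (nat_lit 1344) (nat_lit 4704988621) (nat_lit 1428) (nat_lit 106128066) (nat_lit 413) (nat_lit 5) (nat_lit 429) (nat_lit 5) (nat_lit 430) (nat_lit 5) (nat_lit 268) (nat_lit 259) (nat_lit 193)))))) (XT.nd (nat_lit 658) (nat_lit 4452) (nat_lit 0) (XT.nd (nat_lit 282) (nat_lit 1344) (nat_lit 0)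 (XT.nd (nat_lit 94) (nat_lit 0) (nat_lit 0) (XT.lf (nat_lit 0) (nat_lit 4530859418) (nat_lit 1344) (nat_lit 576328163) (nat_lit 1428) (nat_lit 2675832551) (nat_lit 413) (nat_lit 5) (nat_lit 429) (nat_lit 5) (nat_lit 430) (nat_lit 5) (nat_lit 269) (nat_lit 259) (nat_lit 192)) (XT.nd (nat_lit 94) (nat_lit 0) (nat_lit 84) (XT.lf (nat_lit 84) (nat_lit 3670988098) (nat_lit 0) (nat_lit 2500010347) (nat_lit 1428) (nat_lit 1672045922) (nat_lit 414) (nat_lit 5) (nat_lit 413) (nat_lit 5) (nat_lit 430) (nat_lit 5) (nat_lit 270) (nat_lit 259) (nat_lit 191)) (XT.lf (nat_lit 84) (nat_lit 90348646) (nat_lit 0) (nat_lit 7724729121) (nat_lit 1428) (nat_lit 90018508) (nat_lit 415) (nat_lit 5) (nat_lit 414) (nat_lit 5) (nat_lit 431) (nat_lit 5) (nat_lit 271) (nat_lit 259) (nat_lit 190)))) (XT.nd (nat_lit 188) (nat_lit 0) (nat_lit 84) (XT.nd (nat_lit 94) (nat_lit 0) (nat_lit 0) (XT.lf (nat_lit 0) (nat_lit 1516183824) (nat_lit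 1428) (nat_lit 3514472831) (nat_lit 1512) (nat_lit 2937367455) (nat_lit 397) (nat_lit 5) (nat_lit 414) (nat_lit 5) (nat_lit 415) (nat_lit 5) (nat_lit 272) (nat_lit 259) (nat_lit 189)) (XT.lf (nat_lit 84) (nat_lit 866624113) (nat_lit 0) (nat_lit 2258882796) (nat_lit 1512) (nat_lit 4907494622) (nat_lit 398) (nat_lit 5) (nat_lit 397) (nat_lit 5) (nat_lit 415) (nat_lit 5) (nat_lit 273) (nat_lit 259) (nat_lit 188))) (XT.nd (nat_lit 94) (nat_lit 0) (nat_lit 0) (XT.lf (nat_lit 0) (nat_lit 4764102422) (nat_lit 1428) (nat_lit 2732825685) (nat_lit 1512) (nat_lit 602615269) (nat_lit 398) (nat_lit 5) (nat_lit 415) (nat_lit 5) (nat_lit 416) (nat_lit 5) (nat_lit 274) (nat_lit 259) (nat_lit 187)) (XT.lf (nat_lit 84) (nat_lit 1781742716) (nat_lit 0) (nat_lit 4650554982) (nat_lit 1512) (nat_lit 1735393329) (nat_lit 399) (nat_lit 5) (nat_lit 398) (nat_lit 5) (nat_lit 416) (nat_lit 5) (nat_lit 275) (nat_lit 259) (nat_lit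 186))))) (XT.nd (nat_lit 376) (nat_lit 3108) (nat_lit 0) (XT.nd (nat_lit 188) (nat_lit 0) (nat_lit 0) (XT.nd (nat_lit 94) (nat_lit 1428) (nat_lit 0) (XT.lf (nat_lit 84) (nat_lit 6410893171) (nat_lit 0) (nat_lit 1711484011) (nat_lit 1512) (nat_lit 115286698) (nat_lit 399) (nat_lit 5) (nat_lit 398) (nat_lit 5) (nat_lit 416) (nat_lit 5) (nat_lit 276) (nat_lit 259) (nat_lit 185)) (XT.lf (nat_lit 0) (nat_lit 1513482489) (nat_lit 1512) (nat_lit 5481653940) (nat_lit 1596) (nat_lit 1313903728) (nat_lit 381) (nat_lit 5) (nat_lit 399) (nat_lit 5) (nat_lit 400) (nat_lit 5) (nat_lit 277) (nat_lit 259) (nat_lit 184))) (XT.nd (nat_lit 94) (nat_lit 0) (nat_lit 0) (XT.lf (nat_lit 0) (nat_lit 3168564506) (nat_lit 1512) (nat_lit 810000449) (nat_lit 1596) (nat_lit 4403575400) (nat_lit 381) (nat_lit 5) (nat_lit 399) (nat_lit 5) (nat_lit 400) (nat_lit 5) (nat_lit 278) (nat_lit 259) (nat_lit 183)) (XT.lf (nat_lit 84) (nat_lit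 3996421841) (nat_lit 0) (nat_lit 858959178) (nat_lit 1596) (nat_lit 3601570640) (nat_lit 382) (nat_lit 5) (nat_lit 381) (nat_lit 5) (nat_lit 400) (nat_lit 5) (nat_lit 279) (nat_lit 259) (nat_lit 182)))) (XT.nd (nat_lit 188) (nat_lit 1680) (nat_lit 0) (XT.nd (nat_lit 94) (nat_lit 0) (nat_lit 0) (XT.lf (nat_lit 0) (nat_lit 349653365) (nat_lit 1512) (nat_lit 6222202676) (nat_lit 1596) (nat_lit 1961716702) (nat_lit 364) (nat_lit 5) (nat_lit 382) (nat_lit 5) (nat_lit 383) (nat_lit 5) (nat_lit 280) (nat_lit 259) (nat_lit 181)) (XT.lf (nat_lit 0) (nat_lit 5299970861) (nat_lit 1512) (nat_lit 3033232960) (nat_lit 1596) (nat_lit 278519243) (nat_lit 364) (nat_lit 5) (nat_lit 382) (nat_lit 5) (nat_lit 383) (nat_lit 5) (nat_lit 281) (nat_lit 259) (nat_lit 180))) (XT.nd (nat_lit 94) (nat_lit 0) (nat_lit 0) (XT.lf (nat_lit 0) (nat_lit 1402961844) (nat_lit 1680) (nat_lit 7038304427) (nat_lit 84) (nat_lit 250496083)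 (nat_lit 344) (nat_lit 5) (nat_lit 364) (nat_lit 5) (nat_lit 345) (nat_lit 5) (nat_lit 282) (nat_lit 259) (nat_lit 179)) (XT.lf (nat_lit 0) (nat_lit 3133009628) (nat_lit 1680) (nat_lit 2046349570) (nat_lit 84) (nat_lit 3593813877) (nat_lit 344) (nat_lit 5) (nat_lit 364) (nat_lit 5) (nat_lit 345) (nat_lit 5) (nat_lit 283) (nat_lit 259) (nat_lit 178))))))))
noncomputable def xc43 : XT := (XT.nd (nat_lit 43052) (nat_lit 0) (nat_lit 11340) (XT.nd (nat_lit 1410) (nat_lit 6804) (nat_lit 0) (XT.nd (nat_lit 658) (nat_lit 4536) (nat_lit 0) (XT.nd (nat_lit 282) (nat_lit 3024) (nat_lit 0) (XT.nd (nat_lit 94) (nat_lit 1764) (nat_lit 0) (XT.lf (nat_lit 0) (nat_lit 3073868108) (nat_lit 1680) (nat_lit 1818766956) (nat_lit 1764) (nat_lit 3963926402) (nat_lit 324) (nat_lit 5) (nat_lit 344) (nat_lit 5) (nat_lit 345) (nat_lit 5) (nat_lit 284) (nat_lit 259) (nat_lit 177)) (XT.nd (nat_lit 94) (nat_lit 1764) (nat_lit 0) (XT.lf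 (nat_lit 0) (nat_lit 6687829078) (nat_lit 1764) (nat_lit 642113479) (nat_lit 84) (nat_lit 1611910995) (nat_lit 324) (nat_lit 5) (nat_lit 345) (nat_lit 5) (nat_lit 325) (nat_lit 5) (nat_lit 285) (nat_lit 259) (nat_lit 176)) (XT.lf (nat_lit 0) (nat_lit 4639371966) (nat_lit 1764) (nat_lit 3900198753) (nat_lit 1848) (nat_lit 489076170) (nat_lit 303) (nat_lit 5) (nat_lit 324) (nat_lit 5) (nat_lit 325) (nat_lit 5) (nat_lit 286) (nat_lit 259) (nat_lit 175)))) (XT.nd (nat_lit 188) (nat_lit 1092) (nat_lit 0) (XT.nd (nat_lit 94) (nat_lit 0) (nat_lit 0) (XT.lf (nat_lit 0) (nat_lit 907053934) (nat_lit 1848) (nat_lit 370952742) (nat_lit 1932) (nat_lit 7839527662) (nat_lit 280) (nat_lit 5) (nat_lit 302) (nat_lit 5) (nat_lit 303) (nat_lit 5) (nat_lit 287) (nat_lit 259) (nat_lit 174)) (XT.lf (nat_lit 0) (nat_lit 3103935941) (nat_lit 1932) (nat_lit 2875519991) (nat_lit 84) (nat_lit 3228245313) (nat_lit 280) (nat_lit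 5) (nat_lit 303) (nat_lit 5) (nat_lit 281) (nat_lit 5) (nat_lit 288) (nat_lit 259) (nat_lit 173))) (XT.nd (nat_lit 94) (nat_lit 0) (nat_lit 0) (XT.lf (nat_lit 0) (nat_lit 2585451777) (nat_lit 1092) (nat_lit 2377778284) (nat_lit 1176) (nat_lit 4336771484) (nat_lit 267) (nat_lit 5) (nat_lit 280) (nat_lit 5) (nat_lit 281) (nat_lit 5) (nat_lit 289) (nat_lit 259) (nat_lit 172)) (XT.lf (nat_lit 0) (nat_lit 6866613233) (nat_lit 1176) (nat_lit 1220117795) (nat_lit 84) (nat_lit 1307531366) (nat_lit 267) (nat_lit 5) (nat_lit 281) (nat_lit 5) (nat_lit 268) (nat_lit 5) (nat_lit 290) (nat_lit 259) (nat_lit 171))))) (XT.nd (nat_lit 376) (nat_lit 1764) (nat_lit 0) (XT.nd (nat_lit 188) (nat_lit 840) (nat_lit 0) (XT.nd (nat_lit 94) (nat_lit 1008) (nat_lit 0) (XT.lf (nat_lit 0) (nat_lit 4415722018) (nat_lit 924) (nat_lit 4418012810) (nat_lit 1008) (nat_lit 656381144) (nat_lit 256) (nat_lit 5) (nat_lit 267) (nat_lit 5)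 (nat_lit 268) (nat_lit 5) (nat_lit 291) (nat_lit 259) (nat_lit 170)) (XT.lf (nat_lit 0) (nat_lit 579259332) (nat_lit 924) (nat_lit 645211877) (nat_lit 1008) (nat_lit 8363707114) (nat_lit 244) (nat_lit 5) (nat_lit 255) (nat_lit 5) (nat_lit 256) (nat_lit 5) (nat_lit 292) (nat_lit 259) (nat_lit 169))) (XT.nd (nat_lit 94) (nat_lit 840) (nat_lit 0) (XT.lf (nat_lit 0) (nat_lit 3171362629) (nat_lit 1008) (nat_lit 3308773431) (nat_lit 84) (nat_lit 3207401771) (nat_lit 244) (nat_lit 5) (nat_lit 256) (nat_lit 5) (nat_lit 245) (nat_lit 5) (nat_lit 293) (nat_lit 259) (nat_lit 168)) (XT.lf (nat_lit 0) (nat_lit 2522620592) (nat_lit 840) (nat_lit 2635396030) (nat_lit 924) (nat_lit 4631134143) (nat_lit 234) (nat_lit 5) (nat_lit 244) (nat_lit 5) (nat_lit 245) (nat_lit 5) (nat_lit 294) (nat_lit 259) (nat_lit 167)))) (XT.nd (nat_lit 188) (nat_lit 924) (nat_lit 0) (XT.nd (nat_lit 94) (nat_lit 840) (nat_lit 0) (XT.lf (nat_lit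 0) (nat_lit 7196846102) (nat_lit 924) (nat_lit 1396295298) (nat_lit 84) (nat_lit 1299671465) (nat_lit 234) (nat_lit 5) (nat_lit 245) (nat_lit 5) (nat_lit 235) (nat_lit 5) (nat_lit 295) (nat_lit 259) (nat_lit 166)) (XT.lf (nat_lit 0) (nat_lit 4624914572) (nat_lit 840) (nat_lit 4682925702) (nat_lit 924) (nat_lit 690314428) (nat_lit 224) (nat_lit 5) (nat_lit 234) (nat_lit 5) (nat_lit 235) (nat_lit 5) (nat_lit 296) (nat_lit 259) (nat_lit 165))) (XT.nd (nat_lit 94) (nat_lit 0) (nat_lit 0) (XT.lf (nat_lit 0) (nat_lit 667946244) (nat_lit 840) (nat_lit 662437635) (nat_lit 924) (nat_lit 8775426088) (nat_lit 213) (nat_lit 5) (nat_lit 223) (nat_lit 5) (nat_lit 224) (nat_lit 5) (nat_lit 297) (nat_lit 259) (nat_lit 164)) (XT.lf (nat_lit 0) (nat_lit 3425598529) (nat_lit 924) (nat_lit 3348648470) (nat_lit 84) (nat_lit 3440591195) (nat_lit 213) (nat_lit 5) (nat_lit 224) (nat_lit 5) (nat_lit 214) (nat_lit 5) (nat_lit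 298) (nat_lit 259) (nat_lit 163)))))) (XT.nd (nat_lit 658) (nat_lit 3612) (nat_lit 0) (XT.nd (nat_lit 282) (nat_lit 1596) (nat_lit 0) (XT.nd (nat_lit 94) (nat_lit 756) (nat_lit 0) (XT.lf (nat_lit 0) (nat_lit 2885720366) (nat_lit 840) (nat_lit 2682783645) (nat_lit 924) (nat_lit 4757725917) (nat_lit 203) (nat_lit 5) (nat_lit 213) (nat_lit 5) (nat_lit 214) (nat_lit 5) (nat_lit 299) (nat_lit 259) (nat_lit 162)) (XT.nd (nat_lit 94) (nat_lit 756) (nat_lit 0) (XT.lf (nat_lit 0) (nat_lit 7770678803) (nat_lit 924) (nat_lit 1168993603) (nat_lit 84) (nat_lit 1500133116) (nat_lit 203) (nat_lit 5) (nat_lit 214) (nat_lit 5) (nat_lit 204) (nat_lit 5) (nat_lit 300) (nat_lit 259) (nat_lit 161)) (XT.lf (nat_lit 0) (nat_lit 5271581763) (nat_lit 756) (nat_lit 4783841576) (nat_lit 840) (nat_lit 499705758) (nat_lit 194) (nat_lit 5) (nat_lit 203) (nat_lit 5) (nat_lit 204) (nat_lit 5) (nat_lit 301) (nat_lit 259) (nat_lit 160))))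 (XT.nd (nat_lit 188) (nat_lit 756) (nat_lit 0) (XT.nd (nat_lit 94) (nat_lit 0) (nat_lit 0) (XT.lf (nat_lit 0) (nat_lit 1177713927) (nat_lit 756) (nat_lit 509269519) (nat_lit 840) (nat_lit 8985863094) (nat_lit 184) (nat_lit 5) (nat_lit 193) (nat_lit 5) (nat_lit 194) (nat_lit 5) (nat_lit 302) (nat_lit 259) (nat_lit 159)) (XT.lf (nat_lit 0) (nat_lit 3958707470) (nat_lit 840) (nat_lit 2989427056) (nat_lit 84) (nat_lit 3843964974) (nat_lit 184) (nat_lit 5) (nat_lit 194) (nat_lit 5) (nat_lit 185) (nat_lit 5) (nat_lit 303) (nat_lit 259) (nat_lit 158))) (XT.nd (nat_lit 94) (nat_lit 0) (nat_lit 0) (XT.lf (nat_lit 0) (nat_lit 3683553310) (nat_lit 756) (nat_lit 2604769304) (nat_lit 840) (nat_lit 4625479322) (nat_lit 175) (nat_lit 5) (nat_lit 184) (nat_lit 5) (nat_lit 185) (nat_lit 5) (nat_lit 304) (nat_lit 259) (nat_lit 157)) (XT.lf (nat_lit 0) (nat_lit 8682735688) (nat_lit 840) (nat_lit 528405929) (nat_lit 84)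 (nat_lit 1826742188) (nat_lit 175) (nat_lit 5) (nat_lit 185) (nat_lit 5) (nat_lit 176) (nat_lit 5) (nat_lit 305) (nat_lit 259) (nat_lit 156))))) (XT.nd (nat_lit 376) (nat_lit 1428) (nat_lit 0) (XT.nd (nat_lit 188) (nat_lit 672) (nat_lit 0) (XT.nd (nat_lit 94) (nat_lit 672) (nat_lit 0) (XT.lf (nat_lit 0) (nat_lit 8982481) (nat_lit 840) (nat_lit 4795091592) (nat_lit 84) (nat_lit 6359673170) (nat_lit 165) (nat_lit 5) (nat_lit 175) (nat_lit 5) (nat_lit 166) (nat_lit 5) (nat_lit 306) (nat_lit 259) (nat_lit 155)) (XT.lf (nat_lit 0) (nat_lit 2121379725) (nat_lit 672) (nat_lit 266956030) (nat_lit 756) (nat_lit 8903713369) (nat_lit 157) (nat_lit 5) (nat_lit 165) (nat_lit 5) (nat_lit 166) (nat_lit 5) (nat_lit 307) (nat_lit 259) (nat_lit 154))) (XT.nd (nat_lit 94) (nat_lit 672) (nat_lit 0) (XT.lf (nat_lit 0) (nat_lit 4865926406) (nat_lit 756) (nat_lit 2217453512) (nat_lit 84) (nat_lit 4338784113) (nat_lit 157)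 (nat_lit 5) (nat_lit 166) (nat_lit 5) (nat_lit 158) (nat_lit 5) (nat_lit 308) (nat_lit 259) (nat_lit 153)) (XT.lf (nat_lit 0) (nat_lit 4933084737) (nat_lit 672) (nat_lit 2481559669) (nat_lit 756) (nat_lit 4140131413) (nat_lit 149) (nat_lit 5) (nat_lit 157) (nat_lit 5) (nat_lit 158) (nat_lit 5) (nat_lit 309) (nat_lit 259) (nat_lit 152)))) (XT.nd (nat_lit 188) (nat_lit 672) (nat_lit 0) (XT.nd (nat_lit 94) (nat_lit 84) (nat_lit 0) (XT.lf (nat_lit 0) (nat_lit 551111091) (nat_lit 672) (nat_lit 9484342775) (nat_lit 756) (nat_lit 1654498768) (nat_lit 141) (nat_lit 5) (nat_lit 149) (nat_lit 5) (nat_lit 150) (nat_lit 5) (nat_lit 310) (nat_lit 259) (nat_lit 151)) (XT.lf (nat_lit 0) (nat_lit 920275846) (nat_lit 756) (nat_lit 3896252539) (nat_lit 84) (nat_lit 7010397370) (nat_lit 140) (nat_lit 5) (nat_lit 149) (nat_lit 5) (nat_lit 141) (nat_lit 5) (nat_lit 311) (nat_lit 259) (nat_lit 150))) (XT.nd (nat_lit 40326)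 (nat_lit 0) (nat_lit 25956) (XT.lf (nat_lit 0) (nat_lit 3519760303) (nat_lit 672) (nat_lit 12970919) (nat_lit 756) (nat_lit 8433797499) (nat_lit 132) (nat_lit 5) (nat_lit 140) (nat_lit 5) (nat_lit 141) (nat_lit 5) (nat_lit 312) (nat_lit 259) (nat_lit 149)) (XT.lf (nat_lit 0) (nat_lit 3268208805) (nat_lit 1260) (nat_lit 205576289) (nat_lit 1260) (nat_lit 205576289) (nat_lit 441) (nat_lit 3) (nat_lit 456) (nat_lit 3) (nat_lit 456) (nat_lit 5) (nat_lit 260) (nat_lit 260) (nat_lit 200))))))) (XT.nd (nat_lit 1410) (nat_lit 10836) (nat_lit 0) (XT.nd (nat_lit 658) (nat_lit 1260) (nat_lit 0) (XT.nd (nat_lit 282) (nat_lit 1260) (nat_lit 0) (XT.nd (nat_lit 94) (nat_lit 0) (nat_lit 0) (XT.lf (nat_lit 0) (nat_lit 752665133) (nat_lit 1260) (nat_lit 4094804205) (nat_lit 1344) (nat_lit 2557744748) (nat_lit 426) (nat_lit 5) (nat_lit 441) (nat_lit 3) (nat_lit 442) (nat_lit 5) (nat_lit 261) (nat_lit 260) (nat_lit 199))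 (XT.nd (nat_lit 94) (nat_lit 0) (nat_lit 0) (XT.lf (nat_lit 0) (nat_lit 2308475270) (nat_lit 1260) (nat_lit 362292907) (nat_lit 1344) (nat_lit 4782745850) (nat_lit 426) (nat_lit 5) (nat_lit 441) (nat_lit 3) (nat_lit 442) (nat_lit 5) (nat_lit 262) (nat_lit 260) (nat_lit 198)) (XT.lf (nat_lit 84) (nat_lit 3479345123) (nat_lit 0) (nat_lit 400151769) (nat_lit 1344) (nat_lit 3623798033) (nat_lit 427) (nat_lit 5) (nat_lit 426) (nat_lit 5) (nat_lit 442) (nat_lit 5) (nat_lit 263) (nat_lit 260) (nat_lit 197)))) (XT.nd (nat_lit 188) (nat_lit 1344) (nat_lit 0) (XT.nd (nat_lit 94) (nat_lit 0) (nat_lit 0) (XT.lf (nat_lit 0) (nat_lit 5458578120) (nat_lit 1260) (nat_lit 180925841) (nat_lit 1344) (nat_lit 1915250106) (nat_lit 427) (nat_lit 5) (nat_lit 442) (nat_lit 5) (nat_lit 443) (nat_lit 5) (nat_lit 264) (nat_lit 260) (nat_lit 196)) (XT.lf (nat_lit 84) (nat_lit 3774590109) (nat_lit 0) (nat_lit 3285654451) (nat_lit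 1344) (nat_lit 547368150) (nat_lit 428) (nat_lit 5) (nat_lit 427) (nat_lit 5) (nat_lit 443) (nat_lit 5) (nat_lit 265) (nat_lit 260) (nat_lit 195))) (XT.nd (nat_lit 94) (nat_lit 0) (nat_lit 84) (XT.lf (nat_lit 84) (nat_lit 128748780) (nat_lit 0) (nat_lit 852595046) (nat_lit 1428) (nat_lit 6680991749) (nat_lit 412) (nat_lit 5) (nat_lit 411) (nat_lit 5) (nat_lit 428) (nat_lit 5) (nat_lit 266) (nat_lit 260) (nat_lit 194)) (XT.lf (nat_lit 0) (nat_lit 2535115126) (nat_lit 1344) (nat_lit 3523333806) (nat_lit 1428) (nat_lit 1659737076) (nat_lit 412) (nat_lit 5) (nat_lit 428) (nat_lit 5) (nat_lit 429) (nat_lit 5) (nat_lit 267) (nat_lit 260) (nat_lit 193))))) (XT.nd (nat_lit 376) (nat_lit 0) (nat_lit 0) (XT.nd (nat_lit 188) (nat_lit 1344) (nat_lit 0) (XT.nd (nat_lit 94) (nat_lit 0) (nat_lit 0) (XT.lf (nat_lit 84) (nat_lit 552641274) (nat_lit 0) (nat_lit 3540774637) (nat_lit 1428) (nat_lit 3682501616) (nat_lit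 413) (nat_lit 5) (nat_lit 412) (nat_lit 5) (nat_lit 429) (nat_lit 5) (nat_lit 268) (nat_lit 260) (nat_lit 192)) (XT.lf (nat_lit 84) (nat_lit 4746828273) (nat_lit 0) (nat_lit 926083787) (nat_lit 1428) (nat_lit 2162295000) (nat_lit 413) (nat_lit 5) (nat_lit 412) (nat_lit 5) (nat_lit 429) (nat_lit 5) (nat_lit 269) (nat_lit 260) (nat_lit 191))) (XT.nd (nat_lit 94) (nat_lit 1428) (nat_lit 0) (XT.lf (nat_lit 84) (nat_lit 1116621803) (nat_lit 0) (nat_lit 6152762305) (nat_lit 1428) (nat_lit 626807861) (nat_lit 414) (nat_lit 5) (nat_lit 413) (nat_lit 5) (nat_lit 430) (nat_lit 5) (nat_lit 270) (nat_lit 260) (nat_lit 190)) (XT.lf (nat_lit 0) (nat_lit 920815314) (nat_lit 1428) (nat_lit 2536264643) (nat_lit 1512) (nat_lit 4501468439) (nat_lit 396) (nat_lit 5) (nat_lit 413) (nat_lit 5) (nat_lit 414) (nat_lit 5) (nat_lit 271) (nat_lit 260) (nat_lit 189)))) (XT.nd (nat_lit 188) (nat_lit 0) (nat_lit 84) (XT.nd (nat_lit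 94) (nat_lit 0) (nat_lit 84) (XT.lf (nat_lit 84) (nat_lit 1797369445) (nat_lit 0) (nat_lit 671716715) (nat_lit 1512) (nat_lit 5553621932) (nat_lit 397) (nat_lit 5) (nat_lit 396) (nat_lit 5) (nat_lit 414) (nat_lit 5) (nat_lit 272) (nat_lit 260) (nat_lit 188)) (XT.lf (nat_lit 0) (nat_lit 4049515605) (nat_lit 1428) (nat_lit 1864332429) (nat_lit 1512) (nat_lit 2174473140) (nat_lit 397) (nat_lit 5) (nat_lit 414) (nat_lit 5) (nat_lit 415) (nat_lit 5) (nat_lit 273) (nat_lit 260) (nat_lit 187))) (XT.nd (nat_lit 94) (nat_lit 0) (nat_lit 0) (XT.lf (nat_lit 84) (nat_lit 2600663728) (nat_lit 0) (nat_lit 3051980709) (nat_lit 1512) (nat_lit 2502998849) (nat_lit 398) (nat_lit 5) (nat_lit 397) (nat_lit 5) (nat_lit 415) (nat_lit 5) (nat_lit 274) (nat_lit 260) (nat_lit 186)) (XT.lf (nat_lit 84) (nat_lit 7167391162) (nat_lit 0) (nat_lit 102526732) (nat_lit 1512) (nat_lit 954993322) (nat_lit 398) (nat_lit 5) (nat_lit 397)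 (nat_lit 5) (nat_lit 415) (nat_lit 5) (nat_lit 275) (nat_lit 260) (nat_lit 185)))))) (XT.nd (nat_lit 658) (nat_lit 8064) (nat_lit 0) (XT.nd (nat_lit 282) (nat_lit 1428) (nat_lit 0) (XT.nd (nat_lit 94) (nat_lit 0) (nat_lit 0) (XT.lf (nat_lit 0) (nat_lit 630043460) (nat_lit 1512) (nat_lit 4755442951) (nat_lit 1596) (nat_lit 2909854209) (nat_lit 380) (nat_lit 5) (nat_lit 398) (nat_lit 5) (nat_lit 399) (nat_lit 5) (nat_lit 276) (nat_lit 260) (nat_lit 184)) (XT.nd (nat_lit 94) (nat_lit 0) (nat_lit 84) (XT.lf (nat_lit 0) (nat_lit 2210753043) (nat_lit 1512) (nat_lit 145608983) (nat_lit 1596) (nat_lit 6011357585) (nat_lit 380) (nat_lit 5) (nat_lit 398) (nat_lit 5) (nat_lit 399) (nat_lit 5) (nat_lit 277) (nat_lit 260) (nat_lit 183)) (XT.lf (nat_lit 0) (nat_lit 3831598043) (nat_lit 1512) (nat_lit 3839678841) (nat_lit 1596) (nat_lit 770296140) (nat_lit 381) (nat_lit 5) (nat_lit 399) (nat_lit 5) (nat_lit 400) (nat_lit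 5) (nat_lit 278) (nat_lit 260) (nat_lit 182)))) (XT.nd (nat_lit 188) (nat_lit 1512) (nat_lit 0) (XT.nd (nat_lit 94) (nat_lit 0) (nat_lit 0) (XT.lf (nat_lit 84) (nat_lit 909914844) (nat_lit 0) (nat_lit 4570474588) (nat_lit 1596) (nat_lit 3036831448) (nat_lit 382) (nat_lit 5) (nat_lit 381) (nat_lit 5) (nat_lit 400) (nat_lit 5) (nat_lit 279) (nat_lit 260) (nat_lit 181)) (XT.lf (nat_lit 84) (nat_lit 5796508284) (nat_lit 0) (nat_lit 1365397029) (nat_lit 1596) (nat_lit 1432705752) (nat_lit 382) (nat_lit 5) (nat_lit 381) (nat_lit 5) (nat_lit 400) (nat_lit 5) (nat_lit 280) (nat_lit 260) (nat_lit 180))) (XT.nd (nat_lit 94) (nat_lit 0) (nat_lit 0) (XT.lf (nat_lit 0) (nat_lit 201168013) (nat_lit 1596) (nat_lit 6566585718) (nat_lit 84) (nat_lit 1905974148) (nat_lit 363) (nat_lit 5) (nat_lit 382) (nat_lit 5) (nat_lit 364) (nat_lit 5) (nat_lit 281) (nat_lit 260) (nat_lit 179)) (XT.lf (nat_lit 0) (nat_lit 1849752476)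 (nat_lit 1596) (nat_lit 1637868182) (nat_lit 84) (nat_lit 5266738336) (nat_lit 363) (nat_lit 5) (nat_lit 382) (nat_lit 5) (nat_lit 364) (nat_lit 5) (nat_lit 282) (nat_lit 260) (nat_lit 178))))) (XT.nd (nat_lit 376) (nat_lit 3024) (nat_lit 0) (XT.nd (nat_lit 188) (nat_lit 3444) (nat_lit 0) (XT.nd (nat_lit 94) (nat_lit 0) (nat_lit 0) (XT.lf (nat_lit 0) (nat_lit 3423830284) (nat_lit 1596) (nat_lit 104926277) (nat_lit 1680) (nat_lit 5308136115) (nat_lit 344) (nat_lit 5) (nat_lit 363) (nat_lit 5) (nat_lit 364) (nat_lit 5) (nat_lit 283) (nat_lit 260) (nat_lit 177)) (XT.lf (nat_lit 0) (nat_lit 5251037740) (nat_lit 1680) (nat_lit 348872052) (nat_lit 84) (nat_lit 3321192848) (nat_lit 344) (nat_lit 5) (nat_lit 364) (nat_lit 5) (nat_lit 345) (nat_lit 5) (nat_lit 284) (nat_lit 260) (nat_lit 176))) (XT.nd (nat_lit 94) (nat_lit 1764) (nat_lit 0) (XT.lf (nat_lit 0) (nat_lit 4871396808) (nat_lit 1680) (nat_lit 2146190813)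 (nat_lit 1764) (nat_lit 1989437276) (nat_lit 324) (nat_lit 5) (nat_lit 344) (nat_lit 5) (nat_lit 345) (nat_lit 5) (nat_lit 285) (nat_lit 260) (nat_lit 175)) (XT.lf (nat_lit 0) (nat_lit 1097663630) (nat_lit 1764) (nat_lit 7717002407) (nat_lit 1848) (nat_lit 280354790) (nat_lit 303) (nat_lit 5) (nat_lit 324) (nat_lit 5) (nat_lit 325) (nat_lit 5) (nat_lit 286) (nat_lit 260) (nat_lit 174)))) (XT.nd (nat_lit 188) (nat_lit 1092) (nat_lit 0) (XT.nd (nat_lit 94) (nat_lit 1848) (nat_lit 0) (XT.lf (nat_lit 0) (nat_lit 1463228602) (nat_lit 1848) (nat_lit 2728164187) (nat_lit 84) (nat_lit 4992933627) (nat_lit 302) (nat_lit 5) (nat_lit 324) (nat_lit 5) (nat_lit 303) (nat_lit 5) (nat_lit 287) (nat_lit 260) (nat_lit 173)) (XT.lf (nat_lit 0) (nat_lit 2668445889) (nat_lit 1848) (nat_lit 563844047) (nat_lit 1932) (nat_lit 6043454481) (nat_lit 280) (nat_lit 5) (nat_lit 302) (nat_lit 5) (nat_lit 303) (nat_lit 5) (nat_lit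 288) (nat_lit 260) (nat_lit 172))) (XT.nd (nat_lit 94) (nat_lit 1092) (nat_lit 0) (XT.lf (nat_lit 0) (nat_lit 5055638613) (nat_lit 1932) (nat_lit 1192080527) (nat_lit 84) (nat_lit 3121116378) (nat_lit 280) (nat_lit 5) (nat_lit 303) (nat_lit 5) (nat_lit 281) (nat_lit 5) (nat_lit 289) (nat_lit 260) (nat_lit 171)) (XT.lf (nat_lit 0) (nat_lit 4376408632) (nat_lit 1092) (nat_lit 2551237609) (nat_lit 1176) (nat_lit 2536140387) (nat_lit 267) (nat_lit 5) (nat_lit 280) (nat_lit 5) (nat_lit 281) (nat_lit 5) (nat_lit 290) (nat_lit 260) (nat_lit 170))))))))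
noncomputable def xc44 : XT := (XT.nd (nat_lit 43146) (nat_lit 0) (nat_lit 6972) (XT.nd (nat_lit 1410) (nat_lit 2940) (nat_lit 0) (XT.nd (nat_lit 658) (nat_lit 4032) (nat_lit 0) (XT.nd (nat_lit 282) (nat_lit 1764) (nat_lit 0) (XT.nd (nat_lit 94) (nat_lit 1008) (nat_lit 0) (XT.lf (nat_lit 0) (nat_lit 497737814) (nat_lit 924) (nat_lit 8337930787) (nat_lit 1008) (nat_lit 725271788) (nat_lit 256) (nat_lit 5) (nat_lit 267) (nat_lit 5) (nat_lit 268) (nat_lit 5) (nat_lit 291) (nat_lit 260) (nat_lit 169)) (XT.nd (nat_lit 94) (nat_lit 924) (nat_lit 0) (XT.lf (nat_lit 0) (nat_lit 1139527864) (nat_lit 1008) (nat_lit 3429966065) (nat_lit 84) (nat_lit 5089894596) (nat_lit 255) (nat_lit 5) (nat_lit 267) (nat_lit 5) (nat_lit 256) (nat_lit 5) (nat_lit 292) (nat_lit 260) (nat_lit 168)) (XT.lf (nat_lit 0) (nat_lit 2330632047) (nat_lit 924) (nat_lit 695087271) (nat_lit 1008) (nat_lit 6734364114) (nat_lit 244) (nat_lit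 5) (nat_lit 255) (nat_lit 5) (nat_lit 256) (nat_lit 5) (nat_lit 293) (nat_lit 260) (nat_lit 167)))) (XT.nd (nat_lit 188) (nat_lit 924) (nat_lit 0) (XT.nd (nat_lit 94) (nat_lit 840) (nat_lit 0) (XT.lf (nat_lit 0) (nat_lit 4976999123) (nat_lit 1008) (nat_lit 1641920667) (nat_lit 84) (nat_lit 3243554808) (nat_lit 244) (nat_lit 5) (nat_lit 256) (nat_lit 5) (nat_lit 245) (nat_lit 5) (nat_lit 294) (nat_lit 260) (nat_lit 166)) (XT.lf (nat_lit 0) (nat_lit 4305191026) (nat_lit 840) (nat_lit 2677103836) (nat_lit 924) (nat_lit 2984579579) (nat_lit 234) (nat_lit 5) (nat_lit 244) (nat_lit 5) (nat_lit 245) (nat_lit 5) (nat_lit 295) (nat_lit 260) (nat_lit 165))) (XT.nd (nat_lit 94) (nat_lit 84) (nat_lit 0) (XT.lf (nat_lit 0) (nat_lit 303973510) (nat_lit 840) (nat_lit 8727456324) (nat_lit 924) (nat_lit 1042147346) (nat_lit 224) (nat_lit 5) (nat_lit 234) (nat_lit 5) (nat_lit 235) (nat_lit 5) (nat_lit 296) (nat_lit 260)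 (nat_lit 164)) (XT.lf (nat_lit 0) (nat_lit 966934812) (nat_lit 924) (nat_lit 3748003691) (nat_lit 84) (nat_lit 5466716119) (nat_lit 223) (nat_lit 5) (nat_lit 234) (nat_lit 5) (nat_lit 224) (nat_lit 5) (nat_lit 297) (nat_lit 260) (nat_lit 163))))) (XT.nd (nat_lit 376) (nat_lit 1596) (nat_lit 0) (XT.nd (nat_lit 188) (nat_lit 1596) (nat_lit 0) (XT.nd (nat_lit 94) (nat_lit 0) (nat_lit 0) (XT.lf (nat_lit 0) (nat_lit 2408499175) (nat_lit 840) (nat_lit 589938716) (nat_lit 924) (nat_lit 7293646613) (nat_lit 213) (nat_lit 5) (nat_lit 223) (nat_lit 5) (nat_lit 224) (nat_lit 5) (nat_lit 298) (nat_lit 260) (nat_lit 162)) (XT.lf (nat_lit 0) (nat_lit 5105076966) (nat_lit 924) (nat_lit 1698941870) (nat_lit 84) (nat_lit 3600255263) (nat_lit 213) (nat_lit 5) (nat_lit 224) (nat_lit 5) (nat_lit 214) (nat_lit 5) (nat_lit 299) (nat_lit 260) (nat_lit 161))) (XT.nd (nat_lit 94) (nat_lit 756) (nat_lit 0) (XT.lf (nat_lit 0)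 (nat_lit 4660127663) (nat_lit 840) (nat_lit 2612655146) (nat_lit 924) (nat_lit 3245825200) (nat_lit 203) (nat_lit 5) (nat_lit 213) (nat_lit 5) (nat_lit 214) (nat_lit 5) (nat_lit 300) (nat_lit 260) (nat_lit 160)) (XT.lf (nat_lit 0) (nat_lit 520019631) (nat_lit 756) (nat_lit 8973940316) (nat_lit 840) (nat_lit 1141370119) (nat_lit 194) (nat_lit 5) (nat_lit 203) (nat_lit 5) (nat_lit 204) (nat_lit 5) (nat_lit 301) (nat_lit 260) (nat_lit 159)))) (XT.nd (nat_lit 188) (nat_lit 756) (nat_lit 0) (XT.nd (nat_lit 94) (nat_lit 756) (nat_lit 0) (XT.lf (nat_lit 0) (nat_lit 1035134395) (nat_lit 840) (nat_lit 3678762382) (nat_lit 84) (nat_lit 6039678676) (nat_lit 193) (nat_lit 5) (nat_lit 203) (nat_lit 5) (nat_lit 194) (nat_lit 5) (nat_lit 302) (nat_lit 260) (nat_lit 158)) (XT.lf (nat_lit 0) (nat_lit 2908596681) (nat_lit 756) (nat_lit 333005389) (nat_lit 840) (nat_lit 7632661984) (nat_lit 184) (nat_lit 5) (nat_lit 193)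 (nat_lit 5) (nat_lit 194) (nat_lit 5) (nat_lit 303) (nat_lit 260) (nat_lit 157))) (XT.nd (nat_lit 94) (nat_lit 756) (nat_lit 0) (XT.lf (nat_lit 0) (nat_lit 5531944209) (nat_lit 840) (nat_lit 1355563553) (nat_lit 84) (nat_lit 4109322734) (nat_lit 184) (nat_lit 5) (nat_lit 194) (nat_lit 5) (nat_lit 185) (nat_lit 5) (nat_lit 304) (nat_lit 260) (nat_lit 156)) (XT.lf (nat_lit 0) (nat_lit 5451938584) (nat_lit 756) (nat_lit 2440900290) (nat_lit 840) (nat_lit 3228810896) (nat_lit 175) (nat_lit 5) (nat_lit 184) (nat_lit 5) (nat_lit 185) (nat_lit 5) (nat_lit 305) (nat_lit 260) (nat_lit 155)))))) (XT.nd (nat_lit 40984) (nat_lit 0) (nat_lit 22764) (XT.nd (nat_lit 282) (nat_lit 1428) (nat_lit 0) (XT.nd (nat_lit 94) (nat_lit 756) (nat_lit 0) (XT.lf (nat_lit 0) (nat_lit 1157687989) (nat_lit 756) (nat_lit 9160467632) (nat_lit 840) (nat_lit 930784834) (nat_lit 166) (nat_lit 5) (nat_lit 175) (nat_lit 5) (nat_lit 176)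 (nat_lit 5) (nat_lit 306) (nat_lit 260) (nat_lit 154)) (XT.nd (nat_lit 94) (nat_lit 672) (nat_lit 0) (XT.lf (nat_lit 0) (nat_lit 1436622658) (nat_lit 840) (nat_lit 3210828447) (nat_lit 84) (nat_lit 6730494841) (nat_lit 165) (nat_lit 5) (nat_lit 175) (nat_lit 5) (nat_lit 166) (nat_lit 5) (nat_lit 307) (nat_lit 260) (nat_lit 153)) (XT.lf (nat_lit 0) (nat_lit 3845592817) (nat_lit 672) (nat_lit 3950693) (nat_lit 756) (nat_lit 7659940079) (nat_lit 157) (nat_lit 5) (nat_lit 165) (nat_lit 5) (nat_lit 166) (nat_lit 5) (nat_lit 308) (nat_lit 260) (nat_lit 152)))) (XT.nd (nat_lit 188) (nat_lit 756) (nat_lit 0) (XT.nd (nat_lit 94) (nat_lit 672) (nat_lit 0) (XT.lf (nat_lit 0) (nat_lit 6353191712) (nat_lit 756) (nat_lit 596356795) (nat_lit 84) (nat_lit 4693538406) (nat_lit 157) (nat_lit 5) (nat_lit 166) (nat_lit 5) (nat_lit 158) (nat_lit 5) (nat_lit 309) (nat_lit 260) (nat_lit 151)) (XT.lf (nat_lit 0) (nat_lit 6699424513)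 (nat_lit 672) (nat_lit 2240654895) (nat_lit 756) (nat_lit 2838930597) (nat_lit 149) (nat_lit 5) (nat_lit 157) (nat_lit 5) (nat_lit 158) (nat_lit 5) (nat_lit 310) (nat_lit 260) (nat_lit 150))) (XT.nd (nat_lit 94) (nat_lit 84) (nat_lit 0) (XT.lf (nat_lit 0) (nat_lit 2236730465) (nat_lit 672) (nat_lit 9366470793) (nat_lit 756) (nat_lit 314297052) (nat_lit 141) (nat_lit 5) (nat_lit 149) (nat_lit 5) (nat_lit 150) (nat_lit 5) (nat_lit 311) (nat_lit 260) (nat_lit 149)) (XT.lf (nat_lit 0) (nat_lit 2268088703) (nat_lit 756) (nat_lit 2325098900) (nat_lit 84) (nat_lit 7464724050) (nat_lit 140) (nat_lit 5) (nat_lit 149) (nat_lit 5) (nat_lit 141) (nat_lit 5) (nat_lit 312) (nat_lit 260) (nat_lit 148))))) (XT.nd (nat_lit 376) (nat_lit 1260) (nat_lit 0) (XT.nd (nat_lit 188) (nat_lit 0) (nat_lit 0) (XT.nd (nat_lit 94) (nat_lit 0) (nat_lit 0) (XT.lf (nat_lit 0) (nat_lit 565625832) (nat_lit 0) (nat_lit 565625832) (nat_lit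 1260) (nat_lit 2595122776) (nat_lit 426) (nat_lit 5) (nat_lit 426) (nat_lit 3) (nat_lit 441) (nat_lit 3) (nat_lit 261) (nat_lit 261) (nat_lit 198)) (XT.lf (nat_lit 0) (nat_lit 3788593310) (nat_lit 1260) (nat_lit 2592353148) (nat_lit 1344) (nat_lit 1120756208) (nat_lit 426) (nat_lit 5) (nat_lit 441) (nat_lit 3) (nat_lit 442) (nat_lit 5) (nat_lit 262) (nat_lit 261) (nat_lit 197))) (XT.nd (nat_lit 94) (nat_lit 0) (nat_lit 0) (XT.lf (nat_lit 84) (nat_lit 1205352701) (nat_lit 0) (nat_lit 4116868368) (nat_lit 1344) (nat_lit 2230085161) (nat_lit 427) (nat_lit 5) (nat_lit 426) (nat_lit 5) (nat_lit 442) (nat_lit 5) (nat_lit 263) (nat_lit 261) (nat_lit 196)) (XT.lf (nat_lit 84) (nat_lit 5102883826) (nat_lit 0) (nat_lit 1763757849) (nat_lit 1344) (nat_lit 737886230) (nat_lit 427) (nat_lit 5) (nat_lit 426) (nat_lit 5) (nat_lit 442) (nat_lit 5) (nat_lit 264) (nat_lit 261) (nat_lit 195)))) (XT.nd (nat_lit 188) (nat_lit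 0) (nat_lit 0) (XT.nd (nat_lit 94) (nat_lit 0) (nat_lit 0) (XT.lf (nat_lit 0) (nat_lit 749250152) (nat_lit 1344) (nat_lit 6242730436) (nat_lit 1428) (nat_lit 666378695) (nat_lit 411) (nat_lit 5) (nat_lit 427) (nat_lit 5) (nat_lit 428) (nat_lit 5) (nat_lit 265) (nat_lit 261) (nat_lit 194)) (XT.lf (nat_lit 0) (nat_lit 2249069991) (nat_lit 1344) (nat_lit 2298299502) (nat_lit 1428) (nat_lit 3166089058) (nat_lit 411) (nat_lit 5) (nat_lit 427) (nat_lit 5) (nat_lit 428) (nat_lit 5) (nat_lit 266) (nat_lit 261) (nat_lit 193))) (XT.nd (nat_lit 94) (nat_lit 0) (nat_lit 84) (XT.lf (nat_lit 84) (nat_lit 1734973429) (nat_lit 0) (nat_lit 2019521178) (nat_lit 1428) (nat_lit 4015878004) (nat_lit 412) (nat_lit 5) (nat_lit 411) (nat_lit 5) (nat_lit 428) (nat_lit 5) (nat_lit 267) (nat_lit 261) (nat_lit 192)) (XT.lf (nat_lit 0) (nat_lit 5275214995) (nat_lit 1344) (nat_lit 1964736385) (nat_lit 1428) (nat_lit 588979519) (nat_lit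 412) (nat_lit 5) (nat_lit 428) (nat_lit 5) (nat_lit 429) (nat_lit 5) (nat_lit 268) (nat_lit 261) (nat_lit 191))))))) (XT.nd (nat_lit 1410) (nat_lit 11676) (nat_lit 0) (XT.nd (nat_lit 658) (nat_lit 2772) (nat_lit 0) (XT.nd (nat_lit 282) (nat_lit 0) (nat_lit 84) (XT.nd (nat_lit 94) (nat_lit 1428) (nat_lit 0) (XT.lf (nat_lit 84) (nat_lit 2189085430) (nat_lit 0) (nat_lit 4632499185) (nat_lit 1428) (nat_lit 1067364600) (nat_lit 413) (nat_lit 5) (nat_lit 412) (nat_lit 5) (nat_lit 429) (nat_lit 5) (nat_lit 269) (nat_lit 261) (nat_lit 190)) (XT.nd (nat_lit 94) (nat_lit 0) (nat_lit 84) (XT.lf (nat_lit 0) (nat_lit 422079928) (nat_lit 1428) (nat_lit 1513263509) (nat_lit 1512) (nat_lit 6015381929) (nat_lit 395) (nat_lit 5) (nat_lit 412) (nat_lit 5) (nat_lit 413) (nat_lit 5) (nat_lit 270) (nat_lit 261) (nat_lit 189)) (XT.lf (nat_lit 0) (nat_lit 1917585607) (nat_lit 1428) (nat_lit 5245679638) (nat_lit 1512) (nat_lit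 850666290) (nat_lit 396) (nat_lit 5) (nat_lit 413) (nat_lit 5) (nat_lit 414) (nat_lit 5) (nat_lit 271) (nat_lit 261) (nat_lit 188)))) (XT.nd (nat_lit 188) (nat_lit 0) (nat_lit 84) (XT.nd (nat_lit 94) (nat_lit 0) (nat_lit 0) (XT.lf (nat_lit 0) (nat_lit 3435159940) (nat_lit 1428) (nat_lit 949716141) (nat_lit 1512) (nat_lit 3693890472) (nat_lit 396) (nat_lit 5) (nat_lit 413) (nat_lit 5) (nat_lit 414) (nat_lit 5) (nat_lit 272) (nat_lit 261) (nat_lit 187)) (XT.lf (nat_lit 84) (nat_lit 3467388114) (nat_lit 0) (nat_lit 1508030146) (nat_lit 1512) (nat_lit 3169845141) (nat_lit 397) (nat_lit 5) (nat_lit 396) (nat_lit 5) (nat_lit 414) (nat_lit 5) (nat_lit 273) (nat_lit 261) (nat_lit 186))) (XT.nd (nat_lit 94) (nat_lit 0) (nat_lit 0) (XT.lf (nat_lit 0) (nat_lit 6532108091) (nat_lit 1428) (nat_lit 251460461) (nat_lit 1512) (nat_lit 1430038619) (nat_lit 397) (nat_lit 5) (nat_lit 414) (nat_lit 5) (nat_lit 415) (nat_lit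 5) (nat_lit 274) (nat_lit 261) (nat_lit 185)) (XT.lf (nat_lit 84) (nat_lit 4299812419) (nat_lit 0) (nat_lit 3830865671) (nat_lit 1512) (nat_lit 152608487) (nat_lit 398) (nat_lit 5) (nat_lit 397) (nat_lit 5) (nat_lit 415) (nat_lit 5) (nat_lit 275) (nat_lit 261) (nat_lit 184))))) (XT.nd (nat_lit 376) (nat_lit 1428) (nat_lit 0) (XT.nd (nat_lit 188) (nat_lit 0) (nat_lit 84) (XT.nd (nat_lit 94) (nat_lit 0) (nat_lit 84) (XT.lf (nat_lit 84) (nat_lit 574937277) (nat_lit 0) (nat_lit 786987570) (nat_lit 1596) (nat_lit 6992962216) (nat_lit 380) (nat_lit 5) (nat_lit 379) (nat_lit 5) (nat_lit 398) (nat_lit 5) (nat_lit 276) (nat_lit 261) (nat_lit 183)) (XT.lf (nat_lit 0) (nat_lit 2920694067) (nat_lit 1512) (nat_lit 3176587743) (nat_lit 1596) (nat_lit 2330466931) (nat_lit 380) (nat_lit 5) (nat_lit 398) (nat_lit 5) (nat_lit 399) (nat_lit 5) (nat_lit 277) (nat_lit 261) (nat_lit 182))) (XT.nd (nat_lit 94) (nat_lit 0)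 (nat_lit 84) (XT.lf (nat_lit 84) (nat_lit 1520320843) (nat_lit 0) (nat_lit 2977676893) (nat_lit 1596) (nat_lit 4004562327) (nat_lit 381) (nat_lit 5) (nat_lit 380) (nat_lit 5) (nat_lit 399) (nat_lit 5) (nat_lit 278) (nat_lit 261) (nat_lit 181)) (XT.lf (nat_lit 0) (nat_lit 6103402955) (nat_lit 1512) (nat_lit 2236647242) (nat_lit 1596) (nat_lit 239112219) (nat_lit 381) (nat_lit 5) (nat_lit 399) (nat_lit 5) (nat_lit 400) (nat_lit 5) (nat_lit 279) (nat_lit 261) (nat_lit 180)))) (XT.nd (nat_lit 188) (nat_lit 0) (nat_lit 84) (XT.nd (nat_lit 94) (nat_lit 1596) (nat_lit 0) (XT.lf (nat_lit 84) (nat_lit 2605241348) (nat_lit 0) (nat_lit 5148070772) (nat_lit 1596) (nat_lit 903935828) (nat_lit 382) (nat_lit 5) (nat_lit 381) (nat_lit 5) (nat_lit 400) (nat_lit 5) (nat_lit 280) (nat_lit 261) (nat_lit 179)) (XT.lf (nat_lit 0) (nat_lit 678217595) (nat_lit 1596) (nat_lit 1178985283) (nat_lit 1680) (nat_lit 6880049317) (nat_lit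 362) (nat_lit 5) (nat_lit 381) (nat_lit 5) (nat_lit 382) (nat_lit 5) (nat_lit 281) (nat_lit 261) (nat_lit 178))) (XT.nd (nat_lit 94) (nat_lit 0) (nat_lit 0) (XT.lf (nat_lit 0) (nat_lit 2290035319) (nat_lit 1596) (nat_lit 5003893105) (nat_lit 84) (nat_lit 1524763754) (nat_lit 363) (nat_lit 5) (nat_lit 382) (nat_lit 5) (nat_lit 364) (nat_lit 5) (nat_lit 282) (nat_lit 261) (nat_lit 177)) (XT.lf (nat_lit 0) (nat_lit 3930018077) (nat_lit 1596) (nat_lit 3492771) (nat_lit 84) (nat_lit 4968573481) (nat_lit 363) (nat_lit 5) (nat_lit 382) (nat_lit 5) (nat_lit 364) (nat_lit 5) (nat_lit 283) (nat_lit 261) (nat_lit 176)))))) (XT.nd (nat_lit 658) (nat_lit 3696) (nat_lit 0) (XT.nd (nat_lit 282) (nat_lit 4788) (nat_lit 0) (XT.nd (nat_lit 94) (nat_lit 1680) (nat_lit 0) (XT.lf (nat_lit 0) (nat_lit 5157490464) (nat_lit 1596) (nat_lit 456377845) (nat_lit 1680) (nat_lit 3373271465) (nat_lit 344) (nat_lit 5) (nat_lit 363)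 (nat_lit 5) (nat_lit 364) (nat_lit 5) (nat_lit 284) (nat_lit 261) (nat_lit 175)) (XT.nd (nat_lit 94) (nat_lit 0) (nat_lit 0) (XT.lf (nat_lit 0) (nat_lit 1330907272) (nat_lit 1680) (nat_lit 6006965440) (nat_lit 1764) (nat_lit 1736125320) (nat_lit 324) (nat_lit 5) (nat_lit 344) (nat_lit 5) (nat_lit 345) (nat_lit 5) (nat_lit 285) (nat_lit 261) (nat_lit 174)) (XT.lf (nat_lit 0) (nat_lit 6634795495) (nat_lit 1680) (nat_lit 2468577319) (nat_lit 1764) (nat_lit 59315869) (nat_lit 324) (nat_lit 5) (nat_lit 344) (nat_lit 5) (nat_lit 345) (nat_lit 5) (nat_lit 286) (nat_lit 261) (nat_lit 173)))) (XT.nd (nat_lit 188) (nat_lit 2940) (nat_lit 0) (XT.nd (nat_lit 94) (nat_lit 0) (nat_lit 0) (XT.lf (nat_lit 0) (nat_lit 1631366689) (nat_lit 1848) (nat_lit 6454903551) (nat_lit 84) (nat_lit 1166783172) (nat_lit 302) (nat_lit 5) (nat_lit 324) (nat_lit 5) (nat_lit 303) (nat_lit 5) (nat_lit 287) (nat_lit 261) (nat_lit 172))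 (XT.lf (nat_lit 0) (nat_lit 3367985628) (nat_lit 1848) (nat_lit 1108776229) (nat_lit 84) (nat_lit 4868423288) (nat_lit 302) (nat_lit 5) (nat_lit 324) (nat_lit 5) (nat_lit 303) (nat_lit 5) (nat_lit 288) (nat_lit 261) (nat_lit 171))) (XT.nd (nat_lit 94) (nat_lit 1092) (nat_lit 0) (XT.lf (nat_lit 0) (nat_lit 4394421632) (nat_lit 1848) (nat_lit 753111396) (nat_lit 1932) (nat_lit 4291706847) (nat_lit 280) (nat_lit 5) (nat_lit 302) (nat_lit 5) (nat_lit 303) (nat_lit 5) (nat_lit 289) (nat_lit 261) (nat_lit 170)) (XT.lf (nat_lit 0) (nat_lit 460638228) (nat_lit 1092) (nat_lit 6512708094) (nat_lit 1176) (nat_lit 2561860938) (nat_lit 267) (nat_lit 5) (nat_lit 280) (nat_lit 5) (nat_lit 281) (nat_lit 5) (nat_lit 290) (nat_lit 261) (nat_lit 169))))) (XT.nd (nat_lit 376) (nat_lit 1764) (nat_lit 0) (XT.nd (nat_lit 188) (nat_lit 924) (nat_lit 0) (XT.nd (nat_lit 94) (nat_lit 1008) (nat_lit 0) (XT.lf (nat_lit 0) (nat_lit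 6132913153) (nat_lit 1092) (nat_lit 2723353402) (nat_lit 1176) (nat_lit 776646712) (nat_lit 267) (nat_lit 5) (nat_lit 280) (nat_lit 5) (nat_lit 281) (nat_lit 5) (nat_lit 291) (nat_lit 261) (nat_lit 168)) (XT.lf (nat_lit 0) (nat_lit 1031373349) (nat_lit 1008) (nat_lit 7543725874) (nat_lit 84) (nat_lit 1157535662) (nat_lit 255) (nat_lit 5) (nat_lit 267) (nat_lit 5) (nat_lit 256) (nat_lit 5) (nat_lit 292) (nat_lit 261) (nat_lit 167))) (XT.nd (nat_lit 94) (nat_lit 924) (nat_lit 0) (XT.lf (nat_lit 0) (nat_lit 2888594618) (nat_lit 1008) (nat_lit 1828725496) (nat_lit 84) (nat_lit 5116647021) (nat_lit 255) (nat_lit 5) (nat_lit 267) (nat_lit 5) (nat_lit 256) (nat_lit 5) (nat_lit 293) (nat_lit 261) (nat_lit 166)) (XT.lf (nat_lit 0) (nat_lit 4046487707) (nat_lit 924) (nat_lit 744540301) (nat_lit 1008) (nat_lit 5146404917) (nat_lit 244) (nat_lit 5) (nat_lit 255) (nat_lit 5) (nat_lit 256) (nat_lit 5) (nat_lit 294)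 (nat_lit 261) (nat_lit 165)))) (XT.nd (nat_lit 188) (nat_lit 924) (nat_lit 0) (XT.nd (nat_lit 94) (nat_lit 840) (nat_lit 0) (XT.lf (nat_lit 0) (nat_lit 6748430019) (nat_lit 1008) (nat_lit 12487701) (nat_lit 84) (nat_lit 3281968708) (nat_lit 244) (nat_lit 5) (nat_lit 256) (nat_lit 5) (nat_lit 245) (nat_lit 5) (nat_lit 295) (nat_lit 261) (nat_lit 164)) (XT.lf (nat_lit 0) (nat_lit 6053422928) (nat_lit 840) (nat_lit 2720422183) (nat_lit 924) (nat_lit 1376265893) (nat_lit 234) (nat_lit 5) (nat_lit 244) (nat_lit 5) (nat_lit 245) (nat_lit 5) (nat_lit 296) (nat_lit 261) (nat_lit 163))) (XT.nd (nat_lit 94) (nat_lit 0) (nat_lit 0) (XT.lf (nat_lit 0) (nat_lit 576757748) (nat_lit 924) (nat_lit 8275947910) (nat_lit 84) (nat_lit 1406874308) (nat_lit 223) (nat_lit 5) (nat_lit 234) (nat_lit 5) (nat_lit 224) (nat_lit 5) (nat_lit 297) (nat_lit 261) (nat_lit 162)) (XT.lf (nat_lit 0) (nat_lit 2579686705) (nat_lit 924) (nat_lit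 2166075953) (nat_lit 84) (nat_lit 5624875820) (nat_lit 223) (nat_lit 5) (nat_lit 234) (nat_lit 5) (nat_lit 224) (nat_lit 5) (nat_lit 298) (nat_lit 261) (nat_lit 161))))))))
noncomputable def xc45 : XT := (XT.nd (nat_lit 43240) (nat_lit 0) (nat_lit 2940) (XT.nd (nat_lit 41830) (nat_lit 0) (nat_lit 20076) (XT.nd (nat_lit 658) (nat_lit 2940) (nat_lit 0) (XT.nd (nat_lit 282) (nat_lit 2352) (nat_lit 0) (XT.nd (nat_lit 94) (nat_lit 840) (nat_lit 0) (XT.lf (nat_lit 0) (nat_lit 4113840921) (nat_lit 840) (nat_lit 519553193) (nat_lit 924) (nat_lit 5850598456) (nat_lit 213) (nat_lit 5) (nat_lit 223) (nat_lit 5) (nat_lit 224) (nat_lit 5) (nat_lit 299) (nat_lit 261) (nat_lit 160)) (XT.nd (nat_lit 94) (nat_lit 840) (nat_lit 0) (XT.lf (nat_lit 0) (nat_lit 6753185540) (nat_lit 924) (nat_lit 86339399) (nat_lit 84) (nat_lit 3759855659) (nat_lit 213) (nat_lit 5) (nat_lit 224) (nat_lit 5) (nat_lit 214) (nat_lit 5) (nat_lit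 300) (nat_lit 261) (nat_lit 159)) (XT.lf (nat_lit 0) (nat_lit 6400704716) (nat_lit 840) (nat_lit 2546484235) (nat_lit 924) (nat_lit 1769511526) (nat_lit 203) (nat_lit 5) (nat_lit 213) (nat_lit 5) (nat_lit 214) (nat_lit 5) (nat_lit 301) (nat_lit 261) (nat_lit 158)))) (XT.nd (nat_lit 188) (nat_lit 1512) (nat_lit 0) (XT.nd (nat_lit 94) (nat_lit 0) (nat_lit 0) (XT.lf (nat_lit 0) (nat_lit 355680830) (nat_lit 840) (nat_lit 8649122142) (nat_lit 84) (nat_lit 1831569235) (nat_lit 193) (nat_lit 5) (nat_lit 203) (nat_lit 5) (nat_lit 194) (nat_lit 5) (nat_lit 302) (nat_lit 261) (nat_lit 157)) (XT.lf (nat_lit 0) (nat_lit 2530862404) (nat_lit 840) (nat_lit 2115452484) (nat_lit 84) (nat_lit 6311434214) (nat_lit 193) (nat_lit 5) (nat_lit 203) (nat_lit 5) (nat_lit 194) (nat_lit 5) (nat_lit 303) (nat_lit 261) (nat_lit 156))) (XT.nd (nat_lit 94) (nat_lit 756) (nat_lit 0) (XT.lf (nat_lit 0) (nat_lit 4604944990) (nat_lit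 756) (nat_lit 160847610) (nat_lit 840) (nat_lit 6315742007) (nat_lit 184) (nat_lit 5) (nat_lit 193) (nat_lit 5) (nat_lit 194) (nat_lit 5) (nat_lit 304) (nat_lit 261) (nat_lit 155)) (XT.lf (nat_lit 0) (nat_lit 245393041) (nat_lit 756) (nat_lit 6832853000) (nat_lit 840) (nat_lit 4129173547) (nat_lit 175) (nat_lit 5) (nat_lit 184) (nat_lit 5) (nat_lit 185) (nat_lit 5) (nat_lit 305) (nat_lit 261) (nat_lit 154))))) (XT.nd (nat_lit 376) (nat_lit 1428) (nat_lit 0) (XT.nd (nat_lit 188) (nat_lit 672) (nat_lit 0) (XT.nd (nat_lit 94) (nat_lit 840) (nat_lit 0) (XT.lf (nat_lit 0) (nat_lit 7187365148) (nat_lit 756) (nat_lit 2282845834) (nat_lit 840) (nat_lit 1865233031) (nat_lit 175) (nat_lit 5) (nat_lit 184) (nat_lit 5) (nat_lit 185) (nat_lit 5) (nat_lit 306) (nat_lit 261) (nat_lit 153)) (XT.lf (nat_lit 0) (nat_lit 459153937) (nat_lit 840) (nat_lit 8653103173) (nat_lit 84) (nat_lit 2353581382) (nat_lit 165) (nat_lit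 5) (nat_lit 175) (nat_lit 5) (nat_lit 166) (nat_lit 5) (nat_lit 307) (nat_lit 261) (nat_lit 152))) (XT.nd (nat_lit 94) (nat_lit 672) (nat_lit 0) (XT.lf (nat_lit 0) (nat_lit 2834876924) (nat_lit 840) (nat_lit 1663677257) (nat_lit 84) (nat_lit 7099640308) (nat_lit 165) (nat_lit 5) (nat_lit 175) (nat_lit 5) (nat_lit 166) (nat_lit 5) (nat_lit 308) (nat_lit 261) (nat_lit 151)) (XT.lf (nat_lit 0) (nat_lit 5284708547) (nat_lit 756) (nat_lit 6198533465) (nat_lit 84) (nat_lit 249739764) (nat_lit 157) (nat_lit 5) (nat_lit 166) (nat_lit 5) (nat_lit 158) (nat_lit 5) (nat_lit 309) (nat_lit 261) (nat_lit 150)))) (XT.nd (nat_lit 188) (nat_lit 756) (nat_lit 0) (XT.nd (nat_lit 94) (nat_lit 0) (nat_lit 0) (XT.lf (nat_lit 0) (nat_lit 1003741825) (nat_lit 672) (nat_lit 6817802322) (nat_lit 756) (nat_lit 4048461868) (nat_lit 149) (nat_lit 5) (nat_lit 157) (nat_lit 5) (nat_lit 158) (nat_lit 5) (nat_lit 310) (nat_lit 261)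 (nat_lit 149)) (XT.lf (nat_lit 0) (nat_lit 8434018465) (nat_lit 672) (nat_lit 2007035360) (nat_lit 756) (nat_lit 1568399962) (nat_lit 149) (nat_lit 5) (nat_lit 157) (nat_lit 5) (nat_lit 158) (nat_lit 5) (nat_lit 311) (nat_lit 261) (nat_lit 148))) (XT.nd (nat_lit 40514) (nat_lit 0) (nat_lit 24024) (XT.lf (nat_lit 0) (nat_lit 982403911) (nat_lit 756) (nat_lit 8270251980) (nat_lit 84) (nat_lit 2898499960) (nat_lit 140) (nat_lit 5) (nat_lit 149) (nat_lit 5) (nat_lit 141) (nat_lit 5) (nat_lit 312) (nat_lit 261) (nat_lit 147)) (XT.lf (nat_lit 0) (nat_lit 1319302923) (nat_lit 0) (nat_lit 1319302923) (nat_lit 1260) (nat_lit 1137134565) (nat_lit 426) (nat_lit 5) (nat_lit 426) (nat_lit 3) (nat_lit 441) (nat_lit 3) (nat_lit 262) (nat_lit 262) (nat_lit 196)))))) (XT.nd (nat_lit 658) (nat_lit 1260) (nat_lit 0) (XT.nd (nat_lit 282) (nat_lit 1344) (nat_lit 0) (XT.nd (nat_lit 94) (nat_lit 1344) (nat_lit 0) (XT.lf (nat_lit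 0) (nat_lit 6476370058) (nat_lit 0) (nat_lit 288402921) (nat_lit 1260) (nat_lit 838324873) (nat_lit 426) (nat_lit 5) (nat_lit 426) (nat_lit 3) (nat_lit 441) (nat_lit 3) (nat_lit 263) (nat_lit 262) (nat_lit 195)) (XT.nd (nat_lit 94) (nat_lit 0) (nat_lit 0) (XT.lf (nat_lit 0) (nat_lit 613680690) (nat_lit 1344) (nat_lit 4914864621) (nat_lit 1428) (nat_lit 2127348808) (nat_lit 410) (nat_lit 5) (nat_lit 426) (nat_lit 5) (nat_lit 427) (nat_lit 5) (nat_lit 264) (nat_lit 262) (nat_lit 194)) (XT.lf (nat_lit 0) (nat_lit 2055177176) (nat_lit 1344) (nat_lit 1029305557) (nat_lit 1428) (nat_lit 4625897391) (nat_lit 410) (nat_lit 5) (nat_lit 426) (nat_lit 5) (nat_lit 427) (nat_lit 5) (nat_lit 265) (nat_lit 262) (nat_lit 193)))) (XT.nd (nat_lit 188) (nat_lit 1344) (nat_lit 0) (XT.nd (nat_lit 94) (nat_lit 0) (nat_lit 84) (XT.lf (nat_lit 84) (nat_lit 2962805962) (nat_lit 0) (nat_lit 546963720) (nat_lit 1428) (nat_lit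 4256704712) (nat_lit 411) (nat_lit 5) (nat_lit 410) (nat_lit 5) (nat_lit 427) (nat_lit 5) (nat_lit 266) (nat_lit 262) (nat_lit 192)) (XT.lf (nat_lit 0) (nat_lit 4979704007) (nat_lit 1344) (nat_lit 802582028) (nat_lit 1428) (nat_lit 2041883205) (nat_lit 411) (nat_lit 5) (nat_lit 427) (nat_lit 5) (nat_lit 428) (nat_lit 5) (nat_lit 267) (nat_lit 262) (nat_lit 191))) (XT.nd (nat_lit 94) (nat_lit 1428) (nat_lit 0) (XT.lf (nat_lit 84) (nat_lit 3308247427) (nat_lit 0) (nat_lit 3163219795) (nat_lit 1428) (nat_lit 1411897363) (nat_lit 412) (nat_lit 5) (nat_lit 411) (nat_lit 5) (nat_lit 428) (nat_lit 5) (nat_lit 268) (nat_lit 262) (nat_lit 190)) (XT.lf (nat_lit 0) (nat_lit 19741476) (nat_lit 1428) (nat_lit 444984953) (nat_lit 1512) (nat_lit 7479824887) (nat_lit 394) (nat_lit 5) (nat_lit 411) (nat_lit 5) (nat_lit 412) (nat_lit 5) (nat_lit 269) (nat_lit 262) (nat_lit 189))))) (XT.nd (nat_lit 376) (nat_lit 1344)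 (nat_lit 0) (XT.nd (nat_lit 188) (nat_lit 0) (nat_lit 0) (XT.nd (nat_lit 94) (nat_lit 0) (nat_lit 0) (XT.lf (nat_lit 0) (nat_lit 1469010171) (nat_lit 1428) (nat_lit 4225202546) (nat_lit 1512) (nat_lit 2312493136) (nat_lit 395) (nat_lit 5) (nat_lit 412) (nat_lit 5) (nat_lit 413) (nat_lit 5) (nat_lit 270) (nat_lit 262) (nat_lit 188)) (XT.lf (nat_lit 84) (nat_lit 11623741) (nat_lit 0) (nat_lit 2909203540) (nat_lit 1512) (nat_lit 5150045889) (nat_lit 396) (nat_lit 5) (nat_lit 395) (nat_lit 5) (nat_lit 413) (nat_lit 5) (nat_lit 271) (nat_lit 262) (nat_lit 187))) (XT.nd (nat_lit 94) (nat_lit 0) (nat_lit 84) (XT.lf (nat_lit 84) (nat_lit 4382326338) (nat_lit 0) (nat_lit 17972107) (nat_lit 1512) (nat_lit 3736248013) (nat_lit 396) (nat_lit 5) (nat_lit 395) (nat_lit 5) (nat_lit 413) (nat_lit 5) (nat_lit 272) (nat_lit 262) (nat_lit 186)) (XT.lf (nat_lit 84) (nat_lit 610584154) (nat_lit 0) (nat_lit 5292363547) (nat_lit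 1512) (nat_lit 2300923004) (nat_lit 397) (nat_lit 5) (nat_lit 396) (nat_lit 5) (nat_lit 414) (nat_lit 5) (nat_lit 273) (nat_lit 262) (nat_lit 185)))) (XT.nd (nat_lit 188) (nat_lit 0) (nat_lit 0) (XT.nd (nat_lit 94) (nat_lit 1428) (nat_lit 0) (XT.lf (nat_lit 84) (nat_lit 5104706093) (nat_lit 0) (nat_lit 2327753719) (nat_lit 1512) (nat_lit 840352572) (nat_lit 397) (nat_lit 5) (nat_lit 396) (nat_lit 5) (nat_lit 414) (nat_lit 5) (nat_lit 274) (nat_lit 262) (nat_lit 184)) (XT.lf (nat_lit 0) (nat_lit 624163859) (nat_lit 1512) (nat_lit 7002351294) (nat_lit 1596) (nat_lit 717066790) (nat_lit 379) (nat_lit 5) (nat_lit 397) (nat_lit 5) (nat_lit 398) (nat_lit 5) (nat_lit 275) (nat_lit 262) (nat_lit 183))) (XT.nd (nat_lit 94) (nat_lit 0) (nat_lit 0) (XT.lf (nat_lit 0) (nat_lit 2116119138) (nat_lit 1512) (nat_lit 2464823927) (nat_lit 1596) (nat_lit 3834663809) (nat_lit 379) (nat_lit 5) (nat_lit 397) (nat_lit 5) (nat_lit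 398) (nat_lit 5) (nat_lit 276) (nat_lit 262) (nat_lit 182)) (XT.lf (nat_lit 84) (nat_lit 2181160440) (nat_lit 0) (nat_lit 1443055272) (nat_lit 1596) (nat_lit 4865367639) (nat_lit 380) (nat_lit 5) (nat_lit 379) (nat_lit 5) (nat_lit 398) (nat_lit 5) (nat_lit 277) (nat_lit 262) (nat_lit 181))))))) (XT.nd (nat_lit 1410) (nat_lit 7644) (nat_lit 0) (XT.nd (nat_lit 658) (nat_lit 6552) (nat_lit 0) (XT.nd (nat_lit 282) (nat_lit 3024) (nat_lit 0) (XT.nd (nat_lit 94) (nat_lit 0) (nat_lit 0) (XT.lf (nat_lit 0) (nat_lit 5164771767) (nat_lit 1512) (nat_lit 1634695995) (nat_lit 1596) (nat_lit 1765735359) (nat_lit 380) (nat_lit 5) (nat_lit 398) (nat_lit 5) (nat_lit 399) (nat_lit 5) (nat_lit 278) (nat_lit 262) (nat_lit 180)) (XT.nd (nat_lit 94) (nat_lit 0) (nat_lit 0) (XT.lf (nat_lit 84) (nat_lit 3153895735) (nat_lit 0) (nat_lit 3587354700) (nat_lit 1596) (nat_lit 1901191422) (nat_lit 381) (nat_lit 5) (nat_lit 380) (nat_lit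 5) (nat_lit 399) (nat_lit 5) (nat_lit 279) (nat_lit 262) (nat_lit 179)) (XT.lf (nat_lit 84) (nat_lit 8049538338) (nat_lit 0) (nat_lit 284511037) (nat_lit 1596) (nat_lit 387734440) (nat_lit 381) (nat_lit 5) (nat_lit 380) (nat_lit 5) (nat_lit 399) (nat_lit 5) (nat_lit 280) (nat_lit 262) (nat_lit 178)))) (XT.nd (nat_lit 188) (nat_lit 1512) (nat_lit 0) (XT.nd (nat_lit 94) (nat_lit 0) (nat_lit 0) (XT.lf (nat_lit 0) (nat_lit 1165171795) (nat_lit 1596) (nat_lit 4544278812) (nat_lit 1680) (nat_lit 3092736428) (nat_lit 362) (nat_lit 5) (nat_lit 381) (nat_lit 5) (nat_lit 382) (nat_lit 5) (nat_lit 281) (nat_lit 262) (nat_lit 177)) (XT.lf (nat_lit 84) (nat_lit 399948460) (nat_lit 0) (nat_lit 2327044944) (nat_lit 1680) (nat_lit 6157733529) (nat_lit 363) (nat_lit 5) (nat_lit 362) (nat_lit 5) (nat_lit 382) (nat_lit 5) (nat_lit 282) (nat_lit 262) (nat_lit 176))) (XT.nd (nat_lit 94) (nat_lit 1596) (nat_lit 0) (XT.lf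 (nat_lit 0) (nat_lit 4336082482) (nat_lit 1596) (nat_lit 3479528154) (nat_lit 84) (nat_lit 1153188108) (nat_lit 363) (nat_lit 5) (nat_lit 382) (nat_lit 5) (nat_lit 364) (nat_lit 5) (nat_lit 283) (nat_lit 262) (nat_lit 175)) (XT.lf (nat_lit 0) (nat_lit 1619016103) (nat_lit 1596) (nat_lit 4361701840) (nat_lit 1680) (nat_lit 3073998972) (nat_lit 344) (nat_lit 5) (nat_lit 363) (nat_lit 5) (nat_lit 364) (nat_lit 5) (nat_lit 284) (nat_lit 262) (nat_lit 174))))) (XT.nd (nat_lit 376) (nat_lit 3024) (nat_lit 0) (XT.nd (nat_lit 188) (nat_lit 1764) (nat_lit 0) (XT.nd (nat_lit 94) (nat_lit 1764) (nat_lit 0) (XT.lf (nat_lit 0) (nat_lit 6858663553) (nat_lit 1596) (nat_lit 800691530) (nat_lit 1680) (nat_lit 1483218170) (nat_lit 344) (nat_lit 5) (nat_lit 363) (nat_lit 5) (nat_lit 364) (nat_lit 5) (nat_lit 285) (nat_lit 262) (nat_lit 173)) (XT.lf (nat_lit 0) (nat_lit 154815762) (nat_lit 1764) (nat_lit 6252406273) (nat_lit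 84) (nat_lit 2824803249) (nat_lit 323) (nat_lit 5) (nat_lit 344) (nat_lit 5) (nat_lit 324) (nat_lit 5) (nat_lit 286) (nat_lit 262) (nat_lit 172))) (XT.nd (nat_lit 94) (nat_lit 1764) (nat_lit 0) (XT.lf (nat_lit 0) (nat_lit 1802855037) (nat_lit 1764) (nat_lit 970165450) (nat_lit 84) (nat_lit 6550279588) (nat_lit 323) (nat_lit 5) (nat_lit 344) (nat_lit 5) (nat_lit 324) (nat_lit 5) (nat_lit 287) (nat_lit 262) (nat_lit 171)) (XT.lf (nat_lit 0) (nat_lit 3499513113) (nat_lit 1848) (nat_lit 4953655490) (nat_lit 84) (nat_lit 963142345) (nat_lit 302) (nat_lit 5) (nat_lit 324) (nat_lit 5) (nat_lit 303) (nat_lit 5) (nat_lit 288) (nat_lit 262) (nat_lit 170)))) (XT.nd (nat_lit 188) (nat_lit 1176) (nat_lit 0) (XT.nd (nat_lit 94) (nat_lit 0) (nat_lit 0) (XT.lf (nat_lit 0) (nat_lit 481650517) (nat_lit 1848) (nat_lit 4756676143) (nat_lit 1932) (nat_lit 4272935161) (nat_lit 280) (nat_lit 5) (nat_lit 302) (nat_lit 5) (nat_lit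 303) (nat_lit 5) (nat_lit 289) (nat_lit 262) (nat_lit 169)) (XT.lf (nat_lit 0) (nat_lit 6087360730) (nat_lit 1848) (nat_lit 939010138) (nat_lit 1932) (nat_lit 2581689257) (nat_lit 280) (nat_lit 5) (nat_lit 302) (nat_lit 5) (nat_lit 303) (nat_lit 5) (nat_lit 290) (nat_lit 262) (nat_lit 168))) (XT.nd (nat_lit 94) (nat_lit 84) (nat_lit 0) (XT.lf (nat_lit 0) (nat_lit 2095257134) (nat_lit 1092) (nat_lit 6769479420) (nat_lit 1176) (nat_lit 842009781) (nat_lit 267) (nat_lit 5) (nat_lit 280) (nat_lit 5) (nat_lit 281) (nat_lit 5) (nat_lit 291) (nat_lit 262) (nat_lit 167)) (XT.lf (nat_lit 0) (nat_lit 930643558) (nat_lit 1176) (nat_lit 1956798252) (nat_lit 84) (nat_lit 6919835164) (nat_lit 266) (nat_lit 5) (nat_lit 280) (nat_lit 5) (nat_lit 267) (nat_lit 5) (nat_lit 292) (nat_lit 262) (nat_lit 166)))))) (XT.nd (nat_lit 658) (nat_lit 4032) (nat_lit 0) (XT.nd (nat_lit 282) (nat_lit 1764) (nat_lit 0) (XT.nd (nat_lit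 94) (nat_lit 924) (nat_lit 0) (XT.lf (nat_lit 0) (nat_lit 2740949219) (nat_lit 1008) (nat_lit 6069081364) (nat_lit 84) (nat_lit 1099610785) (nat_lit 255) (nat_lit 5) (nat_lit 267) (nat_lit 5) (nat_lit 256) (nat_lit 5) (nat_lit 293) (nat_lit 262) (nat_lit 165)) (XT.nd (nat_lit 94) (nat_lit 924) (nat_lit 0) (XT.lf (nat_lit 0) (nat_lit 4602716749) (nat_lit 1008) (nat_lit 263667360) (nat_lit 84) (nat_lit 5147617696) (nat_lit 255) (nat_lit 5) (nat_lit 267) (nat_lit 5) (nat_lit 256) (nat_lit 5) (nat_lit 294) (nat_lit 262) (nat_lit 164)) (XT.lf (nat_lit 0) (nat_lit 5729198568) (nat_lit 924) (nat_lit 793626395) (nat_lit 1008) (nat_lit 3597450810) (nat_lit 244) (nat_lit 5) (nat_lit 255) (nat_lit 5) (nat_lit 256) (nat_lit 5) (nat_lit 295) (nat_lit 262) (nat_lit 163)))) (XT.nd (nat_lit 188) (nat_lit 840) (nat_lit 0) (XT.nd (nat_lit 94) (nat_lit 84) (nat_lit 0) (XT.lf (nat_lit 0) (nat_lit 1604974447) (nat_lit 840)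 (nat_lit 6894509578) (nat_lit 924) (nat_lit 1729088956) (nat_lit 234) (nat_lit 5) (nat_lit 244) (nat_lit 5) (nat_lit 245) (nat_lit 5) (nat_lit 296) (nat_lit 262) (nat_lit 162)) (XT.lf (nat_lit 0) (nat_lit 193312043) (nat_lit 924) (nat_lit 2570617079) (nat_lit 84) (nat_lit 7574953610) (nat_lit 233) (nat_lit 5) (nat_lit 244) (nat_lit 5) (nat_lit 234) (nat_lit 5) (nat_lit 297) (nat_lit 262) (nat_lit 161))) (XT.nd (nat_lit 94) (nat_lit 0) (nat_lit 0) (XT.lf (nat_lit 0) (nat_lit 2146666895) (nat_lit 924) (nat_lit 6829463168) (nat_lit 84) (nat_lit 1474901812) (nat_lit 223) (nat_lit 5) (nat_lit 234) (nat_lit 5) (nat_lit 224) (nat_lit 5) (nat_lit 298) (nat_lit 262) (nat_lit 160)) (XT.lf (nat_lit 0) (nat_lit 4160138909) (nat_lit 924) (nat_lit 620230998) (nat_lit 84) (nat_lit 5784901238) (nat_lit 223) (nat_lit 5) (nat_lit 234) (nat_lit 5) (nat_lit 224) (nat_lit 5) (nat_lit 299) (nat_lit 262) (nat_lit 159)))))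 (XT.nd (nat_lit 376) (nat_lit 1512) (nat_lit 0) (XT.nd (nat_lit 188) (nat_lit 840) (nat_lit 0) (XT.nd (nat_lit 94) (nat_lit 840) (nat_lit 0) (XT.lf (nat_lit 0) (nat_lit 5786327303) (nat_lit 840) (nat_lit 451169623) (nat_lit 924) (nat_lit 4444095781) (nat_lit 213) (nat_lit 5) (nat_lit 223) (nat_lit 5) (nat_lit 224) (nat_lit 5) (nat_lit 300) (nat_lit 262) (nat_lit 158)) (XT.lf (nat_lit 0) (nat_lit 1513264442) (nat_lit 840) (nat_lit 6869658653) (nat_lit 924) (nat_lit 2417058191) (nat_lit 203) (nat_lit 5) (nat_lit 213) (nat_lit 5) (nat_lit 214) (nat_lit 5) (nat_lit 301) (nat_lit 262) (nat_lit 157))) (XT.nd (nat_lit 94) (nat_lit 840) (nat_lit 0) (XT.lf (nat_lit 0) (nat_lit 8109810633) (nat_lit 840) (nat_lit 2484123722) (nat_lit 924) (nat_lit 326635573) (nat_lit 203) (nat_lit 5) (nat_lit 213) (nat_lit 5) (nat_lit 214) (nat_lit 5) (nat_lit 302) (nat_lit 262) (nat_lit 156)) (XT.lf (nat_lit 0) (nat_lit 1804753413)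 (nat_lit 840) (nat_lit 7230554815) (nat_lit 84) (nat_lit 2007756720) (nat_lit 193) (nat_lit 5) (nat_lit 203) (nat_lit 5) (nat_lit 194) (nat_lit 5) (nat_lit 303) (nat_lit 262) (nat_lit 155)))) (XT.nd (nat_lit 188) (nat_lit 756) (nat_lit 0) (XT.nd (nat_lit 94) (nat_lit 756) (nat_lit 0) (XT.lf (nat_lit 0) (nat_lit 3996764083) (nat_lit 840) (nat_lit 587777161) (nat_lit 84) (nat_lit 6583253439) (nat_lit 193) (nat_lit 5) (nat_lit 203) (nat_lit 5) (nat_lit 194) (nat_lit 5) (nat_lit 304) (nat_lit 262) (nat_lit 154)) (XT.lf (nat_lit 0) (nat_lit 6261691255) (nat_lit 840) (nat_lit 5025687823) (nat_lit 84) (nat_lit 7346164) (nat_lit 184) (nat_lit 5) (nat_lit 194) (nat_lit 5) (nat_lit 185) (nat_lit 5) (nat_lit 305) (nat_lit 262) (nat_lit 153))) (XT.nd (nat_lit 94) (nat_lit 0) (nat_lit 0) (XT.lf (nat_lit 0) (nat_lit 1831500019) (nat_lit 756) (nat_lit 6775979814) (nat_lit 840) (nat_lit 2816285713) (nat_lit 175) (nat_lit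 5) (nat_lit 184) (nat_lit 5) (nat_lit 185) (nat_lit 5) (nat_lit 306) (nat_lit 262) (nat_lit 152)) (XT.lf (nat_lit 0) (nat_lit 8892168523) (nat_lit 756) (nat_lit 2130332678) (nat_lit 840) (nat_lit 532755778) (nat_lit 175) (nat_lit 5) (nat_lit 184) (nat_lit 5) (nat_lit 185) (nat_lit 5) (nat_lit 307) (nat_lit 262) (nat_lit 151))))))))
noncomputable def xc46 : XT := (XT.nd (nat_lit 43334) (nat_lit 0) (nat_lit 0) (XT.nd (nat_lit 41924) (nat_lit 0) (nat_lit 14616) (XT.nd (nat_lit 41172) (nat_lit 0) (nat_lit 20580) (XT.nd (nat_lit 282) (nat_lit 672) (nat_lit 0) (XT.nd (nat_lit 94) (nat_lit 672) (nat_lit 0) (XT.lf (nat_lit 0) (nat_lit 1806484842) (nat_lit 840) (nat_lit 7260507239) (nat_lit 84) (nat_lit 2621675809) (nat_lit 165) (nat_lit 5) (nat_lit 175) (nat_lit 5) (nat_lit 166) (nat_lit 5) (nat_lit 308) (nat_lit 262) (nat_lit 150)) (XT.nd (nat_lit 94) (nat_lit 672) (nat_lit 0) (XT.lf (nat_lit 0) (nat_lit 4205687972)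 (nat_lit 840) (nat_lit 151389503) (nat_lit 84) (nat_lit 7467491530) (nat_lit 165) (nat_lit 5) (nat_lit 175) (nat_lit 5) (nat_lit 166) (nat_lit 5) (nat_lit 309) (nat_lit 262) (nat_lit 149)) (XT.lf (nat_lit 0) (nat_lit 6693958758) (nat_lit 756) (nat_lit 4770555415) (nat_lit 84) (nat_lit 498147496) (nat_lit 157) (nat_lit 5) (nat_lit 166) (nat_lit 5) (nat_lit 158) (nat_lit 5) (nat_lit 310) (nat_lit 262) (nat_lit 148)))) (XT.nd (nat_lit 40702) (nat_lit 0) (nat_lit 21840) (XT.nd (nat_lit 94) (nat_lit 0) (nat_lit 0) (XT.lf (nat_lit 0) (nat_lit 2578863884) (nat_lit 672) (nat_lit 6690970154) (nat_lit 756) (nat_lit 2833235359) (nat_lit 149) (nat_lit 5) (nat_lit 157) (nat_lit 5) (nat_lit 158) (nat_lit 5) (nat_lit 311) (nat_lit 262) (nat_lit 147)) (XT.lf (nat_lit 0) (nat_lit 10139175227) (nat_lit 672) (nat_lit 1780325344) (nat_lit 756) (nat_lit 326688841) (nat_lit 149) (nat_lit 5) (nat_lit 157) (nat_lit 5) (nat_lit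 158) (nat_lit 5) (nat_lit 312) (nat_lit 262) (nat_lit 146))) (XT.nd (nat_lit 94) (nat_lit 0) (nat_lit 0) (XT.lf (nat_lit 0) (nat_lit 284249001) (nat_lit 1428) (nat_lit 1771643631) (nat_lit 1428) (nat_lit 1771643631) (nat_lit 409) (nat_lit 3) (nat_lit 426) (nat_lit 3) (nat_lit 426) (nat_lit 5) (nat_lit 263) (nat_lit 263) (nat_lit 194)) (XT.lf (nat_lit 84) (nat_lit 288402921) (nat_lit 0) (nat_lit 1666996300) (nat_lit 1428) (nat_lit 5753504853) (nat_lit 410) (nat_lit 5) (nat_lit 409) (nat_lit 3) (nat_lit 426) (nat_lit 5) (nat_lit 264) (nat_lit 263) (nat_lit 193))))) (XT.nd (nat_lit 376) (nat_lit 1344) (nat_lit 0) (XT.nd (nat_lit 188) (nat_lit 0) (nat_lit 0) (XT.nd (nat_lit 94) (nat_lit 0) (nat_lit 0) (XT.lf (nat_lit 0) (nat_lit 3365376558) (nat_lit 1344) (nat_lit 3533751994) (nat_lit 1428) (nat_lit 864954949) (nat_lit 410) (nat_lit 5) (nat_lit 426) (nat_lit 5) (nat_lit 427) (nat_lit 5) (nat_lit 265) (nat_lit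 263) (nat_lit 192)) (XT.lf (nat_lit 84) (nat_lit 411153287) (nat_lit 0) (nat_lit 4371417891) (nat_lit 1428) (nat_lit 3038429346) (nat_lit 411) (nat_lit 5) (nat_lit 410) (nat_lit 5) (nat_lit 427) (nat_lit 5) (nat_lit 266) (nat_lit 263) (nat_lit 191))) (XT.nd (nat_lit 94) (nat_lit 0) (nat_lit 84) (XT.lf (nat_lit 84) (nat_lit 4474637809) (nat_lit 0) (nat_lit 1744228312) (nat_lit 1428) (nat_lit 1660569317) (nat_lit 411) (nat_lit 5) (nat_lit 410) (nat_lit 5) (nat_lit 427) (nat_lit 5) (nat_lit 267) (nat_lit 263) (nat_lit 190)) (XT.lf (nat_lit 84) (nat_lit 669833749) (nat_lit 0) (nat_lit 6991160710) (nat_lit 1428) (nat_lit 278728292) (nat_lit 412) (nat_lit 5) (nat_lit 411) (nat_lit 5) (nat_lit 428) (nat_lit 5) (nat_lit 268) (nat_lit 263) (nat_lit 189)))) (XT.nd (nat_lit 188) (nat_lit 0) (nat_lit 84) (XT.nd (nat_lit 94) (nat_lit 0) (nat_lit 0) (XT.lf (nat_lit 0) (nat_lit 1118362618) (nat_lit 1428) (nat_lit 3158639295)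 (nat_lit 1512) (nat_lit 3724130975) (nat_lit 394) (nat_lit 5) (nat_lit 411) (nat_lit 5) (nat_lit 412) (nat_lit 5) (nat_lit 269) (nat_lit 263) (nat_lit 188)) (XT.lf (nat_lit 84) (nat_lit 1034540837) (nat_lit 0) (nat_lit 1478854054) (nat_lit 1512) (nat_lit 5551085734) (nat_lit 395) (nat_lit 5) (nat_lit 394) (nat_lit 5) (nat_lit 412) (nat_lit 5) (nat_lit 270) (nat_lit 263) (nat_lit 187))) (XT.nd (nat_lit 94) (nat_lit 0) (nat_lit 0) (XT.lf (nat_lit 0) (nat_lit 3937119780) (nat_lit 1428) (nat_lit 2793683784) (nat_lit 1512) (nat_lit 1398462407) (nat_lit 395) (nat_lit 5) (nat_lit 412) (nat_lit 5) (nat_lit 413) (nat_lit 5) (nat_lit 271) (nat_lit 263) (nat_lit 186)) (XT.lf (nat_lit 84) (nat_lit 1525334806) (nat_lit 0) (nat_lit 3853888893) (nat_lit 1512) (nat_lit 2816537639) (nat_lit 396) (nat_lit 5) (nat_lit 395) (nat_lit 5) (nat_lit 413) (nat_lit 5) (nat_lit 272) (nat_lit 263) (nat_lit 185)))))) (XT.nd (nat_lit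 658) (nat_lit 4620) (nat_lit 0) (XT.nd (nat_lit 282) (nat_lit 0) (nat_lit 84) (XT.nd (nat_lit 94) (nat_lit 1428) (nat_lit 0) (XT.lf (nat_lit 84) (nat_lit 5959613587) (nat_lit 0) (nat_lit 880092420) (nat_lit 1512) (nat_lit 1424307250) (nat_lit 396) (nat_lit 5) (nat_lit 395) (nat_lit 5) (nat_lit 413) (nat_lit 5) (nat_lit 273) (nat_lit 263) (nat_lit 184)) (XT.nd (nat_lit 94) (nat_lit 1512) (nat_lit 0) (XT.lf (nat_lit 84) (nat_lit 2151448943) (nat_lit 0) (nat_lit 6178410917) (nat_lit 1512) (nat_lit 3960959) (nat_lit 397) (nat_lit 5) (nat_lit 396) (nat_lit 5) (nat_lit 414) (nat_lit 5) (nat_lit 274) (nat_lit 263) (nat_lit 183)) (XT.lf (nat_lit 0) (nat_lit 1417492222) (nat_lit 1512) (nat_lit 1704050316) (nat_lit 1596) (nat_lit 5283599132) (nat_lit 378) (nat_lit 5) (nat_lit 396) (nat_lit 5) (nat_lit 397) (nat_lit 5) (nat_lit 275) (nat_lit 263) (nat_lit 182)))) (XT.nd (nat_lit 188) (nat_lit 0) (nat_lit 0) (XT.nd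 (nat_lit 94) (nat_lit 0) (nat_lit 0) (XT.lf (nat_lit 0) (nat_lit 2858872575) (nat_lit 1512) (nat_lit 5585781025) (nat_lit 1596) (nat_lit 33625649) (nat_lit 379) (nat_lit 5) (nat_lit 397) (nat_lit 5) (nat_lit 398) (nat_lit 5) (nat_lit 276) (nat_lit 263) (nat_lit 181)) (XT.lf (nat_lit 0) (nat_lit 4335841187) (nat_lit 1512) (nat_lit 982237923) (nat_lit 1596) (nat_lit 3234861432) (nat_lit 379) (nat_lit 5) (nat_lit 397) (nat_lit 5) (nat_lit 398) (nat_lit 5) (nat_lit 277) (nat_lit 263) (nat_lit 180))) (XT.nd (nat_lit 94) (nat_lit 0) (nat_lit 84) (XT.lf (nat_lit 84) (nat_lit 3754851048) (nat_lit 0) (nat_lit 2086352282) (nat_lit 1596) (nat_lit 2788131247) (nat_lit 380) (nat_lit 5) (nat_lit 379) (nat_lit 5) (nat_lit 398) (nat_lit 5) (nat_lit 278) (nat_lit 263) (nat_lit 179)) (XT.lf (nat_lit 0) (nat_lit 7365381735) (nat_lit 1512) (nat_lit 127527312) (nat_lit 1596) (nat_lit 1214814872) (nat_lit 380) (nat_lit 5)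 (nat_lit 398) (nat_lit 5) (nat_lit 399) (nat_lit 5) (nat_lit 279) (nat_lit 263) (nat_lit 178))))) (XT.nd (nat_lit 376) (nat_lit 3192) (nat_lit 0) (XT.nd (nat_lit 188) (nat_lit 0) (nat_lit 84) (XT.nd (nat_lit 94) (nat_lit 0) (nat_lit 0) (XT.lf (nat_lit 0) (nat_lit 152885860) (nat_lit 1596) (nat_lit 4033254436) (nat_lit 1680) (nat_lit 4601245581) (nat_lit 361) (nat_lit 5) (nat_lit 380) (nat_lit 5) (nat_lit 381) (nat_lit 5) (nat_lit 280) (nat_lit 263) (nat_lit 177)) (XT.lf (nat_lit 84) (nat_lit 856697554) (nat_lit 0) (nat_lit 782250767) (nat_lit 1680) (nat_lit 7230127717) (nat_lit 362) (nat_lit 5) (nat_lit 361) (nat_lit 5) (nat_lit 381) (nat_lit 5) (nat_lit 281) (nat_lit 263) (nat_lit 176))) (XT.nd (nat_lit 94) (nat_lit 0) (nat_lit 0) (XT.lf (nat_lit 0) (nat_lit 3178091382) (nat_lit 1596) (nat_lit 3079565187) (nat_lit 1680) (nat_lit 2694458293) (nat_lit 362) (nat_lit 5) (nat_lit 381) (nat_lit 5) (nat_lit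 382) (nat_lit 5) (nat_lit 282) (nat_lit 263) (nat_lit 175)) (XT.lf (nat_lit 84) (nat_lit 1962126566) (nat_lit 0) (nat_lit 2780432441) (nat_lit 1680) (nat_lit 4294609340) (nat_lit 363) (nat_lit 5) (nat_lit 362) (nat_lit 5) (nat_lit 382) (nat_lit 5) (nat_lit 283) (nat_lit 263) (nat_lit 174)))) (XT.nd (nat_lit 188) (nat_lit 1764) (nat_lit 0) (XT.nd (nat_lit 94) (nat_lit 1596) (nat_lit 0) (XT.lf (nat_lit 0) (nat_lit 6342148348) (nat_lit 1596) (nat_lit 1991237529) (nat_lit 84) (nat_lit 790691656) (nat_lit 363) (nat_lit 5) (nat_lit 382) (nat_lit 5) (nat_lit 364) (nat_lit 5) (nat_lit 284) (nat_lit 263) (nat_lit 173)) (XT.lf (nat_lit 0) (nat_lit 3208165082) (nat_lit 1596) (nat_lit 4784736945) (nat_lit 1680) (nat_lit 1219645278) (nat_lit 344) (nat_lit 5) (nat_lit 363) (nat_lit 5) (nat_lit 364) (nat_lit 5) (nat_lit 285) (nat_lit 263) (nat_lit 172))) (XT.nd (nat_lit 94) (nat_lit 1680) (nat_lit 0) (XT.lf (nat_lit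 0) (nat_lit 359505623) (nat_lit 1680) (nat_lit 776182545) (nat_lit 84) (nat_lit 8167481772) (nat_lit 343) (nat_lit 5) (nat_lit 363) (nat_lit 5) (nat_lit 344) (nat_lit 5) (nat_lit 286) (nat_lit 263) (nat_lit 171)) (XT.lf (nat_lit 0) (nat_lit 1980729266) (nat_lit 1764) (nat_lit 4811769806) (nat_lit 84) (nat_lit 2602535603) (nat_lit 323) (nat_lit 5) (nat_lit 344) (nat_lit 5) (nat_lit 324) (nat_lit 5) (nat_lit 287) (nat_lit 263) (nat_lit 170))))))) (XT.nd (nat_lit 1410) (nat_lit 4536) (nat_lit 0) (XT.nd (nat_lit 658) (nat_lit 4368) (nat_lit 0) (XT.nd (nat_lit 282) (nat_lit 2100) (nat_lit 0) (XT.nd (nat_lit 94) (nat_lit 1848) (nat_lit 0) (XT.lf (nat_lit 0) (nat_lit 560784633) (nat_lit 1764) (nat_lit 3069003312) (nat_lit 1848) (nat_lit 5859304790) (nat_lit 302) (nat_lit 5) (nat_lit 323) (nat_lit 5) (nat_lit 324) (nat_lit 5) (nat_lit 288) (nat_lit 263) (nat_lit 169)) (XT.nd (nat_lit 94) (nat_lit 1848) (nat_lit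 0) (XT.lf (nat_lit 0) (nat_lit 5330723965) (nat_lit 1848) (nat_lit 3489365339) (nat_lit 84) (nat_lit 764787609) (nat_lit 302) (nat_lit 5) (nat_lit 324) (nat_lit 5) (nat_lit 303) (nat_lit 5) (nat_lit 289) (nat_lit 263) (nat_lit 168)) (XT.lf (nat_lit 0) (nat_lit 2054146850) (nat_lit 1848) (nat_lit 5027008235) (nat_lit 1932) (nat_lit 2601347621) (nat_lit 280) (nat_lit 5) (nat_lit 302) (nat_lit 5) (nat_lit 303) (nat_lit 5) (nat_lit 290) (nat_lit 263) (nat_lit 167)))) (XT.nd (nat_lit 188) (nat_lit 924) (nat_lit 0) (XT.nd (nat_lit 94) (nat_lit 1176) (nat_lit 0) (XT.lf (nat_lit 0) (nat_lit 7749560574) (nat_lit 1848) (nat_lit 1121786969) (nat_lit 1932) (nat_lit 910901182) (nat_lit 280) (nat_lit 5) (nat_lit 302) (nat_lit 5) (nat_lit 303) (nat_lit 5) (nat_lit 291) (nat_lit 263) (nat_lit 166)) (XT.lf (nat_lit 0) (nat_lit 827931095) (nat_lit 1176) (nat_lit 6193019693) (nat_lit 84) (nat_lit 2862605266) (nat_lit 266)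 (nat_lit 5) (nat_lit 280) (nat_lit 5) (nat_lit 267) (nat_lit 5) (nat_lit 292) (nat_lit 263) (nat_lit 165))) (XT.nd (nat_lit 94) (nat_lit 924) (nat_lit 0) (XT.lf (nat_lit 0) (nat_lit 2591108580) (nat_lit 1176) (nat_lit 454062605) (nat_lit 84) (nat_lit 6941786083) (nat_lit 266) (nat_lit 5) (nat_lit 280) (nat_lit 5) (nat_lit 267) (nat_lit 5) (nat_lit 293) (nat_lit 263) (nat_lit 164)) (XT.lf (nat_lit 0) (nat_lit 4416292224) (nat_lit 1008) (nat_lit 4631867203) (nat_lit 84) (nat_lit 1043963124) (nat_lit 255) (nat_lit 5) (nat_lit 267) (nat_lit 5) (nat_lit 256) (nat_lit 5) (nat_lit 294) (nat_lit 263) (nat_lit 163))))) (XT.nd (nat_lit 376) (nat_lit 2520) (nat_lit 0) (XT.nd (nat_lit 188) (nat_lit 924) (nat_lit 0) (XT.nd (nat_lit 94) (nat_lit 0) (nat_lit 0) (XT.lf (nat_lit 0) (nat_lit 1285975775) (nat_lit 924) (nat_lit 5007437100) (nat_lit 1008) (nat_lit 3905929370) (nat_lit 244) (nat_lit 5) (nat_lit 255) (nat_lit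 5) (nat_lit 256) (nat_lit 5) (nat_lit 295) (nat_lit 263) (nat_lit 162)) (XT.lf (nat_lit 0) (nat_lit 7381054766) (nat_lit 924) (nat_lit 842399443) (nat_lit 1008) (nat_lit 2085210835) (nat_lit 244) (nat_lit 5) (nat_lit 255) (nat_lit 5) (nat_lit 256) (nat_lit 5) (nat_lit 296) (nat_lit 263) (nat_lit 161))) (XT.nd (nat_lit 94) (nat_lit 84) (nat_lit 0) (XT.lf (nat_lit 0) (nat_lit 3189300801) (nat_lit 840) (nat_lit 7031595362) (nat_lit 924) (nat_lit 198948107) (nat_lit 234) (nat_lit 5) (nat_lit 244) (nat_lit 5) (nat_lit 245) (nat_lit 5) (nat_lit 297) (nat_lit 263) (nat_lit 160)) (XT.lf (nat_lit 0) (nat_lit 1709887816) (nat_lit 924) (nat_lit 1089397943) (nat_lit 84) (nat_lit 7733781290) (nat_lit 233) (nat_lit 5) (nat_lit 244) (nat_lit 5) (nat_lit 234) (nat_lit 5) (nat_lit 298) (nat_lit 263) (nat_lit 159)))) (XT.nd (nat_lit 188) (nat_lit 840) (nat_lit 0) (XT.nd (nat_lit 94) (nat_lit 840) (nat_lit 0) (XT.lf (nat_lit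 0) (nat_lit 3684792878) (nat_lit 924) (nat_lit 5420515050) (nat_lit 84) (nat_lit 1542846863) (nat_lit 223) (nat_lit 5) (nat_lit 234) (nat_lit 5) (nat_lit 224) (nat_lit 5) (nat_lit 299) (nat_lit 263) (nat_lit 158)) (XT.lf (nat_lit 0) (nat_lit 904788144) (nat_lit 840) (nat_lit 4812124429) (nat_lit 924) (nat_lit 5048559024) (nat_lit 213) (nat_lit 5) (nat_lit 223) (nat_lit 5) (nat_lit 224) (nat_lit 5) (nat_lit 300) (nat_lit 263) (nat_lit 157))) (XT.nd (nat_lit 94) (nat_lit 840) (nat_lit 0) (XT.lf (nat_lit 0) (nat_lit 7428232646) (nat_lit 840) (nat_lit 384680838) (nat_lit 924) (nat_lit 3072034047) (nat_lit 213) (nat_lit 5) (nat_lit 223) (nat_lit 5) (nat_lit 224) (nat_lit 5) (nat_lit 301) (nat_lit 263) (nat_lit 156)) (XT.lf (nat_lit 0) (nat_lit 3081086997) (nat_lit 840) (nat_lit 6904956343) (nat_lit 924) (nat_lit 1020326224) (nat_lit 203) (nat_lit 5) (nat_lit 213) (nat_lit 5) (nat_lit 214) (nat_lit 5) (nat_lit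 302) (nat_lit 263) (nat_lit 155)))))) (XT.nd (nat_lit 658) (nat_lit 1344) (nat_lit 0) (XT.nd (nat_lit 282) (nat_lit 1596) (nat_lit 0) (XT.nd (nat_lit 94) (nat_lit 1512) (nat_lit 0) (XT.lf (nat_lit 0) (nat_lit 1069248735) (nat_lit 924) (nat_lit 1348286588) (nat_lit 84) (nat_lit 8712577689) (nat_lit 202) (nat_lit 5) (nat_lit 213) (nat_lit 5) (nat_lit 203) (nat_lit 5) (nat_lit 303) (nat_lit 263) (nat_lit 154)) (XT.nd (nat_lit 94) (nat_lit 756) (nat_lit 0) (XT.lf (nat_lit 0) (nat_lit 3224323649) (nat_lit 840) (nat_lit 5849298960) (nat_lit 84) (nat_lit 2182032723) (nat_lit 193) (nat_lit 5) (nat_lit 203) (nat_lit 5) (nat_lit 194) (nat_lit 5) (nat_lit 304) (nat_lit 263) (nat_lit 153)) (XT.lf (nat_lit 0) (nat_lit 919708788) (nat_lit 756) (nat_lit 4521697501) (nat_lit 840) (nat_lit 5942232182) (nat_lit 184) (nat_lit 5) (nat_lit 193) (nat_lit 5) (nat_lit 194) (nat_lit 5) (nat_lit 305) (nat_lit 263) (nat_lit 152))))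 (XT.nd (nat_lit 188) (nat_lit 840) (nat_lit 0) (XT.nd (nat_lit 94) (nat_lit 756) (nat_lit 0) (XT.lf (nat_lit 0) (nat_lit 7732376664) (nat_lit 840) (nat_lit 3611848747) (nat_lit 84) (nat_lit 169659365) (nat_lit 184) (nat_lit 5) (nat_lit 194) (nat_lit 5) (nat_lit 185) (nat_lit 5) (nat_lit 306) (nat_lit 263) (nat_lit 151)) (XT.lf (nat_lit 0) (nat_lit 3385179851) (nat_lit 756) (nat_lit 6726679781) (nat_lit 840) (nat_lit 1534298421) (nat_lit 175) (nat_lit 5) (nat_lit 184) (nat_lit 5) (nat_lit 185) (nat_lit 5) (nat_lit 307) (nat_lit 263) (nat_lit 150))) (XT.nd (nat_lit 94) (nat_lit 756) (nat_lit 0) (XT.lf (nat_lit 0) (nat_lit 759440624) (nat_lit 840) (nat_lit 1218048530) (nat_lit 84) (nat_lit 9803555157) (nat_lit 174) (nat_lit 5) (nat_lit 184) (nat_lit 5) (nat_lit 175) (nat_lit 5) (nat_lit 308) (nat_lit 263) (nat_lit 149)) (XT.lf (nat_lit 0) (nat_lit 3126505156) (nat_lit 840) (nat_lit 5904691771) (nat_lit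 84) (nat_lit 2886455548) (nat_lit 165) (nat_lit 5) (nat_lit 175) (nat_lit 5) (nat_lit 166) (nat_lit 5) (nat_lit 309) (nat_lit 263) (nat_lit 148))))) (XT.nd (nat_lit 40984) (nat_lit 0) (nat_lit 20496) (XT.nd (nat_lit 188) (nat_lit 672) (nat_lit 0) (XT.nd (nat_lit 94) (nat_lit 0) (nat_lit 0) (XT.lf (nat_lit 0) (nat_lit 1347612167) (nat_lit 672) (nat_lit 4212918153) (nat_lit 756) (nat_lit 6496408224) (nat_lit 157) (nat_lit 5) (nat_lit 165) (nat_lit 5) (nat_lit 166) (nat_lit 5) (nat_lit 310) (nat_lit 263) (nat_lit 147)) (XT.lf (nat_lit 0) (nat_lit 8079144884) (nat_lit 756) (nat_lit 3377786477) (nat_lit 84) (nat_lit 741674648) (nat_lit 157) (nat_lit 5) (nat_lit 166) (nat_lit 5) (nat_lit 158) (nat_lit 5) (nat_lit 311) (nat_lit 263) (nat_lit 146))) (XT.nd (nat_lit 40702) (nat_lit 0) (nat_lit 21840) (XT.lf (nat_lit 0) (nat_lit 4122495518) (nat_lit 672) (nat_lit 6573137453) (nat_lit 756) (nat_lit 1646822976)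 (nat_lit 149) (nat_lit 5) (nat_lit 157) (nat_lit 5) (nat_lit 158) (nat_lit 5) (nat_lit 312) (nat_lit 263) (nat_lit 145)) (XT.lf (nat_lit 0) (nat_lit 1659275812) (nat_lit 1428) (nat_lit 1111176617) (nat_lit 1428) (nat_lit 1111176617) (nat_lit 409) (nat_lit 3) (nat_lit 426) (nat_lit 3) (nat_lit 426) (nat_lit 5) (nat_lit 264) (nat_lit 264) (nat_lit 192)))) (XT.nd (nat_lit 188) (nat_lit 1344) (nat_lit 0) (XT.nd (nat_lit 94) (nat_lit 0) (nat_lit 0) (XT.lf (nat_lit 84) (nat_lit 1683523915) (nat_lit 0) (nat_lit 3003403760) (nat_lit 1428) (nat_lit 3132425076) (nat_lit 410) (nat_lit 5) (nat_lit 409) (nat_lit 3) (nat_lit 426) (nat_lit 5) (nat_lit 265) (nat_lit 264) (nat_lit 191)) (XT.lf (nat_lit 84) (nat_lit 5688808955) (nat_lit 0) (nat_lit 374852727) (nat_lit 1428) (nat_lit 1813498226) (nat_lit 410) (nat_lit 5) (nat_lit 409) (nat_lit 3) (nat_lit 426) (nat_lit 5) (nat_lit 266) (nat_lit 264) (nat_lit 190))) (XT.nd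 (nat_lit 94) (nat_lit 1428) (nat_lit 0) (XT.lf (nat_lit 84) (nat_lit 1835707579) (nat_lit 0) (nat_lit 5627306687) (nat_lit 1428) (nat_lit 473393286) (nat_lit 411) (nat_lit 5) (nat_lit 410) (nat_lit 5) (nat_lit 427) (nat_lit 5) (nat_lit 267) (nat_lit 264) (nat_lit 189)) (XT.lf (nat_lit 0) (nat_lit 865476889) (nat_lit 1428) (nat_lit 2045484781) (nat_lit 1512) (nat_lit 5086248331) (nat_lit 393) (nat_lit 5) (nat_lit 410) (nat_lit 5) (nat_lit 411) (nat_lit 5) (nat_lit 268) (nat_lit 264) (nat_lit 188))))))))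
noncomputable def xc47 : XT := (XT.nd (nat_lit 2820) (nat_lit 6384) (nat_lit 0) (XT.nd (nat_lit 1410) (nat_lit 10752) (nat_lit 0) (XT.nd (nat_lit 658) (nat_lit 1344) (nat_lit 0) (XT.nd (nat_lit 282) (nat_lit 1344) (nat_lit 0) (XT.nd (nat_lit 94) (nat_lit 0) (nat_lit 84) (XT.lf (nat_lit 84) (nat_lit 2105640745) (nat_lit 0) (nat_lit 100165159) (nat_lit 1512) (nat_lit 5853930995) (nat_lit 394) (nat_lit 5) (nat_lit 393) (nat_lit 5) (nat_lit 411) (nat_lit 5) (nat_lit 269) (nat_lit 264) (nat_lit 187)) (XT.nd (nat_lit 94) (nat_lit 0) (nat_lit 0) (XT.lf (nat_lit 0) (nat_lit 3575304976) (nat_lit 1428) (nat_lit 1785453450) (nat_lit 1512) (nat_lit 2762887940) (nat_lit 394) (nat_lit 5) (nat_lit 411) (nat_lit 5) (nat_lit 412) (nat_lit 5) (nat_lit 270) (nat_lit 264) (nat_lit 186)) (XT.lf (nat_lit 84) (nat_lit 2489549946) (nat_lit 0) (nat_lit 2469320727) (nat_lit 1512) (nat_lit 3230444542) (nat_lit 395) (nat_lit 5)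 (nat_lit 394) (nat_lit 5) (nat_lit 412) (nat_lit 5) (nat_lit 271) (nat_lit 264) (nat_lit 185)))) (XT.nd (nat_lit 188) (nat_lit 1512) (nat_lit 0) (XT.nd (nat_lit 94) (nat_lit 0) (nat_lit 0) (XT.lf (nat_lit 0) (nat_lit 6355788783) (nat_lit 1428) (nat_lit 1395598086) (nat_lit 1512) (nat_lit 505417802) (nat_lit 395) (nat_lit 5) (nat_lit 412) (nat_lit 5) (nat_lit 413) (nat_lit 5) (nat_lit 272) (nat_lit 264) (nat_lit 184)) (XT.lf (nat_lit 84) (nat_lit 3007890284) (nat_lit 0) (nat_lit 4781849524) (nat_lit 1512) (nat_lit 535900470) (nat_lit 396) (nat_lit 5) (nat_lit 395) (nat_lit 5) (nat_lit 413) (nat_lit 5) (nat_lit 273) (nat_lit 264) (nat_lit 183))) (XT.nd (nat_lit 94) (nat_lit 0) (nat_lit 84) (XT.lf (nat_lit 0) (nat_lit 824482465) (nat_lit 1512) (nat_lit 893906622) (nat_lit 1596) (nat_lit 6677959090) (nat_lit 377) (nat_lit 5) (nat_lit 395) (nat_lit 5) (nat_lit 396) (nat_lit 5) (nat_lit 274) (nat_lit 264)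 (nat_lit 182)) (XT.lf (nat_lit 0) (nat_lit 2211237717) (nat_lit 1512) (nat_lit 4823603176) (nat_lit 1596) (nat_lit 1433589614) (nat_lit 378) (nat_lit 5) (nat_lit 396) (nat_lit 5) (nat_lit 397) (nat_lit 5) (nat_lit 275) (nat_lit 264) (nat_lit 181))))) (XT.nd (nat_lit 376) (nat_lit 1428) (nat_lit 0) (XT.nd (nat_lit 188) (nat_lit 0) (nat_lit 84) (XT.nd (nat_lit 94) (nat_lit 0) (nat_lit 0) (XT.lf (nat_lit 0) (nat_lit 3616218648) (nat_lit 1512) (nat_lit 278964036) (nat_lit 1596) (nat_lit 4647186188) (nat_lit 378) (nat_lit 5) (nat_lit 396) (nat_lit 5) (nat_lit 397) (nat_lit 5) (nat_lit 276) (nat_lit 264) (nat_lit 180)) (XT.lf (nat_lit 84) (nat_lit 4408391889) (nat_lit 0) (nat_lit 644352674) (nat_lit 1596) (nat_lit 3565175340) (nat_lit 379) (nat_lit 5) (nat_lit 378) (nat_lit 5) (nat_lit 397) (nat_lit 5) (nat_lit 277) (nat_lit 264) (nat_lit 179))) (XT.nd (nat_lit 94) (nat_lit 0) (nat_lit 0) (XT.lf (nat_lit 84)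 (nat_lit 474345066) (nat_lit 0) (nat_lit 6040876919) (nat_lit 1596) (nat_lit 2180035419) (nat_lit 380) (nat_lit 5) (nat_lit 379) (nat_lit 5) (nat_lit 398) (nat_lit 5) (nat_lit 278) (nat_lit 264) (nat_lit 178)) (XT.lf (nat_lit 84) (nat_lit 5298183908) (nat_lit 0) (nat_lit 2717756257) (nat_lit 1596) (nat_lit 758222705) (nat_lit 380) (nat_lit 5) (nat_lit 379) (nat_lit 5) (nat_lit 398) (nat_lit 5) (nat_lit 279) (nat_lit 264) (nat_lit 177)))) (XT.nd (nat_lit 188) (nat_lit 0) (nat_lit 0) (XT.nd (nat_lit 94) (nat_lit 0) (nat_lit 0) (XT.lf (nat_lit 0) (nat_lit 670339808) (nat_lit 1596) (nat_lit 7493202511) (nat_lit 1680) (nat_lit 691472522) (nat_lit 361) (nat_lit 5) (nat_lit 380) (nat_lit 5) (nat_lit 381) (nat_lit 5) (nat_lit 280) (nat_lit 264) (nat_lit 176)) (XT.lf (nat_lit 0) (nat_lit 2136095719) (nat_lit 1596) (nat_lit 2626320108) (nat_lit 1680) (nat_lit 4174735919) (nat_lit 361) (nat_lit 5) (nat_lit 380)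 (nat_lit 5) (nat_lit 381) (nat_lit 5) (nat_lit 281) (nat_lit 264) (nat_lit 175))) (XT.nd (nat_lit 94) (nat_lit 0) (nat_lit 84) (XT.lf (nat_lit 84) (nat_lit 2360401151) (nat_lit 0) (nat_lit 1262408383) (nat_lit 1680) (nat_lit 5398534481) (nat_lit 362) (nat_lit 5) (nat_lit 361) (nat_lit 5) (nat_lit 381) (nat_lit 5) (nat_lit 282) (nat_lit 264) (nat_lit 174)) (XT.lf (nat_lit 0) (nat_lit 5150657789) (nat_lit 1596) (nat_lit 1649267055) (nat_lit 1680) (nat_lit 2307278281) (nat_lit 362) (nat_lit 5) (nat_lit 381) (nat_lit 5) (nat_lit 382) (nat_lit 5) (nat_lit 283) (nat_lit 264) (nat_lit 173)))))) (XT.nd (nat_lit 658) (nat_lit 5796) (nat_lit 0) (XT.nd (nat_lit 282) (nat_lit 3444) (nat_lit 0) (XT.nd (nat_lit 94) (nat_lit 1596) (nat_lit 0) (XT.lf (nat_lit 84) (nat_lit 3492515022) (nat_lit 0) (nat_lit 3226665304) (nat_lit 1680) (nat_lit 2475615454) (nat_lit 363) (nat_lit 5) (nat_lit 362) (nat_lit 5) (nat_lit 382)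 (nat_lit 5) (nat_lit 284) (nat_lit 264) (nat_lit 172)) (XT.nd (nat_lit 94) (nat_lit 1680) (nat_lit 0) (XT.lf (nat_lit 0) (nat_lit 8310973188) (nat_lit 1596) (nat_lit 536850196) (nat_lit 84) (nat_lit 436739307) (nat_lit 363) (nat_lit 5) (nat_lit 382) (nat_lit 5) (nat_lit 364) (nat_lit 5) (nat_lit 285) (nat_lit 264) (nat_lit 171)) (XT.lf (nat_lit 0) (nat_lit 585097630) (nat_lit 1680) (nat_lit 4613729407) (nat_lit 84) (nat_lit 4176691965) (nat_lit 343) (nat_lit 5) (nat_lit 363) (nat_lit 5) (nat_lit 344) (nat_lit 5) (nat_lit 286) (nat_lit 264) (nat_lit 170)))) (XT.nd (nat_lit 188) (nat_lit 1764) (nat_lit 0) (XT.nd (nat_lit 94) (nat_lit 0) (nat_lit 0) (XT.lf (nat_lit 0) (nat_lit 698078051) (nat_lit 1680) (nat_lit 1448890349) (nat_lit 1764) (nat_lit 7321721099) (nat_lit 323) (nat_lit 5) (nat_lit 343) (nat_lit 5) (nat_lit 344) (nat_lit 5) (nat_lit 287) (nat_lit 264) (nat_lit 169)) (XT.lf (nat_lit 0) (nat_lit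 3769193271) (nat_lit 1764) (nat_lit 3406653556) (nat_lit 84) (nat_lit 2387491076) (nat_lit 323) (nat_lit 5) (nat_lit 344) (nat_lit 5) (nat_lit 324) (nat_lit 5) (nat_lit 288) (nat_lit 264) (nat_lit 168))) (XT.nd (nat_lit 94) (nat_lit 0) (nat_lit 0) (XT.lf (nat_lit 0) (nat_lit 2073176760) (nat_lit 1764) (nat_lit 3354478536) (nat_lit 1848) (nat_lit 4232401214) (nat_lit 302) (nat_lit 5) (nat_lit 323) (nat_lit 5) (nat_lit 324) (nat_lit 5) (nat_lit 289) (nat_lit 264) (nat_lit 167)) (XT.lf (nat_lit 0) (nat_lit 7127510124) (nat_lit 1848) (nat_lit 2059865535) (nat_lit 84) (nat_lit 571419322) (nat_lit 302) (nat_lit 5) (nat_lit 324) (nat_lit 5) (nat_lit 303) (nat_lit 5) (nat_lit 290) (nat_lit 264) (nat_lit 166))))) (XT.nd (nat_lit 376) (nat_lit 1848) (nat_lit 0) (XT.nd (nat_lit 188) (nat_lit 2016) (nat_lit 0) (XT.nd (nat_lit 94) (nat_lit 84) (nat_lit 0) (XT.lf (nat_lit 0) (nat_lit 3594717638) (nat_lit 1848) (nat_lit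 5296231191) (nat_lit 1932) (nat_lit 968180753) (nat_lit 280) (nat_lit 5) (nat_lit 302) (nat_lit 5) (nat_lit 303) (nat_lit 5) (nat_lit 291) (nat_lit 264) (nat_lit 165)) (XT.lf (nat_lit 0) (nat_lit 712652852) (nat_lit 1932) (nat_lit 583763603) (nat_lit 84) (nat_lit 8665323554) (nat_lit 279) (nat_lit 5) (nat_lit 302) (nat_lit 5) (nat_lit 280) (nat_lit 5) (nat_lit 292) (nat_lit 264) (nat_lit 164))) (XT.nd (nat_lit 94) (nat_lit 924) (nat_lit 0) (XT.lf (nat_lit 0) (nat_lit 2450833312) (nat_lit 1176) (nat_lit 4816756137) (nat_lit 84) (nat_lit 2798101707) (nat_lit 266) (nat_lit 5) (nat_lit 280) (nat_lit 5) (nat_lit 267) (nat_lit 5) (nat_lit 293) (nat_lit 264) (nat_lit 163)) (XT.lf (nat_lit 0) (nat_lit 1030745093) (nat_lit 924) (nat_lit 3194854669) (nat_lit 1008) (nat_lit 5946365856) (nat_lit 255) (nat_lit 5) (nat_lit 266) (nat_lit 5) (nat_lit 267) (nat_lit 5) (nat_lit 294) (nat_lit 264) (nat_lit 162)))) (XT.nd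 (nat_lit 188) (nat_lit 924) (nat_lit 0) (XT.nd (nat_lit 94) (nat_lit 924) (nat_lit 0) (XT.lf (nat_lit 0) (nat_lit 6059709018) (nat_lit 1008) (nat_lit 3229931028) (nat_lit 84) (nat_lit 990491517) (nat_lit 255) (nat_lit 5) (nat_lit 267) (nat_lit 5) (nat_lit 256) (nat_lit 5) (nat_lit 295) (nat_lit 264) (nat_lit 161)) (XT.lf (nat_lit 0) (nat_lit 2807235764) (nat_lit 924) (nat_lit 5148239922) (nat_lit 1008) (nat_lit 2434732719) (nat_lit 244) (nat_lit 5) (nat_lit 255) (nat_lit 5) (nat_lit 256) (nat_lit 5) (nat_lit 296) (nat_lit 264) (nat_lit 160))) (XT.nd (nat_lit 94) (nat_lit 924) (nat_lit 0) (XT.lf (nat_lit 0) (nat_lit 9004268227) (nat_lit 924) (nat_lit 890911883) (nat_lit 1008) (nat_lit 607477746) (nat_lit 244) (nat_lit 5) (nat_lit 255) (nat_lit 5) (nat_lit 256) (nat_lit 5) (nat_lit 297) (nat_lit 264) (nat_lit 159)) (XT.lf (nat_lit 0) (nat_lit 1279371572) (nat_lit 924) (nat_lit 5883497122) (nat_lit 84)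 (nat_lit 3453689118) (nat_lit 233) (nat_lit 5) (nat_lit 244) (nat_lit 5) (nat_lit 234) (nat_lit 5) (nat_lit 298) (nat_lit 264) (nat_lit 158))))))) (XT.nd (nat_lit 42112) (nat_lit 0) (nat_lit 17052) (XT.nd (nat_lit 658) (nat_lit 3024) (nat_lit 0) (XT.nd (nat_lit 282) (nat_lit 1680) (nat_lit 0) (XT.nd (nat_lit 94) (nat_lit 840) (nat_lit 0) (XT.lf (nat_lit 0) (nat_lit 364160184) (nat_lit 840) (nat_lit 2833853068) (nat_lit 924) (nat_lit 7534870098) (nat_lit 223) (nat_lit 5) (nat_lit 233) (nat_lit 5) (nat_lit 234) (nat_lit 5) (nat_lit 299) (nat_lit 264) (nat_lit 157)) (XT.nd (nat_lit 94) (nat_lit 840) (nat_lit 0) (XT.lf (nat_lit 0) (nat_lit 5193261050) (nat_lit 924) (nat_lit 4046975388) (nat_lit 84) (nat_lit 1610774898) (nat_lit 223) (nat_lit 5) (nat_lit 234) (nat_lit 5) (nat_lit 224) (nat_lit 5) (nat_lit 300) (nat_lit 264) (nat_lit 156)) (XT.lf (nat_lit 0) (nat_lit 2406695579) (nat_lit 840) (nat_lit 4843221580)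 (nat_lit 924) (nat_lit 3721435697) (nat_lit 213) (nat_lit 5) (nat_lit 223) (nat_lit 5) (nat_lit 224) (nat_lit 5) (nat_lit 301) (nat_lit 264) (nat_lit 155)))) (XT.nd (nat_lit 188) (nat_lit 756) (nat_lit 0) (XT.nd (nat_lit 94) (nat_lit 924) (nat_lit 0) (XT.lf (nat_lit 0) (nat_lit 9041753663) (nat_lit 840) (nat_lit 319983751) (nat_lit 924) (nat_lit 1732386286) (nat_lit 213) (nat_lit 5) (nat_lit 223) (nat_lit 5) (nat_lit 224) (nat_lit 5) (nat_lit 302) (nat_lit 264) (nat_lit 154)) (XT.lf (nat_lit 0) (nat_lit 340408475) (nat_lit 924) (nat_lit 6603041075) (nat_lit 84) (nat_lit 4275123980) (nat_lit 202) (nat_lit 5) (nat_lit 213) (nat_lit 5) (nat_lit 203) (nat_lit 5) (nat_lit 303) (nat_lit 264) (nat_lit 153))) (XT.nd (nat_lit 94) (nat_lit 0) (nat_lit 0) (XT.lf (nat_lit 0) (nat_lit 80321284) (nat_lit 756) (nat_lit 2351734050) (nat_lit 840) (nat_lit 8913455935) (nat_lit 193) (nat_lit 5) (nat_lit 202) (nat_lit 5)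 (nat_lit 203) (nat_lit 5) (nat_lit 304) (nat_lit 264) (nat_lit 152)) (XT.lf (nat_lit 0) (nat_lit 4616356710) (nat_lit 840) (nat_lit 4503257203) (nat_lit 84) (nat_lit 2354601683) (nat_lit 193) (nat_lit 5) (nat_lit 203) (nat_lit 5) (nat_lit 194) (nat_lit 5) (nat_lit 305) (nat_lit 264) (nat_lit 151))))) (XT.nd (nat_lit 376) (nat_lit 672) (nat_lit 0) (XT.nd (nat_lit 188) (nat_lit 1596) (nat_lit 0) (XT.nd (nat_lit 94) (nat_lit 0) (nat_lit 0) (XT.lf (nat_lit 0) (nat_lit 2404010378) (nat_lit 756) (nat_lit 4460195184) (nat_lit 840) (nat_lit 4741205012) (nat_lit 184) (nat_lit 5) (nat_lit 193) (nat_lit 5) (nat_lit 194) (nat_lit 5) (nat_lit 306) (nat_lit 264) (nat_lit 150)) (XT.lf (nat_lit 0) (nat_lit 9178648471) (nat_lit 840) (nat_lit 2231828750) (nat_lit 84) (nat_lit 328637510) (nat_lit 184) (nat_lit 5) (nat_lit 194) (nat_lit 5) (nat_lit 185) (nat_lit 5) (nat_lit 307) (nat_lit 264) (nat_lit 149))) (XT.nd (nat_lit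 94) (nat_lit 840) (nat_lit 0) (XT.lf (nat_lit 0) (nat_lit 4908586325) (nat_lit 756) (nat_lit 6684743683) (nat_lit 840) (nat_lit 281345314) (nat_lit 175) (nat_lit 5) (nat_lit 184) (nat_lit 5) (nat_lit 185) (nat_lit 5) (nat_lit 308) (nat_lit 264) (nat_lit 148)) (XT.lf (nat_lit 0) (nat_lit 193821988) (nat_lit 756) (nat_lit 1824582691) (nat_lit 840) (nat_lit 9994492967) (nat_lit 165) (nat_lit 5) (nat_lit 174) (nat_lit 5) (nat_lit 175) (nat_lit 5) (nat_lit 309) (nat_lit 264) (nat_lit 147)))) (XT.nd (nat_lit 188) (nat_lit 0) (nat_lit 0) (XT.nd (nat_lit 94) (nat_lit 672) (nat_lit 0) (XT.lf (nat_lit 0) (nat_lit 4421039595) (nat_lit 840) (nat_lit 4583594661) (nat_lit 84) (nat_lit 3148240045) (nat_lit 165) (nat_lit 5) (nat_lit 175) (nat_lit 5) (nat_lit 166) (nat_lit 5) (nat_lit 310) (nat_lit 264) (nat_lit 146)) (XT.lf (nat_lit 0) (nat_lit 2817773102) (nat_lit 672) (nat_lit 4074715291) (nat_lit 756) (nat_lit 5403091017)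 (nat_lit 157) (nat_lit 5) (nat_lit 165) (nat_lit 5) (nat_lit 166) (nat_lit 5) (nat_lit 311) (nat_lit 264) (nat_lit 145))) (XT.nd (nat_lit 40796) (nat_lit 0) (nat_lit 21168) (XT.lf (nat_lit 0) (nat_lit 9442082812) (nat_lit 756) (nat_lit 2018163743) (nat_lit 84) (nat_lit 980654457) (nat_lit 157) (nat_lit 5) (nat_lit 166) (nat_lit 5) (nat_lit 158) (nat_lit 5) (nat_lit 312) (nat_lit 264) (nat_lit 144)) (XT.lf (nat_lit 0) (nat_lit 3006257909) (nat_lit 1428) (nat_lit 465968230) (nat_lit 1428) (nat_lit 465968230) (nat_lit 409) (nat_lit 3) (nat_lit 426) (nat_lit 3) (nat_lit 426) (nat_lit 5) (nat_lit 265) (nat_lit 265) (nat_lit 190)))))) (XT.nd (nat_lit 752) (nat_lit 1344) (nat_lit 0) (XT.nd (nat_lit 376) (nat_lit 1344) (nat_lit 0) (XT.nd (nat_lit 188) (nat_lit 0) (nat_lit 84) (XT.nd (nat_lit 94) (nat_lit 1428) (nat_lit 0) (XT.lf (nat_lit 84) (nat_lit 3050190359) (nat_lit 0) (nat_lit 4313857245) (nat_lit 1428)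 (nat_lit 570702742) (nat_lit 410) (nat_lit 5) (nat_lit 409) (nat_lit 3) (nat_lit 426) (nat_lit 5) (nat_lit 266) (nat_lit 265) (nat_lit 189)) (XT.lf (nat_lit 0) (nat_lit 710233221) (nat_lit 1428) (nat_lit 885211834) (nat_lit 1512) (nat_lit 6399490279) (nat_lit 392) (nat_lit 5) (nat_lit 409) (nat_lit 3) (nat_lit 410) (nat_lit 5) (nat_lit 267) (nat_lit 265) (nat_lit 188))) (XT.nd (nat_lit 94) (nat_lit 0) (nat_lit 0) (XT.lf (nat_lit 0) (nat_lit 2006658540) (nat_lit 1428) (nat_lit 4839952912) (nat_lit 1512) (nat_lit 1209835927) (nat_lit 393) (nat_lit 5) (nat_lit 410) (nat_lit 5) (nat_lit 411) (nat_lit 5) (nat_lit 268) (nat_lit 265) (nat_lit 187)) (XT.lf (nat_lit 0) (nat_lit 3314554665) (nat_lit 1428) (nat_lit 728923622) (nat_lit 1512) (nat_lit 4076209513) (nat_lit 393) (nat_lit 5) (nat_lit 410) (nat_lit 5) (nat_lit 411) (nat_lit 5) (nat_lit 269) (nat_lit 265) (nat_lit 186)))) (XT.nd (nat_lit 188) (nat_lit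 1428) (nat_lit 0) (XT.nd (nat_lit 94) (nat_lit 0) (nat_lit 84) (XT.lf (nat_lit 84) (nat_lit 3503686206) (nat_lit 0) (nat_lit 1138003343) (nat_lit 1512) (nat_lit 3542839732) (nat_lit 394) (nat_lit 5) (nat_lit 393) (nat_lit 5) (nat_lit 411) (nat_lit 5) (nat_lit 270) (nat_lit 265) (nat_lit 185)) (XT.lf (nat_lit 0) (nat_lit 5982708110) (nat_lit 1428) (nat_lit 443500292) (nat_lit 1512) (nat_lit 1824925764) (nat_lit 394) (nat_lit 5) (nat_lit 411) (nat_lit 5) (nat_lit 412) (nat_lit 5) (nat_lit 271) (nat_lit 265) (nat_lit 184))) (XT.nd (nat_lit 94) (nat_lit 1512) (nat_lit 0) (XT.lf (nat_lit 84) (nat_lit 3915570548) (nat_lit 0) (nat_lit 3440779874) (nat_lit 1512) (nat_lit 962785267) (nat_lit 395) (nat_lit 5) (nat_lit 394) (nat_lit 5) (nat_lit 412) (nat_lit 5) (nat_lit 272) (nat_lit 265) (nat_lit 183)) (XT.lf (nat_lit 0) (nat_lit 336809026) (nat_lit 1512) (nat_lit 34009174) (nat_lit 1596) (nat_lit 8018404024)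 (nat_lit 376) (nat_lit 5) (nat_lit 394) (nat_lit 5) (nat_lit 395) (nat_lit 5) (nat_lit 273) (nat_lit 265) (nat_lit 182))))) (XT.nd (nat_lit 376) (nat_lit 1428) (nat_lit 0) (XT.nd (nat_lit 188) (nat_lit 0) (nat_lit 84) (XT.nd (nat_lit 94) (nat_lit 0) (nat_lit 0) (XT.lf (nat_lit 0) (nat_lit 1670725205) (nat_lit 1512) (nat_lit 4011249186) (nat_lit 1596) (nat_lit 2778284208) (nat_lit 377) (nat_lit 5) (nat_lit 395) (nat_lit 5) (nat_lit 396) (nat_lit 5) (nat_lit 274) (nat_lit 265) (nat_lit 181)) (XT.lf (nat_lit 84) (nat_lit 482406920) (nat_lit 0) (nat_lit 2526592730) (nat_lit 1596) (nat_lit 5524407857) (nat_lit 378) (nat_lit 5) (nat_lit 377) (nat_lit 5) (nat_lit 396) (nat_lit 5) (nat_lit 275) (nat_lit 265) (nat_lit 180))) (XT.nd (nat_lit 94) (nat_lit 0) (nat_lit 0) (XT.lf (nat_lit 0) (nat_lit 4380767136) (nat_lit 1512) (nat_lit 3498631068) (nat_lit 1596) (nat_lit 728678365) (nat_lit 378) (nat_lit 5) (nat_lit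 396) (nat_lit 5) (nat_lit 397) (nat_lit 5) (nat_lit 276) (nat_lit 265) (nat_lit 179)) (XT.lf (nat_lit 84) (nat_lit 1131480784) (nat_lit 0) (nat_lit 4647581669) (nat_lit 1596) (nat_lit 2905406220) (nat_lit 379) (nat_lit 5) (nat_lit 378) (nat_lit 5) (nat_lit 397) (nat_lit 5) (nat_lit 277) (nat_lit 265) (nat_lit 178)))) (XT.nd (nat_lit 188) (nat_lit 1512) (nat_lit 0) (XT.nd (nat_lit 94) (nat_lit 0) (nat_lit 84) (XT.lf (nat_lit 84) (nat_lit 5895541290) (nat_lit 0) (nat_lit 1308821107) (nat_lit 1596) (nat_lit 1558261681) (nat_lit 379) (nat_lit 5) (nat_lit 378) (nat_lit 5) (nat_lit 397) (nat_lit 5) (nat_lit 278) (nat_lit 265) (nat_lit 177)) (XT.lf (nat_lit 84) (nat_lit 1914062592) (nat_lit 0) (nat_lit 6746676627) (nat_lit 1596) (nat_lit 181765836) (nat_lit 380) (nat_lit 5) (nat_lit 379) (nat_lit 5) (nat_lit 398) (nat_lit 5) (nat_lit 279) (nat_lit 265) (nat_lit 176))) (XT.nd (nat_lit 94) (nat_lit 0) (nat_lit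 84) (XT.lf (nat_lit 0) (nat_lit 1209602024) (nat_lit 1596) (nat_lit 2119578267) (nat_lit 1680) (nat_lit 5594722018) (nat_lit 360) (nat_lit 5) (nat_lit 379) (nat_lit 5) (nat_lit 380) (nat_lit 5) (nat_lit 280) (nat_lit 265) (nat_lit 175)) (XT.lf (nat_lit 0) (nat_lit 2622314652) (nat_lit 1596) (nat_lit 6194583372) (nat_lit 1680) (nat_lit 190308142) (nat_lit 361) (nat_lit 5) (nat_lit 380) (nat_lit 5) (nat_lit 381) (nat_lit 5) (nat_lit 281) (nat_lit 265) (nat_lit 174))))))))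
noncomputable def xc48 : XT := (XT.nd (nat_lit 2820) (nat_lit 672) (nat_lit 0) (XT.nd (nat_lit 1410) (nat_lit 7560) (nat_lit 0) (XT.nd (nat_lit 658) (nat_lit 5712) (nat_lit 0) (XT.nd (nat_lit 282) (nat_lit 3192) (nat_lit 0) (XT.nd (nat_lit 94) (nat_lit 0) (nat_lit 0) (XT.lf (nat_lit 0) (nat_lit 4078615626) (nat_lit 1596) (nat_lit 1252132815) (nat_lit 1680) (nat_lit 3761319076) (nat_lit 361) (nat_lit 5) (nat_lit 380) (nat_lit 5) (nat_lit 381) (nat_lit 5) (nat_lit 282) (nat_lit 265) (nat_lit 173)) (XT.nd (nat_lit 94) (nat_lit 0) (nat_lit 84) (XT.lf (nat_lit 84) (nat_lit 3833947015) (nat_lit 0) (nat_lit 1733412761) (nat_lit 1680) (nat_lit 3611427142) (nat_lit 362) (nat_lit 5) (nat_lit 361) (nat_lit 5) (nat_lit 381) (nat_lit 5) (nat_lit 283) (nat_lit 265) (nat_lit 172)) (XT.lf (nat_lit 0) (nat_lit 7085587906) (nat_lit 1596) (nat_lit 251303430) (nat_lit 1680) (nat_lit 1930594713) (nat_lit 362) (nat_lit 5)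 (nat_lit 381) (nat_lit 5) (nat_lit 382) (nat_lit 5) (nat_lit 284) (nat_lit 265) (nat_lit 171)))) (XT.nd (nat_lit 188) (nat_lit 1680) (nat_lit 0) (XT.nd (nat_lit 94) (nat_lit 1596) (nat_lit 0) (XT.lf (nat_lit 84) (nat_lit 4993232069) (nat_lit 0) (nat_lit 3666315654) (nat_lit 1680) (nat_lit 698097565) (nat_lit 363) (nat_lit 5) (nat_lit 362) (nat_lit 5) (nat_lit 382) (nat_lit 5) (nat_lit 285) (nat_lit 265) (nat_lit 170)) (XT.lf (nat_lit 0) (nat_lit 789909672) (nat_lit 1680) (nat_lit 8557190542) (nat_lit 84) (nat_lit 102925874) (nat_lit 343) (nat_lit 5) (nat_lit 363) (nat_lit 5) (nat_lit 344) (nat_lit 5) (nat_lit 286) (nat_lit 265) (nat_lit 169))) (XT.nd (nat_lit 94) (nat_lit 1680) (nat_lit 0) (XT.lf (nat_lit 0) (nat_lit 2334350482) (nat_lit 1680) (nat_lit 3265836085) (nat_lit 84) (nat_lit 3943393478) (nat_lit 343) (nat_lit 5) (nat_lit 363) (nat_lit 5) (nat_lit 344) (nat_lit 5) (nat_lit 287) (nat_lit 265)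 (nat_lit 168)) (XT.lf (nat_lit 0) (nat_lit 2152355875) (nat_lit 1680) (nat_lit 1751098242) (nat_lit 1764) (nat_lit 5735942998) (nat_lit 323) (nat_lit 5) (nat_lit 343) (nat_lit 5) (nat_lit 344) (nat_lit 5) (nat_lit 288) (nat_lit 265) (nat_lit 167))))) (XT.nd (nat_lit 376) (nat_lit 2016) (nat_lit 0) (XT.nd (nat_lit 188) (nat_lit 1932) (nat_lit 0) (XT.nd (nat_lit 94) (nat_lit 1764) (nat_lit 0) (XT.lf (nat_lit 0) (nat_lit 5522689663) (nat_lit 1764) (nat_lit 2034976352) (nat_lit 84) (nat_lit 2179312690) (nat_lit 323) (nat_lit 5) (nat_lit 344) (nat_lit 5) (nat_lit 324) (nat_lit 5) (nat_lit 289) (nat_lit 265) (nat_lit 166)) (XT.lf (nat_lit 0) (nat_lit 3554955001) (nat_lit 1764) (nat_lit 3636951539) (nat_lit 1848) (nat_lit 2644484671) (nat_lit 302) (nat_lit 5) (nat_lit 323) (nat_lit 5) (nat_lit 324) (nat_lit 5) (nat_lit 290) (nat_lit 265) (nat_lit 165))) (XT.nd (nat_lit 94) (nat_lit 1932) (nat_lit 0) (XT.lf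 (nat_lit 0) (nat_lit 8892296159) (nat_lit 1848) (nat_lit 663067770) (nat_lit 84) (nat_lit 382748963) (nat_lit 302) (nat_lit 5) (nat_lit 324) (nat_lit 5) (nat_lit 303) (nat_lit 5) (nat_lit 291) (nat_lit 265) (nat_lit 164)) (XT.lf (nat_lit 0) (nat_lit 619864236) (nat_lit 1932) (nat_lit 4940178378) (nat_lit 84) (nat_lit 4481050829) (nat_lit 279) (nat_lit 5) (nat_lit 302) (nat_lit 5) (nat_lit 280) (nat_lit 5) (nat_lit 292) (nat_lit 265) (nat_lit 163)))) (XT.nd (nat_lit 188) (nat_lit 924) (nat_lit 0) (XT.nd (nat_lit 94) (nat_lit 0) (nat_lit 0) (XT.lf (nat_lit 0) (nat_lit 839161529) (nat_lit 1092) (nat_lit 1455903879) (nat_lit 1176) (nat_lit 7851364728) (nat_lit 266) (nat_lit 5) (nat_lit 279) (nat_lit 5) (nat_lit 280) (nat_lit 5) (nat_lit 293) (nat_lit 265) (nat_lit 162)) (XT.lf (nat_lit 0) (nat_lit 4041096610) (nat_lit 1176) (nat_lit 3474631753) (nat_lit 84) (nat_lit 2737608411) (nat_lit 266) (nat_lit 5)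 (nat_lit 280) (nat_lit 5) (nat_lit 267) (nat_lit 5) (nat_lit 294) (nat_lit 265) (nat_lit 161))) (XT.nd (nat_lit 94) (nat_lit 0) (nat_lit 0) (XT.lf (nat_lit 0) (nat_lit 2491048654) (nat_lit 924) (nat_lit 3341027819) (nat_lit 1008) (nat_lit 4530375091) (nat_lit 255) (nat_lit 5) (nat_lit 266) (nat_lit 5) (nat_lit 267) (nat_lit 5) (nat_lit 295) (nat_lit 265) (nat_lit 160)) (XT.lf (nat_lit 0) (nat_lit 7673426688) (nat_lit 1008) (nat_lit 1861199860) (nat_lit 84) (nat_lit 939099021) (nat_lit 255) (nat_lit 5) (nat_lit 267) (nat_lit 5) (nat_lit 256) (nat_lit 5) (nat_lit 296) (nat_lit 265) (nat_lit 159)))))) (XT.nd (nat_lit 658) (nat_lit 4032) (nat_lit 0) (XT.nd (nat_lit 282) (nat_lit 1680) (nat_lit 0) (XT.nd (nat_lit 94) (nat_lit 924) (nat_lit 0) (XT.lf (nat_lit 0) (nat_lit 4298378763) (nat_lit 924) (nat_lit 5290835498) (nat_lit 1008) (nat_lit 997486929) (nat_lit 244) (nat_lit 5) (nat_lit 255) (nat_lit 5) (nat_lit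 256) (nat_lit 5) (nat_lit 297) (nat_lit 265) (nat_lit 158)) (XT.nd (nat_lit 94) (nat_lit 840) (nat_lit 0) (XT.lf (nat_lit 0) (nat_lit 825807774) (nat_lit 1008) (nat_lit 107307314) (nat_lit 84) (nat_lit 9769068960) (nat_lit 243) (nat_lit 5) (nat_lit 255) (nat_lit 5) (nat_lit 244) (nat_lit 5) (nat_lit 298) (nat_lit 265) (nat_lit 157)) (XT.lf (nat_lit 0) (nat_lit 2724263251) (nat_lit 924) (nat_lit 4572347154) (nat_lit 84) (nat_lit 3522343277) (nat_lit 233) (nat_lit 5) (nat_lit 244) (nat_lit 5) (nat_lit 234) (nat_lit 5) (nat_lit 299) (nat_lit 265) (nat_lit 156)))) (XT.nd (nat_lit 188) (nat_lit 840) (nat_lit 0) (XT.nd (nat_lit 94) (nat_lit 0) (nat_lit 0) (XT.lf (nat_lit 0) (nat_lit 1802347012) (nat_lit 840) (nat_lit 2862458054) (nat_lit 924) (nat_lit 6273480135) (nat_lit 223) (nat_lit 5) (nat_lit 233) (nat_lit 5) (nat_lit 234) (nat_lit 5) (nat_lit 300) (nat_lit 265) (nat_lit 155)) (XT.lf (nat_lit 0) (nat_lit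 6674123224) (nat_lit 924) (nat_lit 2706795002) (nat_lit 84) (nat_lit 1678749931) (nat_lit 223) (nat_lit 5) (nat_lit 234) (nat_lit 5) (nat_lit 224) (nat_lit 5) (nat_lit 301) (nat_lit 265) (nat_lit 154))) (XT.nd (nat_lit 94) (nat_lit 0) (nat_lit 0) (XT.lf (nat_lit 0) (nat_lit 3878527323) (nat_lit 840) (nat_lit 4878187265) (nat_lit 924) (nat_lit 2426367449) (nat_lit 213) (nat_lit 5) (nat_lit 223) (nat_lit 5) (nat_lit 224) (nat_lit 5) (nat_lit 302) (nat_lit 265) (nat_lit 153)) (XT.lf (nat_lit 0) (nat_lit 10629013184) (nat_lit 840) (nat_lit 256979176) (nat_lit 924) (nat_lit 423199534) (nat_lit 213) (nat_lit 5) (nat_lit 223) (nat_lit 5) (nat_lit 224) (nat_lit 5) (nat_lit 303) (nat_lit 265) (nat_lit 152))))) (XT.nd (nat_lit 376) (nat_lit 1596) (nat_lit 0) (XT.nd (nat_lit 188) (nat_lit 756) (nat_lit 0) (XT.nd (nat_lit 94) (nat_lit 756) (nat_lit 0) (XT.lf (nat_lit 0) (nat_lit 1657790788) (nat_lit 924) (nat_lit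 5322561115) (nat_lit 84) (nat_lit 4456212592) (nat_lit 202) (nat_lit 5) (nat_lit 213) (nat_lit 5) (nat_lit 203) (nat_lit 5) (nat_lit 304) (nat_lit 265) (nat_lit 151)) (XT.lf (nat_lit 0) (nat_lit 1497530869) (nat_lit 756) (nat_lit 2279808227) (nat_lit 840) (nat_lit 7789354293) (nat_lit 193) (nat_lit 5) (nat_lit 202) (nat_lit 5) (nat_lit 203) (nat_lit 5) (nat_lit 305) (nat_lit 265) (nat_lit 150))) (XT.nd (nat_lit 94) (nat_lit 756) (nat_lit 0) (XT.lf (nat_lit 0) (nat_lit 5982749662) (nat_lit 840) (nat_lit 3190410312) (nat_lit 84) (nat_lit 2525662037) (nat_lit 193) (nat_lit 5) (nat_lit 203) (nat_lit 5) (nat_lit 194) (nat_lit 5) (nat_lit 306) (nat_lit 265) (nat_lit 149)) (XT.lf (nat_lit 0) (nat_lit 3858612752) (nat_lit 756) (nat_lit 4404195851) (nat_lit 840) (nat_lit 3570474013) (nat_lit 184) (nat_lit 5) (nat_lit 193) (nat_lit 5) (nat_lit 194) (nat_lit 5) (nat_lit 307) (nat_lit 265) (nat_lit 148)))) (XT.nd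 (nat_lit 188) (nat_lit 756) (nat_lit 0) (XT.nd (nat_lit 94) (nat_lit 840) (nat_lit 0) (XT.lf (nat_lit 0) (nat_lit 10602387326) (nat_lit 840) (nat_lit 883606794) (nat_lit 84) (nat_lit 484501348) (nat_lit 184) (nat_lit 5) (nat_lit 194) (nat_lit 5) (nat_lit 185) (nat_lit 5) (nat_lit 308) (nat_lit 265) (nat_lit 147)) (XT.lf (nat_lit 0) (nat_lit 930770617) (nat_lit 840) (nat_lit 5712328110) (nat_lit 84) (nat_lit 5466152902) (nat_lit 174) (nat_lit 5) (nat_lit 184) (nat_lit 5) (nat_lit 175) (nat_lit 5) (nat_lit 309) (nat_lit 265) (nat_lit 146))) (XT.nd (nat_lit 94) (nat_lit 0) (nat_lit 0) (XT.lf (nat_lit 0) (nat_lit 1592898577) (nat_lit 756) (nat_lit 1667874089) (nat_lit 840) (nat_lit 8990053541) (nat_lit 165) (nat_lit 5) (nat_lit 174) (nat_lit 5) (nat_lit 175) (nat_lit 5) (nat_lit 310) (nat_lit 265) (nat_lit 145)) (XT.lf (nat_lit 0) (nat_lit 5691849715) (nat_lit 840) (nat_lit 3295230722) (nat_lit 84) (nat_lit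 3407339058) (nat_lit 165) (nat_lit 5) (nat_lit 175) (nat_lit 5) (nat_lit 166) (nat_lit 5) (nat_lit 311) (nat_lit 265) (nat_lit 144))))))) (XT.nd (nat_lit 42206) (nat_lit 0) (nat_lit 9156) (XT.nd (nat_lit 41454) (nat_lit 0) (nat_lit 16968) (XT.nd (nat_lit 41078) (nat_lit 0) (nat_lit 19740) (XT.nd (nat_lit 40890) (nat_lit 0) (nat_lit 19740) (XT.lf (nat_lit 0) (nat_lit 4258926900) (nat_lit 672) (nat_lit 3943305320) (nat_lit 756) (nat_lit 4338371538) (nat_lit 157) (nat_lit 5) (nat_lit 165) (nat_lit 5) (nat_lit 166) (nat_lit 5) (nat_lit 312) (nat_lit 265) (nat_lit 143)) (XT.nd (nat_lit 94) (nat_lit 0) (nat_lit 0) (XT.lf (nat_lit 0) (nat_lit 163722641) (nat_lit 0) (nat_lit 163722641) (nat_lit 1428) (nat_lit 3669682966) (nat_lit 392) (nat_lit 5) (nat_lit 392) (nat_lit 3) (nat_lit 409) (nat_lit 3) (nat_lit 266) (nat_lit 266) (nat_lit 188)) (XT.lf (nat_lit 0) (nat_lit 1907465095) (nat_lit 1428) (nat_lit 3678589037)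 (nat_lit 1512) (nat_lit 2468741029) (nat_lit 392) (nat_lit 5) (nat_lit 409) (nat_lit 3) (nat_lit 410) (nat_lit 5) (nat_lit 267) (nat_lit 266) (nat_lit 187)))) (XT.nd (nat_lit 188) (nat_lit 0) (nat_lit 84) (XT.nd (nat_lit 94) (nat_lit 0) (nat_lit 84) (XT.lf (nat_lit 84) (nat_lit 381906726) (nat_lit 0) (nat_lit 2775559047) (nat_lit 1512) (nat_lit 4959862775) (nat_lit 393) (nat_lit 5) (nat_lit 392) (nat_lit 5) (nat_lit 410) (nat_lit 5) (nat_lit 268) (nat_lit 266) (nat_lit 186)) (XT.lf (nat_lit 0) (nat_lit 4428532312) (nat_lit 1428) (nat_lit 3614179602) (nat_lit 1512) (nat_lit 138667306) (nat_lit 393) (nat_lit 5) (nat_lit 410) (nat_lit 5) (nat_lit 411) (nat_lit 5) (nat_lit 269) (nat_lit 266) (nat_lit 185))) (XT.nd (nat_lit 94) (nat_lit 0) (nat_lit 0) (XT.lf (nat_lit 84) (nat_lit 566777105) (nat_lit 0) (nat_lit 5151278381) (nat_lit 1512) (nat_lit 2528992673) (nat_lit 394) (nat_lit 5) (nat_lit 393) (nat_lit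 5) (nat_lit 411) (nat_lit 5) (nat_lit 270) (nat_lit 266) (nat_lit 184)) (XT.lf (nat_lit 84) (nat_lit 4874919595) (nat_lit 0) (nat_lit 2154566861) (nat_lit 1512) (nat_lit 1284817514) (nat_lit 394) (nat_lit 5) (nat_lit 393) (nat_lit 5) (nat_lit 411) (nat_lit 5) (nat_lit 271) (nat_lit 266) (nat_lit 183))))) (XT.nd (nat_lit 376) (nat_lit 1428) (nat_lit 0) (XT.nd (nat_lit 188) (nat_lit 0) (nat_lit 0) (XT.nd (nat_lit 94) (nat_lit 1512) (nat_lit 0) (XT.lf (nat_lit 84) (nat_lit 881851340) (nat_lit 0) (nat_lit 7468324375) (nat_lit 1512) (nat_lit 33294745) (nat_lit 395) (nat_lit 5) (nat_lit 394) (nat_lit 5) (nat_lit 412) (nat_lit 5) (nat_lit 272) (nat_lit 266) (nat_lit 182)) (XT.lf (nat_lit 0) (nat_lit 1237079065) (nat_lit 1512) (nat_lit 3148334341) (nat_lit 1596) (nat_lit 4068346252) (nat_lit 376) (nat_lit 5) (nat_lit 394) (nat_lit 5) (nat_lit 395) (nat_lit 5) (nat_lit 273) (nat_lit 266) (nat_lit 181))) (XT.nd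 (nat_lit 94) (nat_lit 0) (nat_lit 84) (XT.lf (nat_lit 84) (nat_lit 1300113411) (nat_lit 0) (nat_lit 1212733706) (nat_lit 1596) (nat_lit 6013228174) (nat_lit 377) (nat_lit 5) (nat_lit 376) (nat_lit 5) (nat_lit 395) (nat_lit 5) (nat_lit 274) (nat_lit 266) (nat_lit 180)) (XT.lf (nat_lit 0) (nat_lit 3823863032) (nat_lit 1512) (nat_lit 2740366245) (nat_lit 1596) (nat_lit 2035594611) (nat_lit 377) (nat_lit 5) (nat_lit 395) (nat_lit 5) (nat_lit 396) (nat_lit 5) (nat_lit 275) (nat_lit 266) (nat_lit 179)))) (XT.nd (nat_lit 188) (nat_lit 1512) (nat_lit 0) (XT.nd (nat_lit 94) (nat_lit 0) (nat_lit 84) (XT.lf (nat_lit 84) (nat_lit 1842327408) (nat_lit 0) (nat_lit 3313305419) (nat_lit 1596) (nat_lit 3519740071) (nat_lit 378) (nat_lit 5) (nat_lit 377) (nat_lit 5) (nat_lit 396) (nat_lit 5) (nat_lit 276) (nat_lit 266) (nat_lit 178)) (XT.lf (nat_lit 0) (nat_lit 6507698994) (nat_lit 1512) (nat_lit 2205458970) (nat_lit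 1596) (nat_lit 39624080) (nat_lit 378) (nat_lit 5) (nat_lit 396) (nat_lit 5) (nat_lit 397) (nat_lit 5) (nat_lit 277) (nat_lit 266) (nat_lit 177))) (XT.nd (nat_lit 94) (nat_lit 1596) (nat_lit 0) (XT.lf (nat_lit 84) (nat_lit 2516612871) (nat_lit 0) (nat_lit 5386122667) (nat_lit 1596) (nat_lit 928867704) (nat_lit 379) (nat_lit 5) (nat_lit 378) (nat_lit 5) (nat_lit 397) (nat_lit 5) (nat_lit 278) (nat_lit 266) (nat_lit 176)) (XT.lf (nat_lit 0) (nat_lit 398171526) (nat_lit 1596) (nat_lit 1559099683) (nat_lit 1680) (nat_lit 6955089068) (nat_lit 359) (nat_lit 5) (nat_lit 378) (nat_lit 5) (nat_lit 379) (nat_lit 5) (nat_lit 279) (nat_lit 266) (nat_lit 175)))))) (XT.nd (nat_lit 658) (nat_lit 6384) (nat_lit 0) (XT.nd (nat_lit 282) (nat_lit 1512) (nat_lit 0) (XT.nd (nat_lit 94) (nat_lit 0) (nat_lit 0) (XT.lf (nat_lit 0) (nat_lit 1747776427) (nat_lit 1596) (nat_lit 5682918326) (nat_lit 1680) (nat_lit 1563895483) (nat_lit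 360) (nat_lit 5) (nat_lit 379) (nat_lit 5) (nat_lit 380) (nat_lit 5) (nat_lit 280) (nat_lit 266) (nat_lit 174)) (XT.nd (nat_lit 94) (nat_lit 0) (nat_lit 0) (XT.lf (nat_lit 0) (nat_lit 3125514159) (nat_lit 1596) (nat_lit 799646733) (nat_lit 1680) (nat_lit 5153502648) (nat_lit 360) (nat_lit 5) (nat_lit 379) (nat_lit 5) (nat_lit 380) (nat_lit 5) (nat_lit 281) (nat_lit 266) (nat_lit 173)) (XT.lf (nat_lit 84) (nat_lit 4232622757) (nat_lit 0) (nat_lit 304272138) (nat_lit 1680) (nat_lit 4627618242) (nat_lit 361) (nat_lit 5) (nat_lit 360) (nat_lit 5) (nat_lit 380) (nat_lit 5) (nat_lit 282) (nat_lit 266) (nat_lit 172)))) (XT.nd (nat_lit 188) (nat_lit 1596) (nat_lit 0) (XT.nd (nat_lit 94) (nat_lit 0) (nat_lit 0) (XT.lf (nat_lit 84) (nat_lit 92634164) (nat_lit 0) (nat_lit 5891167258) (nat_lit 1680) (nat_lit 3268351543) (nat_lit 362) (nat_lit 5) (nat_lit 361) (nat_lit 5) (nat_lit 381) (nat_lit 5) (nat_lit 283) (nat_lit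 266) (nat_lit 171)) (XT.lf (nat_lit 84) (nat_lit 5279364998) (nat_lit 0) (nat_lit 2195902254) (nat_lit 1680) (nat_lit 1866173616) (nat_lit 362) (nat_lit 5) (nat_lit 361) (nat_lit 5) (nat_lit 381) (nat_lit 5) (nat_lit 284) (nat_lit 266) (nat_lit 170))) (XT.nd (nat_lit 94) (nat_lit 1680) (nat_lit 0) (XT.lf (nat_lit 84) (nat_lit 1132645278) (nat_lit 0) (nat_lit 7860927698) (nat_lit 1680) (nat_lit 439251521) (nat_lit 363) (nat_lit 5) (nat_lit 362) (nat_lit 5) (nat_lit 382) (nat_lit 5) (nat_lit 285) (nat_lit 266) (nat_lit 169)) (XT.lf (nat_lit 0) (nat_lit 1025516084) (nat_lit 1680) (nat_lit 3066846237) (nat_lit 1764) (nat_lit 5433231662) (nat_lit 342) (nat_lit 5) (nat_lit 362) (nat_lit 5) (nat_lit 363) (nat_lit 5) (nat_lit 286) (nat_lit 266) (nat_lit 168))))) (XT.nd (nat_lit 376) (nat_lit 4788) (nat_lit 0) (XT.nd (nat_lit 188) (nat_lit 1596) (nat_lit 0) (XT.nd (nat_lit 94) (nat_lit 0) (nat_lit 84) (XT.lf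 (nat_lit 84) (nat_lit 2291721693) (nat_lit 0) (nat_lit 216108025) (nat_lit 1764) (nat_lit 7112685020) (nat_lit 343) (nat_lit 5) (nat_lit 342) (nat_lit 5) (nat_lit 363) (nat_lit 5) (nat_lit 287) (nat_lit 266) (nat_lit 167)) (XT.lf (nat_lit 0) (nat_lit 4048135395) (nat_lit 1680) (nat_lit 1950018062) (nat_lit 84) (nat_lit 3718811906) (nat_lit 343) (nat_lit 5) (nat_lit 363) (nat_lit 5) (nat_lit 344) (nat_lit 5) (nat_lit 288) (nat_lit 266) (nat_lit 166))) (XT.nd (nat_lit 94) (nat_lit 0) (nat_lit 0) (XT.lf (nat_lit 0) (nat_lit 3577344994) (nat_lit 1680) (nat_lit 2048441405) (nat_lit 1764) (nat_lit 4189675414) (nat_lit 323) (nat_lit 5) (nat_lit 343) (nat_lit 5) (nat_lit 344) (nat_lit 5) (nat_lit 289) (nat_lit 266) (nat_lit 165)) (XT.lf (nat_lit 0) (nat_lit 7243614141) (nat_lit 1764) (nat_lit 694733154) (nat_lit 84) (nat_lit 1977657585) (nat_lit 323) (nat_lit 5) (nat_lit 344) (nat_lit 5) (nat_lit 324) (nat_lit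 5) (nat_lit 290) (nat_lit 266) (nat_lit 164)))) (XT.nd (nat_lit 188) (nat_lit 1092) (nat_lit 0) (XT.nd (nat_lit 94) (nat_lit 1932) (nat_lit 0) (XT.lf (nat_lit 0) (nat_lit 5008166742) (nat_lit 1764) (nat_lit 3916751617) (nat_lit 1848) (nat_lit 1093228081) (nat_lit 302) (nat_lit 5) (nat_lit 323) (nat_lit 5) (nat_lit 324) (nat_lit 5) (nat_lit 291) (nat_lit 266) (nat_lit 163)) (XT.lf (nat_lit 0) (nat_lit 502393129) (nat_lit 1932) (nat_lit 9413086935) (nat_lit 84) (nat_lit 207210695) (nat_lit 279) (nat_lit 5) (nat_lit 302) (nat_lit 5) (nat_lit 280) (nat_lit 5) (nat_lit 292) (nat_lit 266) (nat_lit 162))) (XT.nd (nat_lit 94) (nat_lit 1092) (nat_lit 0) (XT.lf (nat_lit 0) (nat_lit 2160660397) (nat_lit 1932) (nat_lit 3655827728) (nat_lit 84) (nat_lit 4411911873) (nat_lit 279) (nat_lit 5) (nat_lit 302) (nat_lit 5) (nat_lit 280) (nat_lit 5) (nat_lit 293) (nat_lit 266) (nat_lit 161)) (XT.lf (nat_lit 0) (nat_lit 2240589733)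 (nat_lit 1092) (nat_lit 1609103192) (nat_lit 1176) (nat_lit 6486867681) (nat_lit 266) (nat_lit 5) (nat_lit 279) (nat_lit 5) (nat_lit 280) (nat_lit 5) (nat_lit 294) (nat_lit 266) (nat_lit 160))))))))
noncomputable def xc49 : XT := (XT.nd (nat_lit 43710) (nat_lit 0) (nat_lit 2352) (XT.nd (nat_lit 1410) (nat_lit 840) (nat_lit 0) (XT.nd (nat_lit 658) (nat_lit 4032) (nat_lit 0) (XT.nd (nat_lit 282) (nat_lit 2688) (nat_lit 0) (XT.nd (nat_lit 94) (nat_lit 924) (nat_lit 0) (XT.lf (nat_lit 0) (nat_lit 5600913611) (nat_lit 1176) (nat_lit 2164654119) (nat_lit 84) (nat_lit 2680982369) (nat_lit 266) (nat_lit 5) (nat_lit 280) (nat_lit 5) (nat_lit 267) (nat_lit 5) (nat_lit 295) (nat_lit 266) (nat_lit 159)) (XT.nd (nat_lit 94) (nat_lit 0) (nat_lit 0) (XT.lf (nat_lit 0) (nat_lit 3922251143) (nat_lit 924) (nat_lit 3487184820) (nat_lit 1008) (nat_lit 3149110352) (nat_lit 255) (nat_lit 5) (nat_lit 266) (nat_lit 5) (nat_lit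 267) (nat_lit 5) (nat_lit 296) (nat_lit 266) (nat_lit 158)) (XT.lf (nat_lit 0) (nat_lit 9259596549) (nat_lit 1008) (nat_lit 523676456) (nat_lit 84) (nat_lit 889692727) (nat_lit 255) (nat_lit 5) (nat_lit 267) (nat_lit 5) (nat_lit 256) (nat_lit 5) (nat_lit 297) (nat_lit 266) (nat_lit 157)))) (XT.nd (nat_lit 188) (nat_lit 840) (nat_lit 0) (XT.nd (nat_lit 94) (nat_lit 840) (nat_lit 0) (XT.lf (nat_lit 0) (nat_lit 402010642) (nat_lit 1008) (nat_lit 5030338819) (nat_lit 84) (nat_lit 5356470210) (nat_lit 243) (nat_lit 5) (nat_lit 255) (nat_lit 5) (nat_lit 244) (nat_lit 5) (nat_lit 298) (nat_lit 266) (nat_lit 156)) (XT.lf (nat_lit 0) (nat_lit 1267755087) (nat_lit 840) (nat_lit 961727712) (nat_lit 924) (nat_lit 8677668138) (nat_lit 233) (nat_lit 5) (nat_lit 243) (nat_lit 5) (nat_lit 244) (nat_lit 5) (nat_lit 299) (nat_lit 266) (nat_lit 155))) (XT.nd (nat_lit 94) (nat_lit 840) (nat_lit 0) (XT.lf (nat_lit 0) (nat_lit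 4140604133) (nat_lit 924) (nat_lit 3293705692) (nat_lit 84) (nat_lit 3592819881) (nat_lit 233) (nat_lit 5) (nat_lit 244) (nat_lit 5) (nat_lit 234) (nat_lit 5) (nat_lit 300) (nat_lit 266) (nat_lit 154)) (XT.lf (nat_lit 0) (nat_lit 3211263569) (nat_lit 840) (nat_lit 2893129310) (nat_lit 924) (nat_lit 5045121431) (nat_lit 223) (nat_lit 5) (nat_lit 233) (nat_lit 5) (nat_lit 234) (nat_lit 5) (nat_lit 301) (nat_lit 266) (nat_lit 153))))) (XT.nd (nat_lit 376) (nat_lit 2268) (nat_lit 0) (XT.nd (nat_lit 188) (nat_lit 924) (nat_lit 0) (XT.nd (nat_lit 94) (nat_lit 840) (nat_lit 0) (XT.lf (nat_lit 0) (nat_lit 8129361177) (nat_lit 924) (nat_lit 1398000080) (nat_lit 84) (nat_lit 1746834639) (nat_lit 223) (nat_lit 5) (nat_lit 234) (nat_lit 5) (nat_lit 224) (nat_lit 5) (nat_lit 302) (nat_lit 266) (nat_lit 152)) (XT.lf (nat_lit 0) (nat_lit 5322309855) (nat_lit 840) (nat_lit 4916970968) (nat_lit 924) (nat_lit 1161450810)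 (nat_lit 213) (nat_lit 5) (nat_lit 223) (nat_lit 5) (nat_lit 224) (nat_lit 5) (nat_lit 303) (nat_lit 266) (nat_lit 151))) (XT.nd (nat_lit 94) (nat_lit 0) (nat_lit 0) (XT.lf (nat_lit 0) (nat_lit 665312032) (nat_lit 840) (nat_lit 184486320) (nat_lit 924) (nat_lit 10680189811) (nat_lit 202) (nat_lit 5) (nat_lit 212) (nat_lit 5) (nat_lit 213) (nat_lit 5) (nat_lit 304) (nat_lit 266) (nat_lit 150)) (XT.lf (nat_lit 0) (nat_lit 2948367874) (nat_lit 924) (nat_lit 4074632372) (nat_lit 84) (nat_lit 4637578343) (nat_lit 202) (nat_lit 5) (nat_lit 213) (nat_lit 5) (nat_lit 203) (nat_lit 5) (nat_lit 305) (nat_lit 266) (nat_lit 149)))) (XT.nd (nat_lit 188) (nat_lit 1512) (nat_lit 0) (XT.nd (nat_lit 94) (nat_lit 0) (nat_lit 0) (XT.lf (nat_lit 0) (nat_lit 2885636146) (nat_lit 756) (nat_lit 2211566816) (nat_lit 840) (nat_lit 6696748908) (nat_lit 193) (nat_lit 5) (nat_lit 202) (nat_lit 5) (nat_lit 203) (nat_lit 5) (nat_lit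 306) (nat_lit 266) (nat_lit 148)) (XT.lf (nat_lit 0) (nat_lit 7325334711) (nat_lit 840) (nat_lit 1908813625) (nat_lit 84) (nat_lit 2695406538) (nat_lit 193) (nat_lit 5) (nat_lit 203) (nat_lit 5) (nat_lit 194) (nat_lit 5) (nat_lit 307) (nat_lit 266) (nat_lit 147))) (XT.nd (nat_lit 94) (nat_lit 756) (nat_lit 0) (XT.lf (nat_lit 0) (nat_lit 5285518141) (nat_lit 756) (nat_lit 4353528573) (nat_lit 840) (nat_lit 2428290079) (nat_lit 184) (nat_lit 5) (nat_lit 193) (nat_lit 5) (nat_lit 194) (nat_lit 5) (nat_lit 308) (nat_lit 266) (nat_lit 146)) (XT.lf (nat_lit 0) (nat_lit 441118369) (nat_lit 756) (nat_lit 11567436099) (nat_lit 840) (nat_lit 199487778) (nat_lit 175) (nat_lit 5) (nat_lit 184) (nat_lit 5) (nat_lit 185) (nat_lit 5) (nat_lit 309) (nat_lit 266) (nat_lit 145)))))) (XT.nd (nat_lit 41548) (nat_lit 0) (nat_lit 17640) (XT.nd (nat_lit 41172) (nat_lit 0) (nat_lit 19068) (XT.nd (nat_lit 94) (nat_lit 756) (nat_lit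 0) (XT.lf (nat_lit 0) (nat_lit 2113701099) (nat_lit 840) (nat_lit 4492869421) (nat_lit 84) (nat_lit 5743510667) (nat_lit 174) (nat_lit 5) (nat_lit 184) (nat_lit 5) (nat_lit 175) (nat_lit 5) (nat_lit 310) (nat_lit 266) (nat_lit 144)) (XT.nd (nat_lit 94) (nat_lit 0) (nat_lit 0) (XT.lf (nat_lit 0) (nat_lit 2963350552) (nat_lit 756) (nat_lit 1516101607) (nat_lit 840) (nat_lit 8015659489) (nat_lit 165) (nat_lit 5) (nat_lit 174) (nat_lit 5) (nat_lit 175) (nat_lit 5) (nat_lit 311) (nat_lit 266) (nat_lit 143)) (XT.lf (nat_lit 0) (nat_lit 6940636925) (nat_lit 840) (nat_lit 2037688170) (nat_lit 84) (nat_lit 3664053165) (nat_lit 165) (nat_lit 5) (nat_lit 175) (nat_lit 5) (nat_lit 166) (nat_lit 5) (nat_lit 312) (nat_lit 266) (nat_lit 142)))) (XT.nd (nat_lit 188) (nat_lit 0) (nat_lit 0) (XT.nd (nat_lit 94) (nat_lit 0) (nat_lit 0) (XT.lf (nat_lit 0) (nat_lit 776716713) (nat_lit 0) (nat_lit 776716713) (nat_lit 1428)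 (nat_lit 2504818387) (nat_lit 392) (nat_lit 5) (nat_lit 392) (nat_lit 3) (nat_lit 409) (nat_lit 3) (nat_lit 267) (nat_lit 267) (nat_lit 186)) (XT.lf (nat_lit 0) (nat_lit 4326031098) (nat_lit 1428) (nat_lit 2506002782) (nat_lit 1512) (nat_lit 1347681536) (nat_lit 392) (nat_lit 5) (nat_lit 409) (nat_lit 3) (nat_lit 410) (nat_lit 5) (nat_lit 268) (nat_lit 267) (nat_lit 185))) (XT.nd (nat_lit 94) (nat_lit 0) (nat_lit 0) (XT.lf (nat_lit 84) (nat_lit 1634764317) (nat_lit 0) (nat_lit 3926472300) (nat_lit 1512) (nat_lit 2683318415) (nat_lit 393) (nat_lit 5) (nat_lit 392) (nat_lit 5) (nat_lit 410) (nat_lit 5) (nat_lit 269) (nat_lit 267) (nat_lit 184)) (XT.lf (nat_lit 84) (nat_lit 5886391757) (nat_lit 0) (nat_lit 922601358) (nat_lit 1512) (nat_lit 1502149721) (nat_lit 393) (nat_lit 5) (nat_lit 392) (nat_lit 5) (nat_lit 410) (nat_lit 5) (nat_lit 270) (nat_lit 267) (nat_lit 183))))) (XT.nd (nat_lit 376) (nat_lit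 0) (nat_lit 84) (XT.nd (nat_lit 188) (nat_lit 0) (nat_lit 84) (XT.nd (nat_lit 94) (nat_lit 1512) (nat_lit 0) (XT.lf (nat_lit 84) (nat_lit 1845540030) (nat_lit 0) (nat_lit 6234789914) (nat_lit 1512) (nat_lit 298950774) (nat_lit 394) (nat_lit 5) (nat_lit 393) (nat_lit 5) (nat_lit 411) (nat_lit 5) (nat_lit 271) (nat_lit 267) (nat_lit 182)) (XT.lf (nat_lit 0) (nat_lit 910093929) (nat_lit 1512) (nat_lit 2234449980) (nat_lit 1596) (nat_lit 5304386697) (nat_lit 375) (nat_lit 5) (nat_lit 393) (nat_lit 5) (nat_lit 394) (nat_lit 5) (nat_lit 272) (nat_lit 267) (nat_lit 181))) (XT.nd (nat_lit 94) (nat_lit 0) (nat_lit 0) (XT.lf (nat_lit 0) (nat_lit 2125830148) (nat_lit 1512) (nat_lit 6350267340) (nat_lit 1596) (nat_lit 44308575) (nat_lit 376) (nat_lit 5) (nat_lit 394) (nat_lit 5) (nat_lit 395) (nat_lit 5) (nat_lit 273) (nat_lit 267) (nat_lit 180)) (XT.lf (nat_lit 0) (nat_lit 3377178638) (nat_lit 1512) (nat_lit 1929784568)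 (nat_lit 1596) (nat_lit 3286295720) (nat_lit 376) (nat_lit 5) (nat_lit 394) (nat_lit 5) (nat_lit 395) (nat_lit 5) (nat_lit 274) (nat_lit 267) (nat_lit 179)))) (XT.nd (nat_lit 188) (nat_lit 0) (nat_lit 84) (XT.nd (nat_lit 94) (nat_lit 0) (nat_lit 84) (XT.lf (nat_lit 84) (nat_lit 2607221582) (nat_lit 0) (nat_lit 2037416281) (nat_lit 1596) (nat_lit 4023327907) (nat_lit 377) (nat_lit 5) (nat_lit 376) (nat_lit 5) (nat_lit 395) (nat_lit 5) (nat_lit 275) (nat_lit 267) (nat_lit 178)) (XT.lf (nat_lit 0) (nat_lit 5934234349) (nat_lit 1512) (nat_lit 1499408497) (nat_lit 1596) (nat_lit 1310799748) (nat_lit 377) (nat_lit 5) (nat_lit 395) (nat_lit 5) (nat_lit 396) (nat_lit 5) (nat_lit 276) (nat_lit 267) (nat_lit 177))) (XT.nd (nat_lit 94) (nat_lit 0) (nat_lit 0) (XT.lf (nat_lit 84) (nat_lit 3174699881) (nat_lit 0) (nat_lit 4086187463) (nat_lit 1596) (nat_lit 1561523486) (nat_lit 378) (nat_lit 5) (nat_lit 377) (nat_lit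 5) (nat_lit 396) (nat_lit 5) (nat_lit 277) (nat_lit 267) (nat_lit 176)) (XT.lf (nat_lit 84) (nat_lit 7955695851) (nat_lit 0) (nat_lit 643833458) (nat_lit 1596) (nat_lit 302943401) (nat_lit 378) (nat_lit 5) (nat_lit 377) (nat_lit 5) (nat_lit 396) (nat_lit 5) (nat_lit 278) (nat_lit 267) (nat_lit 175))))))) (XT.nd (nat_lit 1410) (nat_lit 7224) (nat_lit 0) (XT.nd (nat_lit 658) (nat_lit 6720) (nat_lit 0) (XT.nd (nat_lit 282) (nat_lit 0) (nat_lit 84) (XT.nd (nat_lit 94) (nat_lit 0) (nat_lit 0) (XT.lf (nat_lit 0) (nat_lit 989788260) (nat_lit 1596) (nat_lit 5116712979) (nat_lit 1680) (nat_lit 2877186844) (nat_lit 359) (nat_lit 5) (nat_lit 378) (nat_lit 5) (nat_lit 379) (nat_lit 5) (nat_lit 279) (nat_lit 267) (nat_lit 174)) (XT.nd (nat_lit 94) (nat_lit 0) (nat_lit 84) (XT.lf (nat_lit 0) (nat_lit 2290902017) (nat_lit 1596) (nat_lit 291594520) (nat_lit 1680) (nat_lit 6484488310) (nat_lit 359) (nat_lit 5) (nat_lit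 378) (nat_lit 5) (nat_lit 379) (nat_lit 5) (nat_lit 280) (nat_lit 267) (nat_lit 173)) (XT.lf (nat_lit 0) (nat_lit 3634858517) (nat_lit 1596) (nat_lit 4470797465) (nat_lit 1680) (nat_lit 1046145358) (nat_lit 360) (nat_lit 5) (nat_lit 379) (nat_lit 5) (nat_lit 380) (nat_lit 5) (nat_lit 281) (nat_lit 267) (nat_lit 172)))) (XT.nd (nat_lit 188) (nat_lit 0) (nat_lit 84) (XT.nd (nat_lit 94) (nat_lit 0) (nat_lit 0) (XT.lf (nat_lit 84) (nat_lit 498299253) (nat_lit 0) (nat_lit 4508362323) (nat_lit 1680) (nat_lit 4231860068) (nat_lit 361) (nat_lit 5) (nat_lit 360) (nat_lit 5) (nat_lit 380) (nat_lit 5) (nat_lit 282) (nat_lit 267) (nat_lit 171)) (XT.lf (nat_lit 84) (nat_lit 5624645617) (nat_lit 0) (nat_lit 791212202) (nat_lit 1680) (nat_lit 2911133280) (nat_lit 361) (nat_lit 5) (nat_lit 360) (nat_lit 5) (nat_lit 380) (nat_lit 5) (nat_lit 283) (nat_lit 267) (nat_lit 170))) (XT.nd (nat_lit 94) (nat_lit 0) (nat_lit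 0) (XT.lf (nat_lit 84) (nat_lit 1426444277) (nat_lit 0) (nat_lit 6435992519) (nat_lit 1680) (nat_lit 1554829716) (nat_lit 362) (nat_lit 5) (nat_lit 361) (nat_lit 5) (nat_lit 381) (nat_lit 5) (nat_lit 284) (nat_lit 267) (nat_lit 169)) (XT.lf (nat_lit 84) (nat_lit 6698614905) (nat_lit 0) (nat_lit 2650493494) (nat_lit 1680) (nat_lit 160237693) (nat_lit 362) (nat_lit 5) (nat_lit 361) (nat_lit 5) (nat_lit 381) (nat_lit 5) (nat_lit 285) (nat_lit 267) (nat_lit 168))))) (XT.nd (nat_lit 376) (nat_lit 5292) (nat_lit 0) (XT.nd (nat_lit 188) (nat_lit 0) (nat_lit 0) (XT.nd (nat_lit 94) (nat_lit 0) (nat_lit 0) (XT.lf (nat_lit 0) (nat_lit 1249033885) (nat_lit 1680) (nat_lit 7120972949) (nat_lit 1764) (nat_lit 1233197522) (nat_lit 342) (nat_lit 5) (nat_lit 362) (nat_lit 5) (nat_lit 363) (nat_lit 5) (nat_lit 286) (nat_lit 267) (nat_lit 167)) (XT.lf (nat_lit 0) (nat_lit 2703148998) (nat_lit 1680) (nat_lit 1804950431)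 (nat_lit 1764) (nat_lit 5190646048) (nat_lit 342) (nat_lit 5) (nat_lit 362) (nat_lit 5) (nat_lit 363) (nat_lit 5) (nat_lit 287) (nat_lit 267) (nat_lit 166))) (XT.nd (nat_lit 94) (nat_lit 0) (nat_lit 84) (XT.lf (nat_lit 84) (nat_lit 3661898221) (nat_lit 0) (nat_lit 529948500) (nat_lit 1764) (nat_lit 5604484757) (nat_lit 343) (nat_lit 5) (nat_lit 342) (nat_lit 5) (nat_lit 363) (nat_lit 5) (nat_lit 288) (nat_lit 267) (nat_lit 165)) (XT.lf (nat_lit 0) (nat_lit 5728821630) (nat_lit 1680) (nat_lit 664351994) (nat_lit 84) (nat_lit 3502549178) (nat_lit 343) (nat_lit 5) (nat_lit 363) (nat_lit 5) (nat_lit 344) (nat_lit 5) (nat_lit 289) (nat_lit 267) (nat_lit 164)))) (XT.nd (nat_lit 188) (nat_lit 1932) (nat_lit 0) (XT.nd (nat_lit 94) (nat_lit 1764) (nat_lit 0) (XT.lf (nat_lit 0) (nat_lit 4975011058) (nat_lit 1680) (nat_lit 2341303158) (nat_lit 1764) (nat_lit 2680619026) (nat_lit 323) (nat_lit 5) (nat_lit 343) (nat_lit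 5) (nat_lit 344) (nat_lit 5) (nat_lit 290) (nat_lit 267) (nat_lit 163)) (XT.lf (nat_lit 0) (nat_lit 625010607) (nat_lit 1764) (nat_lit 8313721803) (nat_lit 1848) (nat_lit 1161637885) (nat_lit 302) (nat_lit 5) (nat_lit 323) (nat_lit 5) (nat_lit 324) (nat_lit 5) (nat_lit 291) (nat_lit 267) (nat_lit 162))) (XT.nd (nat_lit 94) (nat_lit 1848) (nat_lit 0) (XT.lf (nat_lit 0) (nat_lit 417509840) (nat_lit 1848) (nat_lit 3773604765) (nat_lit 84) (nat_lit 6014194823) (nat_lit 301) (nat_lit 5) (nat_lit 323) (nat_lit 5) (nat_lit 302) (nat_lit 5) (nat_lit 292) (nat_lit 267) (nat_lit 161)) (XT.lf (nat_lit 0) (nat_lit 2007730658) (nat_lit 1932) (nat_lit 8257127319) (nat_lit 84) (nat_lit 47657712) (nat_lit 279) (nat_lit 5) (nat_lit 302) (nat_lit 5) (nat_lit 280) (nat_lit 5) (nat_lit 293) (nat_lit 267) (nat_lit 160)))))) (XT.nd (nat_lit 658) (nat_lit 3360) (nat_lit 0) (XT.nd (nat_lit 282) (nat_lit 2772) (nat_lit 0) (XT.nd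 (nat_lit 94) (nat_lit 1092) (nat_lit 0) (XT.lf (nat_lit 0) (nat_lit 3670313203) (nat_lit 1932) (nat_lit 2402549941) (nat_lit 84) (nat_lit 4348395051) (nat_lit 279) (nat_lit 5) (nat_lit 302) (nat_lit 5) (nat_lit 280) (nat_lit 5) (nat_lit 294) (nat_lit 267) (nat_lit 159)) (XT.nd (nat_lit 94) (nat_lit 0) (nat_lit 0) (XT.lf (nat_lit 0) (nat_lit 3613949567) (nat_lit 1092) (nat_lit 1760512350) (nat_lit 1176) (nat_lit 5157821356) (nat_lit 266) (nat_lit 5) (nat_lit 279) (nat_lit 5) (nat_lit 280) (nat_lit 5) (nat_lit 295) (nat_lit 267) (nat_lit 158)) (XT.lf (nat_lit 0) (nat_lit 7132401215) (nat_lit 1176) (nat_lit 884903823) (nat_lit 84) (nat_lit 2628087278) (nat_lit 266) (nat_lit 5) (nat_lit 280) (nat_lit 5) (nat_lit 267) (nat_lit 5) (nat_lit 296) (nat_lit 267) (nat_lit 157)))) (XT.nd (nat_lit 188) (nat_lit 924) (nat_lit 0) (XT.nd (nat_lit 94) (nat_lit 924) (nat_lit 0) (XT.lf (nat_lit 0) (nat_lit 5326319990)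 (nat_lit 924) (nat_lit 3633462965) (nat_lit 1008) (nat_lit 1800529912) (nat_lit 255) (nat_lit 5) (nat_lit 266) (nat_lit 5) (nat_lit 267) (nat_lit 5) (nat_lit 297) (nat_lit 267) (nat_lit 156)) (XT.lf (nat_lit 0) (nat_lit 796029549) (nat_lit 924) (nat_lit 10029938556) (nat_lit 1008) (nat_lit 51824344) (nat_lit 244) (nat_lit 5) (nat_lit 255) (nat_lit 5) (nat_lit 256) (nat_lit 5) (nat_lit 298) (nat_lit 267) (nat_lit 155))) (XT.nd (nat_lit 94) (nat_lit 840) (nat_lit 0) (XT.lf (nat_lit 0) (nat_lit 1757700997) (nat_lit 1008) (nat_lit 3811100740) (nat_lit 84) (nat_lit 5427741351) (nat_lit 243) (nat_lit 5) (nat_lit 255) (nat_lit 5) (nat_lit 244) (nat_lit 5) (nat_lit 299) (nat_lit 267) (nat_lit 154)) (XT.lf (nat_lit 0) (nat_lit 2615939562) (nat_lit 840) (nat_lit 989849971) (nat_lit 924) (nat_lit 7512119047) (nat_lit 233) (nat_lit 5) (nat_lit 243) (nat_lit 5) (nat_lit 244) (nat_lit 5) (nat_lit 300) (nat_lit 267)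 (nat_lit 153))))) (XT.nd (nat_lit 376) (nat_lit 1596) (nat_lit 0) (XT.nd (nat_lit 188) (nat_lit 924) (nat_lit 0) (XT.nd (nat_lit 94) (nat_lit 840) (nat_lit 0) (XT.lf (nat_lit 0) (nat_lit 5530335882) (nat_lit 924) (nat_lit 2045674899) (nat_lit 84) (nat_lit 3665145734) (nat_lit 233) (nat_lit 5) (nat_lit 244) (nat_lit 5) (nat_lit 234) (nat_lit 5) (nat_lit 301) (nat_lit 267) (nat_lit 152)) (XT.lf (nat_lit 0) (nat_lit 4592860050) (nat_lit 840) (nat_lit 2925851092) (nat_lit 924) (nat_lit 3847932007) (nat_lit 223) (nat_lit 5) (nat_lit 233) (nat_lit 5) (nat_lit 234) (nat_lit 5) (nat_lit 302) (nat_lit 267) (nat_lit 151))) (XT.nd (nat_lit 94) (nat_lit 924) (nat_lit 0) (XT.lf (nat_lit 0) (nat_lit 9560890020) (nat_lit 924) (nat_lit 118688707) (nat_lit 84) (nat_lit 1815090456) (nat_lit 223) (nat_lit 5) (nat_lit 234) (nat_lit 5) (nat_lit 224) (nat_lit 5) (nat_lit 303) (nat_lit 267) (nat_lit 150)) (XT.lf (nat_lit 0)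 (nat_lit 74066083) (nat_lit 924) (nat_lit 4884913681) (nat_lit 84) (nat_lit 6665386594) (nat_lit 212) (nat_lit 5) (nat_lit 223) (nat_lit 5) (nat_lit 213) (nat_lit 5) (nat_lit 304) (nat_lit 267) (nat_lit 149)))) (XT.nd (nat_lit 188) (nat_lit 756) (nat_lit 0) (XT.nd (nat_lit 94) (nat_lit 0) (nat_lit 0) (XT.lf (nat_lit 0) (nat_lit 1989195726) (nat_lit 840) (nat_lit 105818192) (nat_lit 924) (nat_lit 9661650544) (nat_lit 202) (nat_lit 5) (nat_lit 212) (nat_lit 5) (nat_lit 213) (nat_lit 5) (nat_lit 305) (nat_lit 267) (nat_lit 148)) (XT.lf (nat_lit 0) (nat_lit 4213925984) (nat_lit 924) (nat_lit 2857384865) (nat_lit 84) (nat_lit 4819385201) (nat_lit 202) (nat_lit 5) (nat_lit 213) (nat_lit 5) (nat_lit 203) (nat_lit 5) (nat_lit 306) (nat_lit 267) (nat_lit 147))) (XT.nd (nat_lit 94) (nat_lit 0) (nat_lit 0) (XT.lf (nat_lit 0) (nat_lit 4246564236) (nat_lit 756) (nat_lit 2146866566) (nat_lit 840) (nat_lit 5633938044)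 (nat_lit 193) (nat_lit 5) (nat_lit 202) (nat_lit 5) (nat_lit 203) (nat_lit 5) (nat_lit 307) (nat_lit 267) (nat_lit 146)) (XT.lf (nat_lit 0) (nat_lit 8645882317) (nat_lit 840) (nat_lit 656593622) (nat_lit 84) (nat_lit 2864022558) (nat_lit 193) (nat_lit 5) (nat_lit 203) (nat_lit 5) (nat_lit 194) (nat_lit 5) (nat_lit 308) (nat_lit 267) (nat_lit 145))))))))
noncomputable def xc50 : XT := (XT.nd (nat_lit 43804) (nat_lit 0) (nat_lit 756) (XT.nd (nat_lit 42394) (nat_lit 0) (nat_lit 11424) (XT.nd (nat_lit 41642) (nat_lit 0) (nat_lit 16212) (XT.nd (nat_lit 282) (nat_lit 756) (nat_lit 0) (XT.nd (nat_lit 94) (nat_lit 840) (nat_lit 0) (XT.lf (nat_lit 0) (nat_lit 6686659729) (nat_lit 756) (nat_lit 4308031097) (nat_lit 840) (nat_lit 1312968505) (nat_lit 184) (nat_lit 5) (nat_lit 193) (nat_lit 5) (nat_lit 194) (nat_lit 5) (nat_lit 309) (nat_lit 267) (nat_lit 144)) (XT.nd (nat_lit 94) (nat_lit 0) (nat_lit 0) (XT.lf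 (nat_lit 0) (nat_lit 936490027) (nat_lit 840) (nat_lit 10708169865) (nat_lit 84) (nat_lit 806967772) (nat_lit 174) (nat_lit 5) (nat_lit 184) (nat_lit 5) (nat_lit 175) (nat_lit 5) (nat_lit 310) (nat_lit 267) (nat_lit 143)) (XT.lf (nat_lit 0) (nat_lit 3273147794) (nat_lit 840) (nat_lit 3303870985) (nat_lit 84) (nat_lit 6020279399) (nat_lit 174) (nat_lit 5) (nat_lit 184) (nat_lit 5) (nat_lit 175) (nat_lit 5) (nat_lit 311) (nat_lit 267) (nat_lit 142)))) (XT.nd (nat_lit 41172) (nat_lit 0) (nat_lit 19068) (XT.nd (nat_lit 41078) (nat_lit 0) (nat_lit 19068) (XT.lf (nat_lit 0) (nat_lit 4307078168) (nat_lit 756) (nat_lit 1369016781) (nat_lit 840) (nat_lit 7069751068) (nat_lit 165) (nat_lit 5) (nat_lit 174) (nat_lit 5) (nat_lit 175) (nat_lit 5) (nat_lit 312) (nat_lit 267) (nat_lit 141)) (XT.lf (nat_lit 0) (nat_lit 1377242977) (nat_lit 0) (nat_lit 1377242977) (nat_lit 1428) (nat_lit 1367376104) (nat_lit 392) (nat_lit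 5) (nat_lit 392) (nat_lit 3) (nat_lit 409) (nat_lit 3) (nat_lit 268) (nat_lit 268) (nat_lit 184))) (XT.nd (nat_lit 94) (nat_lit 0) (nat_lit 0) (XT.lf (nat_lit 0) (nat_lit 6696587388) (nat_lit 1428) (nat_lit 1361006154) (nat_lit 1512) (nat_lit 252017174) (nat_lit 392) (nat_lit 5) (nat_lit 409) (nat_lit 3) (nat_lit 410) (nat_lit 5) (nat_lit 269) (nat_lit 268) (nat_lit 183)) (XT.lf (nat_lit 84) (nat_lit 2862184092) (nat_lit 0) (nat_lit 5056289490) (nat_lit 1512) (nat_lit 458294084) (nat_lit 393) (nat_lit 5) (nat_lit 392) (nat_lit 5) (nat_lit 410) (nat_lit 5) (nat_lit 270) (nat_lit 268) (nat_lit 182))))) (XT.nd (nat_lit 376) (nat_lit 1344) (nat_lit 0) (XT.nd (nat_lit 188) (nat_lit 0) (nat_lit 84) (XT.nd (nat_lit 94) (nat_lit 0) (nat_lit 84) (XT.lf (nat_lit 0) (nat_lit 689614942) (nat_lit 1512) (nat_lit 1269163305) (nat_lit 1596) (nat_lit 6486990908) (nat_lit 374) (nat_lit 5) (nat_lit 392) (nat_lit 5) (nat_lit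 393) (nat_lit 5) (nat_lit 271) (nat_lit 268) (nat_lit 181)) (XT.lf (nat_lit 0) (nat_lit 1855687798) (nat_lit 1512) (nat_lit 5431424595) (nat_lit 1596) (nat_lit 1229110453) (nat_lit 375) (nat_lit 5) (nat_lit 393) (nat_lit 5) (nat_lit 394) (nat_lit 5) (nat_lit 272) (nat_lit 268) (nat_lit 180))) (XT.nd (nat_lit 94) (nat_lit 0) (nat_lit 0) (XT.lf (nat_lit 0) (nat_lit 3040502413) (nat_lit 1512) (nat_lit 1066502162) (nat_lit 1596) (nat_lit 4481374003) (nat_lit 375) (nat_lit 5) (nat_lit 393) (nat_lit 5) (nat_lit 394) (nat_lit 5) (nat_lit 273) (nat_lit 268) (nat_lit 179)) (XT.lf (nat_lit 84) (nat_lit 3426525543) (nat_lit 0) (nat_lit 819310018) (nat_lit 1596) (nat_lit 4416408218) (nat_lit 376) (nat_lit 5) (nat_lit 375) (nat_lit 5) (nat_lit 394) (nat_lit 5) (nat_lit 274) (nat_lit 268) (nat_lit 178)))) (XT.nd (nat_lit 188) (nat_lit 1512) (nat_lit 0) (XT.nd (nat_lit 94) (nat_lit 0) (nat_lit 0) (XT.lf (nat_lit 0)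 (nat_lit 5474373840) (nat_lit 1512) (nat_lit 739273954) (nat_lit 1596) (nat_lit 2524159089) (nat_lit 376) (nat_lit 5) (nat_lit 394) (nat_lit 5) (nat_lit 395) (nat_lit 5) (nat_lit 275) (nat_lit 268) (nat_lit 177)) (XT.lf (nat_lit 84) (nat_lit 3888635277) (nat_lit 0) (nat_lit 2846255388) (nat_lit 1596) (nat_lit 2080032795) (nat_lit 377) (nat_lit 5) (nat_lit 376) (nat_lit 5) (nat_lit 395) (nat_lit 5) (nat_lit 276) (nat_lit 268) (nat_lit 176))) (XT.nd (nat_lit 94) (nat_lit 1596) (nat_lit 0) (XT.lf (nat_lit 0) (nat_lit 8004737117) (nat_lit 1512) (nat_lit 286569023) (nat_lit 1596) (nat_lit 602835300) (nat_lit 377) (nat_lit 5) (nat_lit 395) (nat_lit 5) (nat_lit 396) (nat_lit 5) (nat_lit 277) (nat_lit 268) (nat_lit 175)) (XT.lf (nat_lit 0) (nat_lit 347991183) (nat_lit 1596) (nat_lit 4495699187) (nat_lit 1680) (nat_lit 4130804174) (nat_lit 358) (nat_lit 5) (nat_lit 377) (nat_lit 5) (nat_lit 378) (nat_lit 5) (nat_lit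 278) (nat_lit 268) (nat_lit 174)))))) (XT.nd (nat_lit 658) (nat_lit 3360) (nat_lit 0) (XT.nd (nat_lit 282) (nat_lit 1428) (nat_lit 0) (XT.nd (nat_lit 94) (nat_lit 0) (nat_lit 84) (XT.lf (nat_lit 84) (nat_lit 276243208) (nat_lit 0) (nat_lit 1300108481) (nat_lit 1680) (nat_lit 7480630927) (nat_lit 359) (nat_lit 5) (nat_lit 358) (nat_lit 5) (nat_lit 378) (nat_lit 5) (nat_lit 279) (nat_lit 268) (nat_lit 173)) (XT.nd (nat_lit 94) (nat_lit 0) (nat_lit 0) (XT.lf (nat_lit 0) (nat_lit 2854979177) (nat_lit 1596) (nat_lit 3955498517) (nat_lit 1680) (nat_lit 2330296385) (nat_lit 359) (nat_lit 5) (nat_lit 378) (nat_lit 5) (nat_lit 379) (nat_lit 5) (nat_lit 280) (nat_lit 268) (nat_lit 172)) (XT.lf (nat_lit 84) (nat_lit 962211487) (nat_lit 0) (nat_lit 3189677872) (nat_lit 1680) (nat_lit 5074736229) (nat_lit 360) (nat_lit 5) (nat_lit 359) (nat_lit 5) (nat_lit 379) (nat_lit 5) (nat_lit 281) (nat_lit 268) (nat_lit 171))))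 (XT.nd (nat_lit 188) (nat_lit 1596) (nat_lit 0) (XT.nd (nat_lit 94) (nat_lit 0) (nat_lit 0) (XT.lf (nat_lit 0) (nat_lit 5484724233) (nat_lit 1596) (nat_lit 3288958219) (nat_lit 1680) (nat_lit 540520743) (nat_lit 360) (nat_lit 5) (nat_lit 379) (nat_lit 5) (nat_lit 380) (nat_lit 5) (nat_lit 282) (nat_lit 268) (nat_lit 170)) (XT.lf (nat_lit 84) (nat_lit 1780206219) (nat_lit 0) (nat_lit 5077454393) (nat_lit 1680) (nat_lit 2545809753) (nat_lit 361) (nat_lit 5) (nat_lit 360) (nat_lit 5) (nat_lit 380) (nat_lit 5) (nat_lit 283) (nat_lit 268) (nat_lit 169))) (XT.nd (nat_lit 94) (nat_lit 1596) (nat_lit 0) (XT.lf (nat_lit 84) (nat_lit 6991973322) (nat_lit 0) (nat_lit 1268411532) (nat_lit 1680) (nat_lit 1234325730) (nat_lit 361) (nat_lit 5) (nat_lit 360) (nat_lit 5) (nat_lit 380) (nat_lit 5) (nat_lit 284) (nat_lit 268) (nat_lit 168)) (XT.lf (nat_lit 0) (nat_lit 118615883) (nat_lit 1680) (nat_lit 6855627942) (nat_lit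 1764) (nat_lit 2613386747) (nat_lit 341) (nat_lit 5) (nat_lit 361) (nat_lit 5) (nat_lit 362) (nat_lit 5) (nat_lit 285) (nat_lit 268) (nat_lit 167))))) (XT.nd (nat_lit 376) (nat_lit 3360) (nat_lit 0) (XT.nd (nat_lit 188) (nat_lit 0) (nat_lit 84) (XT.nd (nat_lit 94) (nat_lit 0) (nat_lit 84) (XT.lf (nat_lit 0) (nat_lit 1487093513) (nat_lit 1680) (nat_lit 1599704758) (nat_lit 1764) (nat_lit 6595512148) (nat_lit 341) (nat_lit 5) (nat_lit 361) (nat_lit 5) (nat_lit 362) (nat_lit 5) (nat_lit 286) (nat_lit 268) (nat_lit 166)) (XT.lf (nat_lit 0) (nat_lit 2895956427) (nat_lit 1680) (nat_lit 5976884429) (nat_lit 1764) (nat_lit 906006232) (nat_lit 342) (nat_lit 5) (nat_lit 362) (nat_lit 5) (nat_lit 363) (nat_lit 5) (nat_lit 287) (nat_lit 268) (nat_lit 165))) (XT.nd (nat_lit 94) (nat_lit 0) (nat_lit 0) (XT.lf (nat_lit 0) (nat_lit 4347201248) (nat_lit 1680) (nat_lit 571909903) (nat_lit 1764) (nat_lit 4958145901) (nat_lit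 342) (nat_lit 5) (nat_lit 362) (nat_lit 5) (nat_lit 363) (nat_lit 5) (nat_lit 288) (nat_lit 268) (nat_lit 164)) (XT.lf (nat_lit 84) (nat_lit 5006010836) (nat_lit 0) (nat_lit 837529658) (nat_lit 1764) (nat_lit 4134001867) (nat_lit 343) (nat_lit 5) (nat_lit 342) (nat_lit 5) (nat_lit 363) (nat_lit 5) (nat_lit 289) (nat_lit 268) (nat_lit 163)))) (XT.nd (nat_lit 188) (nat_lit 1848) (nat_lit 0) (XT.nd (nat_lit 94) (nat_lit 0) (nat_lit 0) (XT.lf (nat_lit 0) (nat_lit 601681946) (nat_lit 1680) (nat_lit 6781300407) (nat_lit 1764) (nat_lit 2696827564) (nat_lit 323) (nat_lit 5) (nat_lit 343) (nat_lit 5) (nat_lit 344) (nat_lit 5) (nat_lit 290) (nat_lit 268) (nat_lit 162)) (XT.lf (nat_lit 0) (nat_lit 6347251803) (nat_lit 1680) (nat_lit 2630054372) (nat_lit 1764) (nat_lit 1206558871) (nat_lit 323) (nat_lit 5) (nat_lit 343) (nat_lit 5) (nat_lit 344) (nat_lit 5) (nat_lit 291) (nat_lit 268) (nat_lit 161))) (XT.nd (nat_lit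 94) (nat_lit 0) (nat_lit 0) (XT.lf (nat_lit 0) (nat_lit 315909918) (nat_lit 1848) (nat_lit 8365541131) (nat_lit 84) (nat_lit 1608621341) (nat_lit 301) (nat_lit 5) (nat_lit 323) (nat_lit 5) (nat_lit 302) (nat_lit 5) (nat_lit 292) (nat_lit 268) (nat_lit 160)) (XT.lf (nat_lit 0) (nat_lit 1880711168) (nat_lit 1848) (nat_lit 2574999991) (nat_lit 84) (nat_lit 5942126722) (nat_lit 301) (nat_lit 5) (nat_lit 323) (nat_lit 5) (nat_lit 302) (nat_lit 5) (nat_lit 293) (nat_lit 268) (nat_lit 159))))))) (XT.nd (nat_lit 1410) (nat_lit 1596) (nat_lit 0) (XT.nd (nat_lit 658) (nat_lit 4200) (nat_lit 0) (XT.nd (nat_lit 282) (nat_lit 1932) (nat_lit 0) (XT.nd (nat_lit 94) (nat_lit 1092) (nat_lit 0) (XT.lf (nat_lit 0) (nat_lit 3373328030) (nat_lit 1848) (nat_lit 110000368) (nat_lit 1932) (nat_lit 7024571227) (nat_lit 279) (nat_lit 5) (nat_lit 301) (nat_lit 5) (nat_lit 302) (nat_lit 5) (nat_lit 294) (nat_lit 268) (nat_lit 158))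 (XT.nd (nat_lit 94) (nat_lit 1092) (nat_lit 0) (XT.lf (nat_lit 0) (nat_lit 5150907557) (nat_lit 1932) (nat_lit 1178501849) (nat_lit 84) (nat_lit 4290319826) (nat_lit 279) (nat_lit 5) (nat_lit 302) (nat_lit 5) (nat_lit 280) (nat_lit 5) (nat_lit 295) (nat_lit 268) (nat_lit 157)) (XT.lf (nat_lit 0) (nat_lit 4961132037) (nat_lit 1092) (nat_lit 1910311755) (nat_lit 1176) (nat_lit 3862217351) (nat_lit 266) (nat_lit 5) (nat_lit 279) (nat_lit 5) (nat_lit 280) (nat_lit 5) (nat_lit 296) (nat_lit 268) (nat_lit 156)))) (XT.nd (nat_lit 188) (nat_lit 1008) (nat_lit 0) (XT.nd (nat_lit 94) (nat_lit 0) (nat_lit 0) (XT.lf (nat_lit 0) (nat_lit 371824359) (nat_lit 924) (nat_lit 8268428440) (nat_lit 1008) (nat_lit 2209617496) (nat_lit 255) (nat_lit 5) (nat_lit 266) (nat_lit 5) (nat_lit 267) (nat_lit 5) (nat_lit 297) (nat_lit 268) (nat_lit 155)) (XT.lf (nat_lit 0) (nat_lit 6705154855) (nat_lit 924) (nat_lit 3779996703) (nat_lit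 1008) (nat_lit 482666618) (nat_lit 255) (nat_lit 5) (nat_lit 266) (nat_lit 5) (nat_lit 267) (nat_lit 5) (nat_lit 298) (nat_lit 268) (nat_lit 154))) (XT.nd (nat_lit 94) (nat_lit 0) (nat_lit 0) (XT.lf (nat_lit 0) (nat_lit 1265651724) (nat_lit 1008) (nat_lit 9001906976) (nat_lit 84) (nat_lit 820560709) (nat_lit 243) (nat_lit 5) (nat_lit 255) (nat_lit 5) (nat_lit 244) (nat_lit 5) (nat_lit 299) (nat_lit 268) (nat_lit 153)) (XT.lf (nat_lit 0) (nat_lit 3085855104) (nat_lit 1008) (nat_lit 2621679370) (nat_lit 84) (nat_lit 5502563900) (nat_lit 243) (nat_lit 5) (nat_lit 255) (nat_lit 5) (nat_lit 244) (nat_lit 5) (nat_lit 300) (nat_lit 268) (nat_lit 152))))) (XT.nd (nat_lit 376) (nat_lit 1680) (nat_lit 0) (XT.nd (nat_lit 188) (nat_lit 1680) (nat_lit 0) (XT.nd (nat_lit 94) (nat_lit 0) (nat_lit 0) (XT.lf (nat_lit 0) (nat_lit 3937553506) (nat_lit 840) (nat_lit 1018294315) (nat_lit 924) (nat_lit 6378698668) (nat_lit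 233) (nat_lit 5) (nat_lit 243) (nat_lit 5) (nat_lit 244) (nat_lit 5) (nat_lit 301) (nat_lit 268) (nat_lit 151)) (XT.lf (nat_lit 0) (nat_lit 6895333431) (nat_lit 924) (nat_lit 826426470) (nat_lit 84) (nat_lit 3739348793) (nat_lit 233) (nat_lit 5) (nat_lit 244) (nat_lit 5) (nat_lit 234) (nat_lit 5) (nat_lit 302) (nat_lit 268) (nat_lit 150))) (XT.nd (nat_lit 94) (nat_lit 840) (nat_lit 0) (XT.lf (nat_lit 0) (nat_lit 5949019068) (nat_lit 840) (nat_lit 2960609920) (nat_lit 924) (nat_lit 2680119173) (nat_lit 223) (nat_lit 5) (nat_lit 233) (nat_lit 5) (nat_lit 234) (nat_lit 5) (nat_lit 303) (nat_lit 268) (nat_lit 149)) (XT.lf (nat_lit 0) (nat_lit 1149529346) (nat_lit 840) (nat_lit 9829220442) (nat_lit 924) (nat_lit 742236672) (nat_lit 213) (nat_lit 5) (nat_lit 223) (nat_lit 5) (nat_lit 224) (nat_lit 5) (nat_lit 304) (nat_lit 268) (nat_lit 148)))) (XT.nd (nat_lit 188) (nat_lit 756) (nat_lit 0) (XT.nd (nat_lit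 94) (nat_lit 840) (nat_lit 0) (XT.lf (nat_lit 0) (nat_lit 1266687639) (nat_lit 924) (nat_lit 3729769739) (nat_lit 84) (nat_lit 6857443213) (nat_lit 212) (nat_lit 5) (nat_lit 223) (nat_lit 5) (nat_lit 213) (nat_lit 5) (nat_lit 305) (nat_lit 268) (nat_lit 147)) (XT.lf (nat_lit 0) (nat_lit 3286444757) (nat_lit 840) (nat_lit 28942655) (nat_lit 924) (nat_lit 8674089438) (nat_lit 202) (nat_lit 5) (nat_lit 212) (nat_lit 5) (nat_lit 213) (nat_lit 5) (nat_lit 306) (nat_lit 268) (nat_lit 146))) (XT.nd (nat_lit 94) (nat_lit 756) (nat_lit 0) (XT.lf (nat_lit 0) (nat_lit 5456189473) (nat_lit 924) (nat_lit 1669017615) (nat_lit 84) (nat_lit 5001794018) (nat_lit 202) (nat_lit 5) (nat_lit 213) (nat_lit 5) (nat_lit 203) (nat_lit 5) (nat_lit 307) (nat_lit 268) (nat_lit 145)) (XT.lf (nat_lit 0) (nat_lit 5582175313) (nat_lit 756) (nat_lit 2085570626) (nat_lit 840) (nat_lit 4599284510) (nat_lit 193) (nat_lit 5) (nat_lit 202)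 (nat_lit 5) (nat_lit 203) (nat_lit 5) (nat_lit 308) (nat_lit 268) (nat_lit 144)))))) (XT.nd (nat_lit 41830) (nat_lit 0) (nat_lit 15372) (XT.nd (nat_lit 41454) (nat_lit 0) (nat_lit 16716) (XT.nd (nat_lit 94) (nat_lit 840) (nat_lit 0) (XT.lf (nat_lit 0) (nat_lit 576356732) (nat_lit 756) (nat_lit 9373852968) (nat_lit 840) (nat_lit 2459441168) (nat_lit 184) (nat_lit 5) (nat_lit 193) (nat_lit 5) (nat_lit 194) (nat_lit 5) (nat_lit 309) (nat_lit 268) (nat_lit 143)) (XT.nd (nat_lit 94) (nat_lit 840) (nat_lit 0) (XT.lf (nat_lit 0) (nat_lit 8063904942) (nat_lit 756) (nat_lit 4267549506) (nat_lit 840) (nat_lit 222886020) (nat_lit 184) (nat_lit 5) (nat_lit 193) (nat_lit 5) (nat_lit 194) (nat_lit 5) (nat_lit 310) (nat_lit 268) (nat_lit 142)) (XT.lf (nat_lit 0) (nat_lit 2046080352) (nat_lit 840) (nat_lit 9683630655) (nat_lit 84) (nat_lit 971894739) (nat_lit 174) (nat_lit 5) (nat_lit 184) (nat_lit 5) (nat_lit 175)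 (nat_lit 5) (nat_lit 311) (nat_lit 268) (nat_lit 141)))) (XT.nd (nat_lit 188) (nat_lit 0) (nat_lit 84) (XT.nd (nat_lit 94) (nat_lit 1596) (nat_lit 0) (XT.lf (nat_lit 0) (nat_lit 1966132494) (nat_lit 0) (nat_lit 1966132494) (nat_lit 1428) (nat_lit 255700069) (nat_lit 392) (nat_lit 5) (nat_lit 392) (nat_lit 3) (nat_lit 409) (nat_lit 3) (nat_lit 269) (nat_lit 269) (nat_lit 182)) (XT.lf (nat_lit 0) (nat_lit 575537692) (nat_lit 1596) (nat_lit 252017174) (nat_lit 1596) (nat_lit 7616718944) (nat_lit 373) (nat_lit 3) (nat_lit 392) (nat_lit 3) (nat_lit 392) (nat_lit 5) (nat_lit 270) (nat_lit 269) (nat_lit 181))) (XT.nd (nat_lit 94) (nat_lit 0) (nat_lit 0) (XT.lf (nat_lit 0) (nat_lit 1693653545) (nat_lit 1512) (nat_lit 4460359909) (nat_lit 1596) (nat_lit 2359700254) (nat_lit 374) (nat_lit 5) (nat_lit 392) (nat_lit 5) (nat_lit 393) (nat_lit 5) (nat_lit 271) (nat_lit 269) (nat_lit 180)) (XT.lf (nat_lit 0) (nat_lit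 2813674912) (nat_lit 1512) (nat_lit 150110192) (nat_lit 1596) (nat_lit 5621395426) (nat_lit 374) (nat_lit 5) (nat_lit 392) (nat_lit 5) (nat_lit 393) (nat_lit 5) (nat_lit 272) (nat_lit 269) (nat_lit 179))))) (XT.nd (nat_lit 376) (nat_lit 1512) (nat_lit 0) (XT.nd (nat_lit 188) (nat_lit 0) (nat_lit 0) (XT.nd (nat_lit 94) (nat_lit 0) (nat_lit 0) (XT.lf (nat_lit 0) (nat_lit 3961470286) (nat_lit 1512) (nat_lit 4360010145) (nat_lit 1596) (nat_lit 336670256) (nat_lit 375) (nat_lit 5) (nat_lit 393) (nat_lit 5) (nat_lit 394) (nat_lit 5) (nat_lit 273) (nat_lit 269) (nat_lit 178)) (XT.lf (nat_lit 84) (nat_lit 76405120) (nat_lit 0) (nat_lit 5052038816) (nat_lit 1596) (nat_lit 3604415860) (nat_lit 376) (nat_lit 5) (nat_lit 375) (nat_lit 5) (nat_lit 394) (nat_lit 5) (nat_lit 274) (nat_lit 269) (nat_lit 177))) (XT.nd (nat_lit 94) (nat_lit 0) (nat_lit 84) (XT.lf (nat_lit 84) (nat_lit 4658757166) (nat_lit 0) (nat_lit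 1665739235) (nat_lit 1596) (nat_lit 2484641187) (nat_lit 376) (nat_lit 5) (nat_lit 375) (nat_lit 5) (nat_lit 394) (nat_lit 5) (nat_lit 275) (nat_lit 269) (nat_lit 176)) (XT.lf (nat_lit 84) (nat_lit 431126142) (nat_lit 0) (nat_lit 7103498123) (nat_lit 1596) (nat_lit 1352738457) (nat_lit 377) (nat_lit 5) (nat_lit 376) (nat_lit 5) (nat_lit 395) (nat_lit 5) (nat_lit 276) (nat_lit 269) (nat_lit 175)))) (XT.nd (nat_lit 188) (nat_lit 0) (nat_lit 84) (XT.nd (nat_lit 94) (nat_lit 1596) (nat_lit 0) (XT.lf (nat_lit 84) (nat_lit 5146108251) (nat_lit 0) (nat_lit 3640349936) (nat_lit 1596) (nat_lit 180518791) (nat_lit 377) (nat_lit 5) (nat_lit 376) (nat_lit 5) (nat_lit 395) (nat_lit 5) (nat_lit 277) (nat_lit 269) (nat_lit 174)) (XT.lf (nat_lit 84) (nat_lit 905235414) (nat_lit 0) (nat_lit 76833402) (nat_lit 1680) (nat_lit 8066571326) (nat_lit 358) (nat_lit 5) (nat_lit 357) (nat_lit 5) (nat_lit 377) (nat_lit 5) (nat_lit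 278) (nat_lit 269) (nat_lit 173))) (XT.nd (nat_lit 94) (nat_lit 0) (nat_lit 0) (XT.lf (nat_lit 0) (nat_lit 2194720138) (nat_lit 1596) (nat_lit 3383582099) (nat_lit 1680) (nat_lit 3553171579) (nat_lit 358) (nat_lit 5) (nat_lit 377) (nat_lit 5) (nat_lit 378) (nat_lit 5) (nat_lit 279) (nat_lit 269) (nat_lit 172)) (XT.lf (nat_lit 84) (nat_lit 1484590567) (nat_lit 0) (nat_lit 1934489402) (nat_lit 1680) (nat_lit 5797379197) (nat_lit 359) (nat_lit 5) (nat_lit 358) (nat_lit 5) (nat_lit 378) (nat_lit 5) (nat_lit 280) (nat_lit 269) (nat_lit 171))))))))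
noncomputable def xc51 : XT := (XT.nd (nat_lit 2820) (nat_lit 84) (nat_lit 0) (XT.nd (nat_lit 1410) (nat_lit 7980) (nat_lit 0) (XT.nd (nat_lit 658) (nat_lit 5124) (nat_lit 0) (XT.nd (nat_lit 282) (nat_lit 1596) (nat_lit 0) (XT.nd (nat_lit 94) (nat_lit 0) (nat_lit 0) (XT.lf (nat_lit 0) (nat_lit 4682694236) (nat_lit 1596) (nat_lit 2822987019) (nat_lit 1680) (nat_lit 1797361932) (nat_lit 359) (nat_lit 5) (nat_lit 378) (nat_lit 5) (nat_lit 379) (nat_lit 5) (nat_lit 281) (nat_lit 269) (nat_lit 170)) (XT.nd (nat_lit 94) (nat_lit 0) (nat_lit 84) (XT.lf (nat_lit 84) (nat_lit 2194098639) (nat_lit 0) (nat_lit 3784669942) (nat_lit 1680) (nat_lit 3412660942) (nat_lit 360) (nat_lit 5) (nat_lit 359) (nat_lit 5) (nat_lit 379) (nat_lit 5) (nat_lit 282) (nat_lit 269) (nat_lit 169)) (XT.lf (nat_lit 0) (nat_lit 7299907975) (nat_lit 1596) (nat_lit 2135641387) (nat_lit 1680) (nat_lit 46286867) (nat_lit 360) (nat_lit 5) (nat_lit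 379) (nat_lit 5) (nat_lit 380) (nat_lit 5) (nat_lit 283) (nat_lit 269) (nat_lit 168)))) (XT.nd (nat_lit 188) (nat_lit 0) (nat_lit 84) (XT.nd (nat_lit 94) (nat_lit 1680) (nat_lit 0) (XT.lf (nat_lit 84) (nat_lit 3036186315) (nat_lit 0) (nat_lit 5639053361) (nat_lit 1680) (nat_lit 898439406) (nat_lit 361) (nat_lit 5) (nat_lit 360) (nat_lit 5) (nat_lit 380) (nat_lit 5) (nat_lit 284) (nat_lit 269) (nat_lit 167)) (XT.lf (nat_lit 0) (nat_lit 399393037) (nat_lit 1680) (nat_lit 1334183841) (nat_lit 1764) (nat_lit 7934075525) (nat_lit 340) (nat_lit 5) (nat_lit 360) (nat_lit 5) (nat_lit 361) (nat_lit 5) (nat_lit 285) (nat_lit 269) (nat_lit 166))) (XT.nd (nat_lit 94) (nat_lit 0) (nat_lit 0) (XT.lf (nat_lit 0) (nat_lit 1734236909) (nat_lit 1680) (nat_lit 5762130823) (nat_lit 1764) (nat_lit 2266704460) (nat_lit 341) (nat_lit 5) (nat_lit 361) (nat_lit 5) (nat_lit 362) (nat_lit 5) (nat_lit 286) (nat_lit 269) (nat_lit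 165)) (XT.lf (nat_lit 0) (nat_lit 3098098685) (nat_lit 1680) (nat_lit 417363103) (nat_lit 1764) (nat_lit 6345137099) (nat_lit 341) (nat_lit 5) (nat_lit 361) (nat_lit 5) (nat_lit 362) (nat_lit 5) (nat_lit 287) (nat_lit 269) (nat_lit 164))))) (XT.nd (nat_lit 376) (nat_lit 3696) (nat_lit 0) (XT.nd (nat_lit 188) (nat_lit 1596) (nat_lit 0) (XT.nd (nat_lit 94) (nat_lit 0) (nat_lit 0) (XT.lf (nat_lit 0) (nat_lit 4510140043) (nat_lit 1680) (nat_lit 4863024186) (nat_lit 1764) (nat_lit 586707098) (nat_lit 342) (nat_lit 5) (nat_lit 362) (nat_lit 5) (nat_lit 363) (nat_lit 5) (nat_lit 288) (nat_lit 269) (nat_lit 163)) (XT.lf (nat_lit 84) (nat_lit 643317637) (nat_lit 0) (nat_lit 5321200993) (nat_lit 1764) (nat_lit 4096561140) (nat_lit 343) (nat_lit 5) (nat_lit 342) (nat_lit 5) (nat_lit 363) (nat_lit 5) (nat_lit 289) (nat_lit 269) (nat_lit 162))) (XT.nd (nat_lit 94) (nat_lit 1596) (nat_lit 0) (XT.lf (nat_lit 84) (nat_lit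 6325879991) (nat_lit 0) (nat_lit 1139274434) (nat_lit 1764) (nat_lit 2699046635) (nat_lit 343) (nat_lit 5) (nat_lit 342) (nat_lit 5) (nat_lit 363) (nat_lit 5) (nat_lit 290) (nat_lit 269) (nat_lit 161)) (XT.lf (nat_lit 0) (nat_lit 1850526093) (nat_lit 1680) (nat_lit 7162624578) (nat_lit 1764) (nat_lit 1256124725) (nat_lit 323) (nat_lit 5) (nat_lit 343) (nat_lit 5) (nat_lit 344) (nat_lit 5) (nat_lit 291) (nat_lit 269) (nat_lit 160)))) (XT.nd (nat_lit 188) (nat_lit 1848) (nat_lit 0) (XT.nd (nat_lit 94) (nat_lit 1764) (nat_lit 0) (XT.lf (nat_lit 0) (nat_lit 231259983) (nat_lit 1764) (nat_lit 2682085936) (nat_lit 84) (nat_lit 7462932143) (nat_lit 322) (nat_lit 5) (nat_lit 343) (nat_lit 5) (nat_lit 323) (nat_lit 5) (nat_lit 292) (nat_lit 269) (nat_lit 159)) (XT.lf (nat_lit 0) (nat_lit 1745576288) (nat_lit 1848) (nat_lit 7295547733) (nat_lit 84) (nat_lit 1444030201) (nat_lit 301) (nat_lit 5) (nat_lit 323) (nat_lit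 5) (nat_lit 302) (nat_lit 5) (nat_lit 293) (nat_lit 269) (nat_lit 158))) (XT.nd (nat_lit 94) (nat_lit 1848) (nat_lit 0) (XT.lf (nat_lit 0) (nat_lit 3314177177) (nat_lit 1848) (nat_lit 1404609577) (nat_lit 84) (nat_lit 5877177572) (nat_lit 301) (nat_lit 5) (nat_lit 323) (nat_lit 5) (nat_lit 302) (nat_lit 5) (nat_lit 294) (nat_lit 269) (nat_lit 157)) (XT.lf (nat_lit 0) (nat_lit 4665713431) (nat_lit 1848) (nat_lit 265049163) (nat_lit 1932) (nat_lit 5778153201) (nat_lit 279) (nat_lit 5) (nat_lit 301) (nat_lit 5) (nat_lit 302) (nat_lit 5) (nat_lit 295) (nat_lit 269) (nat_lit 156)))))) (XT.nd (nat_lit 658) (nat_lit 4116) (nat_lit 0) (XT.nd (nat_lit 282) (nat_lit 1848) (nat_lit 0) (XT.nd (nat_lit 94) (nat_lit 924) (nat_lit 0) (XT.lf (nat_lit 0) (nat_lit 18357052) (nat_lit 1092) (nat_lit 6586229961) (nat_lit 1176) (nat_lit 4219288353) (nat_lit 266) (nat_lit 5) (nat_lit 279) (nat_lit 5) (nat_lit 280) (nat_lit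 5) (nat_lit 296) (nat_lit 269) (nat_lit 155)) (XT.nd (nat_lit 94) (nat_lit 924) (nat_lit 0) (XT.lf (nat_lit 0) (nat_lit 6283962915) (nat_lit 1092) (nat_lit 2058676415) (nat_lit 1176) (nat_lit 2598121834) (nat_lit 266) (nat_lit 5) (nat_lit 279) (nat_lit 5) (nat_lit 280) (nat_lit 5) (nat_lit 297) (nat_lit 269) (nat_lit 154)) (XT.lf (nat_lit 0) (nat_lit 1614501388) (nat_lit 924) (nat_lit 8515497812) (nat_lit 1008) (nat_lit 929975703) (nat_lit 255) (nat_lit 5) (nat_lit 266) (nat_lit 5) (nat_lit 267) (nat_lit 5) (nat_lit 298) (nat_lit 269) (nat_lit 153)))) (XT.nd (nat_lit 188) (nat_lit 840) (nat_lit 0) (XT.nd (nat_lit 94) (nat_lit 924) (nat_lit 0) (XT.lf (nat_lit 0) (nat_lit 794761180) (nat_lit 1008) (nat_lit 3126286278) (nat_lit 84) (nat_lit 7259959306) (nat_lit 254) (nat_lit 5) (nat_lit 266) (nat_lit 5) (nat_lit 255) (nat_lit 5) (nat_lit 299) (nat_lit 269) (nat_lit 152)) (XT.lf (nat_lit 0) (nat_lit 2555222759)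 (nat_lit 1008) (nat_lit 7954092192) (nat_lit 84) (nat_lit 794985098) (nat_lit 243) (nat_lit 5) (nat_lit 255) (nat_lit 5) (nat_lit 244) (nat_lit 5) (nat_lit 300) (nat_lit 269) (nat_lit 151))) (XT.nd (nat_lit 94) (nat_lit 840) (nat_lit 0) (XT.lf (nat_lit 0) (nat_lit 4388310156) (nat_lit 1008) (nat_lit 1460318412) (nat_lit 84) (nat_lit 5580931513) (nat_lit 243) (nat_lit 5) (nat_lit 255) (nat_lit 5) (nat_lit 244) (nat_lit 5) (nat_lit 301) (nat_lit 269) (nat_lit 150)) (XT.lf (nat_lit 0) (nat_lit 5234407195) (nat_lit 840) (nat_lit 1047080464) (nat_lit 924) (nat_lit 5275653406) (nat_lit 233) (nat_lit 5) (nat_lit 243) (nat_lit 5) (nat_lit 244) (nat_lit 5) (nat_lit 302) (nat_lit 269) (nat_lit 149))))) (XT.nd (nat_lit 376) (nat_lit 2352) (nat_lit 0) (XT.nd (nat_lit 188) (nat_lit 924) (nat_lit 0) (XT.nd (nat_lit 94) (nat_lit 0) (nat_lit 0) (XT.lf (nat_lit 0) (nat_lit 371147272) (nat_lit 840) (nat_lit 7868904674)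 (nat_lit 924) (nat_lit 3446954674) (nat_lit 223) (nat_lit 5) (nat_lit 233) (nat_lit 5) (nat_lit 234) (nat_lit 5) (nat_lit 303) (nat_lit 269) (nat_lit 148)) (XT.lf (nat_lit 0) (nat_lit 7281558880) (nat_lit 840) (nat_lit 2997394512) (nat_lit 924) (nat_lit 1539956353) (nat_lit 223) (nat_lit 5) (nat_lit 233) (nat_lit 5) (nat_lit 234) (nat_lit 5) (nat_lit 304) (nat_lit 269) (nat_lit 147))) (XT.nd (nat_lit 94) (nat_lit 0) (nat_lit 0) (XT.lf (nat_lit 0) (nat_lit 417714190) (nat_lit 924) (nat_lit 9563193201) (nat_lit 84) (nat_lit 1972421853) (nat_lit 212) (nat_lit 5) (nat_lit 223) (nat_lit 5) (nat_lit 213) (nat_lit 5) (nat_lit 305) (nat_lit 269) (nat_lit 146)) (XT.lf (nat_lit 0) (nat_lit 2434823169) (nat_lit 924) (nat_lit 2602986585) (nat_lit 84) (nat_lit 7051790746) (nat_lit 212) (nat_lit 5) (nat_lit 223) (nat_lit 5) (nat_lit 213) (nat_lit 5) (nat_lit 306) (nat_lit 269) (nat_lit 145)))) (XT.nd (nat_lit 188)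 (nat_lit 1512) (nat_lit 0) (XT.nd (nat_lit 94) (nat_lit 0) (nat_lit 0) (XT.lf (nat_lit 0) (nat_lit 4512926505) (nat_lit 924) (nat_lit 7669992877) (nat_lit 84) (nat_lit 45584747) (nat_lit 202) (nat_lit 5) (nat_lit 213) (nat_lit 5) (nat_lit 203) (nat_lit 5) (nat_lit 307) (nat_lit 269) (nat_lit 144)) (XT.lf (nat_lit 0) (nat_lit 6676823753) (nat_lit 924) (nat_lit 507795473) (nat_lit 84) (nat_lit 5184962746) (nat_lit 202) (nat_lit 5) (nat_lit 213) (nat_lit 5) (nat_lit 203) (nat_lit 5) (nat_lit 308) (nat_lit 269) (nat_lit 143))) (XT.nd (nat_lit 94) (nat_lit 756) (nat_lit 0) (XT.lf (nat_lit 0) (nat_lit 6894265785) (nat_lit 756) (nat_lit 2027548280) (nat_lit 840) (nat_lit 3591212743) (nat_lit 193) (nat_lit 5) (nat_lit 202) (nat_lit 5) (nat_lit 203) (nat_lit 5) (nat_lit 309) (nat_lit 269) (nat_lit 142)) (XT.lf (nat_lit 0) (nat_lit 1792694798) (nat_lit 756) (nat_lit 9447731084) (nat_lit 840) (nat_lit 1418668450)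 (nat_lit 184) (nat_lit 5) (nat_lit 193) (nat_lit 5) (nat_lit 194) (nat_lit 5) (nat_lit 310) (nat_lit 269) (nat_lit 141))))))) (XT.nd (nat_lit 42676) (nat_lit 0) (nat_lit 6972) (XT.nd (nat_lit 41924) (nat_lit 0) (nat_lit 14616) (XT.nd (nat_lit 41548) (nat_lit 0) (nat_lit 16044) (XT.nd (nat_lit 41360) (nat_lit 0) (nat_lit 15960) (XT.lf (nat_lit 0) (nat_lit 831372653) (nat_lit 840) (nat_lit 3394424446) (nat_lit 84) (nat_lit 8581545169) (nat_lit 183) (nat_lit 5) (nat_lit 193) (nat_lit 5) (nat_lit 184) (nat_lit 5) (nat_lit 311) (nat_lit 269) (nat_lit 140)) (XT.nd (nat_lit 94) (nat_lit 0) (nat_lit 0) (XT.lf (nat_lit 0) (nat_lit 819825326) (nat_lit 1596) (nat_lit 1718306702) (nat_lit 1596) (nat_lit 1718306702) (nat_lit 373) (nat_lit 3) (nat_lit 392) (nat_lit 3) (nat_lit 392) (nat_lit 5) (nat_lit 270) (nat_lit 270) (nat_lit 180)) (XT.lf (nat_lit 84) (nat_lit 831805979) (nat_lit 0) (nat_lit 1870707886) (nat_lit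 1596) (nat_lit 5881019052) (nat_lit 374) (nat_lit 5) (nat_lit 373) (nat_lit 3) (nat_lit 392) (nat_lit 5) (nat_lit 271) (nat_lit 270) (nat_lit 179)))) (XT.nd (nat_lit 188) (nat_lit 0) (nat_lit 0) (XT.nd (nat_lit 94) (nat_lit 0) (nat_lit 0) (XT.lf (nat_lit 0) (nat_lit 3794405548) (nat_lit 1512) (nat_lit 3436203379) (nat_lit 1596) (nat_lit 1425009666) (nat_lit 374) (nat_lit 5) (nat_lit 392) (nat_lit 5) (nat_lit 393) (nat_lit 5) (nat_lit 272) (nat_lit 270) (nat_lit 178)) (XT.lf (nat_lit 84) (nat_lit 958518786) (nat_lit 0) (nat_lit 3942956770) (nat_lit 1596) (nat_lit 3828009152) (nat_lit 375) (nat_lit 5) (nat_lit 374) (nat_lit 5) (nat_lit 393) (nat_lit 5) (nat_lit 273) (nat_lit 270) (nat_lit 177))) (XT.nd (nat_lit 94) (nat_lit 0) (nat_lit 84) (XT.lf (nat_lit 84) (nat_lit 5485430264) (nat_lit 0) (nat_lit 544079933) (nat_lit 1596) (nat_lit 2775540278) (nat_lit 375) (nat_lit 5) (nat_lit 374) (nat_lit 5) (nat_lit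 393) (nat_lit 5) (nat_lit 274) (nat_lit 270) (nat_lit 176)) (XT.lf (nat_lit 84) (nat_lit 1210031298) (nat_lit 0) (nat_lit 5973755487) (nat_lit 1596) (nat_lit 1698460551) (nat_lit 376) (nat_lit 5) (nat_lit 375) (nat_lit 5) (nat_lit 394) (nat_lit 5) (nat_lit 275) (nat_lit 270) (nat_lit 175))))) (XT.nd (nat_lit 376) (nat_lit 0) (nat_lit 84) (XT.nd (nat_lit 188) (nat_lit 0) (nat_lit 0) (XT.nd (nat_lit 94) (nat_lit 1512) (nat_lit 0) (XT.lf (nat_lit 84) (nat_lit 5868828361) (nat_lit 0) (nat_lit 2495508607) (nat_lit 1596) (nat_lit 596786211) (nat_lit 376) (nat_lit 5) (nat_lit 375) (nat_lit 5) (nat_lit 394) (nat_lit 5) (nat_lit 276) (nat_lit 270) (nat_lit 174)) (XT.lf (nat_lit 0) (nat_lit 513398587) (nat_lit 1596) (nat_lit 7458315211) (nat_lit 1680) (nat_lit 1070115889) (nat_lit 357) (nat_lit 5) (nat_lit 376) (nat_lit 5) (nat_lit 377) (nat_lit 5) (nat_lit 277) (nat_lit 270) (nat_lit 173))) (XT.nd (nat_lit 94)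 (nat_lit 0) (nat_lit 0) (XT.lf (nat_lit 0) (nat_lit 1653768713) (nat_lit 1596) (nat_lit 2754777361) (nat_lit 1680) (nat_lit 4715350071) (nat_lit 357) (nat_lit 5) (nat_lit 376) (nat_lit 5) (nat_lit 377) (nat_lit 5) (nat_lit 278) (nat_lit 270) (nat_lit 172)) (XT.lf (nat_lit 84) (nat_lit 2065683882) (nat_lit 0) (nat_lit 742202477) (nat_lit 1680) (nat_lit 6400131201) (nat_lit 358) (nat_lit 5) (nat_lit 357) (nat_lit 5) (nat_lit 377) (nat_lit 5) (nat_lit 279) (nat_lit 270) (nat_lit 171)))) (XT.nd (nat_lit 188) (nat_lit 0) (nat_lit 84) (XT.nd (nat_lit 94) (nat_lit 0) (nat_lit 0) (XT.lf (nat_lit 0) (nat_lit 4003752014) (nat_lit 1596) (nat_lit 2298575216) (nat_lit 1680) (nat_lit 2991302553) (nat_lit 358) (nat_lit 5) (nat_lit 377) (nat_lit 5) (nat_lit 378) (nat_lit 5) (nat_lit 280) (nat_lit 270) (nat_lit 170)) (XT.lf (nat_lit 84) (nat_lit 2668317549) (nat_lit 0) (nat_lit 2557026927) (nat_lit 1680) (nat_lit 4155793807)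 (nat_lit 359) (nat_lit 5) (nat_lit 358) (nat_lit 5) (nat_lit 378) (nat_lit 5) (nat_lit 281) (nat_lit 270) (nat_lit 169))) (XT.nd (nat_lit 94) (nat_lit 0) (nat_lit 0) (XT.lf (nat_lit 0) (nat_lit 6475452671) (nat_lit 1596) (nat_lit 1717499485) (nat_lit 1680) (nat_lit 1277583720) (nat_lit 359) (nat_lit 5) (nat_lit 378) (nat_lit 5) (nat_lit 379) (nat_lit 5) (nat_lit 282) (nat_lit 270) (nat_lit 168)) (XT.lf (nat_lit 84) (nat_lit 3401523473) (nat_lit 0) (nat_lit 4370400078) (nat_lit 1680) (nat_lit 1789561737) (nat_lit 360) (nat_lit 5) (nat_lit 359) (nat_lit 5) (nat_lit 379) (nat_lit 5) (nat_lit 283) (nat_lit 270) (nat_lit 167)))))) (XT.nd (nat_lit 658) (nat_lit 6216) (nat_lit 0) (XT.nd (nat_lit 282) (nat_lit 0) (nat_lit 84) (XT.nd (nat_lit 94) (nat_lit 1596) (nat_lit 0) (XT.lf (nat_lit 84) (nat_lit 8642362755) (nat_lit 0) (nat_lit 443654593) (nat_lit 1680) (nat_lit 568658027) (nat_lit 360) (nat_lit 5) (nat_lit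 359) (nat_lit 5) (nat_lit 379) (nat_lit 5) (nat_lit 284) (nat_lit 270) (nat_lit 166)) (XT.nd (nat_lit 94) (nat_lit 0) (nat_lit 0) (XT.lf (nat_lit 0) (nat_lit 702363049) (nat_lit 1680) (nat_lit 5486295789) (nat_lit 1764) (nat_lit 3560423530) (nat_lit 340) (nat_lit 5) (nat_lit 360) (nat_lit 5) (nat_lit 361) (nat_lit 5) (nat_lit 285) (nat_lit 270) (nat_lit 165)) (XT.lf (nat_lit 0) (nat_lit 1980922391) (nat_lit 1680) (nat_lit 200638402) (nat_lit 1764) (nat_lit 7664179623) (nat_lit 340) (nat_lit 5) (nat_lit 360) (nat_lit 5) (nat_lit 361) (nat_lit 5) (nat_lit 286) (nat_lit 270) (nat_lit 164)))) (XT.nd (nat_lit 188) (nat_lit 0) (nat_lit 84) (XT.nd (nat_lit 94) (nat_lit 0) (nat_lit 0) (XT.lf (nat_lit 0) (nat_lit 3316704323) (nat_lit 1680) (nat_lit 4697571714) (nat_lit 1764) (nat_lit 1929608831) (nat_lit 341) (nat_lit 5) (nat_lit 361) (nat_lit 5) (nat_lit 362) (nat_lit 5) (nat_lit 287) (nat_lit 270) (nat_lit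 163)) (XT.lf (nat_lit 84) (nat_lit 749937399) (nat_lit 0) (nat_lit 3932732087) (nat_lit 1764) (nat_lit 5361501499) (nat_lit 342) (nat_lit 5) (nat_lit 341) (nat_lit 5) (nat_lit 362) (nat_lit 5) (nat_lit 288) (nat_lit 270) (nat_lit 162))) (XT.nd (nat_lit 94) (nat_lit 0) (nat_lit 0) (XT.lf (nat_lit 0) (nat_lit 6093801923) (nat_lit 1680) (nat_lit 3777697864) (nat_lit 1764) (nat_lit 274831056) (nat_lit 342) (nat_lit 5) (nat_lit 362) (nat_lit 5) (nat_lit 363) (nat_lit 5) (nat_lit 289) (nat_lit 270) (nat_lit 161)) (XT.lf (nat_lit 84) (nat_lit 1841166239) (nat_lit 0) (nat_lit 5715487693) (nat_lit 1764) (nat_lit 2693629445) (nat_lit 343) (nat_lit 5) (nat_lit 342) (nat_lit 5) (nat_lit 363) (nat_lit 5) (nat_lit 290) (nat_lit 270) (nat_lit 160))))) (XT.nd (nat_lit 376) (nat_lit 2940) (nat_lit 0) (XT.nd (nat_lit 188) (nat_lit 1764) (nat_lit 0) (XT.nd (nat_lit 94) (nat_lit 1680) (nat_lit 0) (XT.lf (nat_lit 84) (nat_lit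 7623264237) (nat_lit 0) (nat_lit 1435591189) (nat_lit 1764) (nat_lit 1297509770) (nat_lit 343) (nat_lit 5) (nat_lit 342) (nat_lit 5) (nat_lit 363) (nat_lit 5) (nat_lit 291) (nat_lit 270) (nat_lit 159)) (XT.lf (nat_lit 0) (nat_lit 150193121) (nat_lit 1764) (nat_lit 7391148857) (nat_lit 84) (nat_lit 2922918484) (nat_lit 322) (nat_lit 5) (nat_lit 343) (nat_lit 5) (nat_lit 323) (nat_lit 5) (nat_lit 292) (nat_lit 270) (nat_lit 158))) (XT.nd (nat_lit 94) (nat_lit 1764) (nat_lit 0) (XT.lf (nat_lit 0) (nat_lit 1621340235) (nat_lit 1764) (nat_lit 1563334088) (nat_lit 84) (nat_lit 7389412022) (nat_lit 322) (nat_lit 5) (nat_lit 343) (nat_lit 5) (nat_lit 323) (nat_lit 5) (nat_lit 293) (nat_lit 270) (nat_lit 157)) (XT.lf (nat_lit 0) (nat_lit 3146102610) (nat_lit 1848) (nat_lit 6255423156) (nat_lit 84) (nat_lit 1284335129) (nat_lit 301) (nat_lit 5) (nat_lit 323) (nat_lit 5) (nat_lit 302) (nat_lit 5) (nat_lit 294)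 (nat_lit 270) (nat_lit 156)))) (XT.nd (nat_lit 188) (nat_lit 1092) (nat_lit 0) (XT.nd (nat_lit 94) (nat_lit 1848) (nat_lit 0) (XT.lf (nat_lit 0) (nat_lit 4719891075) (nat_lit 1848) (nat_lit 260729552) (nat_lit 84) (nat_lit 5819133270) (nat_lit 301) (nat_lit 5) (nat_lit 323) (nat_lit 5) (nat_lit 302) (nat_lit 5) (nat_lit 295) (nat_lit 270) (nat_lit 155)) (XT.lf (nat_lit 0) (nat_lit 5934650027) (nat_lit 1848) (nat_lit 417008656) (nat_lit 1932) (nat_lit 4563980036) (nat_lit 279) (nat_lit 5) (nat_lit 301) (nat_lit 5) (nat_lit 302) (nat_lit 5) (nat_lit 296) (nat_lit 270) (nat_lit 154))) (XT.nd (nat_lit 94) (nat_lit 0) (nat_lit 0) (XT.lf (nat_lit 0) (nat_lit 1206320567) (nat_lit 1092) (nat_lit 6835175751) (nat_lit 1176) (nat_lit 2992088922) (nat_lit 266) (nat_lit 5) (nat_lit 279) (nat_lit 5) (nat_lit 280) (nat_lit 5) (nat_lit 297) (nat_lit 270) (nat_lit 153)) (XT.lf (nat_lit 0) (nat_lit 7584205853) (nat_lit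 1092) (nat_lit 2205776230) (nat_lit 1176) (nat_lit 1363672124) (nat_lit 266) (nat_lit 5) (nat_lit 279) (nat_lit 5) (nat_lit 280) (nat_lit 5) (nat_lit 298) (nat_lit 270) (nat_lit 152))))))))
noncomputable def xc52 : XT := (XT.nd (nat_lit 44180) (nat_lit 0) (nat_lit 756) (XT.nd (nat_lit 42770) (nat_lit 0) (nat_lit 13020) (XT.nd (nat_lit 658) (nat_lit 3276) (nat_lit 0) (XT.nd (nat_lit 282) (nat_lit 1680) (nat_lit 0) (XT.nd (nat_lit 94) (nat_lit 924) (nat_lit 0) (XT.lf (nat_lit 0) (nat_lit 316621624) (nat_lit 1008) (nat_lit 8446267116) (nat_lit 84) (nat_lit 2512980469) (nat_lit 254) (nat_lit 5) (nat_lit 266) (nat_lit 5) (nat_lit 255) (nat_lit 5) (nat_lit 299) (nat_lit 270) (nat_lit 151)) (XT.nd (nat_lit 94) (nat_lit 924) (nat_lit 0) (XT.lf (nat_lit 0) (nat_lit 2038632914) (nat_lit 1008) (nat_lit 2020664730) (nat_lit 84) (nat_lit 7340710755) (nat_lit 254) (nat_lit 5) (nat_lit 266) (nat_lit 5) (nat_lit 255)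 (nat_lit 5) (nat_lit 300) (nat_lit 270) (nat_lit 150)) (XT.lf (nat_lit 0) (nat_lit 3819428110) (nat_lit 1008) (nat_lit 6936285836) (nat_lit 84) (nat_lit 770704914) (nat_lit 243) (nat_lit 5) (nat_lit 255) (nat_lit 5) (nat_lit 244) (nat_lit 5) (nat_lit 301) (nat_lit 270) (nat_lit 149)))) (XT.nd (nat_lit 188) (nat_lit 840) (nat_lit 0) (XT.nd (nat_lit 94) (nat_lit 840) (nat_lit 0) (XT.lf (nat_lit 0) (nat_lit 5666839721) (nat_lit 1008) (nat_lit 325325667) (nat_lit 84) (nat_lit 5662841306) (nat_lit 243) (nat_lit 5) (nat_lit 255) (nat_lit 5) (nat_lit 244) (nat_lit 5) (nat_lit 302) (nat_lit 270) (nat_lit 148)) (XT.lf (nat_lit 0) (nat_lit 6508248740) (nat_lit 840) (nat_lit 1076228031) (nat_lit 924) (nat_lit 4201295877) (nat_lit 233) (nat_lit 5) (nat_lit 243) (nat_lit 5) (nat_lit 244) (nat_lit 5) (nat_lit 303) (nat_lit 270) (nat_lit 147))) (XT.nd (nat_lit 94) (nat_lit 0) (nat_lit 0) (XT.lf (nat_lit 0) (nat_lit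 1555106438) (nat_lit 840) (nat_lit 8014281999) (nat_lit 924) (nat_lit 2349475111) (nat_lit 223) (nat_lit 5) (nat_lit 233) (nat_lit 5) (nat_lit 234) (nat_lit 5) (nat_lit 304) (nat_lit 270) (nat_lit 146)) (XT.lf (nat_lit 0) (nat_lit 8592236468) (nat_lit 840) (nat_lit 3036195726) (nat_lit 924) (nat_lit 425780045) (nat_lit 223) (nat_lit 5) (nat_lit 233) (nat_lit 5) (nat_lit 234) (nat_lit 5) (nat_lit 305) (nat_lit 270) (nat_lit 145))))) (XT.nd (nat_lit 376) (nat_lit 756) (nat_lit 0) (XT.nd (nat_lit 188) (nat_lit 1596) (nat_lit 0) (XT.nd (nat_lit 94) (nat_lit 0) (nat_lit 0) (XT.lf (nat_lit 0) (nat_lit 1542626409) (nat_lit 924) (nat_lit 8590767317) (nat_lit 84) (nat_lit 2058362865) (nat_lit 212) (nat_lit 5) (nat_lit 223) (nat_lit 5) (nat_lit 213) (nat_lit 5) (nat_lit 306) (nat_lit 270) (nat_lit 144)) (XT.lf (nat_lit 0) (nat_lit 3580094276) (nat_lit 924) (nat_lit 1502897951) (nat_lit 84) (nat_lit 7248561974)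 (nat_lit 212) (nat_lit 5) (nat_lit 223) (nat_lit 5) (nat_lit 213) (nat_lit 5) (nat_lit 307) (nat_lit 270) (nat_lit 143))) (XT.nd (nat_lit 94) (nat_lit 756) (nat_lit 0) (XT.lf (nat_lit 0) (nat_lit 5689117063) (nat_lit 924) (nat_lit 6666579560) (nat_lit 84) (nat_lit 118142660) (nat_lit 202) (nat_lit 5) (nat_lit 213) (nat_lit 5) (nat_lit 203) (nat_lit 5) (nat_lit 308) (nat_lit 270) (nat_lit 142)) (XT.lf (nat_lit 0) (nat_lit 637130635) (nat_lit 756) (nat_lit 7244845914) (nat_lit 840) (nat_lit 4736454448) (nat_lit 193) (nat_lit 5) (nat_lit 202) (nat_lit 5) (nat_lit 203) (nat_lit 5) (nat_lit 309) (nat_lit 270) (nat_lit 141)))) (XT.nd (nat_lit 41548) (nat_lit 0) (nat_lit 15876) (XT.nd (nat_lit 94) (nat_lit 756) (nat_lit 0) (XT.lf (nat_lit 0) (nat_lit 8184571354) (nat_lit 756) (nat_lit 1972674695) (nat_lit 840) (nat_lit 2608206003) (nat_lit 193) (nat_lit 5) (nat_lit 202) (nat_lit 5) (nat_lit 203) (nat_lit 5)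 (nat_lit 310) (nat_lit 270) (nat_lit 140)) (XT.lf (nat_lit 0) (nat_lit 2984529159) (nat_lit 756) (nat_lit 9528871089) (nat_lit 840) (nat_lit 401629089) (nat_lit 184) (nat_lit 5) (nat_lit 193) (nat_lit 5) (nat_lit 194) (nat_lit 5) (nat_lit 311) (nat_lit 270) (nat_lit 139))) (XT.nd (nat_lit 94) (nat_lit 0) (nat_lit 0) (XT.lf (nat_lit 0) (nat_lit 1869363046) (nat_lit 1596) (nat_lit 1229012151) (nat_lit 1596) (nat_lit 1229012151) (nat_lit 373) (nat_lit 3) (nat_lit 392) (nat_lit 3) (nat_lit 392) (nat_lit 5) (nat_lit 271) (nat_lit 271) (nat_lit 178)) (XT.lf (nat_lit 84) (nat_lit 1896681293) (nat_lit 0) (nat_lit 2891336938) (nat_lit 1596) (nat_lit 3939779331) (nat_lit 374) (nat_lit 5) (nat_lit 373) (nat_lit 3) (nat_lit 392) (nat_lit 5) (nat_lit 272) (nat_lit 271) (nat_lit 177)))))) (XT.nd (nat_lit 658) (nat_lit 1428) (nat_lit 0) (XT.nd (nat_lit 282) (nat_lit 1512) (nat_lit 0) (XT.nd (nat_lit 94) (nat_lit 0)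 (nat_lit 0) (XT.lf (nat_lit 0) (nat_lit 5853491121) (nat_lit 1512) (nat_lit 2437312885) (nat_lit 1596) (nat_lit 511774807) (nat_lit 374) (nat_lit 5) (nat_lit 392) (nat_lit 5) (nat_lit 393) (nat_lit 5) (nat_lit 273) (nat_lit 271) (nat_lit 176)) (XT.nd (nat_lit 94) (nat_lit 0) (nat_lit 0) (XT.lf (nat_lit 84) (nat_lit 2046327494) (nat_lit 0) (nat_lit 4903659903) (nat_lit 1596) (nat_lit 1928851028) (nat_lit 375) (nat_lit 5) (nat_lit 374) (nat_lit 5) (nat_lit 393) (nat_lit 5) (nat_lit 274) (nat_lit 271) (nat_lit 175)) (XT.lf (nat_lit 84) (nat_lit 6649868335) (nat_lit 0) (nat_lit 1411194588) (nat_lit 1596) (nat_lit 895922786) (nat_lit 375) (nat_lit 5) (nat_lit 374) (nat_lit 5) (nat_lit 393) (nat_lit 5) (nat_lit 275) (nat_lit 271) (nat_lit 174)))) (XT.nd (nat_lit 188) (nat_lit 0) (nat_lit 84) (XT.nd (nat_lit 94) (nat_lit 0) (nat_lit 0) (XT.lf (nat_lit 0) (nat_lit 162500237) (nat_lit 1596) (nat_lit 6717527598)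 (nat_lit 1680) (nat_lit 2156687806) (nat_lit 356) (nat_lit 5) (nat_lit 375) (nat_lit 5) (nat_lit 376) (nat_lit 5) (nat_lit 276) (nat_lit 271) (nat_lit 173)) (XT.lf (nat_lit 0) (nat_lit 1231868719) (nat_lit 1596) (nat_lit 2068786514) (nat_lit 1680) (nat_lit 5817382248) (nat_lit 356) (nat_lit 5) (nat_lit 375) (nat_lit 5) (nat_lit 376) (nat_lit 5) (nat_lit 277) (nat_lit 271) (nat_lit 172))) (XT.nd (nat_lit 94) (nat_lit 0) (nat_lit 0) (XT.lf (nat_lit 0) (nat_lit 2320781098) (nat_lit 1596) (nat_lit 6498292166) (nat_lit 1680) (nat_lit 382162745) (nat_lit 357) (nat_lit 5) (nat_lit 376) (nat_lit 5) (nat_lit 377) (nat_lit 5) (nat_lit 278) (nat_lit 271) (nat_lit 171)) (XT.lf (nat_lit 0) (nat_lit 3447576030) (nat_lit 1596) (nat_lit 1715474460) (nat_lit 1680) (nat_lit 4122908034) (nat_lit 357) (nat_lit 5) (nat_lit 376) (nat_lit 5) (nat_lit 377) (nat_lit 5) (nat_lit 279) (nat_lit 271) (nat_lit 170))))) (XT.nd (nat_lit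 376) (nat_lit 1512) (nat_lit 0) (XT.nd (nat_lit 188) (nat_lit 0) (nat_lit 84) (XT.nd (nat_lit 94) (nat_lit 0) (nat_lit 84) (XT.lf (nat_lit 84) (nat_lit 3203087530) (nat_lit 0) (nat_lit 1393943960) (nat_lit 1680) (nat_lit 4775560281) (nat_lit 358) (nat_lit 5) (nat_lit 357) (nat_lit 5) (nat_lit 377) (nat_lit 5) (nat_lit 280) (nat_lit 271) (nat_lit 169)) (XT.lf (nat_lit 0) (nat_lit 5777593299) (nat_lit 1596) (nat_lit 1239078337) (nat_lit 1680) (nat_lit 2444331309) (nat_lit 358) (nat_lit 5) (nat_lit 377) (nat_lit 5) (nat_lit 378) (nat_lit 5) (nat_lit 281) (nat_lit 271) (nat_lit 168))) (XT.nd (nat_lit 94) (nat_lit 0) (nat_lit 84) (XT.lf (nat_lit 84) (nat_lit 3829063256) (nat_lit 0) (nat_lit 3168559302) (nat_lit 1680) (nat_lit 2553439717) (nat_lit 359) (nat_lit 5) (nat_lit 358) (nat_lit 5) (nat_lit 378) (nat_lit 5) (nat_lit 282) (nat_lit 271) (nat_lit 167)) (XT.lf (nat_lit 0) (nat_lit 8235686727) (nat_lit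 1596) (nat_lit 637418381) (nat_lit 1680) (nat_lit 770191526) (nat_lit 359) (nat_lit 5) (nat_lit 378) (nat_lit 5) (nat_lit 379) (nat_lit 5) (nat_lit 283) (nat_lit 271) (nat_lit 166)))) (XT.nd (nat_lit 188) (nat_lit 0) (nat_lit 84) (XT.nd (nat_lit 94) (nat_lit 1680) (nat_lit 0) (XT.lf (nat_lit 84) (nat_lit 4586143892) (nat_lit 0) (nat_lit 4947616466) (nat_lit 1680) (nat_lit 203078808) (nat_lit 360) (nat_lit 5) (nat_lit 359) (nat_lit 5) (nat_lit 379) (nat_lit 5) (nat_lit 284) (nat_lit 271) (nat_lit 165)) (XT.lf (nat_lit 84) (nat_lit 79512061) (nat_lit 0) (nat_lit 916197614) (nat_lit 1764) (nat_lit 8836952469) (nat_lit 340) (nat_lit 5) (nat_lit 339) (nat_lit 5) (nat_lit 360) (nat_lit 5) (nat_lit 285) (nat_lit 271) (nat_lit 164))) (XT.nd (nat_lit 94) (nat_lit 0) (nat_lit 0) (XT.lf (nat_lit 0) (nat_lit 2256702225) (nat_lit 1680) (nat_lit 4469129832) (nat_lit 1764) (nat_lit 3203874605) (nat_lit 340) (nat_lit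 5) (nat_lit 360) (nat_lit 5) (nat_lit 361) (nat_lit 5) (nat_lit 286) (nat_lit 271) (nat_lit 163)) (XT.lf (nat_lit 84) (nat_lit 921591724) (nat_lit 0) (nat_lit 2615236134) (nat_lit 1764) (nat_lit 6492247694) (nat_lit 341) (nat_lit 5) (nat_lit 340) (nat_lit 5) (nat_lit 361) (nat_lit 5) (nat_lit 287) (nat_lit 271) (nat_lit 162))))))) (XT.nd (nat_lit 1410) (nat_lit 4200) (nat_lit 0) (XT.nd (nat_lit 658) (nat_lit 6552) (nat_lit 0) (XT.nd (nat_lit 282) (nat_lit 1680) (nat_lit 0) (XT.nd (nat_lit 94) (nat_lit 0) (nat_lit 0) (XT.lf (nat_lit 0) (nat_lit 4868214528) (nat_lit 1680) (nat_lit 3660330224) (nat_lit 1764) (nat_lit 1601577644) (nat_lit 341) (nat_lit 5) (nat_lit 361) (nat_lit 5) (nat_lit 362) (nat_lit 5) (nat_lit 288) (nat_lit 271) (nat_lit 161)) (XT.nd (nat_lit 94) (nat_lit 0) (nat_lit 0) (XT.lf (nat_lit 84) (nat_lit 1898780680) (nat_lit 0) (nat_lit 4341688471) (nat_lit 1764) (nat_lit 3992668414) (nat_lit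 342) (nat_lit 5) (nat_lit 341) (nat_lit 5) (nat_lit 362) (nat_lit 5) (nat_lit 289) (nat_lit 271) (nat_lit 160)) (XT.lf (nat_lit 84) (nat_lit 7618786893) (nat_lit 0) (nat_lit 30513392) (nat_lit 1764) (nat_lit 2688978273) (nat_lit 342) (nat_lit 5) (nat_lit 341) (nat_lit 5) (nat_lit 362) (nat_lit 5) (nat_lit 290) (nat_lit 271) (nat_lit 159)))) (XT.nd (nat_lit 188) (nat_lit 0) (nat_lit 84) (XT.nd (nat_lit 94) (nat_lit 1764) (nat_lit 0) (XT.lf (nat_lit 84) (nat_lit 3014954564) (nat_lit 0) (nat_lit 6106642040) (nat_lit 1764) (nat_lit 1323421689) (nat_lit 343) (nat_lit 5) (nat_lit 342) (nat_lit 5) (nat_lit 363) (nat_lit 5) (nat_lit 291) (nat_lit 271) (nat_lit 158)) (XT.lf (nat_lit 0) (nat_lit 71595034) (nat_lit 1764) (nat_lit 1654750550) (nat_lit 1848) (nat_lit 8827739342) (nat_lit 321) (nat_lit 5) (nat_lit 342) (nat_lit 5) (nat_lit 343) (nat_lit 5) (nat_lit 292) (nat_lit 271) (nat_lit 157))) (XT.nd (nat_lit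 94) (nat_lit 0) (nat_lit 0) (XT.lf (nat_lit 0) (nat_lit 1508675972) (nat_lit 1764) (nat_lit 6401349300) (nat_lit 84) (nat_lit 2754634991) (nat_lit 322) (nat_lit 5) (nat_lit 343) (nat_lit 5) (nat_lit 323) (nat_lit 5) (nat_lit 293) (nat_lit 271) (nat_lit 156)) (XT.lf (nat_lit 0) (nat_lit 2983016181) (nat_lit 1764) (nat_lit 470129754) (nat_lit 84) (nat_lit 7324398167) (nat_lit 322) (nat_lit 5) (nat_lit 343) (nat_lit 5) (nat_lit 323) (nat_lit 5) (nat_lit 294) (nat_lit 271) (nat_lit 155))))) (XT.nd (nat_lit 376) (nat_lit 1932) (nat_lit 0) (XT.nd (nat_lit 188) (nat_lit 1092) (nat_lit 0) (XT.nd (nat_lit 94) (nat_lit 1848) (nat_lit 0) (XT.lf (nat_lit 0) (nat_lit 4519428413) (nat_lit 1848) (nat_lit 5243549867) (nat_lit 84) (nat_lit 1129281101) (nat_lit 301) (nat_lit 5) (nat_lit 323) (nat_lit 5) (nat_lit 302) (nat_lit 5) (nat_lit 295) (nat_lit 271) (nat_lit 154)) (XT.lf (nat_lit 0) (nat_lit 870825191) (nat_lit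 1848) (nat_lit 5235145275) (nat_lit 1932) (nat_lit 4903168698) (nat_lit 279) (nat_lit 5) (nat_lit 301) (nat_lit 5) (nat_lit 302) (nat_lit 5) (nat_lit 296) (nat_lit 271) (nat_lit 153))) (XT.nd (nat_lit 94) (nat_lit 1092) (nat_lit 0) (XT.lf (nat_lit 0) (nat_lit 7181831538) (nat_lit 1848) (nat_lit 566087728) (nat_lit 1932) (nat_lit 3380219974) (nat_lit 279) (nat_lit 5) (nat_lit 301) (nat_lit 5) (nat_lit 302) (nat_lit 5) (nat_lit 297) (nat_lit 271) (nat_lit 152)) (XT.lf (nat_lit 0) (nat_lit 2369841766) (nat_lit 1092) (nat_lit 7085166969) (nat_lit 1176) (nat_lit 1794110191) (nat_lit 266) (nat_lit 5) (nat_lit 279) (nat_lit 5) (nat_lit 280) (nat_lit 5) (nat_lit 298) (nat_lit 271) (nat_lit 151)))) (XT.nd (nat_lit 188) (nat_lit 924) (nat_lit 0) (XT.nd (nat_lit 94) (nat_lit 1008) (nat_lit 0) (XT.lf (nat_lit 0) (nat_lit 8863565374) (nat_lit 1092) (nat_lit 2351776254) (nat_lit 1176) (nat_lit 157073413) (nat_lit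 266) (nat_lit 5) (nat_lit 279) (nat_lit 5) (nat_lit 280) (nat_lit 5) (nat_lit 299) (nat_lit 271) (nat_lit 150)) (XT.lf (nat_lit 0) (nat_lit 1523574567) (nat_lit 1008) (nat_lit 7482965769) (nat_lit 84) (nat_lit 2490998275) (nat_lit 254) (nat_lit 5) (nat_lit 266) (nat_lit 5) (nat_lit 255) (nat_lit 5) (nat_lit 300) (nat_lit 271) (nat_lit 149))) (XT.nd (nat_lit 94) (nat_lit 924) (nat_lit 0) (XT.lf (nat_lit 0) (nat_lit 3257638678) (nat_lit 1008) (nat_lit 940736553) (nat_lit 84) (nat_lit 7426601925) (nat_lit 254) (nat_lit 5) (nat_lit 266) (nat_lit 5) (nat_lit 255) (nat_lit 5) (nat_lit 301) (nat_lit 271) (nat_lit 148)) (XT.lf (nat_lit 0) (nat_lit 5059998328) (nat_lit 1008) (nat_lit 5946888283) (nat_lit 84) (nat_lit 747669522) (nat_lit 243) (nat_lit 5) (nat_lit 255) (nat_lit 5) (nat_lit 244) (nat_lit 5) (nat_lit 302) (nat_lit 271) (nat_lit 147)))))) (XT.nd (nat_lit 658) (nat_lit 756) (nat_lit 0) (XT.nd (nat_lit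 282) (nat_lit 1764) (nat_lit 0) (XT.nd (nat_lit 94) (nat_lit 840) (nat_lit 0) (XT.lf (nat_lit 0) (nat_lit 796400631) (nat_lit 840) (nat_lit 6132429088) (nat_lit 924) (nat_lit 4957566093) (nat_lit 233) (nat_lit 5) (nat_lit 243) (nat_lit 5) (nat_lit 244) (nat_lit 5) (nat_lit 303) (nat_lit 271) (nat_lit 146)) (XT.nd (nat_lit 94) (nat_lit 840) (nat_lit 0) (XT.lf (nat_lit 0) (nat_lit 7760767059) (nat_lit 840) (nat_lit 1105756546) (nat_lit 924) (nat_lit 3154001897) (nat_lit 233) (nat_lit 5) (nat_lit 243) (nat_lit 5) (nat_lit 244) (nat_lit 5) (nat_lit 304) (nat_lit 271) (nat_lit 145)) (XT.lf (nat_lit 0) (nat_lit 2715036287) (nat_lit 840) (nat_lit 8164038996) (nat_lit 924) (nat_lit 1277821736) (nat_lit 223) (nat_lit 5) (nat_lit 233) (nat_lit 5) (nat_lit 234) (nat_lit 5) (nat_lit 305) (nat_lit 271) (nat_lit 144)))) (XT.nd (nat_lit 188) (nat_lit 840) (nat_lit 0) (XT.nd (nat_lit 94) (nat_lit 840) (nat_lit 0) (XT.lf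 (nat_lit 0) (nat_lit 654449192) (nat_lit 924) (nat_lit 2417723333) (nat_lit 84) (nat_lit 9223467340) (nat_lit 222) (nat_lit 5) (nat_lit 233) (nat_lit 5) (nat_lit 223) (nat_lit 5) (nat_lit 306) (nat_lit 271) (nat_lit 143)) (XT.lf (nat_lit 0) (nat_lit 2644768689) (nat_lit 924) (nat_lit 7647323554) (nat_lit 84) (nat_lit 2144382495) (nat_lit 212) (nat_lit 5) (nat_lit 223) (nat_lit 5) (nat_lit 213) (nat_lit 5) (nat_lit 307) (nat_lit 271) (nat_lit 142))) (XT.nd (nat_lit 94) (nat_lit 840) (nat_lit 0) (XT.lf (nat_lit 0) (nat_lit 4704066231) (nat_lit 924) (nat_lit 427898453) (nat_lit 84) (nat_lit 7447889092) (nat_lit 212) (nat_lit 5) (nat_lit 223) (nat_lit 5) (nat_lit 213) (nat_lit 5) (nat_lit 308) (nat_lit 271) (nat_lit 141)) (XT.lf (nat_lit 0) (nat_lit 6845318971) (nat_lit 924) (nat_lit 5691012509) (nat_lit 84) (nat_lit 189249358) (nat_lit 202) (nat_lit 5) (nat_lit 213) (nat_lit 5) (nat_lit 203) (nat_lit 5)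 (nat_lit 309) (nat_lit 271) (nat_lit 140))))) (XT.nd (nat_lit 41830) (nat_lit 0) (nat_lit 13608) (XT.nd (nat_lit 41642) (nat_lit 0) (nat_lit 15120) (XT.nd (nat_lit 94) (nat_lit 0) (nat_lit 0) (XT.lf (nat_lit 0) (nat_lit 1765268568) (nat_lit 756) (nat_lit 7306894318) (nat_lit 840) (nat_lit 3801504371) (nat_lit 193) (nat_lit 5) (nat_lit 202) (nat_lit 5) (nat_lit 203) (nat_lit 5) (nat_lit 310) (nat_lit 271) (nat_lit 139)) (XT.lf (nat_lit 0) (nat_lit 9454769946) (nat_lit 756) (nat_lit 1920830675) (nat_lit 840) (nat_lit 1648803683) (nat_lit 193) (nat_lit 5) (nat_lit 202) (nat_lit 5) (nat_lit 203) (nat_lit 5) (nat_lit 311) (nat_lit 271) (nat_lit 138))) (XT.nd (nat_lit 94) (nat_lit 0) (nat_lit 0) (XT.lf (nat_lit 0) (nat_lit 2898059510) (nat_lit 1596) (nat_lit 751401904) (nat_lit 1596) (nat_lit 751401904) (nat_lit 373) (nat_lit 3) (nat_lit 392) (nat_lit 3) (nat_lit 392) (nat_lit 5) (nat_lit 272) (nat_lit 272)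 (nat_lit 176)) (XT.lf (nat_lit 84) (nat_lit 2940410785) (nat_lit 0) (nat_lit 3892704592) (nat_lit 1596) (nat_lit 2044018996) (nat_lit 374) (nat_lit 5) (nat_lit 373) (nat_lit 3) (nat_lit 392) (nat_lit 5) (nat_lit 273) (nat_lit 272) (nat_lit 175)))) (XT.nd (nat_lit 188) (nat_lit 1512) (nat_lit 0) (XT.nd (nat_lit 94) (nat_lit 0) (nat_lit 84) (XT.lf (nat_lit 84) (nat_lit 7489598059) (nat_lit 0) (nat_lit 386894368) (nat_lit 1596) (nat_lit 1078070180) (nat_lit 374) (nat_lit 5) (nat_lit 373) (nat_lit 3) (nat_lit 392) (nat_lit 5) (nat_lit 274) (nat_lit 272) (nat_lit 174)) (XT.lf (nat_lit 84) (nat_lit 3112636919) (nat_lit 0) (nat_lit 5848277110) (nat_lit 1596) (nat_lit 72382249) (nat_lit 375) (nat_lit 5) (nat_lit 374) (nat_lit 5) (nat_lit 393) (nat_lit 5) (nat_lit 275) (nat_lit 272) (nat_lit 173))) (XT.nd (nat_lit 94) (nat_lit 0) (nat_lit 84) (XT.lf (nat_lit 0) (nat_lit 928820351) (nat_lit 1596) (nat_lit 1325284685)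 (nat_lit 1680) (nat_lit 6859790010) (nat_lit 355) (nat_lit 5) (nat_lit 374) (nat_lit 5) (nat_lit 375) (nat_lit 5) (nat_lit 276) (nat_lit 272) (nat_lit 172)) (XT.lf (nat_lit 0) (nat_lit 1959616831) (nat_lit 1596) (nat_lit 5801522385) (nat_lit 1680) (nat_lit 1434926255) (nat_lit 356) (nat_lit 5) (nat_lit 375) (nat_lit 5) (nat_lit 376) (nat_lit 5) (nat_lit 277) (nat_lit 272) (nat_lit 171))))))))
noncomputable def xc53 : XT := (XT.nd (nat_lit 2820) (nat_lit 2436) (nat_lit 0) (XT.nd (nat_lit 1410) (nat_lit 8316) (nat_lit 0) (XT.nd (nat_lit 658) (nat_lit 1512) (nat_lit 0) (XT.nd (nat_lit 282) (nat_lit 1428) (nat_lit 0) (XT.nd (nat_lit 94) (nat_lit 0) (nat_lit 0) (XT.lf (nat_lit 0) (nat_lit 3013902892) (nat_lit 1596) (nat_lit 1073408604) (nat_lit 1680) (nat_lit 5192714283) (nat_lit 356) (nat_lit 5) (nat_lit 375) (nat_lit 5) (nat_lit 376) (nat_lit 5) (nat_lit 278) (nat_lit 272) (nat_lit 170)) (XT.nd (nat_lit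 94) (nat_lit 0) (nat_lit 84) (XT.lf (nat_lit 84) (nat_lit 3798661838) (nat_lit 0) (nat_lit 294870226) (nat_lit 1680) (nat_lit 5272253875) (nat_lit 357) (nat_lit 5) (nat_lit 356) (nat_lit 5) (nat_lit 376) (nat_lit 5) (nat_lit 279) (nat_lit 272) (nat_lit 169)) (XT.lf (nat_lit 0) (nat_lit 5205999368) (nat_lit 1596) (nat_lit 700151372) (nat_lit 1680) (nat_lit 3547082185) (nat_lit 357) (nat_lit 5) (nat_lit 376) (nat_lit 5) (nat_lit 377) (nat_lit 5) (nat_lit 280) (nat_lit 272) (nat_lit 168)))) (XT.nd (nat_lit 188) (nat_lit 1512) (nat_lit 0) (XT.nd (nat_lit 94) (nat_lit 0) (nat_lit 84) (XT.lf (nat_lit 84) (nat_lit 4319008141) (nat_lit 0) (nat_lit 2032961863) (nat_lit 1680) (nat_lit 3190435102) (nat_lit 358) (nat_lit 5) (nat_lit 357) (nat_lit 5) (nat_lit 377) (nat_lit 5) (nat_lit 281) (nat_lit 272) (nat_lit 167)) (XT.lf (nat_lit 0) (nat_lit 7518663554) (nat_lit 1596) (nat_lit 203549609) (nat_lit 1680) (nat_lit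 1911424657) (nat_lit 358) (nat_lit 5) (nat_lit 377) (nat_lit 5) (nat_lit 378) (nat_lit 5) (nat_lit 282) (nat_lit 272) (nat_lit 166))) (XT.nd (nat_lit 94) (nat_lit 1596) (nat_lit 0) (XT.lf (nat_lit 84) (nat_lit 4968409974) (nat_lit 0) (nat_lit 3769896412) (nat_lit 1680) (nat_lit 987971063) (nat_lit 359) (nat_lit 5) (nat_lit 358) (nat_lit 5) (nat_lit 378) (nat_lit 5) (nat_lit 283) (nat_lit 272) (nat_lit 165)) (XT.lf (nat_lit 0) (nat_lit 145341426) (nat_lit 1680) (nat_lit 9397422144) (nat_lit 1764) (nat_lit 278520661) (nat_lit 339) (nat_lit 5) (nat_lit 359) (nat_lit 5) (nat_lit 360) (nat_lit 5) (nat_lit 284) (nat_lit 272) (nat_lit 164))))) (XT.nd (nat_lit 376) (nat_lit 1512) (nat_lit 0) (XT.nd (nat_lit 188) (nat_lit 0) (nat_lit 84) (XT.nd (nat_lit 94) (nat_lit 0) (nat_lit 0) (XT.lf (nat_lit 0) (nat_lit 1329631752) (nat_lit 1680) (nat_lit 4177590354) (nat_lit 1764) (nat_lit 4410107889) (nat_lit 339) (nat_lit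 5) (nat_lit 359) (nat_lit 5) (nat_lit 360) (nat_lit 5) (nat_lit 285) (nat_lit 272) (nat_lit 163)) (XT.lf (nat_lit 84) (nat_lit 1158361905) (nat_lit 0) (nat_lit 1368089194) (nat_lit 1764) (nat_lit 7489335225) (nat_lit 340) (nat_lit 5) (nat_lit 339) (nat_lit 5) (nat_lit 360) (nat_lit 5) (nat_lit 286) (nat_lit 272) (nat_lit 162))) (XT.nd (nat_lit 94) (nat_lit 0) (nat_lit 0) (XT.lf (nat_lit 0) (nat_lit 3779696503) (nat_lit 1680) (nat_lit 3478047246) (nat_lit 1764) (nat_lit 2858002829) (nat_lit 340) (nat_lit 5) (nat_lit 360) (nat_lit 5) (nat_lit 361) (nat_lit 5) (nat_lit 287) (nat_lit 272) (nat_lit 161)) (XT.lf (nat_lit 84) (nat_lit 2023396703) (nat_lit 0) (nat_lit 3040576309) (nat_lit 1764) (nat_lit 5153856834) (nat_lit 341) (nat_lit 5) (nat_lit 340) (nat_lit 5) (nat_lit 361) (nat_lit 5) (nat_lit 288) (nat_lit 272) (nat_lit 160)))) (XT.nd (nat_lit 188) (nat_lit 1680) (nat_lit 0) (XT.nd (nat_lit 94) (nat_lit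 0) (nat_lit 0) (XT.lf (nat_lit 0) (nat_lit 6390887634) (nat_lit 1680) (nat_lit 2648846440) (nat_lit 1764) (nat_lit 1282108422) (nat_lit 341) (nat_lit 5) (nat_lit 361) (nat_lit 5) (nat_lit 362) (nat_lit 5) (nat_lit 289) (nat_lit 272) (nat_lit 159)) (XT.lf (nat_lit 84) (nat_lit 3024672577) (nat_lit 0) (nat_lit 4745909512) (nat_lit 1764) (nat_lit 2657042405) (nat_lit 342) (nat_lit 5) (nat_lit 341) (nat_lit 5) (nat_lit 362) (nat_lit 5) (nat_lit 290) (nat_lit 272) (nat_lit 158))) (XT.nd (nat_lit 94) (nat_lit 1680) (nat_lit 0) (XT.lf (nat_lit 84) (nat_lit 8847181733) (nat_lit 0) (nat_lit 333243292) (nat_lit 1764) (nat_lit 1355313179) (nat_lit 342) (nat_lit 5) (nat_lit 341) (nat_lit 5) (nat_lit 362) (nat_lit 5) (nat_lit 291) (nat_lit 272) (nat_lit 157)) (XT.lf (nat_lit 0) (nat_lit 15819220) (nat_lit 1764) (nat_lit 6479161896) (nat_lit 1848) (nat_lit 4150364279) (nat_lit 321) (nat_lit 5) (nat_lit 342) (nat_lit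 5) (nat_lit 343) (nat_lit 5) (nat_lit 292) (nat_lit 272) (nat_lit 156)))))) (XT.nd (nat_lit 658) (nat_lit 3696) (nat_lit 0) (XT.nd (nat_lit 282) (nat_lit 2940) (nat_lit 0) (XT.nd (nat_lit 94) (nat_lit 1680) (nat_lit 0) (XT.lf (nat_lit 0) (nat_lit 1393009018) (nat_lit 1764) (nat_lit 610207121) (nat_lit 1848) (nat_lit 8754022198) (nat_lit 321) (nat_lit 5) (nat_lit 342) (nat_lit 5) (nat_lit 343) (nat_lit 5) (nat_lit 293) (nat_lit 272) (nat_lit 155)) (XT.nd (nat_lit 94) (nat_lit 1764) (nat_lit 0) (XT.lf (nat_lit 0) (nat_lit 2839329134) (nat_lit 1764) (nat_lit 5438854441) (nat_lit 84) (nat_lit 2592555044) (nat_lit 322) (nat_lit 5) (nat_lit 343) (nat_lit 5) (nat_lit 323) (nat_lit 5) (nat_lit 294) (nat_lit 272) (nat_lit 154)) (XT.lf (nat_lit 0) (nat_lit 607856374) (nat_lit 1764) (nat_lit 3714648640) (nat_lit 1848) (nat_lit 6664120083) (nat_lit 301) (nat_lit 5) (nat_lit 322) (nat_lit 5) (nat_lit 323) (nat_lit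 5) (nat_lit 295) (nat_lit 272) (nat_lit 153)))) (XT.nd (nat_lit 188) (nat_lit 1092) (nat_lit 0) (XT.nd (nat_lit 94) (nat_lit 1848) (nat_lit 0) (XT.lf (nat_lit 0) (nat_lit 5867425989) (nat_lit 1848) (nat_lit 4258371624) (nat_lit 84) (nat_lit 978622931) (nat_lit 301) (nat_lit 5) (nat_lit 323) (nat_lit 5) (nat_lit 302) (nat_lit 5) (nat_lit 296) (nat_lit 272) (nat_lit 152)) (XT.lf (nat_lit 0) (nat_lit 1982565743) (nat_lit 1848) (nat_lit 5487211702) (nat_lit 1932) (nat_lit 3754514317) (nat_lit 279) (nat_lit 5) (nat_lit 301) (nat_lit 5) (nat_lit 302) (nat_lit 5) (nat_lit 297) (nat_lit 272) (nat_lit 151))) (XT.nd (nat_lit 94) (nat_lit 1092) (nat_lit 0) (XT.lf (nat_lit 0) (nat_lit 8408894844) (nat_lit 1848) (nat_lit 712488068) (nat_lit 1932) (nat_lit 2225109184) (nat_lit 279) (nat_lit 5) (nat_lit 301) (nat_lit 5) (nat_lit 302) (nat_lit 5) (nat_lit 298) (nat_lit 272) (nat_lit 150)) (XT.lf (nat_lit 0) (nat_lit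 3510536986) (nat_lit 1092) (nat_lit 7336415346) (nat_lit 1176) (nat_lit 623600675) (nat_lit 266) (nat_lit 5) (nat_lit 279) (nat_lit 5) (nat_lit 280) (nat_lit 5) (nat_lit 299) (nat_lit 272) (nat_lit 149))))) (XT.nd (nat_lit 376) (nat_lit 1764) (nat_lit 0) (XT.nd (nat_lit 188) (nat_lit 924) (nat_lit 0) (XT.nd (nat_lit 94) (nat_lit 924) (nat_lit 0) (XT.lf (nat_lit 0) (nat_lit 1008664096) (nat_lit 1176) (nat_lit 1480722534) (nat_lit 84) (nat_lit 9107575318) (nat_lit 265) (nat_lit 5) (nat_lit 279) (nat_lit 5) (nat_lit 266) (nat_lit 5) (nat_lit 300) (nat_lit 272) (nat_lit 148)) (XT.lf (nat_lit 0) (nat_lit 2705973677) (nat_lit 1008) (nat_lit 6547412150) (nat_lit 84) (nat_lit 2471823264) (nat_lit 254) (nat_lit 5) (nat_lit 266) (nat_lit 5) (nat_lit 255) (nat_lit 5) (nat_lit 301) (nat_lit 272) (nat_lit 147))) (XT.nd (nat_lit 94) (nat_lit 0) (nat_lit 0) (XT.lf (nat_lit 0) (nat_lit 116744692) (nat_lit 924) (nat_lit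 4337542823) (nat_lit 1008) (nat_lit 7401689561) (nat_lit 243) (nat_lit 5) (nat_lit 254) (nat_lit 5) (nat_lit 255) (nat_lit 5) (nat_lit 302) (nat_lit 272) (nat_lit 146)) (XT.lf (nat_lit 0) (nat_lit 6278604569) (nat_lit 1008) (nat_lit 4984360960) (nat_lit 84) (nat_lit 725830541) (nat_lit 243) (nat_lit 5) (nat_lit 255) (nat_lit 5) (nat_lit 244) (nat_lit 5) (nat_lit 303) (nat_lit 272) (nat_lit 145)))) (XT.nd (nat_lit 188) (nat_lit 924) (nat_lit 0) (XT.nd (nat_lit 94) (nat_lit 0) (nat_lit 0) (XT.lf (nat_lit 0) (nat_lit 1899378243) (nat_lit 840) (nat_lit 6273068065) (nat_lit 924) (nat_lit 3951444201) (nat_lit 233) (nat_lit 5) (nat_lit 243) (nat_lit 5) (nat_lit 244) (nat_lit 5) (nat_lit 304) (nat_lit 272) (nat_lit 144)) (XT.lf (nat_lit 0) (nat_lit 8993594734) (nat_lit 840) (nat_lit 1135685477) (nat_lit 924) (nat_lit 2132207605) (nat_lit 233) (nat_lit 5) (nat_lit 243) (nat_lit 5) (nat_lit 244) (nat_lit 5) (nat_lit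 305) (nat_lit 272) (nat_lit 143))) (XT.nd (nat_lit 94) (nat_lit 84) (nat_lit 0) (XT.lf (nat_lit 0) (nat_lit 3852540903) (nat_lit 840) (nat_lit 8318221704) (nat_lit 924) (nat_lit 230434498) (nat_lit 223) (nat_lit 5) (nat_lit 233) (nat_lit 5) (nat_lit 234) (nat_lit 5) (nat_lit 306) (nat_lit 272) (nat_lit 142)) (XT.lf (nat_lit 0) (nat_lit 1706037586) (nat_lit 924) (nat_lit 1401182884) (nat_lit 84) (nat_lit 9436105281) (nat_lit 222) (nat_lit 5) (nat_lit 233) (nat_lit 5) (nat_lit 223) (nat_lit 5) (nat_lit 307) (nat_lit 272) (nat_lit 141))))))) (XT.nd (nat_lit 42958) (nat_lit 0) (nat_lit 7224) (XT.nd (nat_lit 42206) (nat_lit 0) (nat_lit 13608) (XT.nd (nat_lit 282) (nat_lit 756) (nat_lit 0) (XT.nd (nat_lit 94) (nat_lit 840) (nat_lit 0) (XT.lf (nat_lit 0) (nat_lit 3725663855) (nat_lit 924) (nat_lit 6731354053) (nat_lit 84) (nat_lit 2230559649) (nat_lit 212) (nat_lit 5) (nat_lit 223) (nat_lit 5) (nat_lit 213)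 (nat_lit 5) (nat_lit 308) (nat_lit 272) (nat_lit 140)) (XT.nd (nat_lit 94) (nat_lit 0) (nat_lit 0) (XT.lf (nat_lit 0) (nat_lit 632671714) (nat_lit 840) (nat_lit 5180085610) (nat_lit 924) (nat_lit 7021738799) (nat_lit 202) (nat_lit 5) (nat_lit 212) (nat_lit 5) (nat_lit 213) (nat_lit 5) (nat_lit 309) (nat_lit 272) (nat_lit 139)) (XT.lf (nat_lit 0) (nat_lit 7983045837) (nat_lit 924) (nat_lit 4741778220) (nat_lit 84) (nat_lit 259002703) (nat_lit 202) (nat_lit 5) (nat_lit 213) (nat_lit 5) (nat_lit 203) (nat_lit 5) (nat_lit 310) (nat_lit 272) (nat_lit 138)))) (XT.nd (nat_lit 41736) (nat_lit 0) (nat_lit 13524) (XT.nd (nat_lit 41642) (nat_lit 0) (nat_lit 15120) (XT.lf (nat_lit 0) (nat_lit 2870775731) (nat_lit 756) (nat_lit 7374453367) (nat_lit 840) (nat_lit 2890242308) (nat_lit 193) (nat_lit 5) (nat_lit 202) (nat_lit 5) (nat_lit 203) (nat_lit 5) (nat_lit 311) (nat_lit 272) (nat_lit 137)) (XT.lf (nat_lit 0) (nat_lit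 3907327213) (nat_lit 1596) (nat_lit 284776935) (nat_lit 1596) (nat_lit 284776935) (nat_lit 373) (nat_lit 3) (nat_lit 392) (nat_lit 3) (nat_lit 392) (nat_lit 5) (nat_lit 273) (nat_lit 273) (nat_lit 174))) (XT.nd (nat_lit 94) (nat_lit 1596) (nat_lit 0) (XT.lf (nat_lit 84) (nat_lit 3964427589) (nat_lit 0) (nat_lit 4876163725) (nat_lit 1596) (nat_lit 190982772) (nat_lit 374) (nat_lit 5) (nat_lit 373) (nat_lit 3) (nat_lit 392) (nat_lit 5) (nat_lit 274) (nat_lit 273) (nat_lit 173)) (XT.lf (nat_lit 0) (nat_lit 744480091) (nat_lit 1596) (nat_lit 523919766) (nat_lit 1680) (nat_lit 7843067022) (nat_lit 354) (nat_lit 5) (nat_lit 373) (nat_lit 3) (nat_lit 374) (nat_lit 5) (nat_lit 275) (nat_lit 273) (nat_lit 172))))) (XT.nd (nat_lit 376) (nat_lit 0) (nat_lit 84) (XT.nd (nat_lit 188) (nat_lit 0) (nat_lit 84) (XT.nd (nat_lit 94) (nat_lit 0) (nat_lit 0) (XT.lf (nat_lit 0) (nat_lit 1718935633) (nat_lit 1596) (nat_lit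 5046407474) (nat_lit 1680) (nat_lit 2427276697) (nat_lit 355) (nat_lit 5) (nat_lit 374) (nat_lit 5) (nat_lit 375) (nat_lit 5) (nat_lit 276) (nat_lit 273) (nat_lit 171)) (XT.lf (nat_lit 0) (nat_lit 2702527218) (nat_lit 1596) (nat_lit 372073578) (nat_lit 1680) (nat_lit 6201227939) (nat_lit 355) (nat_lit 5) (nat_lit 374) (nat_lit 5) (nat_lit 375) (nat_lit 5) (nat_lit 277) (nat_lit 273) (nat_lit 170))) (XT.nd (nat_lit 94) (nat_lit 0) (nat_lit 0) (XT.lf (nat_lit 0) (nat_lit 3719884038) (nat_lit 1596) (nat_lit 4910671324) (nat_lit 1680) (nat_lit 730046125) (nat_lit 356) (nat_lit 5) (nat_lit 375) (nat_lit 5) (nat_lit 376) (nat_lit 5) (nat_lit 278) (nat_lit 273) (nat_lit 169)) (XT.lf (nat_lit 0) (nat_lit 4760400181) (nat_lit 1596) (nat_lit 100463364) (nat_lit 1680) (nat_lit 4586358588) (nat_lit 356) (nat_lit 5) (nat_lit 375) (nat_lit 5) (nat_lit 376) (nat_lit 5) (nat_lit 279) (nat_lit 273) (nat_lit 168)))) (XT.nd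 (nat_lit 188) (nat_lit 0) (nat_lit 84) (XT.nd (nat_lit 94) (nat_lit 0) (nat_lit 84) (XT.lf (nat_lit 84) (nat_lit 4871590155) (nat_lit 0) (nat_lit 963069964) (nat_lit 1680) (nat_lit 3700849563) (nat_lit 357) (nat_lit 5) (nat_lit 356) (nat_lit 5) (nat_lit 376) (nat_lit 5) (nat_lit 280) (nat_lit 273) (nat_lit 167)) (XT.lf (nat_lit 84) (nat_lit 296936252) (nat_lit 0) (nat_lit 6636626898) (nat_lit 1680) (nat_lit 2692154200) (nat_lit 358) (nat_lit 5) (nat_lit 357) (nat_lit 5) (nat_lit 377) (nat_lit 5) (nat_lit 281) (nat_lit 273) (nat_lit 166))) (XT.nd (nat_lit 94) (nat_lit 0) (nat_lit 84) (XT.lf (nat_lit 84) (nat_lit 5414953749) (nat_lit 0) (nat_lit 2660128819) (nat_lit 1680) (nat_lit 1642421327) (nat_lit 358) (nat_lit 5) (nat_lit 357) (nat_lit 5) (nat_lit 377) (nat_lit 5) (nat_lit 282) (nat_lit 273) (nat_lit 165)) (XT.lf (nat_lit 84) (nat_lit 821326896) (nat_lit 0) (nat_lit 8413823157) (nat_lit 1680) (nat_lit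 576304130) (nat_lit 359) (nat_lit 5) (nat_lit 358) (nat_lit 5) (nat_lit 378) (nat_lit 5) (nat_lit 283) (nat_lit 273) (nat_lit 164)))))) (XT.nd (nat_lit 658) (nat_lit 4956) (nat_lit 0) (XT.nd (nat_lit 282) (nat_lit 0) (nat_lit 84) (XT.nd (nat_lit 94) (nat_lit 0) (nat_lit 0) (XT.lf (nat_lit 0) (nat_lit 535053860) (nat_lit 1680) (nat_lit 3822815213) (nat_lit 1764) (nat_lit 5548879932) (nat_lit 338) (nat_lit 5) (nat_lit 358) (nat_lit 5) (nat_lit 359) (nat_lit 5) (nat_lit 284) (nat_lit 273) (nat_lit 163)) (XT.nd (nat_lit 94) (nat_lit 0) (nat_lit 84) (XT.lf (nat_lit 84) (nat_lit 1460360071) (nat_lit 0) (nat_lit 190700642) (nat_lit 1764) (nat_lit 8353236293) (nat_lit 339) (nat_lit 5) (nat_lit 338) (nat_lit 5) (nat_lit 359) (nat_lit 5) (nat_lit 285) (nat_lit 273) (nat_lit 162)) (XT.lf (nat_lit 0) (nat_lit 2827732349) (nat_lit 1680) (nat_lit 3230762605) (nat_lit 1764) (nat_lit 4044701630) (nat_lit 339) (nat_lit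 5) (nat_lit 359) (nat_lit 5) (nat_lit 360) (nat_lit 5) (nat_lit 286) (nat_lit 273) (nat_lit 161)))) (XT.nd (nat_lit 188) (nat_lit 0) (nat_lit 84) (XT.nd (nat_lit 94) (nat_lit 0) (nat_lit 84) (XT.lf (nat_lit 84) (nat_lit 2215073322) (nat_lit 0) (nat_lit 1811535023) (nat_lit 1764) (nat_lit 6177744620) (nat_lit 340) (nat_lit 5) (nat_lit 339) (nat_lit 5) (nat_lit 360) (nat_lit 5) (nat_lit 287) (nat_lit 273) (nat_lit 160)) (XT.lf (nat_lit 0) (nat_lit 5273447623) (nat_lit 1680) (nat_lit 2511557938) (nat_lit 1764) (nat_lit 2522254291) (nat_lit 340) (nat_lit 5) (nat_lit 360) (nat_lit 5) (nat_lit 361) (nat_lit 5) (nat_lit 288) (nat_lit 273) (nat_lit 159))) (XT.nd (nat_lit 94) (nat_lit 0) (nat_lit 84) (XT.lf (nat_lit 84) (nat_lit 3103379625) (nat_lit 0) (nat_lit 3459609355) (nat_lit 1764) (nat_lit 3849105734) (nat_lit 341) (nat_lit 5) (nat_lit 340) (nat_lit 5) (nat_lit 361) (nat_lit 5) (nat_lit 289) (nat_lit 273)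 (nat_lit 158)) (XT.lf (nat_lit 0) (nat_lit 7886771098) (nat_lit 1680) (nat_lit 1661618164) (nat_lit 1764) (nat_lit 970717522) (nat_lit 341) (nat_lit 5) (nat_lit 361) (nat_lit 5) (nat_lit 362) (nat_lit 5) (nat_lit 290) (nat_lit 273) (nat_lit 157))))) (XT.nd (nat_lit 376) (nat_lit 3528) (nat_lit 0) (XT.nd (nat_lit 188) (nat_lit 1680) (nat_lit 0) (XT.nd (nat_lit 94) (nat_lit 0) (nat_lit 0) (XT.lf (nat_lit 84) (nat_lit 4129162074) (nat_lit 0) (nat_lit 5145875887) (nat_lit 1764) (nat_lit 1352657205) (nat_lit 342) (nat_lit 5) (nat_lit 341) (nat_lit 5) (nat_lit 362) (nat_lit 5) (nat_lit 291) (nat_lit 273) (nat_lit 156)) (XT.lf (nat_lit 84) (nat_lit 10057423156) (nat_lit 0) (nat_lit 629768739) (nat_lit 1764) (nat_lit 51627003) (nat_lit 342) (nat_lit 5) (nat_lit 341) (nat_lit 5) (nat_lit 362) (nat_lit 5) (nat_lit 292) (nat_lit 273) (nat_lit 155))) (XT.nd (nat_lit 94) (nat_lit 0) (nat_lit 0) (XT.lf (nat_lit 0)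 (nat_lit 1307594731) (nat_lit 1764) (nat_lit 5564024456) (nat_lit 1848) (nat_lit 3979512402) (nat_lit 321) (nat_lit 5) (nat_lit 342) (nat_lit 5) (nat_lit 343) (nat_lit 5) (nat_lit 293) (nat_lit 273) (nat_lit 154)) (XT.lf (nat_lit 84) (nat_lit 417289580) (nat_lit 0) (nat_lit 2272965767) (nat_lit 1848) (nat_lit 8275777030) (nat_lit 322) (nat_lit 5) (nat_lit 321) (nat_lit 5) (nat_lit 343) (nat_lit 5) (nat_lit 294) (nat_lit 273) (nat_lit 153)))) (XT.nd (nat_lit 188) (nat_lit 1848) (nat_lit 0) (XT.nd (nat_lit 94) (nat_lit 1764) (nat_lit 0) (XT.lf (nat_lit 0) (nat_lit 4143998459) (nat_lit 1764) (nat_lit 4502174681) (nat_lit 84) (nat_lit 2436393238) (nat_lit 322) (nat_lit 5) (nat_lit 343) (nat_lit 5) (nat_lit 323) (nat_lit 5) (nat_lit 295) (nat_lit 273) (nat_lit 152)) (XT.lf (nat_lit 0) (nat_lit 1669929291) (nat_lit 1764) (nat_lit 3970604851) (nat_lit 1848) (nat_lit 5560892160) (nat_lit 301) (nat_lit 5) (nat_lit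 322) (nat_lit 5) (nat_lit 323) (nat_lit 5) (nat_lit 296) (nat_lit 273) (nat_lit 151))) (XT.nd (nat_lit 94) (nat_lit 1848) (nat_lit 0) (XT.lf (nat_lit 0) (nat_lit 7191903595) (nat_lit 1848) (nat_lit 3298390698) (nat_lit 84) (nat_lit 832124830) (nat_lit 301) (nat_lit 5) (nat_lit 323) (nat_lit 5) (nat_lit 302) (nat_lit 5) (nat_lit 297) (nat_lit 273) (nat_lit 150)) (XT.lf (nat_lit 0) (nat_lit 3072232103) (nat_lit 1848) (nat_lit 5738993383) (nat_lit 1932) (nat_lit 2634104210) (nat_lit 279) (nat_lit 5) (nat_lit 301) (nat_lit 5) (nat_lit 302) (nat_lit 5) (nat_lit 298) (nat_lit 273) (nat_lit 149))))))))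
noncomputable def xc54 : XT := (XT.nd (nat_lit 44462) (nat_lit 0) (nat_lit 0) (XT.nd (nat_lit 43052) (nat_lit 0) (nat_lit 11424) (XT.nd (nat_lit 658) (nat_lit 2604) (nat_lit 0) (XT.nd (nat_lit 282) (nat_lit 2688) (nat_lit 0) (XT.nd (nat_lit 94) (nat_lit 1176) (nat_lit 0) (XT.lf (nat_lit 0) (nat_lit 9617422736) (nat_lit 1848) (nat_lit 856404512) (nat_lit 1932) (nat_lit 1096948649) (nat_lit 279) (nat_lit 5) (nat_lit 301) (nat_lit 5) (nat_lit 302) (nat_lit 5) (nat_lit 299) (nat_lit 273) (nat_lit 148)) (XT.nd (nat_lit 94) (nat_lit 0) (nat_lit 0) (XT.lf (nat_lit 0) (nat_lit 513621770) (nat_lit 1176) (nat_lit 7071713678) (nat_lit 84) (nat_lit 4112550831) (nat_lit 265) (nat_lit 5) (nat_lit 279) (nat_lit 5) (nat_lit 266) (nat_lit 5) (nat_lit 300) (nat_lit 273) (nat_lit 147)) (XT.lf (nat_lit 0) (nat_lit 2148038881) (nat_lit 1176) (nat_lit 477209471) (nat_lit 84) (nat_lit 9202268707) (nat_lit 265) (nat_lit 5)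 (nat_lit 279) (nat_lit 5) (nat_lit 266) (nat_lit 5) (nat_lit 301) (nat_lit 273) (nat_lit 146)))) (XT.nd (nat_lit 188) (nat_lit 840) (nat_lit 0) (XT.nd (nat_lit 94) (nat_lit 924) (nat_lit 0) (XT.lf (nat_lit 0) (nat_lit 3865455379) (nat_lit 1008) (nat_lit 5638132364) (nat_lit 84) (nat_lit 2455377042) (nat_lit 254) (nat_lit 5) (nat_lit 266) (nat_lit 5) (nat_lit 255) (nat_lit 5) (nat_lit 302) (nat_lit 273) (nat_lit 145)) (XT.lf (nat_lit 0) (nat_lit 1165023214) (nat_lit 924) (nat_lit 4470979757) (nat_lit 1008) (nat_lit 6456963736) (nat_lit 243) (nat_lit 5) (nat_lit 254) (nat_lit 5) (nat_lit 255) (nat_lit 5) (nat_lit 303) (nat_lit 273) (nat_lit 144))) (XT.nd (nat_lit 94) (nat_lit 840) (nat_lit 0) (XT.lf (nat_lit 0) (nat_lit 7476861432) (nat_lit 1008) (nat_lit 4047223590) (nat_lit 84) (nat_lit 705141755) (nat_lit 243) (nat_lit 5) (nat_lit 255) (nat_lit 5) (nat_lit 244) (nat_lit 5) (nat_lit 304) (nat_lit 273)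 (nat_lit 143)) (XT.lf (nat_lit 0) (nat_lit 2980392352) (nat_lit 840) (nat_lit 6416557251) (nat_lit 924) (nat_lit 2970682888) (nat_lit 233) (nat_lit 5) (nat_lit 243) (nat_lit 5) (nat_lit 244) (nat_lit 5) (nat_lit 305) (nat_lit 273) (nat_lit 142))))) (XT.nd (nat_lit 376) (nat_lit 840) (nat_lit 0) (XT.nd (nat_lit 188) (nat_lit 840) (nat_lit 0) (XT.nd (nat_lit 94) (nat_lit 924) (nat_lit 0) (XT.lf (nat_lit 0) (nat_lit 10208310754) (nat_lit 840) (nat_lit 1166034245) (nat_lit 924) (nat_lit 1134406695) (nat_lit 233) (nat_lit 5) (nat_lit 243) (nat_lit 5) (nat_lit 244) (nat_lit 5) (nat_lit 306) (nat_lit 273) (nat_lit 141)) (XT.lf (nat_lit 0) (nat_lit 782751464) (nat_lit 924) (nat_lit 7688346189) (nat_lit 84) (nat_lit 4180635697) (nat_lit 222) (nat_lit 5) (nat_lit 233) (nat_lit 5) (nat_lit 223) (nat_lit 5) (nat_lit 307) (nat_lit 273) (nat_lit 140))) (XT.nd (nat_lit 94) (nat_lit 840) (nat_lit 0) (XT.lf (nat_lit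 0) (nat_lit 2736587549) (nat_lit 924) (nat_lit 407837773) (nat_lit 84) (nat_lit 9653007218) (nat_lit 222) (nat_lit 5) (nat_lit 233) (nat_lit 5) (nat_lit 223) (nat_lit 5) (nat_lit 308) (nat_lit 273) (nat_lit 139)) (XT.lf (nat_lit 0) (nat_lit 4786782047) (nat_lit 924) (nat_lit 5841409158) (nat_lit 84) (nat_lit 2316971679) (nat_lit 212) (nat_lit 5) (nat_lit 223) (nat_lit 5) (nat_lit 213) (nat_lit 5) (nat_lit 309) (nat_lit 273) (nat_lit 138)))) (XT.nd (nat_lit 41830) (nat_lit 0) (nat_lit 12768) (XT.nd (nat_lit 94) (nat_lit 0) (nat_lit 0) (XT.lf (nat_lit 0) (nat_lit 1677122954) (nat_lit 840) (nat_lit 5228931673) (nat_lit 924) (nat_lit 6189561244) (nat_lit 202) (nat_lit 5) (nat_lit 212) (nat_lit 5) (nat_lit 213) (nat_lit 5) (nat_lit 310) (nat_lit 273) (nat_lit 137)) (XT.lf (nat_lit 0) (nat_lit 9103761376) (nat_lit 924) (nat_lit 3817420439) (nat_lit 84) (nat_lit 327497186) (nat_lit 202) (nat_lit 5) (nat_lit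 213) (nat_lit 5) (nat_lit 203) (nat_lit 5) (nat_lit 311) (nat_lit 273) (nat_lit 136))) (XT.nd (nat_lit 94) (nat_lit 0) (nat_lit 0) (XT.lf (nat_lit 0) (nat_lit 170296691) (nat_lit 0) (nat_lit 170296691) (nat_lit 1596) (nat_lit 4214755845) (nat_lit 354) (nat_lit 5) (nat_lit 354) (nat_lit 3) (nat_lit 373) (nat_lit 3) (nat_lit 274) (nat_lit 274) (nat_lit 172)) (XT.lf (nat_lit 0) (nat_lit 1598623522) (nat_lit 1596) (nat_lit 4232589825) (nat_lit 1680) (nat_lit 3359684030) (nat_lit 354) (nat_lit 5) (nat_lit 373) (nat_lit 3) (nat_lit 374) (nat_lit 5) (nat_lit 275) (nat_lit 274) (nat_lit 171)))))) (XT.nd (nat_lit 658) (nat_lit 1344) (nat_lit 0) (XT.nd (nat_lit 282) (nat_lit 0) (nat_lit 168) (XT.nd (nat_lit 94) (nat_lit 0) (nat_lit 84) (XT.lf (nat_lit 84) (nat_lit 394545467) (nat_lit 0) (nat_lit 2121566521) (nat_lit 1680) (nat_lit 6757191588) (nat_lit 355) (nat_lit 5) (nat_lit 354) (nat_lit 5) (nat_lit 374) (nat_lit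 5) (nat_lit 276) (nat_lit 274) (nat_lit 170)) (XT.nd (nat_lit 94) (nat_lit 0) (nat_lit 0) (XT.lf (nat_lit 0) (nat_lit 3472283351) (nat_lit 1596) (nat_lit 4196207919) (nat_lit 1680) (nat_lit 1688624483) (nat_lit 355) (nat_lit 5) (nat_lit 374) (nat_lit 5) (nat_lit 375) (nat_lit 5) (nat_lit 277) (nat_lit 274) (nat_lit 169)) (XT.lf (nat_lit 84) (nat_lit 568457281) (nat_lit 0) (nat_lit 3876176684) (nat_lit 1680) (nat_lit 4998244676) (nat_lit 356) (nat_lit 5) (nat_lit 355) (nat_lit 5) (nat_lit 375) (nat_lit 5) (nat_lit 278) (nat_lit 274) (nat_lit 168)))) (XT.nd (nat_lit 188) (nat_lit 0) (nat_lit 0) (XT.nd (nat_lit 94) (nat_lit 0) (nat_lit 0) (XT.lf (nat_lit 0) (nat_lit 5445744408) (nat_lit 1596) (nat_lit 4043598237) (nat_lit 1680) (nat_lit 41023570) (nat_lit 356) (nat_lit 5) (nat_lit 375) (nat_lit 5) (nat_lit 376) (nat_lit 5) (nat_lit 279) (nat_lit 274) (nat_lit 167)) (XT.lf (nat_lit 84) (nat_lit 863886431)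 (nat_lit 0) (nat_lit 5616029216) (nat_lit 1680) (nat_lit 3139620067) (nat_lit 357) (nat_lit 5) (nat_lit 356) (nat_lit 5) (nat_lit 376) (nat_lit 5) (nat_lit 280) (nat_lit 274) (nat_lit 166))) (XT.nd (nat_lit 94) (nat_lit 0) (nat_lit 84) (XT.lf (nat_lit 84) (nat_lit 5925986692) (nat_lit 0) (nat_lit 1617788121) (nat_lit 1680) (nat_lit 2166739535) (nat_lit 357) (nat_lit 5) (nat_lit 356) (nat_lit 5) (nat_lit 376) (nat_lit 5) (nat_lit 281) (nat_lit 274) (nat_lit 165)) (XT.lf (nat_lit 84) (nat_lit 1282849896) (nat_lit 0) (nat_lit 7352536598) (nat_lit 1680) (nat_lit 1168012368) (nat_lit 358) (nat_lit 5) (nat_lit 357) (nat_lit 5) (nat_lit 377) (nat_lit 5) (nat_lit 282) (nat_lit 274) (nat_lit 164))))) (XT.nd (nat_lit 376) (nat_lit 0) (nat_lit 84) (XT.nd (nat_lit 188) (nat_lit 0) (nat_lit 0) (XT.nd (nat_lit 94) (nat_lit 1596) (nat_lit 0) (XT.lf (nat_lit 84) (nat_lit 6492381212) (nat_lit 0) (nat_lit 3276287572)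 (nat_lit 1680) (nat_lit 129269641) (nat_lit 358) (nat_lit 5) (nat_lit 357) (nat_lit 5) (nat_lit 377) (nat_lit 5) (nat_lit 283) (nat_lit 274) (nat_lit 163)) (XT.lf (nat_lit 0) (nat_lit 916777608) (nat_lit 1680) (nat_lit 8173408391) (nat_lit 1764) (nat_lit 904272377) (nat_lit 338) (nat_lit 5) (nat_lit 358) (nat_lit 5) (nat_lit 359) (nat_lit 5) (nat_lit 284) (nat_lit 274) (nat_lit 162))) (XT.nd (nat_lit 94) (nat_lit 0) (nat_lit 0) (XT.lf (nat_lit 0) (nat_lit 2011871232) (nat_lit 1680) (nat_lit 2918359190) (nat_lit 1764) (nat_lit 5162236045) (nat_lit 338) (nat_lit 5) (nat_lit 358) (nat_lit 5) (nat_lit 359) (nat_lit 5) (nat_lit 285) (nat_lit 274) (nat_lit 161)) (XT.lf (nat_lit 84) (nat_lit 2473901313) (nat_lit 0) (nat_lit 653982563) (nat_lit 1764) (nat_lit 7064816667) (nat_lit 339) (nat_lit 5) (nat_lit 338) (nat_lit 5) (nat_lit 359) (nat_lit 5) (nat_lit 286) (nat_lit 274) (nat_lit 160)))) (XT.nd (nat_lit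 188) (nat_lit 0) (nat_lit 84) (XT.nd (nat_lit 94) (nat_lit 0) (nat_lit 0) (XT.lf (nat_lit 0) (nat_lit 4296233699) (nat_lit 1680) (nat_lit 2307343787) (nat_lit 1764) (nat_lit 3690951015) (nat_lit 339) (nat_lit 5) (nat_lit 359) (nat_lit 5) (nat_lit 360) (nat_lit 5) (nat_lit 287) (nat_lit 274) (nat_lit 159)) (XT.lf (nat_lit 84) (nat_lit 3251112980) (nat_lit 0) (nat_lit 2247132401) (nat_lit 1764) (nat_lit 4900176213) (nat_lit 340) (nat_lit 5) (nat_lit 339) (nat_lit 5) (nat_lit 360) (nat_lit 5) (nat_lit 288) (nat_lit 274) (nat_lit 158))) (XT.nd (nat_lit 94) (nat_lit 0) (nat_lit 0) (XT.lf (nat_lit 0) (nat_lit 6739984682) (nat_lit 1680) (nat_lit 1568226932) (nat_lit 1764) (nat_lit 2196096488) (nat_lit 340) (nat_lit 5) (nat_lit 360) (nat_lit 5) (nat_lit 361) (nat_lit 5) (nat_lit 289) (nat_lit 274) (nat_lit 157)) (XT.lf (nat_lit 84) (nat_lit 4163022149) (nat_lit 0) (nat_lit 3872863664) (nat_lit 1764) (nat_lit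 2576047741) (nat_lit 341) (nat_lit 5) (nat_lit 340) (nat_lit 5) (nat_lit 361) (nat_lit 5) (nat_lit 290) (nat_lit 274) (nat_lit 156))))))) (XT.nd (nat_lit 1410) (nat_lit 3444) (nat_lit 0) (XT.nd (nat_lit 658) (nat_lit 4872) (nat_lit 0) (XT.nd (nat_lit 282) (nat_lit 1596) (nat_lit 0) (XT.nd (nat_lit 94) (nat_lit 1764) (nat_lit 0) (XT.lf (nat_lit 0) (nat_lit 9357843200) (nat_lit 1680) (nat_lit 697198260) (nat_lit 1764) (nat_lit 666939284) (nat_lit 341) (nat_lit 5) (nat_lit 361) (nat_lit 5) (nat_lit 362) (nat_lit 5) (nat_lit 291) (nat_lit 274) (nat_lit 155)) (XT.nd (nat_lit 94) (nat_lit 1764) (nat_lit 0) (XT.lf (nat_lit 84) (nat_lit 5213744761) (nat_lit 0) (nat_lit 5542053938) (nat_lit 1764) (nat_lit 77618143) (nat_lit 342) (nat_lit 5) (nat_lit 341) (nat_lit 5) (nat_lit 362) (nat_lit 5) (nat_lit 292) (nat_lit 274) (nat_lit 154)) (XT.lf (nat_lit 84) (nat_lit 299034561) (nat_lit 0) (nat_lit 909413903) (nat_lit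 1848) (nat_lit 9738902790) (nat_lit 321) (nat_lit 5) (nat_lit 320) (nat_lit 5) (nat_lit 342) (nat_lit 5) (nat_lit 293) (nat_lit 274) (nat_lit 153)))) (XT.nd (nat_lit 188) (nat_lit 1680) (nat_lit 0) (XT.nd (nat_lit 94) (nat_lit 0) (nat_lit 0) (XT.lf (nat_lit 0) (nat_lit 2572788117) (nat_lit 1764) (nat_lit 4673799959) (nat_lit 1848) (nat_lit 3816067029) (nat_lit 321) (nat_lit 5) (nat_lit 342) (nat_lit 5) (nat_lit 343) (nat_lit 5) (nat_lit 294) (nat_lit 274) (nat_lit 152)) (XT.lf (nat_lit 84) (nat_lit 1431784350) (nat_lit 0) (nat_lit 2534628178) (nat_lit 1848) (nat_lit 7214099188) (nat_lit 322) (nat_lit 5) (nat_lit 321) (nat_lit 5) (nat_lit 343) (nat_lit 5) (nat_lit 295) (nat_lit 274) (nat_lit 151))) (XT.nd (nat_lit 94) (nat_lit 1764) (nat_lit 0) (XT.lf (nat_lit 0) (nat_lit 5424465719) (nat_lit 1764) (nat_lit 3589876676) (nat_lit 84) (nat_lit 2285875859) (nat_lit 322) (nat_lit 5) (nat_lit 343) (nat_lit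 5) (nat_lit 323) (nat_lit 5) (nat_lit 296) (nat_lit 274) (nat_lit 150)) (XT.lf (nat_lit 0) (nat_lit 2710704251) (nat_lit 1764) (nat_lit 4224771570) (nat_lit 1848) (nat_lit 4486623161) (nat_lit 301) (nat_lit 5) (nat_lit 322) (nat_lit 5) (nat_lit 323) (nat_lit 5) (nat_lit 297) (nat_lit 274) (nat_lit 149))))) (XT.nd (nat_lit 376) (nat_lit 1848) (nat_lit 0) (XT.nd (nat_lit 188) (nat_lit 1176) (nat_lit 0) (XT.nd (nat_lit 94) (nat_lit 1848) (nat_lit 0) (XT.lf (nat_lit 0) (nat_lit 8494608524) (nat_lit 1848) (nat_lit 2362165209) (nat_lit 84) (nat_lit 689559983) (nat_lit 301) (nat_lit 5) (nat_lit 323) (nat_lit 5) (nat_lit 302) (nat_lit 5) (nat_lit 298) (nat_lit 274) (nat_lit 148)) (XT.lf (nat_lit 0) (nat_lit 4141320432) (nat_lit 1848) (nat_lit 5990732359) (nat_lit 1932) (nat_lit 1540280591) (nat_lit 279) (nat_lit 5) (nat_lit 301) (nat_lit 5) (nat_lit 302) (nat_lit 5) (nat_lit 299) (nat_lit 274) (nat_lit 147)))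 (XT.nd (nat_lit 94) (nat_lit 1092) (nat_lit 0) (XT.lf (nat_lit 0) (nat_lit 5813862) (nat_lit 1932) (nat_lit 992168568) (nat_lit 84) (nat_lit 10803089761) (nat_lit 278) (nat_lit 5) (nat_lit 301) (nat_lit 5) (nat_lit 279) (nat_lit 5) (nat_lit 300) (nat_lit 274) (nat_lit 146)) (XT.lf (nat_lit 0) (nat_lit 1618056649) (nat_lit 1176) (nat_lit 6213505705) (nat_lit 84) (nat_lit 4099628449) (nat_lit 265) (nat_lit 5) (nat_lit 279) (nat_lit 5) (nat_lit 266) (nat_lit 5) (nat_lit 301) (nat_lit 274) (nat_lit 145)))) (XT.nd (nat_lit 188) (nat_lit 924) (nat_lit 0) (XT.nd (nat_lit 94) (nat_lit 0) (nat_lit 0) (XT.lf (nat_lit 0) (nat_lit 511623425) (nat_lit 924) (nat_lit 2756920639) (nat_lit 1008) (nat_lit 8795566906) (nat_lit 254) (nat_lit 5) (nat_lit 265) (nat_lit 5) (nat_lit 266) (nat_lit 5) (nat_lit 302) (nat_lit 274) (nat_lit 144)) (XT.lf (nat_lit 0) (nat_lit 5003599400) (nat_lit 1008) (nat_lit 4753708866) (nat_lit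 84) (nat_lit 2441585457) (nat_lit 254) (nat_lit 5) (nat_lit 266) (nat_lit 5) (nat_lit 255) (nat_lit 5) (nat_lit 303) (nat_lit 274) (nat_lit 143))) (XT.nd (nat_lit 94) (nat_lit 0) (nat_lit 0) (XT.lf (nat_lit 0) (nat_lit 2191827642) (nat_lit 924) (nat_lit 4605733437) (nat_lit 1008) (nat_lit 5538624442) (nat_lit 243) (nat_lit 5) (nat_lit 254) (nat_lit 5) (nat_lit 255) (nat_lit 5) (nat_lit 304) (nat_lit 274) (nat_lit 142)) (XT.lf (nat_lit 0) (nat_lit 8656329696) (nat_lit 1008) (nat_lit 3134051550) (nat_lit 84) (nat_lit 685559020) (nat_lit 243) (nat_lit 5) (nat_lit 255) (nat_lit 5) (nat_lit 244) (nat_lit 5) (nat_lit 305) (nat_lit 274) (nat_lit 141)))))) (XT.nd (nat_lit 42394) (nat_lit 0) (nat_lit 11340) (XT.nd (nat_lit 282) (nat_lit 1680) (nat_lit 0) (XT.nd (nat_lit 94) (nat_lit 924) (nat_lit 0) (XT.lf (nat_lit 0) (nat_lit 4040928631) (nat_lit 840) (nat_lit 6562969738) (nat_lit 924) (nat_lit 2013817287) (nat_lit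 233) (nat_lit 5) (nat_lit 243) (nat_lit 5) (nat_lit 244) (nat_lit 5) (nat_lit 306) (nat_lit 274) (nat_lit 140)) (XT.nd (nat_lit 94) (nat_lit 924) (nat_lit 0) (XT.lf (nat_lit 0) (nat_lit 11406443148) (nat_lit 840) (nat_lit 1196822250) (nat_lit 924) (nat_lit 159147768) (nat_lit 233) (nat_lit 5) (nat_lit 243) (nat_lit 5) (nat_lit 244) (nat_lit 5) (nat_lit 307) (nat_lit 274) (nat_lit 139)) (XT.lf (nat_lit 0) (nat_lit 1771613031) (nat_lit 924) (nat_lit 6855365407) (nat_lit 84) (nat_lit 4281716943) (nat_lit 222) (nat_lit 5) (nat_lit 233) (nat_lit 5) (nat_lit 223) (nat_lit 5) (nat_lit 308) (nat_lit 274) (nat_lit 138)))) (XT.nd (nat_lit 188) (nat_lit 840) (nat_lit 0) (XT.nd (nat_lit 94) (nat_lit 0) (nat_lit 0) (XT.lf (nat_lit 0) (nat_lit 571980381) (nat_lit 840) (nat_lit 3179611528) (nat_lit 924) (nat_lit 9306378560) (nat_lit 212) (nat_lit 5) (nat_lit 222) (nat_lit 5) (nat_lit 223) (nat_lit 5) (nat_lit 309)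 (nat_lit 274) (nat_lit 137)) (XT.lf (nat_lit 0) (nat_lit 5829543225) (nat_lit 924) (nat_lit 4976094802) (nat_lit 84) (nat_lit 2403694496) (nat_lit 212) (nat_lit 5) (nat_lit 223) (nat_lit 5) (nat_lit 213) (nat_lit 5) (nat_lit 310) (nat_lit 274) (nat_lit 136))) (XT.nd (nat_lit 41830) (nat_lit 0) (nat_lit 12768) (XT.lf (nat_lit 0) (nat_lit 2700662310) (nat_lit 840) (nat_lit 5281625597) (nat_lit 924) (nat_lit 5381096912) (nat_lit 202) (nat_lit 5) (nat_lit 212) (nat_lit 5) (nat_lit 213) (nat_lit 5) (nat_lit 311) (nat_lit 274) (nat_lit 135)) (XT.lf (nat_lit 0) (nat_lit 613719903) (nat_lit 0) (nat_lit 613719903) (nat_lit 1596) (nat_lit 3408781331) (nat_lit 354) (nat_lit 5) (nat_lit 354) (nat_lit 3) (nat_lit 373) (nat_lit 3) (nat_lit 275) (nat_lit 275) (nat_lit 170))))) (XT.nd (nat_lit 376) (nat_lit 1428) (nat_lit 0) (XT.nd (nat_lit 188) (nat_lit 0) (nat_lit 84) (XT.nd (nat_lit 94) (nat_lit 0) (nat_lit 0) (XT.lf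 (nat_lit 0) (nat_lit 3348512316) (nat_lit 1596) (nat_lit 3421295100) (nat_lit 1680) (nat_lit 2585565884) (nat_lit 354) (nat_lit 5) (nat_lit 373) (nat_lit 3) (nat_lit 374) (nat_lit 5) (nat_lit 276) (nat_lit 275) (nat_lit 169)) (XT.lf (nat_lit 84) (nat_lit 1301100684) (nat_lit 0) (nat_lit 2954568860) (nat_lit 1680) (nat_lit 5184594243) (nat_lit 355) (nat_lit 5) (nat_lit 354) (nat_lit 5) (nat_lit 374) (nat_lit 5) (nat_lit 277) (nat_lit 275) (nat_lit 168))) (XT.nd (nat_lit 94) (nat_lit 0) (nat_lit 0) (XT.lf (nat_lit 0) (nat_lit 5191141191) (nat_lit 1596) (nat_lit 3368241828) (nat_lit 1680) (nat_lit 967454994) (nat_lit 355) (nat_lit 5) (nat_lit 374) (nat_lit 5) (nat_lit 375) (nat_lit 5) (nat_lit 278) (nat_lit 275) (nat_lit 167)) (XT.lf (nat_lit 84) (nat_lit 1494594817) (nat_lit 0) (nat_lit 4661440268) (nat_lit 1680) (nat_lit 3459087265) (nat_lit 356) (nat_lit 5) (nat_lit 355) (nat_lit 5) (nat_lit 375) (nat_lit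 5) (nat_lit 279) (nat_lit 275) (nat_lit 166)))) (XT.nd (nat_lit 188) (nat_lit 1512) (nat_lit 0) (XT.nd (nat_lit 94) (nat_lit 0) (nat_lit 84) (XT.lf (nat_lit 84) (nat_lit 6501750816) (nat_lit 0) (nat_lit 642380685) (nat_lit 1680) (nat_lit 2561173994) (nat_lit 356) (nat_lit 5) (nat_lit 355) (nat_lit 5) (nat_lit 375) (nat_lit 5) (nat_lit 280) (nat_lit 275) (nat_lit 165)) (XT.lf (nat_lit 84) (nat_lit 1809723197) (nat_lit 0) (nat_lit 6359474831) (nat_lit 1680) (nat_lit 1627939539) (nat_lit 357) (nat_lit 5) (nat_lit 356) (nat_lit 5) (nat_lit 376) (nat_lit 5) (nat_lit 281) (nat_lit 275) (nat_lit 164))) (XT.nd (nat_lit 94) (nat_lit 1596) (nat_lit 0) (XT.lf (nat_lit 84) (nat_lit 6963238306) (nat_lit 0) (nat_lit 2259928356) (nat_lit 1680) (nat_lit 667683567) (nat_lit 357) (nat_lit 5) (nat_lit 356) (nat_lit 5) (nat_lit 376) (nat_lit 5) (nat_lit 282) (nat_lit 275) (nat_lit 163)) (XT.lf (nat_lit 0) (nat_lit 317584681)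 (nat_lit 1680) (nat_lit 7739993950) (nat_lit 1764) (nat_lit 1928811871) (nat_lit 337) (nat_lit 5) (nat_lit 357) (nat_lit 5) (nat_lit 358) (nat_lit 5) (nat_lit 283) (nat_lit 275) (nat_lit 162))))))))
noncomputable def xc55 : XT := (XT.nd (nat_lit 44650) (nat_lit 0) (nat_lit 1764) (XT.nd (nat_lit 1410) (nat_lit 7476) (nat_lit 0) (XT.nd (nat_lit 658) (nat_lit 3024) (nat_lit 0) (XT.nd (nat_lit 282) (nat_lit 0) (nat_lit 84) (XT.nd (nat_lit 94) (nat_lit 0) (nat_lit 84) (XT.lf (nat_lit 0) (nat_lit 1331726776) (nat_lit 1680) (nat_lit 2540689055) (nat_lit 1764) (nat_lit 6211135318) (nat_lit 337) (nat_lit 5) (nat_lit 357) (nat_lit 5) (nat_lit 358) (nat_lit 5) (nat_lit 284) (nat_lit 275) (nat_lit 161)) (XT.nd (nat_lit 94) (nat_lit 0) (nat_lit 0) (XT.lf (nat_lit 0) (nat_lit 2370455705) (nat_lit 1680) (nat_lit 7385945530) (nat_lit 1764) (nat_lit 426398027) (nat_lit 338) (nat_lit 5) (nat_lit 358) (nat_lit 5) (nat_lit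 359) (nat_lit 5) (nat_lit 285) (nat_lit 275) (nat_lit 160)) (XT.lf (nat_lit 0) (nat_lit 3458783073) (nat_lit 1680) (nat_lit 2036107275) (nat_lit 1764) (nat_lit 4788752066) (nat_lit 338) (nat_lit 5) (nat_lit 358) (nat_lit 5) (nat_lit 359) (nat_lit 5) (nat_lit 286) (nat_lit 275) (nat_lit 159)))) (XT.nd (nat_lit 188) (nat_lit 0) (nat_lit 84) (XT.nd (nat_lit 94) (nat_lit 0) (nat_lit 84) (XT.lf (nat_lit 84) (nat_lit 3467942608) (nat_lit 0) (nat_lit 1107904444) (nat_lit 1764) (nat_lit 5810751609) (nat_lit 339) (nat_lit 5) (nat_lit 338) (nat_lit 5) (nat_lit 359) (nat_lit 5) (nat_lit 287) (nat_lit 275) (nat_lit 158)) (XT.lf (nat_lit 0) (nat_lit 5737148908) (nat_lit 1680) (nat_lit 1405964776) (nat_lit 1764) (nat_lit 3348273687) (nat_lit 339) (nat_lit 5) (nat_lit 359) (nat_lit 5) (nat_lit 360) (nat_lit 5) (nat_lit 288) (nat_lit 275) (nat_lit 157))) (XT.nd (nat_lit 94) (nat_lit 0) (nat_lit 84) (XT.lf (nat_lit 84)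 (nat_lit 4267896603) (nat_lit 0) (nat_lit 2675458419) (nat_lit 1764) (nat_lit 3654700586) (nat_lit 340) (nat_lit 5) (nat_lit 339) (nat_lit 5) (nat_lit 360) (nat_lit 5) (nat_lit 289) (nat_lit 275) (nat_lit 156)) (XT.lf (nat_lit 0) (nat_lit 8181267599) (nat_lit 1680) (nat_lit 646671843) (nat_lit 1764) (nat_lit 1879017366) (nat_lit 340) (nat_lit 5) (nat_lit 360) (nat_lit 5) (nat_lit 361) (nat_lit 5) (nat_lit 290) (nat_lit 275) (nat_lit 155))))) (XT.nd (nat_lit 376) (nat_lit 1596) (nat_lit 0) (XT.nd (nat_lit 188) (nat_lit 1680) (nat_lit 0) (XT.nd (nat_lit 94) (nat_lit 0) (nat_lit 84) (XT.lf (nat_lit 84) (nat_lit 5203754982) (nat_lit 0) (nat_lit 4280850836) (nat_lit 1764) (nat_lit 1332807802) (nat_lit 341) (nat_lit 5) (nat_lit 340) (nat_lit 5) (nat_lit 361) (nat_lit 5) (nat_lit 291) (nat_lit 275) (nat_lit 154)) (XT.lf (nat_lit 84) (nat_lit 249400038) (nat_lit 0) (nat_lit 10558392884) (nat_lit 1764) (nat_lit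 122701701) (nat_lit 342) (nat_lit 5) (nat_lit 341) (nat_lit 5) (nat_lit 362) (nat_lit 5) (nat_lit 292) (nat_lit 275) (nat_lit 153))) (XT.nd (nat_lit 94) (nat_lit 0) (nat_lit 0) (XT.lf (nat_lit 0) (nat_lit 1153050867) (nat_lit 1764) (nat_lit 4773328736) (nat_lit 1848) (nat_lit 5118297692) (nat_lit 320) (nat_lit 5) (nat_lit 341) (nat_lit 5) (nat_lit 342) (nat_lit 5) (nat_lit 293) (nat_lit 275) (nat_lit 152)) (XT.lf (nat_lit 84) (nat_lit 1268018141) (nat_lit 0) (nat_lit 1178601633) (nat_lit 1848) (nat_lit 8714918328) (nat_lit 321) (nat_lit 5) (nat_lit 320) (nat_lit 5) (nat_lit 342) (nat_lit 5) (nat_lit 294) (nat_lit 275) (nat_lit 151)))) (XT.nd (nat_lit 188) (nat_lit 1680) (nat_lit 0) (XT.nd (nat_lit 94) (nat_lit 0) (nat_lit 0) (XT.lf (nat_lit 0) (nat_lit 3813157039) (nat_lit 1764) (nat_lit 3807118009) (nat_lit 1848) (nat_lit 3659715582) (nat_lit 321) (nat_lit 5) (nat_lit 342) (nat_lit 5) (nat_lit 343)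 (nat_lit 5) (nat_lit 295) (nat_lit 275) (nat_lit 150)) (XT.lf (nat_lit 84) (nat_lit 2425782216) (nat_lit 0) (nat_lit 2793032799) (nat_lit 1848) (nat_lit 6182034847) (nat_lit 322) (nat_lit 5) (nat_lit 321) (nat_lit 5) (nat_lit 343) (nat_lit 5) (nat_lit 296) (nat_lit 275) (nat_lit 149))) (XT.nd (nat_lit 94) (nat_lit 1764) (nat_lit 0) (XT.lf (nat_lit 0) (nat_lit 6682451655) (nat_lit 1764) (nat_lit 2700580779) (nat_lit 84) (nat_lit 2140740373) (nat_lit 322) (nat_lit 5) (nat_lit 343) (nat_lit 5) (nat_lit 323) (nat_lit 5) (nat_lit 297) (nat_lit 275) (nat_lit 148)) (XT.lf (nat_lit 0) (nat_lit 3731614896) (nat_lit 1764) (nat_lit 4477425465) (nat_lit 1848) (nat_lit 3439683148) (nat_lit 301) (nat_lit 5) (nat_lit 322) (nat_lit 5) (nat_lit 323) (nat_lit 5) (nat_lit 298) (nat_lit 275) (nat_lit 147)))))) (XT.nd (nat_lit 658) (nat_lit 2604) (nat_lit 0) (XT.nd (nat_lit 282) (nat_lit 2940) (nat_lit 0) (XT.nd (nat_lit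 94) (nat_lit 1932) (nat_lit 0) (XT.lf (nat_lit 0) (nat_lit 9777230057) (nat_lit 1848) (nat_lit 1448306576) (nat_lit 84) (nat_lit 550710142) (nat_lit 301) (nat_lit 5) (nat_lit 323) (nat_lit 5) (nat_lit 302) (nat_lit 5) (nat_lit 299) (nat_lit 275) (nat_lit 146)) (XT.nd (nat_lit 94) (nat_lit 84) (nat_lit 0) (XT.lf (nat_lit 0) (nat_lit 5191275402) (nat_lit 1848) (nat_lit 6242665420) (nat_lit 1932) (nat_lit 471446271) (nat_lit 279) (nat_lit 5) (nat_lit 301) (nat_lit 5) (nat_lit 302) (nat_lit 5) (nat_lit 300) (nat_lit 275) (nat_lit 145)) (XT.lf (nat_lit 0) (nat_lit 1069383849) (nat_lit 1932) (nat_lit 60250087) (nat_lit 84) (nat_lit 10907666117) (nat_lit 278) (nat_lit 5) (nat_lit 301) (nat_lit 5) (nat_lit 279) (nat_lit 5) (nat_lit 301) (nat_lit 275) (nat_lit 144)))) (XT.nd (nat_lit 188) (nat_lit 924) (nat_lit 0) (XT.nd (nat_lit 94) (nat_lit 924) (nat_lit 0) (XT.lf (nat_lit 0) (nat_lit 2700233068) (nat_lit 1176)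 (nat_lit 5379593732) (nat_lit 84) (nat_lit 4090825460) (nat_lit 265) (nat_lit 5) (nat_lit 279) (nat_lit 5) (nat_lit 266) (nat_lit 5) (nat_lit 302) (nat_lit 275) (nat_lit 143)) (XT.lf (nat_lit 0) (nat_lit 1486473325) (nat_lit 924) (nat_lit 2884892688) (nat_lit 1008) (nat_lit 7935475291) (nat_lit 254) (nat_lit 5) (nat_lit 265) (nat_lit 5) (nat_lit 266) (nat_lit 5) (nat_lit 303) (nat_lit 275) (nat_lit 142))) (XT.nd (nat_lit 94) (nat_lit 924) (nat_lit 0) (XT.lf (nat_lit 0) (nat_lit 6121931468) (nat_lit 1008) (nat_lit 3892777910) (nat_lit 84) (nat_lit 2430378443) (nat_lit 254) (nat_lit 5) (nat_lit 266) (nat_lit 5) (nat_lit 255) (nat_lit 5) (nat_lit 304) (nat_lit 275) (nat_lit 141)) (XT.lf (nat_lit 0) (nat_lit 3198582321) (nat_lit 924) (nat_lit 4741901777) (nat_lit 1008) (nat_lit 4645243219) (nat_lit 243) (nat_lit 5) (nat_lit 254) (nat_lit 5) (nat_lit 255) (nat_lit 5) (nat_lit 305) (nat_lit 275) (nat_lit 140)))))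 (XT.nd (nat_lit 376) (nat_lit 840) (nat_lit 0) (XT.nd (nat_lit 188) (nat_lit 924) (nat_lit 0) (XT.nd (nat_lit 94) (nat_lit 840) (nat_lit 0) (XT.lf (nat_lit 0) (nat_lit 9818518935) (nat_lit 1008) (nat_lit 2243473339) (nat_lit 84) (nat_lit 667040178) (nat_lit 243) (nat_lit 5) (nat_lit 255) (nat_lit 5) (nat_lit 244) (nat_lit 5) (nat_lit 306) (nat_lit 275) (nat_lit 139)) (XT.lf (nat_lit 0) (nat_lit 5082421583) (nat_lit 840) (nat_lit 6712379780) (nat_lit 924) (nat_lit 1079436459) (nat_lit 233) (nat_lit 5) (nat_lit 243) (nat_lit 5) (nat_lit 244) (nat_lit 5) (nat_lit 307) (nat_lit 275) (nat_lit 138))) (XT.nd (nat_lit 94) (nat_lit 840) (nat_lit 0) (XT.lf (nat_lit 0) (nat_lit 783518138) (nat_lit 924) (nat_lit 438763419) (nat_lit 84) (nat_lit 11800166049) (nat_lit 232) (nat_lit 5) (nat_lit 243) (nat_lit 5) (nat_lit 233) (nat_lit 5) (nat_lit 308) (nat_lit 275) (nat_lit 137)) (XT.lf (nat_lit 0) (nat_lit 2740847893)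 (nat_lit 924) (nat_lit 6046738977) (nat_lit 84) (nat_lit 4384634103) (nat_lit 222) (nat_lit 5) (nat_lit 233) (nat_lit 5) (nat_lit 223) (nat_lit 5) (nat_lit 309) (nat_lit 275) (nat_lit 136)))) (XT.nd (nat_lit 42018) (nat_lit 0) (nat_lit 11928) (XT.nd (nat_lit 94) (nat_lit 0) (nat_lit 0) (XT.lf (nat_lit 0) (nat_lit 1537074195) (nat_lit 840) (nat_lit 3214071914) (nat_lit 924) (nat_lit 8573925288) (nat_lit 212) (nat_lit 5) (nat_lit 222) (nat_lit 5) (nat_lit 223) (nat_lit 5) (nat_lit 310) (nat_lit 275) (nat_lit 135)) (XT.lf (nat_lit 0) (nat_lit 6855319585) (nat_lit 924) (nat_lit 4134070007) (nat_lit 84) (nat_lit 2490802666) (nat_lit 212) (nat_lit 5) (nat_lit 223) (nat_lit 5) (nat_lit 213) (nat_lit 5) (nat_lit 311) (nat_lit 275) (nat_lit 134))) (XT.nd (nat_lit 94) (nat_lit 0) (nat_lit 0) (XT.lf (nat_lit 0) (nat_lit 1048172836) (nat_lit 0) (nat_lit 1048172836) (nat_lit 1596) (nat_lit 2623350480) (nat_lit 354)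 (nat_lit 5) (nat_lit 354) (nat_lit 3) (nat_lit 373) (nat_lit 3) (nat_lit 276) (nat_lit 276) (nat_lit 168)) (XT.lf (nat_lit 0) (nat_lit 5063869719) (nat_lit 1596) (nat_lit 2630670289) (nat_lit 1680) (nat_lit 1830534321) (nat_lit 354) (nat_lit 5) (nat_lit 373) (nat_lit 3) (nat_lit 374) (nat_lit 5) (nat_lit 277) (nat_lit 276) (nat_lit 167))))))) (XT.nd (nat_lit 1410) (nat_lit 8652) (nat_lit 0) (XT.nd (nat_lit 658) (nat_lit 0) (nat_lit 84) (XT.nd (nat_lit 282) (nat_lit 1512) (nat_lit 0) (XT.nd (nat_lit 94) (nat_lit 0) (nat_lit 84) (XT.lf (nat_lit 84) (nat_lit 2189360104) (nat_lit 0) (nat_lit 3772407978) (nat_lit 1680) (nat_lit 3650707085) (nat_lit 355) (nat_lit 5) (nat_lit 354) (nat_lit 5) (nat_lit 374) (nat_lit 5) (nat_lit 278) (nat_lit 276) (nat_lit 166)) (XT.nd (nat_lit 94) (nat_lit 0) (nat_lit 0) (XT.lf (nat_lit 0) (nat_lit 6877862110) (nat_lit 1596) (nat_lit 2561254816) (nat_lit 1680) (nat_lit 262716175)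 (nat_lit 355) (nat_lit 5) (nat_lit 374) (nat_lit 5) (nat_lit 375) (nat_lit 5) (nat_lit 279) (nat_lit 276) (nat_lit 165)) (XT.lf (nat_lit 84) (nat_lit 2402196317) (nat_lit 0) (nat_lit 5434167559) (nat_lit 1680) (nat_lit 1956303454) (nat_lit 356) (nat_lit 5) (nat_lit 355) (nat_lit 5) (nat_lit 375) (nat_lit 5) (nat_lit 280) (nat_lit 276) (nat_lit 164)))) (XT.nd (nat_lit 188) (nat_lit 1596) (nat_lit 0) (XT.nd (nat_lit 94) (nat_lit 0) (nat_lit 84) (XT.lf (nat_lit 84) (nat_lit 7500680150) (nat_lit 0) (nat_lit 1312262184) (nat_lit 1680) (nat_lit 1072623804) (nat_lit 356) (nat_lit 5) (nat_lit 355) (nat_lit 5) (nat_lit 375) (nat_lit 5) (nat_lit 281) (nat_lit 276) (nat_lit 163)) (XT.lf (nat_lit 84) (nat_lit 2736895138) (nat_lit 0) (nat_lit 7092875348) (nat_lit 1680) (nat_lit 150325405) (nat_lit 357) (nat_lit 5) (nat_lit 356) (nat_lit 5) (nat_lit 376) (nat_lit 5) (nat_lit 282) (nat_lit 276) (nat_lit 162))) (XT.nd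 (nat_lit 94) (nat_lit 0) (nat_lit 84) (XT.lf (nat_lit 0) (nat_lit 786976877) (nat_lit 1680) (nat_lit 2097573340) (nat_lit 1764) (nat_lit 7191896187) (nat_lit 336) (nat_lit 5) (nat_lit 356) (nat_lit 5) (nat_lit 357) (nat_lit 5) (nat_lit 283) (nat_lit 276) (nat_lit 161)) (XT.lf (nat_lit 0) (nat_lit 1755038759) (nat_lit 1680) (nat_lit 6991634541) (nat_lit 1764) (nat_lit 1427947516) (nat_lit 337) (nat_lit 5) (nat_lit 357) (nat_lit 5) (nat_lit 358) (nat_lit 5) (nat_lit 284) (nat_lit 276) (nat_lit 160))))) (XT.nd (nat_lit 376) (nat_lit 0) (nat_lit 168) (XT.nd (nat_lit 188) (nat_lit 0) (nat_lit 84) (XT.nd (nat_lit 94) (nat_lit 0) (nat_lit 0) (XT.lf (nat_lit 0) (nat_lit 2760699143) (nat_lit 1680) (nat_lit 1697719951) (nat_lit 1764) (nat_lit 5816177343) (nat_lit 337) (nat_lit 5) (nat_lit 357) (nat_lit 5) (nat_lit 358) (nat_lit 5) (nat_lit 285) (nat_lit 276) (nat_lit 159)) (XT.lf (nat_lit 84) (nat_lit 3753971194)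 (nat_lit 0) (nat_lit 41385966) (nat_lit 1764) (nat_lit 6581263155) (nat_lit 338) (nat_lit 5) (nat_lit 337) (nat_lit 5) (nat_lit 358) (nat_lit 5) (nat_lit 286) (nat_lit 276) (nat_lit 158))) (XT.nd (nat_lit 94) (nat_lit 0) (nat_lit 0) (XT.lf (nat_lit 0) (nat_lit 4877788853) (nat_lit 1680) (nat_lit 1174754852) (nat_lit 1764) (nat_lit 4427794767) (nat_lit 338) (nat_lit 5) (nat_lit 358) (nat_lit 5) (nat_lit 359) (nat_lit 5) (nat_lit 287) (nat_lit 276) (nat_lit 157)) (XT.lf (nat_lit 84) (nat_lit 4443835105) (nat_lit 0) (nat_lit 1553093083) (nat_lit 1764) (nat_lit 4589126568) (nat_lit 339) (nat_lit 5) (nat_lit 338) (nat_lit 5) (nat_lit 359) (nat_lit 5) (nat_lit 288) (nat_lit 276) (nat_lit 156)))) (XT.nd (nat_lit 188) (nat_lit 0) (nat_lit 84) (XT.nd (nat_lit 94) (nat_lit 0) (nat_lit 0) (XT.lf (nat_lit 0) (nat_lit 7152421897) (nat_lit 1680) (nat_lit 525306571) (nat_lit 1764) (nat_lit 3016110199) (nat_lit 339)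 (nat_lit 5) (nat_lit 359) (nat_lit 5) (nat_lit 360) (nat_lit 5) (nat_lit 289) (nat_lit 276) (nat_lit 155)) (XT.lf (nat_lit 84) (nat_lit 5266791399) (nat_lit 0) (nat_lit 3097070930) (nat_lit 1764) (nat_lit 2439459926) (nat_lit 340) (nat_lit 5) (nat_lit 339) (nat_lit 5) (nat_lit 360) (nat_lit 5) (nat_lit 290) (nat_lit 276) (nat_lit 154))) (XT.nd (nat_lit 94) (nat_lit 0) (nat_lit 0) (XT.lf (nat_lit 84) (nat_lit 258157848) (nat_lit 0) (nat_lit 9342871513) (nat_lit 1764) (nat_lit 1314205472) (nat_lit 341) (nat_lit 5) (nat_lit 340) (nat_lit 5) (nat_lit 361) (nat_lit 5) (nat_lit 291) (nat_lit 276) (nat_lit 153)) (XT.lf (nat_lit 84) (nat_lit 6226960317) (nat_lit 0) (nat_lit 4684066526) (nat_lit 1764) (nat_lit 117579165) (nat_lit 341) (nat_lit 5) (nat_lit 340) (nat_lit 5) (nat_lit 361) (nat_lit 5) (nat_lit 292) (nat_lit 276) (nat_lit 152)))))) (XT.nd (nat_lit 752) (nat_lit 5712) (nat_lit 0) (XT.nd (nat_lit 376)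 (nat_lit 1596) (nat_lit 0) (XT.nd (nat_lit 188) (nat_lit 0) (nat_lit 0) (XT.nd (nat_lit 94) (nat_lit 0) (nat_lit 0) (XT.lf (nat_lit 0) (nat_lit 1081135042) (nat_lit 1764) (nat_lit 9966642278) (nat_lit 1848) (nat_lit 96703776) (nat_lit 320) (nat_lit 5) (nat_lit 341) (nat_lit 5) (nat_lit 342) (nat_lit 5) (nat_lit 293) (nat_lit 276) (nat_lit 151)) (XT.lf (nat_lit 0) (nat_lit 2357214470) (nat_lit 1764) (nat_lit 3950217578) (nat_lit 1848) (nat_lit 4954294624) (nat_lit 320) (nat_lit 5) (nat_lit 341) (nat_lit 5) (nat_lit 342) (nat_lit 5) (nat_lit 294) (nat_lit 276) (nat_lit 150))) (XT.nd (nat_lit 94) (nat_lit 0) (nat_lit 84) (XT.lf (nat_lit 84) (nat_lit 2217331066) (nat_lit 0) (nat_lit 1443099026) (nat_lit 1848) (nat_lit 7721142184) (nat_lit 321) (nat_lit 5) (nat_lit 320) (nat_lit 5) (nat_lit 342) (nat_lit 5) (nat_lit 295) (nat_lit 276) (nat_lit 149)) (XT.lf (nat_lit 0) (nat_lit 5030398067) (nat_lit 1764) (nat_lit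 2962659764) (nat_lit 1848) (nat_lit 3510158859) (nat_lit 321) (nat_lit 5) (nat_lit 342) (nat_lit 5) (nat_lit 343) (nat_lit 5) (nat_lit 296) (nat_lit 276) (nat_lit 148)))) (XT.nd (nat_lit 188) (nat_lit 1680) (nat_lit 0) (XT.nd (nat_lit 94) (nat_lit 0) (nat_lit 84) (XT.lf (nat_lit 84) (nat_lit 3400655749) (nat_lit 0) (nat_lit 3048491876) (nat_lit 1848) (nat_lit 5177979524) (nat_lit 322) (nat_lit 5) (nat_lit 321) (nat_lit 5) (nat_lit 343) (nat_lit 5) (nat_lit 297) (nat_lit 276) (nat_lit 147)) (XT.lf (nat_lit 0) (nat_lit 7919618902) (nat_lit 1764) (nat_lit 1832958595) (nat_lit 84) (nat_lit 2000734939) (nat_lit 322) (nat_lit 5) (nat_lit 343) (nat_lit 5) (nat_lit 323) (nat_lit 5) (nat_lit 298) (nat_lit 276) (nat_lit 146))) (XT.nd (nat_lit 94) (nat_lit 0) (nat_lit 0) (XT.lf (nat_lit 0) (nat_lit 4734045395) (nat_lit 1764) (nat_lit 4728835831) (nat_lit 1848) (nat_lit 2418502877) (nat_lit 301) (nat_lit 5) (nat_lit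 322) (nat_lit 5) (nat_lit 323) (nat_lit 5) (nat_lit 299) (nat_lit 276) (nat_lit 145)) (XT.lf (nat_lit 0) (nat_lit 11041402292) (nat_lit 1848) (nat_lit 555477063) (nat_lit 84) (nat_lit 415365239) (nat_lit 301) (nat_lit 5) (nat_lit 323) (nat_lit 5) (nat_lit 302) (nat_lit 5) (nat_lit 300) (nat_lit 276) (nat_lit 144))))) (XT.nd (nat_lit 376) (nat_lit 1764) (nat_lit 0) (XT.nd (nat_lit 188) (nat_lit 924) (nat_lit 0) (XT.nd (nat_lit 94) (nat_lit 1092) (nat_lit 0) (XT.lf (nat_lit 0) (nat_lit 565671607) (nat_lit 1932) (nat_lit 5925174596) (nat_lit 84) (nat_lit 5653642813) (nat_lit 278) (nat_lit 5) (nat_lit 301) (nat_lit 5) (nat_lit 279) (nat_lit 5) (nat_lit 301) (nat_lit 276) (nat_lit 143)) (XT.lf (nat_lit 0) (nat_lit 863995356) (nat_lit 1092) (nat_lit 1253220048) (nat_lit 1176) (nat_lit 10162370538) (nat_lit 265) (nat_lit 5) (nat_lit 278) (nat_lit 5) (nat_lit 279) (nat_lit 5) (nat_lit 302) (nat_lit 276) (nat_lit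 142))) (XT.nd (nat_lit 94) (nat_lit 924) (nat_lit 0) (XT.lf (nat_lit 0) (nat_lit 3761644136) (nat_lit 1176) (nat_lit 4568673403) (nat_lit 84) (nat_lit 4086044940) (nat_lit 265) (nat_lit 5) (nat_lit 279) (nat_lit 5) (nat_lit 266) (nat_lit 5) (nat_lit 303) (nat_lit 276) (nat_lit 141)) (XT.lf (nat_lit 0) (nat_lit 2441730975) (nat_lit 924) (nat_lit 3012813009) (nat_lit 1008) (nat_lit 7101333654) (nat_lit 254) (nat_lit 5) (nat_lit 265) (nat_lit 5) (nat_lit 266) (nat_lit 5) (nat_lit 304) (nat_lit 276) (nat_lit 140)))) (XT.nd (nat_lit 188) (nat_lit 840) (nat_lit 0) (XT.nd (nat_lit 94) (nat_lit 924) (nat_lit 0) (XT.lf (nat_lit 0) (nat_lit 7221925905) (nat_lit 1008) (nat_lit 3054027123) (nat_lit 84) (nat_lit 2421689862) (nat_lit 254) (nat_lit 5) (nat_lit 266) (nat_lit 5) (nat_lit 255) (nat_lit 5) (nat_lit 305) (nat_lit 276) (nat_lit 139)) (XT.lf (nat_lit 0) (nat_lit 4186662146) (nat_lit 924) (nat_lit 4879581910)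 (nat_lit 1008) (nat_lit 3775445737) (nat_lit 243) (nat_lit 5) (nat_lit 254) (nat_lit 5) (nat_lit 255) (nat_lit 5) (nat_lit 306) (nat_lit 276) (nat_lit 138))) (XT.nd (nat_lit 94) (nat_lit 840) (nat_lit 0) (XT.lf (nat_lit 0) (nat_lit 10964890039) (nat_lit 1008) (nat_lit 1374168150) (nat_lit 84) (nat_lit 649544976) (nat_lit 243) (nat_lit 5) (nat_lit 255) (nat_lit 5) (nat_lit 244) (nat_lit 5) (nat_lit 307) (nat_lit 276) (nat_lit 137)) (XT.lf (nat_lit 0) (nat_lit 6106256987) (nat_lit 840) (nat_lit 6864862844) (nat_lit 924) (nat_lit 166180901) (nat_lit 233) (nat_lit 5) (nat_lit 243) (nat_lit 5) (nat_lit 244) (nat_lit 5) (nat_lit 308) (nat_lit 276) (nat_lit 136))))))))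
noncomputable def xc56 : XT := (XT.nd (nat_lit 44744) (nat_lit 0) (nat_lit 840) (XT.nd (nat_lit 43334) (nat_lit 0) (nat_lit 4452) (XT.nd (nat_lit 42582) (nat_lit 0) (nat_lit 10332) (XT.nd (nat_lit 42206) (nat_lit 0) (nat_lit 11928) (XT.nd (nat_lit 94) (nat_lit 840) (nat_lit 0) (XT.lf (nat_lit 0) (nat_lit 463859711) (nat_lit 840) (nat_lit 1243827534) (nat_lit 924) (nat_lit 11581301710) (nat_lit 222) (nat_lit 5) (nat_lit 232) (nat_lit 5) (nat_lit 233) (nat_lit 5) (nat_lit 309) (nat_lit 276) (nat_lit 135)) (XT.nd (nat_lit 94) (nat_lit 840) (nat_lit 0) (XT.lf (nat_lit 0) (nat_lit 3691786687) (nat_lit 924) (nat_lit 5261184978) (nat_lit 84) (nat_lit 4489444087) (nat_lit 222) (nat_lit 5) (nat_lit 233) (nat_lit 5) (nat_lit 223) (nat_lit 5) (nat_lit 310) (nat_lit 276) (nat_lit 134)) (XT.lf (nat_lit 0) (nat_lit 2482833185) (nat_lit 840) (nat_lit 3250801974) (nat_lit 924) (nat_lit 7865272605) (nat_lit 212) (nat_lit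 5) (nat_lit 222) (nat_lit 5) (nat_lit 223) (nat_lit 5) (nat_lit 311) (nat_lit 276) (nat_lit 133)))) (XT.nd (nat_lit 188) (nat_lit 0) (nat_lit 0) (XT.nd (nat_lit 94) (nat_lit 0) (nat_lit 0) (XT.lf (nat_lit 0) (nat_lit 1474255658) (nat_lit 0) (nat_lit 1474255658) (nat_lit 1596) (nat_lit 1857285139) (nat_lit 354) (nat_lit 5) (nat_lit 354) (nat_lit 3) (nat_lit 373) (nat_lit 3) (nat_lit 277) (nat_lit 277) (nat_lit 166)) (XT.lf (nat_lit 0) (nat_lit 6747046304) (nat_lit 1596) (nat_lit 1859529653) (nat_lit 1680) (nat_lit 1093471036) (nat_lit 354) (nat_lit 5) (nat_lit 373) (nat_lit 3) (nat_lit 374) (nat_lit 5) (nat_lit 278) (nat_lit 277) (nat_lit 165))) (XT.nd (nat_lit 94) (nat_lit 0) (nat_lit 0) (XT.lf (nat_lit 84) (nat_lit 3060549839) (nat_lit 0) (nat_lit 4576176574) (nat_lit 1680) (nat_lit 2153259621) (nat_lit 355) (nat_lit 5) (nat_lit 354) (nat_lit 5) (nat_lit 374) (nat_lit 5) (nat_lit 279) (nat_lit 277)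 (nat_lit 164)) (XT.lf (nat_lit 84) (nat_lit 8104961266) (nat_lit 0) (nat_lit 432840260) (nat_lit 1680) (nat_lit 1344282121) (nat_lit 355) (nat_lit 5) (nat_lit 354) (nat_lit 5) (nat_lit 374) (nat_lit 5) (nat_lit 280) (nat_lit 277) (nat_lit 163))))) (XT.nd (nat_lit 376) (nat_lit 0) (nat_lit 168) (XT.nd (nat_lit 188) (nat_lit 0) (nat_lit 84) (XT.nd (nat_lit 94) (nat_lit 1680) (nat_lit 0) (XT.lf (nat_lit 84) (nat_lit 3292511187) (nat_lit 0) (nat_lit 6195352439) (nat_lit 1680) (nat_lit 487702190) (nat_lit 356) (nat_lit 5) (nat_lit 355) (nat_lit 5) (nat_lit 375) (nat_lit 5) (nat_lit 281) (nat_lit 277) (nat_lit 162)) (XT.lf (nat_lit 0) (nat_lit 377363552) (nat_lit 1680) (nat_lit 1588802196) (nat_lit 1764) (nat_lit 8104983123) (nat_lit 335) (nat_lit 5) (nat_lit 355) (nat_lit 5) (nat_lit 356) (nat_lit 5) (nat_lit 282) (nat_lit 277) (nat_lit 161))) (XT.nd (nat_lit 94) (nat_lit 0) (nat_lit 0) (XT.lf (nat_lit 0)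 (nat_lit 1276683116) (nat_lit 1680) (nat_lit 6531021051) (nat_lit 1764) (nat_lit 2360559646) (nat_lit 336) (nat_lit 5) (nat_lit 356) (nat_lit 5) (nat_lit 357) (nat_lit 5) (nat_lit 283) (nat_lit 277) (nat_lit 160)) (XT.lf (nat_lit 0) (nat_lit 2201651310) (nat_lit 1680) (nat_lit 1292021560) (nat_lit 1764) (nat_lit 6773713414) (nat_lit 336) (nat_lit 5) (nat_lit 356) (nat_lit 5) (nat_lit 357) (nat_lit 5) (nat_lit 284) (nat_lit 277) (nat_lit 159)))) (XT.nd (nat_lit 188) (nat_lit 0) (nat_lit 0) (XT.nd (nat_lit 94) (nat_lit 0) (nat_lit 0) (XT.lf (nat_lit 0) (nat_lit 3163194013) (nat_lit 1680) (nat_lit 6265935566) (nat_lit 1764) (nat_lit 939202917) (nat_lit 337) (nat_lit 5) (nat_lit 357) (nat_lit 5) (nat_lit 358) (nat_lit 5) (nat_lit 285) (nat_lit 277) (nat_lit 158)) (XT.lf (nat_lit 0) (nat_lit 4161497540) (nat_lit 1680) (nat_lit 874487663) (nat_lit 1764) (nat_lit 5435170970) (nat_lit 337) (nat_lit 5) (nat_lit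 357) (nat_lit 5) (nat_lit 358) (nat_lit 5) (nat_lit 286) (nat_lit 277) (nat_lit 157))) (XT.nd (nat_lit 94) (nat_lit 0) (nat_lit 84) (XT.lf (nat_lit 84) (nat_lit 4690920975) (nat_lit 0) (nat_lit 505236126) (nat_lit 1764) (nat_lit 5379768216) (nat_lit 338) (nat_lit 5) (nat_lit 337) (nat_lit 5) (nat_lit 358) (nat_lit 5) (nat_lit 287) (nat_lit 277) (nat_lit 156)) (XT.lf (nat_lit 0) (nat_lit 6270818852) (nat_lit 1680) (nat_lit 333044969) (nat_lit 1764) (nat_lit 4078756287) (nat_lit 338) (nat_lit 5) (nat_lit 358) (nat_lit 5) (nat_lit 359) (nat_lit 5) (nat_lit 288) (nat_lit 277) (nat_lit 155)))))) (XT.nd (nat_lit 658) (nat_lit 4536) (nat_lit 0) (XT.nd (nat_lit 282) (nat_lit 1596) (nat_lit 0) (XT.nd (nat_lit 94) (nat_lit 0) (nat_lit 84) (XT.lf (nat_lit 84) (nat_lit 5402883862) (nat_lit 0) (nat_lit 1990153604) (nat_lit 1764) (nat_lit 3398098604) (nat_lit 339) (nat_lit 5) (nat_lit 338) (nat_lit 5) (nat_lit 359)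 (nat_lit 5) (nat_lit 289) (nat_lit 277) (nat_lit 154)) (XT.nd (nat_lit 94) (nat_lit 0) (nat_lit 0) (XT.lf (nat_lit 84) (nat_lit 340810779) (nat_lit 0) (nat_lit 8205547612) (nat_lit 1764) (nat_lit 2355539896) (nat_lit 340) (nat_lit 5) (nat_lit 339) (nat_lit 5) (nat_lit 360) (nat_lit 5) (nat_lit 290) (nat_lit 277) (nat_lit 153)) (XT.lf (nat_lit 84) (nat_lit 6249118381) (nat_lit 0) (nat_lit 3512509490) (nat_lit 1764) (nat_lit 1252664741) (nat_lit 340) (nat_lit 5) (nat_lit 339) (nat_lit 5) (nat_lit 360) (nat_lit 5) (nat_lit 291) (nat_lit 277) (nat_lit 152)))) (XT.nd (nat_lit 188) (nat_lit 0) (nat_lit 0) (XT.nd (nat_lit 94) (nat_lit 1764) (nat_lit 0) (XT.lf (nat_lit 84) (nat_lit 1152998499) (nat_lit 0) (nat_lit 9850799198) (nat_lit 1764) (nat_lit 125358297) (nat_lit 341) (nat_lit 5) (nat_lit 340) (nat_lit 5) (nat_lit 361) (nat_lit 5) (nat_lit 292) (nat_lit 277) (nat_lit 151)) (XT.lf (nat_lit 0) (nat_lit 1055948504)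 (nat_lit 1764) (nat_lit 4019243153) (nat_lit 1848) (nat_lit 6170226074) (nat_lit 319) (nat_lit 5) (nat_lit 340) (nat_lit 5) (nat_lit 341) (nat_lit 5) (nat_lit 293) (nat_lit 277) (nat_lit 150))) (XT.nd (nat_lit 94) (nat_lit 0) (nat_lit 84) (XT.lf (nat_lit 84) (nat_lit 2085252082) (nat_lit 0) (nat_lit 174330949) (nat_lit 1848) (nat_lit 9104674064) (nat_lit 320) (nat_lit 5) (nat_lit 319) (nat_lit 5) (nat_lit 341) (nat_lit 5) (nat_lit 294) (nat_lit 277) (nat_lit 149)) (XT.lf (nat_lit 0) (nat_lit 3537665377) (nat_lit 1764) (nat_lit 3148526283) (nat_lit 1848) (nat_lit 4798463971) (nat_lit 320) (nat_lit 5) (nat_lit 341) (nat_lit 5) (nat_lit 342) (nat_lit 5) (nat_lit 295) (nat_lit 277) (nat_lit 148))))) (XT.nd (nat_lit 376) (nat_lit 4620) (nat_lit 0) (XT.nd (nat_lit 188) (nat_lit 0) (nat_lit 84) (XT.nd (nat_lit 94) (nat_lit 0) (nat_lit 84) (XT.lf (nat_lit 84) (nat_lit 3148286253) (nat_lit 0) (nat_lit 1703254876)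 (nat_lit 1848) (nat_lit 6755992944) (nat_lit 321) (nat_lit 5) (nat_lit 320) (nat_lit 5) (nat_lit 342) (nat_lit 5) (nat_lit 296) (nat_lit 277) (nat_lit 147)) (XT.lf (nat_lit 0) (nat_lit 6226149576) (nat_lit 1764) (nat_lit 2139155599) (nat_lit 1848) (nat_lit 3367110462) (nat_lit 321) (nat_lit 5) (nat_lit 342) (nat_lit 5) (nat_lit 343) (nat_lit 5) (nat_lit 297) (nat_lit 277) (nat_lit 146))) (XT.nd (nat_lit 94) (nat_lit 0) (nat_lit 84) (XT.lf (nat_lit 84) (nat_lit 4357730050) (nat_lit 0) (nat_lit 3301308174) (nat_lit 1848) (nat_lit 4200389517) (nat_lit 322) (nat_lit 5) (nat_lit 321) (nat_lit 5) (nat_lit 343) (nat_lit 5) (nat_lit 298) (nat_lit 277) (nat_lit 145)) (XT.lf (nat_lit 0) (nat_lit 9137574797) (nat_lit 1764) (nat_lit 985730633) (nat_lit 84) (nat_lit 1865617945) (nat_lit 322) (nat_lit 5) (nat_lit 343) (nat_lit 5) (nat_lit 323) (nat_lit 5) (nat_lit 299) (nat_lit 277) (nat_lit 144)))) (XT.nd (nat_lit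 188) (nat_lit 1092) (nat_lit 0) (XT.nd (nat_lit 94) (nat_lit 1932) (nat_lit 0) (XT.lf (nat_lit 0) (nat_lit 5719332804) (nat_lit 1764) (nat_lit 4979265000) (nat_lit 1848) (nat_lit 1421571020) (nat_lit 301) (nat_lit 5) (nat_lit 322) (nat_lit 5) (nat_lit 323) (nat_lit 5) (nat_lit 300) (nat_lit 277) (nat_lit 143)) (XT.lf (nat_lit 0) (nat_lit 36107875) (nat_lit 1932) (nat_lit 11932373730) (nat_lit 84) (nat_lit 285879466) (nat_lit 278) (nat_lit 5) (nat_lit 301) (nat_lit 5) (nat_lit 279) (nat_lit 5) (nat_lit 301) (nat_lit 277) (nat_lit 142))) (XT.nd (nat_lit 94) (nat_lit 1092) (nat_lit 0) (XT.lf (nat_lit 0) (nat_lit 1574349912) (nat_lit 1932) (nat_lit 5162058121) (nat_lit 84) (nat_lit 5653342603) (nat_lit 278) (nat_lit 5) (nat_lit 301) (nat_lit 5) (nat_lit 279) (nat_lit 5) (nat_lit 302) (nat_lit 277) (nat_lit 141)) (XT.lf (nat_lit 0) (nat_lit 1770016163) (nat_lit 1092) (nat_lit 1374884572) (nat_lit 1176) (nat_lit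 9383251753) (nat_lit 265) (nat_lit 5) (nat_lit 278) (nat_lit 5) (nat_lit 279) (nat_lit 5) (nat_lit 303) (nat_lit 277) (nat_lit 140))))))) (XT.nd (nat_lit 43428) (nat_lit 0) (nat_lit 8148) (XT.nd (nat_lit 658) (nat_lit 0) (nat_lit 0) (XT.nd (nat_lit 282) (nat_lit 2688) (nat_lit 0) (XT.nd (nat_lit 94) (nat_lit 924) (nat_lit 0) (XT.lf (nat_lit 0) (nat_lit 4803731364) (nat_lit 1176) (nat_lit 3779489986) (nat_lit 84) (nat_lit 4085195820) (nat_lit 265) (nat_lit 5) (nat_lit 279) (nat_lit 5) (nat_lit 266) (nat_lit 5) (nat_lit 304) (nat_lit 277) (nat_lit 139)) (XT.nd (nat_lit 94) (nat_lit 0) (nat_lit 0) (XT.lf (nat_lit 0) (nat_lit 3378713172) (nat_lit 924) (nat_lit 3140802573) (nat_lit 1008) (nat_lit 6291801821) (nat_lit 254) (nat_lit 5) (nat_lit 265) (nat_lit 5) (nat_lit 266) (nat_lit 5) (nat_lit 305) (nat_lit 277) (nat_lit 138)) (XT.lf (nat_lit 0) (nat_lit 8305008114) (nat_lit 1008) (nat_lit 2236193162) (nat_lit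 84) (nat_lit 2415457361) (nat_lit 254) (nat_lit 5) (nat_lit 266) (nat_lit 5) (nat_lit 255) (nat_lit 5) (nat_lit 306) (nat_lit 277) (nat_lit 137)))) (XT.nd (nat_lit 188) (nat_lit 1764) (nat_lit 0) (XT.nd (nat_lit 94) (nat_lit 0) (nat_lit 0) (XT.lf (nat_lit 0) (nat_lit 5157394918) (nat_lit 924) (nat_lit 5018870294) (nat_lit 1008) (nat_lit 2927909352) (nat_lit 243) (nat_lit 5) (nat_lit 254) (nat_lit 5) (nat_lit 255) (nat_lit 5) (nat_lit 307) (nat_lit 277) (nat_lit 136)) (XT.lf (nat_lit 0) (nat_lit 12096857628) (nat_lit 1008) (nat_lit 524863541) (nat_lit 84) (nat_lit 633034985) (nat_lit 243) (nat_lit 5) (nat_lit 255) (nat_lit 5) (nat_lit 244) (nat_lit 5) (nat_lit 308) (nat_lit 277) (nat_lit 135))) (XT.nd (nat_lit 94) (nat_lit 840) (nat_lit 0) (XT.lf (nat_lit 0) (nat_lit 716784972) (nat_lit 924) (nat_lit 6298416264) (nat_lit 84) (nat_lit 6391694863) (nat_lit 232) (nat_lit 5) (nat_lit 243) (nat_lit 5) (nat_lit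 233) (nat_lit 5) (nat_lit 309) (nat_lit 277) (nat_lit 134)) (XT.lf (nat_lit 0) (nat_lit 1353761136) (nat_lit 840) (nat_lit 1262904041) (nat_lit 924) (nat_lit 10945510542) (nat_lit 222) (nat_lit 5) (nat_lit 232) (nat_lit 5) (nat_lit 233) (nat_lit 5) (nat_lit 310) (nat_lit 277) (nat_lit 133))))) (XT.nd (nat_lit 42394) (nat_lit 0) (nat_lit 9408) (XT.nd (nat_lit 42206) (nat_lit 0) (nat_lit 11088) (XT.nd (nat_lit 42112) (nat_lit 0) (nat_lit 11088) (XT.lf (nat_lit 0) (nat_lit 4625714260) (nat_lit 924) (nat_lit 4497470704) (nat_lit 84) (nat_lit 4596204352) (nat_lit 222) (nat_lit 5) (nat_lit 233) (nat_lit 5) (nat_lit 223) (nat_lit 5) (nat_lit 311) (nat_lit 277) (nat_lit 132)) (XT.lf (nat_lit 0) (nat_lit 1892547774) (nat_lit 0) (nat_lit 1892547774) (nat_lit 1596) (nat_lit 1109450657) (nat_lit 354) (nat_lit 5) (nat_lit 354) (nat_lit 3) (nat_lit 373) (nat_lit 3) (nat_lit 278) (nat_lit 278) (nat_lit 164))) (XT.nd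 (nat_lit 94) (nat_lit 0) (nat_lit 0) (XT.lf (nat_lit 0) (nat_lit 8400311891) (nat_lit 1596) (nat_lit 1106731232) (nat_lit 1680) (nat_lit 373298631) (nat_lit 354) (nat_lit 5) (nat_lit 373) (nat_lit 3) (nat_lit 374) (nat_lit 5) (nat_lit 279) (nat_lit 278) (nat_lit 163)) (XT.lf (nat_lit 84) (nat_lit 3915853616) (nat_lit 0) (nat_lit 5366930641) (nat_lit 1680) (nat_lit 690064372) (nat_lit 355) (nat_lit 5) (nat_lit 354) (nat_lit 5) (nat_lit 374) (nat_lit 5) (nat_lit 280) (nat_lit 278) (nat_lit 162)))) (XT.nd (nat_lit 188) (nat_lit 0) (nat_lit 84) (XT.nd (nat_lit 94) (nat_lit 0) (nat_lit 84) (XT.lf (nat_lit 0) (nat_lit 102692816) (nat_lit 1680) (nat_lit 1014134677) (nat_lit 1764) (nat_lit 8950828547) (nat_lit 334) (nat_lit 5) (nat_lit 354) (nat_lit 5) (nat_lit 355) (nat_lit 5) (nat_lit 281) (nat_lit 278) (nat_lit 161)) (XT.lf (nat_lit 0) (nat_lit 935162237) (nat_lit 1680) (nat_lit 6003886923) (nat_lit 1764)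 (nat_lit 3224676086) (nat_lit 335) (nat_lit 5) (nat_lit 355) (nat_lit 5) (nat_lit 356) (nat_lit 5) (nat_lit 282) (nat_lit 278) (nat_lit 160))) (XT.nd (nat_lit 94) (nat_lit 0) (nat_lit 84) (XT.lf (nat_lit 0) (nat_lit 1781374820) (nat_lit 1680) (nat_lit 818819971) (nat_lit 1764) (nat_lit 7661813751) (nat_lit 335) (nat_lit 5) (nat_lit 355) (nat_lit 5) (nat_lit 356) (nat_lit 5) (nat_lit 283) (nat_lit 278) (nat_lit 159)) (XT.lf (nat_lit 0) (nat_lit 2672050910) (nat_lit 1680) (nat_lit 5841339137) (nat_lit 1764) (nat_lit 1848495393) (nat_lit 336) (nat_lit 5) (nat_lit 356) (nat_lit 5) (nat_lit 357) (nat_lit 5) (nat_lit 284) (nat_lit 278) (nat_lit 158)))))) (XT.nd (nat_lit 658) (nat_lit 1428) (nat_lit 0) (XT.nd (nat_lit 282) (nat_lit 0) (nat_lit 84) (XT.nd (nat_lit 94) (nat_lit 0) (nat_lit 84) (XT.lf (nat_lit 0) (nat_lit 3587935746) (nat_lit 1680) (nat_lit 505021008) (nat_lit 1764) (nat_lit 6370879370) (nat_lit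 336) (nat_lit 5) (nat_lit 356) (nat_lit 5) (nat_lit 357) (nat_lit 5) (nat_lit 285) (nat_lit 278) (nat_lit 157)) (XT.nd (nat_lit 94) (nat_lit 0) (nat_lit 0) (XT.lf (nat_lit 0) (nat_lit 4544000539) (nat_lit 1680) (nat_lit 5561729273) (nat_lit 1764) (nat_lit 461859241) (nat_lit 337) (nat_lit 5) (nat_lit 357) (nat_lit 5) (nat_lit 358) (nat_lit 5) (nat_lit 286) (nat_lit 278) (nat_lit 156)) (XT.lf (nat_lit 0) (nat_lit 5536040953) (nat_lit 1680) (nat_lit 69795985) (nat_lit 1764) (nat_lit 5067458881) (nat_lit 337) (nat_lit 5) (nat_lit 357) (nat_lit 5) (nat_lit 358) (nat_lit 5) (nat_lit 287) (nat_lit 278) (nat_lit 155)))) (XT.nd (nat_lit 188) (nat_lit 0) (nat_lit 84) (XT.nd (nat_lit 94) (nat_lit 0) (nat_lit 84) (XT.lf (nat_lit 84) (nat_lit 5612096824) (nat_lit 0) (nat_lit 959574642) (nat_lit 1764) (nat_lit 4209177831) (nat_lit 338) (nat_lit 5) (nat_lit 337) (nat_lit 5) (nat_lit 358) (nat_lit 5) (nat_lit 288)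 (nat_lit 278) (nat_lit 154)) (XT.lf (nat_lit 84) (nat_lit 497397975) (nat_lit 0) (nat_lit 7145882567) (nat_lit 1764) (nat_lit 3247198128) (nat_lit 339) (nat_lit 5) (nat_lit 338) (nat_lit 5) (nat_lit 359) (nat_lit 5) (nat_lit 289) (nat_lit 278) (nat_lit 153))) (XT.nd (nat_lit 94) (nat_lit 0) (nat_lit 84) (XT.lf (nat_lit 84) (nat_lit 6346350063) (nat_lit 0) (nat_lit 2419670487) (nat_lit 1764) (nat_lit 2235893116) (nat_lit 339) (nat_lit 5) (nat_lit 338) (nat_lit 5) (nat_lit 359) (nat_lit 5) (nat_lit 290) (nat_lit 278) (nat_lit 152)) (XT.lf (nat_lit 84) (nat_lit 1196114459) (nat_lit 0) (nat_lit 8725896469) (nat_lit 1764) (nat_lit 1193601203) (nat_lit 340) (nat_lit 5) (nat_lit 339) (nat_lit 5) (nat_lit 360) (nat_lit 5) (nat_lit 291) (nat_lit 278) (nat_lit 151))))) (XT.nd (nat_lit 376) (nat_lit 0) (nat_lit 84) (XT.nd (nat_lit 188) (nat_lit 0) (nat_lit 0) (XT.nd (nat_lit 94) (nat_lit 1680) (nat_lit 0) (XT.lf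 (nat_lit 84) (nat_lit 7216154604) (nat_lit 0) (nat_lit 3922296254) (nat_lit 1764) (nat_lit 92590713) (nat_lit 340) (nat_lit 5) (nat_lit 339) (nat_lit 5) (nat_lit 360) (nat_lit 5) (nat_lit 292) (nat_lit 278) (nat_lit 150)) (XT.lf (nat_lit 0) (nat_lit 1022832466) (nat_lit 1764) (nat_lit 9326635453) (nat_lit 1848) (nat_lit 999269310) (nat_lit 319) (nat_lit 5) (nat_lit 340) (nat_lit 5) (nat_lit 341) (nat_lit 5) (nat_lit 293) (nat_lit 278) (nat_lit 149))) (XT.nd (nat_lit 94) (nat_lit 0) (nat_lit 0) (XT.lf (nat_lit 0) (nat_lit 2203546657) (nat_lit 1764) (nat_lit 3258268356) (nat_lit 1848) (nat_lit 6006265828) (nat_lit 319) (nat_lit 5) (nat_lit 340) (nat_lit 5) (nat_lit 341) (nat_lit 5) (nat_lit 294) (nat_lit 278) (nat_lit 148)) (XT.lf (nat_lit 84) (nat_lit 2974386891) (nat_lit 0) (nat_lit 441077385) (nat_lit 1848) (nat_lit 8174470725) (nat_lit 320) (nat_lit 5) (nat_lit 319) (nat_lit 5) (nat_lit 341) (nat_lit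 5) (nat_lit 295) (nat_lit 278) (nat_lit 147)))) (XT.nd (nat_lit 188) (nat_lit 0) (nat_lit 84) (XT.nd (nat_lit 94) (nat_lit 0) (nat_lit 0) (XT.lf (nat_lit 0) (nat_lit 4696020083) (nat_lit 1764) (nat_lit 2367042598) (nat_lit 1848) (nat_lit 4650483800) (nat_lit 320) (nat_lit 5) (nat_lit 341) (nat_lit 5) (nat_lit 342) (nat_lit 5) (nat_lit 296) (nat_lit 278) (nat_lit 146)) (XT.lf (nat_lit 84) (nat_lit 4062151151) (nat_lit 0) (nat_lit 1959406397) (nat_lit 1848) (nat_lit 5817950059) (nat_lit 321) (nat_lit 5) (nat_lit 320) (nat_lit 5) (nat_lit 342) (nat_lit 5) (nat_lit 297) (nat_lit 278) (nat_lit 145))) (XT.nd (nat_lit 94) (nat_lit 0) (nat_lit 0) (XT.lf (nat_lit 0) (nat_lit 7401994539) (nat_lit 1764) (nat_lit 1335382849) (nat_lit 1848) (nat_lit 3230296259) (nat_lit 321) (nat_lit 5) (nat_lit 342) (nat_lit 5) (nat_lit 343) (nat_lit 5) (nat_lit 298) (nat_lit 278) (nat_lit 144)) (XT.lf (nat_lit 84) (nat_lit 5298285023)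 (nat_lit 0) (nat_lit 3551775461) (nat_lit 1848) (nat_lit 3247779152) (nat_lit 322) (nat_lit 5) (nat_lit 321) (nat_lit 5) (nat_lit 343) (nat_lit 5) (nat_lit 299) (nat_lit 278) (nat_lit 143))))))))
noncomputable def xc57 : XT := (XT.nd (nat_lit 45026) (nat_lit 0) (nat_lit 0) (XT.nd (nat_lit 43616) (nat_lit 0) (nat_lit 7224) (XT.nd (nat_lit 658) (nat_lit 1848) (nat_lit 0) (XT.nd (nat_lit 282) (nat_lit 2016) (nat_lit 0) (XT.nd (nat_lit 94) (nat_lit 3696) (nat_lit 0) (XT.lf (nat_lit 0) (nat_lit 10337874078) (nat_lit 1764) (nat_lit 157664053) (nat_lit 84) (nat_lit 1735157560) (nat_lit 322) (nat_lit 5) (nat_lit 343) (nat_lit 5) (nat_lit 323) (nat_lit 5) (nat_lit 300) (nat_lit 278) (nat_lit 142)) (XT.nd (nat_lit 94) (nat_lit 1932) (nat_lit 0) (XT.lf (nat_lit 0) (nat_lit 6688769334) (nat_lit 1764) (nat_lit 5228968737) (nat_lit 1848) (nat_lit 447431502) (nat_lit 301) (nat_lit 5) (nat_lit 322) (nat_lit 5) (nat_lit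 323) (nat_lit 5) (nat_lit 301) (nat_lit 278) (nat_lit 141)) (XT.lf (nat_lit 0) (nat_lit 1011690439) (nat_lit 1932) (nat_lit 11320648853) (nat_lit 84) (nat_lit 170172384) (nat_lit 278) (nat_lit 5) (nat_lit 301) (nat_lit 5) (nat_lit 279) (nat_lit 5) (nat_lit 302) (nat_lit 278) (nat_lit 140)))) (XT.nd (nat_lit 188) (nat_lit 924) (nat_lit 0) (XT.nd (nat_lit 94) (nat_lit 1092) (nat_lit 0) (XT.lf (nat_lit 0) (nat_lit 2562790101) (nat_lit 1932) (nat_lit 4420205494) (nat_lit 84) (nat_lit 5658345856) (nat_lit 278) (nat_lit 5) (nat_lit 301) (nat_lit 5) (nat_lit 279) (nat_lit 5) (nat_lit 303) (nat_lit 278) (nat_lit 139)) (XT.lf (nat_lit 0) (nat_lit 2658192034) (nat_lit 1092) (nat_lit 1495218318) (nat_lit 1176) (nat_lit 8629696410) (nat_lit 265) (nat_lit 5) (nat_lit 278) (nat_lit 5) (nat_lit 279) (nat_lit 5) (nat_lit 304) (nat_lit 278) (nat_lit 138))) (XT.nd (nat_lit 94) (nat_lit 924) (nat_lit 0) (XT.lf (nat_lit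 0) (nat_lit 5827887128) (nat_lit 1176) (nat_lit 3010836122) (nat_lit 84) (nat_lit 4088192676) (nat_lit 265) (nat_lit 5) (nat_lit 279) (nat_lit 5) (nat_lit 266) (nat_lit 5) (nat_lit 305) (nat_lit 278) (nat_lit 137)) (XT.lf (nat_lit 0) (nat_lit 4298691245) (nat_lit 924) (nat_lit 3268979811) (nat_lit 1008) (nat_lit 5505591526) (nat_lit 254) (nat_lit 5) (nat_lit 265) (nat_lit 5) (nat_lit 266) (nat_lit 5) (nat_lit 306) (nat_lit 278) (nat_lit 136))))) (XT.nd (nat_lit 42582) (nat_lit 0) (nat_lit 8568) (XT.nd (nat_lit 188) (nat_lit 924) (nat_lit 0) (XT.nd (nat_lit 94) (nat_lit 924) (nat_lit 0) (XT.lf (nat_lit 0) (nat_lit 9372556968) (nat_lit 1008) (nat_lit 1438059479) (nat_lit 84) (nat_lit 2411622230) (nat_lit 254) (nat_lit 5) (nat_lit 266) (nat_lit 5) (nat_lit 255) (nat_lit 5) (nat_lit 307) (nat_lit 278) (nat_lit 135)) (XT.lf (nat_lit 0) (nat_lit 6112063604) (nat_lit 924) (nat_lit 5159862819) (nat_lit 1008)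 (nat_lit 2101360747) (nat_lit 243) (nat_lit 5) (nat_lit 254) (nat_lit 5) (nat_lit 255) (nat_lit 5) (nat_lit 308) (nat_lit 278) (nat_lit 134))) (XT.nd (nat_lit 94) (nat_lit 84) (nat_lit 0) (XT.lf (nat_lit 0) (nat_lit 310133714) (nat_lit 840) (nat_lit 12907867819) (nat_lit 924) (nat_lit 309548970) (nat_lit 233) (nat_lit 5) (nat_lit 243) (nat_lit 5) (nat_lit 244) (nat_lit 5) (nat_lit 309) (nat_lit 278) (nat_lit 133)) (XT.lf (nat_lit 0) (nat_lit 1579073348) (nat_lit 924) (nat_lit 5588619306) (nat_lit 84) (nat_lit 6515531738) (nat_lit 232) (nat_lit 5) (nat_lit 243) (nat_lit 5) (nat_lit 233) (nat_lit 5) (nat_lit 310) (nat_lit 278) (nat_lit 132)))) (XT.nd (nat_lit 188) (nat_lit 1680) (nat_lit 0) (XT.nd (nat_lit 94) (nat_lit 0) (nat_lit 0) (XT.lf (nat_lit 0) (nat_lit 2303608814) (nat_lit 0) (nat_lit 2303608814) (nat_lit 1596) (nat_lit 378753893) (nat_lit 354) (nat_lit 5) (nat_lit 354) (nat_lit 3) (nat_lit 373)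 (nat_lit 3) (nat_lit 279) (nat_lit 279) (nat_lit 162)) (XT.lf (nat_lit 0) (nat_lit 9692393108) (nat_lit 0) (nat_lit 335858705) (nat_lit 1596) (nat_lit 37708532) (nat_lit 354) (nat_lit 5) (nat_lit 354) (nat_lit 3) (nat_lit 373) (nat_lit 3) (nat_lit 280) (nat_lit 279) (nat_lit 161))) (XT.nd (nat_lit 94) (nat_lit 0) (nat_lit 0) (XT.lf (nat_lit 0) (nat_lit 730314383) (nat_lit 1680) (nat_lit 5409982517) (nat_lit 1764) (nat_lit 4020706066) (nat_lit 334) (nat_lit 5) (nat_lit 354) (nat_lit 5) (nat_lit 355) (nat_lit 5) (nat_lit 281) (nat_lit 279) (nat_lit 160)) (XT.lf (nat_lit 0) (nat_lit 1499670637) (nat_lit 1680) (nat_lit 277891085) (nat_lit 1764) (nat_lit 8480898941) (nat_lit 334) (nat_lit 5) (nat_lit 354) (nat_lit 5) (nat_lit 355) (nat_lit 5) (nat_lit 282) (nat_lit 279) (nat_lit 159)))))) (XT.nd (nat_lit 658) (nat_lit 1428) (nat_lit 0) (XT.nd (nat_lit 282) (nat_lit 0) (nat_lit 84) (XT.nd (nat_lit 94) (nat_lit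 0) (nat_lit 0) (XT.lf (nat_lit 0) (nat_lit 2321400454) (nat_lit 1680) (nat_lit 5348363950) (nat_lit 1764) (nat_lit 2687518176) (nat_lit 335) (nat_lit 5) (nat_lit 355) (nat_lit 5) (nat_lit 356) (nat_lit 5) (nat_lit 283) (nat_lit 279) (nat_lit 158)) (XT.nd (nat_lit 94) (nat_lit 0) (nat_lit 84) (XT.lf (nat_lit 0) (nat_lit 3156831845) (nat_lit 1680) (nat_lit 66179915) (nat_lit 1764) (nat_lit 7235363101) (nat_lit 335) (nat_lit 5) (nat_lit 355) (nat_lit 5) (nat_lit 356) (nat_lit 5) (nat_lit 284) (nat_lit 279) (nat_lit 157)) (XT.lf (nat_lit 0) (nat_lit 4039885059) (nat_lit 1680) (nat_lit 5171976752) (nat_lit 1764) (nat_lit 1349186031) (nat_lit 336) (nat_lit 5) (nat_lit 356) (nat_lit 5) (nat_lit 357) (nat_lit 5) (nat_lit 285) (nat_lit 279) (nat_lit 156)))) (XT.nd (nat_lit 188) (nat_lit 0) (nat_lit 84) (XT.nd (nat_lit 94) (nat_lit 0) (nat_lit 0) (XT.lf (nat_lit 84) (nat_lit 268431316) (nat_lit 0) (nat_lit 4681221006)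 (nat_lit 1764) (nat_lit 5716166993) (nat_lit 337) (nat_lit 5) (nat_lit 336) (nat_lit 5) (nat_lit 357) (nat_lit 5) (nat_lit 286) (nat_lit 279) (nat_lit 155)) (XT.lf (nat_lit 84) (nat_lit 5894529363) (nat_lit 0) (nat_lit 4845983) (nat_lit 1764) (nat_lit 4873081716) (nat_lit 337) (nat_lit 5) (nat_lit 336) (nat_lit 5) (nat_lit 357) (nat_lit 5) (nat_lit 287) (nat_lit 279) (nat_lit 154))) (XT.nd (nat_lit 94) (nat_lit 0) (nat_lit 0) (XT.lf (nat_lit 84) (nat_lit 727993591) (nat_lit 0) (nat_lit 6163374540) (nat_lit 1764) (nat_lit 3989602441) (nat_lit 338) (nat_lit 5) (nat_lit 337) (nat_lit 5) (nat_lit 358) (nat_lit 5) (nat_lit 288) (nat_lit 279) (nat_lit 153)) (XT.lf (nat_lit 84) (nat_lit 6518701411) (nat_lit 0) (nat_lit 1405031969) (nat_lit 1764) (nat_lit 3067729929) (nat_lit 338) (nat_lit 5) (nat_lit 337) (nat_lit 5) (nat_lit 358) (nat_lit 5) (nat_lit 289) (nat_lit 279) (nat_lit 152))))) (XT.nd (nat_lit 376)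 (nat_lit 0) (nat_lit 84) (XT.nd (nat_lit 188) (nat_lit 1680) (nat_lit 0) (XT.nd (nat_lit 94) (nat_lit 0) (nat_lit 0) (XT.lf (nat_lit 84) (nat_lit 1315192742) (nat_lit 0) (nat_lit 7680522026) (nat_lit 1764) (nat_lit 2108300227) (nat_lit 339) (nat_lit 5) (nat_lit 338) (nat_lit 5) (nat_lit 359) (nat_lit 5) (nat_lit 290) (nat_lit 279) (nat_lit 151)) (XT.lf (nat_lit 84) (nat_lit 7275453142) (nat_lit 0) (nat_lit 2842208563) (nat_lit 1764) (nat_lit 1100800710) (nat_lit 339) (nat_lit 5) (nat_lit 338) (nat_lit 5) (nat_lit 359) (nat_lit 5) (nat_lit 291) (nat_lit 279) (nat_lit 150))) (XT.nd (nat_lit 94) (nat_lit 1764) (nat_lit 0) (XT.lf (nat_lit 84) (nat_lit 2034127235) (nat_lit 0) (nat_lit 9243219963) (nat_lit 1764) (nat_lit 57793255) (nat_lit 340) (nat_lit 5) (nat_lit 339) (nat_lit 5) (nat_lit 360) (nat_lit 5) (nat_lit 292) (nat_lit 279) (nat_lit 149)) (XT.lf (nat_lit 0) (nat_lit 1027410092) (nat_lit 1764) (nat_lit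 3291937956) (nat_lit 1848) (nat_lit 7134136420) (nat_lit 318) (nat_lit 5) (nat_lit 339) (nat_lit 5) (nat_lit 340) (nat_lit 5) (nat_lit 293) (nat_lit 279) (nat_lit 148)))) (XT.nd (nat_lit 188) (nat_lit 0) (nat_lit 0) (XT.nd (nat_lit 94) (nat_lit 0) (nat_lit 0) (XT.lf (nat_lit 0) (nat_lit 2145498465) (nat_lit 1764) (nat_lit 8700707787) (nat_lit 1848) (nat_lit 727999595) (nat_lit 319) (nat_lit 5) (nat_lit 340) (nat_lit 5) (nat_lit 341) (nat_lit 5) (nat_lit 294) (nat_lit 279) (nat_lit 147)) (XT.lf (nat_lit 0) (nat_lit 3328505784) (nat_lit 1764) (nat_lit 2516727514) (nat_lit 1848) (nat_lit 5851462737) (nat_lit 319) (nat_lit 5) (nat_lit 340) (nat_lit 5) (nat_lit 341) (nat_lit 5) (nat_lit 295) (nat_lit 279) (nat_lit 146))) (XT.nd (nat_lit 94) (nat_lit 0) (nat_lit 84) (XT.lf (nat_lit 84) (nat_lit 3847168717) (nat_lit 0) (nat_lit 702495002) (nat_lit 1848) (nat_lit 7271950549) (nat_lit 320) (nat_lit 5) (nat_lit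 319) (nat_lit 5) (nat_lit 341) (nat_lit 5) (nat_lit 296) (nat_lit 279) (nat_lit 145)) (XT.lf (nat_lit 0) (nat_lit 5833839581) (nat_lit 1764) (nat_lit 1604599301) (nat_lit 1848) (nat_lit 4510046467) (nat_lit 320) (nat_lit 5) (nat_lit 341) (nat_lit 5) (nat_lit 342) (nat_lit 5) (nat_lit 297) (nat_lit 279) (nat_lit 144))))))) (XT.nd (nat_lit 43710) (nat_lit 0) (nat_lit 7140) (XT.nd (nat_lit 658) (nat_lit 3864) (nat_lit 0) (XT.nd (nat_lit 282) (nat_lit 3528) (nat_lit 0) (XT.nd (nat_lit 94) (nat_lit 0) (nat_lit 84) (XT.lf (nat_lit 84) (nat_lit 4960149916) (nat_lit 0) (nat_lit 2211879794) (nat_lit 1848) (nat_lit 4905551110) (nat_lit 321) (nat_lit 5) (nat_lit 320) (nat_lit 5) (nat_lit 342) (nat_lit 5) (nat_lit 298) (nat_lit 279) (nat_lit 143)) (XT.nd (nat_lit 94) (nat_lit 0) (nat_lit 0) (XT.lf (nat_lit 0) (nat_lit 8559463203) (nat_lit 1764) (nat_lit 550163659) (nat_lit 1848) (nat_lit 3099453860) (nat_lit 321)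 (nat_lit 5) (nat_lit 342) (nat_lit 5) (nat_lit 343) (nat_lit 5) (nat_lit 299) (nat_lit 279) (nat_lit 142)) (XT.lf (nat_lit 84) (nat_lit 6223557538) (nat_lit 0) (nat_lit 3800178985) (nat_lit 1848) (nat_lit 2318718141) (nat_lit 322) (nat_lit 5) (nat_lit 321) (nat_lit 5) (nat_lit 343) (nat_lit 5) (nat_lit 300) (nat_lit 279) (nat_lit 141)))) (XT.nd (nat_lit 188) (nat_lit 1848) (nat_lit 0) (XT.nd (nat_lit 94) (nat_lit 84) (nat_lit 0) (XT.lf (nat_lit 0) (nat_lit 661963879) (nat_lit 1764) (nat_lit 10864772916) (nat_lit 1848) (nat_lit 951882753) (nat_lit 301) (nat_lit 5) (nat_lit 322) (nat_lit 5) (nat_lit 323) (nat_lit 5) (nat_lit 301) (nat_lit 279) (nat_lit 140)) (XT.lf (nat_lit 0) (nat_lit 498040848) (nat_lit 1848) (nat_lit 4976477078) (nat_lit 84) (nat_lit 7141884986) (nat_lit 300) (nat_lit 5) (nat_lit 322) (nat_lit 5) (nat_lit 301) (nat_lit 5) (nat_lit 302) (nat_lit 279) (nat_lit 139))) (XT.nd (nat_lit 94)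 (nat_lit 0) (nat_lit 0) (XT.lf (nat_lit 0) (nat_lit 1967220124) (nat_lit 1932) (nat_lit 10732699306) (nat_lit 84) (nat_lit 57115506) (nat_lit 278) (nat_lit 5) (nat_lit 301) (nat_lit 5) (nat_lit 279) (nat_lit 5) (nat_lit 303) (nat_lit 279) (nat_lit 138)) (XT.lf (nat_lit 0) (nat_lit 3532353965) (nat_lit 1932) (nat_lit 3698463888) (nat_lit 84) (nat_lit 5668543096) (nat_lit 278) (nat_lit 5) (nat_lit 301) (nat_lit 5) (nat_lit 279) (nat_lit 5) (nat_lit 304) (nat_lit 279) (nat_lit 137))))) (XT.nd (nat_lit 376) (nat_lit 1848) (nat_lit 0) (XT.nd (nat_lit 188) (nat_lit 924) (nat_lit 0) (XT.nd (nat_lit 94) (nat_lit 0) (nat_lit 0) (XT.lf (nat_lit 0) (nat_lit 3529739301) (nat_lit 1092) (nat_lit 1614362680) (nat_lit 1176) (nat_lit 7900448165) (nat_lit 265) (nat_lit 5) (nat_lit 278) (nat_lit 5) (nat_lit 279) (nat_lit 5) (nat_lit 305) (nat_lit 279) (nat_lit 136)) (XT.lf (nat_lit 0) (nat_lit 6835457030) (nat_lit 1176)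 (nat_lit 2261549681) (nat_lit 84) (nat_lit 4094955526) (nat_lit 265) (nat_lit 5) (nat_lit 279) (nat_lit 5) (nat_lit 266) (nat_lit 5) (nat_lit 306) (nat_lit 279) (nat_lit 135))) (XT.nd (nat_lit 94) (nat_lit 0) (nat_lit 0) (XT.lf (nat_lit 0) (nat_lit 5202893220) (nat_lit 924) (nat_lit 3397460782) (nat_lit 1008) (nat_lit 4741464086) (nat_lit 254) (nat_lit 5) (nat_lit 265) (nat_lit 5) (nat_lit 266) (nat_lit 5) (nat_lit 307) (nat_lit 279) (nat_lit 134)) (XT.lf (nat_lit 0) (nat_lit 10425907103) (nat_lit 1008) (nat_lit 658454171) (nat_lit 84) (nat_lit 2410129268) (nat_lit 254) (nat_lit 5) (nat_lit 266) (nat_lit 5) (nat_lit 255) (nat_lit 5) (nat_lit 308) (nat_lit 279) (nat_lit 133)))) (XT.nd (nat_lit 42488) (nat_lit 0) (nat_lit 8484) (XT.nd (nat_lit 94) (nat_lit 924) (nat_lit 0) (XT.lf (nat_lit 0) (nat_lit 7051908500) (nat_lit 924) (nat_lit 5302654906) (nat_lit 1008) (nat_lit 1294573682) (nat_lit 243) (nat_lit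 5) (nat_lit 254) (nat_lit 5) (nat_lit 255) (nat_lit 5) (nat_lit 309) (nat_lit 279) (nat_lit 132)) (XT.lf (nat_lit 0) (nat_lit 516494110) (nat_lit 924) (nat_lit 12675846542) (nat_lit 84) (nat_lit 614643014) (nat_lit 232) (nat_lit 5) (nat_lit 243) (nat_lit 5) (nat_lit 233) (nat_lit 5) (nat_lit 310) (nat_lit 279) (nat_lit 131))) (XT.nd (nat_lit 94) (nat_lit 0) (nat_lit 0) (XT.lf (nat_lit 0) (nat_lit 331021271) (nat_lit 1764) (nat_lit 2374513285) (nat_lit 1764) (nat_lit 2374513285) (nat_lit 333) (nat_lit 3) (nat_lit 354) (nat_lit 3) (nat_lit 354) (nat_lit 5) (nat_lit 280) (nat_lit 280) (nat_lit 160)) (XT.lf (nat_lit 84) (nat_lit 335858705) (nat_lit 0) (nat_lit 1022939047) (nat_lit 1764) (nat_lit 8897890582) (nat_lit 334) (nat_lit 5) (nat_lit 333) (nat_lit 3) (nat_lit 354) (nat_lit 5) (nat_lit 281) (nat_lit 280) (nat_lit 159)))))) (XT.nd (nat_lit 658) (nat_lit 1428) (nat_lit 0) (XT.nd (nat_lit 282) (nat_lit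 0) (nat_lit 84) (XT.nd (nat_lit 94) (nat_lit 0) (nat_lit 0) (XT.lf (nat_lit 0) (nat_lit 2111076583) (nat_lit 1680) (nat_lit 4786776541) (nat_lit 1764) (nat_lit 3456668612) (nat_lit 334) (nat_lit 5) (nat_lit 354) (nat_lit 5) (nat_lit 355) (nat_lit 5) (nat_lit 282) (nat_lit 280) (nat_lit 158)) (XT.nd (nat_lit 94) (nat_lit 0) (nat_lit 84) (XT.lf (nat_lit 84) (nat_lit 448706240) (nat_lit 0) (nat_lit 2422471672) (nat_lit 1764) (nat_lit 7583521566) (nat_lit 335) (nat_lit 5) (nat_lit 334) (nat_lit 5) (nat_lit 355) (nat_lit 5) (nat_lit 283) (nat_lit 280) (nat_lit 157)) (XT.lf (nat_lit 0) (nat_lit 3679973004) (nat_lit 1680) (nat_lit 4711963284) (nat_lit 1764) (nat_lit 2164441471) (nat_lit 335) (nat_lit 5) (nat_lit 355) (nat_lit 5) (nat_lit 356) (nat_lit 5) (nat_lit 284) (nat_lit 280) (nat_lit 156)))) (XT.nd (nat_lit 188) (nat_lit 0) (nat_lit 84) (XT.nd (nat_lit 94) (nat_lit 0) (nat_lit 84) (XT.lf (nat_lit 84)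 (nat_lit 679990515) (nat_lit 0) (nat_lit 3830491273) (nat_lit 1764) (nat_lit 6149724928) (nat_lit 336) (nat_lit 5) (nat_lit 335) (nat_lit 5) (nat_lit 356) (nat_lit 5) (nat_lit 285) (nat_lit 280) (nat_lit 155)) (XT.lf (nat_lit 0) (nat_lit 5382059879) (nat_lit 1680) (nat_lit 4521869318) (nat_lit 1764) (nat_lit 861889155) (nat_lit 336) (nat_lit 5) (nat_lit 356) (nat_lit 5) (nat_lit 357) (nat_lit 5) (nat_lit 286) (nat_lit 280) (nat_lit 154))) (XT.nd (nat_lit 94) (nat_lit 0) (nat_lit 0) (XT.lf (nat_lit 84) (nat_lit 1032706834) (nat_lit 0) (nat_lit 5257558234) (nat_lit 1764) (nat_lit 4583104424) (nat_lit 337) (nat_lit 5) (nat_lit 336) (nat_lit 5) (nat_lit 357) (nat_lit 5) (nat_lit 287) (nat_lit 280) (nat_lit 153)) (XT.lf (nat_lit 84) (nat_lit 6766254047) (nat_lit 0) (nat_lit 468113422) (nat_lit 1764) (nat_lit 3748569120) (nat_lit 337) (nat_lit 5) (nat_lit 336) (nat_lit 5) (nat_lit 357) (nat_lit 5) (nat_lit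 288) (nat_lit 280) (nat_lit 152))))) (XT.nd (nat_lit 376) (nat_lit 0) (nat_lit 84) (XT.nd (nat_lit 188) (nat_lit 1680) (nat_lit 0) (XT.nd (nat_lit 94) (nat_lit 0) (nat_lit 0) (XT.lf (nat_lit 84) (nat_lit 1510289741) (nat_lit 0) (nat_lit 6714180800) (nat_lit 1764) (nat_lit 2869888553) (nat_lit 338) (nat_lit 5) (nat_lit 337) (nat_lit 5) (nat_lit 358) (nat_lit 5) (nat_lit 289) (nat_lit 280) (nat_lit 151)) (XT.lf (nat_lit 84) (nat_lit 7411897862) (nat_lit 0) (nat_lit 1842216664) (nat_lit 1764) (nat_lit 1953727677) (nat_lit 338) (nat_lit 5) (nat_lit 337) (nat_lit 5) (nat_lit 358) (nat_lit 5) (nat_lit 290) (nat_lit 280) (nat_lit 150))) (XT.nd (nat_lit 94) (nat_lit 1764) (nat_lit 0) (XT.lf (nat_lit 84) (nat_lit 2116615610) (nat_lit 0) (nat_lit 8210849015) (nat_lit 1764) (nat_lit 995894129) (nat_lit 339) (nat_lit 5) (nat_lit 338) (nat_lit 5) (nat_lit 359) (nat_lit 5) (nat_lit 291) (nat_lit 280) (nat_lit 149))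 (XT.lf (nat_lit 0) (nat_lit 8698685) (nat_lit 1764) (nat_lit 3249551029) (nat_lit 1848) (nat_lit 8182609888) (nat_lit 317) (nat_lit 5) (nat_lit 338) (nat_lit 5) (nat_lit 339) (nat_lit 5) (nat_lit 292) (nat_lit 280) (nat_lit 148)))) (XT.nd (nat_lit 188) (nat_lit 0) (nat_lit 84) (XT.nd (nat_lit 94) (nat_lit 0) (nat_lit 0) (XT.lf (nat_lit 0) (nat_lit 1038336757) (nat_lit 1764) (nat_lit 8712061677) (nat_lit 1848) (nat_lit 1810000249) (nat_lit 318) (nat_lit 5) (nat_lit 339) (nat_lit 5) (nat_lit 340) (nat_lit 5) (nat_lit 293) (nat_lit 280) (nat_lit 147)) (XT.lf (nat_lit 0) (nat_lit 2122959048) (nat_lit 1764) (nat_lit 2588281236) (nat_lit 1848) (nat_lit 6970616032) (nat_lit 318) (nat_lit 5) (nat_lit 339) (nat_lit 5) (nat_lit 340) (nat_lit 5) (nat_lit 294) (nat_lit 280) (nat_lit 146))) (XT.nd (nat_lit 94) (nat_lit 0) (nat_lit 0) (XT.lf (nat_lit 0) (nat_lit 3246007748) (nat_lit 1764) (nat_lit 8096406386) (nat_lit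 1848) (nat_lit 463251458) (nat_lit 319) (nat_lit 5) (nat_lit 340) (nat_lit 5) (nat_lit 341) (nat_lit 5) (nat_lit 295) (nat_lit 280) (nat_lit 145)) (XT.lf (nat_lit 0) (nat_lit 4432367272) (nat_lit 1764) (nat_lit 1793507484) (nat_lit 1848) (nat_lit 5705474635) (nat_lit 319) (nat_lit 5) (nat_lit 340) (nat_lit 5) (nat_lit 341) (nat_lit 5) (nat_lit 296) (nat_lit 280) (nat_lit 144))))))))
noncomputable def xc58 : XT := (XT.nd (nat_lit 45214) (nat_lit 0) (nat_lit 0) (XT.nd (nat_lit 43804) (nat_lit 0) (nat_lit 6216) (XT.nd (nat_lit 658) (nat_lit 4788) (nat_lit 0) (XT.nd (nat_lit 282) (nat_lit 1596) (nat_lit 0) (XT.nd (nat_lit 94) (nat_lit 0) (nat_lit 84) (XT.lf (nat_lit 84) (nat_lit 4704767350) (nat_lit 0) (nat_lit 958943448) (nat_lit 1848) (nat_lit 6395671985) (nat_lit 320) (nat_lit 5) (nat_lit 319) (nat_lit 5) (nat_lit 341) (nat_lit 5) (nat_lit 297) (nat_lit 280) (nat_lit 143)) (XT.nd (nat_lit 94) (nat_lit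 0) (nat_lit 0) (XT.lf (nat_lit 0) (nat_lit 6952632020) (nat_lit 1764) (nat_lit 860072136) (nat_lit 1848) (nat_lit 4376858015) (nat_lit 320) (nat_lit 5) (nat_lit 341) (nat_lit 5) (nat_lit 342) (nat_lit 5) (nat_lit 298) (nat_lit 280) (nat_lit 142)) (XT.lf (nat_lit 84) (nat_lit 5843465485) (nat_lit 0) (nat_lit 2460990803) (nat_lit 1848) (nat_lit 4017389188) (nat_lit 321) (nat_lit 5) (nat_lit 320) (nat_lit 5) (nat_lit 342) (nat_lit 5) (nat_lit 299) (nat_lit 280) (nat_lit 141)))) (XT.nd (nat_lit 188) (nat_lit 1764) (nat_lit 0) (XT.nd (nat_lit 94) (nat_lit 0) (nat_lit 0) (XT.lf (nat_lit 84) (nat_lit 220817563) (nat_lit 0) (nat_lit 9480791027) (nat_lit 1848) (nat_lit 2755087490) (nat_lit 322) (nat_lit 5) (nat_lit 321) (nat_lit 5) (nat_lit 343) (nat_lit 5) (nat_lit 300) (nat_lit 280) (nat_lit 140)) (XT.lf (nat_lit 84) (nat_lit 7134743524) (nat_lit 0) (nat_lit 4046795916) (nat_lit 1848) (nat_lit 1411829052) (nat_lit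 322) (nat_lit 5) (nat_lit 321) (nat_lit 5) (nat_lit 343) (nat_lit 5) (nat_lit 301) (nat_lit 280) (nat_lit 139))) (XT.nd (nat_lit 94) (nat_lit 84) (nat_lit 0) (XT.lf (nat_lit 0) (nat_lit 1466822848) (nat_lit 1764) (nat_lit 11235099852) (nat_lit 1848) (nat_lit 30951329) (nat_lit 301) (nat_lit 5) (nat_lit 322) (nat_lit 5) (nat_lit 323) (nat_lit 5) (nat_lit 302) (nat_lit 280) (nat_lit 138)) (XT.lf (nat_lit 0) (nat_lit 1417321502) (nat_lit 1848) (nat_lit 4299402107) (nat_lit 84) (nat_lit 7157257045) (nat_lit 300) (nat_lit 5) (nat_lit 322) (nat_lit 5) (nat_lit 301) (nat_lit 5) (nat_lit 303) (nat_lit 280) (nat_lit 137))))) (XT.nd (nat_lit 376) (nat_lit 1848) (nat_lit 0) (XT.nd (nat_lit 188) (nat_lit 1092) (nat_lit 0) (XT.nd (nat_lit 94) (nat_lit 0) (nat_lit 0) (XT.lf (nat_lit 0) (nat_lit 2850174925) (nat_lit 1848) (nat_lit 54235306) (nat_lit 1932) (nat_lit 10113613427) (nat_lit 278) (nat_lit 5) (nat_lit 300)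 (nat_lit 5) (nat_lit 301) (nat_lit 5) (nat_lit 304) (nat_lit 280) (nat_lit 136)) (XT.lf (nat_lit 0) (nat_lit 4484356293) (nat_lit 1932) (nat_lit 2995724136) (nat_lit 84) (nat_lit 5683832068) (nat_lit 278) (nat_lit 5) (nat_lit 301) (nat_lit 5) (nat_lit 279) (nat_lit 5) (nat_lit 305) (nat_lit 280) (nat_lit 135))) (XT.nd (nat_lit 94) (nat_lit 0) (nat_lit 0) (XT.lf (nat_lit 0) (nat_lit 4385832528) (nat_lit 1092) (nat_lit 1732454898) (nat_lit 1176) (nat_lit 7194300489) (nat_lit 265) (nat_lit 5) (nat_lit 278) (nat_lit 5) (nat_lit 279) (nat_lit 5) (nat_lit 306) (nat_lit 280) (nat_lit 134)) (XT.lf (nat_lit 0) (nat_lit 7827742164) (nat_lit 1176) (nat_lit 1530511692) (nat_lit 84) (nat_lit 4105409638) (nat_lit 265) (nat_lit 5) (nat_lit 279) (nat_lit 5) (nat_lit 266) (nat_lit 5) (nat_lit 307) (nat_lit 280) (nat_lit 133)))) (XT.nd (nat_lit 188) (nat_lit 0) (nat_lit 0) (XT.nd (nat_lit 94) (nat_lit 924) (nat_lit 0)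 (XT.lf (nat_lit 0) (nat_lit 6092505908) (nat_lit 924) (nat_lit 3526359329) (nat_lit 1008) (nat_lit 3998228172) (nat_lit 254) (nat_lit 5) (nat_lit 265) (nat_lit 5) (nat_lit 266) (nat_lit 5) (nat_lit 308) (nat_lit 280) (nat_lit 132)) (XT.lf (nat_lit 0) (nat_lit 105268274) (nat_lit 924) (nat_lit 11361832699) (nat_lit 1008) (nat_lit 2306408235) (nat_lit 243) (nat_lit 5) (nat_lit 254) (nat_lit 5) (nat_lit 255) (nat_lit 5) (nat_lit 309) (nat_lit 280) (nat_lit 131))) (XT.nd (nat_lit 42488) (nat_lit 0) (nat_lit 7560) (XT.lf (nat_lit 0) (nat_lit 7978129313) (nat_lit 924) (nat_lit 5447341608) (nat_lit 1008) (nat_lit 506366826) (nat_lit 243) (nat_lit 5) (nat_lit 254) (nat_lit 5) (nat_lit 255) (nat_lit 5) (nat_lit 310) (nat_lit 280) (nat_lit 130)) (XT.lf (nat_lit 0) (nat_lit 1020489845) (nat_lit 1764) (nat_lit 2078155477) (nat_lit 1764) (nat_lit 2078155477) (nat_lit 333) (nat_lit 3) (nat_lit 354) (nat_lit 3) (nat_lit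 354) (nat_lit 5) (nat_lit 281) (nat_lit 281) (nat_lit 158)))))) (XT.nd (nat_lit 658) (nat_lit 1344) (nat_lit 0) (XT.nd (nat_lit 282) (nat_lit 0) (nat_lit 168) (XT.nd (nat_lit 94) (nat_lit 0) (nat_lit 84) (XT.lf (nat_lit 84) (nat_lit 1035402943) (nat_lit 0) (nat_lit 1693220910) (nat_lit 1764) (nat_lit 7724233108) (nat_lit 334) (nat_lit 5) (nat_lit 333) (nat_lit 3) (nat_lit 354) (nat_lit 5) (nat_lit 282) (nat_lit 281) (nat_lit 157)) (XT.nd (nat_lit 94) (nat_lit 0) (nat_lit 0) (XT.lf (nat_lit 0) (nat_lit 3464093928) (nat_lit 1680) (nat_lit 4181471014) (nat_lit 1764) (nat_lit 2908011651) (nat_lit 334) (nat_lit 5) (nat_lit 354) (nat_lit 5) (nat_lit 355) (nat_lit 5) (nat_lit 283) (nat_lit 281) (nat_lit 156)) (XT.lf (nat_lit 84) (nat_lit 1164056540) (nat_lit 0) (nat_lit 3053760386) (nat_lit 1764) (nat_lit 6438649532) (nat_lit 335) (nat_lit 5) (nat_lit 334) (nat_lit 5) (nat_lit 355) (nat_lit 5) (nat_lit 284)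 (nat_lit 281) (nat_lit 155)))) (XT.nd (nat_lit 188) (nat_lit 0) (nat_lit 84) (XT.nd (nat_lit 94) (nat_lit 0) (nat_lit 0) (XT.lf (nat_lit 0) (nat_lit 5012748369) (nat_lit 1680) (nat_lit 4093677003) (nat_lit 1764) (nat_lit 1654652745) (nat_lit 335) (nat_lit 5) (nat_lit 355) (nat_lit 5) (nat_lit 356) (nat_lit 5) (nat_lit 285) (nat_lit 281) (nat_lit 154)) (XT.lf (nat_lit 84) (nat_lit 1411682010) (nat_lit 0) (nat_lit 4428004671) (nat_lit 1764) (nat_lit 5027985148) (nat_lit 336) (nat_lit 5) (nat_lit 335) (nat_lit 5) (nat_lit 356) (nat_lit 5) (nat_lit 286) (nat_lit 281) (nat_lit 153))) (XT.nd (nat_lit 94) (nat_lit 0) (nat_lit 0) (XT.lf (nat_lit 0) (nat_lit 6700385300) (nat_lit 1680) (nat_lit 3889993216) (nat_lit 1764) (nat_lit 385889598) (nat_lit 336) (nat_lit 5) (nat_lit 356) (nat_lit 5) (nat_lit 357) (nat_lit 5) (nat_lit 287) (nat_lit 281) (nat_lit 152)) (XT.lf (nat_lit 84) (nat_lit 1781497850) (nat_lit 0)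 (nat_lit 5826415149) (nat_lit 1764) (nat_lit 3478726856) (nat_lit 337) (nat_lit 5) (nat_lit 336) (nat_lit 5) (nat_lit 357) (nat_lit 5) (nat_lit 288) (nat_lit 281) (nat_lit 151))))) (XT.nd (nat_lit 376) (nat_lit 0) (nat_lit 0) (XT.nd (nat_lit 188) (nat_lit 1596) (nat_lit 0) (XT.nd (nat_lit 94) (nat_lit 0) (nat_lit 84) (XT.lf (nat_lit 84) (nat_lit 7625553383) (nat_lit 0) (nat_lit 921846979) (nat_lit 1764) (nat_lit 2651775542) (nat_lit 337) (nat_lit 5) (nat_lit 336) (nat_lit 5) (nat_lit 357) (nat_lit 5) (nat_lit 289) (nat_lit 281) (nat_lit 150)) (XT.lf (nat_lit 84) (nat_lit 2277160949) (nat_lit 0) (nat_lit 7259421145) (nat_lit 1764) (nat_lit 1776967089) (nat_lit 338) (nat_lit 5) (nat_lit 337) (nat_lit 5) (nat_lit 358) (nat_lit 5) (nat_lit 290) (nat_lit 281) (nat_lit 149))) (XT.nd (nat_lit 94) (nat_lit 1680) (nat_lit 0) (XT.lf (nat_lit 84) (nat_lit 8292811703) (nat_lit 0) (nat_lit 2271716437) (nat_lit 1764)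 (nat_lit 865536484) (nat_lit 338) (nat_lit 5) (nat_lit 337) (nat_lit 5) (nat_lit 358) (nat_lit 5) (nat_lit 291) (nat_lit 281) (nat_lit 148)) (XT.lf (nat_lit 0) (nat_lit 90312925) (nat_lit 1764) (nat_lit 8646473259) (nat_lit 1848) (nat_lit 2811789908) (nat_lit 317) (nat_lit 5) (nat_lit 338) (nat_lit 5) (nat_lit 339) (nat_lit 5) (nat_lit 292) (nat_lit 281) (nat_lit 147)))) (XT.nd (nat_lit 188) (nat_lit 0) (nat_lit 84) (XT.nd (nat_lit 94) (nat_lit 0) (nat_lit 84) (XT.lf (nat_lit 0) (nat_lit 1078808952) (nat_lit 1764) (nat_lit 2581737650) (nat_lit 1848) (nat_lit 8008473695) (nat_lit 317) (nat_lit 5) (nat_lit 338) (nat_lit 5) (nat_lit 339) (nat_lit 5) (nat_lit 293) (nat_lit 281) (nat_lit 146)) (XT.lf (nat_lit 0) (nat_lit 2111029417) (nat_lit 1764) (nat_lit 8144353888) (nat_lit 1848) (nat_lit 1536247466) (nat_lit 318) (nat_lit 5) (nat_lit 339) (nat_lit 5) (nat_lit 340) (nat_lit 5) (nat_lit 294) (nat_lit 281)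 (nat_lit 145))) (XT.nd (nat_lit 94) (nat_lit 0) (nat_lit 84) (XT.lf (nat_lit 0) (nat_lit 3196913903) (nat_lit 1764) (nat_lit 1902196862) (nat_lit 1848) (nat_lit 6817146895) (nat_lit 318) (nat_lit 5) (nat_lit 339) (nat_lit 5) (nat_lit 340) (nat_lit 5) (nat_lit 295) (nat_lit 281) (nat_lit 144)) (XT.lf (nat_lit 0) (nat_lit 4325868413) (nat_lit 1764) (nat_lit 7512699503) (nat_lit 1848) (nat_lit 204636452) (nat_lit 319) (nat_lit 5) (nat_lit 340) (nat_lit 5) (nat_lit 341) (nat_lit 5) (nat_lit 296) (nat_lit 281) (nat_lit 143))))))) (XT.nd (nat_lit 43898) (nat_lit 0) (nat_lit 6132) (XT.nd (nat_lit 658) (nat_lit 4788) (nat_lit 0) (XT.nd (nat_lit 282) (nat_lit 1596) (nat_lit 0) (XT.nd (nat_lit 94) (nat_lit 0) (nat_lit 0) (XT.lf (nat_lit 0) (nat_lit 5516619562) (nat_lit 1764) (nat_lit 1087536250) (nat_lit 1848) (nat_lit 5567974981) (nat_lit 319) (nat_lit 5) (nat_lit 340) (nat_lit 5) (nat_lit 341) (nat_lit 5) (nat_lit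 297) (nat_lit 281) (nat_lit 142)) (XT.nd (nat_lit 94) (nat_lit 0) (nat_lit 84) (XT.lf (nat_lit 84) (nat_lit 5548313171) (nat_lit 0) (nat_lit 1210769978) (nat_lit 1848) (nat_lit 5544249100) (nat_lit 320) (nat_lit 5) (nat_lit 319) (nat_lit 5) (nat_lit 341) (nat_lit 5) (nat_lit 298) (nat_lit 281) (nat_lit 141)) (XT.lf (nat_lit 0) (nat_lit 8053855257) (nat_lit 1764) (nat_lit 132377835) (nat_lit 1848) (nat_lit 4250637610) (nat_lit 320) (nat_lit 5) (nat_lit 341) (nat_lit 5) (nat_lit 342) (nat_lit 5) (nat_lit 299) (nat_lit 281) (nat_lit 140)))) (XT.nd (nat_lit 188) (nat_lit 1680) (nat_lit 0) (XT.nd (nat_lit 94) (nat_lit 0) (nat_lit 84) (XT.lf (nat_lit 84) (nat_lit 6713241573) (nat_lit 0) (nat_lit 2707045214) (nat_lit 1848) (nat_lit 3152110376) (nat_lit 321) (nat_lit 5) (nat_lit 320) (nat_lit 5) (nat_lit 342) (nat_lit 5) (nat_lit 300) (nat_lit 281) (nat_lit 139)) (XT.lf (nat_lit 84) (nat_lit 983276058) (nat_lit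 0) (nat_lit 9848872337) (nat_lit 1848) (nat_lit 1878418702) (nat_lit 322) (nat_lit 5) (nat_lit 321) (nat_lit 5) (nat_lit 343) (nat_lit 5) (nat_lit 301) (nat_lit 281) (nat_lit 138))) (XT.nd (nat_lit 94) (nat_lit 1764) (nat_lit 0) (XT.lf (nat_lit 84) (nat_lit 8032999964) (nat_lit 0) (nat_lit 4291895785) (nat_lit 1848) (nat_lit 525784875) (nat_lit 322) (nat_lit 5) (nat_lit 321) (nat_lit 5) (nat_lit 343) (nat_lit 5) (nat_lit 302) (nat_lit 281) (nat_lit 137)) (XT.lf (nat_lit 0) (nat_lit 857594144) (nat_lit 1848) (nat_lit 10744053281) (nat_lit 84) (nat_lit 1391801832) (nat_lit 300) (nat_lit 5) (nat_lit 322) (nat_lit 5) (nat_lit 301) (nat_lit 5) (nat_lit 303) (nat_lit 281) (nat_lit 136))))) (XT.nd (nat_lit 376) (nat_lit 1848) (nat_lit 0) (XT.nd (nat_lit 188) (nat_lit 1092) (nat_lit 0) (XT.nd (nat_lit 94) (nat_lit 1848) (nat_lit 0) (XT.lf (nat_lit 0) (nat_lit 2318141320) (nat_lit 1848) (nat_lit 3640930537) (nat_lit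 84) (nat_lit 7179004318) (nat_lit 300) (nat_lit 5) (nat_lit 322) (nat_lit 5) (nat_lit 301) (nat_lit 5) (nat_lit 304) (nat_lit 281) (nat_lit 135)) (XT.lf (nat_lit 0) (nat_lit 3660494586) (nat_lit 1848) (nat_lit 164056651) (nat_lit 1932) (nat_lit 9461031574) (nat_lit 278) (nat_lit 5) (nat_lit 300) (nat_lit 5) (nat_lit 301) (nat_lit 5) (nat_lit 305) (nat_lit 281) (nat_lit 134))) (XT.nd (nat_lit 94) (nat_lit 1092) (nat_lit 0) (XT.lf (nat_lit 0) (nat_lit 5420067119) (nat_lit 1932) (nat_lit 2310918752) (nat_lit 84) (nat_lit 5704117492) (nat_lit 278) (nat_lit 5) (nat_lit 301) (nat_lit 5) (nat_lit 279) (nat_lit 5) (nat_lit 306) (nat_lit 281) (nat_lit 133)) (XT.lf (nat_lit 0) (nat_lit 5227606519) (nat_lit 1092) (nat_lit 1849628267) (nat_lit 1176) (nat_lit 6510094472) (nat_lit 265) (nat_lit 5) (nat_lit 278) (nat_lit 5) (nat_lit 279) (nat_lit 5) (nat_lit 307) (nat_lit 281) (nat_lit 132)))) (XT.nd (nat_lit 188)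 (nat_lit 924) (nat_lit 0) (XT.nd (nat_lit 94) (nat_lit 924) (nat_lit 0) (XT.lf (nat_lit 0) (nat_lit 8806001296) (nat_lit 1176) (nat_lit 816644374) (nat_lit 84) (nat_lit 4119485348) (nat_lit 265) (nat_lit 5) (nat_lit 279) (nat_lit 5) (nat_lit 266) (nat_lit 5) (nat_lit 308) (nat_lit 281) (nat_lit 131)) (XT.lf (nat_lit 0) (nat_lit 6968676904) (nat_lit 924) (nat_lit 3655787238) (nat_lit 1008) (nat_lit 3274737678) (nat_lit 254) (nat_lit 5) (nat_lit 265) (nat_lit 5) (nat_lit 266) (nat_lit 5) (nat_lit 309) (nat_lit 281) (nat_lit 130))) (XT.nd (nat_lit 42582) (nat_lit 0) (nat_lit 7560) (XT.lf (nat_lit 0) (nat_lit 862064436) (nat_lit 924) (nat_lit 11639217964) (nat_lit 1008) (nat_lit 1558042096) (nat_lit 243) (nat_lit 5) (nat_lit 254) (nat_lit 5) (nat_lit 255) (nat_lit 5) (nat_lit 310) (nat_lit 281) (nat_lit 129)) (XT.lf (nat_lit 0) (nat_lit 1696072797) (nat_lit 1764) (nat_lit 1790124356) (nat_lit 1764) (nat_lit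 1790124356) (nat_lit 333) (nat_lit 3) (nat_lit 354) (nat_lit 3) (nat_lit 354) (nat_lit 5) (nat_lit 282) (nat_lit 282) (nat_lit 156)))))) (XT.nd (nat_lit 658) (nat_lit 1428) (nat_lit 0) (XT.nd (nat_lit 282) (nat_lit 0) (nat_lit 168) (XT.nd (nat_lit 94) (nat_lit 0) (nat_lit 84) (XT.lf (nat_lit 84) (nat_lit 1720858638) (nat_lit 0) (nat_lit 2350660499) (nat_lit 1764) (nat_lit 6583077635) (nat_lit 334) (nat_lit 5) (nat_lit 333) (nat_lit 3) (nat_lit 354) (nat_lit 5) (nat_lit 283) (nat_lit 282) (nat_lit 155)) (XT.nd (nat_lit 94) (nat_lit 0) (nat_lit 0) (XT.lf (nat_lit 0) (nat_lit 4791231400) (nat_lit 1680) (nat_lit 3593113452) (nat_lit 1764) (nat_lit 2373890023) (nat_lit 334) (nat_lit 5) (nat_lit 354) (nat_lit 5) (nat_lit 355) (nat_lit 5) (nat_lit 284) (nat_lit 282) (nat_lit 154)) (XT.lf (nat_lit 84) (nat_lit 1865098594) (nat_lit 0) (nat_lit 3674320991) (nat_lit 1764) (nat_lit 5324455301) (nat_lit 335) (nat_lit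 5) (nat_lit 334) (nat_lit 5) (nat_lit 355) (nat_lit 5) (nat_lit 285) (nat_lit 282) (nat_lit 153)))) (XT.nd (nat_lit 188) (nat_lit 0) (nat_lit 0) (XT.nd (nat_lit 94) (nat_lit 0) (nat_lit 0) (XT.lf (nat_lit 0) (nat_lit 6321530638) (nat_lit 1680) (nat_lit 3492535856) (nat_lit 1764) (nat_lit 1157388302) (nat_lit 335) (nat_lit 5) (nat_lit 355) (nat_lit 5) (nat_lit 356) (nat_lit 5) (nat_lit 286) (nat_lit 282) (nat_lit 152)) (XT.lf (nat_lit 84) (nat_lit 2128945508) (nat_lit 0) (nat_lit 5016804644) (nat_lit 1764) (nat_lit 3935103470) (nat_lit 336) (nat_lit 5) (nat_lit 335) (nat_lit 5) (nat_lit 356) (nat_lit 5) (nat_lit 287) (nat_lit 282) (nat_lit 151))) (XT.nd (nat_lit 94) (nat_lit 0) (nat_lit 84) (XT.lf (nat_lit 84) (nat_lit 7916520888) (nat_lit 0) (nat_lit 80663639) (nat_lit 1764) (nat_lit 3195274889) (nat_lit 336) (nat_lit 5) (nat_lit 335) (nat_lit 5) (nat_lit 356) (nat_lit 5) (nat_lit 288) (nat_lit 282)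 (nat_lit 150)) (XT.lf (nat_lit 84) (nat_lit 2515839283) (nat_lit 0) (nat_lit 6388485775) (nat_lit 1764) (nat_lit 2401382038) (nat_lit 337) (nat_lit 5) (nat_lit 336) (nat_lit 5) (nat_lit 357) (nat_lit 5) (nat_lit 289) (nat_lit 282) (nat_lit 149))))) (XT.nd (nat_lit 376) (nat_lit 0) (nat_lit 84) (XT.nd (nat_lit 188) (nat_lit 1680) (nat_lit 0) (XT.nd (nat_lit 94) (nat_lit 0) (nat_lit 84) (XT.lf (nat_lit 84) (nat_lit 8473499981) (nat_lit 0) (nat_lit 1366677019) (nat_lit 1764) (nat_lit 1581076630) (nat_lit 337) (nat_lit 5) (nat_lit 336) (nat_lit 5) (nat_lit 357) (nat_lit 5) (nat_lit 290) (nat_lit 282) (nat_lit 148)) (XT.lf (nat_lit 84) (nat_lit 3029657793) (nat_lit 0) (nat_lit 7799726264) (nat_lit 1764) (nat_lit 709237272) (nat_lit 338) (nat_lit 5) (nat_lit 337) (nat_lit 5) (nat_lit 358) (nat_lit 5) (nat_lit 291) (nat_lit 282) (nat_lit 147))) (XT.nd (nat_lit 94) (nat_lit 0) (nat_lit 84) (XT.lf (nat_lit 0)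 (nat_lit 195561006) (nat_lit 1764) (nat_lit 2497093658) (nat_lit 1848) (nat_lit 8965527237) (nat_lit 316) (nat_lit 5) (nat_lit 337) (nat_lit 5) (nat_lit 338) (nat_lit 5) (nat_lit 292) (nat_lit 282) (nat_lit 146)) (XT.lf (nat_lit 0) (nat_lit 1139187182) (nat_lit 1764) (nat_lit 8113306726) (nat_lit 1848) (nat_lit 2527119335) (nat_lit 317) (nat_lit 5) (nat_lit 338) (nat_lit 5) (nat_lit 339) (nat_lit 5) (nat_lit 293) (nat_lit 282) (nat_lit 145)))) (XT.nd (nat_lit 188) (nat_lit 0) (nat_lit 84) (XT.nd (nat_lit 94) (nat_lit 0) (nat_lit 84) (XT.lf (nat_lit 0) (nat_lit 2126894386) (nat_lit 1764) (nat_lit 1930718907) (nat_lit 1848) (nat_lit 7845589715) (nat_lit 317) (nat_lit 5) (nat_lit 338) (nat_lit 5) (nat_lit 339) (nat_lit 5) (nat_lit 294) (nat_lit 282) (nat_lit 144)) (XT.lf (nat_lit 0) (nat_lit 3162608812) (nat_lit 1764) (nat_lit 7596497813) (nat_lit 1848) (nat_lit 1269827015) (nat_lit 318) (nat_lit 5) (nat_lit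 339) (nat_lit 5) (nat_lit 340) (nat_lit 5) (nat_lit 295) (nat_lit 282) (nat_lit 143))) (XT.nd (nat_lit 94) (nat_lit 0) (nat_lit 0) (XT.lf (nat_lit 0) (nat_lit 4250745762) (nat_lit 1764) (nat_lit 1232663724) (nat_lit 1848) (nat_lit 6673368848) (nat_lit 318) (nat_lit 5) (nat_lit 339) (nat_lit 5) (nat_lit 340) (nat_lit 5) (nat_lit 296) (nat_lit 282) (nat_lit 142)) (XT.lf (nat_lit 84) (nat_lit 5337960818) (nat_lit 0) (nat_lit 48924427) (nat_lit 1848) (nat_lit 6900020970) (nat_lit 319) (nat_lit 5) (nat_lit 318) (nat_lit 5) (nat_lit 340) (nat_lit 5) (nat_lit 297) (nat_lit 282) (nat_lit 141))))))))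
noncomputable def xc59 : XT := (XT.nd (nat_lit 45402) (nat_lit 0) (nat_lit 924) (XT.nd (nat_lit 43992) (nat_lit 0) (nat_lit 5208) (XT.nd (nat_lit 658) (nat_lit 3780) (nat_lit 0) (XT.nd (nat_lit 282) (nat_lit 1680) (nat_lit 0) (XT.nd (nat_lit 94) (nat_lit 0) (nat_lit 0) (XT.lf (nat_lit 0) (nat_lit 6582700679) (nat_lit 1764) (nat_lit 397781035) (nat_lit 1848) (nat_lit 5438652216) (nat_lit 319) (nat_lit 5) (nat_lit 340) (nat_lit 5) (nat_lit 341) (nat_lit 5) (nat_lit 298) (nat_lit 282) (nat_lit 140)) (XT.nd (nat_lit 94) (nat_lit 0) (nat_lit 84) (XT.lf (nat_lit 84) (nat_lit 6378899064) (nat_lit 0) (nat_lit 1458310036) (nat_lit 1848) (nat_lit 4716349084) (nat_lit 320) (nat_lit 5) (nat_lit 319) (nat_lit 5) (nat_lit 341) (nat_lit 5) (nat_lit 299) (nat_lit 282) (nat_lit 139)) (XT.lf (nat_lit 84) (nat_lit 587996805) (nat_lit 0) (nat_lit 8555110941) (nat_lit 1848) (nat_lit 3547308623) (nat_lit 321) (nat_lit 5)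 (nat_lit 320) (nat_lit 5) (nat_lit 342) (nat_lit 5) (nat_lit 300) (nat_lit 282) (nat_lit 138)))) (XT.nd (nat_lit 188) (nat_lit 1764) (nat_lit 0) (XT.nd (nat_lit 94) (nat_lit 0) (nat_lit 84) (XT.lf (nat_lit 84) (nat_lit 7570584589) (nat_lit 0) (nat_lit 2950339369) (nat_lit 1848) (nat_lit 2308411344) (nat_lit 321) (nat_lit 5) (nat_lit 320) (nat_lit 5) (nat_lit 342) (nat_lit 5) (nat_lit 301) (nat_lit 282) (nat_lit 137)) (XT.lf (nat_lit 84) (nat_lit 1730242850) (nat_lit 0) (nat_lit 10218258252) (nat_lit 1848) (nat_lit 1022381472) (nat_lit 322) (nat_lit 5) (nat_lit 321) (nat_lit 5) (nat_lit 343) (nat_lit 5) (nat_lit 302) (nat_lit 282) (nat_lit 136))) (XT.nd (nat_lit 94) (nat_lit 0) (nat_lit 84) (XT.lf (nat_lit 0) (nat_lit 335786231) (nat_lit 1848) (nat_lit 4197474440) (nat_lit 1932) (nat_lit 8581180362) (nat_lit 299) (nat_lit 5) (nat_lit 321) (nat_lit 5) (nat_lit 322) (nat_lit 5) (nat_lit 303) (nat_lit 282)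 (nat_lit 135)) (XT.lf (nat_lit 0) (nat_lit 1727379752) (nat_lit 1848) (nat_lit 10243574688) (nat_lit 84) (nat_lit 1289630492) (nat_lit 300) (nat_lit 5) (nat_lit 322) (nat_lit 5) (nat_lit 301) (nat_lit 5) (nat_lit 304) (nat_lit 282) (nat_lit 134))))) (XT.nd (nat_lit 376) (nat_lit 924) (nat_lit 0) (XT.nd (nat_lit 188) (nat_lit 1092) (nat_lit 0) (XT.nd (nat_lit 94) (nat_lit 1848) (nat_lit 0) (XT.lf (nat_lit 0) (nat_lit 3201741738) (nat_lit 1848) (nat_lit 3000044937) (nat_lit 84) (nat_lit 7207009948) (nat_lit 300) (nat_lit 5) (nat_lit 322) (nat_lit 5) (nat_lit 301) (nat_lit 5) (nat_lit 305) (nat_lit 282) (nat_lit 133)) (XT.lf (nat_lit 0) (nat_lit 4456800733) (nat_lit 1848) (nat_lit 271667651) (nat_lit 1932) (nat_lit 8831362154) (nat_lit 278) (nat_lit 5) (nat_lit 300) (nat_lit 5) (nat_lit 301) (nat_lit 5) (nat_lit 306) (nat_lit 282) (nat_lit 132))) (XT.nd (nat_lit 94) (nat_lit 1092) (nat_lit 0) (XT.lf (nat_lit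 0) (nat_lit 6340713871) (nat_lit 1932) (nat_lit 1643020032) (nat_lit 84) (nat_lit 5729310819) (nat_lit 278) (nat_lit 5) (nat_lit 301) (nat_lit 5) (nat_lit 279) (nat_lit 5) (nat_lit 307) (nat_lit 282) (nat_lit 131)) (XT.lf (nat_lit 0) (nat_lit 6056158230) (nat_lit 1092) (nat_lit 1966012356) (nat_lit 1176) (nat_lit 5846716711) (nat_lit 265) (nat_lit 5) (nat_lit 278) (nat_lit 5) (nat_lit 279) (nat_lit 5) (nat_lit 308) (nat_lit 282) (nat_lit 130)))) (XT.nd (nat_lit 42770) (nat_lit 0) (nat_lit 6636) (XT.nd (nat_lit 94) (nat_lit 924) (nat_lit 0) (XT.lf (nat_lit 0) (nat_lit 9771452953) (nat_lit 1176) (nat_lit 118909232) (nat_lit 84) (nat_lit 4137117883) (nat_lit 265) (nat_lit 5) (nat_lit 279) (nat_lit 5) (nat_lit 266) (nat_lit 5) (nat_lit 309) (nat_lit 282) (nat_lit 129)) (XT.lf (nat_lit 0) (nat_lit 7832516503) (nat_lit 924) (nat_lit 3785854382) (nat_lit 1008) (nat_lit 2569889667) (nat_lit 254) (nat_lit 5)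 (nat_lit 265) (nat_lit 5) (nat_lit 266) (nat_lit 5) (nat_lit 310) (nat_lit 282) (nat_lit 128))) (XT.nd (nat_lit 94) (nat_lit 0) (nat_lit 0) (XT.lf (nat_lit 0) (nat_lit 2358702032) (nat_lit 1764) (nat_lit 1509970803) (nat_lit 1764) (nat_lit 1509970803) (nat_lit 333) (nat_lit 3) (nat_lit 354) (nat_lit 3) (nat_lit 354) (nat_lit 5) (nat_lit 283) (nat_lit 283) (nat_lit 154)) (XT.lf (nat_lit 84) (nat_lit 2393171316) (nat_lit 0) (nat_lit 2996150262) (nat_lit 1764) (nat_lit 5472655285) (nat_lit 334) (nat_lit 5) (nat_lit 333) (nat_lit 3) (nat_lit 354) (nat_lit 5) (nat_lit 284) (nat_lit 283) (nat_lit 153)))))) (XT.nd (nat_lit 658) (nat_lit 1512) (nat_lit 0) (XT.nd (nat_lit 282) (nat_lit 0) (nat_lit 84) (XT.nd (nat_lit 94) (nat_lit 0) (nat_lit 0) (XT.lf (nat_lit 0) (nat_lit 6094289585) (nat_lit 1680) (nat_lit 3020787753) (nat_lit 1764) (nat_lit 1853490381) (nat_lit 334) (nat_lit 5) (nat_lit 354) (nat_lit 5) (nat_lit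 355) (nat_lit 5) (nat_lit 285) (nat_lit 283) (nat_lit 152)) (XT.nd (nat_lit 94) (nat_lit 0) (nat_lit 84) (XT.lf (nat_lit 84) (nat_lit 2552797260) (nat_lit 0) (nat_lit 4284965869) (nat_lit 1764) (nat_lit 4239234526) (nat_lit 335) (nat_lit 5) (nat_lit 334) (nat_lit 5) (nat_lit 355) (nat_lit 5) (nat_lit 286) (nat_lit 283) (nat_lit 151)) (XT.lf (nat_lit 0) (nat_lit 7608062584) (nat_lit 1680) (nat_lit 2907607520) (nat_lit 1764) (nat_lit 671912617) (nat_lit 335) (nat_lit 5) (nat_lit 355) (nat_lit 5) (nat_lit 356) (nat_lit 5) (nat_lit 287) (nat_lit 283) (nat_lit 150)))) (XT.nd (nat_lit 188) (nat_lit 0) (nat_lit 84) (XT.nd (nat_lit 94) (nat_lit 0) (nat_lit 0) (XT.lf (nat_lit 84) (nat_lit 2832763645) (nat_lit 0) (nat_lit 5597630447) (nat_lit 1764) (nat_lit 2869434686) (nat_lit 336) (nat_lit 5) (nat_lit 335) (nat_lit 5) (nat_lit 356) (nat_lit 5) (nat_lit 288) (nat_lit 283) (nat_lit 149)) (XT.lf (nat_lit 84) (nat_lit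 8733523228) (nat_lit 0) (nat_lit 542767105) (nat_lit 1764) (nat_lit 2138133499) (nat_lit 336) (nat_lit 5) (nat_lit 335) (nat_lit 5) (nat_lit 356) (nat_lit 5) (nat_lit 289) (nat_lit 283) (nat_lit 148))) (XT.nd (nat_lit 94) (nat_lit 0) (nat_lit 0) (XT.lf (nat_lit 84) (nat_lit 3236730235) (nat_lit 0) (nat_lit 6944442840) (nat_lit 1764) (nat_lit 1349478613) (nat_lit 337) (nat_lit 5) (nat_lit 336) (nat_lit 5) (nat_lit 357) (nat_lit 5) (nat_lit 290) (nat_lit 283) (nat_lit 147)) (XT.lf (nat_lit 84) (nat_lit 9311132722) (nat_lit 0) (nat_lit 1803211994) (nat_lit 1764) (nat_lit 534907450) (nat_lit 337) (nat_lit 5) (nat_lit 336) (nat_lit 5) (nat_lit 357) (nat_lit 5) (nat_lit 291) (nat_lit 283) (nat_lit 146))))) (XT.nd (nat_lit 376) (nat_lit 0) (nat_lit 168) (XT.nd (nat_lit 188) (nat_lit 0) (nat_lit 84) (XT.nd (nat_lit 94) (nat_lit 0) (nat_lit 0) (XT.lf (nat_lit 0) (nat_lit 330020799) (nat_lit 1764) (nat_lit 8003250197)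 (nat_lit 1848) (nat_lit 3436336323) (nat_lit 316) (nat_lit 5) (nat_lit 337) (nat_lit 5) (nat_lit 338) (nat_lit 5) (nat_lit 292) (nat_lit 283) (nat_lit 145)) (XT.lf (nat_lit 0) (nat_lit 1221801980) (nat_lit 1764) (nat_lit 1879087128) (nat_lit 1848) (nat_lit 8791290144) (nat_lit 316) (nat_lit 5) (nat_lit 337) (nat_lit 5) (nat_lit 338) (nat_lit 5) (nat_lit 293) (nat_lit 283) (nat_lit 144))) (XT.nd (nat_lit 94) (nat_lit 0) (nat_lit 0) (XT.lf (nat_lit 0) (nat_lit 2166550315) (nat_lit 1764) (nat_lit 7599219267) (nat_lit 1848) (nat_lit 2250944530) (nat_lit 317) (nat_lit 5) (nat_lit 338) (nat_lit 5) (nat_lit 339) (nat_lit 5) (nat_lit 294) (nat_lit 283) (nat_lit 143)) (XT.lf (nat_lit 0) (nat_lit 3154411126) (nat_lit 1764) (nat_lit 1295523288) (nat_lit 1848) (nat_lit 7693563108) (nat_lit 317) (nat_lit 5) (nat_lit 338) (nat_lit 5) (nat_lit 339) (nat_lit 5) (nat_lit 295) (nat_lit 283) (nat_lit 142)))) (XT.nd (nat_lit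 188) (nat_lit 0) (nat_lit 0) (XT.nd (nat_lit 94) (nat_lit 0) (nat_lit 0) (XT.lf (nat_lit 0) (nat_lit 4194514731) (nat_lit 1764) (nat_lit 7067552792) (nat_lit 1848) (nat_lit 1010331429) (nat_lit 318) (nat_lit 5) (nat_lit 339) (nat_lit 5) (nat_lit 340) (nat_lit 5) (nat_lit 296) (nat_lit 283) (nat_lit 141)) (XT.lf (nat_lit 0) (nat_lit 5285875208) (nat_lit 1764) (nat_lit 578698204) (nat_lit 1848) (nat_lit 6538938559) (nat_lit 318) (nat_lit 5) (nat_lit 339) (nat_lit 5) (nat_lit 340) (nat_lit 5) (nat_lit 297) (nat_lit 283) (nat_lit 140))) (XT.nd (nat_lit 94) (nat_lit 0) (nat_lit 84) (XT.lf (nat_lit 84) (nat_lit 6131557657) (nat_lit 0) (nat_lit 299999005) (nat_lit 1848) (nat_lit 6105285971) (nat_lit 319) (nat_lit 5) (nat_lit 318) (nat_lit 5) (nat_lit 340) (nat_lit 5) (nat_lit 298) (nat_lit 283) (nat_lit 139)) (XT.lf (nat_lit 84) (nat_lit 280797894) (nat_lit 0) (nat_lit 7353202961) (nat_lit 1848) (nat_lit 5038411445)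 (nat_lit 320) (nat_lit 5) (nat_lit 319) (nat_lit 5) (nat_lit 341) (nat_lit 5) (nat_lit 299) (nat_lit 283) (nat_lit 138))))))) (XT.nd (nat_lit 44180) (nat_lit 0) (nat_lit 4200) (XT.nd (nat_lit 658) (nat_lit 2856) (nat_lit 0) (XT.nd (nat_lit 282) (nat_lit 1680) (nat_lit 0) (XT.nd (nat_lit 94) (nat_lit 0) (nat_lit 84) (XT.lf (nat_lit 84) (nat_lit 7197582240) (nat_lit 0) (nat_lit 1701887834) (nat_lit 1848) (nat_lit 3910689858) (nat_lit 320) (nat_lit 5) (nat_lit 319) (nat_lit 5) (nat_lit 341) (nat_lit 5) (nat_lit 300) (nat_lit 283) (nat_lit 137)) (XT.nd (nat_lit 94) (nat_lit 0) (nat_lit 0) (XT.lf (nat_lit 84) (nat_lit 1295308176) (nat_lit 0) (nat_lit 8923107295) (nat_lit 1848) (nat_lit 2731958551) (nat_lit 321) (nat_lit 5) (nat_lit 320) (nat_lit 5) (nat_lit 342) (nat_lit 5) (nat_lit 301) (nat_lit 283) (nat_lit 136)) (XT.lf (nat_lit 84) (nat_lit 8416565474) (nat_lit 0) (nat_lit 3191160645) (nat_lit 1848) (nat_lit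 1485037038) (nat_lit 321) (nat_lit 5) (nat_lit 320) (nat_lit 5) (nat_lit 342) (nat_lit 5) (nat_lit 302) (nat_lit 283) (nat_lit 135)))) (XT.nd (nat_lit 188) (nat_lit 0) (nat_lit 84) (XT.nd (nat_lit 94) (nat_lit 1848) (nat_lit 0) (XT.lf (nat_lit 84) (nat_lit 2462751304) (nat_lit 0) (nat_lit 10589266791) (nat_lit 1848) (nat_lit 185729595) (nat_lit 322) (nat_lit 5) (nat_lit 321) (nat_lit 5) (nat_lit 343) (nat_lit 5) (nat_lit 303) (nat_lit 283) (nat_lit 134)) (XT.lf (nat_lit 0) (nat_lit 1171715462) (nat_lit 1848) (nat_lit 3598216604) (nat_lit 1932) (nat_lit 8614798747) (nat_lit 299) (nat_lit 5) (nat_lit 321) (nat_lit 5) (nat_lit 322) (nat_lit 5) (nat_lit 304) (nat_lit 283) (nat_lit 133))) (XT.nd (nat_lit 94) (nat_lit 0) (nat_lit 0) (XT.lf (nat_lit 0) (nat_lit 2580060490) (nat_lit 1848) (nat_lit 9763467508) (nat_lit 84) (nat_lit 1190866878) (nat_lit 300) (nat_lit 5) (nat_lit 322) (nat_lit 5) (nat_lit 301)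 (nat_lit 5) (nat_lit 305) (nat_lit 283) (nat_lit 132)) (XT.lf (nat_lit 0) (nat_lit 4069321332) (nat_lit 1848) (nat_lit 2375766255) (nat_lit 84) (nat_lit 7241165454) (nat_lit 300) (nat_lit 5) (nat_lit 322) (nat_lit 5) (nat_lit 301) (nat_lit 5) (nat_lit 306) (nat_lit 283) (nat_lit 131))))) (XT.nd (nat_lit 43146) (nat_lit 0) (nat_lit 5712) (XT.nd (nat_lit 188) (nat_lit 1092) (nat_lit 0) (XT.nd (nat_lit 94) (nat_lit 0) (nat_lit 0) (XT.lf (nat_lit 0) (nat_lit 5240141139) (nat_lit 1848) (nat_lit 377216716) (nat_lit 1932) (nat_lit 8223521965) (nat_lit 278) (nat_lit 5) (nat_lit 300) (nat_lit 5) (nat_lit 301) (nat_lit 5) (nat_lit 307) (nat_lit 283) (nat_lit 130)) (XT.lf (nat_lit 0) (nat_lit 7247483440) (nat_lit 1932) (nat_lit 991038237) (nat_lit 84) (nat_lit 5759330003) (nat_lit 278) (nat_lit 5) (nat_lit 301) (nat_lit 5) (nat_lit 279) (nat_lit 5) (nat_lit 308) (nat_lit 283) (nat_lit 129))) (XT.nd (nat_lit 42864)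 (nat_lit 0) (nat_lit 5712) (XT.lf (nat_lit 0) (nat_lit 6872548615) (nat_lit 1092) (nat_lit 2081733202) (nat_lit 1176) (nat_lit 5203097282) (nat_lit 265) (nat_lit 5) (nat_lit 278) (nat_lit 5) (nat_lit 279) (nat_lit 5) (nat_lit 309) (nat_lit 283) (nat_lit 128)) (XT.lf (nat_lit 0) (nat_lit 3009277261) (nat_lit 1764) (nat_lit 1237262747) (nat_lit 1764) (nat_lit 1237262747) (nat_lit 333) (nat_lit 3) (nat_lit 354) (nat_lit 3) (nat_lit 354) (nat_lit 5) (nat_lit 284) (nat_lit 284) (nat_lit 152)))) (XT.nd (nat_lit 188) (nat_lit 0) (nat_lit 84) (XT.nd (nat_lit 94) (nat_lit 0) (nat_lit 84) (XT.lf (nat_lit 84) (nat_lit 3053253835) (nat_lit 0) (nat_lit 3630552238) (nat_lit 1764) (nat_lit 4391264054) (nat_lit 334) (nat_lit 5) (nat_lit 333) (nat_lit 3) (nat_lit 354) (nat_lit 5) (nat_lit 285) (nat_lit 284) (nat_lit 151)) (XT.lf (nat_lit 0) (nat_lit 7375007748) (nat_lit 1680) (nat_lit 2463612557) (nat_lit 1764) (nat_lit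 1346029739) (nat_lit 334) (nat_lit 5) (nat_lit 354) (nat_lit 5) (nat_lit 355) (nat_lit 5) (nat_lit 286) (nat_lit 284) (nat_lit 150))) (XT.nd (nat_lit 94) (nat_lit 0) (nat_lit 84) (XT.lf (nat_lit 84) (nat_lit 3228084126) (nat_lit 0) (nat_lit 4886480625) (nat_lit 1764) (nat_lit 3181346693) (nat_lit 335) (nat_lit 5) (nat_lit 334) (nat_lit 5) (nat_lit 355) (nat_lit 5) (nat_lit 287) (nat_lit 284) (nat_lit 149)) (XT.lf (nat_lit 0) (nat_lit 8874028614) (nat_lit 1680) (nat_lit 2337994930) (nat_lit 1764) (nat_lit 197517046) (nat_lit 335) (nat_lit 5) (nat_lit 355) (nat_lit 5) (nat_lit 356) (nat_lit 5) (nat_lit 288) (nat_lit 284) (nat_lit 148)))))) (XT.nd (nat_lit 658) (nat_lit 0) (nat_lit 168) (XT.nd (nat_lit 282) (nat_lit 1680) (nat_lit 0) (XT.nd (nat_lit 94) (nat_lit 0) (nat_lit 0) (XT.lf (nat_lit 84) (nat_lit 3524085308) (nat_lit 0) (nat_lit 6171197950) (nat_lit 1764) (nat_lit 1829394502) (nat_lit 336) (nat_lit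 5) (nat_lit 335) (nat_lit 5) (nat_lit 356) (nat_lit 5) (nat_lit 289) (nat_lit 284) (nat_lit 147)) (XT.nd (nat_lit 94) (nat_lit 0) (nat_lit 84) (XT.lf (nat_lit 84) (nat_lit 9541121465) (nat_lit 0) (nat_lit 995431693) (nat_lit 1764) (nat_lit 1105751941) (nat_lit 336) (nat_lit 5) (nat_lit 335) (nat_lit 5) (nat_lit 356) (nat_lit 5) (nat_lit 290) (nat_lit 284) (nat_lit 146)) (XT.lf (nat_lit 84) (nat_lit 3945135700) (nat_lit 0) (nat_lit 7494938861) (nat_lit 1764) (nat_lit 321483320) (nat_lit 337) (nat_lit 5) (nat_lit 336) (nat_lit 5) (nat_lit 357) (nat_lit 5) (nat_lit 291) (nat_lit 284) (nat_lit 145)))) (XT.nd (nat_lit 188) (nat_lit 0) (nat_lit 84) (XT.nd (nat_lit 94) (nat_lit 0) (nat_lit 84) (XT.lf (nat_lit 0) (nat_lit 481208049) (nat_lit 1764) (nat_lit 1747277073) (nat_lit 1848) (nat_lit 9654696051) (nat_lit 315) (nat_lit 5) (nat_lit 336) (nat_lit 5) (nat_lit 337) (nat_lit 5) (nat_lit 292) (nat_lit 284)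 (nat_lit 144)) (XT.lf (nat_lit 0) (nat_lit 1337221210) (nat_lit 1764) (nat_lit 7520865156) (nat_lit 1848) (nat_lit 3148453636) (nat_lit 316) (nat_lit 5) (nat_lit 337) (nat_lit 5) (nat_lit 338) (nat_lit 5) (nat_lit 293) (nat_lit 284) (nat_lit 143))) (XT.nd (nat_lit 94) (nat_lit 0) (nat_lit 84) (XT.lf (nat_lit 0) (nat_lit 2227096450) (nat_lit 1764) (nat_lit 1276144711) (nat_lit 1848) (nat_lit 8629040909) (nat_lit 316) (nat_lit 5) (nat_lit 337) (nat_lit 5) (nat_lit 338) (nat_lit 5) (nat_lit 294) (nat_lit 284) (nat_lit 142)) (XT.lf (nat_lit 0) (nat_lit 3173827987) (nat_lit 1764) (nat_lit 7103318495) (nat_lit 1848) (nat_lit 1982823842) (nat_lit 317) (nat_lit 5) (nat_lit 338) (nat_lit 5) (nat_lit 339) (nat_lit 5) (nat_lit 295) (nat_lit 284) (nat_lit 141))))) (XT.nd (nat_lit 376) (nat_lit 0) (nat_lit 168) (XT.nd (nat_lit 188) (nat_lit 0) (nat_lit 84) (XT.nd (nat_lit 94) (nat_lit 0) (nat_lit 84) (XT.lf (nat_lit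 0) (nat_lit 4162764692) (nat_lit 1764) (nat_lit 675215020) (nat_lit 1848) (nat_lit 7552017713) (nat_lit 317) (nat_lit 5) (nat_lit 338) (nat_lit 5) (nat_lit 339) (nat_lit 5) (nat_lit 296) (nat_lit 284) (nat_lit 140)) (XT.lf (nat_lit 0) (nat_lit 5208137537) (nat_lit 1764) (nat_lit 6556616133) (nat_lit 1848) (nat_lit 757368502) (nat_lit 318) (nat_lit 5) (nat_lit 339) (nat_lit 5) (nat_lit 340) (nat_lit 5) (nat_lit 297) (nat_lit 284) (nat_lit 139))) (XT.nd (nat_lit 94) (nat_lit 0) (nat_lit 0) (XT.lf (nat_lit 84) (nat_lit 61533841) (nat_lit 0) (nat_lit 6242579198) (nat_lit 1848) (nat_lit 6352433327) (nat_lit 319) (nat_lit 5) (nat_lit 318) (nat_lit 5) (nat_lit 340) (nat_lit 5) (nat_lit 298) (nat_lit 284) (nat_lit 138)) (XT.lf (nat_lit 84) (nat_lit 6913816270) (nat_lit 0) (nat_lit 545949936) (nat_lit 1848) (nat_lit 5333379228) (nat_lit 319) (nat_lit 5) (nat_lit 318) (nat_lit 5) (nat_lit 340) (nat_lit 5) (nat_lit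 299) (nat_lit 284) (nat_lit 137)))) (XT.nd (nat_lit 188) (nat_lit 0) (nat_lit 84) (XT.nd (nat_lit 94) (nat_lit 0) (nat_lit 0) (XT.lf (nat_lit 84) (nat_lit 950720455) (nat_lit 0) (nat_lit 7721915673) (nat_lit 1848) (nat_lit 4259414123) (nat_lit 320) (nat_lit 5) (nat_lit 319) (nat_lit 5) (nat_lit 341) (nat_lit 5) (nat_lit 300) (nat_lit 284) (nat_lit 136)) (XT.lf (nat_lit 84) (nat_lit 8005386003) (nat_lit 0) (nat_lit 1941816888) (nat_lit 1848) (nat_lit 3126037782) (nat_lit 320) (nat_lit 5) (nat_lit 319) (nat_lit 5) (nat_lit 341) (nat_lit 5) (nat_lit 301) (nat_lit 284) (nat_lit 135))) (XT.nd (nat_lit 94) (nat_lit 0) (nat_lit 0) (XT.lf (nat_lit 84) (nat_lit 1988607328) (nat_lit 0) (nat_lit 9291542672) (nat_lit 1848) (nat_lit 1936719804) (nat_lit 321) (nat_lit 5) (nat_lit 320) (nat_lit 5) (nat_lit 342) (nat_lit 5) (nat_lit 302) (nat_lit 284) (nat_lit 134)) (XT.lf (nat_lit 84) (nat_lit 9252221473) (nat_lit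 0) (nat_lit 3429787917) (nat_lit 1848) (nat_lit 680778464) (nat_lit 321) (nat_lit 5) (nat_lit 320) (nat_lit 5) (nat_lit 342) (nat_lit 5) (nat_lit 303) (nat_lit 284) (nat_lit 133))))))))
noncomputable def xc60 : XT := (XT.nd (nat_lit 45684) (nat_lit 0) (nat_lit 0) (XT.nd (nat_lit 44274) (nat_lit 0) (nat_lit 1680) (XT.nd (nat_lit 43522) (nat_lit 0) (nat_lit 3108) (XT.nd (nat_lit 282) (nat_lit 1764) (nat_lit 0) (XT.nd (nat_lit 94) (nat_lit 0) (nat_lit 0) (XT.lf (nat_lit 0) (nat_lit 623624695) (nat_lit 1848) (nat_lit 10333979653) (nat_lit 1932) (nat_lit 2553567997) (nat_lit 299) (nat_lit 5) (nat_lit 321) (nat_lit 5) (nat_lit 322) (nat_lit 5) (nat_lit 304) (nat_lit 284) (nat_lit 132)) (XT.nd (nat_lit 94) (nat_lit 0) (nat_lit 84) (XT.lf (nat_lit 0) (nat_lit 1990747991) (nat_lit 1848) (nat_lit 3015230057) (nat_lit 1932) (nat_lit 8655765239) (nat_lit 299) (nat_lit 5) (nat_lit 321) (nat_lit 5) (nat_lit 322) (nat_lit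 5) (nat_lit 305) (nat_lit 284) (nat_lit 131)) (XT.lf (nat_lit 0) (nat_lit 3416803500) (nat_lit 1848) (nat_lit 9302843372) (nat_lit 84) (nat_lit 1095345095) (nat_lit 300) (nat_lit 5) (nat_lit 322) (nat_lit 5) (nat_lit 301) (nat_lit 5) (nat_lit 306) (nat_lit 284) (nat_lit 130)))) (XT.nd (nat_lit 188) (nat_lit 0) (nat_lit 0) (XT.nd (nat_lit 94) (nat_lit 1848) (nat_lit 0) (XT.lf (nat_lit 0) (nat_lit 4922037868) (nat_lit 1848) (nat_lit 1767152074) (nat_lit 84) (nat_lit 7281370453) (nat_lit 300) (nat_lit 5) (nat_lit 322) (nat_lit 5) (nat_lit 301) (nat_lit 5) (nat_lit 307) (nat_lit 284) (nat_lit 129)) (XT.lf (nat_lit 0) (nat_lit 6011528876) (nat_lit 1848) (nat_lit 480847128) (nat_lit 1932) (nat_lit 7636471575) (nat_lit 278) (nat_lit 5) (nat_lit 300) (nat_lit 5) (nat_lit 301) (nat_lit 5) (nat_lit 308) (nat_lit 284) (nat_lit 128))) (XT.nd (nat_lit 42958) (nat_lit 0) (nat_lit 4620) (XT.lf (nat_lit 0) (nat_lit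 8141524168) (nat_lit 1932) (nat_lit 354019845) (nat_lit 84) (nat_lit 5794099290) (nat_lit 278) (nat_lit 5) (nat_lit 301) (nat_lit 5) (nat_lit 279) (nat_lit 5) (nat_lit 309) (nat_lit 284) (nat_lit 127)) (XT.lf (nat_lit 0) (nat_lit 3648667532) (nat_lit 1764) (nat_lit 971584394) (nat_lit 1764) (nat_lit 971584394) (nat_lit 333) (nat_lit 3) (nat_lit 354) (nat_lit 3) (nat_lit 354) (nat_lit 5) (nat_lit 285) (nat_lit 285) (nat_lit 150))))) (XT.nd (nat_lit 376) (nat_lit 1512) (nat_lit 0) (XT.nd (nat_lit 188) (nat_lit 0) (nat_lit 84) (XT.nd (nat_lit 94) (nat_lit 0) (nat_lit 84) (XT.lf (nat_lit 84) (nat_lit 3701987941) (nat_lit 0) (nat_lit 4254699523) (nat_lit 1764) (nat_lit 3337265777) (nat_lit 334) (nat_lit 5) (nat_lit 333) (nat_lit 3) (nat_lit 354) (nat_lit 5) (nat_lit 286) (nat_lit 285) (nat_lit 149)) (XT.lf (nat_lit 0) (nat_lit 8635066781) (nat_lit 1680) (nat_lit 1920739675) (nat_lit 1764) (nat_lit 850754095)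 (nat_lit 334) (nat_lit 5) (nat_lit 354) (nat_lit 5) (nat_lit 355) (nat_lit 5) (nat_lit 287) (nat_lit 285) (nat_lit 148))) (XT.nd (nat_lit 94) (nat_lit 0) (nat_lit 0) (XT.lf (nat_lit 84) (nat_lit 3891859096) (nat_lit 0) (nat_lit 5479625398) (nat_lit 1764) (nat_lit 2149212218) (nat_lit 335) (nat_lit 5) (nat_lit 334) (nat_lit 5) (nat_lit 355) (nat_lit 5) (nat_lit 288) (nat_lit 285) (nat_lit 147)) (XT.lf (nat_lit 84) (nat_lit 9852607869) (nat_lit 0) (nat_lit 270375690) (nat_lit 1764) (nat_lit 1514384945) (nat_lit 335) (nat_lit 5) (nat_lit 334) (nat_lit 5) (nat_lit 355) (nat_lit 5) (nat_lit 289) (nat_lit 285) (nat_lit 146)))) (XT.nd (nat_lit 188) (nat_lit 1680) (nat_lit 0) (XT.nd (nat_lit 94) (nat_lit 0) (nat_lit 0) (XT.lf (nat_lit 84) (nat_lit 4203827245) (nat_lit 0) (nat_lit 6738200814) (nat_lit 1764) (nat_lit 813456743) (nat_lit 336) (nat_lit 5) (nat_lit 335) (nat_lit 5) (nat_lit 356) (nat_lit 5) (nat_lit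 290) (nat_lit 285) (nat_lit 145)) (XT.lf (nat_lit 84) (nat_lit 10340274729) (nat_lit 0) (nat_lit 1439284721) (nat_lit 1764) (nat_lit 96629914) (nat_lit 336) (nat_lit 5) (nat_lit 335) (nat_lit 5) (nat_lit 356) (nat_lit 5) (nat_lit 291) (nat_lit 285) (nat_lit 144))) (XT.nd (nat_lit 94) (nat_lit 0) (nat_lit 0) (XT.lf (nat_lit 0) (nat_lit 674228741) (nat_lit 1764) (nat_lit 7361398371) (nat_lit 1848) (nat_lit 3962779377) (nat_lit 315) (nat_lit 5) (nat_lit 336) (nat_lit 5) (nat_lit 337) (nat_lit 5) (nat_lit 292) (nat_lit 285) (nat_lit 143)) (XT.lf (nat_lit 0) (nat_lit 1468362575) (nat_lit 1764) (nat_lit 1174518815) (nat_lit 1848) (nat_lit 9480245273) (nat_lit 315) (nat_lit 5) (nat_lit 336) (nat_lit 5) (nat_lit 337) (nat_lit 5) (nat_lit 293) (nat_lit 285) (nat_lit 142)))))) (XT.nd (nat_lit 658) (nat_lit 1512) (nat_lit 0) (XT.nd (nat_lit 282) (nat_lit 0) (nat_lit 84) (XT.nd (nat_lit 94) (nat_lit 0) (nat_lit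 0) (XT.lf (nat_lit 0) (nat_lit 2323993136) (nat_lit 1764) (nat_lit 7055910946) (nat_lit 1848) (nat_lit 2869718032) (nat_lit 316) (nat_lit 5) (nat_lit 337) (nat_lit 5) (nat_lit 338) (nat_lit 5) (nat_lit 294) (nat_lit 285) (nat_lit 141)) (XT.nd (nat_lit 94) (nat_lit 0) (nat_lit 84) (XT.lf (nat_lit 0) (nat_lit 3212837248) (nat_lit 1764) (nat_lit 687377191) (nat_lit 1848) (nat_lit 8478369453) (nat_lit 316) (nat_lit 5) (nat_lit 337) (nat_lit 5) (nat_lit 338) (nat_lit 5) (nat_lit 295) (nat_lit 285) (nat_lit 140)) (XT.lf (nat_lit 0) (nat_lit 4162396353) (nat_lit 1764) (nat_lit 6624748273) (nat_lit 1848) (nat_lit 1722332674) (nat_lit 317) (nat_lit 5) (nat_lit 338) (nat_lit 5) (nat_lit 339) (nat_lit 5) (nat_lit 296) (nat_lit 285) (nat_lit 139)))) (XT.nd (nat_lit 188) (nat_lit 0) (nat_lit 84) (XT.nd (nat_lit 94) (nat_lit 0) (nat_lit 84) (XT.lf (nat_lit 0) (nat_lit 5153312395) (nat_lit 1764) (nat_lit 68892422)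 (nat_lit 1848) (nat_lit 7420595280) (nat_lit 317) (nat_lit 5) (nat_lit 338) (nat_lit 5) (nat_lit 339) (nat_lit 5) (nat_lit 297) (nat_lit 285) (nat_lit 138)) (XT.lf (nat_lit 0) (nat_lit 6204820532) (nat_lit 1764) (nat_lit 6062821450) (nat_lit 1848) (nat_lit 510560590) (nat_lit 318) (nat_lit 5) (nat_lit 339) (nat_lit 5) (nat_lit 340) (nat_lit 5) (nat_lit 298) (nat_lit 285) (nat_lit 137))) (XT.nd (nat_lit 94) (nat_lit 0) (nat_lit 0) (XT.lf (nat_lit 84) (nat_lit 696316495) (nat_lit 0) (nat_lit 6614114524) (nat_lit 1848) (nat_lit 5605471562) (nat_lit 319) (nat_lit 5) (nat_lit 318) (nat_lit 5) (nat_lit 340) (nat_lit 5) (nat_lit 299) (nat_lit 285) (nat_lit 136)) (XT.lf (nat_lit 84) (nat_lit 7685713682) (nat_lit 0) (nat_lit 787117962) (nat_lit 1848) (nat_lit 4583086078) (nat_lit 319) (nat_lit 5) (nat_lit 318) (nat_lit 5) (nat_lit 340) (nat_lit 5) (nat_lit 300) (nat_lit 285) (nat_lit 135))))) (XT.nd (nat_lit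 376) (nat_lit 0) (nat_lit 84) (XT.nd (nat_lit 188) (nat_lit 1764) (nat_lit 0) (XT.nd (nat_lit 94) (nat_lit 0) (nat_lit 0) (XT.lf (nat_lit 84) (nat_lit 1607112776) (nat_lit 0) (nat_lit 8089926509) (nat_lit 1848) (nat_lit 3501176759) (nat_lit 320) (nat_lit 5) (nat_lit 319) (nat_lit 5) (nat_lit 341) (nat_lit 5) (nat_lit 301) (nat_lit 285) (nat_lit 134)) (XT.lf (nat_lit 84) (nat_lit 8803301433) (nat_lit 0) (nat_lit 2178400548) (nat_lit 1848) (nat_lit 2361205451) (nat_lit 320) (nat_lit 5) (nat_lit 319) (nat_lit 5) (nat_lit 341) (nat_lit 5) (nat_lit 302) (nat_lit 285) (nat_lit 133))) (XT.nd (nat_lit 94) (nat_lit 1848) (nat_lit 0) (XT.lf (nat_lit 84) (nat_lit 2668845494) (nat_lit 0) (nat_lit 9660752832) (nat_lit 1848) (nat_lit 1160414344) (nat_lit 321) (nat_lit 5) (nat_lit 320) (nat_lit 5) (nat_lit 342) (nat_lit 5) (nat_lit 303) (nat_lit 285) (nat_lit 132)) (XT.lf (nat_lit 0) (nat_lit 104009474) (nat_lit 1848)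 (nat_lit 3561714277) (nat_lit 1932) (nat_lit 9973780102) (nat_lit 298) (nat_lit 5) (nat_lit 320) (nat_lit 5) (nat_lit 321) (nat_lit 5) (nat_lit 304) (nat_lit 285) (nat_lit 131)))) (XT.nd (nat_lit 188) (nat_lit 0) (nat_lit 84) (XT.nd (nat_lit 94) (nat_lit 0) (nat_lit 0) (XT.lf (nat_lit 0) (nat_lit 1413523292) (nat_lit 1848) (nat_lit 9913433553) (nat_lit 1932) (nat_lit 2464385358) (nat_lit 299) (nat_lit 5) (nat_lit 321) (nat_lit 5) (nat_lit 322) (nat_lit 5) (nat_lit 305) (nat_lit 285) (nat_lit 130)) (XT.lf (nat_lit 0) (nat_lit 2794014948) (nat_lit 1848) (nat_lit 2447618296) (nat_lit 1932) (nat_lit 8703960043) (nat_lit 299) (nat_lit 5) (nat_lit 321) (nat_lit 5) (nat_lit 322) (nat_lit 5) (nat_lit 306) (nat_lit 285) (nat_lit 129))) (XT.nd (nat_lit 94) (nat_lit 0) (nat_lit 0) (XT.lf (nat_lit 0) (nat_lit 4238735865) (nat_lit 1848) (nat_lit 8860851289) (nat_lit 84) (nat_lit 1002905857) (nat_lit 300) (nat_lit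 5) (nat_lit 322) (nat_lit 5) (nat_lit 301) (nat_lit 5) (nat_lit 307) (nat_lit 285) (nat_lit 128)) (XT.lf (nat_lit 0) (nat_lit 5761010262) (nat_lit 1848) (nat_lit 1173294941) (nat_lit 84) (nat_lit 7327532394) (nat_lit 300) (nat_lit 5) (nat_lit 322) (nat_lit 5) (nat_lit 301) (nat_lit 5) (nat_lit 308) (nat_lit 285) (nat_lit 127))))))) (XT.nd (nat_lit 44368) (nat_lit 0) (nat_lit 1680) (XT.nd (nat_lit 43616) (nat_lit 0) (nat_lit 3024) (XT.nd (nat_lit 43240) (nat_lit 0) (nat_lit 3024) (XT.nd (nat_lit 43052) (nat_lit 0) (nat_lit 4620) (XT.lf (nat_lit 0) (nat_lit 6771944006) (nat_lit 1848) (nat_lit 582697286) (nat_lit 1932) (nat_lit 7069213406) (nat_lit 278) (nat_lit 5) (nat_lit 300) (nat_lit 5) (nat_lit 301) (nat_lit 5) (nat_lit 309) (nat_lit 285) (nat_lit 126)) (XT.nd (nat_lit 94) (nat_lit 0) (nat_lit 0) (XT.lf (nat_lit 0) (nat_lit 4277712704) (nat_lit 1764) (nat_lit 712535488) (nat_lit 1764) (nat_lit 712535488)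 (nat_lit 333) (nat_lit 3) (nat_lit 354) (nat_lit 3) (nat_lit 354) (nat_lit 5) (nat_lit 286) (nat_lit 286) (nat_lit 148)) (XT.lf (nat_lit 84) (nat_lit 4340225770) (nat_lit 0) (nat_lit 4869397669) (nat_lit 1764) (nat_lit 2309083220) (nat_lit 334) (nat_lit 5) (nat_lit 333) (nat_lit 3) (nat_lit 354) (nat_lit 5) (nat_lit 287) (nat_lit 286) (nat_lit 147)))) (XT.nd (nat_lit 188) (nat_lit 1680) (nat_lit 0) (XT.nd (nat_lit 94) (nat_lit 0) (nat_lit 0) (XT.lf (nat_lit 0) (nat_lit 9876092036) (nat_lit 1680) (nat_lit 1391352572) (nat_lit 1764) (nat_lit 366937091) (nat_lit 334) (nat_lit 5) (nat_lit 354) (nat_lit 5) (nat_lit 355) (nat_lit 5) (nat_lit 288) (nat_lit 286) (nat_lit 146)) (XT.lf (nat_lit 84) (nat_lit 4544991914) (nat_lit 0) (nat_lit 6065136122) (nat_lit 1764) (nat_lit 1141309644) (nat_lit 335) (nat_lit 5) (nat_lit 334) (nat_lit 5) (nat_lit 355) (nat_lit 5) (nat_lit 289) (nat_lit 286) (nat_lit 145))) (XT.nd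 (nat_lit 94) (nat_lit 1680) (nat_lit 0) (XT.lf (nat_lit 84) (nat_lit 10624660661) (nat_lit 0) (nat_lit 731274019) (nat_lit 1764) (nat_lit 515230531) (nat_lit 335) (nat_lit 5) (nat_lit 334) (nat_lit 5) (nat_lit 355) (nat_lit 5) (nat_lit 290) (nat_lit 286) (nat_lit 144)) (XT.lf (nat_lit 0) (nat_lit 177258927) (nat_lit 1764) (nat_lit 7120743393) (nat_lit 1848) (nat_lit 4694307403) (nat_lit 314) (nat_lit 5) (nat_lit 335) (nat_lit 5) (nat_lit 336) (nat_lit 5) (nat_lit 291) (nat_lit 286) (nat_lit 143))))) (XT.nd (nat_lit 376) (nat_lit 0) (nat_lit 168) (XT.nd (nat_lit 188) (nat_lit 0) (nat_lit 84) (XT.nd (nat_lit 94) (nat_lit 0) (nat_lit 84) (XT.lf (nat_lit 0) (nat_lit 877850180) (nat_lit 1764) (nat_lit 990597473) (nat_lit 1848) (nat_lit 10247579316) (nat_lit 314) (nat_lit 5) (nat_lit 335) (nat_lit 5) (nat_lit 336) (nat_lit 5) (nat_lit 292) (nat_lit 286) (nat_lit 142)) (XT.lf (nat_lit 0) (nat_lit 1644607711)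 (nat_lit 1764) (nat_lit 6925307694) (nat_lit 1848) (nat_lit 3671434016) (nat_lit 315) (nat_lit 5) (nat_lit 336) (nat_lit 5) (nat_lit 337) (nat_lit 5) (nat_lit 293) (nat_lit 286) (nat_lit 141))) (XT.nd (nat_lit 94) (nat_lit 0) (nat_lit 84) (XT.lf (nat_lit 0) (nat_lit 2435643008) (nat_lit 1764) (nat_lit 615190478) (nat_lit 1848) (nat_lit 9318432482) (nat_lit 315) (nat_lit 5) (nat_lit 336) (nat_lit 5) (nat_lit 337) (nat_lit 5) (nat_lit 294) (nat_lit 286) (nat_lit 140)) (XT.lf (nat_lit 0) (nat_lit 3291700903) (nat_lit 1764) (nat_lit 6607576698) (nat_lit 1848) (nat_lit 2599671441) (nat_lit 316) (nat_lit 5) (nat_lit 337) (nat_lit 5) (nat_lit 338) (nat_lit 5) (nat_lit 295) (nat_lit 286) (nat_lit 139)))) (XT.nd (nat_lit 188) (nat_lit 0) (nat_lit 84) (XT.nd (nat_lit 94) (nat_lit 0) (nat_lit 84) (XT.lf (nat_lit 0) (nat_lit 4180368903) (nat_lit 1764) (nat_lit 111927778) (nat_lit 1848) (nat_lit 8338885374) (nat_lit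 316) (nat_lit 5) (nat_lit 337) (nat_lit 5) (nat_lit 338) (nat_lit 5) (nat_lit 296) (nat_lit 286) (nat_lit 138)) (XT.lf (nat_lit 0) (nat_lit 5133584415) (nat_lit 1764) (nat_lit 6162687129) (nat_lit 1848) (nat_lit 1469062719) (nat_lit 317) (nat_lit 5) (nat_lit 338) (nat_lit 5) (nat_lit 339) (nat_lit 5) (nat_lit 297) (nat_lit 286) (nat_lit 137))) (XT.nd (nat_lit 94) (nat_lit 0) (nat_lit 84) (XT.lf (nat_lit 84) (nat_lit 531975816) (nat_lit 0) (nat_lit 5599179213) (nat_lit 1848) (nat_lit 6770768335) (nat_lit 318) (nat_lit 5) (nat_lit 317) (nat_lit 5) (nat_lit 339) (nat_lit 5) (nat_lit 298) (nat_lit 286) (nat_lit 136)) (XT.lf (nat_lit 0) (nat_lit 7185862230) (nat_lit 1764) (nat_lit 5585337067) (nat_lit 1848) (nat_lit 269543948) (nat_lit 318) (nat_lit 5) (nat_lit 339) (nat_lit 5) (nat_lit 340) (nat_lit 5) (nat_lit 299) (nat_lit 286) (nat_lit 135)))))) (XT.nd (nat_lit 658) (nat_lit 0) (nat_lit 84) (XT.nd (nat_lit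 282) (nat_lit 1680) (nat_lit 0) (XT.nd (nat_lit 94) (nat_lit 0) (nat_lit 0) (XT.lf (nat_lit 84) (nat_lit 1318086978) (nat_lit 0) (nat_lit 6983849238) (nat_lit 1848) (nat_lit 4879841356) (nat_lit 319) (nat_lit 5) (nat_lit 318) (nat_lit 5) (nat_lit 340) (nat_lit 5) (nat_lit 300) (nat_lit 286) (nat_lit 134)) (XT.nd (nat_lit 94) (nat_lit 0) (nat_lit 84) (XT.lf (nat_lit 84) (nat_lit 8448196173) (nat_lit 0) (nat_lit 1023832008) (nat_lit 1848) (nat_lit 3853238257) (nat_lit 319) (nat_lit 5) (nat_lit 318) (nat_lit 5) (nat_lit 340) (nat_lit 5) (nat_lit 301) (nat_lit 286) (nat_lit 133)) (XT.lf (nat_lit 84) (nat_lit 2250881134) (nat_lit 0) (nat_lit 8457595390) (nat_lit 1848) (nat_lit 2762542019) (nat_lit 320) (nat_lit 5) (nat_lit 319) (nat_lit 5) (nat_lit 341) (nat_lit 5) (nat_lit 302) (nat_lit 286) (nat_lit 132)))) (XT.nd (nat_lit 188) (nat_lit 1764) (nat_lit 0) (XT.nd (nat_lit 94) (nat_lit 0) (nat_lit 84) (XT.lf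 (nat_lit 84) (nat_lit 9592289014) (nat_lit 0) (nat_lit 2411932502) (nat_lit 1848) (nat_lit 1615049595) (nat_lit 320) (nat_lit 5) (nat_lit 319) (nat_lit 5) (nat_lit 341) (nat_lit 5) (nat_lit 303) (nat_lit 286) (nat_lit 131)) (XT.lf (nat_lit 84) (nat_lit 3336941191) (nat_lit 0) (nat_lit 10031067034) (nat_lit 1848) (nat_lit 401907231) (nat_lit 321) (nat_lit 5) (nat_lit 320) (nat_lit 5) (nat_lit 342) (nat_lit 5) (nat_lit 304) (nat_lit 286) (nat_lit 130))) (XT.nd (nat_lit 94) (nat_lit 0) (nat_lit 84) (XT.lf (nat_lit 0) (nat_lit 862406891) (nat_lit 1848) (nat_lit 3032759160) (nat_lit 1932) (nat_lit 10027772484) (nat_lit 298) (nat_lit 5) (nat_lit 320) (nat_lit 5) (nat_lit 321) (nat_lit 5) (nat_lit 305) (nat_lit 286) (nat_lit 129)) (XT.lf (nat_lit 0) (nat_lit 2187742626) (nat_lit 1848) (nat_lit 9511228874) (nat_lit 1932) (nat_lit 2379431551) (nat_lit 299) (nat_lit 5) (nat_lit 321) (nat_lit 5) (nat_lit 322) (nat_lit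 5) (nat_lit 306) (nat_lit 286) (nat_lit 128))))) (XT.nd (nat_lit 43428) (nat_lit 0) (nat_lit 1176) (XT.nd (nat_lit 188) (nat_lit 0) (nat_lit 84) (XT.nd (nat_lit 94) (nat_lit 0) (nat_lit 84) (XT.lf (nat_lit 0) (nat_lit 3582608348) (nat_lit 1848) (nat_lit 1894518524) (nat_lit 1932) (nat_lit 8759272717) (nat_lit 299) (nat_lit 5) (nat_lit 321) (nat_lit 5) (nat_lit 322) (nat_lit 5) (nat_lit 307) (nat_lit 286) (nat_lit 127)) (XT.lf (nat_lit 0) (nat_lit 5046946528) (nat_lit 1848) (nat_lit 8436676047) (nat_lit 84) (nat_lit 913396196) (nat_lit 300) (nat_lit 5) (nat_lit 322) (nat_lit 5) (nat_lit 301) (nat_lit 5) (nat_lit 308) (nat_lit 286) (nat_lit 126))) (XT.nd (nat_lit 43146) (nat_lit 0) (nat_lit 2772) (XT.lf (nat_lit 0) (nat_lit 6587320467) (nat_lit 1848) (nat_lit 593320766) (nat_lit 84) (nat_lit 7379566296) (nat_lit 300) (nat_lit 5) (nat_lit 322) (nat_lit 5) (nat_lit 301) (nat_lit 5) (nat_lit 309) (nat_lit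 286) (nat_lit 125)) (XT.lf (nat_lit 0) (nat_lit 4897224866) (nat_lit 1764) (nat_lit 459730600) (nat_lit 1764) (nat_lit 459730600) (nat_lit 333) (nat_lit 3) (nat_lit 354) (nat_lit 3) (nat_lit 354) (nat_lit 5) (nat_lit 287) (nat_lit 287) (nat_lit 146)))) (XT.nd (nat_lit 188) (nat_lit 1680) (nat_lit 0) (XT.nd (nat_lit 94) (nat_lit 0) (nat_lit 0) (XT.lf (nat_lit 84) (nat_lit 4968791276) (nat_lit 0) (nat_lit 5475426034) (nat_lit 1764) (nat_lit 1305197287) (nat_lit 334) (nat_lit 5) (nat_lit 333) (nat_lit 3) (nat_lit 354) (nat_lit 5) (nat_lit 288) (nat_lit 287) (nat_lit 145)) (XT.lf (nat_lit 84) (nat_lit 10992750940) (nat_lit 0) (nat_lit 107672077) (nat_lit 1764) (nat_lit 767759827) (nat_lit 334) (nat_lit 5) (nat_lit 333) (nat_lit 3) (nat_lit 354) (nat_lit 5) (nat_lit 289) (nat_lit 287) (nat_lit 144))) (XT.nd (nat_lit 94) (nat_lit 1764) (nat_lit 0) (XT.lf (nat_lit 84) (nat_lit 5188323634) (nat_lit 0) (nat_lit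 6643725734) (nat_lit 1764) (nat_lit 156172973) (nat_lit 335) (nat_lit 5) (nat_lit 334) (nat_lit 5) (nat_lit 355) (nat_lit 5) (nat_lit 290) (nat_lit 287) (nat_lit 143)) (XT.lf (nat_lit 0) (nat_lit 455279608) (nat_lit 1764) (nat_lit 724293582) (nat_lit 1848) (nat_lit 10931406433) (nat_lit 313) (nat_lit 5) (nat_lit 334) (nat_lit 5) (nat_lit 335) (nat_lit 5) (nat_lit 291) (nat_lit 287) (nat_lit 142))))))))
noncomputable def xc61 : XT := (XT.nd (nat_lit 45966) (nat_lit 84) (nat_lit 0) (XT.nd (nat_lit 1410) (nat_lit 0) (nat_lit 84) (XT.nd (nat_lit 658) (nat_lit 1344) (nat_lit 0) (XT.nd (nat_lit 282) (nat_lit 0) (nat_lit 84) (XT.nd (nat_lit 94) (nat_lit 0) (nat_lit 0) (XT.lf (nat_lit 0) (nat_lit 1135349969) (nat_lit 1764) (nat_lit 6711446886) (nat_lit 1848) (nat_lit 4388351472) (nat_lit 314) (nat_lit 5) (nat_lit 335) (nat_lit 5) (nat_lit 336) (nat_lit 5) (nat_lit 292) (nat_lit 287) (nat_lit 141)) (XT.nd (nat_lit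 94) (nat_lit 0) (nat_lit 84) (XT.lf (nat_lit 0) (nat_lit 1830813907) (nat_lit 1764) (nat_lit 458620694) (nat_lit 1848) (nat_lit 10072604639) (nat_lit 314) (nat_lit 5) (nat_lit 335) (nat_lit 5) (nat_lit 336) (nat_lit 5) (nat_lit 293) (nat_lit 287) (nat_lit 140)) (XT.lf (nat_lit 0) (nat_lit 2595638843) (nat_lit 1764) (nat_lit 6505093278) (nat_lit 1848) (nat_lit 3389800294) (nat_lit 315) (nat_lit 5) (nat_lit 336) (nat_lit 5) (nat_lit 337) (nat_lit 5) (nat_lit 294) (nat_lit 287) (nat_lit 139)))) (XT.nd (nat_lit 188) (nat_lit 0) (nat_lit 84) (XT.nd (nat_lit 94) (nat_lit 0) (nat_lit 84) (XT.lf (nat_lit 0) (nat_lit 3384383477) (nat_lit 1764) (nat_lit 68478890) (nat_lit 1848) (nat_lit 9168834013) (nat_lit 315) (nat_lit 5) (nat_lit 336) (nat_lit 5) (nat_lit 337) (nat_lit 5) (nat_lit 295) (nat_lit 287) (nat_lit 138)) (XT.lf (nat_lit 0) (nat_lit 4241661606) (nat_lit 1764) (nat_lit 6175084568) (nat_lit 1848) (nat_lit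 2337873795) (nat_lit 316) (nat_lit 5) (nat_lit 337) (nat_lit 5) (nat_lit 338) (nat_lit 5) (nat_lit 296) (nat_lit 287) (nat_lit 137))) (XT.nd (nat_lit 94) (nat_lit 0) (nat_lit 84) (XT.lf (nat_lit 84) (nat_lit 457620589) (nat_lit 0) (nat_lit 4676629087) (nat_lit 1848) (nat_lit 7755856305) (nat_lit 317) (nat_lit 5) (nat_lit 316) (nat_lit 5) (nat_lit 338) (nat_lit 5) (nat_lit 297) (nat_lit 287) (nat_lit 136)) (XT.lf (nat_lit 0) (nat_lit 6088676279) (nat_lit 1764) (nat_lit 5716346748) (nat_lit 1848) (nat_lit 1222621224) (nat_lit 317) (nat_lit 5) (nat_lit 338) (nat_lit 5) (nat_lit 339) (nat_lit 5) (nat_lit 298) (nat_lit 287) (nat_lit 135))))) (XT.nd (nat_lit 376) (nat_lit 1596) (nat_lit 0) (XT.nd (nat_lit 188) (nat_lit 0) (nat_lit 84) (XT.nd (nat_lit 94) (nat_lit 0) (nat_lit 84) (XT.lf (nat_lit 84) (nat_lit 1121393057) (nat_lit 0) (nat_lit 5972787044) (nat_lit 1848) (nat_lit 6073366506) (nat_lit 318) (nat_lit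 5) (nat_lit 317) (nat_lit 5) (nat_lit 339) (nat_lit 5) (nat_lit 299) (nat_lit 287) (nat_lit 134)) (XT.lf (nat_lit 0) (nat_lit 8152518535) (nat_lit 1764) (nat_lit 5123364494) (nat_lit 1848) (nat_lit 33968086) (nat_lit 318) (nat_lit 5) (nat_lit 339) (nat_lit 5) (nat_lit 340) (nat_lit 5) (nat_lit 300) (nat_lit 287) (nat_lit 133))) (XT.nd (nat_lit 94) (nat_lit 0) (nat_lit 0) (XT.lf (nat_lit 84) (nat_lit 1927707974) (nat_lit 0) (nat_lit 7352168531) (nat_lit 1848) (nat_lit 4174403624) (nat_lit 319) (nat_lit 5) (nat_lit 318) (nat_lit 5) (nat_lit 340) (nat_lit 5) (nat_lit 301) (nat_lit 287) (nat_lit 132)) (XT.lf (nat_lit 84) (nat_lit 9202180836) (nat_lit 0) (nat_lit 1256409746) (nat_lit 1848) (nat_lit 3142711806) (nat_lit 319) (nat_lit 5) (nat_lit 318) (nat_lit 5) (nat_lit 340) (nat_lit 5) (nat_lit 302) (nat_lit 287) (nat_lit 131)))) (XT.nd (nat_lit 188) (nat_lit 1764) (nat_lit 0) (XT.nd (nat_lit 94) (nat_lit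 0) (nat_lit 0) (XT.lf (nat_lit 84) (nat_lit 2882900469) (nat_lit 0) (nat_lit 8825274173) (nat_lit 1848) (nat_lit 2042395854) (nat_lit 320) (nat_lit 5) (nat_lit 319) (nat_lit 5) (nat_lit 341) (nat_lit 5) (nat_lit 303) (nat_lit 287) (nat_lit 130)) (XT.lf (nat_lit 84) (nat_lit 10373280184) (nat_lit 0) (nat_lit 2642697252) (nat_lit 1848) (nat_lit 886469053) (nat_lit 320) (nat_lit 5) (nat_lit 319) (nat_lit 5) (nat_lit 341) (nat_lit 5) (nat_lit 304) (nat_lit 287) (nat_lit 129))) (XT.nd (nat_lit 94) (nat_lit 0) (nat_lit 0) (XT.lf (nat_lit 0) (nat_lit 334999790) (nat_lit 1848) (nat_lit 10065334276) (nat_lit 1932) (nat_lit 3656307576) (nat_lit 298) (nat_lit 5) (nat_lit 320) (nat_lit 5) (nat_lit 321) (nat_lit 5) (nat_lit 305) (nat_lit 287) (nat_lit 128)) (XT.lf (nat_lit 0) (nat_lit 1605286775) (nat_lit 1848) (nat_lit 2518032151) (nat_lit 1932) (nat_lit 10089998304) (nat_lit 298) (nat_lit 5) (nat_lit 320) (nat_lit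 5) (nat_lit 321) (nat_lit 5) (nat_lit 306) (nat_lit 287) (nat_lit 127)))))) (XT.nd (nat_lit 43804) (nat_lit 0) (nat_lit 1176) (XT.nd (nat_lit 43428) (nat_lit 0) (nat_lit 1092) (XT.nd (nat_lit 94) (nat_lit 0) (nat_lit 0) (XT.lf (nat_lit 0) (nat_lit 2947345636) (nat_lit 1848) (nat_lit 9126593937) (nat_lit 1932) (nat_lit 2298535946) (nat_lit 299) (nat_lit 5) (nat_lit 321) (nat_lit 5) (nat_lit 322) (nat_lit 5) (nat_lit 307) (nat_lit 287) (nat_lit 126)) (XT.nd (nat_lit 94) (nat_lit 0) (nat_lit 84) (XT.lf (nat_lit 0) (nat_lit 4357582945) (nat_lit 1848) (nat_lit 1355100112) (nat_lit 1932) (nat_lit 8821601865) (nat_lit 299) (nat_lit 5) (nat_lit 321) (nat_lit 5) (nat_lit 322) (nat_lit 5) (nat_lit 308) (nat_lit 287) (nat_lit 125)) (XT.lf (nat_lit 0) (nat_lit 5842488138) (nat_lit 1848) (nat_lit 8029536673) (nat_lit 84) (nat_lit 826669180) (nat_lit 300) (nat_lit 5) (nat_lit 322) (nat_lit 5) (nat_lit 301) (nat_lit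 5) (nat_lit 309) (nat_lit 287) (nat_lit 124)))) (XT.nd (nat_lit 188) (nat_lit 1764) (nat_lit 0) (XT.nd (nat_lit 94) (nat_lit 0) (nat_lit 0) (XT.lf (nat_lit 0) (nat_lit 5507989693) (nat_lit 1764) (nat_lit 212798449) (nat_lit 1764) (nat_lit 212798449) (nat_lit 333) (nat_lit 3) (nat_lit 354) (nat_lit 3) (nat_lit 354) (nat_lit 5) (nat_lit 288) (nat_lit 288) (nat_lit 144)) (XT.lf (nat_lit 84) (nat_lit 5588481616) (nat_lit 0) (nat_lit 6073539078) (nat_lit 1764) (nat_lit 324144352) (nat_lit 334) (nat_lit 5) (nat_lit 333) (nat_lit 3) (nat_lit 354) (nat_lit 5) (nat_lit 289) (nat_lit 288) (nat_lit 143))) (XT.nd (nat_lit 94) (nat_lit 0) (nat_lit 84) (XT.lf (nat_lit 0) (nat_lit 200450738) (nat_lit 1764) (nat_lit 375481026) (nat_lit 1848) (nat_lit 11532050470) (nat_lit 312) (nat_lit 5) (nat_lit 333) (nat_lit 3) (nat_lit 334) (nat_lit 5) (nat_lit 290) (nat_lit 288) (nat_lit 142)) (XT.lf (nat_lit 0) (nat_lit 795978735)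 (nat_lit 1764) (nat_lit 6414227242) (nat_lit 1848) (nat_lit 5020809918) (nat_lit 313) (nat_lit 5) (nat_lit 334) (nat_lit 5) (nat_lit 335) (nat_lit 5) (nat_lit 291) (nat_lit 288) (nat_lit 141))))) (XT.nd (nat_lit 376) (nat_lit 0) (nat_lit 168) (XT.nd (nat_lit 188) (nat_lit 0) (nat_lit 84) (XT.nd (nat_lit 94) (nat_lit 0) (nat_lit 84) (XT.lf (nat_lit 0) (nat_lit 1398063509) (nat_lit 1764) (nat_lit 217593690) (nat_lit 1848) (nat_lit 10741243085) (nat_lit 313) (nat_lit 5) (nat_lit 334) (nat_lit 5) (nat_lit 335) (nat_lit 5) (nat_lit 292) (nat_lit 288) (nat_lit 140)) (XT.lf (nat_lit 0) (nat_lit 2073880529) (nat_lit 1764) (nat_lit 6317249477) (nat_lit 1848) (nat_lit 4093093422) (nat_lit 314) (nat_lit 5) (nat_lit 335) (nat_lit 5) (nat_lit 336) (nat_lit 5) (nat_lit 293) (nat_lit 288) (nat_lit 139))) (XT.nd (nat_lit 94) (nat_lit 0) (nat_lit 84) (XT.lf (nat_lit 84) (nat_lit 62373189) (nat_lit 0) (nat_lit 2703050261)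 (nat_lit 1848) (nat_lit 9848905357) (nat_lit 315) (nat_lit 5) (nat_lit 314) (nat_lit 5) (nat_lit 336) (nat_lit 5) (nat_lit 294) (nat_lit 288) (nat_lit 138)) (XT.lf (nat_lit 0) (nat_lit 3528629710) (nat_lit 1764) (nat_lit 6100019637) (nat_lit 1848) (nat_lit 3117405270) (nat_lit 315) (nat_lit 5) (nat_lit 336) (nat_lit 5) (nat_lit 337) (nat_lit 5) (nat_lit 295) (nat_lit 288) (nat_lit 137)))) (XT.nd (nat_lit 188) (nat_lit 0) (nat_lit 84) (XT.nd (nat_lit 94) (nat_lit 0) (nat_lit 84) (XT.lf (nat_lit 84) (nat_lit 473215602) (nat_lit 0) (nat_lit 3846027243) (nat_lit 1848) (nat_lit 8561201991) (nat_lit 316) (nat_lit 5) (nat_lit 315) (nat_lit 5) (nat_lit 337) (nat_lit 5) (nat_lit 296) (nat_lit 288) (nat_lit 136)) (XT.lf (nat_lit 0) (nat_lit 5175147358) (nat_lit 1764) (nat_lit 5757688301) (nat_lit 1848) (nat_lit 2083902228) (nat_lit 316) (nat_lit 5) (nat_lit 337) (nat_lit 5) (nat_lit 338) (nat_lit 5) (nat_lit 297)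 (nat_lit 288) (nat_lit 135))) (XT.nd (nat_lit 94) (nat_lit 0) (nat_lit 84) (XT.lf (nat_lit 84) (nat_lit 1016937862) (nat_lit 0) (nat_lit 5056261105) (nat_lit 1848) (nat_lit 7082317439) (nat_lit 317) (nat_lit 5) (nat_lit 316) (nat_lit 5) (nat_lit 338) (nat_lit 5) (nat_lit 298) (nat_lit 288) (nat_lit 134)) (XT.lf (nat_lit 0) (nat_lit 7028913330) (nat_lit 1764) (nat_lit 5284970510) (nat_lit 1848) (nat_lit 982630289) (nat_lit 317) (nat_lit 5) (nat_lit 338) (nat_lit 5) (nat_lit 339) (nat_lit 5) (nat_lit 299) (nat_lit 288) (nat_lit 133))))))) (XT.nd (nat_lit 44744) (nat_lit 84) (nat_lit 0) (XT.nd (nat_lit 658) (nat_lit 0) (nat_lit 0) (XT.nd (nat_lit 282) (nat_lit 1596) (nat_lit 0) (XT.nd (nat_lit 94) (nat_lit 0) (nat_lit 0) (XT.lf (nat_lit 84) (nat_lit 1699172964) (nat_lit 0) (nat_lit 6343948745) (nat_lit 1848) (nat_lit 5396667790) (nat_lit 318) (nat_lit 5) (nat_lit 317) (nat_lit 5) (nat_lit 339) (nat_lit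 5) (nat_lit 300) (nat_lit 288) (nat_lit 132)) (XT.nd (nat_lit 94) (nat_lit 0) (nat_lit 84) (XT.lf (nat_lit 84) (nat_lit 8908048545) (nat_lit 0) (nat_lit 199376500) (nat_lit 1848) (nat_lit 4478180670) (nat_lit 318) (nat_lit 5) (nat_lit 317) (nat_lit 5) (nat_lit 339) (nat_lit 5) (nat_lit 301) (nat_lit 288) (nat_lit 131)) (XT.lf (nat_lit 84) (nat_lit 2526012214) (nat_lit 0) (nat_lit 7719447975) (nat_lit 1848) (nat_lit 3488062723) (nat_lit 319) (nat_lit 5) (nat_lit 318) (nat_lit 5) (nat_lit 340) (nat_lit 5) (nat_lit 302) (nat_lit 288) (nat_lit 130)))) (XT.nd (nat_lit 188) (nat_lit 1680) (nat_lit 0) (XT.nd (nat_lit 94) (nat_lit 0) (nat_lit 84) (XT.lf (nat_lit 84) (nat_lit 9948557058) (nat_lit 0) (nat_lit 1485158134) (nat_lit 1848) (nat_lit 2450425066) (nat_lit 319) (nat_lit 5) (nat_lit 318) (nat_lit 5) (nat_lit 340) (nat_lit 5) (nat_lit 303) (nat_lit 288) (nat_lit 129)) (XT.lf (nat_lit 84) (nat_lit 3504015876)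 (nat_lit 0) (nat_lit 9193307147) (nat_lit 1848) (nat_lit 1339665516) (nat_lit 320) (nat_lit 5) (nat_lit 319) (nat_lit 5) (nat_lit 341) (nat_lit 5) (nat_lit 304) (nat_lit 288) (nat_lit 128))) (XT.nd (nat_lit 94) (nat_lit 1764) (nat_lit 0) (XT.lf (nat_lit 84) (nat_lit 11147178841) (nat_lit 0) (nat_lit 2870970586) (nat_lit 1848) (nat_lit 174402833) (nat_lit 320) (nat_lit 5) (nat_lit 319) (nat_lit 5) (nat_lit 341) (nat_lit 5) (nat_lit 305) (nat_lit 288) (nat_lit 127)) (XT.lf (nat_lit 0) (nat_lit 1050693594) (nat_lit 1848) (nat_lit 9717840406) (nat_lit 1932) (nat_lit 3581770634) (nat_lit 298) (nat_lit 5) (nat_lit 320) (nat_lit 5) (nat_lit 321) (nat_lit 5) (nat_lit 306) (nat_lit 288) (nat_lit 126))))) (XT.nd (nat_lit 43710) (nat_lit 0) (nat_lit 1176) (XT.nd (nat_lit 43522) (nat_lit 0) (nat_lit 1176) (XT.nd (nat_lit 94) (nat_lit 0) (nat_lit 84) (XT.lf (nat_lit 0) (nat_lit 2333679218) (nat_lit 1848) (nat_lit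 2016744686) (nat_lit 1932) (nat_lit 10160338630) (nat_lit 298) (nat_lit 5) (nat_lit 320) (nat_lit 5) (nat_lit 321) (nat_lit 5) (nat_lit 307) (nat_lit 288) (nat_lit 125)) (XT.lf (nat_lit 0) (nat_lit 3693358681) (nat_lit 1848) (nat_lit 8758790139) (nat_lit 1932) (nat_lit 2221535388) (nat_lit 299) (nat_lit 5) (nat_lit 321) (nat_lit 5) (nat_lit 322) (nat_lit 5) (nat_lit 308) (nat_lit 288) (nat_lit 124))) (XT.nd (nat_lit 94) (nat_lit 0) (nat_lit 0) (XT.lf (nat_lit 0) (nat_lit 28411914) (nat_lit 0) (nat_lit 28411914) (nat_lit 1764) (nat_lit 5996688411) (nat_lit 312) (nat_lit 5) (nat_lit 312) (nat_lit 3) (nat_lit 333) (nat_lit 3) (nat_lit 289) (nat_lit 289) (nat_lit 142)) (XT.lf (nat_lit 0) (nat_lit 626333288) (nat_lit 1764) (nat_lit 6033508006) (nat_lit 1848) (nat_lit 5569108875) (nat_lit 312) (nat_lit 5) (nat_lit 333) (nat_lit 3) (nat_lit 334) (nat_lit 5) (nat_lit 290) (nat_lit 289) (nat_lit 141)))) (XT.nd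 (nat_lit 188) (nat_lit 0) (nat_lit 84) (XT.nd (nat_lit 94) (nat_lit 0) (nat_lit 84) (XT.lf (nat_lit 84) (nat_lit 109583022) (nat_lit 0) (nat_lit 1028384434) (nat_lit 1848) (nat_lit 11215862037) (nat_lit 313) (nat_lit 5) (nat_lit 312) (nat_lit 5) (nat_lit 334) (nat_lit 5) (nat_lit 291) (nat_lit 289) (nat_lit 140)) (XT.lf (nat_lit 0) (nat_lit 1726178867) (nat_lit 1764) (nat_lit 6043956337) (nat_lit 1848) (nat_lit 4709883891) (nat_lit 313) (nat_lit 5) (nat_lit 334) (nat_lit 5) (nat_lit 335) (nat_lit 5) (nat_lit 292) (nat_lit 289) (nat_lit 139))) (XT.nd (nat_lit 94) (nat_lit 0) (nat_lit 84) (XT.lf (nat_lit 84) (nat_lit 282057413) (nat_lit 0) (nat_lit 2041814337) (nat_lit 1848) (nat_lit 10285189221) (nat_lit 314) (nat_lit 5) (nat_lit 313) (nat_lit 5) (nat_lit 335) (nat_lit 5) (nat_lit 293) (nat_lit 289) (nat_lit 138)) (XT.lf (nat_lit 0) (nat_lit 2994151046) (nat_lit 1764) (nat_lit 5937456787) (nat_lit 1848)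 (nat_lit 3808026317) (nat_lit 314) (nat_lit 5) (nat_lit 335) (nat_lit 5) (nat_lit 336) (nat_lit 5) (nat_lit 294) (nat_lit 289) (nat_lit 137)))))) (XT.nd (nat_lit 658) (nat_lit 1428) (nat_lit 0) (XT.nd (nat_lit 282) (nat_lit 0) (nat_lit 168) (XT.nd (nat_lit 94) (nat_lit 0) (nat_lit 84) (XT.lf (nat_lit 84) (nat_lit 578768239) (nat_lit 0) (nat_lit 3106980324) (nat_lit 1848) (nat_lit 9187186790) (nat_lit 315) (nat_lit 5) (nat_lit 314) (nat_lit 5) (nat_lit 336) (nat_lit 5) (nat_lit 295) (nat_lit 289) (nat_lit 136)) (XT.nd (nat_lit 94) (nat_lit 0) (nat_lit 0) (XT.lf (nat_lit 0) (nat_lit 4444842838) (nat_lit 1764) (nat_lit 5709381304) (nat_lit 1848) (nat_lit 2853794845) (nat_lit 315) (nat_lit 5) (nat_lit 336) (nat_lit 5) (nat_lit 337) (nat_lit 5) (nat_lit 296) (nat_lit 289) (nat_lit 135)) (XT.lf (nat_lit 84) (nat_lit 1004671926) (nat_lit 0) (nat_lit 4233837372) (nat_lit 1848) (nat_lit 7907171977) (nat_lit 316)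 (nat_lit 5) (nat_lit 315) (nat_lit 5) (nat_lit 337) (nat_lit 5) (nat_lit 297) (nat_lit 289) (nat_lit 134)))) (XT.nd (nat_lit 188) (nat_lit 0) (nat_lit 84) (XT.nd (nat_lit 94) (nat_lit 0) (nat_lit 0) (XT.lf (nat_lit 0) (nat_lit 6093387452) (nat_lit 1764) (nat_lit 5354671850) (nat_lit 1848) (nat_lit 1837350308) (nat_lit 316) (nat_lit 5) (nat_lit 337) (nat_lit 5) (nat_lit 338) (nat_lit 5) (nat_lit 298) (nat_lit 289) (nat_lit 133)) (XT.lf (nat_lit 84) (nat_lit 1565167875) (nat_lit 0) (nat_lit 5432458559) (nat_lit 1848) (nat_lit 6429913357) (nat_lit 317) (nat_lit 5) (nat_lit 316) (nat_lit 5) (nat_lit 338) (nat_lit 5) (nat_lit 299) (nat_lit 289) (nat_lit 132))) (XT.nd (nat_lit 94) (nat_lit 0) (nat_lit 0) (XT.lf (nat_lit 0) (nat_lit 7955496311) (nat_lit 1764) (nat_lit 4867832106) (nat_lit 1848) (nat_lit 748726192) (nat_lit 317) (nat_lit 5) (nat_lit 338) (nat_lit 5) (nat_lit 339) (nat_lit 5) (nat_lit 300) (nat_lit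 289) (nat_lit 131)) (XT.lf (nat_lit 84) (nat_lit 2266107410) (nat_lit 0) (nat_lit 6713064741) (nat_lit 1848) (nat_lit 4739592478) (nat_lit 318) (nat_lit 5) (nat_lit 317) (nat_lit 5) (nat_lit 339) (nat_lit 5) (nat_lit 301) (nat_lit 289) (nat_lit 130))))) (XT.nd (nat_lit 376) (nat_lit 1680) (nat_lit 0) (XT.nd (nat_lit 188) (nat_lit 0) (nat_lit 84) (XT.nd (nat_lit 94) (nat_lit 0) (nat_lit 84) (XT.lf (nat_lit 84) (nat_lit 9622178882) (nat_lit 0) (nat_lit 428370536) (nat_lit 1848) (nat_lit 3817598881) (nat_lit 318) (nat_lit 5) (nat_lit 317) (nat_lit 5) (nat_lit 339) (nat_lit 5) (nat_lit 302) (nat_lit 289) (nat_lit 129)) (XT.lf (nat_lit 84) (nat_lit 3113803898) (nat_lit 0) (nat_lit 8086054082) (nat_lit 1848) (nat_lit 2819764486) (nat_lit 319) (nat_lit 5) (nat_lit 318) (nat_lit 5) (nat_lit 340) (nat_lit 5) (nat_lit 303) (nat_lit 289) (nat_lit 128))) (XT.nd (nat_lit 94) (nat_lit 0) (nat_lit 84) (XT.lf (nat_lit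 84) (nat_lit 10688187951) (nat_lit 0) (nat_lit 1710373934) (nat_lit 1848) (nat_lit 1775336749) (nat_lit 319) (nat_lit 5) (nat_lit 318) (nat_lit 5) (nat_lit 340) (nat_lit 5) (nat_lit 304) (nat_lit 289) (nat_lit 127)) (XT.lf (nat_lit 84) (nat_lit 4115044043) (nat_lit 0) (nat_lit 9562031523) (nat_lit 1848) (nat_lit 653317669) (nat_lit 320) (nat_lit 5) (nat_lit 319) (nat_lit 5) (nat_lit 341) (nat_lit 5) (nat_lit 305) (nat_lit 289) (nat_lit 126)))) (XT.nd (nat_lit 188) (nat_lit 0) (nat_lit 84) (XT.nd (nat_lit 94) (nat_lit 0) (nat_lit 84) (XT.lf (nat_lit 0) (nat_lit 514650805) (nat_lit 1848) (nat_lit 2578567831) (nat_lit 1932) (nat_lit 11396410593) (nat_lit 297) (nat_lit 5) (nat_lit 319) (nat_lit 5) (nat_lit 320) (nat_lit 5) (nat_lit 306) (nat_lit 289) (nat_lit 125)) (XT.lf (nat_lit 0) (nat_lit 1751965540) (nat_lit 1848) (nat_lit 9386932140) (nat_lit 1932) (nat_lit 3512194210) (nat_lit 298) (nat_lit 5) (nat_lit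 320) (nat_lit 5) (nat_lit 321) (nat_lit 5) (nat_lit 307) (nat_lit 289) (nat_lit 124))) (XT.nd (nat_lit 43522) (nat_lit 0) (nat_lit 1176) (XT.lf (nat_lit 0) (nat_lit 3048578563) (nat_lit 1848) (nat_lit 1528137770) (nat_lit 1932) (nat_lit 10238684692) (nat_lit 298) (nat_lit 5) (nat_lit 320) (nat_lit 5) (nat_lit 321) (nat_lit 5) (nat_lit 308) (nat_lit 289) (nat_lit 123)) (XT.lf (nat_lit 0) (nat_lit 262951645) (nat_lit 0) (nat_lit 262951645) (nat_lit 1764) (nat_lit 5650493973) (nat_lit 312) (nat_lit 5) (nat_lit 312) (nat_lit 3) (nat_lit 333) (nat_lit 3) (nat_lit 290) (nat_lit 290) (nat_lit 140))))))))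
noncomputable def xc62 : XT := (XT.nd (nat_lit 46342) (nat_lit 84) (nat_lit 0) (XT.nd (nat_lit 1410) (nat_lit 1260) (nat_lit 0) (XT.nd (nat_lit 658) (nat_lit 0) (nat_lit 252) (XT.nd (nat_lit 282) (nat_lit 0) (nat_lit 84) (XT.nd (nat_lit 94) (nat_lit 0) (nat_lit 0) (XT.lf (nat_lit 0) (nat_lit 1552369193) (nat_lit 1764) (nat_lit 5685084431) (nat_lit 1848) (nat_lit 5240463804) (nat_lit 312) (nat_lit 5) (nat_lit 333) (nat_lit 3) (nat_lit 334) (nat_lit 5) (nat_lit 291) (nat_lit 290) (nat_lit 139)) (XT.nd (nat_lit 94) (nat_lit 0) (nat_lit 84) (XT.lf (nat_lit 84) (nat_lit 589677091) (nat_lit 0) (nat_lit 1469347256) (nat_lit 1848) (nat_lit 10546876920) (nat_lit 313) (nat_lit 5) (nat_lit 312) (nat_lit 5) (nat_lit 334) (nat_lit 5) (nat_lit 292) (nat_lit 290) (nat_lit 138)) (XT.lf (nat_lit 0) (nat_lit 2637972497) (nat_lit 1764) (nat_lit 5687319031) (nat_lit 1848) (nat_lit 4410063999) (nat_lit 313) (nat_lit 5) (nat_lit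 334) (nat_lit 5) (nat_lit 335) (nat_lit 5) (nat_lit 293) (nat_lit 290) (nat_lit 137)))) (XT.nd (nat_lit 188) (nat_lit 0) (nat_lit 84) (XT.nd (nat_lit 94) (nat_lit 0) (nat_lit 84) (XT.lf (nat_lit 84) (nat_lit 774328488) (nat_lit 0) (nat_lit 2459138331) (nat_lit 1848) (nat_lit 9634107156) (nat_lit 314) (nat_lit 5) (nat_lit 313) (nat_lit 5) (nat_lit 335) (nat_lit 5) (nat_lit 294) (nat_lit 290) (nat_lit 136)) (XT.lf (nat_lit 0) (nat_lit 3897416858) (nat_lit 1764) (nat_lit 5571402880) (nat_lit 1848) (nat_lit 3532663684) (nat_lit 314) (nat_lit 5) (nat_lit 335) (nat_lit 5) (nat_lit 336) (nat_lit 5) (nat_lit 295) (nat_lit 290) (nat_lit 135))) (XT.nd (nat_lit 94) (nat_lit 0) (nat_lit 84) (XT.lf (nat_lit 84) (nat_lit 1084589440) (nat_lit 0) (nat_lit 3505126361) (nat_lit 1848) (nat_lit 8548320753) (nat_lit 315) (nat_lit 5) (nat_lit 314) (nat_lit 5) (nat_lit 336) (nat_lit 5) (nat_lit 296) (nat_lit 290) (nat_lit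 134)) (XT.lf (nat_lit 0) (nat_lit 5345497853) (nat_lit 1764) (nat_lit 5332501522) (nat_lit 1848) (nat_lit 2598532923) (nat_lit 315) (nat_lit 5) (nat_lit 336) (nat_lit 5) (nat_lit 337) (nat_lit 5) (nat_lit 297) (nat_lit 290) (nat_lit 133))))) (XT.nd (nat_lit 376) (nat_lit 0) (nat_lit 168) (XT.nd (nat_lit 188) (nat_lit 0) (nat_lit 84) (XT.nd (nat_lit 94) (nat_lit 0) (nat_lit 84) (XT.lf (nat_lit 84) (nat_lit 1525629244) (nat_lit 0) (nat_lit 4617266307) (nat_lit 1848) (nat_lit 7274629652) (nat_lit 316) (nat_lit 5) (nat_lit 315) (nat_lit 5) (nat_lit 337) (nat_lit 5) (nat_lit 298) (nat_lit 290) (nat_lit 132)) (XT.lf (nat_lit 0) (nat_lit 6997570433) (nat_lit 1764) (nat_lit 4965348055) (nat_lit 1848) (nat_lit 1597827307) (nat_lit 316) (nat_lit 5) (nat_lit 337) (nat_lit 5) (nat_lit 338) (nat_lit 5) (nat_lit 299) (nat_lit 290) (nat_lit 131))) (XT.nd (nat_lit 94) (nat_lit 0) (nat_lit 84) (XT.lf (nat_lit 84) (nat_lit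 2103062971) (nat_lit 0) (nat_lit 5805647868) (nat_lit 1848) (nat_lit 5797577821) (nat_lit 317) (nat_lit 5) (nat_lit 316) (nat_lit 5) (nat_lit 338) (nat_lit 5) (nat_lit 300) (nat_lit 290) (nat_lit 130)) (XT.lf (nat_lit 0) (nat_lit 8869587323) (nat_lit 1764) (nat_lit 4464234200) (nat_lit 1848) (nat_lit 520558745) (nat_lit 317) (nat_lit 5) (nat_lit 338) (nat_lit 5) (nat_lit 339) (nat_lit 5) (nat_lit 301) (nat_lit 290) (nat_lit 129)))) (XT.nd (nat_lit 188) (nat_lit 0) (nat_lit 84) (XT.nd (nat_lit 94) (nat_lit 0) (nat_lit 0) (XT.lf (nat_lit 84) (nat_lit 2822961057) (nat_lit 0) (nat_lit 7080524918) (nat_lit 1848) (nat_lit 4101102491) (nat_lit 318) (nat_lit 5) (nat_lit 317) (nat_lit 5) (nat_lit 339) (nat_lit 5) (nat_lit 302) (nat_lit 290) (nat_lit 128)) (XT.lf (nat_lit 84) (nat_lit 10329952223) (nat_lit 0) (nat_lit 652836520) (nat_lit 1848) (nat_lit 3174814019) (nat_lit 318) (nat_lit 5) (nat_lit 317) (nat_lit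 5) (nat_lit 339) (nat_lit 5) (nat_lit 303) (nat_lit 290) (nat_lit 127))) (XT.nd (nat_lit 94) (nat_lit 0) (nat_lit 0) (XT.lf (nat_lit 84) (nat_lit 3691860068) (nat_lit 0) (nat_lit 8452344846) (nat_lit 1848) (nat_lit 2168494346) (nat_lit 319) (nat_lit 5) (nat_lit 318) (nat_lit 5) (nat_lit 340) (nat_lit 5) (nat_lit 304) (nat_lit 290) (nat_lit 126)) (XT.lf (nat_lit 84) (nat_lit 11421911729) (nat_lit 0) (nat_lit 1932344210) (nat_lit 1848) (nat_lit 1116444100) (nat_lit 319) (nat_lit 5) (nat_lit 318) (nat_lit 5) (nat_lit 340) (nat_lit 5) (nat_lit 305) (nat_lit 290) (nat_lit 125)))))) (XT.nd (nat_lit 44180) (nat_lit 0) (nat_lit 1344) (XT.nd (nat_lit 43804) (nat_lit 0) (nat_lit 1260) (XT.nd (nat_lit 94) (nat_lit 0) (nat_lit 0) (XT.lf (nat_lit 0) (nat_lit 17389306) (nat_lit 1848) (nat_lit 9914260151) (nat_lit 1932) (nat_lit 4699256876) (nat_lit 297) (nat_lit 5) (nat_lit 319) (nat_lit 5) (nat_lit 320) (nat_lit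 5) (nat_lit 306) (nat_lit 290) (nat_lit 124)) (XT.nd (nat_lit 94) (nat_lit 0) (nat_lit 84) (XT.lf (nat_lit 0) (nat_lit 1186895916) (nat_lit 1848) (nat_lit 2125442501) (nat_lit 1932) (nat_lit 11481522354) (nat_lit 297) (nat_lit 5) (nat_lit 319) (nat_lit 5) (nat_lit 320) (nat_lit 5) (nat_lit 307) (nat_lit 290) (nat_lit 123)) (XT.lf (nat_lit 0) (nat_lit 2439783147) (nat_lit 1848) (nat_lit 9071942398) (nat_lit 1932) (nat_lit 3447406330) (nat_lit 298) (nat_lit 5) (nat_lit 320) (nat_lit 5) (nat_lit 321) (nat_lit 5) (nat_lit 308) (nat_lit 290) (nat_lit 122)))) (XT.nd (nat_lit 188) (nat_lit 0) (nat_lit 0) (XT.nd (nat_lit 94) (nat_lit 0) (nat_lit 0) (XT.lf (nat_lit 0) (nat_lit 492688953) (nat_lit 0) (nat_lit 492688953) (nat_lit 1764) (nat_lit 5317046192) (nat_lit 312) (nat_lit 5) (nat_lit 312) (nat_lit 3) (nat_lit 333) (nat_lit 3) (nat_lit 291) (nat_lit 291) (nat_lit 138)) (XT.lf (nat_lit 0) (nat_lit 2459925382)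 (nat_lit 1764) (nat_lit 5349487909) (nat_lit 1848) (nat_lit 4923803430) (nat_lit 312) (nat_lit 5) (nat_lit 333) (nat_lit 3) (nat_lit 334) (nat_lit 5) (nat_lit 292) (nat_lit 291) (nat_lit 137))) (XT.nd (nat_lit 94) (nat_lit 0) (nat_lit 84) (XT.lf (nat_lit 84) (nat_lit 1059988963) (nat_lit 0) (nat_lit 1902194458) (nat_lit 1848) (nat_lit 9902174742) (nat_lit 313) (nat_lit 5) (nat_lit 312) (nat_lit 5) (nat_lit 334) (nat_lit 5) (nat_lit 293) (nat_lit 291) (nat_lit 136)) (XT.lf (nat_lit 0) (nat_lit 3532610170) (nat_lit 1764) (nat_lit 5343687685) (nat_lit 1848) (nat_lit 4120830243) (nat_lit 313) (nat_lit 5) (nat_lit 334) (nat_lit 5) (nat_lit 335) (nat_lit 5) (nat_lit 294) (nat_lit 291) (nat_lit 135))))) (XT.nd (nat_lit 376) (nat_lit 0) (nat_lit 168) (XT.nd (nat_lit 188) (nat_lit 0) (nat_lit 84) (XT.nd (nat_lit 94) (nat_lit 0) (nat_lit 84) (XT.lf (nat_lit 84) (nat_lit 1256728250) (nat_lit 0) (nat_lit 2869782967)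 (nat_lit 1848) (nat_lit 9006067406) (nat_lit 314) (nat_lit 5) (nat_lit 313) (nat_lit 5) (nat_lit 335) (nat_lit 5) (nat_lit 295) (nat_lit 291) (nat_lit 134)) (XT.lf (nat_lit 0) (nat_lit 4784890347) (nat_lit 1764) (nat_lit 5218449028) (nat_lit 1848) (nat_lit 3266538615) (nat_lit 314) (nat_lit 5) (nat_lit 335) (nat_lit 5) (nat_lit 336) (nat_lit 5) (nat_lit 296) (nat_lit 291) (nat_lit 133))) (XT.nd (nat_lit 94) (nat_lit 0) (nat_lit 84) (XT.lf (nat_lit 84) (nat_lit 1580538347) (nat_lit 0) (nat_lit 3897985930) (nat_lit 1848) (nat_lit 7931216717) (nat_lit 315) (nat_lit 5) (nat_lit 314) (nat_lit 5) (nat_lit 336) (nat_lit 5) (nat_lit 297) (nat_lit 291) (nat_lit 132)) (XT.lf (nat_lit 0) (nat_lit 6231773551) (nat_lit 1764) (nat_lit 4968730995) (nat_lit 1848) (nat_lit 2351200617) (nat_lit 315) (nat_lit 5) (nat_lit 336) (nat_lit 5) (nat_lit 337) (nat_lit 5) (nat_lit 298) (nat_lit 291) (nat_lit 131)))) (XT.nd (nat_lit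 188) (nat_lit 0) (nat_lit 84) (XT.nd (nat_lit 94) (nat_lit 0) (nat_lit 84) (XT.lf (nat_lit 84) (nat_lit 2036801682) (nat_lit 0) (nat_lit 4996767620) (nat_lit 1848) (nat_lit 6662519794) (nat_lit 316) (nat_lit 5) (nat_lit 315) (nat_lit 5) (nat_lit 337) (nat_lit 5) (nat_lit 299) (nat_lit 291) (nat_lit 130)) (XT.lf (nat_lit 0) (nat_lit 7888846092) (nat_lit 1764) (nat_lit 4589057380) (nat_lit 1848) (nat_lit 1364957490) (nat_lit 316) (nat_lit 5) (nat_lit 337) (nat_lit 5) (nat_lit 338) (nat_lit 5) (nat_lit 300) (nat_lit 291) (nat_lit 129))) (XT.nd (nat_lit 94) (nat_lit 0) (nat_lit 84) (XT.lf (nat_lit 84) (nat_lit 2631349615) (nat_lit 0) (nat_lit 6176243454) (nat_lit 1848) (nat_lit 5184286349) (nat_lit 317) (nat_lit 5) (nat_lit 316) (nat_lit 5) (nat_lit 338) (nat_lit 5) (nat_lit 301) (nat_lit 291) (nat_lit 128)) (XT.lf (nat_lit 0) (nat_lit 9772311749) (nat_lit 1764) (nat_lit 4073507155) (nat_lit 1848) (nat_lit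 297790672) (nat_lit 317) (nat_lit 5) (nat_lit 338) (nat_lit 5) (nat_lit 339) (nat_lit 5) (nat_lit 302) (nat_lit 291) (nat_lit 127))))))) (XT.nd (nat_lit 45120) (nat_lit 84) (nat_lit 0) (XT.nd (nat_lit 44368) (nat_lit 0) (nat_lit 1260) (XT.nd (nat_lit 282) (nat_lit 1680) (nat_lit 0) (XT.nd (nat_lit 94) (nat_lit 0) (nat_lit 0) (XT.lf (nat_lit 84) (nat_lit 3370472664) (nat_lit 0) (nat_lit 7446709218) (nat_lit 1848) (nat_lit 3480199509) (nat_lit 318) (nat_lit 5) (nat_lit 317) (nat_lit 5) (nat_lit 339) (nat_lit 5) (nat_lit 303) (nat_lit 291) (nat_lit 126)) (XT.nd (nat_lit 94) (nat_lit 0) (nat_lit 84) (XT.lf (nat_lit 84) (nat_lit 11032168572) (nat_lit 0) (nat_lit 873082242) (nat_lit 1848) (nat_lit 2548840713) (nat_lit 318) (nat_lit 5) (nat_lit 317) (nat_lit 5) (nat_lit 339) (nat_lit 5) (nat_lit 304) (nat_lit 291) (nat_lit 125)) (XT.lf (nat_lit 84) (nat_lit 4260931912) (nat_lit 0) (nat_lit 8818670258) (nat_lit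 1848) (nat_lit 1533275529) (nat_lit 319) (nat_lit 5) (nat_lit 318) (nat_lit 5) (nat_lit 340) (nat_lit 5) (nat_lit 305) (nat_lit 291) (nat_lit 124)))) (XT.nd (nat_lit 43898) (nat_lit 0) (nat_lit 1260) (XT.nd (nat_lit 94) (nat_lit 1764) (nat_lit 0) (XT.lf (nat_lit 84) (nat_lit 12150543026) (nat_lit 0) (nat_lit 2151346806) (nat_lit 1848) (nat_lit 472781122) (nat_lit 319) (nat_lit 5) (nat_lit 318) (nat_lit 5) (nat_lit 340) (nat_lit 5) (nat_lit 306) (nat_lit 291) (nat_lit 123)) (XT.lf (nat_lit 0) (nat_lit 664467363) (nat_lit 1848) (nat_lit 9633495379) (nat_lit 1932) (nat_lit 4640596230) (nat_lit 297) (nat_lit 5) (nat_lit 319) (nat_lit 5) (nat_lit 320) (nat_lit 5) (nat_lit 307) (nat_lit 291) (nat_lit 122))) (XT.nd (nat_lit 94) (nat_lit 0) (nat_lit 0) (XT.lf (nat_lit 0) (nat_lit 717942473) (nat_lit 0) (nat_lit 717942473) (nat_lit 1764) (nat_lit 4995758250) (nat_lit 312) (nat_lit 5) (nat_lit 312) (nat_lit 3)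 (nat_lit 333) (nat_lit 3) (nat_lit 292) (nat_lit 292) (nat_lit 136)) (XT.lf (nat_lit 0) (nat_lit 3350250007) (nat_lit 1764) (nat_lit 5026127877) (nat_lit 1848) (nat_lit 4618573067) (nat_lit 312) (nat_lit 5) (nat_lit 333) (nat_lit 3) (nat_lit 334) (nat_lit 5) (nat_lit 293) (nat_lit 292) (nat_lit 135))))) (XT.nd (nat_lit 376) (nat_lit 0) (nat_lit 168) (XT.nd (nat_lit 188) (nat_lit 0) (nat_lit 84) (XT.nd (nat_lit 94) (nat_lit 0) (nat_lit 84) (XT.lf (nat_lit 84) (nat_lit 1521169880) (nat_lit 0) (nat_lit 2327506305) (nat_lit 1848) (nat_lit 9280628714) (nat_lit 313) (nat_lit 5) (nat_lit 312) (nat_lit 5) (nat_lit 334) (nat_lit 5) (nat_lit 294) (nat_lit 292) (nat_lit 134)) (XT.lf (nat_lit 0) (nat_lit 4411299441) (nat_lit 1764) (nat_lit 5012460355) (nat_lit 1848) (nat_lit 3841683740) (nat_lit 313) (nat_lit 5) (nat_lit 334) (nat_lit 5) (nat_lit 335) (nat_lit 5) (nat_lit 295) (nat_lit 292) (nat_lit 133))) (XT.nd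 (nat_lit 94) (nat_lit 0) (nat_lit 84) (XT.lf (nat_lit 84) (nat_lit 1729921187) (nat_lit 0) (nat_lit 3274276790) (nat_lit 1848) (nat_lit 8399985498) (nat_lit 314) (nat_lit 5) (nat_lit 313) (nat_lit 5) (nat_lit 335) (nat_lit 5) (nat_lit 296) (nat_lit 292) (nat_lit 132)) (XT.lf (nat_lit 0) (nat_lit 5657742998) (nat_lit 1764) (nat_lit 4877982529) (nat_lit 1848) (nat_lit 3009202908) (nat_lit 314) (nat_lit 5) (nat_lit 335) (nat_lit 5) (nat_lit 336) (nat_lit 5) (nat_lit 297) (nat_lit 292) (nat_lit 131)))) (XT.nd (nat_lit 188) (nat_lit 0) (nat_lit 84) (XT.nd (nat_lit 94) (nat_lit 0) (nat_lit 84) (XT.lf (nat_lit 84) (nat_lit 2067292164) (nat_lit 0) (nat_lit 4286040927) (nat_lit 1848) (nat_lit 7334828016) (nat_lit 315) (nat_lit 5) (nat_lit 314) (nat_lit 5) (nat_lit 336) (nat_lit 5) (nat_lit 298) (nat_lit 292) (nat_lit 130)) (XT.lf (nat_lit 0) (nat_lit 7104809880) (nat_lit 1764) (nat_lit 4617446687) (nat_lit 1848)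 (nat_lit 2111395490) (nat_lit 315) (nat_lit 5) (nat_lit 336) (nat_lit 5) (nat_lit 337) (nat_lit 5) (nat_lit 299) (nat_lit 292) (nat_lit 129))) (XT.nd (nat_lit 94) (nat_lit 0) (nat_lit 84) (XT.lf (nat_lit 84) (nat_lit 2538878827) (nat_lit 0) (nat_lit 5372781441) (nat_lit 1848) (nat_lit 6069829036) (nat_lit 316) (nat_lit 5) (nat_lit 315) (nat_lit 5) (nat_lit 337) (nat_lit 5) (nat_lit 300) (nat_lit 292) (nat_lit 128)) (XT.lf (nat_lit 0) (nat_lit 8768327374) (nat_lit 1764) (nat_lit 4225166694) (nat_lit 1848) (nat_lit 1138379449) (nat_lit 316) (nat_lit 5) (nat_lit 337) (nat_lit 5) (nat_lit 338) (nat_lit 5) (nat_lit 301) (nat_lit 292) (nat_lit 127)))))) (XT.nd (nat_lit 44462) (nat_lit 0) (nat_lit 1344) (XT.nd (nat_lit 282) (nat_lit 1680) (nat_lit 0) (XT.nd (nat_lit 94) (nat_lit 0) (nat_lit 84) (XT.lf (nat_lit 84) (nat_lit 3150729629) (nat_lit 0) (nat_lit 6544648386) (nat_lit 1848) (nat_lit 4589054356) (nat_lit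 317) (nat_lit 5) (nat_lit 316) (nat_lit 5) (nat_lit 338) (nat_lit 5) (nat_lit 302) (nat_lit 292) (nat_lit 126)) (XT.nd (nat_lit 94) (nat_lit 0) (nat_lit 0) (XT.lf (nat_lit 0) (nat_lit 10664760092) (nat_lit 1764) (nat_lit 3695007811) (nat_lit 1848) (nat_lit 80097019) (nat_lit 317) (nat_lit 5) (nat_lit 338) (nat_lit 5) (nat_lit 339) (nat_lit 5) (nat_lit 303) (nat_lit 292) (nat_lit 125)) (XT.lf (nat_lit 84) (nat_lit 3909356331) (nat_lit 0) (nat_lit 7811988208) (nat_lit 1848) (nat_lit 2875923179) (nat_lit 318) (nat_lit 5) (nat_lit 317) (nat_lit 5) (nat_lit 339) (nat_lit 5) (nat_lit 304) (nat_lit 292) (nat_lit 124)))) (XT.nd (nat_lit 188) (nat_lit 1764) (nat_lit 0) (XT.nd (nat_lit 94) (nat_lit 0) (nat_lit 84) (XT.lf (nat_lit 84) (nat_lit 11729605506) (nat_lit 0) (nat_lit 1089404912) (nat_lit 1848) (nat_lit 1938730552) (nat_lit 318) (nat_lit 5) (nat_lit 317) (nat_lit 5) (nat_lit 339) (nat_lit 5) (nat_lit 305)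 (nat_lit 292) (nat_lit 123)) (XT.lf (nat_lit 84) (nat_lit 4821746034) (nat_lit 0) (nat_lit 9185372807) (nat_lit 1848) (nat_lit 913167329) (nat_lit 319) (nat_lit 5) (nat_lit 318) (nat_lit 5) (nat_lit 340) (nat_lit 5) (nat_lit 306) (nat_lit 292) (nat_lit 122))) (XT.nd (nat_lit 43898) (nat_lit 0) (nat_lit 1344) (XT.lf (nat_lit 0) (nat_lit 154327820) (nat_lit 1848) (nat_lit 2212183065) (nat_lit 1932) (nat_lit 12719406434) (nat_lit 296) (nat_lit 5) (nat_lit 318) (nat_lit 5) (nat_lit 319) (nat_lit 5) (nat_lit 307) (nat_lit 292) (nat_lit 121)) (XT.lf (nat_lit 0) (nat_lit 939019781) (nat_lit 0) (nat_lit 939019781) (nat_lit 1764) (nat_lit 4686067352) (nat_lit 312) (nat_lit 5) (nat_lit 312) (nat_lit 3) (nat_lit 333) (nat_lit 3) (nat_lit 293) (nat_lit 293) (nat_lit 134))))) (XT.nd (nat_lit 376) (nat_lit 0) (nat_lit 168) (XT.nd (nat_lit 188) (nat_lit 0) (nat_lit 84) (XT.nd (nat_lit 94) (nat_lit 0) (nat_lit 0) (XT.lf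 (nat_lit 0) (nat_lit 4224548209) (nat_lit 1764) (nat_lit 4714437950) (nat_lit 1848) (nat_lit 4324240675) (nat_lit 312) (nat_lit 5) (nat_lit 333) (nat_lit 3) (nat_lit 334) (nat_lit 5) (nat_lit 294) (nat_lit 293) (nat_lit 133)) (XT.lf (nat_lit 84) (nat_lit 1973848510) (nat_lit 0) (nat_lit 2745843511) (nat_lit 1848) (nat_lit 8681157997) (nat_lit 313) (nat_lit 5) (nat_lit 312) (nat_lit 5) (nat_lit 334) (nat_lit 5) (nat_lit 295) (nat_lit 293) (nat_lit 132))) (XT.nd (nat_lit 94) (nat_lit 0) (nat_lit 0) (XT.lf (nat_lit 0) (nat_lit 5275206924) (nat_lit 1764) (nat_lit 4693059678) (nat_lit 1848) (nat_lit 3572145796) (nat_lit 313) (nat_lit 5) (nat_lit 334) (nat_lit 5) (nat_lit 335) (nat_lit 5) (nat_lit 296) (nat_lit 293) (nat_lit 131)) (XT.lf (nat_lit 84) (nat_lit 2194548856) (nat_lit 0) (nat_lit 3673131202) (nat_lit 1848) (nat_lit 7814820881) (nat_lit 314) (nat_lit 5) (nat_lit 313) (nat_lit 5) (nat_lit 335) (nat_lit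 5) (nat_lit 297) (nat_lit 293) (nat_lit 130)))) (XT.nd (nat_lit 188) (nat_lit 0) (nat_lit 84) (XT.nd (nat_lit 94) (nat_lit 0) (nat_lit 0) (XT.lf (nat_lit 0) (nat_lit 6517107382) (nat_lit 1764) (nat_lit 4549415566) (nat_lit 1848) (nat_lit 2760226244) (nat_lit 314) (nat_lit 5) (nat_lit 335) (nat_lit 5) (nat_lit 336) (nat_lit 5) (nat_lit 298) (nat_lit 293) (nat_lit 129)) (XT.lf (nat_lit 84) (nat_lit 2545504901) (nat_lit 0) (nat_lit 4669758373) (nat_lit 1848) (nat_lit 6758149927) (nat_lit 315) (nat_lit 5) (nat_lit 314) (nat_lit 5) (nat_lit 336) (nat_lit 5) (nat_lit 299) (nat_lit 293) (nat_lit 128))) (XT.nd (nat_lit 94) (nat_lit 0) (nat_lit 0) (XT.lf (nat_lit 0) (nat_lit 7965709842) (nat_lit 1764) (nat_lit 4278050671) (nat_lit 1848) (nat_lit 1878730819) (nat_lit 315) (nat_lit 5) (nat_lit 336) (nat_lit 5) (nat_lit 337) (nat_lit 5) (nat_lit 300) (nat_lit 293) (nat_lit 127)) (XT.lf (nat_lit 84) (nat_lit 3032526896)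 (nat_lit 0) (nat_lit 5745735154) (nat_lit 1848) (nat_lit 5495584022) (nat_lit 316) (nat_lit 5) (nat_lit 315) (nat_lit 5) (nat_lit 337) (nat_lit 5) (nat_lit 301) (nat_lit 293) (nat_lit 126))))))))
noncomputable def xc63 : XT := (XT.nd (nat_lit 135172) (nat_lit 0) (nat_lit 0) (XT.nd (nat_lit 45402) (nat_lit 0) (nat_lit 0) (XT.nd (nat_lit 44650) (nat_lit 0) (nat_lit 0) (XT.nd (nat_lit 282) (nat_lit 336) (nat_lit 0) (XT.nd (nat_lit 94) (nat_lit 0) (nat_lit 0) (XT.lf (nat_lit 0) (nat_lit 9637092214) (nat_lit 1764) (nat_lit 3873068118) (nat_lit 1848) (nat_lit 917745446) (nat_lit 316) (nat_lit 5) (nat_lit 337) (nat_lit 5) (nat_lit 338) (nat_lit 5) (nat_lit 302) (nat_lit 293) (nat_lit 125)) (XT.nd (nat_lit 94) (nat_lit 0) (nat_lit 0) (XT.lf (nat_lit 84) (nat_lit 3661881384) (nat_lit 0) (nat_lit 6911255005) (nat_lit 1848) (nat_lit 4010935373) (nat_lit 317) (nat_lit 5) (nat_lit 316) (nat_lit 5) (nat_lit 338) (nat_lit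 5) (nat_lit 303) (nat_lit 293) (nat_lit 124)) (XT.lf (nat_lit 84) (nat_lit 11414173171) (nat_lit 0) (nat_lit 134776632) (nat_lit 1848) (nat_lit 3194301718) (nat_lit 317) (nat_lit 5) (nat_lit 316) (nat_lit 5) (nat_lit 338) (nat_lit 5) (nat_lit 304) (nat_lit 293) (nat_lit 123)))) (XT.nd (nat_lit 44180) (nat_lit 420) (nat_lit 0) (XT.nd (nat_lit 94) (nat_lit 0) (nat_lit 0) (XT.lf (nat_lit 84) (nat_lit 4440302704) (nat_lit 0) (nat_lit 8176723633) (nat_lit 1848) (nat_lit 2287349402) (nat_lit 318) (nat_lit 5) (nat_lit 317) (nat_lit 5) (nat_lit 339) (nat_lit 5) (nat_lit 305) (nat_lit 293) (nat_lit 122)) (XT.lf (nat_lit 84) (nat_lit 12423019385) (nat_lit 0) (nat_lit 1302091668) (nat_lit 1848) (nat_lit 1343570406) (nat_lit 318) (nat_lit 5) (nat_lit 317) (nat_lit 5) (nat_lit 339) (nat_lit 5) (nat_lit 306) (nat_lit 293) (nat_lit 121))) (XT.nd (nat_lit 94) (nat_lit 0) (nat_lit 0) (XT.lf (nat_lit 0) (nat_lit 1156217917)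 (nat_lit 0) (nat_lit 1156217917) (nat_lit 1764) (nat_lit 4387433685) (nat_lit 312) (nat_lit 5) (nat_lit 312) (nat_lit 3) (nat_lit 333) (nat_lit 3) (nat_lit 294) (nat_lit 294) (nat_lit 132)) (XT.lf (nat_lit 0) (nat_lit 5083984167) (nat_lit 1764) (nat_lit 4413874867) (nat_lit 1848) (nat_lit 4040295880) (nat_lit 312) (nat_lit 5) (nat_lit 333) (nat_lit 3) (nat_lit 334) (nat_lit 5) (nat_lit 295) (nat_lit 294) (nat_lit 131))))) (XT.nd (nat_lit 376) (nat_lit 0) (nat_lit 168) (XT.nd (nat_lit 188) (nat_lit 0) (nat_lit 84) (XT.nd (nat_lit 94) (nat_lit 0) (nat_lit 84) (XT.lf (nat_lit 84) (nat_lit 2418632024) (nat_lit 0) (nat_lit 3157748181) (nat_lit 1848) (nat_lit 8102725704) (nat_lit 313) (nat_lit 5) (nat_lit 312) (nat_lit 5) (nat_lit 334) (nat_lit 5) (nat_lit 296) (nat_lit 294) (nat_lit 130)) (XT.lf (nat_lit 0) (nat_lit 6125460273) (nat_lit 1764) (nat_lit 4384931800) (nat_lit 1848) (nat_lit 3311757024) (nat_lit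 313) (nat_lit 5) (nat_lit 334) (nat_lit 5) (nat_lit 335) (nat_lit 5) (nat_lit 297) (nat_lit 294) (nat_lit 129))) (XT.nd (nat_lit 94) (nat_lit 0) (nat_lit 84) (XT.lf (nat_lit 84) (nat_lit 2651230977) (nat_lit 0) (nat_lit 4066841312) (nat_lit 1848) (nat_lit 7249574999) (nat_lit 314) (nat_lit 5) (nat_lit 313) (nat_lit 5) (nat_lit 335) (nat_lit 5) (nat_lit 298) (nat_lit 294) (nat_lit 128)) (XT.lf (nat_lit 0) (nat_lit 7364079048) (nat_lit 1764) (nat_lit 4232184131) (nat_lit 1848) (nat_lit 2519195399) (nat_lit 314) (nat_lit 5) (nat_lit 335) (nat_lit 5) (nat_lit 336) (nat_lit 5) (nat_lit 299) (nat_lit 294) (nat_lit 127)))) (XT.nd (nat_lit 188) (nat_lit 0) (nat_lit 84) (XT.nd (nat_lit 94) (nat_lit 0) (nat_lit 84) (XT.lf (nat_lit 84) (nat_lit 3015808487) (nat_lit 0) (nat_lit 5049591170) (nat_lit 1848) (nat_lit 6200217821) (nat_lit 315) (nat_lit 5) (nat_lit 314) (nat_lit 5) (nat_lit 336) (nat_lit 5) (nat_lit 300)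 (nat_lit 294) (nat_lit 126)) (XT.lf (nat_lit 0) (nat_lit 8815541325) (nat_lit 1764) (nat_lit 3949969032) (nat_lit 1848) (nat_lit 1652834895) (nat_lit 315) (nat_lit 5) (nat_lit 336) (nat_lit 5) (nat_lit 337) (nat_lit 5) (nat_lit 301) (nat_lit 294) (nat_lit 125))) (XT.nd (nat_lit 94) (nat_lit 0) (nat_lit 84) (XT.lf (nat_lit 84) (nat_lit 3518389871) (nat_lit 0) (nat_lit 6116044079) (nat_lit 1848) (nat_lit 4938849633) (nat_lit 316) (nat_lit 5) (nat_lit 315) (nat_lit 5) (nat_lit 337) (nat_lit 5) (nat_lit 302) (nat_lit 294) (nat_lit 124)) (XT.lf (nat_lit 0) (nat_lit 10496185305) (nat_lit 1764) (nat_lit 3532177903) (nat_lit 1848) (nat_lit 702720801) (nat_lit 316) (nat_lit 5) (nat_lit 337) (nat_lit 5) (nat_lit 338) (nat_lit 5) (nat_lit 303) (nat_lit 294) (nat_lit 123)))))) (XT.nd (nat_lit 44744) (nat_lit 0) (nat_lit 0) (XT.nd (nat_lit 44368) (nat_lit 336) (nat_lit 0) (XT.nd (nat_lit 94) (nat_lit 0) (nat_lit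 0) (XT.lf (nat_lit 84) (nat_lit 4165460937) (nat_lit 0) (nat_lit 7276445521) (nat_lit 1848) (nat_lit 3449019339) (nat_lit 317) (nat_lit 5) (nat_lit 316) (nat_lit 5) (nat_lit 338) (nat_lit 5) (nat_lit 304) (nat_lit 294) (nat_lit 122)) (XT.nd (nat_lit 94) (nat_lit 0) (nat_lit 84) (XT.lf (nat_lit 84) (nat_lit 12079197078) (nat_lit 0) (nat_lit 346296420) (nat_lit 1848) (nat_lit 2628415287) (nat_lit 317) (nat_lit 5) (nat_lit 316) (nat_lit 5) (nat_lit 338) (nat_lit 5) (nat_lit 305) (nat_lit 294) (nat_lit 121)) (XT.lf (nat_lit 84) (nat_lit 4963980124) (nat_lit 0) (nat_lit 8541268938) (nat_lit 1848) (nat_lit 1713588684) (nat_lit 318) (nat_lit 5) (nat_lit 317) (nat_lit 5) (nat_lit 339) (nat_lit 5) (nat_lit 306) (nat_lit 294) (nat_lit 120)))) (XT.nd (nat_lit 188) (nat_lit 0) (nat_lit 0) (XT.nd (nat_lit 94) (nat_lit 0) (nat_lit 0) (XT.lf (nat_lit 0) (nat_lit 1369823895) (nat_lit 0) (nat_lit 1369823895) (nat_lit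 1764) (nat_lit 4099339415) (nat_lit 312) (nat_lit 5) (nat_lit 312) (nat_lit 3) (nat_lit 333) (nat_lit 3) (nat_lit 295) (nat_lit 295) (nat_lit 130)) (XT.lf (nat_lit 0) (nat_lit 5929683077) (nat_lit 1764) (nat_lit 4123917490) (nat_lit 1848) (nat_lit 3766249027) (nat_lit 312) (nat_lit 5) (nat_lit 333) (nat_lit 3) (nat_lit 334) (nat_lit 5) (nat_lit 296) (nat_lit 295) (nat_lit 129))) (XT.nd (nat_lit 94) (nat_lit 0) (nat_lit 84) (XT.lf (nat_lit 84) (nat_lit 2856107122) (nat_lit 0) (nat_lit 3563744728) (nat_lit 1848) (nat_lit 7544336981) (nat_lit 313) (nat_lit 5) (nat_lit 312) (nat_lit 5) (nat_lit 334) (nat_lit 5) (nat_lit 297) (nat_lit 295) (nat_lit 128)) (XT.lf (nat_lit 0) (nat_lit 6963150072) (nat_lit 1764) (nat_lit 4087545352) (nat_lit 1848) (nat_lit 3060076501) (nat_lit 313) (nat_lit 5) (nat_lit 334) (nat_lit 5) (nat_lit 335) (nat_lit 5) (nat_lit 298) (nat_lit 295) (nat_lit 127))))) (XT.nd (nat_lit 376)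 (nat_lit 84) (nat_lit 0) (XT.nd (nat_lit 188) (nat_lit 0) (nat_lit 84) (XT.nd (nat_lit 94) (nat_lit 0) (nat_lit 84) (XT.lf (nat_lit 84) (nat_lit 3100566485) (nat_lit 0) (nat_lit 4455886754) (nat_lit 1848) (nat_lit 6703289455) (nat_lit 314) (nat_lit 5) (nat_lit 313) (nat_lit 5) (nat_lit 335) (nat_lit 5) (nat_lit 299) (nat_lit 295) (nat_lit 126)) (XT.lf (nat_lit 0) (nat_lit 8199718353) (nat_lit 1764) (nat_lit 3925746972) (nat_lit 1848) (nat_lit 2285713490) (nat_lit 314) (nat_lit 5) (nat_lit 335) (nat_lit 5) (nat_lit 336) (nat_lit 5) (nat_lit 300) (nat_lit 295) (nat_lit 125))) (XT.nd (nat_lit 94) (nat_lit 0) (nat_lit 84) (XT.lf (nat_lit 84) (nat_lit 3478813837) (nat_lit 0) (nat_lit 5425978832) (nat_lit 1848) (nat_lit 5660105401) (nat_lit 315) (nat_lit 5) (nat_lit 314) (nat_lit 5) (nat_lit 336) (nat_lit 5) (nat_lit 301) (nat_lit 295) (nat_lit 124)) (XT.lf (nat_lit 0) (nat_lit 9655338859) (nat_lit 1764) (nat_lit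 3632650810) (nat_lit 1848) (nat_lit 1433350354) (nat_lit 315) (nat_lit 5) (nat_lit 336) (nat_lit 5) (nat_lit 337) (nat_lit 5) (nat_lit 302) (nat_lit 295) (nat_lit 123)))) (XT.nd (nat_lit 188) (nat_lit 252) (nat_lit 0) (XT.nd (nat_lit 94) (nat_lit 0) (nat_lit 84) (XT.lf (nat_lit 84) (nat_lit 3997090574) (nat_lit 0) (nat_lit 6484112116) (nat_lit 1848) (nat_lit 4398727286) (nat_lit 316) (nat_lit 5) (nat_lit 315) (nat_lit 5) (nat_lit 337) (nat_lit 5) (nat_lit 303) (nat_lit 295) (nat_lit 122)) (XT.lf (nat_lit 0) (nat_lit 11346619788) (nat_lit 1764) (nat_lit 3201935372) (nat_lit 1848) (nat_lit 492983294) (nat_lit 316) (nat_lit 5) (nat_lit 337) (nat_lit 5) (nat_lit 338) (nat_lit 5) (nat_lit 304) (nat_lit 295) (nat_lit 121))) (XT.nd (nat_lit 44368) (nat_lit 336) (nat_lit 0) (XT.lf (nat_lit 84) (nat_lit 4662103130) (nat_lit 0) (nat_lit 7640592588) (nat_lit 1848) (nat_lit 2902430966) (nat_lit 317) (nat_lit 5)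 (nat_lit 316) (nat_lit 5) (nat_lit 338) (nat_lit 5) (nat_lit 305) (nat_lit 295) (nat_lit 120)) (XT.lf (nat_lit 0) (nat_lit 1580115182) (nat_lit 0) (nat_lit 1580115182) (nat_lit 1764) (nat_lit 3821287733) (nat_lit 312) (nat_lit 5) (nat_lit 312) (nat_lit 3) (nat_lit 333) (nat_lit 3) (nat_lit 296) (nat_lit 296) (nat_lit 128))))))) (XT.nd (nat_lit 45778) (nat_lit 0) (nat_lit 0) (XT.nd (nat_lit 658) (nat_lit 0) (nat_lit 0) (XT.nd (nat_lit 282) (nat_lit 0) (nat_lit 84) (XT.nd (nat_lit 94) (nat_lit 0) (nat_lit 0) (XT.lf (nat_lit 0) (nat_lit 6762733041) (nat_lit 1764) (nat_lit 3844065836) (nat_lit 1848) (nat_lit 3501630276) (nat_lit 312) (nat_lit 5) (nat_lit 333) (nat_lit 3) (nat_lit 334) (nat_lit 5) (nat_lit 297) (nat_lit 296) (nat_lit 127)) (XT.nd (nat_lit 94) (nat_lit 0) (nat_lit 84) (XT.lf (nat_lit 84) (nat_lit 3286841029) (nat_lit 0) (nat_lit 3964340738) (nat_lit 1848) (nat_lit 7005037169) (nat_lit 313)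 (nat_lit 5) (nat_lit 312) (nat_lit 5) (nat_lit 334) (nat_lit 5) (nat_lit 298) (nat_lit 296) (nat_lit 126)) (XT.lf (nat_lit 0) (nat_lit 7789331658) (nat_lit 1764) (nat_lit 3800390468) (nat_lit 1848) (nat_lit 2816680951) (nat_lit 313) (nat_lit 5) (nat_lit 334) (nat_lit 5) (nat_lit 335) (nat_lit 5) (nat_lit 299) (nat_lit 296) (nat_lit 125)))) (XT.nd (nat_lit 188) (nat_lit 0) (nat_lit 84) (XT.nd (nat_lit 94) (nat_lit 0) (nat_lit 84) (XT.lf (nat_lit 84) (nat_lit 3543134540) (nat_lit 0) (nat_lit 4840732463) (nat_lit 1848) (nat_lit 6175044250) (nat_lit 314) (nat_lit 5) (nat_lit 313) (nat_lit 5) (nat_lit 335) (nat_lit 5) (nat_lit 300) (nat_lit 296) (nat_lit 124)) (XT.lf (nat_lit 0) (nat_lit 9025052210) (nat_lit 1764) (nat_lit 3629584608) (nat_lit 1848) (nat_lit 2059399251) (nat_lit 314) (nat_lit 5) (nat_lit 335) (nat_lit 5) (nat_lit 336) (nat_lit 5) (nat_lit 301) (nat_lit 296) (nat_lit 123))) (XT.nd (nat_lit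 94) (nat_lit 0) (nat_lit 84) (XT.lf (nat_lit 84) (nat_lit 3935111877) (nat_lit 0) (nat_lit 5799348184) (nat_lit 1848) (nat_lit 5136923004) (nat_lit 315) (nat_lit 5) (nat_lit 314) (nat_lit 5) (nat_lit 336) (nat_lit 5) (nat_lit 302) (nat_lit 296) (nat_lit 122)) (XT.lf (nat_lit 0) (nat_lit 10486105303) (nat_lit 1764) (nat_lit 3325566990) (nat_lit 1848) (nat_lit 1219933533) (nat_lit 315) (nat_lit 5) (nat_lit 336) (nat_lit 5) (nat_lit 337) (nat_lit 5) (nat_lit 303) (nat_lit 296) (nat_lit 121))))) (XT.nd (nat_lit 44744) (nat_lit 0) (nat_lit 0) (XT.nd (nat_lit 44556) (nat_lit 252) (nat_lit 0) (XT.nd (nat_lit 94) (nat_lit 0) (nat_lit 84) (XT.lf (nat_lit 84) (nat_lit 4469231711) (nat_lit 0) (nat_lit 6850332371) (nat_lit 1848) (nat_lit 3874353304) (nat_lit 316) (nat_lit 5) (nat_lit 315) (nat_lit 5) (nat_lit 337) (nat_lit 5) (nat_lit 304) (nat_lit 296) (nat_lit 120)) (XT.lf (nat_lit 0) (nat_lit 12189378880) (nat_lit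 1764) (nat_lit 2881801890) (nat_lit 1848) (nat_lit 288222593) (nat_lit 316) (nat_lit 5) (nat_lit 337) (nat_lit 5) (nat_lit 338) (nat_lit 5) (nat_lit 305) (nat_lit 296) (nat_lit 119))) (XT.nd (nat_lit 94) (nat_lit 0) (nat_lit 0) (XT.lf (nat_lit 0) (nat_lit 1787360167) (nat_lit 0) (nat_lit 1787360167) (nat_lit 1764) (nat_lit 3552801932) (nat_lit 312) (nat_lit 5) (nat_lit 312) (nat_lit 3) (nat_lit 333) (nat_lit 3) (nat_lit 297) (nat_lit 297) (nat_lit 126)) (XT.lf (nat_lit 0) (nat_lit 7584186886) (nat_lit 1764) (nat_lit 3573840152) (nat_lit 1848) (nat_lit 3245988734) (nat_lit 312) (nat_lit 5) (nat_lit 333) (nat_lit 3) (nat_lit 334) (nat_lit 5) (nat_lit 298) (nat_lit 297) (nat_lit 125)))) (XT.nd (nat_lit 188) (nat_lit 0) (nat_lit 84) (XT.nd (nat_lit 94) (nat_lit 0) (nat_lit 84) (XT.lf (nat_lit 84) (nat_lit 3711382442) (nat_lit 0) (nat_lit 4360027810) (nat_lit 1848) (nat_lit 6483910046) (nat_lit 313) (nat_lit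 5) (nat_lit 312) (nat_lit 5) (nat_lit 334) (nat_lit 5) (nat_lit 299) (nat_lit 297) (nat_lit 124)) (XT.lf (nat_lit 0) (nat_lit 8605026866) (nat_lit 1764) (nat_lit 3522977844) (nat_lit 1848) (nat_lit 2581163975) (nat_lit 313) (nat_lit 5) (nat_lit 334) (nat_lit 5) (nat_lit 335) (nat_lit 5) (nat_lit 300) (nat_lit 297) (nat_lit 123))) (XT.nd (nat_lit 94) (nat_lit 0) (nat_lit 84) (XT.lf (nat_lit 84) (nat_lit 3979495494) (nat_lit 0) (nat_lit 5221829434) (nat_lit 1848) (nat_lit 5663956091) (nat_lit 314) (nat_lit 5) (nat_lit 313) (nat_lit 5) (nat_lit 335) (nat_lit 5) (nat_lit 301) (nat_lit 297) (nat_lit 122)) (XT.lf (nat_lit 0) (nat_lit 9841075769) (nat_lit 1764) (nat_lit 3343198363) (nat_lit 1848) (nat_lit 1839886337) (nat_lit 314) (nat_lit 5) (nat_lit 335) (nat_lit 5) (nat_lit 336) (nat_lit 5) (nat_lit 302) (nat_lit 297) (nat_lit 121)))))) (XT.nd (nat_lit 45308) (nat_lit 0) (nat_lit 0) (XT.nd (nat_lit 44932)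 (nat_lit 0) (nat_lit 0) (XT.nd (nat_lit 44744) (nat_lit 168) (nat_lit 0) (XT.nd (nat_lit 94) (nat_lit 0) (nat_lit 84) (XT.lf (nat_lit 84) (nat_lit 4385274527) (nat_lit 0) (nat_lit 6170114034) (nat_lit 1848) (nat_lit 4629815983) (nat_lit 315) (nat_lit 5) (nat_lit 314) (nat_lit 5) (nat_lit 336) (nat_lit 5) (nat_lit 303) (nat_lit 297) (nat_lit 120)) (XT.lf (nat_lit 0) (nat_lit 11308813464) (nat_lit 1764) (nat_lit 3028209535) (nat_lit 1848) (nat_lit 1012253851) (nat_lit 315) (nat_lit 5) (nat_lit 336) (nat_lit 5) (nat_lit 337) (nat_lit 5) (nat_lit 304) (nat_lit 297) (nat_lit 119))) (XT.nd (nat_lit 94) (nat_lit 0) (nat_lit 0) (XT.lf (nat_lit 0) (nat_lit 1991818610) (nat_lit 0) (nat_lit 1991818610) (nat_lit 1764) (nat_lit 3293424530) (nat_lit 312) (nat_lit 5) (nat_lit 312) (nat_lit 3) (nat_lit 333) (nat_lit 3) (nat_lit 298) (nat_lit 298) (nat_lit 124)) (XT.lf (nat_lit 0) (nat_lit 8395063912) (nat_lit 1764)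 (nat_lit 3312780032) (nat_lit 1848) (nat_lit 2998891627) (nat_lit 312) (nat_lit 5) (nat_lit 333) (nat_lit 3) (nat_lit 334) (nat_lit 5) (nat_lit 299) (nat_lit 298) (nat_lit 123)))) (XT.nd (nat_lit 188) (nat_lit 0) (nat_lit 84) (XT.nd (nat_lit 94) (nat_lit 0) (nat_lit 84) (XT.lf (nat_lit 84) (nat_lit 4130262444) (nat_lit 0) (nat_lit 4751282363) (nat_lit 1848) (nat_lit 5980076139) (nat_lit 313) (nat_lit 5) (nat_lit 312) (nat_lit 5) (nat_lit 334) (nat_lit 5) (nat_lit 300) (nat_lit 298) (nat_lit 122)) (XT.lf (nat_lit 0) (nat_lit 9411225713) (nat_lit 1764) (nat_lit 3254837838) (nat_lit 1848) (nat_lit 2353135305) (nat_lit 313) (nat_lit 5) (nat_lit 334) (nat_lit 5) (nat_lit 335) (nat_lit 5) (nat_lit 301) (nat_lit 298) (nat_lit 121))) (XT.nd (nat_lit 94) (nat_lit 0) (nat_lit 84) (XT.lf (nat_lit 84) (nat_lit 4410191818) (nat_lit 0) (nat_lit 5599615438) (nat_lit 1848) (nat_lit 5169176775) (nat_lit 314) (nat_lit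 5) (nat_lit 313) (nat_lit 5) (nat_lit 335) (nat_lit 5) (nat_lit 302) (nat_lit 298) (nat_lit 120)) (XT.lf (nat_lit 0) (nat_lit 10648754035) (nat_lit 1764) (nat_lit 3066109457) (nat_lit 1848) (nat_lit 1626822666) (nat_lit 314) (nat_lit 5) (nat_lit 335) (nat_lit 5) (nat_lit 336) (nat_lit 5) (nat_lit 303) (nat_lit 298) (nat_lit 119))))) (XT.nd (nat_lit 45026) (nat_lit 0) (nat_lit 0) (XT.nd (nat_lit 44838) (nat_lit 0) (nat_lit 0) (XT.nd (nat_lit 44744) (nat_lit 168) (nat_lit 0) (XT.lf (nat_lit 84) (nat_lit 4829855650) (nat_lit 0) (nat_lit 6538679822) (nat_lit 1848) (nat_lit 4137963148) (nat_lit 315) (nat_lit 5) (nat_lit 314) (nat_lit 5) (nat_lit 336) (nat_lit 5) (nat_lit 304) (nat_lit 298) (nat_lit 118)) (XT.lf (nat_lit 0) (nat_lit 2193742064) (nat_lit 0) (nat_lit 2193742064) (nat_lit 1764) (nat_lit 3042716428) (nat_lit 312) (nat_lit 5) (nat_lit 312) (nat_lit 3) (nat_lit 333) (nat_lit 3) (nat_lit 299) (nat_lit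 299) (nat_lit 122))) (XT.nd (nat_lit 94) (nat_lit 0) (nat_lit 0) (XT.lf (nat_lit 0) (nat_lit 9196351565) (nat_lit 1764) (nat_lit 3060443571) (nat_lit 1848) (nat_lit 2759923500) (nat_lit 312) (nat_lit 5) (nat_lit 333) (nat_lit 3) (nat_lit 334) (nat_lit 5) (nat_lit 300) (nat_lit 299) (nat_lit 121)) (XT.lf (nat_lit 84) (nat_lit 4543995384) (nat_lit 0) (nat_lit 5138566405) (nat_lit 1848) (nat_lit 5492691111) (nat_lit 313) (nat_lit 5) (nat_lit 312) (nat_lit 5) (nat_lit 334) (nat_lit 5) (nat_lit 301) (nat_lit 299) (nat_lit 120)))) (XT.nd (nat_lit 45120) (nat_lit 84) (nat_lit 0) (XT.nd (nat_lit 94) (nat_lit 0) (nat_lit 0) (XT.lf (nat_lit 0) (nat_lit 10208888002) (nat_lit 1764) (nat_lit 2995519605) (nat_lit 1848) (nat_lit 2132220087) (nat_lit 313) (nat_lit 5) (nat_lit 334) (nat_lit 5) (nat_lit 335) (nat_lit 5) (nat_lit 302) (nat_lit 299) (nat_lit 119)) (XT.lf (nat_lit 84) (nat_lit 4835749002) (nat_lit 0) (nat_lit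 5974515722) (nat_lit 1848) (nat_lit 4689891638) (nat_lit 314) (nat_lit 5) (nat_lit 313) (nat_lit 5) (nat_lit 335) (nat_lit 5) (nat_lit 303) (nat_lit 299) (nat_lit 118))) (XT.nd (nat_lit 94) (nat_lit 0) (nat_lit 0) (XT.lf (nat_lit 0) (nat_lit 9989007050) (nat_lit 1764) (nat_lit 2816406548) (nat_lit 1848) (nat_lit 2528685462) (nat_lit 312) (nat_lit 5) (nat_lit 333) (nat_lit 3) (nat_lit 334) (nat_lit 5) (nat_lit 301) (nat_lit 300) (nat_lit 119)) (XT.lf (nat_lit 84) (nat_lit 4953079714) (nat_lit 0) (nat_lit 5522328281) (nat_lit 1848) (nat_lit 5020944213) (nat_lit 313) (nat_lit 5) (nat_lit 312) (nat_lit 5) (nat_lit 334) (nat_lit 5) (nat_lit 302) (nat_lit 300) (nat_lit 118))))))))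
noncomputable def ec0 : XT := (XT.nd (nat_lit 180574) (nat_lit 0) (nat_lit 0) (XT.nd (nat_lit 134984) (nat_lit 0) (nat_lit 0) (XT.nd (nat_lit 89958) (nat_lit 0) (nat_lit 0) (XT.nd (nat_lit 45026) (nat_lit 0) (nat_lit 0) (XT.nd (nat_lit 94) (nat_lit 0) (nat_lit 0) (XT.lf (nat_lit 1932) (nat_lit 2261825877) (nat_lit 84) (nat_lit 349189400) (nat_lit 0) (nat_lit 349189400) (nat_lit 312) (nat_lit 1) (nat_lit 290) (nat_lit 1) (nat_lit 289) (nat_lit 0) (nat_lit 269) (nat_lit 226) (nat_lit 225)) (XT.nd (nat_lit 44838) (nat_lit 84) (nat_lit 0) (XT.lf (nat_lit 1932) (nat_lit 1109382926) (nat_lit 0) (nat_lit 709515602) (nat_lit 1848) (nat_lit 1109382926) (nat_lit 313) (nat_lit 1) (nat_lit 290) (nat_lit 1) (nat_lit 312) (nat_lit 1) (nat_lit 270) (nat_lit 226) (nat_lit 224)) (XT.lf (nat_lit 1932) (nat_lit 584840776) (nat_lit 0) (nat_lit 359469572) (nat_lit 1932) (nat_lit 584840776) (nat_lit 312) (nat_lit 1) (nat_lit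 289) (nat_lit 0) (nat_lit 312) (nat_lit 0) (nat_lit 266) (nat_lit 227) (nat_lit 227)))) (XT.nd (nat_lit 188) (nat_lit 0) (nat_lit 84) (XT.nd (nat_lit 94) (nat_lit 0) (nat_lit 84) (XT.lf (nat_lit 1932) (nat_lit 2311586046) (nat_lit 84) (nat_lit 356871566) (nat_lit 0) (nat_lit 356871566) (nat_lit 312) (nat_lit 1) (nat_lit 290) (nat_lit 1) (nat_lit 289) (nat_lit 0) (nat_lit 267) (nat_lit 227) (nat_lit 226)) (XT.lf (nat_lit 1932) (nat_lit 1133789351) (nat_lit 0) (nat_lit 725124945) (nat_lit 1848) (nat_lit 1133789351) (nat_lit 313) (nat_lit 1) (nat_lit 290) (nat_lit 1) (nat_lit 312) (nat_lit 1) (nat_lit 268) (nat_lit 227) (nat_lit 225))) (XT.nd (nat_lit 94) (nat_lit 0) (nat_lit 84) (XT.lf (nat_lit 1932) (nat_lit 2219277959) (nat_lit 84) (nat_lit 370694826) (nat_lit 0) (nat_lit 370694826) (nat_lit 313) (nat_lit 1) (nat_lit 291) (nat_lit 1) (nat_lit 290) (nat_lit 1) (nat_lit 269) (nat_lit 227) (nat_lit 224))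 (XT.lf (nat_lit 1932) (nat_lit 1077930366) (nat_lit 0) (nat_lit 773112679) (nat_lit 1848) (nat_lit 1077930366) (nat_lit 314) (nat_lit 1) (nat_lit 291) (nat_lit 1) (nat_lit 313) (nat_lit 1) (nat_lit 270) (nat_lit 227) (nat_lit 223))))) (XT.nd (nat_lit 282) (nat_lit 0) (nat_lit 84) (XT.nd (nat_lit 94) (nat_lit 0) (nat_lit 0) (XT.lf (nat_lit 1932) (nat_lit 597707274) (nat_lit 0) (nat_lit 367377903) (nat_lit 1932) (nat_lit 597707274) (nat_lit 312) (nat_lit 1) (nat_lit 289) (nat_lit 0) (nat_lit 312) (nat_lit 0) (nat_lit 264) (nat_lit 228) (nat_lit 228)) (XT.nd (nat_lit 94) (nat_lit 0) (nat_lit 84) (XT.lf (nat_lit 1932) (nat_lit 2362440939) (nat_lit 84) (nat_lit 364722741) (nat_lit 0) (nat_lit 364722741) (nat_lit 312) (nat_lit 1) (nat_lit 290) (nat_lit 1) (nat_lit 289) (nat_lit 0) (nat_lit 265) (nat_lit 228) (nat_lit 227)) (XT.lf (nat_lit 1932) (nat_lit 1158732716) (nat_lit 0) (nat_lit 741077694) (nat_lit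 1848) (nat_lit 1158732716) (nat_lit 313) (nat_lit 1) (nat_lit 290) (nat_lit 1) (nat_lit 312) (nat_lit 1) (nat_lit 266) (nat_lit 228) (nat_lit 226)))) (XT.nd (nat_lit 188) (nat_lit 0) (nat_lit 84) (XT.nd (nat_lit 94) (nat_lit 0) (nat_lit 84) (XT.lf (nat_lit 1932) (nat_lit 2268102074) (nat_lit 84) (nat_lit 378850112) (nat_lit 0) (nat_lit 378850112) (nat_lit 313) (nat_lit 1) (nat_lit 291) (nat_lit 1) (nat_lit 290) (nat_lit 1) (nat_lit 267) (nat_lit 228) (nat_lit 225)) (XT.lf (nat_lit 1932) (nat_lit 1101644834) (nat_lit 0) (nat_lit 790121158) (nat_lit 1848) (nat_lit 1101644834) (nat_lit 314) (nat_lit 1) (nat_lit 291) (nat_lit 1) (nat_lit 313) (nat_lit 1) (nat_lit 268) (nat_lit 228) (nat_lit 224))) (XT.nd (nat_lit 94) (nat_lit 0) (nat_lit 84) (XT.lf (nat_lit 1932) (nat_lit 2134161973) (nat_lit 84) (nat_lit 413715864) (nat_lit 0) (nat_lit 413715864) (nat_lit 314) (nat_lit 1) (nat_lit 292) (nat_lit 1) (nat_lit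 291) (nat_lit 1) (nat_lit 269) (nat_lit 228) (nat_lit 223)) (XT.lf (nat_lit 1932) (nat_lit 1025492881) (nat_lit 0) (nat_lit 879141273) (nat_lit 1848) (nat_lit 1025492881) (nat_lit 315) (nat_lit 1) (nat_lit 292) (nat_lit 1) (nat_lit 314) (nat_lit 1) (nat_lit 270) (nat_lit 228) (nat_lit 222)))))) (XT.nd (nat_lit 658) (nat_lit 0) (nat_lit 0) (XT.nd (nat_lit 282) (nat_lit 0) (nat_lit 84) (XT.nd (nat_lit 94) (nat_lit 0) (nat_lit 0) (XT.lf (nat_lit 1932) (nat_lit 610856834) (nat_lit 0) (nat_lit 375460217) (nat_lit 1932) (nat_lit 610856834) (nat_lit 312) (nat_lit 1) (nat_lit 289) (nat_lit 0) (nat_lit 312) (nat_lit 0) (nat_lit 262) (nat_lit 229) (nat_lit 229)) (XT.nd (nat_lit 94) (nat_lit 0) (nat_lit 84) (XT.lf (nat_lit 1932) (nat_lit 2414414640) (nat_lit 84) (nat_lit 372746641) (nat_lit 0) (nat_lit 372746641) (nat_lit 312) (nat_lit 1) (nat_lit 290) (nat_lit 1) (nat_lit 289) (nat_lit 0) (nat_lit 263) (nat_lit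 229) (nat_lit 228)) (XT.lf (nat_lit 1932) (nat_lit 1184224836) (nat_lit 0) (nat_lit 757381403) (nat_lit 1848) (nat_lit 1184224836) (nat_lit 313) (nat_lit 1) (nat_lit 290) (nat_lit 1) (nat_lit 312) (nat_lit 1) (nat_lit 264) (nat_lit 229) (nat_lit 227)))) (XT.nd (nat_lit 188) (nat_lit 0) (nat_lit 84) (XT.nd (nat_lit 94) (nat_lit 0) (nat_lit 84) (XT.lf (nat_lit 1932) (nat_lit 2318000320) (nat_lit 84) (nat_lit 387184815) (nat_lit 0) (nat_lit 387184815) (nat_lit 313) (nat_lit 1) (nat_lit 291) (nat_lit 1) (nat_lit 290) (nat_lit 1) (nat_lit 265) (nat_lit 229) (nat_lit 226)) (XT.lf (nat_lit 1932) (nat_lit 1125881020) (nat_lit 0) (nat_lit 807503824) (nat_lit 1848) (nat_lit 1125881020) (nat_lit 314) (nat_lit 1) (nat_lit 291) (nat_lit 1) (nat_lit 313) (nat_lit 1) (nat_lit 266) (nat_lit 229) (nat_lit 225))) (XT.nd (nat_lit 94) (nat_lit 0) (nat_lit 84) (XT.lf (nat_lit 1932) (nat_lit 2181113536) (nat_lit 84) (nat_lit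 422817613) (nat_lit 0) (nat_lit 422817613) (nat_lit 314) (nat_lit 1) (nat_lit 292) (nat_lit 1) (nat_lit 291) (nat_lit 1) (nat_lit 267) (nat_lit 229) (nat_lit 224)) (XT.lf (nat_lit 1932) (nat_lit 1048053725) (nat_lit 0) (nat_lit 898482381) (nat_lit 1848) (nat_lit 1048053725) (nat_lit 315) (nat_lit 1) (nat_lit 292) (nat_lit 1) (nat_lit 314) (nat_lit 1) (nat_lit 268) (nat_lit 229) (nat_lit 223))))) (XT.nd (nat_lit 44556) (nat_lit 0) (nat_lit 84) (XT.nd (nat_lit 44368) (nat_lit 252) (nat_lit 0) (XT.nd (nat_lit 94) (nat_lit 0) (nat_lit 84) (XT.lf (nat_lit 1932) (nat_lit 2006437609) (nat_lit 84) (nat_lit 478272886) (nat_lit 0) (nat_lit 478272886) (nat_lit 315) (nat_lit 1) (nat_lit 293) (nat_lit 1) (nat_lit 292) (nat_lit 1) (nat_lit 269) (nat_lit 229) (nat_lit 222)) (XT.lf (nat_lit 1932) (nat_lit 952045639) (nat_lit 0) (nat_lit 1027651596) (nat_lit 1848) (nat_lit 952045639) (nat_lit 316) (nat_lit 1) (nat_lit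 293) (nat_lit 1) (nat_lit 315) (nat_lit 1) (nat_lit 270) (nat_lit 229) (nat_lit 221))) (XT.nd (nat_lit 94) (nat_lit 0) (nat_lit 0) (XT.lf (nat_lit 1932) (nat_lit 624295684) (nat_lit 0) (nat_lit 383720342) (nat_lit 1932) (nat_lit 624295684) (nat_lit 312) (nat_lit 1) (nat_lit 289) (nat_lit 0) (nat_lit 312) (nat_lit 0) (nat_lit 260) (nat_lit 230) (nat_lit 230)) (XT.lf (nat_lit 1932) (nat_lit 2467531762) (nat_lit 84) (nat_lit 380947067) (nat_lit 0) (nat_lit 380947067) (nat_lit 312) (nat_lit 1) (nat_lit 290) (nat_lit 1) (nat_lit 289) (nat_lit 0) (nat_lit 261) (nat_lit 230) (nat_lit 229)))) (XT.nd (nat_lit 188) (nat_lit 0) (nat_lit 84) (XT.nd (nat_lit 94) (nat_lit 0) (nat_lit 0) (XT.lf (nat_lit 1932) (nat_lit 1210277783) (nat_lit 0) (nat_lit 774043794) (nat_lit 1848) (nat_lit 1210277783) (nat_lit 313) (nat_lit 1) (nat_lit 290) (nat_lit 1) (nat_lit 312) (nat_lit 1) (nat_lit 262) (nat_lit 230) (nat_lit 228))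 (XT.lf (nat_lit 1932) (nat_lit 2368996327) (nat_lit 84) (nat_lit 395702881) (nat_lit 0) (nat_lit 395702881) (nat_lit 313) (nat_lit 1) (nat_lit 291) (nat_lit 1) (nat_lit 290) (nat_lit 1) (nat_lit 263) (nat_lit 230) (nat_lit 227))) (XT.nd (nat_lit 94) (nat_lit 0) (nat_lit 0) (XT.lf (nat_lit 1932) (nat_lit 1150650403) (nat_lit 0) (nat_lit 825268908) (nat_lit 1848) (nat_lit 1150650403) (nat_lit 314) (nat_lit 1) (nat_lit 291) (nat_lit 1) (nat_lit 313) (nat_lit 1) (nat_lit 264) (nat_lit 230) (nat_lit 226)) (XT.lf (nat_lit 1932) (nat_lit 2229098034) (nat_lit 84) (nat_lit 432119600) (nat_lit 0) (nat_lit 432119600) (nat_lit 314) (nat_lit 1) (nat_lit 292) (nat_lit 1) (nat_lit 291) (nat_lit 1) (nat_lit 265) (nat_lit 230) (nat_lit 225))))))) (XT.nd (nat_lit 45308) (nat_lit 0) (nat_lit 0) (XT.nd (nat_lit 44650) (nat_lit 0) (nat_lit 84) (XT.nd (nat_lit 282) (nat_lit 252) (nat_lit 0) (XT.nd (nat_lit 94) (nat_lit 0)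 (nat_lit 0) (XT.lf (nat_lit 1932) (nat_lit 1071110907) (nat_lit 0) (nat_lit 918248993) (nat_lit 1848) (nat_lit 1071110907) (nat_lit 315) (nat_lit 1) (nat_lit 292) (nat_lit 1) (nat_lit 314) (nat_lit 1) (nat_lit 266) (nat_lit 230) (nat_lit 224)) (XT.nd (nat_lit 94) (nat_lit 0) (nat_lit 84) (XT.lf (nat_lit 1932) (nat_lit 2050579236) (nat_lit 84) (nat_lit 488794890) (nat_lit 0) (nat_lit 488794890) (nat_lit 315) (nat_lit 1) (nat_lit 293) (nat_lit 1) (nat_lit 292) (nat_lit 1) (nat_lit 267) (nat_lit 230) (nat_lit 223)) (XT.lf (nat_lit 1932) (nat_lit 972990644) (nat_lit 0) (nat_lit 1050259931) (nat_lit 1848) (nat_lit 972990644) (nat_lit 316) (nat_lit 1) (nat_lit 293) (nat_lit 1) (nat_lit 315) (nat_lit 1) (nat_lit 268) (nat_lit 230) (nat_lit 222)))) (XT.nd (nat_lit 44180) (nat_lit 336) (nat_lit 0) (XT.nd (nat_lit 94) (nat_lit 0) (nat_lit 84) (XT.lf (nat_lit 1932) (nat_lit 1836044380) (nat_lit 84) (nat_lit 564396467)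 (nat_lit 0) (nat_lit 564396467) (nat_lit 316) (nat_lit 1) (nat_lit 294) (nat_lit 1) (nat_lit 293) (nat_lit 1) (nat_lit 269) (nat_lit 230) (nat_lit 221)) (XT.lf (nat_lit 1932) (nat_lit 857553857) (nat_lit 0) (nat_lit 1218713980) (nat_lit 1848) (nat_lit 857553857) (nat_lit 317) (nat_lit 1) (nat_lit 294) (nat_lit 1) (nat_lit 316) (nat_lit 1) (nat_lit 270) (nat_lit 230) (nat_lit 220))) (XT.nd (nat_lit 94) (nat_lit 0) (nat_lit 0) (XT.lf (nat_lit 1932) (nat_lit 638030189) (nat_lit 0) (nat_lit 392162189) (nat_lit 1932) (nat_lit 638030189) (nat_lit 312) (nat_lit 1) (nat_lit 289) (nat_lit 0) (nat_lit 312) (nat_lit 0) (nat_lit 258) (nat_lit 231) (nat_lit 231)) (XT.lf (nat_lit 1932) (nat_lit 2521817461) (nat_lit 84) (nat_lit 389327903) (nat_lit 0) (nat_lit 389327903) (nat_lit 312) (nat_lit 1) (nat_lit 290) (nat_lit 1) (nat_lit 289) (nat_lit 0) (nat_lit 259) (nat_lit 231) (nat_lit 230))))) (XT.nd (nat_lit 282) (nat_lit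 0) (nat_lit 84) (XT.nd (nat_lit 94) (nat_lit 0) (nat_lit 0) (XT.lf (nat_lit 1932) (nat_lit 1236903894) (nat_lit 0) (nat_lit 791072758) (nat_lit 1848) (nat_lit 1236903894) (nat_lit 313) (nat_lit 1) (nat_lit 290) (nat_lit 1) (nat_lit 312) (nat_lit 1) (nat_lit 260) (nat_lit 231) (nat_lit 229)) (XT.nd (nat_lit 94) (nat_lit 0) (nat_lit 84) (XT.lf (nat_lit 1932) (nat_lit 2421114246) (nat_lit 84) (nat_lit 404408344) (nat_lit 0) (nat_lit 404408344) (nat_lit 313) (nat_lit 1) (nat_lit 291) (nat_lit 1) (nat_lit 290) (nat_lit 1) (nat_lit 261) (nat_lit 231) (nat_lit 228)) (XT.lf (nat_lit 1932) (nat_lit 1175964711) (nat_lit 0) (nat_lit 843424824) (nat_lit 1848) (nat_lit 1175964711) (nat_lit 314) (nat_lit 1) (nat_lit 291) (nat_lit 1) (nat_lit 313) (nat_lit 1) (nat_lit 262) (nat_lit 231) (nat_lit 227)))) (XT.nd (nat_lit 188) (nat_lit 0) (nat_lit 84) (XT.nd (nat_lit 94) (nat_lit 0) (nat_lit 84) (XT.lf (nat_lit 1932)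 (nat_lit 2278138191) (nat_lit 84) (nat_lit 441626231) (nat_lit 0) (nat_lit 441626231) (nat_lit 314) (nat_lit 1) (nat_lit 292) (nat_lit 1) (nat_lit 291) (nat_lit 1) (nat_lit 263) (nat_lit 231) (nat_lit 226)) (XT.lf (nat_lit 1932) (nat_lit 1094675347) (nat_lit 0) (nat_lit 938450471) (nat_lit 1848) (nat_lit 1094675347) (nat_lit 315) (nat_lit 1) (nat_lit 292) (nat_lit 1) (nat_lit 314) (nat_lit 1) (nat_lit 264) (nat_lit 231) (nat_lit 225))) (XT.nd (nat_lit 94) (nat_lit 0) (nat_lit 84) (XT.lf (nat_lit 1932) (nat_lit 2095691980) (nat_lit 84) (nat_lit 499548377) (nat_lit 0) (nat_lit 499548377) (nat_lit 315) (nat_lit 1) (nat_lit 293) (nat_lit 1) (nat_lit 292) (nat_lit 1) (nat_lit 265) (nat_lit 231) (nat_lit 224)) (XT.lf (nat_lit 1932) (nat_lit 994396438) (nat_lit 0) (nat_lit 1073365650) (nat_lit 1848) (nat_lit 994396438) (nat_lit 316) (nat_lit 1) (nat_lit 293) (nat_lit 1) (nat_lit 315) (nat_lit 1) (nat_lit 266)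 (nat_lit 231) (nat_lit 223)))))) (XT.nd (nat_lit 44462) (nat_lit 0) (nat_lit 84) (XT.nd (nat_lit 282) (nat_lit 336) (nat_lit 0) (XT.nd (nat_lit 94) (nat_lit 0) (nat_lit 84) (XT.lf (nat_lit 1932) (nat_lit 1876437357) (nat_lit 84) (nat_lit 576813189) (nat_lit 0) (nat_lit 576813189) (nat_lit 316) (nat_lit 1) (nat_lit 294) (nat_lit 1) (nat_lit 293) (nat_lit 1) (nat_lit 267) (nat_lit 231) (nat_lit 222)) (XT.nd (nat_lit 94) (nat_lit 0) (nat_lit 0) (XT.lf (nat_lit 1932) (nat_lit 876420042) (nat_lit 0) (nat_lit 1245525687) (nat_lit 1848) (nat_lit 876420042) (nat_lit 317) (nat_lit 1) (nat_lit 294) (nat_lit 1) (nat_lit 316) (nat_lit 1) (nat_lit 268) (nat_lit 231) (nat_lit 221)) (XT.lf (nat_lit 1932) (nat_lit 1622901591) (nat_lit 84) (nat_lit 672127392) (nat_lit 0) (nat_lit 672127392) (nat_lit 317) (nat_lit 1) (nat_lit 295) (nat_lit 1) (nat_lit 294) (nat_lit 1) (nat_lit 269) (nat_lit 231) (nat_lit 220)))) (XT.nd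 (nat_lit 43992) (nat_lit 0) (nat_lit 0) (XT.nd (nat_lit 43898) (nat_lit 504) (nat_lit 0) (XT.lf (nat_lit 1932) (nat_lit 741972785) (nat_lit 0) (nat_lit 1452418908) (nat_lit 1848) (nat_lit 741972785) (nat_lit 318) (nat_lit 1) (nat_lit 295) (nat_lit 1) (nat_lit 317) (nat_lit 1) (nat_lit 270) (nat_lit 231) (nat_lit 219)) (XT.lf (nat_lit 1932) (nat_lit 652066853) (nat_lit 0) (nat_lit 400789757) (nat_lit 1932) (nat_lit 652066853) (nat_lit 312) (nat_lit 1) (nat_lit 289) (nat_lit 0) (nat_lit 312) (nat_lit 0) (nat_lit 256) (nat_lit 232) (nat_lit 232))) (XT.nd (nat_lit 94) (nat_lit 0) (nat_lit 84) (XT.lf (nat_lit 1932) (nat_lit 2577297445) (nat_lit 84) (nat_lit 397893117) (nat_lit 0) (nat_lit 397893117) (nat_lit 312) (nat_lit 1) (nat_lit 290) (nat_lit 1) (nat_lit 289) (nat_lit 0) (nat_lit 257) (nat_lit 232) (nat_lit 231)) (XT.lf (nat_lit 1932) (nat_lit 1264115780) (nat_lit 0) (nat_lit 808476358) (nat_lit 1848)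 (nat_lit 1264115780) (nat_lit 313) (nat_lit 1) (nat_lit 290) (nat_lit 1) (nat_lit 312) (nat_lit 1) (nat_lit 258) (nat_lit 232) (nat_lit 230))))) (XT.nd (nat_lit 376) (nat_lit 0) (nat_lit 168) (XT.nd (nat_lit 188) (nat_lit 0) (nat_lit 84) (XT.nd (nat_lit 94) (nat_lit 0) (nat_lit 84) (XT.lf (nat_lit 1932) (nat_lit 2474378759) (nat_lit 84) (nat_lit 413305328) (nat_lit 0) (nat_lit 413305328) (nat_lit 313) (nat_lit 1) (nat_lit 291) (nat_lit 1) (nat_lit 290) (nat_lit 1) (nat_lit 259) (nat_lit 232) (nat_lit 229)) (XT.lf (nat_lit 1932) (nat_lit 1201835935) (nat_lit 0) (nat_lit 861980170) (nat_lit 1848) (nat_lit 1201835935) (nat_lit 314) (nat_lit 1) (nat_lit 291) (nat_lit 1) (nat_lit 313) (nat_lit 1) (nat_lit 260) (nat_lit 232) (nat_lit 228))) (XT.nd (nat_lit 94) (nat_lit 0) (nat_lit 84) (XT.lf (nat_lit 1932) (nat_lit 2328257231) (nat_lit 84) (nat_lit 451342008) (nat_lit 0) (nat_lit 451342008) (nat_lit 314) (nat_lit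 1) (nat_lit 292) (nat_lit 1) (nat_lit 291) (nat_lit 1) (nat_lit 261) (nat_lit 232) (nat_lit 227)) (XT.lf (nat_lit 1932) (nat_lit 1118758204) (nat_lit 0) (nat_lit 959096382) (nat_lit 1848) (nat_lit 1118758204) (nat_lit 315) (nat_lit 1) (nat_lit 292) (nat_lit 1) (nat_lit 314) (nat_lit 1) (nat_lit 262) (nat_lit 232) (nat_lit 226)))) (XT.nd (nat_lit 188) (nat_lit 0) (nat_lit 84) (XT.nd (nat_lit 94) (nat_lit 0) (nat_lit 84) (XT.lf (nat_lit 1932) (nat_lit 2141797203) (nat_lit 84) (nat_lit 510538442) (nat_lit 0) (nat_lit 510538442) (nat_lit 315) (nat_lit 1) (nat_lit 293) (nat_lit 1) (nat_lit 292) (nat_lit 1) (nat_lit 263) (nat_lit 232) (nat_lit 225)) (XT.lf (nat_lit 1932) (nat_lit 1016273159) (nat_lit 0) (nat_lit 1096979694) (nat_lit 1848) (nat_lit 1016273159) (nat_lit 316) (nat_lit 1) (nat_lit 293) (nat_lit 1) (nat_lit 315) (nat_lit 1) (nat_lit 264) (nat_lit 232) (nat_lit 224))) (XT.nd (nat_lit 94) (nat_lit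 0) (nat_lit 84) (XT.lf (nat_lit 1932) (nat_lit 1917718978) (nat_lit 84) (nat_lit 589503079) (nat_lit 0) (nat_lit 589503079) (nat_lit 316) (nat_lit 1) (nat_lit 294) (nat_lit 1) (nat_lit 293) (nat_lit 1) (nat_lit 265) (nat_lit 232) (nat_lit 223)) (XT.lf (nat_lit 1932) (nat_lit 895701283) (nat_lit 0) (nat_lit 1272927252) (nat_lit 1848) (nat_lit 895701283) (nat_lit 317) (nat_lit 1) (nat_lit 294) (nat_lit 1) (nat_lit 316) (nat_lit 1) (nat_lit 266) (nat_lit 232) (nat_lit 222))))))))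
noncomputable def ec1 : XT := (XT.nd (nat_lit 89770) (nat_lit 0) (nat_lit 0) (XT.nd (nat_lit 44932) (nat_lit 0) (nat_lit 0) (XT.nd (nat_lit 44274) (nat_lit 0) (nat_lit 84) (XT.nd (nat_lit 282) (nat_lit 420) (nat_lit 0) (XT.nd (nat_lit 94) (nat_lit 0) (nat_lit 84) (XT.lf (nat_lit 1932) (nat_lit 1658605426) (nat_lit 84) (nat_lit 686914194) (nat_lit 0) (nat_lit 686914194) (nat_lit 317) (nat_lit 1) (nat_lit 295) (nat_lit 1) (nat_lit 294) (nat_lit 1) (nat_lit 267) (nat_lit 232) (nat_lit 221)) (XT.nd (nat_lit 94) (nat_lit 0) (nat_lit 0) (XT.lf (nat_lit 1932) (nat_lit 758296186) (nat_lit 0) (nat_lit 1484372124) (nat_lit 1848) (nat_lit 758296186) (nat_lit 318) (nat_lit 1) (nat_lit 295) (nat_lit 1) (nat_lit 317) (nat_lit 1) (nat_lit 268) (nat_lit 232) (nat_lit 220)) (XT.lf (nat_lit 1932) (nat_lit 1366908301) (nat_lit 84) (nat_lit 801516681) (nat_lit 0) (nat_lit 801516681) (nat_lit 318) (nat_lit 1) (nat_lit 296)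 (nat_lit 1) (nat_lit 295) (nat_lit 1) (nat_lit 269) (nat_lit 232) (nat_lit 219)))) (XT.nd (nat_lit 43804) (nat_lit 0) (nat_lit 0) (XT.nd (nat_lit 43710) (nat_lit 588) (nat_lit 0) (XT.lf (nat_lit 1932) (nat_lit 605247685) (nat_lit 0) (nat_lit 1728877059) (nat_lit 1848) (nat_lit 605247685) (nat_lit 319) (nat_lit 1) (nat_lit 296) (nat_lit 1) (nat_lit 318) (nat_lit 1) (nat_lit 270) (nat_lit 232) (nat_lit 218)) (XT.lf (nat_lit 1932) (nat_lit 666412324) (nat_lit 0) (nat_lit 409607132) (nat_lit 1932) (nat_lit 666412324) (nat_lit 312) (nat_lit 1) (nat_lit 289) (nat_lit 0) (nat_lit 312) (nat_lit 0) (nat_lit 254) (nat_lit 233) (nat_lit 233))) (XT.nd (nat_lit 94) (nat_lit 0) (nat_lit 84) (XT.lf (nat_lit 1932) (nat_lit 2633997989) (nat_lit 84) (nat_lit 406646765) (nat_lit 0) (nat_lit 406646765) (nat_lit 312) (nat_lit 1) (nat_lit 290) (nat_lit 1) (nat_lit 289) (nat_lit 0) (nat_lit 255) (nat_lit 233) (nat_lit 232))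 (XT.lf (nat_lit 1932) (nat_lit 1291926327) (nat_lit 0) (nat_lit 826262838) (nat_lit 1848) (nat_lit 1291926327) (nat_lit 313) (nat_lit 1) (nat_lit 290) (nat_lit 1) (nat_lit 312) (nat_lit 1) (nat_lit 256) (nat_lit 233) (nat_lit 231))))) (XT.nd (nat_lit 282) (nat_lit 0) (nat_lit 168) (XT.nd (nat_lit 94) (nat_lit 0) (nat_lit 84) (XT.lf (nat_lit 1932) (nat_lit 2528815092) (nat_lit 84) (nat_lit 422398045) (nat_lit 0) (nat_lit 422398045) (nat_lit 313) (nat_lit 1) (nat_lit 291) (nat_lit 1) (nat_lit 290) (nat_lit 1) (nat_lit 257) (nat_lit 233) (nat_lit 230)) (XT.nd (nat_lit 94) (nat_lit 0) (nat_lit 0) (XT.lf (nat_lit 1932) (nat_lit 1228276326) (nat_lit 0) (nat_lit 880943734) (nat_lit 1848) (nat_lit 1228276326) (nat_lit 314) (nat_lit 1) (nat_lit 291) (nat_lit 1) (nat_lit 313) (nat_lit 1) (nat_lit 258) (nat_lit 233) (nat_lit 229)) (XT.lf (nat_lit 1932) (nat_lit 2379478890) (nat_lit 84) (nat_lit 461271533) (nat_lit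 0) (nat_lit 461271533) (nat_lit 314) (nat_lit 1) (nat_lit 292) (nat_lit 1) (nat_lit 291) (nat_lit 1) (nat_lit 259) (nat_lit 233) (nat_lit 228)))) (XT.nd (nat_lit 188) (nat_lit 0) (nat_lit 84) (XT.nd (nat_lit 94) (nat_lit 0) (nat_lit 0) (XT.lf (nat_lit 1932) (nat_lit 1143370885) (nat_lit 0) (nat_lit 980196502) (nat_lit 1848) (nat_lit 1143370885) (nat_lit 315) (nat_lit 1) (nat_lit 292) (nat_lit 1) (nat_lit 314) (nat_lit 1) (nat_lit 260) (nat_lit 233) (nat_lit 227)) (XT.lf (nat_lit 1932) (nat_lit 2188916742) (nat_lit 84) (nat_lit 521770287) (nat_lit 0) (nat_lit 521770287) (nat_lit 315) (nat_lit 1) (nat_lit 293) (nat_lit 1) (nat_lit 292) (nat_lit 1) (nat_lit 261) (nat_lit 233) (nat_lit 226))) (XT.nd (nat_lit 94) (nat_lit 0) (nat_lit 0) (XT.lf (nat_lit 1932) (nat_lit 1038631169) (nat_lit 0) (nat_lit 1121113247) (nat_lit 1848) (nat_lit 1038631169) (nat_lit 316) (nat_lit 1) (nat_lit 293) (nat_lit 1) (nat_lit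 315) (nat_lit 1) (nat_lit 262) (nat_lit 233) (nat_lit 225)) (XT.lf (nat_lit 1932) (nat_lit 1959908796) (nat_lit 84) (nat_lit 602472147) (nat_lit 0) (nat_lit 602472147) (nat_lit 316) (nat_lit 1) (nat_lit 294) (nat_lit 1) (nat_lit 293) (nat_lit 1) (nat_lit 263) (nat_lit 233) (nat_lit 224)))))) (XT.nd (nat_lit 44086) (nat_lit 420) (nat_lit 0) (XT.nd (nat_lit 282) (nat_lit 0) (nat_lit 84) (XT.nd (nat_lit 94) (nat_lit 0) (nat_lit 0) (XT.lf (nat_lit 1932) (nat_lit 915406711) (nat_lit 0) (nat_lit 1300931652) (nat_lit 1848) (nat_lit 915406711) (nat_lit 317) (nat_lit 1) (nat_lit 294) (nat_lit 1) (nat_lit 316) (nat_lit 1) (nat_lit 264) (nat_lit 233) (nat_lit 223)) (XT.nd (nat_lit 94) (nat_lit 0) (nat_lit 84) (XT.lf (nat_lit 1932) (nat_lit 1695094745) (nat_lit 84) (nat_lit 702026307) (nat_lit 0) (nat_lit 702026307) (nat_lit 317) (nat_lit 1) (nat_lit 295) (nat_lit 1) (nat_lit 294) (nat_lit 1) (nat_lit 265) (nat_lit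 233) (nat_lit 222)) (XT.lf (nat_lit 1932) (nat_lit 774978702) (nat_lit 0) (nat_lit 1517028311) (nat_lit 1848) (nat_lit 774978702) (nat_lit 318) (nat_lit 1) (nat_lit 295) (nat_lit 1) (nat_lit 317) (nat_lit 1) (nat_lit 266) (nat_lit 233) (nat_lit 221)))) (XT.nd (nat_lit 188) (nat_lit 0) (nat_lit 84) (XT.nd (nat_lit 94) (nat_lit 0) (nat_lit 84) (XT.lf (nat_lit 1932) (nat_lit 1396980284) (nat_lit 84) (nat_lit 819150048) (nat_lit 0) (nat_lit 819150048) (nat_lit 318) (nat_lit 1) (nat_lit 296) (nat_lit 1) (nat_lit 295) (nat_lit 1) (nat_lit 267) (nat_lit 233) (nat_lit 220)) (XT.lf (nat_lit 1932) (nat_lit 618563135) (nat_lit 0) (nat_lit 1766912354) (nat_lit 1848) (nat_lit 618563135) (nat_lit 319) (nat_lit 1) (nat_lit 296) (nat_lit 1) (nat_lit 318) (nat_lit 1) (nat_lit 268) (nat_lit 233) (nat_lit 219))) (XT.nd (nat_lit 94) (nat_lit 0) (nat_lit 84) (XT.lf (nat_lit 1932) (nat_lit 1067943277) (nat_lit 84) (nat_lit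 952625610) (nat_lit 0) (nat_lit 952625610) (nat_lit 319) (nat_lit 1) (nat_lit 297) (nat_lit 1) (nat_lit 296) (nat_lit 1) (nat_lit 269) (nat_lit 233) (nat_lit 218)) (XT.lf (nat_lit 1932) (nat_lit 447313809) (nat_lit 0) (nat_lit 2048219358) (nat_lit 1848) (nat_lit 447313809) (nat_lit 320) (nat_lit 1) (nat_lit 297) (nat_lit 1) (nat_lit 319) (nat_lit 1) (nat_lit 270) (nat_lit 233) (nat_lit 217))))) (XT.nd (nat_lit 376) (nat_lit 0) (nat_lit 168) (XT.nd (nat_lit 188) (nat_lit 0) (nat_lit 84) (XT.nd (nat_lit 94) (nat_lit 0) (nat_lit 0) (XT.lf (nat_lit 1932) (nat_lit 681073395) (nat_lit 0) (nat_lit 418618489) (nat_lit 1932) (nat_lit 681073395) (nat_lit 312) (nat_lit 1) (nat_lit 289) (nat_lit 0) (nat_lit 312) (nat_lit 0) (nat_lit 252) (nat_lit 234) (nat_lit 234)) (XT.lf (nat_lit 1932) (nat_lit 2691945945) (nat_lit 84) (nat_lit 415592994) (nat_lit 0) (nat_lit 415592994) (nat_lit 312) (nat_lit 1) (nat_lit 290)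 (nat_lit 1) (nat_lit 289) (nat_lit 0) (nat_lit 253) (nat_lit 234) (nat_lit 233))) (XT.nd (nat_lit 94) (nat_lit 0) (nat_lit 0) (XT.lf (nat_lit 1932) (nat_lit 1320348706) (nat_lit 0) (nat_lit 844440621) (nat_lit 1848) (nat_lit 1320348706) (nat_lit 313) (nat_lit 1) (nat_lit 290) (nat_lit 1) (nat_lit 312) (nat_lit 1) (nat_lit 254) (nat_lit 234) (nat_lit 232)) (XT.lf (nat_lit 1932) (nat_lit 2584449024) (nat_lit 84) (nat_lit 431690802) (nat_lit 0) (nat_lit 431690802) (nat_lit 313) (nat_lit 1) (nat_lit 291) (nat_lit 1) (nat_lit 290) (nat_lit 1) (nat_lit 255) (nat_lit 234) (nat_lit 231)))) (XT.nd (nat_lit 188) (nat_lit 0) (nat_lit 84) (XT.nd (nat_lit 94) (nat_lit 0) (nat_lit 0) (XT.lf (nat_lit 1932) (nat_lit 1255298405) (nat_lit 0) (nat_lit 900324496) (nat_lit 1848) (nat_lit 1255298405) (nat_lit 314) (nat_lit 1) (nat_lit 291) (nat_lit 1) (nat_lit 313) (nat_lit 1) (nat_lit 256) (nat_lit 234) (nat_lit 230)) (XT.lf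 (nat_lit 1932) (nat_lit 2431827426) (nat_lit 84) (nat_lit 471419506) (nat_lit 0) (nat_lit 471419506) (nat_lit 314) (nat_lit 1) (nat_lit 292) (nat_lit 1) (nat_lit 291) (nat_lit 1) (nat_lit 257) (nat_lit 234) (nat_lit 229))) (XT.nd (nat_lit 94) (nat_lit 0) (nat_lit 0) (XT.lf (nat_lit 1932) (nat_lit 1168525044) (nat_lit 0) (nat_lit 1001760825) (nat_lit 1848) (nat_lit 1168525044) (nat_lit 315) (nat_lit 1) (nat_lit 292) (nat_lit 1) (nat_lit 314) (nat_lit 1) (nat_lit 258) (nat_lit 234) (nat_lit 228)) (XT.lf (nat_lit 1932) (nat_lit 2237072910) (nat_lit 84) (nat_lit 533249234) (nat_lit 0) (nat_lit 533249234) (nat_lit 315) (nat_lit 1) (nat_lit 293) (nat_lit 1) (nat_lit 292) (nat_lit 1) (nat_lit 259) (nat_lit 234) (nat_lit 227))))))) (XT.nd (nat_lit 44556) (nat_lit 0) (nat_lit 84) (XT.nd (nat_lit 658) (nat_lit 336) (nat_lit 0) (XT.nd (nat_lit 282) (nat_lit 0) (nat_lit 84) (XT.nd (nat_lit 94) (nat_lit 0) (nat_lit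 0) (XT.lf (nat_lit 1932) (nat_lit 1061481055) (nat_lit 0) (nat_lit 1145777739) (nat_lit 1848) (nat_lit 1061481055) (nat_lit 316) (nat_lit 1) (nat_lit 293) (nat_lit 1) (nat_lit 315) (nat_lit 1) (nat_lit 260) (nat_lit 234) (nat_lit 226)) (XT.nd (nat_lit 94) (nat_lit 0) (nat_lit 84) (XT.lf (nat_lit 1932) (nat_lit 2003026789) (nat_lit 84) (nat_lit 615726534) (nat_lit 0) (nat_lit 615726534) (nat_lit 316) (nat_lit 1) (nat_lit 294) (nat_lit 1) (nat_lit 293) (nat_lit 1) (nat_lit 261) (nat_lit 234) (nat_lit 225)) (XT.lf (nat_lit 1932) (nat_lit 935545659) (nat_lit 0) (nat_lit 1329552148) (nat_lit 1848) (nat_lit 935545659) (nat_lit 317) (nat_lit 1) (nat_lit 294) (nat_lit 1) (nat_lit 316) (nat_lit 1) (nat_lit 262) (nat_lit 234) (nat_lit 224)))) (XT.nd (nat_lit 188) (nat_lit 0) (nat_lit 84) (XT.nd (nat_lit 94) (nat_lit 0) (nat_lit 84) (XT.lf (nat_lit 1932) (nat_lit 1732386830) (nat_lit 84) (nat_lit 717470885) (nat_lit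 0) (nat_lit 717470885) (nat_lit 317) (nat_lit 1) (nat_lit 295) (nat_lit 1) (nat_lit 294) (nat_lit 1) (nat_lit 263) (nat_lit 234) (nat_lit 223)) (XT.lf (nat_lit 1932) (nat_lit 792028234) (nat_lit 0) (nat_lit 1550402933) (nat_lit 1848) (nat_lit 792028234) (nat_lit 318) (nat_lit 1) (nat_lit 295) (nat_lit 1) (nat_lit 317) (nat_lit 1) (nat_lit 264) (nat_lit 234) (nat_lit 222))) (XT.nd (nat_lit 94) (nat_lit 0) (nat_lit 84) (XT.lf (nat_lit 1932) (nat_lit 1427713850) (nat_lit 84) (nat_lit 837171349) (nat_lit 0) (nat_lit 837171349) (nat_lit 318) (nat_lit 1) (nat_lit 296) (nat_lit 1) (nat_lit 295) (nat_lit 1) (nat_lit 265) (nat_lit 234) (nat_lit 221)) (XT.lf (nat_lit 1932) (nat_lit 632171524) (nat_lit 0) (nat_lit 1805784426) (nat_lit 1848) (nat_lit 632171524) (nat_lit 319) (nat_lit 1) (nat_lit 296) (nat_lit 1) (nat_lit 318) (nat_lit 1) (nat_lit 266) (nat_lit 234) (nat_lit 220))))) (XT.nd (nat_lit 282) (nat_lit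 588) (nat_lit 0) (XT.nd (nat_lit 94) (nat_lit 0) (nat_lit 84) (XT.lf (nat_lit 1932) (nat_lit 1091438029) (nat_lit 84) (nat_lit 973583373) (nat_lit 0) (nat_lit 973583373) (nat_lit 319) (nat_lit 1) (nat_lit 297) (nat_lit 1) (nat_lit 296) (nat_lit 1) (nat_lit 267) (nat_lit 234) (nat_lit 219)) (XT.nd (nat_lit 94) (nat_lit 0) (nat_lit 0) (XT.lf (nat_lit 1932) (nat_lit 457154712) (nat_lit 0) (nat_lit 2093280184) (nat_lit 1848) (nat_lit 457154712) (nat_lit 320) (nat_lit 1) (nat_lit 297) (nat_lit 1) (nat_lit 319) (nat_lit 1) (nat_lit 268) (nat_lit 234) (nat_lit 218)) (XT.lf (nat_lit 1932) (nat_lit 725864934) (nat_lit 84) (nat_lit 1125525742) (nat_lit 0) (nat_lit 1125525742) (nat_lit 320) (nat_lit 1) (nat_lit 298) (nat_lit 1) (nat_lit 297) (nat_lit 1) (nat_lit 269) (nat_lit 234) (nat_lit 217)))) (XT.nd (nat_lit 43428) (nat_lit 0) (nat_lit 0) (XT.nd (nat_lit 43334) (nat_lit 756) (nat_lit 0) (XT.lf (nat_lit 1932)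 (nat_lit 268096360) (nat_lit 0) (nat_lit 2410597040) (nat_lit 1848) (nat_lit 268096360) (nat_lit 321) (nat_lit 1) (nat_lit 298) (nat_lit 1) (nat_lit 320) (nat_lit 1) (nat_lit 270) (nat_lit 234) (nat_lit 216)) (XT.lf (nat_lit 1932) (nat_lit 696057010) (nat_lit 0) (nat_lit 427828096) (nat_lit 1932) (nat_lit 696057010) (nat_lit 312) (nat_lit 1) (nat_lit 289) (nat_lit 0) (nat_lit 312) (nat_lit 0) (nat_lit 250) (nat_lit 235) (nat_lit 235))) (XT.nd (nat_lit 94) (nat_lit 0) (nat_lit 84) (XT.lf (nat_lit 1932) (nat_lit 2751168755) (nat_lit 84) (nat_lit 424736040) (nat_lit 0) (nat_lit 424736040) (nat_lit 312) (nat_lit 1) (nat_lit 290) (nat_lit 1) (nat_lit 289) (nat_lit 0) (nat_lit 251) (nat_lit 235) (nat_lit 234)) (XT.lf (nat_lit 1932) (nat_lit 1349396377) (nat_lit 0) (nat_lit 863018314) (nat_lit 1848) (nat_lit 1349396377) (nat_lit 313) (nat_lit 1) (nat_lit 290) (nat_lit 1) (nat_lit 312) (nat_lit 1) (nat_lit 252)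 (nat_lit 235) (nat_lit 233)))))) (XT.nd (nat_lit 658) (nat_lit 0) (nat_lit 336) (XT.nd (nat_lit 282) (nat_lit 0) (nat_lit 168) (XT.nd (nat_lit 94) (nat_lit 0) (nat_lit 84) (XT.lf (nat_lit 1932) (nat_lit 2641306903) (nat_lit 84) (nat_lit 441187999) (nat_lit 0) (nat_lit 441187999) (nat_lit 313) (nat_lit 1) (nat_lit 291) (nat_lit 1) (nat_lit 290) (nat_lit 1) (nat_lit 253) (nat_lit 235) (nat_lit 232)) (XT.nd (nat_lit 94) (nat_lit 0) (nat_lit 0) (XT.lf (nat_lit 1932) (nat_lit 1282914970) (nat_lit 0) (nat_lit 920131635) (nat_lit 1848) (nat_lit 1282914970) (nat_lit 314) (nat_lit 1) (nat_lit 291) (nat_lit 1) (nat_lit 313) (nat_lit 1) (nat_lit 254) (nat_lit 235) (nat_lit 231)) (XT.lf (nat_lit 1932) (nat_lit 2485327629) (nat_lit 84) (nat_lit 481790735) (nat_lit 0) (nat_lit 481790735) (nat_lit 314) (nat_lit 1) (nat_lit 292) (nat_lit 1) (nat_lit 291) (nat_lit 1) (nat_lit 255) (nat_lit 235) (nat_lit 230)))) (XT.nd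 (nat_lit 188) (nat_lit 0) (nat_lit 84) (XT.nd (nat_lit 94) (nat_lit 0) (nat_lit 0) (XT.lf (nat_lit 1932) (nat_lit 1194232595) (nat_lit 0) (nat_lit 1023799563) (nat_lit 1848) (nat_lit 1194232595) (nat_lit 315) (nat_lit 1) (nat_lit 292) (nat_lit 1) (nat_lit 314) (nat_lit 1) (nat_lit 256) (nat_lit 235) (nat_lit 229)) (XT.lf (nat_lit 1932) (nat_lit 2286288514) (nat_lit 84) (nat_lit 544980717) (nat_lit 0) (nat_lit 544980717) (nat_lit 315) (nat_lit 1) (nat_lit 293) (nat_lit 1) (nat_lit 292) (nat_lit 1) (nat_lit 257) (nat_lit 235) (nat_lit 228))) (XT.nd (nat_lit 94) (nat_lit 0) (nat_lit 0) (XT.lf (nat_lit 1932) (nat_lit 1084833638) (nat_lit 0) (nat_lit 1170984849) (nat_lit 1848) (nat_lit 1084833638) (nat_lit 316) (nat_lit 1) (nat_lit 293) (nat_lit 1) (nat_lit 315) (nat_lit 1) (nat_lit 258) (nat_lit 235) (nat_lit 227)) (XT.lf (nat_lit 1932) (nat_lit 2047093379) (nat_lit 84) (nat_lit 629272518) (nat_lit 0) (nat_lit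 629272518) (nat_lit 316) (nat_lit 1) (nat_lit 294) (nat_lit 1) (nat_lit 293) (nat_lit 1) (nat_lit 259) (nat_lit 235) (nat_lit 226))))) (XT.nd (nat_lit 376) (nat_lit 0) (nat_lit 168) (XT.nd (nat_lit 188) (nat_lit 0) (nat_lit 84) (XT.nd (nat_lit 94) (nat_lit 0) (nat_lit 0) (XT.lf (nat_lit 1932) (nat_lit 956127663) (nat_lit 0) (nat_lit 1358802296) (nat_lit 1848) (nat_lit 956127663) (nat_lit 317) (nat_lit 1) (nat_lit 294) (nat_lit 1) (nat_lit 316) (nat_lit 1) (nat_lit 260) (nat_lit 235) (nat_lit 225)) (XT.lf (nat_lit 1932) (nat_lit 1770499340) (nat_lit 84) (nat_lit 733255245) (nat_lit 0) (nat_lit 733255245) (nat_lit 317) (nat_lit 1) (nat_lit 295) (nat_lit 1) (nat_lit 294) (nat_lit 1) (nat_lit 261) (nat_lit 235) (nat_lit 224))) (XT.nd (nat_lit 94) (nat_lit 0) (nat_lit 0) (XT.lf (nat_lit 1932) (nat_lit 809452855) (nat_lit 0) (nat_lit 1584511798) (nat_lit 1848) (nat_lit 809452855) (nat_lit 318) (nat_lit 1)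 (nat_lit 295) (nat_lit 1) (nat_lit 317) (nat_lit 1) (nat_lit 262) (nat_lit 235) (nat_lit 223)) (XT.lf (nat_lit 1932) (nat_lit 1459123555) (nat_lit 84) (nat_lit 855589118) (nat_lit 0) (nat_lit 855589118) (nat_lit 318) (nat_lit 1) (nat_lit 296) (nat_lit 1) (nat_lit 295) (nat_lit 1) (nat_lit 263) (nat_lit 235) (nat_lit 222)))) (XT.nd (nat_lit 188) (nat_lit 0) (nat_lit 84) (XT.nd (nat_lit 94) (nat_lit 0) (nat_lit 0) (XT.lf (nat_lit 1932) (nat_lit 646079297) (nat_lit 0) (nat_lit 1845511683) (nat_lit 1848) (nat_lit 646079297) (nat_lit 319) (nat_lit 1) (nat_lit 296) (nat_lit 1) (nat_lit 318) (nat_lit 1) (nat_lit 264) (nat_lit 235) (nat_lit 221)) (XT.lf (nat_lit 1932) (nat_lit 1115449666) (nat_lit 84) (nat_lit 995002208) (nat_lit 0) (nat_lit 995002208) (nat_lit 319) (nat_lit 1) (nat_lit 297) (nat_lit 1) (nat_lit 296) (nat_lit 1) (nat_lit 265) (nat_lit 235) (nat_lit 220))) (XT.nd (nat_lit 94) (nat_lit 0) (nat_lit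 0) (XT.lf (nat_lit 1932) (nat_lit 467212116) (nat_lit 0) (nat_lit 2139332348) (nat_lit 1848) (nat_lit 467212116) (nat_lit 320) (nat_lit 1) (nat_lit 297) (nat_lit 1) (nat_lit 319) (nat_lit 1) (nat_lit 266) (nat_lit 235) (nat_lit 219)) (XT.lf (nat_lit 1932) (nat_lit 741833963) (nat_lit 84) (nat_lit 1150287308) (nat_lit 0) (nat_lit 1150287308) (nat_lit 320) (nat_lit 1) (nat_lit 298) (nat_lit 1) (nat_lit 297) (nat_lit 1) (nat_lit 267) (nat_lit 235) (nat_lit 218))))))))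
noncomputable def ec2 : XT := (XT.nd (nat_lit 88830) (nat_lit 0) (nat_lit 0) (XT.nd (nat_lit 44462) (nat_lit 1092) (nat_lit 0) (XT.nd (nat_lit 43804) (nat_lit 0) (nat_lit 168) (XT.nd (nat_lit 43428) (nat_lit 0) (nat_lit 0) (XT.nd (nat_lit 94) (nat_lit 756) (nat_lit 0) (XT.lf (nat_lit 1932) (nat_lit 273994480) (nat_lit 0) (nat_lit 2463630174) (nat_lit 1848) (nat_lit 273994480) (nat_lit 321) (nat_lit 1) (nat_lit 298) (nat_lit 1) (nat_lit 320) (nat_lit 1) (nat_lit 268) (nat_lit 235) (nat_lit 217)) (XT.nd (nat_lit 43240) (nat_lit 756) (nat_lit 0) (XT.lf (nat_lit 1932) (nat_lit 340511271) (nat_lit 84) (nat_lit 1320298958) (nat_lit 0) (nat_lit 1320298958) (nat_lit 321) (nat_lit 1) (nat_lit 299) (nat_lit 1) (nat_lit 298) (nat_lit 1) (nat_lit 269) (nat_lit 235) (nat_lit 216)) (XT.lf (nat_lit 1932) (nat_lit 711370264) (nat_lit 0) (nat_lit 437240314) (nat_lit 1932) (nat_lit 711370264) (nat_lit 312) (nat_lit 1)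 (nat_lit 289) (nat_lit 0) (nat_lit 312) (nat_lit 0) (nat_lit 248) (nat_lit 236) (nat_lit 236)))) (XT.nd (nat_lit 188) (nat_lit 0) (nat_lit 84) (XT.nd (nat_lit 94) (nat_lit 0) (nat_lit 84) (XT.lf (nat_lit 1932) (nat_lit 2811694468) (nat_lit 84) (nat_lit 434080233) (nat_lit 0) (nat_lit 434080233) (nat_lit 312) (nat_lit 1) (nat_lit 290) (nat_lit 1) (nat_lit 289) (nat_lit 0) (nat_lit 249) (nat_lit 236) (nat_lit 235)) (XT.lf (nat_lit 1932) (nat_lit 1379083098) (nat_lit 0) (nat_lit 882004717) (nat_lit 1848) (nat_lit 1379083098) (nat_lit 313) (nat_lit 1) (nat_lit 290) (nat_lit 1) (nat_lit 312) (nat_lit 1) (nat_lit 250) (nat_lit 236) (nat_lit 234))) (XT.nd (nat_lit 94) (nat_lit 0) (nat_lit 84) (XT.lf (nat_lit 1932) (nat_lit 2699415654) (nat_lit 84) (nat_lit 450894135) (nat_lit 0) (nat_lit 450894135) (nat_lit 313) (nat_lit 1) (nat_lit 291) (nat_lit 1) (nat_lit 290) (nat_lit 1) (nat_lit 251) (nat_lit 236) (nat_lit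 233)) (XT.lf (nat_lit 1932) (nat_lit 1311139099) (nat_lit 0) (nat_lit 940374531) (nat_lit 1848) (nat_lit 1311139099) (nat_lit 314) (nat_lit 1) (nat_lit 291) (nat_lit 1) (nat_lit 313) (nat_lit 1) (nat_lit 252) (nat_lit 236) (nat_lit 232))))) (XT.nd (nat_lit 282) (nat_lit 0) (nat_lit 168) (XT.nd (nat_lit 94) (nat_lit 0) (nat_lit 84) (XT.lf (nat_lit 1932) (nat_lit 2540004837) (nat_lit 84) (nat_lit 492390132) (nat_lit 0) (nat_lit 492390132) (nat_lit 314) (nat_lit 1) (nat_lit 292) (nat_lit 1) (nat_lit 291) (nat_lit 1) (nat_lit 253) (nat_lit 236) (nat_lit 231)) (XT.nd (nat_lit 94) (nat_lit 0) (nat_lit 0) (XT.lf (nat_lit 1932) (nat_lit 1220505712) (nat_lit 0) (nat_lit 1046323154) (nat_lit 1848) (nat_lit 1220505712) (nat_lit 315) (nat_lit 1) (nat_lit 292) (nat_lit 1) (nat_lit 314) (nat_lit 1) (nat_lit 254) (nat_lit 236) (nat_lit 230)) (XT.lf (nat_lit 1932) (nat_lit 2336586861) (nat_lit 84) (nat_lit 556970293)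 (nat_lit 0) (nat_lit 556970293) (nat_lit 315) (nat_lit 1) (nat_lit 293) (nat_lit 1) (nat_lit 292) (nat_lit 1) (nat_lit 255) (nat_lit 236) (nat_lit 229)))) (XT.nd (nat_lit 188) (nat_lit 0) (nat_lit 84) (XT.nd (nat_lit 94) (nat_lit 0) (nat_lit 0) (XT.lf (nat_lit 1932) (nat_lit 1108699978) (nat_lit 0) (nat_lit 1196746515) (nat_lit 1848) (nat_lit 1108699978) (nat_lit 316) (nat_lit 1) (nat_lit 293) (nat_lit 1) (nat_lit 315) (nat_lit 1) (nat_lit 256) (nat_lit 236) (nat_lit 228)) (XT.lf (nat_lit 1932) (nat_lit 2092129433) (nat_lit 84) (nat_lit 643116513) (nat_lit 0) (nat_lit 643116513) (nat_lit 316) (nat_lit 1) (nat_lit 294) (nat_lit 1) (nat_lit 293) (nat_lit 1) (nat_lit 257) (nat_lit 236) (nat_lit 227))) (XT.nd (nat_lit 94) (nat_lit 0) (nat_lit 0) (XT.lf (nat_lit 1932) (nat_lit 977162472) (nat_lit 0) (nat_lit 1388695946) (nat_lit 1848) (nat_lit 977162472) (nat_lit 317) (nat_lit 1) (nat_lit 294) (nat_lit 1)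 (nat_lit 316) (nat_lit 1) (nat_lit 258) (nat_lit 236) (nat_lit 226)) (XT.lf (nat_lit 1932) (nat_lit 1809450326) (nat_lit 84) (nat_lit 749386860) (nat_lit 0) (nat_lit 749386860) (nat_lit 317) (nat_lit 1) (nat_lit 295) (nat_lit 1) (nat_lit 294) (nat_lit 1) (nat_lit 259) (nat_lit 236) (nat_lit 225)))))) (XT.nd (nat_lit 658) (nat_lit 1596) (nat_lit 0) (XT.nd (nat_lit 282) (nat_lit 0) (nat_lit 84) (XT.nd (nat_lit 94) (nat_lit 0) (nat_lit 0) (XT.lf (nat_lit 1932) (nat_lit 827260818) (nat_lit 0) (nat_lit 1619371058) (nat_lit 1848) (nat_lit 827260818) (nat_lit 318) (nat_lit 1) (nat_lit 295) (nat_lit 1) (nat_lit 317) (nat_lit 1) (nat_lit 260) (nat_lit 236) (nat_lit 224)) (XT.nd (nat_lit 94) (nat_lit 0) (nat_lit 84) (XT.lf (nat_lit 1932) (nat_lit 1491224273) (nat_lit 84) (nat_lit 874412079) (nat_lit 0) (nat_lit 874412079) (nat_lit 318) (nat_lit 1) (nat_lit 296) (nat_lit 1) (nat_lit 295) (nat_lit 1) (nat_lit 261)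 (nat_lit 236) (nat_lit 223)) (XT.lf (nat_lit 1932) (nat_lit 660293042) (nat_lit 0) (nat_lit 1886112940) (nat_lit 1848) (nat_lit 660293042) (nat_lit 319) (nat_lit 1) (nat_lit 296) (nat_lit 1) (nat_lit 318) (nat_lit 1) (nat_lit 262) (nat_lit 236) (nat_lit 222)))) (XT.nd (nat_lit 188) (nat_lit 0) (nat_lit 84) (XT.nd (nat_lit 94) (nat_lit 0) (nat_lit 84) (XT.lf (nat_lit 1932) (nat_lit 1139989558) (nat_lit 84) (nat_lit 1016892256) (nat_lit 0) (nat_lit 1016892256) (nat_lit 319) (nat_lit 1) (nat_lit 297) (nat_lit 1) (nat_lit 296) (nat_lit 1) (nat_lit 263) (nat_lit 236) (nat_lit 221)) (XT.lf (nat_lit 1932) (nat_lit 477490783) (nat_lit 0) (nat_lit 2186397660) (nat_lit 1848) (nat_lit 477490783) (nat_lit 320) (nat_lit 1) (nat_lit 297) (nat_lit 1) (nat_lit 319) (nat_lit 1) (nat_lit 264) (nat_lit 236) (nat_lit 220))) (XT.nd (nat_lit 94) (nat_lit 0) (nat_lit 84) (XT.lf (nat_lit 1932) (nat_lit 758154310) (nat_lit 84)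 (nat_lit 1175593629) (nat_lit 0) (nat_lit 1175593629) (nat_lit 320) (nat_lit 1) (nat_lit 298) (nat_lit 1) (nat_lit 297) (nat_lit 1) (nat_lit 265) (nat_lit 236) (nat_lit 219)) (XT.lf (nat_lit 1932) (nat_lit 280022358) (nat_lit 0) (nat_lit 2517830038) (nat_lit 1848) (nat_lit 280022358) (nat_lit 321) (nat_lit 1) (nat_lit 298) (nat_lit 1) (nat_lit 320) (nat_lit 1) (nat_lit 266) (nat_lit 236) (nat_lit 218))))) (XT.nd (nat_lit 43334) (nat_lit 0) (nat_lit 1092) (XT.nd (nat_lit 188) (nat_lit 1848) (nat_lit 0) (XT.nd (nat_lit 94) (nat_lit 0) (nat_lit 84) (XT.lf (nat_lit 1932) (nat_lit 348002519) (nat_lit 84) (nat_lit 1349345535) (nat_lit 0) (nat_lit 1349345535) (nat_lit 321) (nat_lit 1) (nat_lit 299) (nat_lit 1) (nat_lit 298) (nat_lit 1) (nat_lit 267) (nat_lit 236) (nat_lit 217)) (XT.lf (nat_lit 1932) (nat_lit 68995695) (nat_lit 0) (nat_lit 2878137717) (nat_lit 1848) (nat_lit 68995695) (nat_lit 322) (nat_lit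 1) (nat_lit 299) (nat_lit 1) (nat_lit 321) (nat_lit 1) (nat_lit 268) (nat_lit 236) (nat_lit 216))) (XT.nd (nat_lit 43052) (nat_lit 0) (nat_lit 1092) (XT.lf (nat_lit 2016) (nat_lit 1449366275) (nat_lit 0) (nat_lit 87028404) (nat_lit 1932) (nat_lit 1449366275) (nat_lit 300) (nat_lit 1) (nat_lit 276) (nat_lit 1) (nat_lit 299) (nat_lit 1) (nat_lit 269) (nat_lit 236) (nat_lit 215)) (XT.lf (nat_lit 1932) (nat_lit 727020410) (nat_lit 0) (nat_lit 446859601) (nat_lit 1932) (nat_lit 727020410) (nat_lit 312) (nat_lit 1) (nat_lit 289) (nat_lit 0) (nat_lit 312) (nat_lit 0) (nat_lit 246) (nat_lit 237) (nat_lit 237)))) (XT.nd (nat_lit 188) (nat_lit 0) (nat_lit 84) (XT.nd (nat_lit 94) (nat_lit 0) (nat_lit 84) (XT.lf (nat_lit 1932) (nat_lit 2873551746) (nat_lit 84) (nat_lit 443629998) (nat_lit 0) (nat_lit 443629998) (nat_lit 312) (nat_lit 1) (nat_lit 290) (nat_lit 1) (nat_lit 289) (nat_lit 0) (nat_lit 247) (nat_lit 237)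 (nat_lit 236)) (XT.lf (nat_lit 1932) (nat_lit 1409422926) (nat_lit 0) (nat_lit 901408821) (nat_lit 1848) (nat_lit 1409422926) (nat_lit 313) (nat_lit 1) (nat_lit 290) (nat_lit 1) (nat_lit 312) (nat_lit 1) (nat_lit 248) (nat_lit 237) (nat_lit 235))) (XT.nd (nat_lit 94) (nat_lit 0) (nat_lit 84) (XT.lf (nat_lit 1932) (nat_lit 2758802799) (nat_lit 84) (nat_lit 460813806) (nat_lit 0) (nat_lit 460813806) (nat_lit 313) (nat_lit 1) (nat_lit 291) (nat_lit 1) (nat_lit 290) (nat_lit 1) (nat_lit 249) (nat_lit 237) (nat_lit 234)) (XT.lf (nat_lit 1932) (nat_lit 1339984159) (nat_lit 0) (nat_lit 961062771) (nat_lit 1848) (nat_lit 1339984159) (nat_lit 314) (nat_lit 1) (nat_lit 291) (nat_lit 1) (nat_lit 313) (nat_lit 1) (nat_lit 250) (nat_lit 237) (nat_lit 233))))))) (XT.nd (nat_lit 1316) (nat_lit 1260) (nat_lit 0) (XT.nd (nat_lit 658) (nat_lit 0) (nat_lit 336) (XT.nd (nat_lit 282) (nat_lit 0) (nat_lit 168) (XT.nd (nat_lit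 94) (nat_lit 0) (nat_lit 84) (XT.lf (nat_lit 1932) (nat_lit 2595884943) (nat_lit 84) (nat_lit 503222715) (nat_lit 0) (nat_lit 503222715) (nat_lit 314) (nat_lit 1) (nat_lit 292) (nat_lit 1) (nat_lit 291) (nat_lit 1) (nat_lit 251) (nat_lit 237) (nat_lit 232)) (XT.nd (nat_lit 94) (nat_lit 0) (nat_lit 0) (XT.lf (nat_lit 1932) (nat_lit 1247356838) (nat_lit 0) (nat_lit 1069342263) (nat_lit 1848) (nat_lit 1247356838) (nat_lit 315) (nat_lit 1) (nat_lit 292) (nat_lit 1) (nat_lit 314) (nat_lit 1) (nat_lit 252) (nat_lit 237) (nat_lit 231)) (XT.lf (nat_lit 1932) (nat_lit 2387991772) (nat_lit 84) (nat_lit 569223639) (nat_lit 0) (nat_lit 569223639) (nat_lit 315) (nat_lit 1) (nat_lit 293) (nat_lit 1) (nat_lit 292) (nat_lit 1) (nat_lit 253) (nat_lit 237) (nat_lit 230)))) (XT.nd (nat_lit 188) (nat_lit 0) (nat_lit 84) (XT.nd (nat_lit 94) (nat_lit 0) (nat_lit 0) (XT.lf (nat_lit 1932) (nat_lit 1133091377) (nat_lit 0) (nat_lit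 1223074939) (nat_lit 1848) (nat_lit 1133091377) (nat_lit 316) (nat_lit 1) (nat_lit 293) (nat_lit 1) (nat_lit 315) (nat_lit 1) (nat_lit 254) (nat_lit 237) (nat_lit 229)) (XT.lf (nat_lit 1932) (nat_lit 2138156281) (nat_lit 84) (nat_lit 657265077) (nat_lit 0) (nat_lit 657265077) (nat_lit 316) (nat_lit 1) (nat_lit 294) (nat_lit 1) (nat_lit 293) (nat_lit 1) (nat_lit 255) (nat_lit 237) (nat_lit 228))) (XT.nd (nat_lit 94) (nat_lit 0) (nat_lit 0) (XT.lf (nat_lit 1932) (nat_lit 998660046) (nat_lit 0) (nat_lit 1419247257) (nat_lit 1848) (nat_lit 998660046) (nat_lit 317) (nat_lit 1) (nat_lit 294) (nat_lit 1) (nat_lit 316) (nat_lit 1) (nat_lit 256) (nat_lit 237) (nat_lit 227)) (XT.lf (nat_lit 1932) (nat_lit 1849258233) (nat_lit 84) (nat_lit 765873371) (nat_lit 0) (nat_lit 765873371) (nat_lit 317) (nat_lit 1) (nat_lit 295) (nat_lit 1) (nat_lit 294) (nat_lit 1) (nat_lit 257) (nat_lit 237) (nat_lit 226))))) (XT.nd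 (nat_lit 282) (nat_lit 0) (nat_lit 84) (XT.nd (nat_lit 94) (nat_lit 0) (nat_lit 0) (XT.lf (nat_lit 1932) (nat_lit 845460556) (nat_lit 0) (nat_lit 1654997221) (nat_lit 1848) (nat_lit 845460556) (nat_lit 318) (nat_lit 1) (nat_lit 295) (nat_lit 1) (nat_lit 317) (nat_lit 1) (nat_lit 258) (nat_lit 237) (nat_lit 225)) (XT.nd (nat_lit 94) (nat_lit 0) (nat_lit 84) (XT.lf (nat_lit 1932) (nat_lit 1524031207) (nat_lit 84) (nat_lit 893649145) (nat_lit 0) (nat_lit 893649145) (nat_lit 318) (nat_lit 1) (nat_lit 296) (nat_lit 1) (nat_lit 295) (nat_lit 1) (nat_lit 259) (nat_lit 237) (nat_lit 224)) (XT.lf (nat_lit 1932) (nat_lit 674819489) (nat_lit 0) (nat_lit 1927607425) (nat_lit 1848) (nat_lit 674819489) (nat_lit 319) (nat_lit 1) (nat_lit 296) (nat_lit 1) (nat_lit 318) (nat_lit 1) (nat_lit 260) (nat_lit 237) (nat_lit 223)))) (XT.nd (nat_lit 188) (nat_lit 0) (nat_lit 84) (XT.nd (nat_lit 94) (nat_lit 0) (nat_lit 84) (XT.lf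 (nat_lit 1932) (nat_lit 1165069329) (nat_lit 84) (nat_lit 1039263886) (nat_lit 0) (nat_lit 1039263886) (nat_lit 319) (nat_lit 1) (nat_lit 297) (nat_lit 1) (nat_lit 296) (nat_lit 1) (nat_lit 261) (nat_lit 237) (nat_lit 222)) (XT.lf (nat_lit 1932) (nat_lit 487995580) (nat_lit 0) (nat_lit 2234498408) (nat_lit 1848) (nat_lit 487995580) (nat_lit 320) (nat_lit 1) (nat_lit 297) (nat_lit 1) (nat_lit 319) (nat_lit 1) (nat_lit 262) (nat_lit 237) (nat_lit 221))) (XT.nd (nat_lit 94) (nat_lit 0) (nat_lit 84) (XT.lf (nat_lit 1932) (nat_lit 774833705) (nat_lit 84) (nat_lit 1201456689) (nat_lit 0) (nat_lit 1201456689) (nat_lit 320) (nat_lit 1) (nat_lit 298) (nat_lit 1) (nat_lit 297) (nat_lit 1) (nat_lit 263) (nat_lit 237) (nat_lit 220)) (XT.lf (nat_lit 1932) (nat_lit 286182850) (nat_lit 0) (nat_lit 2573222299) (nat_lit 1848) (nat_lit 286182850) (nat_lit 321) (nat_lit 1) (nat_lit 298) (nat_lit 1) (nat_lit 320) (nat_lit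 1) (nat_lit 264) (nat_lit 237) (nat_lit 219)))))) (XT.nd (nat_lit 43428) (nat_lit 0) (nat_lit 1176) (XT.nd (nat_lit 282) (nat_lit 0) (nat_lit 0) (XT.nd (nat_lit 94) (nat_lit 1848) (nat_lit 0) (XT.lf (nat_lit 1932) (nat_lit 355658574) (nat_lit 84) (nat_lit 1379031137) (nat_lit 0) (nat_lit 1379031137) (nat_lit 321) (nat_lit 1) (nat_lit 299) (nat_lit 1) (nat_lit 298) (nat_lit 1) (nat_lit 265) (nat_lit 237) (nat_lit 218)) (XT.nd (nat_lit 94) (nat_lit 1932) (nat_lit 0) (XT.lf (nat_lit 1932) (nat_lit 70513600) (nat_lit 0) (nat_lit 2941456747) (nat_lit 1848) (nat_lit 70513600) (nat_lit 322) (nat_lit 1) (nat_lit 299) (nat_lit 1) (nat_lit 321) (nat_lit 1) (nat_lit 266) (nat_lit 237) (nat_lit 217)) (XT.lf (nat_lit 2016) (nat_lit 1481252333) (nat_lit 0) (nat_lit 88943029) (nat_lit 1932) (nat_lit 1481252333) (nat_lit 300) (nat_lit 1) (nat_lit 276) (nat_lit 1) (nat_lit 299) (nat_lit 1) (nat_lit 267) (nat_lit 237)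 (nat_lit 216)))) (XT.nd (nat_lit 42958) (nat_lit 0) (nat_lit 1092) (XT.nd (nat_lit 94) (nat_lit 0) (nat_lit 84) (XT.lf (nat_lit 2016) (nat_lit 2707427799) (nat_lit 84) (nat_lit 156797248) (nat_lit 0) (nat_lit 156797248) (nat_lit 300) (nat_lit 1) (nat_lit 277) (nat_lit 1) (nat_lit 276) (nat_lit 1) (nat_lit 268) (nat_lit 237) (nat_lit 215)) (XT.lf (nat_lit 84) (nat_lit 1219065945) (nat_lit 0) (nat_lit 552695671) (nat_lit 1932) (nat_lit 1219065945) (nat_lit 278) (nat_lit 1) (nat_lit 277) (nat_lit 1) (nat_lit 300) (nat_lit 1) (nat_lit 269) (nat_lit 237) (nat_lit 214))) (XT.nd (nat_lit 94) (nat_lit 0) (nat_lit 0) (XT.lf (nat_lit 1932) (nat_lit 743014859) (nat_lit 0) (nat_lit 456690512) (nat_lit 1932) (nat_lit 743014859) (nat_lit 312) (nat_lit 1) (nat_lit 289) (nat_lit 0) (nat_lit 312) (nat_lit 0) (nat_lit 244) (nat_lit 238) (nat_lit 238)) (XT.lf (nat_lit 1932) (nat_lit 2936769885) (nat_lit 84) (nat_lit 453389858)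 (nat_lit 0) (nat_lit 453389858) (nat_lit 312) (nat_lit 1) (nat_lit 290) (nat_lit 1) (nat_lit 289) (nat_lit 0) (nat_lit 245) (nat_lit 238) (nat_lit 237))))) (XT.nd (nat_lit 376) (nat_lit 0) (nat_lit 168) (XT.nd (nat_lit 188) (nat_lit 0) (nat_lit 84) (XT.nd (nat_lit 94) (nat_lit 0) (nat_lit 0) (XT.lf (nat_lit 1932) (nat_lit 1440430230) (nat_lit 0) (nat_lit 921239815) (nat_lit 1848) (nat_lit 1440430230) (nat_lit 313) (nat_lit 1) (nat_lit 290) (nat_lit 1) (nat_lit 312) (nat_lit 1) (nat_lit 246) (nat_lit 238) (nat_lit 236)) (XT.lf (nat_lit 1932) (nat_lit 2819496460) (nat_lit 84) (nat_lit 470951710) (nat_lit 0) (nat_lit 470951710) (nat_lit 313) (nat_lit 1) (nat_lit 291) (nat_lit 1) (nat_lit 290) (nat_lit 1) (nat_lit 247) (nat_lit 238) (nat_lit 235))) (XT.nd (nat_lit 94) (nat_lit 0) (nat_lit 0) (XT.lf (nat_lit 1932) (nat_lit 1369463811) (nat_lit 0) (nat_lit 982206152) (nat_lit 1848) (nat_lit 1369463811) (nat_lit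 314) (nat_lit 1) (nat_lit 291) (nat_lit 1) (nat_lit 313) (nat_lit 1) (nat_lit 248) (nat_lit 238) (nat_lit 234)) (XT.lf (nat_lit 1932) (nat_lit 2652994412) (nat_lit 84) (nat_lit 514293614) (nat_lit 0) (nat_lit 514293614) (nat_lit 314) (nat_lit 1) (nat_lit 292) (nat_lit 1) (nat_lit 291) (nat_lit 1) (nat_lit 249) (nat_lit 238) (nat_lit 233)))) (XT.nd (nat_lit 188) (nat_lit 0) (nat_lit 84) (XT.nd (nat_lit 94) (nat_lit 0) (nat_lit 0) (XT.lf (nat_lit 1932) (nat_lit 1274798688) (nat_lit 0) (nat_lit 1092867793) (nat_lit 1848) (nat_lit 1274798688) (nat_lit 315) (nat_lit 1) (nat_lit 292) (nat_lit 1) (nat_lit 314) (nat_lit 1) (nat_lit 250) (nat_lit 238) (nat_lit 232)) (XT.lf (nat_lit 1932) (nat_lit 2440527591) (nat_lit 84) (nat_lit 581746559) (nat_lit 0) (nat_lit 581746559) (nat_lit 315) (nat_lit 1) (nat_lit 293) (nat_lit 1) (nat_lit 292) (nat_lit 1) (nat_lit 251) (nat_lit 238) (nat_lit 231))) (XT.nd (nat_lit 94)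 (nat_lit 0) (nat_lit 0) (XT.lf (nat_lit 1932) (nat_lit 1158019388) (nat_lit 0) (nat_lit 1249982587) (nat_lit 1848) (nat_lit 1158019388) (nat_lit 316) (nat_lit 1) (nat_lit 293) (nat_lit 1) (nat_lit 315) (nat_lit 1) (nat_lit 252) (nat_lit 238) (nat_lit 230)) (XT.lf (nat_lit 1932) (nat_lit 2185195719) (nat_lit 84) (nat_lit 671724908) (nat_lit 0) (nat_lit 671724908) (nat_lit 316) (nat_lit 1) (nat_lit 294) (nat_lit 1) (nat_lit 293) (nat_lit 1) (nat_lit 253) (nat_lit 238) (nat_lit 229))))))))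
noncomputable def ec3 : XT := (XT.nd (nat_lit 45308) (nat_lit 924) (nat_lit 0) (XT.nd (nat_lit 1316) (nat_lit 1008) (nat_lit 0) (XT.nd (nat_lit 658) (nat_lit 1512) (nat_lit 0) (XT.nd (nat_lit 282) (nat_lit 0) (nat_lit 84) (XT.nd (nat_lit 94) (nat_lit 0) (nat_lit 0) (XT.lf (nat_lit 1932) (nat_lit 1020630567) (nat_lit 0) (nat_lit 1450470697) (nat_lit 1848) (nat_lit 1020630567) (nat_lit 317) (nat_lit 1) (nat_lit 294) (nat_lit 1) (nat_lit 316) (nat_lit 1) (nat_lit 254) (nat_lit 238) (nat_lit 228)) (XT.nd (nat_lit 94) (nat_lit 0) (nat_lit 84) (XT.lf (nat_lit 1932) (nat_lit 1889941914) (nat_lit 84) (nat_lit 782722585) (nat_lit 0) (nat_lit 782722585) (nat_lit 317) (nat_lit 1) (nat_lit 295) (nat_lit 1) (nat_lit 294) (nat_lit 1) (nat_lit 255) (nat_lit 238) (nat_lit 227)) (XT.lf (nat_lit 1932) (nat_lit 864060688) (nat_lit 0) (nat_lit 1691407160) (nat_lit 1848) (nat_lit 864060688) (nat_lit 318) (nat_lit 1) (nat_lit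 295) (nat_lit 1) (nat_lit 317) (nat_lit 1) (nat_lit 256) (nat_lit 238) (nat_lit 226)))) (XT.nd (nat_lit 188) (nat_lit 0) (nat_lit 84) (XT.nd (nat_lit 94) (nat_lit 0) (nat_lit 84) (XT.lf (nat_lit 1932) (nat_lit 1557559893) (nat_lit 84) (nat_lit 913309426) (nat_lit 0) (nat_lit 913309426) (nat_lit 318) (nat_lit 1) (nat_lit 296) (nat_lit 1) (nat_lit 295) (nat_lit 1) (nat_lit 257) (nat_lit 238) (nat_lit 225)) (XT.lf (nat_lit 1932) (nat_lit 689665517) (nat_lit 0) (nat_lit 1970014788) (nat_lit 1848) (nat_lit 689665517) (nat_lit 319) (nat_lit 1) (nat_lit 296) (nat_lit 1) (nat_lit 318) (nat_lit 1) (nat_lit 258) (nat_lit 238) (nat_lit 224))) (XT.nd (nat_lit 94) (nat_lit 0) (nat_lit 84) (XT.lf (nat_lit 1932) (nat_lit 1190700854) (nat_lit 84) (nat_lit 1062127691) (nat_lit 0) (nat_lit 1062127691) (nat_lit 319) (nat_lit 1) (nat_lit 297) (nat_lit 1) (nat_lit 296) (nat_lit 1) (nat_lit 259) (nat_lit 238) (nat_lit 223))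 (XT.lf (nat_lit 1932) (nat_lit 498731483) (nat_lit 0) (nat_lit 2283657373) (nat_lit 1848) (nat_lit 498731483) (nat_lit 320) (nat_lit 1) (nat_lit 297) (nat_lit 1) (nat_lit 319) (nat_lit 1) (nat_lit 260) (nat_lit 238) (nat_lit 222))))) (XT.nd (nat_lit 282) (nat_lit 1764) (nat_lit 0) (XT.nd (nat_lit 94) (nat_lit 0) (nat_lit 84) (XT.lf (nat_lit 1932) (nat_lit 791880046) (nat_lit 84) (nat_lit 1227888736) (nat_lit 0) (nat_lit 1227888736) (nat_lit 320) (nat_lit 1) (nat_lit 298) (nat_lit 1) (nat_lit 297) (nat_lit 1) (nat_lit 261) (nat_lit 238) (nat_lit 221)) (XT.nd (nat_lit 94) (nat_lit 0) (nat_lit 0) (XT.lf (nat_lit 1932) (nat_lit 292478873) (nat_lit 0) (nat_lit 2629833190) (nat_lit 1848) (nat_lit 292478873) (nat_lit 321) (nat_lit 1) (nat_lit 298) (nat_lit 1) (nat_lit 320) (nat_lit 1) (nat_lit 262) (nat_lit 238) (nat_lit 220)) (XT.lf (nat_lit 1932) (nat_lit 363483063) (nat_lit 84) (nat_lit 1409369822) (nat_lit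 0) (nat_lit 1409369822) (nat_lit 321) (nat_lit 1) (nat_lit 299) (nat_lit 1) (nat_lit 298) (nat_lit 1) (nat_lit 263) (nat_lit 238) (nat_lit 219)))) (XT.nd (nat_lit 188) (nat_lit 0) (nat_lit 0) (XT.nd (nat_lit 94) (nat_lit 1932) (nat_lit 0) (XT.lf (nat_lit 1932) (nat_lit 72064899) (nat_lit 0) (nat_lit 3006168795) (nat_lit 1848) (nat_lit 72064899) (nat_lit 322) (nat_lit 1) (nat_lit 299) (nat_lit 1) (nat_lit 321) (nat_lit 1) (nat_lit 264) (nat_lit 238) (nat_lit 218)) (XT.lf (nat_lit 2016) (nat_lit 1513839885) (nat_lit 0) (nat_lit 90899775) (nat_lit 1932) (nat_lit 1513839885) (nat_lit 300) (nat_lit 1) (nat_lit 276) (nat_lit 1) (nat_lit 299) (nat_lit 1) (nat_lit 265) (nat_lit 238) (nat_lit 217))) (XT.nd (nat_lit 94) (nat_lit 0) (nat_lit 84) (XT.lf (nat_lit 2016) (nat_lit 2766991210) (nat_lit 84) (nat_lit 160246788) (nat_lit 0) (nat_lit 160246788) (nat_lit 300) (nat_lit 1) (nat_lit 277) (nat_lit 1) (nat_lit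 276) (nat_lit 1) (nat_lit 266) (nat_lit 238) (nat_lit 216)) (XT.lf (nat_lit 84) (nat_lit 1245885396) (nat_lit 0) (nat_lit 564854976) (nat_lit 1932) (nat_lit 1245885396) (nat_lit 278) (nat_lit 1) (nat_lit 277) (nat_lit 1) (nat_lit 300) (nat_lit 1) (nat_lit 267) (nat_lit 238) (nat_lit 215)))))) (XT.nd (nat_lit 43240) (nat_lit 0) (nat_lit 2268) (XT.nd (nat_lit 42864) (nat_lit 0) (nat_lit 2100) (XT.nd (nat_lit 94) (nat_lit 0) (nat_lit 0) (XT.lf (nat_lit 1176) (nat_lit 2218392489) (nat_lit 0) (nat_lit 403975332) (nat_lit 1092) (nat_lit 403975332) (nat_lit 278) (nat_lit 1) (nat_lit 264) (nat_lit 1) (nat_lit 277) (nat_lit 1) (nat_lit 268) (nat_lit 238) (nat_lit 214)) (XT.nd (nat_lit 42676) (nat_lit 0) (nat_lit 2100) (XT.lf (nat_lit 84) (nat_lit 967374631) (nat_lit 0) (nat_lit 1061615508) (nat_lit 1176) (nat_lit 967374631) (nat_lit 265) (nat_lit 1) (nat_lit 264) (nat_lit 1) (nat_lit 278) (nat_lit 1) (nat_lit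 269) (nat_lit 238) (nat_lit 213)) (XT.lf (nat_lit 1932) (nat_lit 759361186) (nat_lit 0) (nat_lit 466737703) (nat_lit 1932) (nat_lit 759361186) (nat_lit 312) (nat_lit 1) (nat_lit 289) (nat_lit 0) (nat_lit 312) (nat_lit 0) (nat_lit 242) (nat_lit 239) (nat_lit 239)))) (XT.nd (nat_lit 188) (nat_lit 0) (nat_lit 84) (XT.nd (nat_lit 94) (nat_lit 0) (nat_lit 84) (XT.lf (nat_lit 1932) (nat_lit 3001378822) (nat_lit 84) (nat_lit 463364435) (nat_lit 0) (nat_lit 463364435) (nat_lit 312) (nat_lit 1) (nat_lit 290) (nat_lit 1) (nat_lit 289) (nat_lit 0) (nat_lit 243) (nat_lit 239) (nat_lit 238)) (XT.lf (nat_lit 1932) (nat_lit 1472119695) (nat_lit 0) (nat_lit 941507091) (nat_lit 1848) (nat_lit 1472119695) (nat_lit 313) (nat_lit 1) (nat_lit 290) (nat_lit 1) (nat_lit 312) (nat_lit 1) (nat_lit 244) (nat_lit 239) (nat_lit 237))) (XT.nd (nat_lit 94) (nat_lit 0) (nat_lit 84) (XT.lf (nat_lit 1932) (nat_lit 2881525383) (nat_lit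 84) (nat_lit 481312648) (nat_lit 0) (nat_lit 481312648) (nat_lit 313) (nat_lit 1) (nat_lit 291) (nat_lit 1) (nat_lit 290) (nat_lit 1) (nat_lit 245) (nat_lit 239) (nat_lit 236)) (XT.lf (nat_lit 1932) (nat_lit 1399592015) (nat_lit 0) (nat_lit 1003814687) (nat_lit 1848) (nat_lit 1399592015) (nat_lit 314) (nat_lit 1) (nat_lit 291) (nat_lit 1) (nat_lit 313) (nat_lit 1) (nat_lit 246) (nat_lit 239) (nat_lit 235))))) (XT.nd (nat_lit 376) (nat_lit 0) (nat_lit 168) (XT.nd (nat_lit 188) (nat_lit 0) (nat_lit 84) (XT.nd (nat_lit 94) (nat_lit 0) (nat_lit 84) (XT.lf (nat_lit 1932) (nat_lit 2711360289) (nat_lit 84) (nat_lit 525608074) (nat_lit 0) (nat_lit 525608074) (nat_lit 314) (nat_lit 1) (nat_lit 292) (nat_lit 1) (nat_lit 291) (nat_lit 1) (nat_lit 247) (nat_lit 239) (nat_lit 234)) (XT.lf (nat_lit 1932) (nat_lit 1302844259) (nat_lit 0) (nat_lit 1116910884) (nat_lit 1848) (nat_lit 1302844259) (nat_lit 315) (nat_lit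 1) (nat_lit 292) (nat_lit 1) (nat_lit 314) (nat_lit 1) (nat_lit 248) (nat_lit 239) (nat_lit 233))) (XT.nd (nat_lit 94) (nat_lit 0) (nat_lit 84) (XT.lf (nat_lit 1932) (nat_lit 2494219198) (nat_lit 84) (nat_lit 594544983) (nat_lit 0) (nat_lit 594544983) (nat_lit 315) (nat_lit 1) (nat_lit 293) (nat_lit 1) (nat_lit 292) (nat_lit 1) (nat_lit 249) (nat_lit 239) (nat_lit 232)) (XT.lf (nat_lit 1932) (nat_lit 1183495814) (nat_lit 0) (nat_lit 1277482204) (nat_lit 1848) (nat_lit 1183495814) (nat_lit 316) (nat_lit 1) (nat_lit 293) (nat_lit 1) (nat_lit 315) (nat_lit 1) (nat_lit 250) (nat_lit 239) (nat_lit 231)))) (XT.nd (nat_lit 188) (nat_lit 0) (nat_lit 84) (XT.nd (nat_lit 94) (nat_lit 0) (nat_lit 84) (XT.lf (nat_lit 1932) (nat_lit 2233270025) (nat_lit 84) (nat_lit 686502856) (nat_lit 0) (nat_lit 686502856) (nat_lit 316) (nat_lit 1) (nat_lit 294) (nat_lit 1) (nat_lit 293) (nat_lit 1) (nat_lit 251) (nat_lit 239)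 (nat_lit 230)) (XT.lf (nat_lit 1932) (nat_lit 1043084440) (nat_lit 0) (nat_lit 1482381052) (nat_lit 1848) (nat_lit 1043084440) (nat_lit 317) (nat_lit 1) (nat_lit 294) (nat_lit 1) (nat_lit 316) (nat_lit 1) (nat_lit 252) (nat_lit 239) (nat_lit 229))) (XT.nd (nat_lit 94) (nat_lit 0) (nat_lit 84) (XT.lf (nat_lit 1932) (nat_lit 1931520636) (nat_lit 84) (nat_lit 799942482) (nat_lit 0) (nat_lit 799942482) (nat_lit 317) (nat_lit 1) (nat_lit 295) (nat_lit 1) (nat_lit 294) (nat_lit 1) (nat_lit 253) (nat_lit 239) (nat_lit 228)) (XT.lf (nat_lit 1932) (nat_lit 883070023) (nat_lit 0) (nat_lit 1728618117) (nat_lit 1848) (nat_lit 883070023) (nat_lit 318) (nat_lit 1) (nat_lit 295) (nat_lit 1) (nat_lit 317) (nat_lit 1) (nat_lit 254) (nat_lit 239) (nat_lit 227))))))) (XT.nd (nat_lit 43804) (nat_lit 0) (nat_lit 3024) (XT.nd (nat_lit 658) (nat_lit 3528) (nat_lit 0) (XT.nd (nat_lit 282) (nat_lit 0) (nat_lit 168) (XT.nd (nat_lit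 94) (nat_lit 0) (nat_lit 84) (XT.lf (nat_lit 1932) (nat_lit 1591826211) (nat_lit 84) (nat_lit 933402233) (nat_lit 0) (nat_lit 933402233) (nat_lit 318) (nat_lit 1) (nat_lit 296) (nat_lit 1) (nat_lit 295) (nat_lit 1) (nat_lit 255) (nat_lit 239) (nat_lit 226)) (XT.nd (nat_lit 94) (nat_lit 0) (nat_lit 0) (XT.lf (nat_lit 1932) (nat_lit 704838159) (nat_lit 0) (nat_lit 2013355114) (nat_lit 1848) (nat_lit 704838159) (nat_lit 319) (nat_lit 1) (nat_lit 296) (nat_lit 1) (nat_lit 318) (nat_lit 1) (nat_lit 256) (nat_lit 239) (nat_lit 225)) (XT.lf (nat_lit 1932) (nat_lit 1216896273) (nat_lit 84) (nat_lit 1085494500) (nat_lit 0) (nat_lit 1085494500) (nat_lit 319) (nat_lit 1) (nat_lit 297) (nat_lit 1) (nat_lit 296) (nat_lit 1) (nat_lit 257) (nat_lit 239) (nat_lit 224)))) (XT.nd (nat_lit 188) (nat_lit 0) (nat_lit 84) (XT.nd (nat_lit 94) (nat_lit 0) (nat_lit 0) (XT.lf (nat_lit 1932) (nat_lit 509703575) (nat_lit 0) (nat_lit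 2333897835) (nat_lit 1848) (nat_lit 509703575) (nat_lit 320) (nat_lit 1) (nat_lit 297) (nat_lit 1) (nat_lit 319) (nat_lit 1) (nat_lit 258) (nat_lit 239) (nat_lit 223)) (XT.lf (nat_lit 1932) (nat_lit 809301407) (nat_lit 84) (nat_lit 1254902288) (nat_lit 0) (nat_lit 1254902288) (nat_lit 320) (nat_lit 1) (nat_lit 298) (nat_lit 1) (nat_lit 297) (nat_lit 1) (nat_lit 259) (nat_lit 239) (nat_lit 222))) (XT.nd (nat_lit 94) (nat_lit 0) (nat_lit 0) (XT.lf (nat_lit 1932) (nat_lit 298913408) (nat_lit 0) (nat_lit 2687689520) (nat_lit 1848) (nat_lit 298913408) (nat_lit 321) (nat_lit 1) (nat_lit 298) (nat_lit 1) (nat_lit 320) (nat_lit 1) (nat_lit 260) (nat_lit 239) (nat_lit 221)) (XT.lf (nat_lit 1932) (nat_lit 371479690) (nat_lit 84) (nat_lit 1440375958) (nat_lit 0) (nat_lit 1440375958) (nat_lit 321) (nat_lit 1) (nat_lit 299) (nat_lit 1) (nat_lit 298) (nat_lit 1) (nat_lit 261) (nat_lit 239) (nat_lit 220))))) (XT.nd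 (nat_lit 376) (nat_lit 1932) (nat_lit 0) (XT.nd (nat_lit 188) (nat_lit 0) (nat_lit 0) (XT.nd (nat_lit 94) (nat_lit 1932) (nat_lit 0) (XT.lf (nat_lit 1932) (nat_lit 73650327) (nat_lit 0) (nat_lit 3072304509) (nat_lit 1848) (nat_lit 73650327) (nat_lit 322) (nat_lit 1) (nat_lit 299) (nat_lit 1) (nat_lit 321) (nat_lit 1) (nat_lit 262) (nat_lit 239) (nat_lit 219)) (XT.lf (nat_lit 2016) (nat_lit 1547144362) (nat_lit 0) (nat_lit 92899570) (nat_lit 1932) (nat_lit 1547144362) (nat_lit 300) (nat_lit 1) (nat_lit 276) (nat_lit 1) (nat_lit 299) (nat_lit 1) (nat_lit 263) (nat_lit 239) (nat_lit 218))) (XT.nd (nat_lit 94) (nat_lit 0) (nat_lit 84) (XT.lf (nat_lit 2016) (nat_lit 2827865017) (nat_lit 84) (nat_lit 163772217) (nat_lit 0) (nat_lit 163772217) (nat_lit 300) (nat_lit 1) (nat_lit 277) (nat_lit 1) (nat_lit 276) (nat_lit 1) (nat_lit 264) (nat_lit 239) (nat_lit 217)) (XT.lf (nat_lit 84) (nat_lit 1273294875) (nat_lit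 0) (nat_lit 577281786) (nat_lit 1932) (nat_lit 1273294875) (nat_lit 278) (nat_lit 1) (nat_lit 277) (nat_lit 1) (nat_lit 300) (nat_lit 1) (nat_lit 265) (nat_lit 239) (nat_lit 216)))) (XT.nd (nat_lit 188) (nat_lit 924) (nat_lit 0) (XT.nd (nat_lit 94) (nat_lit 0) (nat_lit 0) (XT.lf (nat_lit 1176) (nat_lit 2267197124) (nat_lit 0) (nat_lit 412862790) (nat_lit 1092) (nat_lit 412862790) (nat_lit 278) (nat_lit 1) (nat_lit 264) (nat_lit 1) (nat_lit 277) (nat_lit 1) (nat_lit 266) (nat_lit 239) (nat_lit 215)) (XT.lf (nat_lit 84) (nat_lit 988656873) (nat_lit 0) (nat_lit 1084971049) (nat_lit 1176) (nat_lit 988656873) (nat_lit 265) (nat_lit 1) (nat_lit 264) (nat_lit 1) (nat_lit 278) (nat_lit 1) (nat_lit 267) (nat_lit 239) (nat_lit 214))) (XT.nd (nat_lit 94) (nat_lit 0) (nat_lit 0) (XT.lf (nat_lit 1008) (nat_lit 1685829073) (nat_lit 0) (nat_lit 673154270) (nat_lit 924) (nat_lit 673154270) (nat_lit 265) (nat_lit 1)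 (nat_lit 253) (nat_lit 1) (nat_lit 264) (nat_lit 1) (nat_lit 268) (nat_lit 239) (nat_lit 213)) (XT.lf (nat_lit 84) (nat_lit 694173137) (nat_lit 0) (nat_lit 1614028929) (nat_lit 1008) (nat_lit 694173137) (nat_lit 254) (nat_lit 1) (nat_lit 253) (nat_lit 1) (nat_lit 265) (nat_lit 1) (nat_lit 269) (nat_lit 239) (nat_lit 212)))))) (XT.nd (nat_lit 658) (nat_lit 0) (nat_lit 252) (XT.nd (nat_lit 282) (nat_lit 0) (nat_lit 84) (XT.nd (nat_lit 94) (nat_lit 0) (nat_lit 0) (XT.lf (nat_lit 1932) (nat_lit 776067132) (nat_lit 0) (nat_lit 477005933) (nat_lit 1932) (nat_lit 776067132) (nat_lit 312) (nat_lit 1) (nat_lit 289) (nat_lit 0) (nat_lit 312) (nat_lit 0) (nat_lit 240) (nat_lit 240) (nat_lit 240)) (XT.nd (nat_lit 94) (nat_lit 0) (nat_lit 84) (XT.lf (nat_lit 1932) (nat_lit 3067409156) (nat_lit 84) (nat_lit 473558452) (nat_lit 0) (nat_lit 473558452) (nat_lit 312) (nat_lit 1) (nat_lit 290) (nat_lit 1) (nat_lit 289)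 (nat_lit 0) (nat_lit 241) (nat_lit 240) (nat_lit 239)) (XT.lf (nat_lit 1932) (nat_lit 1504506329) (nat_lit 0) (nat_lit 962220247) (nat_lit 1848) (nat_lit 1504506329) (nat_lit 313) (nat_lit 1) (nat_lit 290) (nat_lit 1) (nat_lit 312) (nat_lit 1) (nat_lit 242) (nat_lit 240) (nat_lit 238)))) (XT.nd (nat_lit 188) (nat_lit 0) (nat_lit 84) (XT.nd (nat_lit 94) (nat_lit 0) (nat_lit 84) (XT.lf (nat_lit 1932) (nat_lit 2944918941) (nat_lit 84) (nat_lit 491901526) (nat_lit 0) (nat_lit 491901526) (nat_lit 313) (nat_lit 1) (nat_lit 291) (nat_lit 1) (nat_lit 290) (nat_lit 1) (nat_lit 243) (nat_lit 240) (nat_lit 237)) (XT.lf (nat_lit 1932) (nat_lit 1430383039) (nat_lit 0) (nat_lit 1025898610) (nat_lit 1848) (nat_lit 1430383039) (nat_lit 314) (nat_lit 1) (nat_lit 291) (nat_lit 1) (nat_lit 313) (nat_lit 1) (nat_lit 244) (nat_lit 240) (nat_lit 236))) (XT.nd (nat_lit 94) (nat_lit 0) (nat_lit 84) (XT.lf (nat_lit 1932) (nat_lit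 2771010215) (nat_lit 84) (nat_lit 537171451) (nat_lit 0) (nat_lit 537171451) (nat_lit 314) (nat_lit 1) (nat_lit 292) (nat_lit 1) (nat_lit 291) (nat_lit 1) (nat_lit 245) (nat_lit 240) (nat_lit 235)) (XT.lf (nat_lit 1932) (nat_lit 1331506833) (nat_lit 0) (nat_lit 1141482924) (nat_lit 1848) (nat_lit 1331506833) (nat_lit 315) (nat_lit 1) (nat_lit 292) (nat_lit 1) (nat_lit 314) (nat_lit 1) (nat_lit 246) (nat_lit 240) (nat_lit 234))))) (XT.nd (nat_lit 376) (nat_lit 0) (nat_lit 168) (XT.nd (nat_lit 188) (nat_lit 0) (nat_lit 84) (XT.nd (nat_lit 94) (nat_lit 0) (nat_lit 84) (XT.lf (nat_lit 1932) (nat_lit 2549092021) (nat_lit 84) (nat_lit 607624973) (nat_lit 0) (nat_lit 607624973) (nat_lit 315) (nat_lit 1) (nat_lit 293) (nat_lit 1) (nat_lit 292) (nat_lit 1) (nat_lit 247) (nat_lit 240) (nat_lit 233)) (XT.lf (nat_lit 1932) (nat_lit 1209532722) (nat_lit 0) (nat_lit 1305586813) (nat_lit 1848) (nat_lit 1209532722)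 (nat_lit 316) (nat_lit 1) (nat_lit 293) (nat_lit 1) (nat_lit 315) (nat_lit 1) (nat_lit 248) (nat_lit 240) (nat_lit 232))) (XT.nd (nat_lit 94) (nat_lit 0) (nat_lit 84) (XT.lf (nat_lit 1932) (nat_lit 2282401965) (nat_lit 84) (nat_lit 701605919) (nat_lit 0) (nat_lit 701605919) (nat_lit 316) (nat_lit 1) (nat_lit 294) (nat_lit 1) (nat_lit 293) (nat_lit 1) (nat_lit 249) (nat_lit 240) (nat_lit 231)) (XT.lf (nat_lit 1932) (nat_lit 1066032298) (nat_lit 0) (nat_lit 1514993435) (nat_lit 1848) (nat_lit 1066032298) (nat_lit 317) (nat_lit 1) (nat_lit 294) (nat_lit 1) (nat_lit 316) (nat_lit 1) (nat_lit 250) (nat_lit 240) (nat_lit 230)))) (XT.nd (nat_lit 188) (nat_lit 0) (nat_lit 84) (XT.nd (nat_lit 94) (nat_lit 0) (nat_lit 84) (XT.lf (nat_lit 1932) (nat_lit 1974014090) (nat_lit 84) (nat_lit 817541217) (nat_lit 0) (nat_lit 817541217) (nat_lit 317) (nat_lit 1) (nat_lit 295) (nat_lit 1) (nat_lit 294) (nat_lit 1) (nat_lit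 251) (nat_lit 240) (nat_lit 229)) (XT.lf (nat_lit 1932) (nat_lit 902497564) (nat_lit 0) (nat_lit 1766647716) (nat_lit 1848) (nat_lit 902497564) (nat_lit 318) (nat_lit 1) (nat_lit 295) (nat_lit 1) (nat_lit 317) (nat_lit 1) (nat_lit 252) (nat_lit 240) (nat_lit 228))) (XT.nd (nat_lit 94) (nat_lit 0) (nat_lit 84) (XT.lf (nat_lit 1932) (nat_lit 1626846388) (nat_lit 84) (nat_lit 953937083) (nat_lit 0) (nat_lit 953937083) (nat_lit 318) (nat_lit 1) (nat_lit 296) (nat_lit 1) (nat_lit 295) (nat_lit 1) (nat_lit 253) (nat_lit 240) (nat_lit 227)) (XT.lf (nat_lit 1932) (nat_lit 720344598) (nat_lit 0) (nat_lit 2057648926) (nat_lit 1848) (nat_lit 720344598) (nat_lit 319) (nat_lit 1) (nat_lit 296) (nat_lit 1) (nat_lit 318) (nat_lit 1) (nat_lit 254) (nat_lit 240) (nat_lit 226))))))))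
noncomputable def ec4 : XT := (XT.nd (nat_lit 44932) (nat_lit 840) (nat_lit 0) (XT.nd (nat_lit 1316) (nat_lit 0) (nat_lit 0) (XT.nd (nat_lit 658) (nat_lit 2856) (nat_lit 0) (XT.nd (nat_lit 282) (nat_lit 1680) (nat_lit 0) (XT.nd (nat_lit 94) (nat_lit 0) (nat_lit 84) (XT.lf (nat_lit 1932) (nat_lit 1243667991) (nat_lit 84) (nat_lit 1109375380) (nat_lit 0) (nat_lit 1109375380) (nat_lit 319) (nat_lit 1) (nat_lit 297) (nat_lit 1) (nat_lit 296) (nat_lit 1) (nat_lit 255) (nat_lit 240) (nat_lit 225)) (XT.nd (nat_lit 94) (nat_lit 0) (nat_lit 0) (XT.lf (nat_lit 1932) (nat_lit 520917054) (nat_lit 0) (nat_lit 2385243588) (nat_lit 1848) (nat_lit 520917054) (nat_lit 320) (nat_lit 1) (nat_lit 297) (nat_lit 1) (nat_lit 319) (nat_lit 1) (nat_lit 256) (nat_lit 240) (nat_lit 224)) (XT.lf (nat_lit 1932) (nat_lit 827106038) (nat_lit 84) (nat_lit 1282510138) (nat_lit 0) (nat_lit 1282510138) (nat_lit 320) (nat_lit 1) (nat_lit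 298) (nat_lit 1) (nat_lit 297) (nat_lit 1) (nat_lit 257) (nat_lit 240) (nat_lit 223)))) (XT.nd (nat_lit 188) (nat_lit 1848) (nat_lit 0) (XT.nd (nat_lit 94) (nat_lit 0) (nat_lit 0) (XT.lf (nat_lit 1932) (nat_lit 305489503) (nat_lit 0) (nat_lit 2746818689) (nat_lit 1848) (nat_lit 305489503) (nat_lit 321) (nat_lit 1) (nat_lit 298) (nat_lit 1) (nat_lit 320) (nat_lit 1) (nat_lit 258) (nat_lit 240) (nat_lit 222)) (XT.lf (nat_lit 1932) (nat_lit 379652244) (nat_lit 84) (nat_lit 1472064229) (nat_lit 0) (nat_lit 1472064229) (nat_lit 321) (nat_lit 1) (nat_lit 299) (nat_lit 1) (nat_lit 298) (nat_lit 1) (nat_lit 259) (nat_lit 240) (nat_lit 221))) (XT.nd (nat_lit 94) (nat_lit 1932) (nat_lit 0) (XT.lf (nat_lit 1932) (nat_lit 75270634) (nat_lit 0) (nat_lit 3139895208) (nat_lit 1848) (nat_lit 75270634) (nat_lit 322) (nat_lit 1) (nat_lit 299) (nat_lit 1) (nat_lit 321) (nat_lit 1) (nat_lit 260) (nat_lit 240) (nat_lit 220))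 (XT.lf (nat_lit 2016) (nat_lit 1581181538) (nat_lit 0) (nat_lit 94943361) (nat_lit 1932) (nat_lit 1581181538) (nat_lit 300) (nat_lit 1) (nat_lit 276) (nat_lit 1) (nat_lit 299) (nat_lit 1) (nat_lit 261) (nat_lit 240) (nat_lit 219))))) (XT.nd (nat_lit 282) (nat_lit 1848) (nat_lit 0) (XT.nd (nat_lit 94) (nat_lit 1008) (nat_lit 0) (XT.lf (nat_lit 2016) (nat_lit 2890078047) (nat_lit 84) (nat_lit 167375206) (nat_lit 0) (nat_lit 167375206) (nat_lit 300) (nat_lit 1) (nat_lit 277) (nat_lit 1) (nat_lit 276) (nat_lit 1) (nat_lit 262) (nat_lit 240) (nat_lit 218)) (XT.nd (nat_lit 94) (nat_lit 1092) (nat_lit 0) (XT.lf (nat_lit 84) (nat_lit 1301307362) (nat_lit 0) (nat_lit 589981985) (nat_lit 1932) (nat_lit 1301307362) (nat_lit 278) (nat_lit 1) (nat_lit 277) (nat_lit 1) (nat_lit 300) (nat_lit 1) (nat_lit 263) (nat_lit 240) (nat_lit 217)) (XT.lf (nat_lit 1176) (nat_lit 2317075461) (nat_lit 0) (nat_lit 421945771) (nat_lit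 1092) (nat_lit 421945771) (nat_lit 278) (nat_lit 1) (nat_lit 264) (nat_lit 1) (nat_lit 277) (nat_lit 1) (nat_lit 264) (nat_lit 240) (nat_lit 216)))) (XT.nd (nat_lit 188) (nat_lit 924) (nat_lit 0) (XT.nd (nat_lit 94) (nat_lit 924) (nat_lit 0) (XT.lf (nat_lit 84) (nat_lit 1010407324) (nat_lit 0) (nat_lit 1108840412) (nat_lit 1176) (nat_lit 1010407324) (nat_lit 265) (nat_lit 1) (nat_lit 264) (nat_lit 1) (nat_lit 278) (nat_lit 1) (nat_lit 265) (nat_lit 240) (nat_lit 215)) (XT.lf (nat_lit 1008) (nat_lit 1722917313) (nat_lit 0) (nat_lit 687963664) (nat_lit 924) (nat_lit 687963664) (nat_lit 265) (nat_lit 1) (nat_lit 253) (nat_lit 1) (nat_lit 264) (nat_lit 1) (nat_lit 266) (nat_lit 240) (nat_lit 214))) (XT.nd (nat_lit 94) (nat_lit 924) (nat_lit 0) (XT.lf (nat_lit 84) (nat_lit 709444946) (nat_lit 0) (nat_lit 1649537565) (nat_lit 1008) (nat_lit 709444946) (nat_lit 254) (nat_lit 1) (nat_lit 253) (nat_lit 1) (nat_lit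 265) (nat_lit 1) (nat_lit 267) (nat_lit 240) (nat_lit 213)) (XT.lf (nat_lit 1008) (nat_lit 1109485338) (nat_lit 0) (nat_lit 964461539) (nat_lit 924) (nat_lit 964461539) (nat_lit 254) (nat_lit 1) (nat_lit 242) (nat_lit 1) (nat_lit 253) (nat_lit 1) (nat_lit 268) (nat_lit 240) (nat_lit 212)))))) (XT.nd (nat_lit 42864) (nat_lit 0) (nat_lit 4200) (XT.nd (nat_lit 42488) (nat_lit 0) (nat_lit 4032) (XT.nd (nat_lit 42300) (nat_lit 0) (nat_lit 3948) (XT.lf (nat_lit 84) (nat_lit 399332080) (nat_lit 0) (nat_lit 2210197546) (nat_lit 1008) (nat_lit 399332080) (nat_lit 243) (nat_lit 1) (nat_lit 242) (nat_lit 1) (nat_lit 254) (nat_lit 1) (nat_lit 269) (nat_lit 240) (nat_lit 211)) (XT.nd (nat_lit 94) (nat_lit 0) (nat_lit 0) (XT.lf (nat_lit 1932) (nat_lit 793140609) (nat_lit 0) (nat_lit 487500063) (nat_lit 1932) (nat_lit 793140609) (nat_lit 312) (nat_lit 1) (nat_lit 289) (nat_lit 0) (nat_lit 312) (nat_lit 0) (nat_lit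 238) (nat_lit 241) (nat_lit 241)) (XT.lf (nat_lit 1932) (nat_lit 3134892158) (nat_lit 84) (nat_lit 483976738) (nat_lit 0) (nat_lit 483976738) (nat_lit 312) (nat_lit 1) (nat_lit 290) (nat_lit 1) (nat_lit 289) (nat_lit 0) (nat_lit 239) (nat_lit 241) (nat_lit 240)))) (XT.nd (nat_lit 188) (nat_lit 0) (nat_lit 84) (XT.nd (nat_lit 94) (nat_lit 0) (nat_lit 0) (XT.lf (nat_lit 1932) (nat_lit 1537605468) (nat_lit 0) (nat_lit 983389092) (nat_lit 1848) (nat_lit 1537605468) (nat_lit 313) (nat_lit 1) (nat_lit 290) (nat_lit 1) (nat_lit 312) (nat_lit 1) (nat_lit 240) (nat_lit 241) (nat_lit 239)) (XT.lf (nat_lit 1932) (nat_lit 3009707158) (nat_lit 84) (nat_lit 502723360) (nat_lit 0) (nat_lit 502723360) (nat_lit 313) (nat_lit 1) (nat_lit 291) (nat_lit 1) (nat_lit 290) (nat_lit 1) (nat_lit 241) (nat_lit 241) (nat_lit 238))) (XT.nd (nat_lit 94) (nat_lit 0) (nat_lit 0) (XT.lf (nat_lit 1932) (nat_lit 1461851466) (nat_lit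 0) (nat_lit 1048468379) (nat_lit 1848) (nat_lit 1461851466) (nat_lit 314) (nat_lit 1) (nat_lit 291) (nat_lit 1) (nat_lit 313) (nat_lit 1) (nat_lit 242) (nat_lit 241) (nat_lit 237)) (XT.lf (nat_lit 1932) (nat_lit 2831972440) (nat_lit 84) (nat_lit 548989223) (nat_lit 0) (nat_lit 548989223) (nat_lit 314) (nat_lit 1) (nat_lit 292) (nat_lit 1) (nat_lit 291) (nat_lit 1) (nat_lit 243) (nat_lit 241) (nat_lit 236))))) (XT.nd (nat_lit 376) (nat_lit 0) (nat_lit 168) (XT.nd (nat_lit 188) (nat_lit 0) (nat_lit 84) (XT.nd (nat_lit 94) (nat_lit 0) (nat_lit 0) (XT.lf (nat_lit 1932) (nat_lit 1360799984) (nat_lit 0) (nat_lit 1166595548) (nat_lit 1848) (nat_lit 1360799984) (nat_lit 315) (nat_lit 1) (nat_lit 292) (nat_lit 1) (nat_lit 314) (nat_lit 1) (nat_lit 244) (nat_lit 241) (nat_lit 235)) (XT.lf (nat_lit 1932) (nat_lit 2605172045) (nat_lit 84) (nat_lit 620992722) (nat_lit 0) (nat_lit 620992722) (nat_lit 315) (nat_lit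 1) (nat_lit 293) (nat_lit 1) (nat_lit 292) (nat_lit 1) (nat_lit 245) (nat_lit 241) (nat_lit 234))) (XT.nd (nat_lit 94) (nat_lit 0) (nat_lit 0) (XT.lf (nat_lit 1932) (nat_lit 1236142442) (nat_lit 0) (nat_lit 1334309723) (nat_lit 1848) (nat_lit 1236142442) (nat_lit 316) (nat_lit 1) (nat_lit 293) (nat_lit 1) (nat_lit 315) (nat_lit 1) (nat_lit 246) (nat_lit 241) (nat_lit 233)) (XT.lf (nat_lit 1932) (nat_lit 2332614809) (nat_lit 84) (nat_lit 717041249) (nat_lit 0) (nat_lit 717041249) (nat_lit 316) (nat_lit 1) (nat_lit 294) (nat_lit 1) (nat_lit 293) (nat_lit 1) (nat_lit 247) (nat_lit 241) (nat_lit 232)))) (XT.nd (nat_lit 188) (nat_lit 0) (nat_lit 84) (XT.nd (nat_lit 94) (nat_lit 0) (nat_lit 0) (XT.lf (nat_lit 1932) (nat_lit 1089485008) (nat_lit 0) (nat_lit 1548323291) (nat_lit 1848) (nat_lit 1089485008) (nat_lit 317) (nat_lit 1) (nat_lit 294) (nat_lit 1) (nat_lit 316) (nat_lit 1) (nat_lit 248) (nat_lit 241)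 (nat_lit 231)) (XT.lf (nat_lit 1932) (nat_lit 2017442400) (nat_lit 84) (nat_lit 835527124) (nat_lit 0) (nat_lit 835527124) (nat_lit 317) (nat_lit 1) (nat_lit 295) (nat_lit 1) (nat_lit 294) (nat_lit 1) (nat_lit 249) (nat_lit 241) (nat_lit 230))) (XT.nd (nat_lit 94) (nat_lit 0) (nat_lit 0) (XT.lf (nat_lit 1932) (nat_lit 922352510) (nat_lit 0) (nat_lit 1805513966) (nat_lit 1848) (nat_lit 922352510) (nat_lit 318) (nat_lit 1) (nat_lit 295) (nat_lit 1) (nat_lit 317) (nat_lit 1) (nat_lit 250) (nat_lit 241) (nat_lit 229)) (XT.lf (nat_lit 1932) (nat_lit 1662637008) (nat_lit 84) (nat_lit 974923698) (nat_lit 0) (nat_lit 974923698) (nat_lit 318) (nat_lit 1) (nat_lit 296) (nat_lit 1) (nat_lit 295) (nat_lit 1) (nat_lit 251) (nat_lit 241) (nat_lit 228))))))) (XT.nd (nat_lit 1316) (nat_lit 1764) (nat_lit 0) (XT.nd (nat_lit 658) (nat_lit 3612) (nat_lit 0) (XT.nd (nat_lit 282) (nat_lit 0) (nat_lit 84) (XT.nd (nat_lit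 94) (nat_lit 0) (nat_lit 0) (XT.lf (nat_lit 1932) (nat_lit 736192179) (nat_lit 0) (nat_lit 2102917203) (nat_lit 1848) (nat_lit 736192179) (nat_lit 319) (nat_lit 1) (nat_lit 296) (nat_lit 1) (nat_lit 318) (nat_lit 1) (nat_lit 252) (nat_lit 241) (nat_lit 227)) (XT.nd (nat_lit 94) (nat_lit 0) (nat_lit 84) (XT.lf (nat_lit 1932) (nat_lit 1271028686) (nat_lit 84) (nat_lit 1133781638) (nat_lit 0) (nat_lit 1133781638) (nat_lit 319) (nat_lit 1) (nat_lit 297) (nat_lit 1) (nat_lit 296) (nat_lit 1) (nat_lit 253) (nat_lit 241) (nat_lit 226)) (XT.lf (nat_lit 1932) (nat_lit 532377229) (nat_lit 0) (nat_lit 2437718947) (nat_lit 1848) (nat_lit 532377229) (nat_lit 320) (nat_lit 1) (nat_lit 297) (nat_lit 1) (nat_lit 319) (nat_lit 1) (nat_lit 254) (nat_lit 241) (nat_lit 225)))) (XT.nd (nat_lit 188) (nat_lit 0) (nat_lit 84) (XT.nd (nat_lit 94) (nat_lit 0) (nat_lit 84) (XT.lf (nat_lit 1932) (nat_lit 845302371) (nat_lit 84)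 (nat_lit 1310725361) (nat_lit 0) (nat_lit 1310725361) (nat_lit 320) (nat_lit 1) (nat_lit 298) (nat_lit 1) (nat_lit 297) (nat_lit 1) (nat_lit 255) (nat_lit 241) (nat_lit 224)) (XT.lf (nat_lit 1932) (nat_lit 312210272) (nat_lit 0) (nat_lit 2807248701) (nat_lit 1848) (nat_lit 312210272) (nat_lit 321) (nat_lit 1) (nat_lit 298) (nat_lit 1) (nat_lit 320) (nat_lit 1) (nat_lit 256) (nat_lit 241) (nat_lit 223))) (XT.nd (nat_lit 94) (nat_lit 0) (nat_lit 84) (XT.lf (nat_lit 1932) (nat_lit 388004593) (nat_lit 84) (nat_lit 1504449642) (nat_lit 0) (nat_lit 1504449642) (nat_lit 321) (nat_lit 1) (nat_lit 299) (nat_lit 1) (nat_lit 298) (nat_lit 1) (nat_lit 257) (nat_lit 241) (nat_lit 222)) (XT.lf (nat_lit 1932) (nat_lit 76926588) (nat_lit 0) (nat_lit 3208972903) (nat_lit 1848) (nat_lit 76926588) (nat_lit 322) (nat_lit 1) (nat_lit 299) (nat_lit 1) (nat_lit 321) (nat_lit 1) (nat_lit 258) (nat_lit 241) (nat_lit 221)))))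 (XT.nd (nat_lit 282) (nat_lit 1932) (nat_lit 0) (XT.nd (nat_lit 94) (nat_lit 0) (nat_lit 0) (XT.lf (nat_lit 2016) (nat_lit 1615967532) (nat_lit 0) (nat_lit 97032115) (nat_lit 1932) (nat_lit 1615967532) (nat_lit 300) (nat_lit 1) (nat_lit 276) (nat_lit 1) (nat_lit 299) (nat_lit 1) (nat_lit 259) (nat_lit 241) (nat_lit 220)) (XT.nd (nat_lit 94) (nat_lit 0) (nat_lit 84) (XT.lf (nat_lit 2016) (nat_lit 2953659764) (nat_lit 84) (nat_lit 171057461) (nat_lit 0) (nat_lit 171057461) (nat_lit 300) (nat_lit 1) (nat_lit 277) (nat_lit 1) (nat_lit 276) (nat_lit 1) (nat_lit 260) (nat_lit 241) (nat_lit 219)) (XT.lf (nat_lit 84) (nat_lit 1329936124) (nat_lit 0) (nat_lit 602961589) (nat_lit 1932) (nat_lit 1329936124) (nat_lit 278) (nat_lit 1) (nat_lit 277) (nat_lit 1) (nat_lit 300) (nat_lit 1) (nat_lit 261) (nat_lit 241) (nat_lit 218)))) (XT.nd (nat_lit 188) (nat_lit 924) (nat_lit 0) (XT.nd (nat_lit 94) (nat_lit 0) (nat_lit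 0) (XT.lf (nat_lit 1176) (nat_lit 2368051121) (nat_lit 0) (nat_lit 431228578) (nat_lit 1092) (nat_lit 431228578) (nat_lit 278) (nat_lit 1) (nat_lit 264) (nat_lit 1) (nat_lit 277) (nat_lit 1) (nat_lit 262) (nat_lit 241) (nat_lit 217)) (XT.lf (nat_lit 84) (nat_lit 1032636285) (nat_lit 0) (nat_lit 1133234901) (nat_lit 1176) (nat_lit 1032636285) (nat_lit 265) (nat_lit 1) (nat_lit 264) (nat_lit 1) (nat_lit 278) (nat_lit 1) (nat_lit 263) (nat_lit 241) (nat_lit 216))) (XT.nd (nat_lit 94) (nat_lit 0) (nat_lit 0) (XT.lf (nat_lit 1008) (nat_lit 1760821494) (nat_lit 0) (nat_lit 703098864) (nat_lit 924) (nat_lit 703098864) (nat_lit 265) (nat_lit 1) (nat_lit 253) (nat_lit 1) (nat_lit 264) (nat_lit 1) (nat_lit 264) (nat_lit 241) (nat_lit 215)) (XT.lf (nat_lit 84) (nat_lit 725052735) (nat_lit 0) (nat_lit 1685827392) (nat_lit 1008) (nat_lit 725052735) (nat_lit 254) (nat_lit 1) (nat_lit 253) (nat_lit 1) (nat_lit 265)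 (nat_lit 1) (nat_lit 265) (nat_lit 241) (nat_lit 214)))))) (XT.nd (nat_lit 42676) (nat_lit 0) (nat_lit 4872) (XT.nd (nat_lit 282) (nat_lit 0) (nat_lit 0) (XT.nd (nat_lit 94) (nat_lit 840) (nat_lit 0) (XT.lf (nat_lit 1008) (nat_lit 1133894016) (nat_lit 0) (nat_lit 985679692) (nat_lit 924) (nat_lit 985679692) (nat_lit 254) (nat_lit 1) (nat_lit 242) (nat_lit 1) (nat_lit 253) (nat_lit 1) (nat_lit 266) (nat_lit 241) (nat_lit 213)) (XT.nd (nat_lit 94) (nat_lit 840) (nat_lit 0) (XT.lf (nat_lit 84) (nat_lit 408117386) (nat_lit 0) (nat_lit 2258821892) (nat_lit 1008) (nat_lit 408117386) (nat_lit 243) (nat_lit 1) (nat_lit 242) (nat_lit 1) (nat_lit 254) (nat_lit 1) (nat_lit 267) (nat_lit 241) (nat_lit 212)) (XT.lf (nat_lit 924) (nat_lit 489088338) (nat_lit 0) (nat_lit 1278035096) (nat_lit 840) (nat_lit 1278035096) (nat_lit 243) (nat_lit 1) (nat_lit 232) (nat_lit 1) (nat_lit 242) (nat_lit 1) (nat_lit 268) (nat_lit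 241) (nat_lit 211)))) (XT.nd (nat_lit 42206) (nat_lit 0) (nat_lit 4788) (XT.nd (nat_lit 42112) (nat_lit 0) (nat_lit 4788) (XT.lf (nat_lit 84) (nat_lit 82711829) (nat_lit 0) (nat_lit 2850403695) (nat_lit 924) (nat_lit 82711829) (nat_lit 233) (nat_lit 1) (nat_lit 232) (nat_lit 1) (nat_lit 243) (nat_lit 1) (nat_lit 269) (nat_lit 241) (nat_lit 210)) (XT.lf (nat_lit 1932) (nat_lit 810589702) (nat_lit 0) (nat_lit 498225065) (nat_lit 1932) (nat_lit 810589702) (nat_lit 312) (nat_lit 1) (nat_lit 289) (nat_lit 0) (nat_lit 312) (nat_lit 0) (nat_lit 236) (nat_lit 242) (nat_lit 242))) (XT.nd (nat_lit 94) (nat_lit 0) (nat_lit 84) (XT.lf (nat_lit 1932) (nat_lit 3203859785) (nat_lit 84) (nat_lit 494624227) (nat_lit 0) (nat_lit 494624227) (nat_lit 312) (nat_lit 1) (nat_lit 290) (nat_lit 1) (nat_lit 289) (nat_lit 0) (nat_lit 237) (nat_lit 242) (nat_lit 241)) (XT.lf (nat_lit 1932) (nat_lit 1571432788) (nat_lit 0) (nat_lit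 1005023652) (nat_lit 1848) (nat_lit 1571432788) (nat_lit 313) (nat_lit 1) (nat_lit 290) (nat_lit 1) (nat_lit 312) (nat_lit 1) (nat_lit 238) (nat_lit 242) (nat_lit 240))))) (XT.nd (nat_lit 376) (nat_lit 0) (nat_lit 168) (XT.nd (nat_lit 188) (nat_lit 0) (nat_lit 84) (XT.nd (nat_lit 94) (nat_lit 0) (nat_lit 84) (XT.lf (nat_lit 1932) (nat_lit 3075920715) (nat_lit 84) (nat_lit 513783274) (nat_lit 0) (nat_lit 513783274) (nat_lit 313) (nat_lit 1) (nat_lit 291) (nat_lit 1) (nat_lit 290) (nat_lit 1) (nat_lit 239) (nat_lit 242) (nat_lit 239)) (XT.lf (nat_lit 1932) (nat_lit 1494012198) (nat_lit 0) (nat_lit 1071534684) (nat_lit 1848) (nat_lit 1494012198) (nat_lit 314) (nat_lit 1) (nat_lit 291) (nat_lit 1) (nat_lit 313) (nat_lit 1) (nat_lit 240) (nat_lit 242) (nat_lit 238))) (XT.nd (nat_lit 94) (nat_lit 0) (nat_lit 84) (XT.lf (nat_lit 1932) (nat_lit 2894275834) (nat_lit 84) (nat_lit 561066986) (nat_lit 0) (nat_lit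 561066986) (nat_lit 314) (nat_lit 1) (nat_lit 292) (nat_lit 1) (nat_lit 291) (nat_lit 1) (nat_lit 241) (nat_lit 242) (nat_lit 237)) (XT.lf (nat_lit 1932) (nat_lit 1390737583) (nat_lit 0) (nat_lit 1192260650) (nat_lit 1848) (nat_lit 1390737583) (nat_lit 315) (nat_lit 1) (nat_lit 292) (nat_lit 1) (nat_lit 314) (nat_lit 1) (nat_lit 242) (nat_lit 242) (nat_lit 236)))) (XT.nd (nat_lit 188) (nat_lit 0) (nat_lit 84) (XT.nd (nat_lit 94) (nat_lit 0) (nat_lit 84) (XT.lf (nat_lit 1932) (nat_lit 2662485830) (nat_lit 84) (nat_lit 634654562) (nat_lit 0) (nat_lit 634654562) (nat_lit 315) (nat_lit 1) (nat_lit 293) (nat_lit 1) (nat_lit 292) (nat_lit 1) (nat_lit 243) (nat_lit 242) (nat_lit 235)) (XT.lf (nat_lit 1932) (nat_lit 1263337576) (nat_lit 0) (nat_lit 1363664537) (nat_lit 1848) (nat_lit 1263337576) (nat_lit 316) (nat_lit 1) (nat_lit 293) (nat_lit 1) (nat_lit 315) (nat_lit 1) (nat_lit 244) (nat_lit 242) (nat_lit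 234))) (XT.nd (nat_lit 94) (nat_lit 0) (nat_lit 84) (XT.lf (nat_lit 1932) (nat_lit 2383932334) (nat_lit 84) (nat_lit 732816157) (nat_lit 0) (nat_lit 732816157) (nat_lit 316) (nat_lit 1) (nat_lit 294) (nat_lit 1) (nat_lit 293) (nat_lit 1) (nat_lit 245) (nat_lit 242) (nat_lit 233)) (XT.lf (nat_lit 1932) (nat_lit 1113453678) (nat_lit 0) (nat_lit 1582386403) (nat_lit 1848) (nat_lit 1113453678) (nat_lit 317) (nat_lit 1) (nat_lit 294) (nat_lit 1) (nat_lit 316) (nat_lit 1) (nat_lit 246) (nat_lit 242) (nat_lit 232))))))))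
noncomputable def ec5 : XT := (XT.nd (nat_lit 44650) (nat_lit 840) (nat_lit 0) (XT.nd (nat_lit 1316) (nat_lit 3612) (nat_lit 0) (XT.nd (nat_lit 658) (nat_lit 2520) (nat_lit 0) (XT.nd (nat_lit 282) (nat_lit 0) (nat_lit 168) (XT.nd (nat_lit 94) (nat_lit 0) (nat_lit 84) (XT.lf (nat_lit 1932) (nat_lit 2061826133) (nat_lit 84) (nat_lit 853908721) (nat_lit 0) (nat_lit 853908721) (nat_lit 317) (nat_lit 1) (nat_lit 295) (nat_lit 1) (nat_lit 294) (nat_lit 1) (nat_lit 247) (nat_lit 242) (nat_lit 231)) (XT.nd (nat_lit 94) (nat_lit 0) (nat_lit 0) (XT.lf (nat_lit 1932) (nat_lit 942644265) (nat_lit 0) (nat_lit 1845235273) (nat_lit 1848) (nat_lit 942644265) (nat_lit 318) (nat_lit 1) (nat_lit 295) (nat_lit 1) (nat_lit 317) (nat_lit 1) (nat_lit 248) (nat_lit 242) (nat_lit 230)) (XT.lf (nat_lit 1932) (nat_lit 1699215023) (nat_lit 84) (nat_lit 996372020) (nat_lit 0) (nat_lit 996372020) (nat_lit 318) (nat_lit 1) (nat_lit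 296) (nat_lit 1) (nat_lit 295) (nat_lit 1) (nat_lit 249) (nat_lit 242) (nat_lit 229)))) (XT.nd (nat_lit 188) (nat_lit 0) (nat_lit 84) (XT.nd (nat_lit 94) (nat_lit 0) (nat_lit 0) (XT.lf (nat_lit 1932) (nat_lit 752388407) (nat_lit 0) (nat_lit 2149181381) (nat_lit 1848) (nat_lit 752388407) (nat_lit 319) (nat_lit 1) (nat_lit 296) (nat_lit 1) (nat_lit 318) (nat_lit 1) (nat_lit 250) (nat_lit 242) (nat_lit 228)) (XT.lf (nat_lit 1932) (nat_lit 1298991318) (nat_lit 84) (nat_lit 1158724834) (nat_lit 0) (nat_lit 1158724834) (nat_lit 319) (nat_lit 1) (nat_lit 297) (nat_lit 1) (nat_lit 296) (nat_lit 1) (nat_lit 251) (nat_lit 242) (nat_lit 227))) (XT.nd (nat_lit 94) (nat_lit 0) (nat_lit 0) (XT.lf (nat_lit 1932) (nat_lit 544089528) (nat_lit 0) (nat_lit 2491348763) (nat_lit 1848) (nat_lit 544089528) (nat_lit 320) (nat_lit 1) (nat_lit 297) (nat_lit 1) (nat_lit 319) (nat_lit 1) (nat_lit 252) (nat_lit 242) (nat_lit 226))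 (XT.lf (nat_lit 1932) (nat_lit 863899023) (nat_lit 84) (nat_lit 1339561319) (nat_lit 0) (nat_lit 1339561319) (nat_lit 320) (nat_lit 1) (nat_lit 298) (nat_lit 1) (nat_lit 297) (nat_lit 1) (nat_lit 253) (nat_lit 242) (nat_lit 225))))) (XT.nd (nat_lit 282) (nat_lit 2856) (nat_lit 0) (XT.nd (nat_lit 94) (nat_lit 0) (nat_lit 0) (XT.lf (nat_lit 1932) (nat_lit 319078898) (nat_lit 0) (nat_lit 2869008172) (nat_lit 1848) (nat_lit 319078898) (nat_lit 321) (nat_lit 1) (nat_lit 298) (nat_lit 1) (nat_lit 320) (nat_lit 1) (nat_lit 254) (nat_lit 242) (nat_lit 224)) (XT.nd (nat_lit 94) (nat_lit 0) (nat_lit 84) (XT.lf (nat_lit 1932) (nat_lit 396540694) (nat_lit 84) (nat_lit 1537547534) (nat_lit 0) (nat_lit 1537547534) (nat_lit 321) (nat_lit 1) (nat_lit 299) (nat_lit 1) (nat_lit 298) (nat_lit 1) (nat_lit 255) (nat_lit 242) (nat_lit 223)) (XT.lf (nat_lit 1932) (nat_lit 78618973) (nat_lit 0) (nat_lit 3279570306) (nat_lit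 1848) (nat_lit 78618973) (nat_lit 322) (nat_lit 1) (nat_lit 299) (nat_lit 1) (nat_lit 321) (nat_lit 1) (nat_lit 256) (nat_lit 242) (nat_lit 222)))) (XT.nd (nat_lit 188) (nat_lit 1008) (nat_lit 0) (XT.nd (nat_lit 94) (nat_lit 0) (nat_lit 0) (XT.lf (nat_lit 2016) (nat_lit 1651518818) (nat_lit 0) (nat_lit 99166821) (nat_lit 1932) (nat_lit 1651518818) (nat_lit 300) (nat_lit 1) (nat_lit 276) (nat_lit 1) (nat_lit 299) (nat_lit 1) (nat_lit 257) (nat_lit 242) (nat_lit 221)) (XT.lf (nat_lit 2016) (nat_lit 3018640279) (nat_lit 84) (nat_lit 174820725) (nat_lit 0) (nat_lit 174820725) (nat_lit 300) (nat_lit 1) (nat_lit 277) (nat_lit 1) (nat_lit 276) (nat_lit 1) (nat_lit 258) (nat_lit 242) (nat_lit 220))) (XT.nd (nat_lit 94) (nat_lit 1092) (nat_lit 0) (XT.lf (nat_lit 84) (nat_lit 1359194718) (nat_lit 0) (nat_lit 616226744) (nat_lit 1932) (nat_lit 1359194718) (nat_lit 278) (nat_lit 1) (nat_lit 277) (nat_lit 1) (nat_lit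 300) (nat_lit 1) (nat_lit 259) (nat_lit 242) (nat_lit 219)) (XT.lf (nat_lit 1176) (nat_lit 2420148246) (nat_lit 0) (nat_lit 440715607) (nat_lit 1092) (nat_lit 440715607) (nat_lit 278) (nat_lit 1) (nat_lit 264) (nat_lit 1) (nat_lit 277) (nat_lit 1) (nat_lit 260) (nat_lit 242) (nat_lit 218)))))) (XT.nd (nat_lit 658) (nat_lit 924) (nat_lit 0) (XT.nd (nat_lit 282) (nat_lit 1764) (nat_lit 0) (XT.nd (nat_lit 94) (nat_lit 924) (nat_lit 0) (XT.lf (nat_lit 84) (nat_lit 1055354284) (nat_lit 0) (nat_lit 1158166069) (nat_lit 1176) (nat_lit 1055354284) (nat_lit 265) (nat_lit 1) (nat_lit 264) (nat_lit 1) (nat_lit 278) (nat_lit 1) (nat_lit 261) (nat_lit 242) (nat_lit 217)) (XT.nd (nat_lit 94) (nat_lit 0) (nat_lit 0) (XT.lf (nat_lit 1008) (nat_lit 1799559567) (nat_lit 0) (nat_lit 718567039) (nat_lit 924) (nat_lit 718567039) (nat_lit 265) (nat_lit 1) (nat_lit 253) (nat_lit 1) (nat_lit 264) (nat_lit 1) (nat_lit 262) (nat_lit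 242) (nat_lit 216)) (XT.lf (nat_lit 84) (nat_lit 741003895) (nat_lit 0) (nat_lit 1722915594) (nat_lit 1008) (nat_lit 741003895) (nat_lit 254) (nat_lit 1) (nat_lit 253) (nat_lit 1) (nat_lit 265) (nat_lit 1) (nat_lit 263) (nat_lit 242) (nat_lit 215)))) (XT.nd (nat_lit 188) (nat_lit 840) (nat_lit 0) (XT.nd (nat_lit 94) (nat_lit 0) (nat_lit 0) (XT.lf (nat_lit 1008) (nat_lit 1158839684) (nat_lit 0) (nat_lit 1007364646) (nat_lit 924) (nat_lit 1007364646) (nat_lit 254) (nat_lit 1) (nat_lit 242) (nat_lit 1) (nat_lit 253) (nat_lit 1) (nat_lit 264) (nat_lit 242) (nat_lit 214)) (XT.lf (nat_lit 84) (nat_lit 417095968) (nat_lit 0) (nat_lit 2308515974) (nat_lit 1008) (nat_lit 417095968) (nat_lit 243) (nat_lit 1) (nat_lit 242) (nat_lit 1) (nat_lit 254) (nat_lit 1) (nat_lit 265) (nat_lit 242) (nat_lit 213))) (XT.nd (nat_lit 94) (nat_lit 0) (nat_lit 0) (XT.lf (nat_lit 924) (nat_lit 499848282) (nat_lit 0) (nat_lit 1306151869)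 (nat_lit 840) (nat_lit 1306151869) (nat_lit 243) (nat_lit 1) (nat_lit 232) (nat_lit 1) (nat_lit 242) (nat_lit 1) (nat_lit 266) (nat_lit 242) (nat_lit 212)) (XT.lf (nat_lit 84) (nat_lit 84531489) (nat_lit 0) (nat_lit 2913112576) (nat_lit 924) (nat_lit 84531489) (nat_lit 233) (nat_lit 1) (nat_lit 232) (nat_lit 1) (nat_lit 243) (nat_lit 1) (nat_lit 267) (nat_lit 242) (nat_lit 211))))) (XT.nd (nat_lit 42300) (nat_lit 0) (nat_lit 5796) (XT.nd (nat_lit 42112) (nat_lit 0) (nat_lit 5712) (XT.nd (nat_lit 42018) (nat_lit 0) (nat_lit 5712) (XT.lf (nat_lit 84) (nat_lit 1439618949) (nat_lit 0) (nat_lit 173125732) (nat_lit 924) (nat_lit 1439618949) (nat_lit 222) (nat_lit 1) (nat_lit 221) (nat_lit 1) (nat_lit 232) (nat_lit 1) (nat_lit 268) (nat_lit 242) (nat_lit 210)) (XT.lf (nat_lit 1932) (nat_lit 828422676) (nat_lit 0) (nat_lit 509186016) (nat_lit 1932) (nat_lit 828422676) (nat_lit 312) (nat_lit 1) (nat_lit 289)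 (nat_lit 0) (nat_lit 312) (nat_lit 0) (nat_lit 234) (nat_lit 243) (nat_lit 243))) (XT.nd (nat_lit 94) (nat_lit 0) (nat_lit 84) (XT.lf (nat_lit 1932) (nat_lit 3274344701) (nat_lit 84) (nat_lit 505505960) (nat_lit 0) (nat_lit 505505960) (nat_lit 312) (nat_lit 1) (nat_lit 290) (nat_lit 1) (nat_lit 289) (nat_lit 0) (nat_lit 235) (nat_lit 243) (nat_lit 242)) (XT.lf (nat_lit 1932) (nat_lit 1606004310) (nat_lit 0) (nat_lit 1027134173) (nat_lit 1848) (nat_lit 1606004310) (nat_lit 313) (nat_lit 1) (nat_lit 290) (nat_lit 1) (nat_lit 312) (nat_lit 1) (nat_lit 236) (nat_lit 243) (nat_lit 241)))) (XT.nd (nat_lit 188) (nat_lit 0) (nat_lit 84) (XT.nd (nat_lit 94) (nat_lit 0) (nat_lit 84) (XT.lf (nat_lit 1932) (nat_lit 3143590971) (nat_lit 84) (nat_lit 525086506) (nat_lit 0) (nat_lit 525086506) (nat_lit 313) (nat_lit 1) (nat_lit 291) (nat_lit 1) (nat_lit 290) (nat_lit 1) (nat_lit 237) (nat_lit 243) (nat_lit 240)) (XT.lf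 (nat_lit 1932) (nat_lit 1526880466) (nat_lit 0) (nat_lit 1095108447) (nat_lit 1848) (nat_lit 1526880466) (nat_lit 314) (nat_lit 1) (nat_lit 291) (nat_lit 1) (nat_lit 313) (nat_lit 1) (nat_lit 238) (nat_lit 243) (nat_lit 239))) (XT.nd (nat_lit 94) (nat_lit 0) (nat_lit 84) (XT.lf (nat_lit 1932) (nat_lit 2957949902) (nat_lit 84) (nat_lit 573410460) (nat_lit 0) (nat_lit 573410460) (nat_lit 314) (nat_lit 1) (nat_lit 292) (nat_lit 1) (nat_lit 291) (nat_lit 1) (nat_lit 239) (nat_lit 243) (nat_lit 238)) (XT.lf (nat_lit 1932) (nat_lit 1421333810) (nat_lit 0) (nat_lit 1218490385) (nat_lit 1848) (nat_lit 1421333810) (nat_lit 315) (nat_lit 1) (nat_lit 292) (nat_lit 1) (nat_lit 314) (nat_lit 1) (nat_lit 240) (nat_lit 243) (nat_lit 237))))))) (XT.nd (nat_lit 1316) (nat_lit 6804) (nat_lit 0) (XT.nd (nat_lit 658) (nat_lit 0) (nat_lit 336) (XT.nd (nat_lit 282) (nat_lit 0) (nat_lit 168) (XT.nd (nat_lit 94) (nat_lit 0)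 (nat_lit 84) (XT.lf (nat_lit 1932) (nat_lit 2721060518) (nat_lit 84) (nat_lit 648616963) (nat_lit 0) (nat_lit 648616963) (nat_lit 315) (nat_lit 1) (nat_lit 293) (nat_lit 1) (nat_lit 292) (nat_lit 1) (nat_lit 241) (nat_lit 243) (nat_lit 236)) (XT.nd (nat_lit 94) (nat_lit 0) (nat_lit 0) (XT.lf (nat_lit 1932) (nat_lit 1291131002) (nat_lit 0) (nat_lit 1393665157) (nat_lit 1848) (nat_lit 1291131002) (nat_lit 316) (nat_lit 1) (nat_lit 293) (nat_lit 1) (nat_lit 315) (nat_lit 1) (nat_lit 242) (nat_lit 243) (nat_lit 235)) (XT.lf (nat_lit 1932) (nat_lit 2436378846) (nat_lit 84) (nat_lit 748938112) (nat_lit 0) (nat_lit 748938112) (nat_lit 316) (nat_lit 1) (nat_lit 294) (nat_lit 1) (nat_lit 293) (nat_lit 1) (nat_lit 243) (nat_lit 243) (nat_lit 234)))) (XT.nd (nat_lit 188) (nat_lit 0) (nat_lit 84) (XT.nd (nat_lit 94) (nat_lit 0) (nat_lit 0) (XT.lf (nat_lit 1932) (nat_lit 1137949659) (nat_lit 0) (nat_lit 1617198904)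 (nat_lit 1848) (nat_lit 1137949659) (nat_lit 317) (nat_lit 1) (nat_lit 294) (nat_lit 1) (nat_lit 316) (nat_lit 1) (nat_lit 244) (nat_lit 243) (nat_lit 233)) (XT.lf (nat_lit 1932) (nat_lit 2107186308) (nat_lit 84) (nat_lit 872694712) (nat_lit 0) (nat_lit 872694712) (nat_lit 317) (nat_lit 1) (nat_lit 295) (nat_lit 1) (nat_lit 294) (nat_lit 1) (nat_lit 245) (nat_lit 243) (nat_lit 232))) (XT.nd (nat_lit 94) (nat_lit 0) (nat_lit 0) (XT.lf (nat_lit 1932) (nat_lit 963382439) (nat_lit 0) (nat_lit 1885830449) (nat_lit 1848) (nat_lit 963382439) (nat_lit 318) (nat_lit 1) (nat_lit 295) (nat_lit 1) (nat_lit 317) (nat_lit 1) (nat_lit 246) (nat_lit 243) (nat_lit 231)) (XT.lf (nat_lit 1932) (nat_lit 1736597753) (nat_lit 84) (nat_lit 1018292204) (nat_lit 0) (nat_lit 1018292204) (nat_lit 318) (nat_lit 1) (nat_lit 296) (nat_lit 1) (nat_lit 295) (nat_lit 1) (nat_lit 247) (nat_lit 243) (nat_lit 230))))) (XT.nd (nat_lit 282)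 (nat_lit 0) (nat_lit 84) (XT.nd (nat_lit 94) (nat_lit 0) (nat_lit 0) (XT.lf (nat_lit 1932) (nat_lit 768940952) (nat_lit 0) (nat_lit 2196463372) (nat_lit 1848) (nat_lit 768940952) (nat_lit 319) (nat_lit 1) (nat_lit 296) (nat_lit 1) (nat_lit 318) (nat_lit 1) (nat_lit 248) (nat_lit 243) (nat_lit 229)) (XT.nd (nat_lit 94) (nat_lit 0) (nat_lit 84) (XT.lf (nat_lit 1932) (nat_lit 1327569127) (nat_lit 84) (nat_lit 1184216780) (nat_lit 0) (nat_lit 1184216780) (nat_lit 319) (nat_lit 1) (nat_lit 297) (nat_lit 1) (nat_lit 296) (nat_lit 1) (nat_lit 249) (nat_lit 243) (nat_lit 228)) (XT.lf (nat_lit 1932) (nat_lit 556059498) (nat_lit 0) (nat_lit 2546158436) (nat_lit 1848) (nat_lit 556059498) (nat_lit 320) (nat_lit 1) (nat_lit 297) (nat_lit 1) (nat_lit 319) (nat_lit 1) (nat_lit 250) (nat_lit 243) (nat_lit 227)))) (XT.nd (nat_lit 188) (nat_lit 0) (nat_lit 84) (XT.nd (nat_lit 94) (nat_lit 0) (nat_lit 84) (XT.lf (nat_lit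 1932) (nat_lit 882904802) (nat_lit 84) (nat_lit 1369031668) (nat_lit 0) (nat_lit 1369031668) (nat_lit 320) (nat_lit 1) (nat_lit 298) (nat_lit 1) (nat_lit 297) (nat_lit 1) (nat_lit 251) (nat_lit 243) (nat_lit 226)) (XT.lf (nat_lit 1932) (nat_lit 326098634) (nat_lit 0) (nat_lit 2932126352) (nat_lit 1848) (nat_lit 326098634) (nat_lit 321) (nat_lit 1) (nat_lit 298) (nat_lit 1) (nat_lit 320) (nat_lit 1) (nat_lit 252) (nat_lit 243) (nat_lit 225))) (XT.nd (nat_lit 94) (nat_lit 0) (nat_lit 84) (XT.lf (nat_lit 1932) (nat_lit 405264589) (nat_lit 84) (nat_lit 1571373580) (nat_lit 0) (nat_lit 1571373580) (nat_lit 321) (nat_lit 1) (nat_lit 299) (nat_lit 1) (nat_lit 298) (nat_lit 1) (nat_lit 253) (nat_lit 243) (nat_lit 224)) (XT.lf (nat_lit 1932) (nat_lit 80348591) (nat_lit 0) (nat_lit 3351720853) (nat_lit 1848) (nat_lit 80348591) (nat_lit 322) (nat_lit 1) (nat_lit 299) (nat_lit 1) (nat_lit 321) (nat_lit 1) (nat_lit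 254) (nat_lit 243) (nat_lit 223)))))) (XT.nd (nat_lit 658) (nat_lit 3528) (nat_lit 0) (XT.nd (nat_lit 282) (nat_lit 1932) (nat_lit 0) (XT.nd (nat_lit 94) (nat_lit 0) (nat_lit 0) (XT.lf (nat_lit 2016) (nat_lit 1687852232) (nat_lit 0) (nat_lit 101348492) (nat_lit 1932) (nat_lit 1687852232) (nat_lit 300) (nat_lit 1) (nat_lit 276) (nat_lit 1) (nat_lit 299) (nat_lit 1) (nat_lit 255) (nat_lit 243) (nat_lit 222)) (XT.nd (nat_lit 94) (nat_lit 0) (nat_lit 84) (XT.lf (nat_lit 2016) (nat_lit 3085050365) (nat_lit 84) (nat_lit 178666781) (nat_lit 0) (nat_lit 178666781) (nat_lit 300) (nat_lit 1) (nat_lit 277) (nat_lit 1) (nat_lit 276) (nat_lit 1) (nat_lit 256) (nat_lit 243) (nat_lit 221)) (XT.lf (nat_lit 84) (nat_lit 1389097002) (nat_lit 0) (nat_lit 629783732) (nat_lit 1932) (nat_lit 1389097002) (nat_lit 278) (nat_lit 1) (nat_lit 277) (nat_lit 1) (nat_lit 300) (nat_lit 1) (nat_lit 257) (nat_lit 243) (nat_lit 220))))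 (XT.nd (nat_lit 188) (nat_lit 924) (nat_lit 0) (XT.nd (nat_lit 94) (nat_lit 0) (nat_lit 0) (XT.lf (nat_lit 1176) (nat_lit 2473391507) (nat_lit 0) (nat_lit 450411350) (nat_lit 1092) (nat_lit 450411350) (nat_lit 278) (nat_lit 1) (nat_lit 264) (nat_lit 1) (nat_lit 277) (nat_lit 1) (nat_lit 258) (nat_lit 243) (nat_lit 219)) (XT.lf (nat_lit 84) (nat_lit 1078572078) (nat_lit 0) (nat_lit 1183645723) (nat_lit 1176) (nat_lit 1078572078) (nat_lit 265) (nat_lit 1) (nat_lit 264) (nat_lit 1) (nat_lit 278) (nat_lit 1) (nat_lit 259) (nat_lit 243) (nat_lit 218))) (XT.nd (nat_lit 94) (nat_lit 0) (nat_lit 0) (XT.lf (nat_lit 1008) (nat_lit 1839149877) (nat_lit 0) (nat_lit 734375514) (nat_lit 924) (nat_lit 734375514) (nat_lit 265) (nat_lit 1) (nat_lit 253) (nat_lit 1) (nat_lit 264) (nat_lit 1) (nat_lit 260) (nat_lit 243) (nat_lit 217)) (XT.lf (nat_lit 84) (nat_lit 757305981) (nat_lit 0) (nat_lit 1760819737) (nat_lit 1008)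 (nat_lit 757305981) (nat_lit 254) (nat_lit 1) (nat_lit 253) (nat_lit 1) (nat_lit 265) (nat_lit 1) (nat_lit 261) (nat_lit 243) (nat_lit 216))))) (XT.nd (nat_lit 376) (nat_lit 1764) (nat_lit 0) (XT.nd (nat_lit 188) (nat_lit 840) (nat_lit 0) (XT.nd (nat_lit 94) (nat_lit 0) (nat_lit 0) (XT.lf (nat_lit 1008) (nat_lit 1184334157) (nat_lit 0) (nat_lit 1029526668) (nat_lit 924) (nat_lit 1029526668) (nat_lit 254) (nat_lit 1) (nat_lit 242) (nat_lit 1) (nat_lit 253) (nat_lit 1) (nat_lit 262) (nat_lit 243) (nat_lit 215)) (XT.lf (nat_lit 84) (nat_lit 426272080) (nat_lit 0) (nat_lit 2359303325) (nat_lit 1008) (nat_lit 426272080) (nat_lit 243) (nat_lit 1) (nat_lit 242) (nat_lit 1) (nat_lit 254) (nat_lit 1) (nat_lit 263) (nat_lit 243) (nat_lit 214))) (XT.nd (nat_lit 94) (nat_lit 0) (nat_lit 0) (XT.lf (nat_lit 924) (nat_lit 510844944) (nat_lit 0) (nat_lit 1334887210) (nat_lit 840) (nat_lit 1334887210) (nat_lit 243) (nat_lit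 1) (nat_lit 232) (nat_lit 1) (nat_lit 242) (nat_lit 1) (nat_lit 264) (nat_lit 243) (nat_lit 213)) (XT.lf (nat_lit 84) (nat_lit 86391182) (nat_lit 0) (nat_lit 2977201053) (nat_lit 924) (nat_lit 86391182) (nat_lit 233) (nat_lit 1) (nat_lit 232) (nat_lit 1) (nat_lit 243) (nat_lit 1) (nat_lit 265) (nat_lit 243) (nat_lit 212)))) (XT.nd (nat_lit 188) (nat_lit 0) (nat_lit 0) (XT.nd (nat_lit 94) (nat_lit 840) (nat_lit 0) (XT.lf (nat_lit 84) (nat_lit 1471290566) (nat_lit 0) (nat_lit 176934498) (nat_lit 924) (nat_lit 1471290566) (nat_lit 222) (nat_lit 1) (nat_lit 221) (nat_lit 1) (nat_lit 232) (nat_lit 1) (nat_lit 266) (nat_lit 243) (nat_lit 211)) (XT.lf (nat_lit 924) (nat_lit 2570470422) (nat_lit 0) (nat_lit 259576286) (nat_lit 840) (nat_lit 259576286) (nat_lit 222) (nat_lit 1) (nat_lit 211) (nat_lit 1) (nat_lit 221) (nat_lit 1) (nat_lit 267) (nat_lit 243) (nat_lit 210))) (XT.nd (nat_lit 41830) (nat_lit 0) (nat_lit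 6552) (XT.lf (nat_lit 84) (nat_lit 1093828517) (nat_lit 0) (nat_lit 872313985) (nat_lit 924) (nat_lit 1093828517) (nat_lit 212) (nat_lit 1) (nat_lit 211) (nat_lit 1) (nat_lit 222) (nat_lit 1) (nat_lit 268) (nat_lit 243) (nat_lit 209)) (XT.lf (nat_lit 1932) (nat_lit 846647975) (nat_lit 0) (nat_lit 520388109) (nat_lit 1932) (nat_lit 846647975) (nat_lit 312) (nat_lit 1) (nat_lit 289) (nat_lit 0) (nat_lit 312) (nat_lit 0) (nat_lit 232) (nat_lit 244) (nat_lit 244))))))))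
noncomputable def ec6 : XT := (XT.nd (nat_lit 2726) (nat_lit 3444) (nat_lit 0) (XT.nd (nat_lit 1316) (nat_lit 3948) (nat_lit 0) (XT.nd (nat_lit 658) (nat_lit 0) (nat_lit 336) (XT.nd (nat_lit 282) (nat_lit 0) (nat_lit 168) (XT.nd (nat_lit 94) (nat_lit 0) (nat_lit 84) (XT.lf (nat_lit 1932) (nat_lit 3346380284) (nat_lit 84) (nat_lit 516627091) (nat_lit 0) (nat_lit 516627091) (nat_lit 312) (nat_lit 1) (nat_lit 290) (nat_lit 1) (nat_lit 289) (nat_lit 0) (nat_lit 233) (nat_lit 244) (nat_lit 243)) (XT.nd (nat_lit 94) (nat_lit 0) (nat_lit 0) (XT.lf (nat_lit 1932) (nat_lit 1641336404) (nat_lit 0) (nat_lit 1049731125) (nat_lit 1848) (nat_lit 1641336404) (nat_lit 313) (nat_lit 1) (nat_lit 290) (nat_lit 1) (nat_lit 312) (nat_lit 1) (nat_lit 234) (nat_lit 244) (nat_lit 242)) (XT.lf (nat_lit 1932) (nat_lit 3212749972) (nat_lit 84) (nat_lit 536638409) (nat_lit 0) (nat_lit 536638409) (nat_lit 313) (nat_lit 1) (nat_lit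 291) (nat_lit 1) (nat_lit 290) (nat_lit 1) (nat_lit 235) (nat_lit 244) (nat_lit 241)))) (XT.nd (nat_lit 188) (nat_lit 0) (nat_lit 84) (XT.nd (nat_lit 94) (nat_lit 0) (nat_lit 0) (XT.lf (nat_lit 1932) (nat_lit 1560471837) (nat_lit 0) (nat_lit 1119200833) (nat_lit 1848) (nat_lit 1560471837) (nat_lit 314) (nat_lit 1) (nat_lit 291) (nat_lit 1) (nat_lit 313) (nat_lit 1) (nat_lit 236) (nat_lit 244) (nat_lit 240)) (XT.lf (nat_lit 1932) (nat_lit 3023024800) (nat_lit 84) (nat_lit 586025490) (nat_lit 0) (nat_lit 586025490) (nat_lit 314) (nat_lit 1) (nat_lit 292) (nat_lit 1) (nat_lit 291) (nat_lit 1) (nat_lit 237) (nat_lit 244) (nat_lit 239))) (XT.nd (nat_lit 94) (nat_lit 0) (nat_lit 0) (XT.lf (nat_lit 1932) (nat_lit 1452603154) (nat_lit 0) (nat_lit 1245297173) (nat_lit 1848) (nat_lit 1452603154) (nat_lit 315) (nat_lit 1) (nat_lit 292) (nat_lit 1) (nat_lit 314) (nat_lit 1) (nat_lit 238) (nat_lit 244) (nat_lit 238))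 (XT.lf (nat_lit 1932) (nat_lit 2780923850) (nat_lit 84) (nat_lit 662886536) (nat_lit 0) (nat_lit 662886536) (nat_lit 315) (nat_lit 1) (nat_lit 293) (nat_lit 1) (nat_lit 292) (nat_lit 1) (nat_lit 239) (nat_lit 244) (nat_lit 237))))) (XT.nd (nat_lit 282) (nat_lit 0) (nat_lit 84) (XT.nd (nat_lit 94) (nat_lit 0) (nat_lit 0) (XT.lf (nat_lit 1932) (nat_lit 1319535884) (nat_lit 0) (nat_lit 1424325790) (nat_lit 1848) (nat_lit 1319535884) (nat_lit 316) (nat_lit 1) (nat_lit 293) (nat_lit 1) (nat_lit 315) (nat_lit 1) (nat_lit 240) (nat_lit 244) (nat_lit 236)) (XT.nd (nat_lit 94) (nat_lit 0) (nat_lit 84) (XT.lf (nat_lit 1932) (nat_lit 2489979180) (nat_lit 84) (nat_lit 765414751) (nat_lit 0) (nat_lit 765414751) (nat_lit 316) (nat_lit 1) (nat_lit 294) (nat_lit 1) (nat_lit 293) (nat_lit 1) (nat_lit 241) (nat_lit 244) (nat_lit 235)) (XT.lf (nat_lit 1932) (nat_lit 1162984552) (nat_lit 0) (nat_lit 1652777280) (nat_lit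 1848) (nat_lit 1162984552) (nat_lit 317) (nat_lit 1) (nat_lit 294) (nat_lit 1) (nat_lit 316) (nat_lit 1) (nat_lit 242) (nat_lit 244) (nat_lit 234)))) (XT.nd (nat_lit 188) (nat_lit 0) (nat_lit 84) (XT.nd (nat_lit 94) (nat_lit 0) (nat_lit 84) (XT.lf (nat_lit 1932) (nat_lit 2153544406) (nat_lit 84) (nat_lit 891893996) (nat_lit 0) (nat_lit 891893996) (nat_lit 317) (nat_lit 1) (nat_lit 295) (nat_lit 1) (nat_lit 294) (nat_lit 1) (nat_lit 243) (nat_lit 244) (nat_lit 233)) (XT.lf (nat_lit 1932) (nat_lit 984576853) (nat_lit 0) (nat_lit 1927318719) (nat_lit 1848) (nat_lit 984576853) (nat_lit 318) (nat_lit 1) (nat_lit 295) (nat_lit 1) (nat_lit 317) (nat_lit 1) (nat_lit 244) (nat_lit 244) (nat_lit 232))) (XT.nd (nat_lit 94) (nat_lit 0) (nat_lit 84) (XT.lf (nat_lit 1932) (nat_lit 1774802904) (nat_lit 84) (nat_lit 1040694633) (nat_lit 0) (nat_lit 1040694633) (nat_lit 318) (nat_lit 1) (nat_lit 296) (nat_lit 1) (nat_lit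 295) (nat_lit 1) (nat_lit 245) (nat_lit 244) (nat_lit 231)) (XT.lf (nat_lit 1932) (nat_lit 785857653) (nat_lit 0) (nat_lit 2244785566) (nat_lit 1848) (nat_lit 785857653) (nat_lit 319) (nat_lit 1) (nat_lit 296) (nat_lit 1) (nat_lit 318) (nat_lit 1) (nat_lit 246) (nat_lit 244) (nat_lit 230)))))) (XT.nd (nat_lit 658) (nat_lit 2856) (nat_lit 0) (XT.nd (nat_lit 282) (nat_lit 1680) (nat_lit 0) (XT.nd (nat_lit 94) (nat_lit 0) (nat_lit 84) (XT.lf (nat_lit 1932) (nat_lit 1356775647) (nat_lit 84) (nat_lit 1210269549) (nat_lit 0) (nat_lit 1210269549) (nat_lit 319) (nat_lit 1) (nat_lit 297) (nat_lit 1) (nat_lit 296) (nat_lit 1) (nat_lit 247) (nat_lit 244) (nat_lit 229)) (XT.nd (nat_lit 94) (nat_lit 0) (nat_lit 0) (XT.lf (nat_lit 1932) (nat_lit 568292807) (nat_lit 0) (nat_lit 2602173922) (nat_lit 1848) (nat_lit 568292807) (nat_lit 320) (nat_lit 1) (nat_lit 297) (nat_lit 1) (nat_lit 319) (nat_lit 1) (nat_lit 248)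 (nat_lit 244) (nat_lit 228)) (XT.lf (nat_lit 1932) (nat_lit 902328707) (nat_lit 84) (nat_lit 1399150365) (nat_lit 0) (nat_lit 1399150365) (nat_lit 320) (nat_lit 1) (nat_lit 298) (nat_lit 1) (nat_lit 297) (nat_lit 1) (nat_lit 249) (nat_lit 244) (nat_lit 227)))) (XT.nd (nat_lit 188) (nat_lit 1848) (nat_lit 0) (XT.nd (nat_lit 94) (nat_lit 0) (nat_lit 0) (XT.lf (nat_lit 1932) (nat_lit 333272804) (nat_lit 0) (nat_lit 2996633132) (nat_lit 1848) (nat_lit 333272804) (nat_lit 321) (nat_lit 1) (nat_lit 298) (nat_lit 1) (nat_lit 320) (nat_lit 1) (nat_lit 250) (nat_lit 244) (nat_lit 226)) (XT.lf (nat_lit 1932) (nat_lit 414180410) (nat_lit 84) (nat_lit 1605943799) (nat_lit 0) (nat_lit 1605943799) (nat_lit 321) (nat_lit 1) (nat_lit 299) (nat_lit 1) (nat_lit 298) (nat_lit 1) (nat_lit 251) (nat_lit 244) (nat_lit 225))) (XT.nd (nat_lit 94) (nat_lit 1932) (nat_lit 0) (XT.lf (nat_lit 1932) (nat_lit 82116260) (nat_lit 0)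 (nat_lit 3425458712) (nat_lit 1848) (nat_lit 82116260) (nat_lit 322) (nat_lit 1) (nat_lit 299) (nat_lit 1) (nat_lit 321) (nat_lit 1) (nat_lit 252) (nat_lit 244) (nat_lit 224)) (XT.lf (nat_lit 2016) (nat_lit 1724984981) (nat_lit 0) (nat_lit 103578158) (nat_lit 1932) (nat_lit 1724984981) (nat_lit 300) (nat_lit 1) (nat_lit 276) (nat_lit 1) (nat_lit 299) (nat_lit 1) (nat_lit 253) (nat_lit 244) (nat_lit 223))))) (XT.nd (nat_lit 376) (nat_lit 1848) (nat_lit 0) (XT.nd (nat_lit 188) (nat_lit 1008) (nat_lit 0) (XT.nd (nat_lit 94) (nat_lit 0) (nat_lit 84) (XT.lf (nat_lit 2016) (nat_lit 3152921473) (nat_lit 84) (nat_lit 182597450) (nat_lit 0) (nat_lit 182597450) (nat_lit 300) (nat_lit 1) (nat_lit 277) (nat_lit 1) (nat_lit 276) (nat_lit 1) (nat_lit 254) (nat_lit 244) (nat_lit 222)) (XT.lf (nat_lit 84) (nat_lit 1419657136) (nat_lit 0) (nat_lit 643638974) (nat_lit 1932) (nat_lit 1419657136) (nat_lit 278) (nat_lit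 1) (nat_lit 277) (nat_lit 1) (nat_lit 300) (nat_lit 1) (nat_lit 255) (nat_lit 244) (nat_lit 221))) (XT.nd (nat_lit 94) (nat_lit 0) (nat_lit 0) (XT.lf (nat_lit 1176) (nat_lit 2527806120) (nat_lit 0) (nat_lit 460320400) (nat_lit 1092) (nat_lit 460320400) (nat_lit 278) (nat_lit 1) (nat_lit 264) (nat_lit 1) (nat_lit 277) (nat_lit 1) (nat_lit 256) (nat_lit 244) (nat_lit 220)) (XT.lf (nat_lit 84) (nat_lit 1102300664) (nat_lit 0) (nat_lit 1209685929) (nat_lit 1176) (nat_lit 1102300664) (nat_lit 265) (nat_lit 1) (nat_lit 264) (nat_lit 1) (nat_lit 278) (nat_lit 1) (nat_lit 257) (nat_lit 244) (nat_lit 219)))) (XT.nd (nat_lit 188) (nat_lit 924) (nat_lit 0) (XT.nd (nat_lit 94) (nat_lit 0) (nat_lit 0) (XT.lf (nat_lit 1008) (nat_lit 1879611174) (nat_lit 0) (nat_lit 750531776) (nat_lit 924) (nat_lit 750531776) (nat_lit 265) (nat_lit 1) (nat_lit 253) (nat_lit 1) (nat_lit 264) (nat_lit 1) (nat_lit 258) (nat_lit 244)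 (nat_lit 218)) (XT.lf (nat_lit 84) (nat_lit 773966713) (nat_lit 0) (nat_lit 1799557772) (nat_lit 1008) (nat_lit 773966713) (nat_lit 254) (nat_lit 1) (nat_lit 253) (nat_lit 1) (nat_lit 265) (nat_lit 1) (nat_lit 259) (nat_lit 244) (nat_lit 217))) (XT.nd (nat_lit 94) (nat_lit 0) (nat_lit 0) (XT.lf (nat_lit 1008) (nat_lit 1210389508) (nat_lit 0) (nat_lit 1052176255) (nat_lit 924) (nat_lit 1052176255) (nat_lit 254) (nat_lit 1) (nat_lit 242) (nat_lit 1) (nat_lit 253) (nat_lit 1) (nat_lit 260) (nat_lit 244) (nat_lit 216)) (XT.lf (nat_lit 84) (nat_lit 435650065) (nat_lit 0) (nat_lit 2411207998) (nat_lit 1008) (nat_lit 435650065) (nat_lit 243) (nat_lit 1) (nat_lit 242) (nat_lit 1) (nat_lit 254) (nat_lit 1) (nat_lit 261) (nat_lit 244) (nat_lit 215))))))) (XT.nd (nat_lit 42864) (nat_lit 0) (nat_lit 6300) (XT.nd (nat_lit 42206) (nat_lit 0) (nat_lit 7392) (XT.nd (nat_lit 282) (nat_lit 1680) (nat_lit 0) (XT.nd (nat_lit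 94) (nat_lit 924) (nat_lit 0) (XT.lf (nat_lit 924) (nat_lit 522083533) (nat_lit 0) (nat_lit 1364254728) (nat_lit 840) (nat_lit 1364254728) (nat_lit 243) (nat_lit 1) (nat_lit 232) (nat_lit 1) (nat_lit 242) (nat_lit 1) (nat_lit 262) (nat_lit 244) (nat_lit 214)) (XT.nd (nat_lit 94) (nat_lit 924) (nat_lit 0) (XT.lf (nat_lit 84) (nat_lit 88291788) (nat_lit 0) (nat_lit 3042699476) (nat_lit 924) (nat_lit 88291788) (nat_lit 233) (nat_lit 1) (nat_lit 232) (nat_lit 1) (nat_lit 243) (nat_lit 1) (nat_lit 263) (nat_lit 244) (nat_lit 213)) (XT.lf (nat_lit 84) (nat_lit 1503658958) (nat_lit 0) (nat_lit 180827057) (nat_lit 924) (nat_lit 1503658958) (nat_lit 222) (nat_lit 1) (nat_lit 221) (nat_lit 1) (nat_lit 232) (nat_lit 1) (nat_lit 264) (nat_lit 244) (nat_lit 212)))) (XT.nd (nat_lit 188) (nat_lit 840) (nat_lit 0) (XT.nd (nat_lit 94) (nat_lit 0) (nat_lit 0) (XT.lf (nat_lit 924) (nat_lit 2627020771) (nat_lit 0) (nat_lit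 265286964) (nat_lit 840) (nat_lit 265286964) (nat_lit 222) (nat_lit 1) (nat_lit 211) (nat_lit 1) (nat_lit 221) (nat_lit 1) (nat_lit 265) (nat_lit 244) (nat_lit 211)) (XT.lf (nat_lit 84) (nat_lit 1117892745) (nat_lit 0) (nat_lit 891504892) (nat_lit 924) (nat_lit 1117892745) (nat_lit 212) (nat_lit 1) (nat_lit 211) (nat_lit 1) (nat_lit 222) (nat_lit 1) (nat_lit 266) (nat_lit 244) (nat_lit 210))) (XT.nd (nat_lit 94) (nat_lit 0) (nat_lit 0) (XT.lf (nat_lit 924) (nat_lit 1846528900) (nat_lit 0) (nat_lit 625485404) (nat_lit 840) (nat_lit 625485404) (nat_lit 212) (nat_lit 1) (nat_lit 201) (nat_lit 1) (nat_lit 211) (nat_lit 1) (nat_lit 267) (nat_lit 244) (nat_lit 209)) (XT.lf (nat_lit 84) (nat_lit 726104489) (nat_lit 0) (nat_lit 1615851970) (nat_lit 924) (nat_lit 726104489) (nat_lit 202) (nat_lit 1) (nat_lit 201) (nat_lit 1) (nat_lit 212) (nat_lit 1) (nat_lit 268) (nat_lit 244) (nat_lit 208))))) (XT.nd (nat_lit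 282) (nat_lit 0) (nat_lit 84) (XT.nd (nat_lit 94) (nat_lit 0) (nat_lit 0) (XT.lf (nat_lit 1932) (nat_lit 865274230) (nat_lit 0) (nat_lit 531836647) (nat_lit 1932) (nat_lit 865274230) (nat_lit 312) (nat_lit 1) (nat_lit 289) (nat_lit 0) (nat_lit 312) (nat_lit 0) (nat_lit 230) (nat_lit 245) (nat_lit 245)) (XT.nd (nat_lit 94) (nat_lit 0) (nat_lit 84) (XT.lf (nat_lit 1932) (nat_lit 3420000650) (nat_lit 84) (nat_lit 527992887) (nat_lit 0) (nat_lit 527992887) (nat_lit 312) (nat_lit 1) (nat_lit 290) (nat_lit 1) (nat_lit 289) (nat_lit 0) (nat_lit 231) (nat_lit 245) (nat_lit 244)) (XT.lf (nat_lit 1932) (nat_lit 1677445805) (nat_lit 0) (nat_lit 1072825209) (nat_lit 1848) (nat_lit 1677445805) (nat_lit 313) (nat_lit 1) (nat_lit 290) (nat_lit 1) (nat_lit 312) (nat_lit 1) (nat_lit 232) (nat_lit 245) (nat_lit 243)))) (XT.nd (nat_lit 188) (nat_lit 0) (nat_lit 84) (XT.nd (nat_lit 94) (nat_lit 0) (nat_lit 84) (XT.lf (nat_lit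 1932) (nat_lit 3283430472) (nat_lit 84) (nat_lit 548444454) (nat_lit 0) (nat_lit 548444454) (nat_lit 313) (nat_lit 1) (nat_lit 291) (nat_lit 1) (nat_lit 290) (nat_lit 1) (nat_lit 233) (nat_lit 245) (nat_lit 242)) (XT.lf (nat_lit 1932) (nat_lit 1594802217) (nat_lit 0) (nat_lit 1143823251) (nat_lit 1848) (nat_lit 1594802217) (nat_lit 314) (nat_lit 1) (nat_lit 291) (nat_lit 1) (nat_lit 313) (nat_lit 1) (nat_lit 234) (nat_lit 245) (nat_lit 241))) (XT.nd (nat_lit 94) (nat_lit 0) (nat_lit 84) (XT.lf (nat_lit 1932) (nat_lit 3089531346) (nat_lit 84) (nat_lit 598918051) (nat_lit 0) (nat_lit 598918051) (nat_lit 314) (nat_lit 1) (nat_lit 292) (nat_lit 1) (nat_lit 291) (nat_lit 1) (nat_lit 235) (nat_lit 245) (nat_lit 240)) (XT.lf (nat_lit 1932) (nat_lit 1484560423) (nat_lit 0) (nat_lit 1272693711) (nat_lit 1848) (nat_lit 1484560423) (nat_lit 315) (nat_lit 1) (nat_lit 292) (nat_lit 1) (nat_lit 314) (nat_lit 1) (nat_lit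 236) (nat_lit 245) (nat_lit 239)))))) (XT.nd (nat_lit 658) (nat_lit 1344) (nat_lit 0) (XT.nd (nat_lit 282) (nat_lit 0) (nat_lit 168) (XT.nd (nat_lit 94) (nat_lit 0) (nat_lit 84) (XT.lf (nat_lit 1932) (nat_lit 2842104175) (nat_lit 84) (nat_lit 677470040) (nat_lit 0) (nat_lit 677470040) (nat_lit 315) (nat_lit 1) (nat_lit 293) (nat_lit 1) (nat_lit 292) (nat_lit 1) (nat_lit 237) (nat_lit 245) (nat_lit 238)) (XT.nd (nat_lit 94) (nat_lit 0) (nat_lit 0) (XT.lf (nat_lit 1932) (nat_lit 1348565674) (nat_lit 0) (nat_lit 1455660957) (nat_lit 1848) (nat_lit 1348565674) (nat_lit 316) (nat_lit 1) (nat_lit 293) (nat_lit 1) (nat_lit 315) (nat_lit 1) (nat_lit 238) (nat_lit 245) (nat_lit 237)) (XT.lf (nat_lit 1932) (nat_lit 2544758722) (nat_lit 84) (nat_lit 782253875) (nat_lit 0) (nat_lit 782253875) (nat_lit 316) (nat_lit 1) (nat_lit 294) (nat_lit 1) (nat_lit 293) (nat_lit 1) (nat_lit 239) (nat_lit 245) (nat_lit 236))))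 (XT.nd (nat_lit 188) (nat_lit 0) (nat_lit 84) (XT.nd (nat_lit 94) (nat_lit 0) (nat_lit 0) (XT.lf (nat_lit 1932) (nat_lit 1188570212) (nat_lit 0) (nat_lit 1689138380) (nat_lit 1848) (nat_lit 1188570212) (nat_lit 317) (nat_lit 1) (nat_lit 294) (nat_lit 1) (nat_lit 316) (nat_lit 1) (nat_lit 240) (nat_lit 245) (nat_lit 235)) (XT.lf (nat_lit 1932) (nat_lit 2200922383) (nat_lit 84) (nat_lit 911515664) (nat_lit 0) (nat_lit 911515664) (nat_lit 317) (nat_lit 1) (nat_lit 295) (nat_lit 1) (nat_lit 294) (nat_lit 1) (nat_lit 241) (nat_lit 245) (nat_lit 234))) (XT.nd (nat_lit 94) (nat_lit 0) (nat_lit 0) (XT.lf (nat_lit 1932) (nat_lit 1006237543) (nat_lit 0) (nat_lit 1969719731) (nat_lit 1848) (nat_lit 1006237543) (nat_lit 318) (nat_lit 1) (nat_lit 295) (nat_lit 1) (nat_lit 317) (nat_lit 1) (nat_lit 242) (nat_lit 245) (nat_lit 233)) (XT.lf (nat_lit 1932) (nat_lit 1813848568) (nat_lit 84) (nat_lit 1063589915) (nat_lit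 0) (nat_lit 1063589915) (nat_lit 318) (nat_lit 1) (nat_lit 296) (nat_lit 1) (nat_lit 295) (nat_lit 1) (nat_lit 243) (nat_lit 245) (nat_lit 232))))) (XT.nd (nat_lit 376) (nat_lit 1680) (nat_lit 0) (XT.nd (nat_lit 188) (nat_lit 0) (nat_lit 84) (XT.nd (nat_lit 94) (nat_lit 0) (nat_lit 0) (XT.lf (nat_lit 1932) (nat_lit 803146522) (nat_lit 0) (nat_lit 2294170848) (nat_lit 1848) (nat_lit 803146522) (nat_lit 319) (nat_lit 1) (nat_lit 296) (nat_lit 1) (nat_lit 318) (nat_lit 1) (nat_lit 244) (nat_lit 245) (nat_lit 231)) (XT.lf (nat_lit 1932) (nat_lit 1386624712) (nat_lit 84) (nat_lit 1236895480) (nat_lit 0) (nat_lit 1236895480) (nat_lit 319) (nat_lit 1) (nat_lit 297) (nat_lit 1) (nat_lit 296) (nat_lit 1) (nat_lit 245) (nat_lit 245) (nat_lit 230))) (XT.nd (nat_lit 94) (nat_lit 0) (nat_lit 0) (XT.lf (nat_lit 1932) (nat_lit 580795248) (nat_lit 0) (nat_lit 2659421748) (nat_lit 1848) (nat_lit 580795248) (nat_lit 320)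 (nat_lit 1) (nat_lit 297) (nat_lit 1) (nat_lit 319) (nat_lit 1) (nat_lit 246) (nat_lit 245) (nat_lit 229)) (XT.lf (nat_lit 1932) (nat_lit 922179939) (nat_lit 84) (nat_lit 1429931673) (nat_lit 0) (nat_lit 1429931673) (nat_lit 320) (nat_lit 1) (nat_lit 298) (nat_lit 1) (nat_lit 297) (nat_lit 1) (nat_lit 247) (nat_lit 245) (nat_lit 228)))) (XT.nd (nat_lit 188) (nat_lit 1848) (nat_lit 0) (XT.nd (nat_lit 94) (nat_lit 0) (nat_lit 0) (XT.lf (nat_lit 1932) (nat_lit 340604805) (nat_lit 0) (nat_lit 3062559060) (nat_lit 1848) (nat_lit 340604805) (nat_lit 321) (nat_lit 1) (nat_lit 298) (nat_lit 1) (nat_lit 320) (nat_lit 1) (nat_lit 248) (nat_lit 245) (nat_lit 227)) (XT.lf (nat_lit 1932) (nat_lit 423292379) (nat_lit 84) (nat_lit 1641274562) (nat_lit 0) (nat_lit 1641274562) (nat_lit 321) (nat_lit 1) (nat_lit 299) (nat_lit 1) (nat_lit 298) (nat_lit 1) (nat_lit 249) (nat_lit 245) (nat_lit 226))) (XT.nd (nat_lit 94)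 (nat_lit 1932) (nat_lit 0) (XT.lf (nat_lit 1932) (nat_lit 83922818) (nat_lit 0) (nat_lit 3500818804) (nat_lit 1848) (nat_lit 83922818) (nat_lit 322) (nat_lit 1) (nat_lit 299) (nat_lit 1) (nat_lit 321) (nat_lit 1) (nat_lit 250) (nat_lit 245) (nat_lit 225)) (XT.lf (nat_lit 2016) (nat_lit 1762934650) (nat_lit 0) (nat_lit 105856878) (nat_lit 1932) (nat_lit 1762934650) (nat_lit 300) (nat_lit 1) (nat_lit 276) (nat_lit 1) (nat_lit 299) (nat_lit 1) (nat_lit 251) (nat_lit 245) (nat_lit 224))))))))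
noncomputable def ec7 : XT := (XT.nd (nat_lit 44086) (nat_lit 756) (nat_lit 0) (XT.nd (nat_lit 1316) (nat_lit 756) (nat_lit 0) (XT.nd (nat_lit 658) (nat_lit 3444) (nat_lit 0) (XT.nd (nat_lit 282) (nat_lit 1848) (nat_lit 0) (XT.nd (nat_lit 94) (nat_lit 1008) (nat_lit 0) (XT.lf (nat_lit 2016) (nat_lit 3222285746) (nat_lit 84) (nat_lit 186614594) (nat_lit 0) (nat_lit 186614594) (nat_lit 300) (nat_lit 1) (nat_lit 277) (nat_lit 1) (nat_lit 276) (nat_lit 1) (nat_lit 252) (nat_lit 245) (nat_lit 223)) (XT.nd (nat_lit 94) (nat_lit 1092) (nat_lit 0) (XT.lf (nat_lit 84) (nat_lit 1450889593) (nat_lit 0) (nat_lit 657799031) (nat_lit 1932) (nat_lit 1450889593) (nat_lit 278) (nat_lit 1) (nat_lit 277) (nat_lit 1) (nat_lit 300) (nat_lit 1) (nat_lit 253) (nat_lit 245) (nat_lit 222)) (XT.lf (nat_lit 1176) (nat_lit 2583417855) (nat_lit 0) (nat_lit 470447449) (nat_lit 1092) (nat_lit 470447449) (nat_lit 278) (nat_lit 1) (nat_lit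 264) (nat_lit 1) (nat_lit 277) (nat_lit 1) (nat_lit 254) (nat_lit 245) (nat_lit 221)))) (XT.nd (nat_lit 188) (nat_lit 924) (nat_lit 0) (XT.nd (nat_lit 94) (nat_lit 924) (nat_lit 0) (XT.lf (nat_lit 84) (nat_lit 1126551278) (nat_lit 0) (nat_lit 1236299019) (nat_lit 1176) (nat_lit 1126551278) (nat_lit 265) (nat_lit 1) (nat_lit 264) (nat_lit 1) (nat_lit 278) (nat_lit 1) (nat_lit 255) (nat_lit 245) (nat_lit 220)) (XT.lf (nat_lit 1008) (nat_lit 1920962620) (nat_lit 0) (nat_lit 767043475) (nat_lit 924) (nat_lit 767043475) (nat_lit 265) (nat_lit 1) (nat_lit 253) (nat_lit 1) (nat_lit 264) (nat_lit 1) (nat_lit 256) (nat_lit 245) (nat_lit 219))) (XT.nd (nat_lit 94) (nat_lit 924) (nat_lit 0) (XT.lf (nat_lit 84) (nat_lit 790993980) (nat_lit 0) (nat_lit 1839148043) (nat_lit 1008) (nat_lit 790993980) (nat_lit 254) (nat_lit 1) (nat_lit 253) (nat_lit 1) (nat_lit 265) (nat_lit 1) (nat_lit 257) (nat_lit 245) (nat_lit 218))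 (XT.lf (nat_lit 1008) (nat_lit 1237018078) (nat_lit 0) (nat_lit 1075324132) (nat_lit 924) (nat_lit 1075324132) (nat_lit 254) (nat_lit 1) (nat_lit 242) (nat_lit 1) (nat_lit 253) (nat_lit 1) (nat_lit 258) (nat_lit 245) (nat_lit 217))))) (XT.nd (nat_lit 282) (nat_lit 2604) (nat_lit 0) (XT.nd (nat_lit 94) (nat_lit 840) (nat_lit 0) (XT.lf (nat_lit 84) (nat_lit 445234367) (nat_lit 0) (nat_lit 2464254574) (nat_lit 1008) (nat_lit 445234367) (nat_lit 243) (nat_lit 1) (nat_lit 242) (nat_lit 1) (nat_lit 254) (nat_lit 1) (nat_lit 259) (nat_lit 245) (nat_lit 216)) (XT.nd (nat_lit 94) (nat_lit 0) (nat_lit 0) (XT.lf (nat_lit 924) (nat_lit 533569370) (nat_lit 0) (nat_lit 1394268332) (nat_lit 840) (nat_lit 1394268332) (nat_lit 243) (nat_lit 1) (nat_lit 232) (nat_lit 1) (nat_lit 242) (nat_lit 1) (nat_lit 260) (nat_lit 245) (nat_lit 215)) (XT.lf (nat_lit 84) (nat_lit 90234207) (nat_lit 0) (nat_lit 3109638864) (nat_lit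 924) (nat_lit 90234207) (nat_lit 233) (nat_lit 1) (nat_lit 232) (nat_lit 1) (nat_lit 243) (nat_lit 1) (nat_lit 261) (nat_lit 245) (nat_lit 214)))) (XT.nd (nat_lit 188) (nat_lit 840) (nat_lit 0) (XT.nd (nat_lit 94) (nat_lit 840) (nat_lit 0) (XT.lf (nat_lit 84) (nat_lit 1536739455) (nat_lit 0) (nat_lit 184805253) (nat_lit 924) (nat_lit 1536739455) (nat_lit 222) (nat_lit 1) (nat_lit 221) (nat_lit 1) (nat_lit 232) (nat_lit 1) (nat_lit 262) (nat_lit 245) (nat_lit 213)) (XT.lf (nat_lit 924) (nat_lit 2684815228) (nat_lit 0) (nat_lit 271123278) (nat_lit 840) (nat_lit 271123278) (nat_lit 222) (nat_lit 1) (nat_lit 211) (nat_lit 1) (nat_lit 221) (nat_lit 1) (nat_lit 263) (nat_lit 245) (nat_lit 212))) (XT.nd (nat_lit 94) (nat_lit 840) (nat_lit 0) (XT.lf (nat_lit 84) (nat_lit 1142486385) (nat_lit 0) (nat_lit 911118000) (nat_lit 924) (nat_lit 1142486385) (nat_lit 212) (nat_lit 1) (nat_lit 211) (nat_lit 1) (nat_lit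 222) (nat_lit 1) (nat_lit 264) (nat_lit 245) (nat_lit 211)) (XT.lf (nat_lit 924) (nat_lit 1887152536) (nat_lit 0) (nat_lit 639246082) (nat_lit 840) (nat_lit 639246082) (nat_lit 212) (nat_lit 1) (nat_lit 201) (nat_lit 1) (nat_lit 211) (nat_lit 1) (nat_lit 265) (nat_lit 245) (nat_lit 210)))))) (XT.nd (nat_lit 42018) (nat_lit 0) (nat_lit 8316) (XT.nd (nat_lit 41642) (nat_lit 0) (nat_lit 8148) (XT.nd (nat_lit 94) (nat_lit 756) (nat_lit 0) (XT.lf (nat_lit 84) (nat_lit 742078788) (nat_lit 0) (nat_lit 1651400713) (nat_lit 924) (nat_lit 742078788) (nat_lit 202) (nat_lit 1) (nat_lit 201) (nat_lit 1) (nat_lit 212) (nat_lit 1) (nat_lit 266) (nat_lit 245) (nat_lit 209)) (XT.nd (nat_lit 94) (nat_lit 0) (nat_lit 0) (XT.lf (nat_lit 840) (nat_lit 1077902432) (nat_lit 0) (nat_lit 1013980087) (nat_lit 756) (nat_lit 1013980087) (nat_lit 202) (nat_lit 1) (nat_lit 192) (nat_lit 1) (nat_lit 201) (nat_lit 1) (nat_lit 267)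 (nat_lit 245) (nat_lit 208)) (XT.lf (nat_lit 84) (nat_lit 336272717) (nat_lit 0) (nat_lit 2404091813) (nat_lit 840) (nat_lit 336272717) (nat_lit 193) (nat_lit 1) (nat_lit 192) (nat_lit 1) (nat_lit 202) (nat_lit 1) (nat_lit 268) (nat_lit 245) (nat_lit 207)))) (XT.nd (nat_lit 188) (nat_lit 0) (nat_lit 84) (XT.nd (nat_lit 94) (nat_lit 0) (nat_lit 0) (XT.lf (nat_lit 1932) (nat_lit 884310263) (nat_lit 0) (nat_lit 543537053) (nat_lit 1932) (nat_lit 884310263) (nat_lit 312) (nat_lit 1) (nat_lit 289) (nat_lit 0) (nat_lit 312) (nat_lit 0) (nat_lit 228) (nat_lit 246) (nat_lit 246)) (XT.lf (nat_lit 1932) (nat_lit 3495240665) (nat_lit 84) (nat_lit 539608730) (nat_lit 0) (nat_lit 539608730) (nat_lit 312) (nat_lit 1) (nat_lit 290) (nat_lit 1) (nat_lit 289) (nat_lit 0) (nat_lit 229) (nat_lit 246) (nat_lit 245))) (XT.nd (nat_lit 94) (nat_lit 0) (nat_lit 0) (XT.lf (nat_lit 1932) (nat_lit 1714349613) (nat_lit 0) (nat_lit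 1096427364) (nat_lit 1848) (nat_lit 1714349613) (nat_lit 313) (nat_lit 1) (nat_lit 290) (nat_lit 1) (nat_lit 312) (nat_lit 1) (nat_lit 230) (nat_lit 246) (nat_lit 244)) (XT.lf (nat_lit 1932) (nat_lit 3355665942) (nat_lit 84) (nat_lit 560510232) (nat_lit 0) (nat_lit 560510232) (nat_lit 313) (nat_lit 1) (nat_lit 291) (nat_lit 1) (nat_lit 290) (nat_lit 1) (nat_lit 231) (nat_lit 246) (nat_lit 243))))) (XT.nd (nat_lit 376) (nat_lit 0) (nat_lit 168) (XT.nd (nat_lit 188) (nat_lit 0) (nat_lit 84) (XT.nd (nat_lit 94) (nat_lit 0) (nat_lit 0) (XT.lf (nat_lit 1932) (nat_lit 1629887866) (nat_lit 0) (nat_lit 1168987363) (nat_lit 1848) (nat_lit 1629887866) (nat_lit 314) (nat_lit 1) (nat_lit 291) (nat_lit 1) (nat_lit 313) (nat_lit 1) (nat_lit 232) (nat_lit 246) (nat_lit 242)) (XT.lf (nat_lit 1932) (nat_lit 3157501035) (nat_lit 84) (nat_lit 612094248) (nat_lit 0) (nat_lit 612094248) (nat_lit 314) (nat_lit 1) (nat_lit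 292) (nat_lit 1) (nat_lit 291) (nat_lit 1) (nat_lit 233) (nat_lit 246) (nat_lit 241))) (XT.nd (nat_lit 94) (nat_lit 0) (nat_lit 0) (XT.lf (nat_lit 1932) (nat_lit 1517220753) (nat_lit 0) (nat_lit 1300692973) (nat_lit 1848) (nat_lit 1517220753) (nat_lit 315) (nat_lit 1) (nat_lit 292) (nat_lit 1) (nat_lit 314) (nat_lit 1) (nat_lit 234) (nat_lit 246) (nat_lit 240)) (XT.lf (nat_lit 1932) (nat_lit 2904630466) (nat_lit 84) (nat_lit 692374381) (nat_lit 0) (nat_lit 692374381) (nat_lit 315) (nat_lit 1) (nat_lit 293) (nat_lit 1) (nat_lit 292) (nat_lit 1) (nat_lit 235) (nat_lit 246) (nat_lit 239)))) (XT.nd (nat_lit 188) (nat_lit 0) (nat_lit 84) (XT.nd (nat_lit 94) (nat_lit 0) (nat_lit 0) (XT.lf (nat_lit 1932) (nat_lit 1378234119) (nat_lit 0) (nat_lit 1487685498) (nat_lit 1848) (nat_lit 1378234119) (nat_lit 316) (nat_lit 1) (nat_lit 293) (nat_lit 1) (nat_lit 315) (nat_lit 1) (nat_lit 236) (nat_lit 246) (nat_lit 238))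 (XT.lf (nat_lit 1932) (nat_lit 2600743414) (nat_lit 84) (nat_lit 799463461) (nat_lit 0) (nat_lit 799463461) (nat_lit 316) (nat_lit 1) (nat_lit 294) (nat_lit 1) (nat_lit 293) (nat_lit 1) (nat_lit 237) (nat_lit 246) (nat_lit 237))) (XT.nd (nat_lit 94) (nat_lit 0) (nat_lit 0) (XT.lf (nat_lit 1932) (nat_lit 1214718757) (nat_lit 0) (nat_lit 1726299424) (nat_lit 1848) (nat_lit 1214718757) (nat_lit 317) (nat_lit 1) (nat_lit 294) (nat_lit 1) (nat_lit 316) (nat_lit 1) (nat_lit 238) (nat_lit 246) (nat_lit 236)) (XT.lf (nat_lit 1932) (nat_lit 2249342676) (nat_lit 84) (nat_lit 931569009) (nat_lit 0) (nat_lit 931569009) (nat_lit 317) (nat_lit 1) (nat_lit 295) (nat_lit 1) (nat_lit 294) (nat_lit 1) (nat_lit 239) (nat_lit 246) (nat_lit 235))))))) (XT.nd (nat_lit 1410) (nat_lit 5880) (nat_lit 0) (XT.nd (nat_lit 658) (nat_lit 3528) (nat_lit 0) (XT.nd (nat_lit 282) (nat_lit 0) (nat_lit 84) (XT.nd (nat_lit 94) (nat_lit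 0) (nat_lit 0) (XT.lf (nat_lit 1932) (nat_lit 1028374769) (nat_lit 0) (nat_lit 2013053565) (nat_lit 1848) (nat_lit 1028374769) (nat_lit 318) (nat_lit 1) (nat_lit 295) (nat_lit 1) (nat_lit 317) (nat_lit 1) (nat_lit 240) (nat_lit 246) (nat_lit 234)) (XT.nd (nat_lit 94) (nat_lit 0) (nat_lit 84) (XT.lf (nat_lit 1932) (nat_lit 1853753236) (nat_lit 84) (nat_lit 1086988893) (nat_lit 0) (nat_lit 1086988893) (nat_lit 318) (nat_lit 1) (nat_lit 296) (nat_lit 1) (nat_lit 295) (nat_lit 1) (nat_lit 241) (nat_lit 246) (nat_lit 233)) (XT.lf (nat_lit 1932) (nat_lit 820815745) (nat_lit 0) (nat_lit 2344642607) (nat_lit 1848) (nat_lit 820815745) (nat_lit 319) (nat_lit 1) (nat_lit 296) (nat_lit 1) (nat_lit 318) (nat_lit 1) (nat_lit 242) (nat_lit 246) (nat_lit 232)))) (XT.nd (nat_lit 188) (nat_lit 0) (nat_lit 84) (XT.nd (nat_lit 94) (nat_lit 0) (nat_lit 84) (XT.lf (nat_lit 1932) (nat_lit 1417130455) (nat_lit 84) (nat_lit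 1264107180) (nat_lit 0) (nat_lit 1264107180) (nat_lit 319) (nat_lit 1) (nat_lit 297) (nat_lit 1) (nat_lit 296) (nat_lit 1) (nat_lit 243) (nat_lit 246) (nat_lit 231)) (XT.lf (nat_lit 1932) (nat_lit 593572744) (nat_lit 0) (nat_lit 2717929027) (nat_lit 1848) (nat_lit 593572744) (nat_lit 320) (nat_lit 1) (nat_lit 297) (nat_lit 1) (nat_lit 319) (nat_lit 1) (nat_lit 244) (nat_lit 246) (nat_lit 230))) (XT.nd (nat_lit 94) (nat_lit 0) (nat_lit 84) (XT.lf (nat_lit 1932) (nat_lit 942467898) (nat_lit 84) (nat_lit 1461390170) (nat_lit 0) (nat_lit 1461390170) (nat_lit 320) (nat_lit 1) (nat_lit 298) (nat_lit 1) (nat_lit 297) (nat_lit 1) (nat_lit 245) (nat_lit 246) (nat_lit 229)) (XT.lf (nat_lit 1932) (nat_lit 348098111) (nat_lit 0) (nat_lit 3129935360) (nat_lit 1848) (nat_lit 348098111) (nat_lit 321) (nat_lit 1) (nat_lit 298) (nat_lit 1) (nat_lit 320) (nat_lit 1) (nat_lit 246) (nat_lit 246) (nat_lit 228))))) (XT.nd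 (nat_lit 376) (nat_lit 1932) (nat_lit 0) (XT.nd (nat_lit 188) (nat_lit 1848) (nat_lit 0) (XT.nd (nat_lit 94) (nat_lit 0) (nat_lit 84) (XT.lf (nat_lit 1932) (nat_lit 432604812) (nat_lit 84) (nat_lit 1677382603) (nat_lit 0) (nat_lit 1677382603) (nat_lit 321) (nat_lit 1) (nat_lit 299) (nat_lit 1) (nat_lit 298) (nat_lit 1) (nat_lit 247) (nat_lit 246) (nat_lit 227)) (XT.lf (nat_lit 1932) (nat_lit 85769120) (nat_lit 0) (nat_lit 3577836817) (nat_lit 1848) (nat_lit 85769120) (nat_lit 322) (nat_lit 1) (nat_lit 299) (nat_lit 1) (nat_lit 321) (nat_lit 1) (nat_lit 248) (nat_lit 246) (nat_lit 226))) (XT.nd (nat_lit 94) (nat_lit 0) (nat_lit 0) (XT.lf (nat_lit 2016) (nat_lit 1801719213) (nat_lit 0) (nat_lit 108185729) (nat_lit 1932) (nat_lit 1801719213) (nat_lit 300) (nat_lit 1) (nat_lit 276) (nat_lit 1) (nat_lit 299) (nat_lit 1) (nat_lit 249) (nat_lit 246) (nat_lit 225)) (XT.lf (nat_lit 2016) (nat_lit 3293176032)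 (nat_lit 84) (nat_lit 190720115) (nat_lit 0) (nat_lit 190720115) (nat_lit 300) (nat_lit 1) (nat_lit 277) (nat_lit 1) (nat_lit 276) (nat_lit 1) (nat_lit 250) (nat_lit 246) (nat_lit 224)))) (XT.nd (nat_lit 188) (nat_lit 924) (nat_lit 0) (XT.nd (nat_lit 94) (nat_lit 1092) (nat_lit 0) (XT.lf (nat_lit 84) (nat_lit 1482809164) (nat_lit 0) (nat_lit 672270610) (nat_lit 1932) (nat_lit 1482809164) (nat_lit 278) (nat_lit 1) (nat_lit 277) (nat_lit 1) (nat_lit 300) (nat_lit 1) (nat_lit 251) (nat_lit 246) (nat_lit 223)) (XT.lf (nat_lit 1176) (nat_lit 2640253048) (nat_lit 0) (nat_lit 480797293) (nat_lit 1092) (nat_lit 480797293) (nat_lit 278) (nat_lit 1) (nat_lit 264) (nat_lit 1) (nat_lit 277) (nat_lit 1) (nat_lit 252) (nat_lit 246) (nat_lit 222))) (XT.nd (nat_lit 94) (nat_lit 924) (nat_lit 0) (XT.lf (nat_lit 84) (nat_lit 1151335406) (nat_lit 0) (nat_lit 1263497598) (nat_lit 1176) (nat_lit 1151335406) (nat_lit 265)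 (nat_lit 1) (nat_lit 264) (nat_lit 1) (nat_lit 278) (nat_lit 1) (nat_lit 253) (nat_lit 246) (nat_lit 221)) (XT.lf (nat_lit 1008) (nat_lit 1963223798) (nat_lit 0) (nat_lit 783918431) (nat_lit 924) (nat_lit 783918431) (nat_lit 265) (nat_lit 1) (nat_lit 253) (nat_lit 1) (nat_lit 264) (nat_lit 1) (nat_lit 254) (nat_lit 246) (nat_lit 220)))))) (XT.nd (nat_lit 658) (nat_lit 2352) (nat_lit 0) (XT.nd (nat_lit 282) (nat_lit 2604) (nat_lit 0) (XT.nd (nat_lit 94) (nat_lit 924) (nat_lit 0) (XT.lf (nat_lit 84) (nat_lit 808395848) (nat_lit 0) (nat_lit 1879609300) (nat_lit 1008) (nat_lit 808395848) (nat_lit 254) (nat_lit 1) (nat_lit 253) (nat_lit 1) (nat_lit 265) (nat_lit 1) (nat_lit 255) (nat_lit 246) (nat_lit 219)) (XT.nd (nat_lit 94) (nat_lit 0) (nat_lit 0) (XT.lf (nat_lit 1008) (nat_lit 1264232475) (nat_lit 0) (nat_lit 1098981263) (nat_lit 924) (nat_lit 1098981263) (nat_lit 254) (nat_lit 1) (nat_lit 242) (nat_lit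 1) (nat_lit 253) (nat_lit 1) (nat_lit 256) (nat_lit 246) (nat_lit 218)) (XT.lf (nat_lit 84) (nat_lit 455029523) (nat_lit 0) (nat_lit 2518468175) (nat_lit 1008) (nat_lit 455029523) (nat_lit 243) (nat_lit 1) (nat_lit 242) (nat_lit 1) (nat_lit 254) (nat_lit 1) (nat_lit 257) (nat_lit 246) (nat_lit 217)))) (XT.nd (nat_lit 188) (nat_lit 1764) (nat_lit 0) (XT.nd (nat_lit 94) (nat_lit 0) (nat_lit 0) (XT.lf (nat_lit 924) (nat_lit 545307896) (nat_lit 0) (nat_lit 1424942236) (nat_lit 840) (nat_lit 1424942236) (nat_lit 243) (nat_lit 1) (nat_lit 232) (nat_lit 1) (nat_lit 242) (nat_lit 1) (nat_lit 258) (nat_lit 246) (nat_lit 216)) (XT.lf (nat_lit 84) (nat_lit 92219360) (nat_lit 0) (nat_lit 3178050919) (nat_lit 924) (nat_lit 92219360) (nat_lit 233) (nat_lit 1) (nat_lit 232) (nat_lit 1) (nat_lit 243) (nat_lit 1) (nat_lit 259) (nat_lit 246) (nat_lit 215))) (XT.nd (nat_lit 94) (nat_lit 840) (nat_lit 0) (XT.lf (nat_lit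 84) (nat_lit 1570547723) (nat_lit 0) (nat_lit 188870968) (nat_lit 924) (nat_lit 1570547723) (nat_lit 222) (nat_lit 1) (nat_lit 221) (nat_lit 1) (nat_lit 232) (nat_lit 1) (nat_lit 260) (nat_lit 246) (nat_lit 214)) (XT.lf (nat_lit 924) (nat_lit 2743881163) (nat_lit 0) (nat_lit 277087990) (nat_lit 840) (nat_lit 277087990) (nat_lit 222) (nat_lit 1) (nat_lit 211) (nat_lit 1) (nat_lit 221) (nat_lit 1) (nat_lit 261) (nat_lit 246) (nat_lit 213))))) (XT.nd (nat_lit 376) (nat_lit 756) (nat_lit 0) (XT.nd (nat_lit 188) (nat_lit 756) (nat_lit 0) (XT.nd (nat_lit 94) (nat_lit 840) (nat_lit 0) (XT.lf (nat_lit 84) (nat_lit 1167621085) (nat_lit 0) (nat_lit 931162596) (nat_lit 924) (nat_lit 1167621085) (nat_lit 212) (nat_lit 1) (nat_lit 211) (nat_lit 1) (nat_lit 222) (nat_lit 1) (nat_lit 262) (nat_lit 246) (nat_lit 212)) (XT.lf (nat_lit 924) (nat_lit 1928669892) (nat_lit 0) (nat_lit 653309496) (nat_lit 840) (nat_lit 653309496)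 (nat_lit 212) (nat_lit 1) (nat_lit 201) (nat_lit 1) (nat_lit 211) (nat_lit 1) (nat_lit 263) (nat_lit 246) (nat_lit 211))) (XT.nd (nat_lit 94) (nat_lit 756) (nat_lit 0) (XT.lf (nat_lit 84) (nat_lit 758404521) (nat_lit 0) (nat_lit 1687731529) (nat_lit 924) (nat_lit 758404521) (nat_lit 202) (nat_lit 1) (nat_lit 201) (nat_lit 1) (nat_lit 212) (nat_lit 1) (nat_lit 264) (nat_lit 246) (nat_lit 210)) (XT.lf (nat_lit 840) (nat_lit 1101616286) (nat_lit 0) (nat_lit 1036287649) (nat_lit 756) (nat_lit 1036287649) (nat_lit 202) (nat_lit 1) (nat_lit 192) (nat_lit 1) (nat_lit 201) (nat_lit 1) (nat_lit 265) (nat_lit 246) (nat_lit 209)))) (XT.nd (nat_lit 41454) (nat_lit 0) (nat_lit 8904) (XT.nd (nat_lit 94) (nat_lit 756) (nat_lit 0) (XT.lf (nat_lit 84) (nat_lit 343670717) (nat_lit 0) (nat_lit 2456981833) (nat_lit 840) (nat_lit 343670717) (nat_lit 193) (nat_lit 1) (nat_lit 192) (nat_lit 1) (nat_lit 202) (nat_lit 1) (nat_lit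 266) (nat_lit 246) (nat_lit 208)) (XT.lf (nat_lit 840) (nat_lit 264227011) (nat_lit 0) (nat_lit 1425244321) (nat_lit 756) (nat_lit 1425244321) (nat_lit 193) (nat_lit 1) (nat_lit 183) (nat_lit 1) (nat_lit 192) (nat_lit 1) (nat_lit 267) (nat_lit 246) (nat_lit 207))) (XT.nd (nat_lit 94) (nat_lit 0) (nat_lit 0) (XT.lf (nat_lit 1932) (nat_lit 903765089) (nat_lit 0) (nat_lit 555494868) (nat_lit 1932) (nat_lit 903765089) (nat_lit 312) (nat_lit 1) (nat_lit 289) (nat_lit 0) (nat_lit 312) (nat_lit 0) (nat_lit 226) (nat_lit 247) (nat_lit 247)) (XT.lf (nat_lit 1932) (nat_lit 3572135959) (nat_lit 84) (nat_lit 551480122) (nat_lit 0) (nat_lit 551480122) (nat_lit 312) (nat_lit 1) (nat_lit 290) (nat_lit 1) (nat_lit 289) (nat_lit 0) (nat_lit 227) (nat_lit 247) (nat_lit 246))))))))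
noncomputable def ec8 : XT := (XT.nd (nat_lit 2726) (nat_lit 4956) (nat_lit 0) (XT.nd (nat_lit 1316) (nat_lit 4872) (nat_lit 0) (XT.nd (nat_lit 658) (nat_lit 0) (nat_lit 252) (XT.nd (nat_lit 282) (nat_lit 0) (nat_lit 84) (XT.nd (nat_lit 94) (nat_lit 0) (nat_lit 0) (XT.lf (nat_lit 1932) (nat_lit 1752065305) (nat_lit 0) (nat_lit 1120548766) (nat_lit 1848) (nat_lit 1752065305) (nat_lit 313) (nat_lit 1) (nat_lit 290) (nat_lit 1) (nat_lit 312) (nat_lit 1) (nat_lit 228) (nat_lit 247) (nat_lit 245)) (XT.nd (nat_lit 94) (nat_lit 0) (nat_lit 84) (XT.lf (nat_lit 1932) (nat_lit 3429490593) (nat_lit 84) (nat_lit 572841457) (nat_lit 0) (nat_lit 572841457) (nat_lit 313) (nat_lit 1) (nat_lit 291) (nat_lit 1) (nat_lit 290) (nat_lit 1) (nat_lit 229) (nat_lit 247) (nat_lit 244)) (XT.lf (nat_lit 1932) (nat_lit 1665745399) (nat_lit 0) (nat_lit 1194705085) (nat_lit 1848) (nat_lit 1665745399) (nat_lit 314) (nat_lit 1) (nat_lit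 291) (nat_lit 1) (nat_lit 313) (nat_lit 1) (nat_lit 230) (nat_lit 247) (nat_lit 243)))) (XT.nd (nat_lit 188) (nat_lit 0) (nat_lit 84) (XT.nd (nat_lit 94) (nat_lit 0) (nat_lit 84) (XT.lf (nat_lit 1932) (nat_lit 3226966058) (nat_lit 84) (nat_lit 625560322) (nat_lit 0) (nat_lit 625560322) (nat_lit 314) (nat_lit 1) (nat_lit 292) (nat_lit 1) (nat_lit 291) (nat_lit 1) (nat_lit 231) (nat_lit 247) (nat_lit 242)) (XT.lf (nat_lit 1932) (nat_lit 1550599609) (nat_lit 0) (nat_lit 1329308218) (nat_lit 1848) (nat_lit 1550599609) (nat_lit 315) (nat_lit 1) (nat_lit 292) (nat_lit 1) (nat_lit 314) (nat_lit 1) (nat_lit 232) (nat_lit 247) (nat_lit 241))) (XT.nd (nat_lit 94) (nat_lit 0) (nat_lit 84) (XT.lf (nat_lit 1932) (nat_lit 2968532337) (nat_lit 84) (nat_lit 707606617) (nat_lit 0) (nat_lit 707606617) (nat_lit 315) (nat_lit 1) (nat_lit 293) (nat_lit 1) (nat_lit 292) (nat_lit 1) (nat_lit 233) (nat_lit 247) (nat_lit 240))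 (XT.lf (nat_lit 1932) (nat_lit 1408555269) (nat_lit 0) (nat_lit 1520414579) (nat_lit 1848) (nat_lit 1408555269) (nat_lit 316) (nat_lit 1) (nat_lit 293) (nat_lit 1) (nat_lit 315) (nat_lit 1) (nat_lit 234) (nat_lit 247) (nat_lit 239))))) (XT.nd (nat_lit 282) (nat_lit 0) (nat_lit 168) (XT.nd (nat_lit 94) (nat_lit 0) (nat_lit 84) (XT.lf (nat_lit 1932) (nat_lit 2657959769) (nat_lit 84) (nat_lit 817051657) (nat_lit 0) (nat_lit 817051657) (nat_lit 316) (nat_lit 1) (nat_lit 294) (nat_lit 1) (nat_lit 293) (nat_lit 1) (nat_lit 235) (nat_lit 247) (nat_lit 238)) (XT.nd (nat_lit 94) (nat_lit 0) (nat_lit 0) (XT.lf (nat_lit 1932) (nat_lit 1241442569) (nat_lit 0) (nat_lit 1764278012) (nat_lit 1848) (nat_lit 1241442569) (nat_lit 317) (nat_lit 1) (nat_lit 294) (nat_lit 1) (nat_lit 316) (nat_lit 1) (nat_lit 236) (nat_lit 247) (nat_lit 237)) (XT.lf (nat_lit 1932) (nat_lit 2298828215) (nat_lit 84) (nat_lit 952063527) (nat_lit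 0) (nat_lit 952063527) (nat_lit 317) (nat_lit 1) (nat_lit 295) (nat_lit 1) (nat_lit 294) (nat_lit 1) (nat_lit 237) (nat_lit 247) (nat_lit 236)))) (XT.nd (nat_lit 188) (nat_lit 0) (nat_lit 84) (XT.nd (nat_lit 94) (nat_lit 0) (nat_lit 0) (XT.lf (nat_lit 1932) (nat_lit 1050999014) (nat_lit 0) (nat_lit 2057340743) (nat_lit 1848) (nat_lit 1050999014) (nat_lit 318) (nat_lit 1) (nat_lit 295) (nat_lit 1) (nat_lit 317) (nat_lit 1) (nat_lit 238) (nat_lit 247) (nat_lit 235)) (XT.lf (nat_lit 1932) (nat_lit 1894535807) (nat_lit 84) (nat_lit 1110902648) (nat_lit 0) (nat_lit 1110902648) (nat_lit 318) (nat_lit 1) (nat_lit 296) (nat_lit 1) (nat_lit 295) (nat_lit 1) (nat_lit 239) (nat_lit 247) (nat_lit 234))) (XT.nd (nat_lit 94) (nat_lit 0) (nat_lit 0) (XT.lf (nat_lit 1932) (nat_lit 838873691) (nat_lit 0) (nat_lit 2396224744) (nat_lit 1848) (nat_lit 838873691) (nat_lit 319) (nat_lit 1) (nat_lit 296) (nat_lit 1) (nat_lit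 318) (nat_lit 1) (nat_lit 240) (nat_lit 247) (nat_lit 233)) (XT.lf (nat_lit 1932) (nat_lit 1448307325) (nat_lit 84) (nat_lit 1291917538) (nat_lit 0) (nat_lit 1291917538) (nat_lit 319) (nat_lit 1) (nat_lit 297) (nat_lit 1) (nat_lit 296) (nat_lit 1) (nat_lit 241) (nat_lit 247) (nat_lit 232)))))) (XT.nd (nat_lit 658) (nat_lit 3696) (nat_lit 0) (XT.nd (nat_lit 282) (nat_lit 1764) (nat_lit 0) (XT.nd (nat_lit 94) (nat_lit 0) (nat_lit 0) (XT.lf (nat_lit 1932) (nat_lit 606631344) (nat_lit 0) (nat_lit 2777723465) (nat_lit 1848) (nat_lit 606631344) (nat_lit 320) (nat_lit 1) (nat_lit 297) (nat_lit 1) (nat_lit 319) (nat_lit 1) (nat_lit 242) (nat_lit 247) (nat_lit 231)) (XT.nd (nat_lit 94) (nat_lit 0) (nat_lit 84) (XT.lf (nat_lit 1932) (nat_lit 963202191) (nat_lit 84) (nat_lit 1493540754) (nat_lit 0) (nat_lit 1493540754) (nat_lit 320) (nat_lit 1) (nat_lit 298) (nat_lit 1) (nat_lit 297) (nat_lit 1) (nat_lit 243) (nat_lit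 247) (nat_lit 230)) (XT.lf (nat_lit 1932) (nat_lit 355756270) (nat_lit 0) (nat_lit 3198793938) (nat_lit 1848) (nat_lit 355756270) (nat_lit 321) (nat_lit 1) (nat_lit 298) (nat_lit 1) (nat_lit 320) (nat_lit 1) (nat_lit 244) (nat_lit 247) (nat_lit 229)))) (XT.nd (nat_lit 188) (nat_lit 1848) (nat_lit 0) (XT.nd (nat_lit 94) (nat_lit 0) (nat_lit 84) (XT.lf (nat_lit 1932) (nat_lit 442122118) (nat_lit 84) (nat_lit 1714285020) (nat_lit 0) (nat_lit 1714285020) (nat_lit 321) (nat_lit 1) (nat_lit 299) (nat_lit 1) (nat_lit 298) (nat_lit 1) (nat_lit 245) (nat_lit 247) (nat_lit 228)) (XT.lf (nat_lit 1932) (nat_lit 87656040) (nat_lit 0) (nat_lit 3656549227) (nat_lit 1848) (nat_lit 87656040) (nat_lit 322) (nat_lit 1) (nat_lit 299) (nat_lit 1) (nat_lit 321) (nat_lit 1) (nat_lit 246) (nat_lit 247) (nat_lit 227))) (XT.nd (nat_lit 94) (nat_lit 0) (nat_lit 0) (XT.lf (nat_lit 2016) (nat_lit 1841357035) (nat_lit 0) (nat_lit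 110565815) (nat_lit 1932) (nat_lit 1841357035) (nat_lit 300) (nat_lit 1) (nat_lit 276) (nat_lit 1) (nat_lit 299) (nat_lit 1) (nat_lit 247) (nat_lit 247) (nat_lit 226)) (XT.lf (nat_lit 2016) (nat_lit 3365625905) (nat_lit 84) (nat_lit 194915957) (nat_lit 0) (nat_lit 194915957) (nat_lit 300) (nat_lit 1) (nat_lit 277) (nat_lit 1) (nat_lit 276) (nat_lit 1) (nat_lit 248) (nat_lit 247) (nat_lit 225))))) (XT.nd (nat_lit 376) (nat_lit 1764) (nat_lit 0) (XT.nd (nat_lit 188) (nat_lit 924) (nat_lit 0) (XT.nd (nat_lit 94) (nat_lit 1092) (nat_lit 0) (XT.lf (nat_lit 84) (nat_lit 1515430966) (nat_lit 0) (nat_lit 687060564) (nat_lit 1932) (nat_lit 1515430966) (nat_lit 278) (nat_lit 1) (nat_lit 277) (nat_lit 1) (nat_lit 300) (nat_lit 1) (nat_lit 249) (nat_lit 247) (nat_lit 224)) (XT.lf (nat_lit 1176) (nat_lit 2698338615) (nat_lit 0) (nat_lit 491374833) (nat_lit 1092) (nat_lit 491374833) (nat_lit 278) (nat_lit 1) (nat_lit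 264) (nat_lit 1) (nat_lit 277) (nat_lit 1) (nat_lit 250) (nat_lit 247) (nat_lit 223))) (XT.nd (nat_lit 94) (nat_lit 924) (nat_lit 0) (XT.lf (nat_lit 84) (nat_lit 1176664785) (nat_lit 0) (nat_lit 1291294545) (nat_lit 1176) (nat_lit 1176664785) (nat_lit 265) (nat_lit 1) (nat_lit 264) (nat_lit 1) (nat_lit 278) (nat_lit 1) (nat_lit 251) (nat_lit 247) (nat_lit 222)) (XT.lf (nat_lit 1008) (nat_lit 2006414722) (nat_lit 0) (nat_lit 801164637) (nat_lit 924) (nat_lit 801164637) (nat_lit 265) (nat_lit 1) (nat_lit 253) (nat_lit 1) (nat_lit 264) (nat_lit 1) (nat_lit 252) (nat_lit 247) (nat_lit 221)))) (XT.nd (nat_lit 188) (nat_lit 840) (nat_lit 0) (XT.nd (nat_lit 94) (nat_lit 924) (nat_lit 0) (XT.lf (nat_lit 84) (nat_lit 826180556) (nat_lit 0) (nat_lit 1920960704) (nat_lit 1008) (nat_lit 826180556) (nat_lit 254) (nat_lit 1) (nat_lit 253) (nat_lit 1) (nat_lit 265) (nat_lit 1) (nat_lit 253) (nat_lit 247) (nat_lit 220))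 (XT.lf (nat_lit 1008) (nat_lit 1292045590) (nat_lit 0) (nat_lit 1123158851) (nat_lit 924) (nat_lit 1123158851) (nat_lit 254) (nat_lit 1) (nat_lit 242) (nat_lit 1) (nat_lit 253) (nat_lit 1) (nat_lit 254) (nat_lit 247) (nat_lit 219))) (XT.nd (nat_lit 94) (nat_lit 840) (nat_lit 0) (XT.lf (nat_lit 84) (nat_lit 465040173) (nat_lit 0) (nat_lit 2573874475) (nat_lit 1008) (nat_lit 465040173) (nat_lit 243) (nat_lit 1) (nat_lit 242) (nat_lit 1) (nat_lit 254) (nat_lit 1) (nat_lit 255) (nat_lit 247) (nat_lit 218)) (XT.lf (nat_lit 924) (nat_lit 557304670) (nat_lit 0) (nat_lit 1456290965) (nat_lit 840) (nat_lit 1456290965) (nat_lit 243) (nat_lit 1) (nat_lit 232) (nat_lit 1) (nat_lit 242) (nat_lit 1) (nat_lit 256) (nat_lit 247) (nat_lit 217))))))) (XT.nd (nat_lit 42394) (nat_lit 0) (nat_lit 9828) (XT.nd (nat_lit 658) (nat_lit 1596) (nat_lit 0) (XT.nd (nat_lit 282) (nat_lit 1596) (nat_lit 0) (XT.nd (nat_lit 94) (nat_lit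 1764) (nat_lit 0) (XT.lf (nat_lit 84) (nat_lit 94248186) (nat_lit 0) (nat_lit 3247968039) (nat_lit 924) (nat_lit 94248186) (nat_lit 233) (nat_lit 1) (nat_lit 232) (nat_lit 1) (nat_lit 243) (nat_lit 1) (nat_lit 257) (nat_lit 247) (nat_lit 216)) (XT.nd (nat_lit 94) (nat_lit 840) (nat_lit 0) (XT.lf (nat_lit 84) (nat_lit 1605099773) (nat_lit 0) (nat_lit 193026129) (nat_lit 924) (nat_lit 1605099773) (nat_lit 222) (nat_lit 1) (nat_lit 221) (nat_lit 1) (nat_lit 232) (nat_lit 1) (nat_lit 258) (nat_lit 247) (nat_lit 215)) (XT.lf (nat_lit 924) (nat_lit 2804246549) (nat_lit 0) (nat_lit 283183926) (nat_lit 840) (nat_lit 283183926) (nat_lit 222) (nat_lit 1) (nat_lit 211) (nat_lit 1) (nat_lit 221) (nat_lit 1) (nat_lit 259) (nat_lit 247) (nat_lit 214)))) (XT.nd (nat_lit 188) (nat_lit 756) (nat_lit 0) (XT.nd (nat_lit 94) (nat_lit 840) (nat_lit 0) (XT.lf (nat_lit 84) (nat_lit 1193308749) (nat_lit 0) (nat_lit 951648173)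 (nat_lit 924) (nat_lit 1193308749) (nat_lit 212) (nat_lit 1) (nat_lit 211) (nat_lit 1) (nat_lit 222) (nat_lit 1) (nat_lit 260) (nat_lit 247) (nat_lit 213)) (XT.lf (nat_lit 924) (nat_lit 1971100629) (nat_lit 0) (nat_lit 667682305) (nat_lit 840) (nat_lit 667682305) (nat_lit 212) (nat_lit 1) (nat_lit 201) (nat_lit 1) (nat_lit 211) (nat_lit 1) (nat_lit 261) (nat_lit 247) (nat_lit 212))) (XT.nd (nat_lit 94) (nat_lit 756) (nat_lit 0) (XT.lf (nat_lit 84) (nat_lit 775089421) (nat_lit 0) (nat_lit 1724861623) (nat_lit 924) (nat_lit 775089421) (nat_lit 202) (nat_lit 1) (nat_lit 201) (nat_lit 1) (nat_lit 212) (nat_lit 1) (nat_lit 262) (nat_lit 247) (nat_lit 211)) (XT.lf (nat_lit 840) (nat_lit 1125851844) (nat_lit 0) (nat_lit 1059085977) (nat_lit 756) (nat_lit 1059085977) (nat_lit 202) (nat_lit 1) (nat_lit 192) (nat_lit 1) (nat_lit 201) (nat_lit 1) (nat_lit 263) (nat_lit 247) (nat_lit 210))))) (XT.nd (nat_lit 282)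 (nat_lit 0) (nat_lit 0) (XT.nd (nat_lit 94) (nat_lit 1596) (nat_lit 0) (XT.lf (nat_lit 84) (nat_lit 351231472) (nat_lit 0) (nat_lit 2511035433) (nat_lit 840) (nat_lit 351231472) (nat_lit 193) (nat_lit 1) (nat_lit 192) (nat_lit 1) (nat_lit 202) (nat_lit 1) (nat_lit 264) (nat_lit 247) (nat_lit 209)) (XT.nd (nat_lit 94) (nat_lit 840) (nat_lit 0) (XT.lf (nat_lit 840) (nat_lit 270040005) (nat_lit 0) (nat_lit 1456599696) (nat_lit 756) (nat_lit 1456599696) (nat_lit 193) (nat_lit 1) (nat_lit 183) (nat_lit 1) (nat_lit 192) (nat_lit 1) (nat_lit 265) (nat_lit 247) (nat_lit 208)) (XT.lf (nat_lit 840) (nat_lit 2999620928) (nat_lit 0) (nat_lit 76959882) (nat_lit 756) (nat_lit 76959882) (nat_lit 183) (nat_lit 1) (nat_lit 173) (nat_lit 1) (nat_lit 182) (nat_lit 1) (nat_lit 266) (nat_lit 247) (nat_lit 207)))) (XT.nd (nat_lit 41266) (nat_lit 0) (nat_lit 9744) (XT.nd (nat_lit 41172) (nat_lit 0) (nat_lit 9744) (XT.lf (nat_lit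 84) (nat_lit 1268827657) (nat_lit 0) (nat_lit 586314499) (nat_lit 840) (nat_lit 1268827657) (nat_lit 174) (nat_lit 1) (nat_lit 173) (nat_lit 1) (nat_lit 183) (nat_lit 1) (nat_lit 267) (nat_lit 247) (nat_lit 206)) (XT.lf (nat_lit 1932) (nat_lit 923647921) (nat_lit 0) (nat_lit 567715755) (nat_lit 1932) (nat_lit 923647921) (nat_lit 312) (nat_lit 1) (nat_lit 289) (nat_lit 0) (nat_lit 312) (nat_lit 0) (nat_lit 224) (nat_lit 248) (nat_lit 248))) (XT.nd (nat_lit 94) (nat_lit 0) (nat_lit 84) (XT.lf (nat_lit 1932) (nat_lit 3650722950) (nat_lit 84) (nat_lit 563612685) (nat_lit 0) (nat_lit 563612685) (nat_lit 312) (nat_lit 1) (nat_lit 290) (nat_lit 1) (nat_lit 289) (nat_lit 0) (nat_lit 225) (nat_lit 248) (nat_lit 247)) (XT.lf (nat_lit 1932) (nat_lit 1790610741) (nat_lit 0) (nat_lit 1145200839) (nat_lit 1848) (nat_lit 1790610741) (nat_lit 313) (nat_lit 1) (nat_lit 290) (nat_lit 1) (nat_lit 312) (nat_lit 1) (nat_lit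 226) (nat_lit 248) (nat_lit 246)))))) (XT.nd (nat_lit 658) (nat_lit 0) (nat_lit 336) (XT.nd (nat_lit 282) (nat_lit 0) (nat_lit 168) (XT.nd (nat_lit 94) (nat_lit 0) (nat_lit 84) (XT.lf (nat_lit 1932) (nat_lit 3504939386) (nat_lit 84) (nat_lit 585443969) (nat_lit 0) (nat_lit 585443969) (nat_lit 313) (nat_lit 1) (nat_lit 291) (nat_lit 1) (nat_lit 290) (nat_lit 1) (nat_lit 227) (nat_lit 248) (nat_lit 245)) (XT.nd (nat_lit 94) (nat_lit 0) (nat_lit 0) (XT.lf (nat_lit 1932) (nat_lit 1702391798) (nat_lit 0) (nat_lit 1220988596) (nat_lit 1848) (nat_lit 1702391798) (nat_lit 314) (nat_lit 1) (nat_lit 291) (nat_lit 1) (nat_lit 313) (nat_lit 1) (nat_lit 228) (nat_lit 248) (nat_lit 244)) (XT.lf (nat_lit 1932) (nat_lit 3297959311) (nat_lit 84) (nat_lit 639322649) (nat_lit 0) (nat_lit 639322649) (nat_lit 314) (nat_lit 1) (nat_lit 292) (nat_lit 1) (nat_lit 291) (nat_lit 1) (nat_lit 229) (nat_lit 248) (nat_lit 243))))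 (XT.nd (nat_lit 188) (nat_lit 0) (nat_lit 84) (XT.nd (nat_lit 94) (nat_lit 0) (nat_lit 0) (XT.lf (nat_lit 1932) (nat_lit 1584712801) (nat_lit 0) (nat_lit 1358552999) (nat_lit 1848) (nat_lit 1584712801) (nat_lit 315) (nat_lit 1) (nat_lit 292) (nat_lit 1) (nat_lit 314) (nat_lit 1) (nat_lit 230) (nat_lit 248) (nat_lit 242)) (XT.lf (nat_lit 1932) (nat_lit 3033840048) (nat_lit 84) (nat_lit 723173963) (nat_lit 0) (nat_lit 723173963) (nat_lit 315) (nat_lit 1) (nat_lit 293) (nat_lit 1) (nat_lit 292) (nat_lit 1) (nat_lit 231) (nat_lit 248) (nat_lit 241))) (XT.nd (nat_lit 94) (nat_lit 0) (nat_lit 0) (XT.lf (nat_lit 1932) (nat_lit 1439543485) (nat_lit 0) (nat_lit 1553863700) (nat_lit 1848) (nat_lit 1439543485) (nat_lit 316) (nat_lit 1) (nat_lit 293) (nat_lit 1) (nat_lit 315) (nat_lit 1) (nat_lit 232) (nat_lit 248) (nat_lit 240)) (XT.lf (nat_lit 1932) (nat_lit 2716434884) (nat_lit 84) (nat_lit 835026793) (nat_lit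 0) (nat_lit 835026793) (nat_lit 316) (nat_lit 1) (nat_lit 294) (nat_lit 1) (nat_lit 293) (nat_lit 1) (nat_lit 233) (nat_lit 248) (nat_lit 239))))) (XT.nd (nat_lit 376) (nat_lit 0) (nat_lit 168) (XT.nd (nat_lit 188) (nat_lit 0) (nat_lit 84) (XT.nd (nat_lit 94) (nat_lit 0) (nat_lit 0) (XT.lf (nat_lit 1932) (nat_lit 1268754306) (nat_lit 0) (nat_lit 1803092128) (nat_lit 1848) (nat_lit 1268754306) (nat_lit 317) (nat_lit 1) (nat_lit 294) (nat_lit 1) (nat_lit 316) (nat_lit 1) (nat_lit 234) (nat_lit 248) (nat_lit 238)) (XT.lf (nat_lit 1932) (nat_lit 2349402435) (nat_lit 84) (nat_lit 973008924) (nat_lit 0) (nat_lit 973008924) (nat_lit 317) (nat_lit 1) (nat_lit 295) (nat_lit 1) (nat_lit 294) (nat_lit 1) (nat_lit 235) (nat_lit 248) (nat_lit 237))) (XT.nd (nat_lit 94) (nat_lit 0) (nat_lit 0) (XT.lf (nat_lit 1932) (nat_lit 1074120993) (nat_lit 0) (nat_lit 2102602239) (nat_lit 1848) (nat_lit 1074120993) (nat_lit 318)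 (nat_lit 1) (nat_lit 295) (nat_lit 1) (nat_lit 317) (nat_lit 1) (nat_lit 236) (nat_lit 248) (nat_lit 236)) (XT.lf (nat_lit 1932) (nat_lit 1936215595) (nat_lit 84) (nat_lit 1135342507) (nat_lit 0) (nat_lit 1135342507) (nat_lit 318) (nat_lit 1) (nat_lit 296) (nat_lit 1) (nat_lit 295) (nat_lit 1) (nat_lit 237) (nat_lit 248) (nat_lit 235)))) (XT.nd (nat_lit 188) (nat_lit 0) (nat_lit 84) (XT.nd (nat_lit 94) (nat_lit 0) (nat_lit 0) (XT.lf (nat_lit 1932) (nat_lit 857328913) (nat_lit 0) (nat_lit 2448941689) (nat_lit 1848) (nat_lit 857328913) (nat_lit 319) (nat_lit 1) (nat_lit 296) (nat_lit 1) (nat_lit 318) (nat_lit 1) (nat_lit 238) (nat_lit 248) (nat_lit 234)) (XT.lf (nat_lit 1932) (nat_lit 1480170086) (nat_lit 84) (nat_lit 1320339724) (nat_lit 0) (nat_lit 1320339724) (nat_lit 319) (nat_lit 1) (nat_lit 297) (nat_lit 1) (nat_lit 296) (nat_lit 1) (nat_lit 239) (nat_lit 248) (nat_lit 233))) (XT.nd (nat_lit 94)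 (nat_lit 0) (nat_lit 0) (XT.lf (nat_lit 1932) (nat_lit 619977234) (nat_lit 0) (nat_lit 2838833381) (nat_lit 1848) (nat_lit 619977234) (nat_lit 320) (nat_lit 1) (nat_lit 297) (nat_lit 1) (nat_lit 319) (nat_lit 1) (nat_lit 240) (nat_lit 248) (nat_lit 232)) (XT.lf (nat_lit 1932) (nat_lit 984392640) (nat_lit 84) (nat_lit 1526398650) (nat_lit 0) (nat_lit 1526398650) (nat_lit 320) (nat_lit 1) (nat_lit 298) (nat_lit 1) (nat_lit 297) (nat_lit 1) (nat_lit 241) (nat_lit 248) (nat_lit 231))))))))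
noncomputable def ec9 : XT := (XT.nd (nat_lit 43616) (nat_lit 0) (nat_lit 5712) (XT.nd (nat_lit 1316) (nat_lit 5712) (nat_lit 0) (XT.nd (nat_lit 658) (nat_lit 2688) (nat_lit 0) (XT.nd (nat_lit 282) (nat_lit 2856) (nat_lit 0) (XT.nd (nat_lit 94) (nat_lit 0) (nat_lit 0) (XT.lf (nat_lit 1932) (nat_lit 363582908) (nat_lit 0) (nat_lit 3269167404) (nat_lit 1848) (nat_lit 363582908) (nat_lit 321) (nat_lit 1) (nat_lit 298) (nat_lit 1) (nat_lit 320) (nat_lit 1) (nat_lit 242) (nat_lit 248) (nat_lit 230)) (XT.nd (nat_lit 94) (nat_lit 0) (nat_lit 84) (XT.lf (nat_lit 1932) (nat_lit 451848804) (nat_lit 84) (nat_lit 1751999291) (nat_lit 0) (nat_lit 1751999291) (nat_lit 321) (nat_lit 1) (nat_lit 299) (nat_lit 1) (nat_lit 298) (nat_lit 1) (nat_lit 243) (nat_lit 248) (nat_lit 229)) (XT.lf (nat_lit 1932) (nat_lit 89584473) (nat_lit 0) (nat_lit 3736993310) (nat_lit 1848) (nat_lit 89584473) (nat_lit 322) (nat_lit 1) (nat_lit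 299) (nat_lit 1) (nat_lit 321) (nat_lit 1) (nat_lit 244) (nat_lit 248) (nat_lit 228)))) (XT.nd (nat_lit 188) (nat_lit 1008) (nat_lit 0) (XT.nd (nat_lit 94) (nat_lit 0) (nat_lit 0) (XT.lf (nat_lit 2016) (nat_lit 1881866890) (nat_lit 0) (nat_lit 112998263) (nat_lit 1932) (nat_lit 1881866890) (nat_lit 300) (nat_lit 1) (nat_lit 276) (nat_lit 1) (nat_lit 299) (nat_lit 1) (nat_lit 245) (nat_lit 248) (nat_lit 227)) (XT.lf (nat_lit 2016) (nat_lit 3439669675) (nat_lit 84) (nat_lit 199204109) (nat_lit 0) (nat_lit 199204109) (nat_lit 300) (nat_lit 1) (nat_lit 277) (nat_lit 1) (nat_lit 276) (nat_lit 1) (nat_lit 246) (nat_lit 248) (nat_lit 226))) (XT.nd (nat_lit 94) (nat_lit 1092) (nat_lit 0) (XT.lf (nat_lit 84) (nat_lit 1548770447) (nat_lit 0) (nat_lit 702175896) (nat_lit 1932) (nat_lit 1548770447) (nat_lit 278) (nat_lit 1) (nat_lit 277) (nat_lit 1) (nat_lit 300) (nat_lit 1) (nat_lit 247) (nat_lit 248) (nat_lit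 225)) (XT.lf (nat_lit 1176) (nat_lit 2757702064) (nat_lit 0) (nat_lit 502185079) (nat_lit 1092) (nat_lit 502185079) (nat_lit 278) (nat_lit 1) (nat_lit 264) (nat_lit 1) (nat_lit 277) (nat_lit 1) (nat_lit 248) (nat_lit 248) (nat_lit 224))))) (XT.nd (nat_lit 282) (nat_lit 1764) (nat_lit 0) (XT.nd (nat_lit 94) (nat_lit 924) (nat_lit 0) (XT.lf (nat_lit 84) (nat_lit 1202551411) (nat_lit 0) (nat_lit 1319703025) (nat_lit 1176) (nat_lit 1202551411) (nat_lit 265) (nat_lit 1) (nat_lit 264) (nat_lit 1) (nat_lit 278) (nat_lit 1) (nat_lit 249) (nat_lit 248) (nat_lit 223)) (XT.nd (nat_lit 94) (nat_lit 0) (nat_lit 0) (XT.lf (nat_lit 1008) (nat_lit 2050555845) (nat_lit 0) (nat_lit 818790259) (nat_lit 924) (nat_lit 818790259) (nat_lit 265) (nat_lit 1) (nat_lit 253) (nat_lit 1) (nat_lit 264) (nat_lit 1) (nat_lit 250) (nat_lit 248) (nat_lit 222)) (XT.lf (nat_lit 84) (nat_lit 844356529) (nat_lit 0) (nat_lit 1963221840) (nat_lit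 1008) (nat_lit 844356529) (nat_lit 254) (nat_lit 1) (nat_lit 253) (nat_lit 1) (nat_lit 265) (nat_lit 1) (nat_lit 251) (nat_lit 248) (nat_lit 221)))) (XT.nd (nat_lit 188) (nat_lit 840) (nat_lit 0) (XT.nd (nat_lit 94) (nat_lit 0) (nat_lit 0) (XT.lf (nat_lit 1008) (nat_lit 1320470593) (nat_lit 0) (nat_lit 1147868346) (nat_lit 924) (nat_lit 1147868346) (nat_lit 254) (nat_lit 1) (nat_lit 242) (nat_lit 1) (nat_lit 253) (nat_lit 1) (nat_lit 252) (nat_lit 248) (nat_lit 220)) (XT.lf (nat_lit 84) (nat_lit 475271056) (nat_lit 0) (nat_lit 2630499713) (nat_lit 1008) (nat_lit 475271056) (nat_lit 243) (nat_lit 1) (nat_lit 242) (nat_lit 1) (nat_lit 254) (nat_lit 1) (nat_lit 253) (nat_lit 248) (nat_lit 219))) (XT.nd (nat_lit 94) (nat_lit 0) (nat_lit 0) (XT.lf (nat_lit 924) (nat_lit 569565373) (nat_lit 0) (nat_lit 1488329366) (nat_lit 840) (nat_lit 1488329366) (nat_lit 243) (nat_lit 1) (nat_lit 232) (nat_lit 1) (nat_lit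 242) (nat_lit 1) (nat_lit 254) (nat_lit 248) (nat_lit 218)) (XT.lf (nat_lit 84) (nat_lit 96321646) (nat_lit 0) (nat_lit 3319423336) (nat_lit 924) (nat_lit 96321646) (nat_lit 233) (nat_lit 1) (nat_lit 232) (nat_lit 1) (nat_lit 243) (nat_lit 1) (nat_lit 255) (nat_lit 248) (nat_lit 217)))))) (XT.nd (nat_lit 658) (nat_lit 2352) (nat_lit 0) (XT.nd (nat_lit 282) (nat_lit 1596) (nat_lit 0) (XT.nd (nat_lit 94) (nat_lit 840) (nat_lit 0) (XT.lf (nat_lit 84) (nat_lit 1640411968) (nat_lit 0) (nat_lit 197272704) (nat_lit 924) (nat_lit 1640411968) (nat_lit 222) (nat_lit 1) (nat_lit 221) (nat_lit 1) (nat_lit 232) (nat_lit 1) (nat_lit 256) (nat_lit 248) (nat_lit 216)) (XT.nd (nat_lit 94) (nat_lit 0) (nat_lit 0) (XT.lf (nat_lit 924) (nat_lit 2865939973) (nat_lit 0) (nat_lit 289413972) (nat_lit 840) (nat_lit 289413972) (nat_lit 222) (nat_lit 1) (nat_lit 211) (nat_lit 1) (nat_lit 221) (nat_lit 1) (nat_lit 257) (nat_lit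 248) (nat_lit 215)) (XT.lf (nat_lit 84) (nat_lit 1219561542) (nat_lit 0) (nat_lit 972584433) (nat_lit 924) (nat_lit 1219561542) (nat_lit 212) (nat_lit 1) (nat_lit 211) (nat_lit 1) (nat_lit 222) (nat_lit 1) (nat_lit 258) (nat_lit 248) (nat_lit 214)))) (XT.nd (nat_lit 188) (nat_lit 756) (nat_lit 0) (XT.nd (nat_lit 94) (nat_lit 0) (nat_lit 0) (XT.lf (nat_lit 924) (nat_lit 2014464843) (nat_lit 0) (nat_lit 682371316) (nat_lit 840) (nat_lit 682371316) (nat_lit 212) (nat_lit 1) (nat_lit 201) (nat_lit 1) (nat_lit 211) (nat_lit 1) (nat_lit 259) (nat_lit 248) (nat_lit 213)) (XT.lf (nat_lit 84) (nat_lit 792141388) (nat_lit 0) (nat_lit 1762808578) (nat_lit 924) (nat_lit 792141388) (nat_lit 202) (nat_lit 1) (nat_lit 201) (nat_lit 1) (nat_lit 212) (nat_lit 1) (nat_lit 260) (nat_lit 248) (nat_lit 212))) (XT.nd (nat_lit 94) (nat_lit 0) (nat_lit 0) (XT.lf (nat_lit 840) (nat_lit 1150620585) (nat_lit 0) (nat_lit 1082385869)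 (nat_lit 756) (nat_lit 1082385869) (nat_lit 202) (nat_lit 1) (nat_lit 192) (nat_lit 1) (nat_lit 201) (nat_lit 1) (nat_lit 261) (nat_lit 248) (nat_lit 211)) (XT.lf (nat_lit 84) (nat_lit 358958565) (nat_lit 0) (nat_lit 2566278213) (nat_lit 840) (nat_lit 358958565) (nat_lit 193) (nat_lit 1) (nat_lit 192) (nat_lit 1) (nat_lit 202) (nat_lit 1) (nat_lit 262) (nat_lit 248) (nat_lit 210))))) (XT.nd (nat_lit 376) (nat_lit 0) (nat_lit 0) (XT.nd (nat_lit 188) (nat_lit 756) (nat_lit 0) (XT.nd (nat_lit 94) (nat_lit 840) (nat_lit 0) (XT.lf (nat_lit 840) (nat_lit 275980886) (nat_lit 0) (nat_lit 1488644889) (nat_lit 756) (nat_lit 1488644889) (nat_lit 193) (nat_lit 1) (nat_lit 183) (nat_lit 1) (nat_lit 192) (nat_lit 1) (nat_lit 263) (nat_lit 248) (nat_lit 209)) (XT.lf (nat_lit 840) (nat_lit 3065612588) (nat_lit 0) (nat_lit 78653000) (nat_lit 756) (nat_lit 78653000) (nat_lit 183) (nat_lit 1) (nat_lit 173) (nat_lit 1)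 (nat_lit 182) (nat_lit 1) (nat_lit 264) (nat_lit 248) (nat_lit 208))) (XT.nd (nat_lit 94) (nat_lit 756) (nat_lit 0) (XT.lf (nat_lit 84) (nat_lit 1296741866) (nat_lit 0) (nat_lit 599213418) (nat_lit 840) (nat_lit 1296741866) (nat_lit 174) (nat_lit 1) (nat_lit 173) (nat_lit 1) (nat_lit 183) (nat_lit 1) (nat_lit 265) (nat_lit 248) (nat_lit 207)) (XT.lf (nat_lit 840) (nat_lit 2127187405) (nat_lit 0) (nat_lit 517922820) (nat_lit 756) (nat_lit 517922820) (nat_lit 174) (nat_lit 1) (nat_lit 164) (nat_lit 1) (nat_lit 173) (nat_lit 1) (nat_lit 266) (nat_lit 248) (nat_lit 206)))) (XT.nd (nat_lit 41078) (nat_lit 0) (nat_lit 10500) (XT.nd (nat_lit 40984) (nat_lit 0) (nat_lit 10500) (XT.lf (nat_lit 84) (nat_lit 827721478) (nat_lit 0) (nat_lit 1478231194) (nat_lit 840) (nat_lit 827721478) (nat_lit 165) (nat_lit 1) (nat_lit 164) (nat_lit 1) (nat_lit 174) (nat_lit 1) (nat_lit 267) (nat_lit 248) (nat_lit 205)) (XT.lf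 (nat_lit 1932) (nat_lit 943968175) (nat_lit 0) (nat_lit 580205502) (nat_lit 1932) (nat_lit 943968175) (nat_lit 312) (nat_lit 1) (nat_lit 289) (nat_lit 0) (nat_lit 312) (nat_lit 0) (nat_lit 222) (nat_lit 249) (nat_lit 249))) (XT.nd (nat_lit 94) (nat_lit 0) (nat_lit 84) (XT.lf (nat_lit 1932) (nat_lit 3731038855) (nat_lit 84) (nat_lit 576012164) (nat_lit 0) (nat_lit 576012164) (nat_lit 312) (nat_lit 1) (nat_lit 290) (nat_lit 1) (nat_lit 289) (nat_lit 0) (nat_lit 223) (nat_lit 249) (nat_lit 248)) (XT.lf (nat_lit 1932) (nat_lit 1830004178) (nat_lit 0) (nat_lit 1170395257) (nat_lit 1848) (nat_lit 1830004178) (nat_lit 313) (nat_lit 1) (nat_lit 290) (nat_lit 1) (nat_lit 312) (nat_lit 1) (nat_lit 224) (nat_lit 249) (nat_lit 247))))))) (XT.nd (nat_lit 1316) (nat_lit 4872) (nat_lit 0) (XT.nd (nat_lit 658) (nat_lit 0) (nat_lit 336) (XT.nd (nat_lit 282) (nat_lit 0) (nat_lit 168) (XT.nd (nat_lit 94) (nat_lit 0) (nat_lit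 84) (XT.lf (nat_lit 1932) (nat_lit 3582048052) (nat_lit 84) (nat_lit 598323736) (nat_lit 0) (nat_lit 598323736) (nat_lit 313) (nat_lit 1) (nat_lit 291) (nat_lit 1) (nat_lit 290) (nat_lit 1) (nat_lit 225) (nat_lit 249) (nat_lit 246)) (XT.nd (nat_lit 94) (nat_lit 0) (nat_lit 0) (XT.lf (nat_lit 1932) (nat_lit 1739844417) (nat_lit 0) (nat_lit 1247850346) (nat_lit 1848) (nat_lit 1739844417) (nat_lit 314) (nat_lit 1) (nat_lit 291) (nat_lit 1) (nat_lit 313) (nat_lit 1) (nat_lit 226) (nat_lit 249) (nat_lit 245)) (XT.lf (nat_lit 1932) (nat_lit 3370514416) (nat_lit 84) (nat_lit 653387747) (nat_lit 0) (nat_lit 653387747) (nat_lit 314) (nat_lit 1) (nat_lit 292) (nat_lit 1) (nat_lit 291) (nat_lit 1) (nat_lit 227) (nat_lit 249) (nat_lit 244)))) (XT.nd (nat_lit 188) (nat_lit 0) (nat_lit 84) (XT.nd (nat_lit 94) (nat_lit 0) (nat_lit 0) (XT.lf (nat_lit 1932) (nat_lit 1619576482) (nat_lit 0) (nat_lit 1388441165) (nat_lit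 1848) (nat_lit 1619576482) (nat_lit 315) (nat_lit 1) (nat_lit 292) (nat_lit 1) (nat_lit 314) (nat_lit 1) (nat_lit 228) (nat_lit 249) (nat_lit 243)) (XT.lf (nat_lit 1932) (nat_lit 3100584529) (nat_lit 84) (nat_lit 739083790) (nat_lit 0) (nat_lit 739083790) (nat_lit 315) (nat_lit 1) (nat_lit 293) (nat_lit 1) (nat_lit 292) (nat_lit 1) (nat_lit 229) (nat_lit 249) (nat_lit 242))) (XT.nd (nat_lit 94) (nat_lit 0) (nat_lit 0) (XT.lf (nat_lit 1932) (nat_lit 1471213442) (nat_lit 0) (nat_lit 1588048702) (nat_lit 1848) (nat_lit 1471213442) (nat_lit 316) (nat_lit 1) (nat_lit 293) (nat_lit 1) (nat_lit 315) (nat_lit 1) (nat_lit 230) (nat_lit 249) (nat_lit 241)) (XT.lf (nat_lit 1932) (nat_lit 2776196452) (nat_lit 84) (nat_lit 853397383) (nat_lit 0) (nat_lit 853397383) (nat_lit 316) (nat_lit 1) (nat_lit 294) (nat_lit 1) (nat_lit 293) (nat_lit 1) (nat_lit 231) (nat_lit 249) (nat_lit 240))))) (XT.nd (nat_lit 282) (nat_lit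 0) (nat_lit 84) (XT.nd (nat_lit 94) (nat_lit 0) (nat_lit 0) (XT.lf (nat_lit 1932) (nat_lit 1296666901) (nat_lit 0) (nat_lit 1842760155) (nat_lit 1848) (nat_lit 1296666901) (nat_lit 317) (nat_lit 1) (nat_lit 294) (nat_lit 1) (nat_lit 316) (nat_lit 1) (nat_lit 232) (nat_lit 249) (nat_lit 239)) (XT.nd (nat_lit 94) (nat_lit 0) (nat_lit 84) (XT.lf (nat_lit 1932) (nat_lit 2401089289) (nat_lit 84) (nat_lit 994415121) (nat_lit 0) (nat_lit 994415121) (nat_lit 317) (nat_lit 1) (nat_lit 295) (nat_lit 1) (nat_lit 294) (nat_lit 1) (nat_lit 233) (nat_lit 249) (nat_lit 238)) (XT.lf (nat_lit 1932) (nat_lit 1097751655) (nat_lit 0) (nat_lit 2148859489) (nat_lit 1848) (nat_lit 1097751655) (nat_lit 318) (nat_lit 1) (nat_lit 295) (nat_lit 1) (nat_lit 317) (nat_lit 1) (nat_lit 234) (nat_lit 249) (nat_lit 237)))) (XT.nd (nat_lit 188) (nat_lit 0) (nat_lit 84) (XT.nd (nat_lit 94) (nat_lit 0) (nat_lit 84) (XT.lf (nat_lit 1932)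 (nat_lit 1978812338) (nat_lit 84) (nat_lit 1160320042) (nat_lit 0) (nat_lit 1160320042) (nat_lit 318) (nat_lit 1) (nat_lit 296) (nat_lit 1) (nat_lit 295) (nat_lit 1) (nat_lit 235) (nat_lit 249) (nat_lit 236)) (XT.lf (nat_lit 1932) (nat_lit 876190149) (nat_lit 0) (nat_lit 2502818406) (nat_lit 1848) (nat_lit 876190149) (nat_lit 319) (nat_lit 1) (nat_lit 296) (nat_lit 1) (nat_lit 318) (nat_lit 1) (nat_lit 236) (nat_lit 249) (nat_lit 235))) (XT.nd (nat_lit 94) (nat_lit 0) (nat_lit 84) (XT.lf (nat_lit 1932) (nat_lit 1512733828) (nat_lit 84) (nat_lit 1349387198) (nat_lit 0) (nat_lit 1349387198) (nat_lit 319) (nat_lit 1) (nat_lit 297) (nat_lit 1) (nat_lit 296) (nat_lit 1) (nat_lit 237) (nat_lit 249) (nat_lit 234)) (XT.lf (nat_lit 1932) (nat_lit 633616733) (nat_lit 0) (nat_lit 2901287716) (nat_lit 1848) (nat_lit 633616733) (nat_lit 320) (nat_lit 1) (nat_lit 297) (nat_lit 1) (nat_lit 319) (nat_lit 1) (nat_lit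 238) (nat_lit 249) (nat_lit 233)))))) (XT.nd (nat_lit 658) (nat_lit 3696) (nat_lit 0) (XT.nd (nat_lit 282) (nat_lit 1764) (nat_lit 0) (XT.nd (nat_lit 94) (nat_lit 0) (nat_lit 84) (XT.lf (nat_lit 1932) (nat_lit 1006049278) (nat_lit 84) (nat_lit 1559979421) (nat_lit 0) (nat_lit 1559979421) (nat_lit 320) (nat_lit 1) (nat_lit 298) (nat_lit 1) (nat_lit 297) (nat_lit 1) (nat_lit 239) (nat_lit 249) (nat_lit 232)) (XT.nd (nat_lit 94) (nat_lit 0) (nat_lit 0) (XT.lf (nat_lit 1932) (nat_lit 371581732) (nat_lit 0) (nat_lit 3341089087) (nat_lit 1848) (nat_lit 371581732) (nat_lit 321) (nat_lit 1) (nat_lit 298) (nat_lit 1) (nat_lit 320) (nat_lit 1) (nat_lit 240) (nat_lit 249) (nat_lit 231)) (XT.lf (nat_lit 1932) (nat_lit 461789478) (nat_lit 84) (nat_lit 1790543275) (nat_lit 0) (nat_lit 1790543275) (nat_lit 321) (nat_lit 1) (nat_lit 299) (nat_lit 1) (nat_lit 298) (nat_lit 1) (nat_lit 241) (nat_lit 249) (nat_lit 230))))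 (XT.nd (nat_lit 188) (nat_lit 0) (nat_lit 0) (XT.nd (nat_lit 94) (nat_lit 1932) (nat_lit 0) (XT.lf (nat_lit 1932) (nat_lit 91555331) (nat_lit 0) (nat_lit 3819207163) (nat_lit 1848) (nat_lit 91555331) (nat_lit 322) (nat_lit 1) (nat_lit 299) (nat_lit 1) (nat_lit 321) (nat_lit 1) (nat_lit 242) (nat_lit 249) (nat_lit 229)) (XT.lf (nat_lit 2016) (nat_lit 1923267962) (nat_lit 0) (nat_lit 115484225) (nat_lit 1932) (nat_lit 1923267962) (nat_lit 300) (nat_lit 1) (nat_lit 276) (nat_lit 1) (nat_lit 299) (nat_lit 1) (nat_lit 243) (nat_lit 249) (nat_lit 228))) (XT.nd (nat_lit 94) (nat_lit 0) (nat_lit 84) (XT.lf (nat_lit 2016) (nat_lit 3515342407) (nat_lit 84) (nat_lit 203586599) (nat_lit 0) (nat_lit 203586599) (nat_lit 300) (nat_lit 1) (nat_lit 277) (nat_lit 1) (nat_lit 276) (nat_lit 1) (nat_lit 244) (nat_lit 249) (nat_lit 227)) (XT.lf (nat_lit 84) (nat_lit 1582843397) (nat_lit 0) (nat_lit 717623766) (nat_lit 1932)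 (nat_lit 1582843397) (nat_lit 278) (nat_lit 1) (nat_lit 277) (nat_lit 1) (nat_lit 300) (nat_lit 1) (nat_lit 245) (nat_lit 249) (nat_lit 226))))) (XT.nd (nat_lit 376) (nat_lit 1764) (nat_lit 0) (XT.nd (nat_lit 188) (nat_lit 924) (nat_lit 0) (XT.nd (nat_lit 94) (nat_lit 0) (nat_lit 0) (XT.lf (nat_lit 1176) (nat_lit 2818371510) (nat_lit 0) (nat_lit 513233151) (nat_lit 1092) (nat_lit 513233151) (nat_lit 278) (nat_lit 1) (nat_lit 264) (nat_lit 1) (nat_lit 277) (nat_lit 1) (nat_lit 246) (nat_lit 249) (nat_lit 225)) (XT.lf (nat_lit 84) (nat_lit 1229007542) (nat_lit 0) (nat_lit 1348736491) (nat_lit 1176) (nat_lit 1229007542) (nat_lit 265) (nat_lit 1) (nat_lit 264) (nat_lit 1) (nat_lit 278) (nat_lit 1) (nat_lit 247) (nat_lit 249) (nat_lit 224))) (XT.nd (nat_lit 94) (nat_lit 0) (nat_lit 0) (XT.lf (nat_lit 1008) (nat_lit 2095668074) (nat_lit 0) (nat_lit 836803644) (nat_lit 924) (nat_lit 836803644) (nat_lit 265)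 (nat_lit 1) (nat_lit 253) (nat_lit 1) (nat_lit 264) (nat_lit 1) (nat_lit 248) (nat_lit 249) (nat_lit 223)) (XT.lf (nat_lit 84) (nat_lit 862932372) (nat_lit 0) (nat_lit 2006412720) (nat_lit 1008) (nat_lit 862932372) (nat_lit 254) (nat_lit 1) (nat_lit 253) (nat_lit 1) (nat_lit 265) (nat_lit 1) (nat_lit 249) (nat_lit 249) (nat_lit 222)))) (XT.nd (nat_lit 188) (nat_lit 840) (nat_lit 0) (XT.nd (nat_lit 94) (nat_lit 0) (nat_lit 0) (XT.lf (nat_lit 1008) (nat_lit 1349520946) (nat_lit 0) (nat_lit 1173121449) (nat_lit 924) (nat_lit 1173121449) (nat_lit 254) (nat_lit 1) (nat_lit 242) (nat_lit 1) (nat_lit 253) (nat_lit 1) (nat_lit 250) (nat_lit 249) (nat_lit 221)) (XT.lf (nat_lit 84) (nat_lit 485727020) (nat_lit 0) (nat_lit 2688370707) (nat_lit 1008) (nat_lit 485727020) (nat_lit 243) (nat_lit 1) (nat_lit 242) (nat_lit 1) (nat_lit 254) (nat_lit 1) (nat_lit 251) (nat_lit 249) (nat_lit 220))) (XT.nd (nat_lit 94) (nat_lit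 0) (nat_lit 0) (XT.lf (nat_lit 924) (nat_lit 582095811) (nat_lit 0) (nat_lit 1521072612) (nat_lit 840) (nat_lit 1521072612) (nat_lit 243) (nat_lit 1) (nat_lit 232) (nat_lit 1) (nat_lit 242) (nat_lit 1) (nat_lit 252) (nat_lit 249) (nat_lit 219)) (XT.lf (nat_lit 84) (nat_lit 98440722) (nat_lit 0) (nat_lit 3392450650) (nat_lit 924) (nat_lit 98440722) (nat_lit 233) (nat_lit 1) (nat_lit 232) (nat_lit 1) (nat_lit 243) (nat_lit 1) (nat_lit 253) (nat_lit 249) (nat_lit 218))))))))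
noncomputable def ec10 : XT := (XT.nd (nat_lit 43522) (nat_lit 0) (nat_lit 0) (XT.nd (nat_lit 42112) (nat_lit 0) (nat_lit 11172) (XT.nd (nat_lit 658) (nat_lit 3024) (nat_lit 0) (XT.nd (nat_lit 282) (nat_lit 1596) (nat_lit 0) (XT.nd (nat_lit 94) (nat_lit 840) (nat_lit 0) (XT.lf (nat_lit 84) (nat_lit 1676501031) (nat_lit 0) (nat_lit 201612704) (nat_lit 924) (nat_lit 1676501031) (nat_lit 222) (nat_lit 1) (nat_lit 221) (nat_lit 1) (nat_lit 232) (nat_lit 1) (nat_lit 254) (nat_lit 249) (nat_lit 217)) (XT.nd (nat_lit 94) (nat_lit 0) (nat_lit 0) (XT.lf (nat_lit 924) (nat_lit 2928990652) (nat_lit 0) (nat_lit 295781079) (nat_lit 840) (nat_lit 295781079) (nat_lit 222) (nat_lit 1) (nat_lit 211) (nat_lit 1) (nat_lit 221) (nat_lit 1) (nat_lit 255) (nat_lit 249) (nat_lit 216)) (XT.lf (nat_lit 84) (nat_lit 1246391896) (nat_lit 0) (nat_lit 993981291) (nat_lit 924) (nat_lit 1246391896) (nat_lit 212) (nat_lit 1) (nat_lit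 211) (nat_lit 1) (nat_lit 222) (nat_lit 1) (nat_lit 256) (nat_lit 249) (nat_lit 215)))) (XT.nd (nat_lit 188) (nat_lit 756) (nat_lit 0) (XT.nd (nat_lit 94) (nat_lit 0) (nat_lit 0) (XT.lf (nat_lit 924) (nat_lit 2058783070) (nat_lit 0) (nat_lit 697383485) (nat_lit 840) (nat_lit 697383485) (nat_lit 212) (nat_lit 1) (nat_lit 201) (nat_lit 1) (nat_lit 211) (nat_lit 1) (nat_lit 257) (nat_lit 249) (nat_lit 214)) (XT.lf (nat_lit 84) (nat_lit 809568498) (nat_lit 0) (nat_lit 1801590367) (nat_lit 924) (nat_lit 809568498) (nat_lit 202) (nat_lit 1) (nat_lit 201) (nat_lit 1) (nat_lit 212) (nat_lit 1) (nat_lit 258) (nat_lit 249) (nat_lit 213))) (XT.nd (nat_lit 94) (nat_lit 0) (nat_lit 0) (XT.lf (nat_lit 840) (nat_lit 1175934237) (nat_lit 0) (nat_lit 1106198358) (nat_lit 756) (nat_lit 1106198358) (nat_lit 202) (nat_lit 1) (nat_lit 192) (nat_lit 1) (nat_lit 201) (nat_lit 1) (nat_lit 259) (nat_lit 249) (nat_lit 212)) (XT.lf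 (nat_lit 84) (nat_lit 366855653) (nat_lit 0) (nat_lit 2622736334) (nat_lit 840) (nat_lit 366855653) (nat_lit 193) (nat_lit 1) (nat_lit 192) (nat_lit 1) (nat_lit 202) (nat_lit 1) (nat_lit 260) (nat_lit 249) (nat_lit 211))))) (XT.nd (nat_lit 282) (nat_lit 1428) (nat_lit 0) (XT.nd (nat_lit 94) (nat_lit 840) (nat_lit 0) (XT.lf (nat_lit 840) (nat_lit 282052465) (nat_lit 0) (nat_lit 1521395077) (nat_lit 756) (nat_lit 1521395077) (nat_lit 193) (nat_lit 1) (nat_lit 183) (nat_lit 1) (nat_lit 192) (nat_lit 1) (nat_lit 261) (nat_lit 249) (nat_lit 210)) (XT.nd (nat_lit 94) (nat_lit 0) (nat_lit 0) (XT.lf (nat_lit 840) (nat_lit 3133056065) (nat_lit 0) (nat_lit 80383366) (nat_lit 756) (nat_lit 80383366) (nat_lit 183) (nat_lit 1) (nat_lit 173) (nat_lit 1) (nat_lit 182) (nat_lit 1) (nat_lit 262) (nat_lit 249) (nat_lit 209)) (XT.lf (nat_lit 84) (nat_lit 1325270187) (nat_lit 0) (nat_lit 612396113) (nat_lit 840) (nat_lit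 1325270187) (nat_lit 174) (nat_lit 1) (nat_lit 173) (nat_lit 1) (nat_lit 183) (nat_lit 1) (nat_lit 263) (nat_lit 249) (nat_lit 208)))) (XT.nd (nat_lit 188) (nat_lit 672) (nat_lit 0) (XT.nd (nat_lit 94) (nat_lit 0) (nat_lit 0) (XT.lf (nat_lit 840) (nat_lit 2173985528) (nat_lit 0) (nat_lit 529317122) (nat_lit 756) (nat_lit 529317122) (nat_lit 174) (nat_lit 1) (nat_lit 164) (nat_lit 1) (nat_lit 173) (nat_lit 1) (nat_lit 264) (nat_lit 249) (nat_lit 207)) (XT.lf (nat_lit 84) (nat_lit 845931350) (nat_lit 0) (nat_lit 1510752280) (nat_lit 840) (nat_lit 845931350) (nat_lit 165) (nat_lit 1) (nat_lit 164) (nat_lit 1) (nat_lit 174) (nat_lit 1) (nat_lit 265) (nat_lit 249) (nat_lit 206))) (XT.nd (nat_lit 40890) (nat_lit 0) (nat_lit 11172) (XT.lf (nat_lit 756) (nat_lit 1209199543) (nat_lit 0) (nat_lit 981910751) (nat_lit 672) (nat_lit 981910751) (nat_lit 165) (nat_lit 1) (nat_lit 156) (nat_lit 1) (nat_lit 164) (nat_lit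 1) (nat_lit 266) (nat_lit 249) (nat_lit 205)) (XT.lf (nat_lit 1932) (nat_lit 964735475) (nat_lit 0) (nat_lit 592970023) (nat_lit 1932) (nat_lit 964735475) (nat_lit 312) (nat_lit 1) (nat_lit 289) (nat_lit 0) (nat_lit 312) (nat_lit 0) (nat_lit 220) (nat_lit 250) (nat_lit 250)))))) (XT.nd (nat_lit 658) (nat_lit 0) (nat_lit 336) (XT.nd (nat_lit 282) (nat_lit 0) (nat_lit 168) (XT.nd (nat_lit 94) (nat_lit 0) (nat_lit 84) (XT.lf (nat_lit 1932) (nat_lit 3813121710) (nat_lit 84) (nat_lit 588684432) (nat_lit 0) (nat_lit 588684432) (nat_lit 312) (nat_lit 1) (nat_lit 290) (nat_lit 1) (nat_lit 289) (nat_lit 0) (nat_lit 221) (nat_lit 250) (nat_lit 249)) (XT.nd (nat_lit 94) (nat_lit 0) (nat_lit 0) (XT.lf (nat_lit 1932) (nat_lit 1870264269) (nat_lit 0) (nat_lit 1196143953) (nat_lit 1848) (nat_lit 1870264269) (nat_lit 313) (nat_lit 1) (nat_lit 290) (nat_lit 1) (nat_lit 312) (nat_lit 1) (nat_lit 222) (nat_lit 250) (nat_lit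 248)) (XT.lf (nat_lit 1932) (nat_lit 3660853110) (nat_lit 84) (nat_lit 611486858) (nat_lit 0) (nat_lit 611486858) (nat_lit 313) (nat_lit 1) (nat_lit 291) (nat_lit 1) (nat_lit 290) (nat_lit 1) (nat_lit 223) (nat_lit 250) (nat_lit 247)))) (XT.nd (nat_lit 188) (nat_lit 0) (nat_lit 84) (XT.nd (nat_lit 94) (nat_lit 0) (nat_lit 0) (XT.lf (nat_lit 1932) (nat_lit 1778120995) (nat_lit 0) (nat_lit 1275303053) (nat_lit 1848) (nat_lit 1778120995) (nat_lit 314) (nat_lit 1) (nat_lit 291) (nat_lit 1) (nat_lit 313) (nat_lit 1) (nat_lit 224) (nat_lit 250) (nat_lit 246)) (XT.lf (nat_lit 1932) (nat_lit 3444665733) (nat_lit 84) (nat_lit 667762277) (nat_lit 0) (nat_lit 667762277) (nat_lit 314) (nat_lit 1) (nat_lit 292) (nat_lit 1) (nat_lit 291) (nat_lit 1) (nat_lit 225) (nat_lit 250) (nat_lit 245))) (XT.nd (nat_lit 94) (nat_lit 0) (nat_lit 0) (XT.lf (nat_lit 1932) (nat_lit 1655207165) (nat_lit 0) (nat_lit 1418986870) (nat_lit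 1848) (nat_lit 1655207165) (nat_lit 315) (nat_lit 1) (nat_lit 292) (nat_lit 1) (nat_lit 314) (nat_lit 1) (nat_lit 226) (nat_lit 250) (nat_lit 244)) (XT.lf (nat_lit 1932) (nat_lit 3168797389) (nat_lit 84) (nat_lit 755343633) (nat_lit 0) (nat_lit 755343633) (nat_lit 315) (nat_lit 1) (nat_lit 293) (nat_lit 1) (nat_lit 292) (nat_lit 1) (nat_lit 227) (nat_lit 250) (nat_lit 243))))) (XT.nd (nat_lit 376) (nat_lit 0) (nat_lit 168) (XT.nd (nat_lit 188) (nat_lit 0) (nat_lit 84) (XT.nd (nat_lit 94) (nat_lit 0) (nat_lit 0) (XT.lf (nat_lit 1932) (nat_lit 1503580138) (nat_lit 0) (nat_lit 1622985773) (nat_lit 1848) (nat_lit 1503580138) (nat_lit 316) (nat_lit 1) (nat_lit 293) (nat_lit 1) (nat_lit 315) (nat_lit 1) (nat_lit 228) (nat_lit 250) (nat_lit 242)) (XT.lf (nat_lit 1932) (nat_lit 2837272774) (nat_lit 84) (nat_lit 872172125) (nat_lit 0) (nat_lit 872172125) (nat_lit 316) (nat_lit 1) (nat_lit 294) (nat_lit 1) (nat_lit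 293) (nat_lit 1) (nat_lit 229) (nat_lit 250) (nat_lit 241))) (XT.nd (nat_lit 94) (nat_lit 0) (nat_lit 0) (XT.lf (nat_lit 1932) (nat_lit 1325193572) (nat_lit 0) (nat_lit 1883300878) (nat_lit 1848) (nat_lit 1325193572) (nat_lit 317) (nat_lit 1) (nat_lit 294) (nat_lit 1) (nat_lit 316) (nat_lit 1) (nat_lit 230) (nat_lit 250) (nat_lit 240)) (XT.lf (nat_lit 1932) (nat_lit 2453913253) (nat_lit 84) (nat_lit 1016292253) (nat_lit 0) (nat_lit 1016292253) (nat_lit 317) (nat_lit 1) (nat_lit 295) (nat_lit 1) (nat_lit 294) (nat_lit 1) (nat_lit 231) (nat_lit 250) (nat_lit 239)))) (XT.nd (nat_lit 188) (nat_lit 0) (nat_lit 84) (XT.nd (nat_lit 94) (nat_lit 0) (nat_lit 0) (XT.lf (nat_lit 1932) (nat_lit 1121902191) (nat_lit 0) (nat_lit 2196134397) (nat_lit 1848) (nat_lit 1121902191) (nat_lit 318) (nat_lit 1) (nat_lit 295) (nat_lit 1) (nat_lit 317) (nat_lit 1) (nat_lit 232) (nat_lit 250) (nat_lit 238)) (XT.lf (nat_lit 1932)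 (nat_lit 2022346210) (nat_lit 84) (nat_lit 1185847083) (nat_lit 0) (nat_lit 1185847083) (nat_lit 318) (nat_lit 1) (nat_lit 296) (nat_lit 1) (nat_lit 295) (nat_lit 1) (nat_lit 233) (nat_lit 250) (nat_lit 237))) (XT.nd (nat_lit 94) (nat_lit 0) (nat_lit 0) (XT.lf (nat_lit 1932) (nat_lit 895466332) (nat_lit 0) (nat_lit 2557880411) (nat_lit 1848) (nat_lit 895466332) (nat_lit 319) (nat_lit 1) (nat_lit 296) (nat_lit 1) (nat_lit 318) (nat_lit 1) (nat_lit 234) (nat_lit 250) (nat_lit 236)) (XT.lf (nat_lit 1932) (nat_lit 1546013973) (nat_lit 84) (nat_lit 1379073716) (nat_lit 0) (nat_lit 1379073716) (nat_lit 319) (nat_lit 1) (nat_lit 297) (nat_lit 1) (nat_lit 296) (nat_lit 1) (nat_lit 235) (nat_lit 250) (nat_lit 235))))))) (XT.nd (nat_lit 1316) (nat_lit 7224) (nat_lit 0) (XT.nd (nat_lit 658) (nat_lit 2856) (nat_lit 0) (XT.nd (nat_lit 282) (nat_lit 1764) (nat_lit 0) (XT.nd (nat_lit 94) (nat_lit 0) (nat_lit 0) (XT.lf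 (nat_lit 1932) (nat_lit 647556301) (nat_lit 0) (nat_lit 2965116046) (nat_lit 1848) (nat_lit 647556301) (nat_lit 320) (nat_lit 1) (nat_lit 297) (nat_lit 1) (nat_lit 319) (nat_lit 1) (nat_lit 236) (nat_lit 250) (nat_lit 234)) (XT.nd (nat_lit 94) (nat_lit 0) (nat_lit 84) (XT.lf (nat_lit 1932) (nat_lit 1028182362) (nat_lit 84) (nat_lit 1594298968) (nat_lit 0) (nat_lit 1594298968) (nat_lit 320) (nat_lit 1) (nat_lit 298) (nat_lit 1) (nat_lit 297) (nat_lit 1) (nat_lit 237) (nat_lit 250) (nat_lit 233)) (XT.lf (nat_lit 1932) (nat_lit 379756530) (nat_lit 0) (nat_lit 3414593047) (nat_lit 1848) (nat_lit 379756530) (nat_lit 321) (nat_lit 1) (nat_lit 298) (nat_lit 1) (nat_lit 320) (nat_lit 1) (nat_lit 238) (nat_lit 250) (nat_lit 232)))) (XT.nd (nat_lit 188) (nat_lit 1848) (nat_lit 0) (XT.nd (nat_lit 94) (nat_lit 0) (nat_lit 84) (XT.lf (nat_lit 1932) (nat_lit 471948846) (nat_lit 84) (nat_lit 1829935227) (nat_lit 0)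 (nat_lit 1829935227) (nat_lit 321) (nat_lit 1) (nat_lit 299) (nat_lit 1) (nat_lit 298) (nat_lit 1) (nat_lit 239) (nat_lit 250) (nat_lit 231)) (XT.lf (nat_lit 1932) (nat_lit 93569549) (nat_lit 0) (nat_lit 3903229721) (nat_lit 1848) (nat_lit 93569549) (nat_lit 322) (nat_lit 1) (nat_lit 299) (nat_lit 1) (nat_lit 321) (nat_lit 1) (nat_lit 240) (nat_lit 250) (nat_lit 230))) (XT.nd (nat_lit 94) (nat_lit 0) (nat_lit 0) (XT.lf (nat_lit 2016) (nat_lit 1965579857) (nat_lit 0) (nat_lit 118024878) (nat_lit 1932) (nat_lit 1965579857) (nat_lit 300) (nat_lit 1) (nat_lit 276) (nat_lit 1) (nat_lit 299) (nat_lit 1) (nat_lit 241) (nat_lit 250) (nat_lit 229)) (XT.lf (nat_lit 2016) (nat_lit 3592679940) (nat_lit 84) (nat_lit 208065504) (nat_lit 0) (nat_lit 208065504) (nat_lit 300) (nat_lit 1) (nat_lit 277) (nat_lit 1) (nat_lit 276) (nat_lit 1) (nat_lit 242) (nat_lit 250) (nat_lit 228))))) (XT.nd (nat_lit 282) (nat_lit 1848)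 (nat_lit 0) (XT.nd (nat_lit 94) (nat_lit 1092) (nat_lit 0) (XT.lf (nat_lit 84) (nat_lit 1617665952) (nat_lit 0) (nat_lit 733411489) (nat_lit 1932) (nat_lit 1617665952) (nat_lit 278) (nat_lit 1) (nat_lit 277) (nat_lit 1) (nat_lit 300) (nat_lit 1) (nat_lit 243) (nat_lit 250) (nat_lit 227)) (XT.nd (nat_lit 94) (nat_lit 0) (nat_lit 0) (XT.lf (nat_lit 1176) (nat_lit 2880375683) (nat_lit 0) (nat_lit 524524281) (nat_lit 1092) (nat_lit 524524281) (nat_lit 278) (nat_lit 1) (nat_lit 264) (nat_lit 1) (nat_lit 277) (nat_lit 1) (nat_lit 244) (nat_lit 250) (nat_lit 226)) (XT.lf (nat_lit 84) (nat_lit 1256045708) (nat_lit 0) (nat_lit 1378408694) (nat_lit 1176) (nat_lit 1256045708) (nat_lit 265) (nat_lit 1) (nat_lit 264) (nat_lit 1) (nat_lit 278) (nat_lit 1) (nat_lit 245) (nat_lit 250) (nat_lit 225)))) (XT.nd (nat_lit 188) (nat_lit 924) (nat_lit 0) (XT.nd (nat_lit 94) (nat_lit 0) (nat_lit 0) (XT.lf (nat_lit 1008) (nat_lit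 2141772772) (nat_lit 0) (nat_lit 855213325) (nat_lit 924) (nat_lit 855213325) (nat_lit 265) (nat_lit 1) (nat_lit 253) (nat_lit 1) (nat_lit 264) (nat_lit 1) (nat_lit 246) (nat_lit 250) (nat_lit 224)) (XT.lf (nat_lit 84) (nat_lit 881916885) (nat_lit 0) (nat_lit 2050553800) (nat_lit 1008) (nat_lit 881916885) (nat_lit 254) (nat_lit 1) (nat_lit 253) (nat_lit 1) (nat_lit 265) (nat_lit 1) (nat_lit 247) (nat_lit 250) (nat_lit 223))) (XT.nd (nat_lit 94) (nat_lit 0) (nat_lit 0) (XT.lf (nat_lit 1008) (nat_lit 1379210407) (nat_lit 0) (nat_lit 1198930121) (nat_lit 924) (nat_lit 1198930121) (nat_lit 254) (nat_lit 1) (nat_lit 242) (nat_lit 1) (nat_lit 253) (nat_lit 1) (nat_lit 248) (nat_lit 250) (nat_lit 222)) (XT.lf (nat_lit 84) (nat_lit 496413014) (nat_lit 0) (nat_lit 2747514863) (nat_lit 1008) (nat_lit 496413014) (nat_lit 243) (nat_lit 1) (nat_lit 242) (nat_lit 1) (nat_lit 254) (nat_lit 1) (nat_lit 249) (nat_lit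 250) (nat_lit 221)))))) (XT.nd (nat_lit 658) (nat_lit 3780) (nat_lit 0) (XT.nd (nat_lit 282) (nat_lit 1680) (nat_lit 0) (XT.nd (nat_lit 94) (nat_lit 924) (nat_lit 0) (XT.lf (nat_lit 924) (nat_lit 594901919) (nat_lit 0) (nat_lit 1554536210) (nat_lit 840) (nat_lit 1554536210) (nat_lit 243) (nat_lit 1) (nat_lit 232) (nat_lit 1) (nat_lit 242) (nat_lit 1) (nat_lit 250) (nat_lit 250) (nat_lit 220)) (XT.nd (nat_lit 94) (nat_lit 924) (nat_lit 0) (XT.lf (nat_lit 84) (nat_lit 100606418) (nat_lit 0) (nat_lit 3467084564) (nat_lit 924) (nat_lit 100606418) (nat_lit 233) (nat_lit 1) (nat_lit 232) (nat_lit 1) (nat_lit 243) (nat_lit 1) (nat_lit 251) (nat_lit 250) (nat_lit 219)) (XT.lf (nat_lit 84) (nat_lit 1713384054) (nat_lit 0) (nat_lit 206048183) (nat_lit 924) (nat_lit 1713384054) (nat_lit 222) (nat_lit 1) (nat_lit 221) (nat_lit 1) (nat_lit 232) (nat_lit 1) (nat_lit 252) (nat_lit 250) (nat_lit 218)))) (XT.nd (nat_lit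 188) (nat_lit 840) (nat_lit 0) (XT.nd (nat_lit 94) (nat_lit 0) (nat_lit 0) (XT.lf (nat_lit 924) (nat_lit 2993428447) (nat_lit 0) (nat_lit 302288263) (nat_lit 840) (nat_lit 302288263) (nat_lit 222) (nat_lit 1) (nat_lit 211) (nat_lit 1) (nat_lit 221) (nat_lit 1) (nat_lit 253) (nat_lit 250) (nat_lit 217)) (XT.lf (nat_lit 84) (nat_lit 1273812517) (nat_lit 0) (nat_lit 1015848879) (nat_lit 924) (nat_lit 1273812517) (nat_lit 212) (nat_lit 1) (nat_lit 211) (nat_lit 1) (nat_lit 222) (nat_lit 1) (nat_lit 254) (nat_lit 250) (nat_lit 216))) (XT.nd (nat_lit 94) (nat_lit 0) (nat_lit 0) (XT.lf (nat_lit 924) (nat_lit 2104076297) (nat_lit 0) (nat_lit 712725922) (nat_lit 840) (nat_lit 712725922) (nat_lit 212) (nat_lit 1) (nat_lit 201) (nat_lit 1) (nat_lit 211) (nat_lit 1) (nat_lit 255) (nat_lit 250) (nat_lit 215)) (XT.lf (nat_lit 84) (nat_lit 827379005) (nat_lit 0) (nat_lit 1841225355) (nat_lit 924) (nat_lit 827379005)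 (nat_lit 202) (nat_lit 1) (nat_lit 201) (nat_lit 1) (nat_lit 212) (nat_lit 1) (nat_lit 256) (nat_lit 250) (nat_lit 214))))) (XT.nd (nat_lit 376) (nat_lit 1428) (nat_lit 0) (XT.nd (nat_lit 188) (nat_lit 1596) (nat_lit 0) (XT.nd (nat_lit 94) (nat_lit 0) (nat_lit 0) (XT.lf (nat_lit 840) (nat_lit 1201804791) (nat_lit 0) (nat_lit 1130534722) (nat_lit 756) (nat_lit 1130534722) (nat_lit 202) (nat_lit 1) (nat_lit 192) (nat_lit 1) (nat_lit 201) (nat_lit 1) (nat_lit 257) (nat_lit 250) (nat_lit 213)) (XT.lf (nat_lit 84) (nat_lit 374926478) (nat_lit 0) (nat_lit 2680436533) (nat_lit 840) (nat_lit 374926478) (nat_lit 193) (nat_lit 1) (nat_lit 192) (nat_lit 1) (nat_lit 202) (nat_lit 1) (nat_lit 258) (nat_lit 250) (nat_lit 212))) (XT.nd (nat_lit 94) (nat_lit 840) (nat_lit 0) (XT.lf (nat_lit 840) (nat_lit 288257619) (nat_lit 0) (nat_lit 1554865768) (nat_lit 756) (nat_lit 1554865768) (nat_lit 193) (nat_lit 1) (nat_lit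 183) (nat_lit 1) (nat_lit 192) (nat_lit 1) (nat_lit 259) (nat_lit 250) (nat_lit 211)) (XT.lf (nat_lit 840) (nat_lit 3201983299) (nat_lit 0) (nat_lit 82151800) (nat_lit 756) (nat_lit 82151800) (nat_lit 183) (nat_lit 1) (nat_lit 173) (nat_lit 1) (nat_lit 182) (nat_lit 1) (nat_lit 260) (nat_lit 250) (nat_lit 210)))) (XT.nd (nat_lit 188) (nat_lit 672) (nat_lit 0) (XT.nd (nat_lit 94) (nat_lit 756) (nat_lit 0) (XT.lf (nat_lit 84) (nat_lit 1354426131) (nat_lit 0) (nat_lit 625868828) (nat_lit 840) (nat_lit 1354426131) (nat_lit 174) (nat_lit 1) (nat_lit 173) (nat_lit 1) (nat_lit 183) (nat_lit 1) (nat_lit 261) (nat_lit 250) (nat_lit 209)) (XT.lf (nat_lit 840) (nat_lit 2221813209) (nat_lit 0) (nat_lit 540962099) (nat_lit 756) (nat_lit 540962099) (nat_lit 174) (nat_lit 1) (nat_lit 164) (nat_lit 1) (nat_lit 173) (nat_lit 1) (nat_lit 262) (nat_lit 250) (nat_lit 208))) (XT.nd (nat_lit 94) (nat_lit 672) (nat_lit 0)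 (XT.lf (nat_lit 84) (nat_lit 864541840) (nat_lit 0) (nat_lit 1543988831) (nat_lit 840) (nat_lit 864541840) (nat_lit 165) (nat_lit 1) (nat_lit 164) (nat_lit 1) (nat_lit 174) (nat_lit 1) (nat_lit 263) (nat_lit 250) (nat_lit 207)) (XT.lf (nat_lit 756) (nat_lit 1235801933) (nat_lit 0) (nat_lit 1003512787) (nat_lit 672) (nat_lit 1003512787) (nat_lit 165) (nat_lit 1) (nat_lit 156) (nat_lit 1) (nat_lit 164) (nat_lit 1) (nat_lit 264) (nat_lit 250) (nat_lit 206))))))))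
noncomputable def ec11 : XT := (XT.nd (nat_lit 43334) (nat_lit 756) (nat_lit 0) (XT.nd (nat_lit 41924) (nat_lit 0) (nat_lit 8820) (XT.nd (nat_lit 41266) (nat_lit 0) (nat_lit 12012) (XT.nd (nat_lit 40890) (nat_lit 0) (nat_lit 11844) (XT.nd (nat_lit 94) (nat_lit 672) (nat_lit 0) (XT.lf (nat_lit 84) (nat_lit 372071101) (nat_lit 0) (nat_lit 2468897705) (nat_lit 756) (nat_lit 372071101) (nat_lit 157) (nat_lit 1) (nat_lit 156) (nat_lit 1) (nat_lit 165) (nat_lit 1) (nat_lit 265) (nat_lit 250) (nat_lit 205)) (XT.nd (nat_lit 40702) (nat_lit 0) (nat_lit 11844) (XT.lf (nat_lit 756) (nat_lit 245222600) (nat_lit 0) (nat_lit 1469143409) (nat_lit 672) (nat_lit 1469143409) (nat_lit 157) (nat_lit 1) (nat_lit 148) (nat_lit 1) (nat_lit 156) (nat_lit 1) (nat_lit 266) (nat_lit 250) (nat_lit 204)) (XT.lf (nat_lit 1932) (nat_lit 985959655) (nat_lit 0) (nat_lit 606015364) (nat_lit 1932) (nat_lit 985959655) (nat_lit 312) (nat_lit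 1) (nat_lit 289) (nat_lit 0) (nat_lit 312) (nat_lit 0) (nat_lit 218) (nat_lit 251) (nat_lit 251)))) (XT.nd (nat_lit 188) (nat_lit 0) (nat_lit 84) (XT.nd (nat_lit 94) (nat_lit 0) (nat_lit 84) (XT.lf (nat_lit 1932) (nat_lit 3897010388) (nat_lit 84) (nat_lit 601635489) (nat_lit 0) (nat_lit 601635489) (nat_lit 312) (nat_lit 1) (nat_lit 290) (nat_lit 1) (nat_lit 289) (nat_lit 0) (nat_lit 219) (nat_lit 251) (nat_lit 250)) (XT.lf (nat_lit 1932) (nat_lit 1911410083) (nat_lit 0) (nat_lit 1222459120) (nat_lit 1848) (nat_lit 1911410083) (nat_lit 313) (nat_lit 1) (nat_lit 290) (nat_lit 1) (nat_lit 312) (nat_lit 1) (nat_lit 220) (nat_lit 251) (nat_lit 249))) (XT.nd (nat_lit 94) (nat_lit 0) (nat_lit 84) (XT.lf (nat_lit 1932) (nat_lit 3741391878) (nat_lit 84) (nat_lit 624939569) (nat_lit 0) (nat_lit 624939569) (nat_lit 313) (nat_lit 1) (nat_lit 291) (nat_lit 1) (nat_lit 290) (nat_lit 1) (nat_lit 221) (nat_lit 251)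 (nat_lit 248)) (XT.lf (nat_lit 1932) (nat_lit 1817239656) (nat_lit 0) (nat_lit 1303359720) (nat_lit 1848) (nat_lit 1817239656) (nat_lit 314) (nat_lit 1) (nat_lit 291) (nat_lit 1) (nat_lit 313) (nat_lit 1) (nat_lit 222) (nat_lit 251) (nat_lit 247))))) (XT.nd (nat_lit 282) (nat_lit 0) (nat_lit 168) (XT.nd (nat_lit 94) (nat_lit 0) (nat_lit 84) (XT.lf (nat_lit 1932) (nat_lit 3520448379) (nat_lit 84) (nat_lit 682453047) (nat_lit 0) (nat_lit 682453047) (nat_lit 314) (nat_lit 1) (nat_lit 292) (nat_lit 1) (nat_lit 291) (nat_lit 1) (nat_lit 223) (nat_lit 251) (nat_lit 246)) (XT.nd (nat_lit 94) (nat_lit 0) (nat_lit 0) (XT.lf (nat_lit 1932) (nat_lit 1691621722) (nat_lit 0) (nat_lit 1450204581) (nat_lit 1848) (nat_lit 1691621722) (nat_lit 315) (nat_lit 1) (nat_lit 292) (nat_lit 1) (nat_lit 314) (nat_lit 1) (nat_lit 224) (nat_lit 251) (nat_lit 245)) (XT.lf (nat_lit 1932) (nat_lit 3238510931) (nat_lit 84) (nat_lit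 771961193) (nat_lit 0) (nat_lit 771961193) (nat_lit 315) (nat_lit 1) (nat_lit 293) (nat_lit 1) (nat_lit 292) (nat_lit 1) (nat_lit 225) (nat_lit 251) (nat_lit 244)))) (XT.nd (nat_lit 188) (nat_lit 0) (nat_lit 84) (XT.nd (nat_lit 94) (nat_lit 0) (nat_lit 0) (XT.lf (nat_lit 1932) (nat_lit 1536658901) (nat_lit 0) (nat_lit 1658691460) (nat_lit 1848) (nat_lit 1536658901) (nat_lit 316) (nat_lit 1) (nat_lit 293) (nat_lit 1) (nat_lit 315) (nat_lit 1) (nat_lit 226) (nat_lit 251) (nat_lit 243)) (XT.lf (nat_lit 1932) (nat_lit 2899692775) (nat_lit 84) (nat_lit 891359912) (nat_lit 0) (nat_lit 891359912) (nat_lit 316) (nat_lit 1) (nat_lit 294) (nat_lit 1) (nat_lit 293) (nat_lit 1) (nat_lit 227) (nat_lit 251) (nat_lit 242))) (XT.nd (nat_lit 94) (nat_lit 0) (nat_lit 0) (XT.lf (nat_lit 1932) (nat_lit 1354347831) (nat_lit 0) (nat_lit 1924733498) (nat_lit 1848) (nat_lit 1354347831) (nat_lit 317) (nat_lit 1) (nat_lit 294)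 (nat_lit 1) (nat_lit 316) (nat_lit 1) (nat_lit 228) (nat_lit 251) (nat_lit 241)) (XT.lf (nat_lit 1932) (nat_lit 2507899345) (nat_lit 84) (nat_lit 1038650683) (nat_lit 0) (nat_lit 1038650683) (nat_lit 317) (nat_lit 1) (nat_lit 295) (nat_lit 1) (nat_lit 294) (nat_lit 1) (nat_lit 229) (nat_lit 251) (nat_lit 240)))))) (XT.nd (nat_lit 658) (nat_lit 3528) (nat_lit 0) (XT.nd (nat_lit 282) (nat_lit 0) (nat_lit 84) (XT.nd (nat_lit 94) (nat_lit 0) (nat_lit 0) (XT.lf (nat_lit 1932) (nat_lit 1146584039) (nat_lit 0) (nat_lit 2244449354) (nat_lit 1848) (nat_lit 1146584039) (nat_lit 318) (nat_lit 1) (nat_lit 295) (nat_lit 1) (nat_lit 317) (nat_lit 1) (nat_lit 230) (nat_lit 251) (nat_lit 239)) (XT.nd (nat_lit 94) (nat_lit 0) (nat_lit 84) (XT.lf (nat_lit 1932) (nat_lit 2066837826) (nat_lit 84) (nat_lit 1211935719) (nat_lit 0) (nat_lit 1211935719) (nat_lit 318) (nat_lit 1) (nat_lit 296) (nat_lit 1) (nat_lit 295) (nat_lit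 1) (nat_lit 231) (nat_lit 251) (nat_lit 238)) (XT.lf (nat_lit 1932) (nat_lit 915166591) (nat_lit 0) (nat_lit 2614153780) (nat_lit 1848) (nat_lit 915166591) (nat_lit 319) (nat_lit 1) (nat_lit 296) (nat_lit 1) (nat_lit 318) (nat_lit 1) (nat_lit 232) (nat_lit 251) (nat_lit 237)))) (XT.nd (nat_lit 188) (nat_lit 0) (nat_lit 84) (XT.nd (nat_lit 94) (nat_lit 0) (nat_lit 84) (XT.lf (nat_lit 1932) (nat_lit 1580026280) (nat_lit 84) (nat_lit 1409413338) (nat_lit 0) (nat_lit 1409413338) (nat_lit 319) (nat_lit 1) (nat_lit 297) (nat_lit 1) (nat_lit 296) (nat_lit 1) (nat_lit 233) (nat_lit 251) (nat_lit 236)) (XT.lf (nat_lit 1932) (nat_lit 661802540) (nat_lit 0) (nat_lit 3030348599) (nat_lit 1848) (nat_lit 661802540) (nat_lit 320) (nat_lit 1) (nat_lit 297) (nat_lit 1) (nat_lit 319) (nat_lit 1) (nat_lit 234) (nat_lit 251) (nat_lit 235))) (XT.nd (nat_lit 94) (nat_lit 0) (nat_lit 84) (XT.lf (nat_lit 1932) (nat_lit 1050802374)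 (nat_lit 84) (nat_lit 1629373545) (nat_lit 0) (nat_lit 1629373545) (nat_lit 320) (nat_lit 1) (nat_lit 298) (nat_lit 1) (nat_lit 297) (nat_lit 1) (nat_lit 235) (nat_lit 251) (nat_lit 234)) (XT.lf (nat_lit 1932) (nat_lit 388111173) (nat_lit 0) (nat_lit 3489714094) (nat_lit 1848) (nat_lit 388111173) (nat_lit 321) (nat_lit 1) (nat_lit 298) (nat_lit 1) (nat_lit 320) (nat_lit 1) (nat_lit 236) (nat_lit 251) (nat_lit 233))))) (XT.nd (nat_lit 376) (nat_lit 1932) (nat_lit 0) (XT.nd (nat_lit 188) (nat_lit 1848) (nat_lit 0) (XT.nd (nat_lit 94) (nat_lit 0) (nat_lit 84) (XT.lf (nat_lit 1932) (nat_lit 482331721) (nat_lit 84) (nat_lit 1870193802) (nat_lit 0) (nat_lit 1870193802) (nat_lit 321) (nat_lit 1) (nat_lit 299) (nat_lit 1) (nat_lit 298) (nat_lit 1) (nat_lit 237) (nat_lit 251) (nat_lit 232)) (XT.lf (nat_lit 1932) (nat_lit 95628079) (nat_lit 0) (nat_lit 3989100775) (nat_lit 1848) (nat_lit 95628079) (nat_lit 322)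 (nat_lit 1) (nat_lit 299) (nat_lit 1) (nat_lit 321) (nat_lit 1) (nat_lit 238) (nat_lit 251) (nat_lit 231))) (XT.nd (nat_lit 94) (nat_lit 0) (nat_lit 0) (XT.lf (nat_lit 2016) (nat_lit 2008822614) (nat_lit 0) (nat_lit 120621425) (nat_lit 1932) (nat_lit 2008822614) (nat_lit 300) (nat_lit 1) (nat_lit 276) (nat_lit 1) (nat_lit 299) (nat_lit 1) (nat_lit 239) (nat_lit 251) (nat_lit 230)) (XT.lf (nat_lit 2016) (nat_lit 3671718899) (nat_lit 84) (nat_lit 212642945) (nat_lit 0) (nat_lit 212642945) (nat_lit 300) (nat_lit 1) (nat_lit 277) (nat_lit 1) (nat_lit 276) (nat_lit 1) (nat_lit 240) (nat_lit 251) (nat_lit 229)))) (XT.nd (nat_lit 188) (nat_lit 924) (nat_lit 0) (XT.nd (nat_lit 94) (nat_lit 1092) (nat_lit 0) (XT.lf (nat_lit 84) (nat_lit 1653254603) (nat_lit 0) (nat_lit 749546541) (nat_lit 1932) (nat_lit 1653254603) (nat_lit 278) (nat_lit 1) (nat_lit 277) (nat_lit 1) (nat_lit 300) (nat_lit 1) (nat_lit 241) (nat_lit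 251) (nat_lit 228)) (XT.lf (nat_lit 1176) (nat_lit 2943743948) (nat_lit 0) (nat_lit 536063815) (nat_lit 1092) (nat_lit 536063815) (nat_lit 278) (nat_lit 1) (nat_lit 264) (nat_lit 1) (nat_lit 277) (nat_lit 1) (nat_lit 242) (nat_lit 251) (nat_lit 227))) (XT.nd (nat_lit 94) (nat_lit 924) (nat_lit 0) (XT.lf (nat_lit 84) (nat_lit 1283678713) (nat_lit 0) (nat_lit 1408733685) (nat_lit 1176) (nat_lit 1283678713) (nat_lit 265) (nat_lit 1) (nat_lit 264) (nat_lit 1) (nat_lit 278) (nat_lit 1) (nat_lit 243) (nat_lit 251) (nat_lit 226)) (XT.lf (nat_lit 1008) (nat_lit 2188891773) (nat_lit 0) (nat_lit 874028018) (nat_lit 924) (nat_lit 874028018) (nat_lit 265) (nat_lit 1) (nat_lit 253) (nat_lit 1) (nat_lit 264) (nat_lit 1) (nat_lit 244) (nat_lit 251) (nat_lit 225))))))) (XT.nd (nat_lit 1410) (nat_lit 2856) (nat_lit 0) (XT.nd (nat_lit 658) (nat_lit 3192) (nat_lit 0) (XT.nd (nat_lit 282) (nat_lit 2604) (nat_lit 0) (XT.nd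 (nat_lit 94) (nat_lit 924) (nat_lit 0) (XT.lf (nat_lit 84) (nat_lit 901319056) (nat_lit 0) (nat_lit 2095665984) (nat_lit 1008) (nat_lit 901319056) (nat_lit 254) (nat_lit 1) (nat_lit 253) (nat_lit 1) (nat_lit 265) (nat_lit 1) (nat_lit 245) (nat_lit 251) (nat_lit 224)) (XT.nd (nat_lit 94) (nat_lit 0) (nat_lit 0) (XT.lf (nat_lit 1008) (nat_lit 1409553036) (nat_lit 0) (nat_lit 1225306584) (nat_lit 924) (nat_lit 1225306584) (nat_lit 254) (nat_lit 1) (nat_lit 242) (nat_lit 1) (nat_lit 253) (nat_lit 1) (nat_lit 246) (nat_lit 251) (nat_lit 223)) (XT.lf (nat_lit 84) (nat_lit 507334100) (nat_lit 0) (nat_lit 2807960190) (nat_lit 1008) (nat_lit 507334100) (nat_lit 243) (nat_lit 1) (nat_lit 242) (nat_lit 1) (nat_lit 254) (nat_lit 1) (nat_lit 247) (nat_lit 251) (nat_lit 222)))) (XT.nd (nat_lit 188) (nat_lit 1764) (nat_lit 0) (XT.nd (nat_lit 94) (nat_lit 0) (nat_lit 0) (XT.lf (nat_lit 924) (nat_lit 607989761) (nat_lit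 0) (nat_lit 1588736006) (nat_lit 840) (nat_lit 1588736006) (nat_lit 243) (nat_lit 1) (nat_lit 232) (nat_lit 1) (nat_lit 242) (nat_lit 1) (nat_lit 248) (nat_lit 251) (nat_lit 221)) (XT.lf (nat_lit 84) (nat_lit 102819759) (nat_lit 0) (nat_lit 3543360424) (nat_lit 924) (nat_lit 102819759) (nat_lit 233) (nat_lit 1) (nat_lit 232) (nat_lit 1) (nat_lit 243) (nat_lit 1) (nat_lit 249) (nat_lit 251) (nat_lit 220))) (XT.nd (nat_lit 94) (nat_lit 840) (nat_lit 0) (XT.lf (nat_lit 84) (nat_lit 1751078503) (nat_lit 0) (nat_lit 210581243) (nat_lit 924) (nat_lit 1751078503) (nat_lit 222) (nat_lit 1) (nat_lit 221) (nat_lit 1) (nat_lit 232) (nat_lit 1) (nat_lit 250) (nat_lit 251) (nat_lit 219)) (XT.lf (nat_lit 924) (nat_lit 3059283873) (nat_lit 0) (nat_lit 308938605) (nat_lit 840) (nat_lit 308938605) (nat_lit 222) (nat_lit 1) (nat_lit 211) (nat_lit 1) (nat_lit 221) (nat_lit 1) (nat_lit 251) (nat_lit 251) (nat_lit 218)))))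 (XT.nd (nat_lit 376) (nat_lit 1596) (nat_lit 0) (XT.nd (nat_lit 188) (nat_lit 756) (nat_lit 0) (XT.nd (nat_lit 94) (nat_lit 840) (nat_lit 0) (XT.lf (nat_lit 84) (nat_lit 1301836393) (nat_lit 0) (nat_lit 1038197554) (nat_lit 924) (nat_lit 1301836393) (nat_lit 212) (nat_lit 1) (nat_lit 211) (nat_lit 1) (nat_lit 222) (nat_lit 1) (nat_lit 252) (nat_lit 251) (nat_lit 217)) (XT.lf (nat_lit 924) (nat_lit 2150365976) (nat_lit 0) (nat_lit 728405892) (nat_lit 840) (nat_lit 728405892) (nat_lit 212) (nat_lit 1) (nat_lit 201) (nat_lit 1) (nat_lit 211) (nat_lit 1) (nat_lit 253) (nat_lit 251) (nat_lit 216))) (XT.nd (nat_lit 94) (nat_lit 756) (nat_lit 0) (XT.lf (nat_lit 84) (nat_lit 845581343) (nat_lit 0) (nat_lit 1881732313) (nat_lit 924) (nat_lit 845581343) (nat_lit 202) (nat_lit 1) (nat_lit 201) (nat_lit 1) (nat_lit 212) (nat_lit 1) (nat_lit 254) (nat_lit 251) (nat_lit 215)) (XT.lf (nat_lit 840) (nat_lit 1228244496)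 (nat_lit 0) (nat_lit 1155406486) (nat_lit 756) (nat_lit 1155406486) (nat_lit 202) (nat_lit 1) (nat_lit 192) (nat_lit 1) (nat_lit 201) (nat_lit 1) (nat_lit 255) (nat_lit 251) (nat_lit 214)))) (XT.nd (nat_lit 188) (nat_lit 840) (nat_lit 0) (XT.nd (nat_lit 94) (nat_lit 756) (nat_lit 0) (XT.lf (nat_lit 84) (nat_lit 383174860) (nat_lit 0) (nat_lit 2739406137) (nat_lit 840) (nat_lit 383174860) (nat_lit 193) (nat_lit 1) (nat_lit 192) (nat_lit 1) (nat_lit 202) (nat_lit 1) (nat_lit 256) (nat_lit 251) (nat_lit 213)) (XT.lf (nat_lit 840) (nat_lit 294599287) (nat_lit 0) (nat_lit 1589072815) (nat_lit 756) (nat_lit 1589072815) (nat_lit 193) (nat_lit 1) (nat_lit 183) (nat_lit 1) (nat_lit 192) (nat_lit 1) (nat_lit 257) (nat_lit 251) (nat_lit 212))) (XT.nd (nat_lit 94) (nat_lit 0) (nat_lit 0) (XT.lf (nat_lit 840) (nat_lit 3272426931) (nat_lit 0) (nat_lit 83959140) (nat_lit 756) (nat_lit 83959140) (nat_lit 183) (nat_lit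 1) (nat_lit 173) (nat_lit 1) (nat_lit 182) (nat_lit 1) (nat_lit 258) (nat_lit 251) (nat_lit 211)) (XT.lf (nat_lit 84) (nat_lit 1384223506) (nat_lit 0) (nat_lit 639637942) (nat_lit 840) (nat_lit 1384223506) (nat_lit 174) (nat_lit 1) (nat_lit 173) (nat_lit 1) (nat_lit 183) (nat_lit 1) (nat_lit 259) (nat_lit 251) (nat_lit 210)))))) (XT.nd (nat_lit 41078) (nat_lit 0) (nat_lit 12600) (XT.nd (nat_lit 282) (nat_lit 1428) (nat_lit 0) (XT.nd (nat_lit 94) (nat_lit 672) (nat_lit 0) (XT.lf (nat_lit 840) (nat_lit 2270693100) (nat_lit 0) (nat_lit 552863265) (nat_lit 756) (nat_lit 552863265) (nat_lit 174) (nat_lit 1) (nat_lit 164) (nat_lit 1) (nat_lit 173) (nat_lit 1) (nat_lit 260) (nat_lit 251) (nat_lit 209)) (XT.nd (nat_lit 94) (nat_lit 672) (nat_lit 0) (XT.lf (nat_lit 84) (nat_lit 883561760) (nat_lit 0) (nat_lit 1577956585) (nat_lit 840) (nat_lit 883561760) (nat_lit 165) (nat_lit 1) (nat_lit 164) (nat_lit 1) (nat_lit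 174) (nat_lit 1) (nat_lit 261) (nat_lit 251) (nat_lit 208)) (XT.lf (nat_lit 756) (nat_lit 1262989575) (nat_lit 0) (nat_lit 1025590068) (nat_lit 672) (nat_lit 1025590068) (nat_lit 165) (nat_lit 1) (nat_lit 156) (nat_lit 1) (nat_lit 164) (nat_lit 1) (nat_lit 262) (nat_lit 251) (nat_lit 207)))) (XT.nd (nat_lit 188) (nat_lit 756) (nat_lit 0) (XT.nd (nat_lit 94) (nat_lit 672) (nat_lit 0) (XT.lf (nat_lit 84) (nat_lit 380256665) (nat_lit 0) (nat_lit 2523213454) (nat_lit 756) (nat_lit 380256665) (nat_lit 157) (nat_lit 1) (nat_lit 156) (nat_lit 1) (nat_lit 165) (nat_lit 1) (nat_lit 263) (nat_lit 251) (nat_lit 206)) (XT.lf (nat_lit 756) (nat_lit 250617498) (nat_lit 0) (nat_lit 1501464564) (nat_lit 672) (nat_lit 1501464564) (nat_lit 157) (nat_lit 1) (nat_lit 148) (nat_lit 1) (nat_lit 156) (nat_lit 1) (nat_lit 264) (nat_lit 251) (nat_lit 205))) (XT.nd (nat_lit 94) (nat_lit 0) (nat_lit 0) (XT.lf (nat_lit 756) (nat_lit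 2975579341) (nat_lit 0) (nat_lit 124159418) (nat_lit 672) (nat_lit 124159418) (nat_lit 148) (nat_lit 1) (nat_lit 139) (nat_lit 1) (nat_lit 147) (nat_lit 1) (nat_lit 265) (nat_lit 251) (nat_lit 204)) (XT.lf (nat_lit 84) (nat_lit 1220102296) (nat_lit 0) (nat_lit 754178628) (nat_lit 756) (nat_lit 1220102296) (nat_lit 140) (nat_lit 1) (nat_lit 139) (nat_lit 1) (nat_lit 148) (nat_lit 1) (nat_lit 266) (nat_lit 251) (nat_lit 203))))) (XT.nd (nat_lit 376) (nat_lit 0) (nat_lit 168) (XT.nd (nat_lit 188) (nat_lit 0) (nat_lit 84) (XT.nd (nat_lit 94) (nat_lit 0) (nat_lit 0) (XT.lf (nat_lit 1932) (nat_lit 1007650768) (nat_lit 0) (nat_lit 619347702) (nat_lit 1932) (nat_lit 1007650768) (nat_lit 312) (nat_lit 1) (nat_lit 289) (nat_lit 0) (nat_lit 312) (nat_lit 0) (nat_lit 216) (nat_lit 252) (nat_lit 252)) (XT.lf (nat_lit 1932) (nat_lit 3982744616) (nat_lit 84) (nat_lit 614871470) (nat_lit 0) (nat_lit 614871470) (nat_lit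 312) (nat_lit 1) (nat_lit 290) (nat_lit 1) (nat_lit 289) (nat_lit 0) (nat_lit 217) (nat_lit 252) (nat_lit 251))) (XT.nd (nat_lit 94) (nat_lit 0) (nat_lit 0) (XT.lf (nat_lit 1932) (nat_lit 1953461105) (nat_lit 0) (nat_lit 1249353221) (nat_lit 1848) (nat_lit 1953461105) (nat_lit 313) (nat_lit 1) (nat_lit 290) (nat_lit 1) (nat_lit 312) (nat_lit 1) (nat_lit 218) (nat_lit 252) (nat_lit 250)) (XT.lf (nat_lit 1932) (nat_lit 3823702499) (nat_lit 84) (nat_lit 638688240) (nat_lit 0) (nat_lit 638688240) (nat_lit 313) (nat_lit 1) (nat_lit 291) (nat_lit 1) (nat_lit 290) (nat_lit 1) (nat_lit 219) (nat_lit 252) (nat_lit 249)))) (XT.nd (nat_lit 188) (nat_lit 0) (nat_lit 84) (XT.nd (nat_lit 94) (nat_lit 0) (nat_lit 0) (XT.lf (nat_lit 1932) (nat_lit 1857218929) (nat_lit 0) (nat_lit 1332033634) (nat_lit 1848) (nat_lit 1857218929) (nat_lit 314) (nat_lit 1) (nat_lit 291) (nat_lit 1) (nat_lit 313) (nat_lit 1) (nat_lit 220)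 (nat_lit 252) (nat_lit 248)) (XT.lf (nat_lit 1932) (nat_lit 3597898244) (nat_lit 84) (nat_lit 697467014) (nat_lit 0) (nat_lit 697467014) (nat_lit 314) (nat_lit 1) (nat_lit 292) (nat_lit 1) (nat_lit 291) (nat_lit 1) (nat_lit 221) (nat_lit 252) (nat_lit 247))) (XT.nd (nat_lit 94) (nat_lit 0) (nat_lit 0) (XT.lf (nat_lit 1932) (nat_lit 1728837400) (nat_lit 0) (nat_lit 1482109082) (nat_lit 1848) (nat_lit 1728837400) (nat_lit 315) (nat_lit 1) (nat_lit 292) (nat_lit 1) (nat_lit 314) (nat_lit 1) (nat_lit 222) (nat_lit 252) (nat_lit 246)) (XT.lf (nat_lit 1932) (nat_lit 3309758172) (nat_lit 84) (nat_lit 788944339) (nat_lit 0) (nat_lit 788944339) (nat_lit 315) (nat_lit 1) (nat_lit 293) (nat_lit 1) (nat_lit 292) (nat_lit 1) (nat_lit 223) (nat_lit 252) (nat_lit 245))))))))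
noncomputable def ec12 : XT := (XT.nd (nat_lit 2726) (nat_lit 5880) (nat_lit 0) (XT.nd (nat_lit 1316) (nat_lit 6300) (nat_lit 0) (XT.nd (nat_lit 658) (nat_lit 1428) (nat_lit 0) (XT.nd (nat_lit 282) (nat_lit 0) (nat_lit 84) (XT.nd (nat_lit 94) (nat_lit 0) (nat_lit 0) (XT.lf (nat_lit 1932) (nat_lit 1570465397) (nat_lit 0) (nat_lit 1695182672) (nat_lit 1848) (nat_lit 1570465397) (nat_lit 316) (nat_lit 1) (nat_lit 293) (nat_lit 1) (nat_lit 315) (nat_lit 1) (nat_lit 224) (nat_lit 252) (nat_lit 244)) (XT.nd (nat_lit 94) (nat_lit 0) (nat_lit 84) (XT.lf (nat_lit 1932) (nat_lit 2963486016) (nat_lit 84) (nat_lit 910969830) (nat_lit 0) (nat_lit 910969830) (nat_lit 316) (nat_lit 1) (nat_lit 294) (nat_lit 1) (nat_lit 293) (nat_lit 1) (nat_lit 225) (nat_lit 252) (nat_lit 243)) (XT.lf (nat_lit 1932) (nat_lit 1384143483) (nat_lit 0) (nat_lit 1967077634) (nat_lit 1848) (nat_lit 1384143483) (nat_lit 317) (nat_lit 1) (nat_lit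 294) (nat_lit 1) (nat_lit 316) (nat_lit 1) (nat_lit 226) (nat_lit 252) (nat_lit 242)))) (XT.nd (nat_lit 188) (nat_lit 0) (nat_lit 84) (XT.nd (nat_lit 94) (nat_lit 0) (nat_lit 84) (XT.lf (nat_lit 1932) (nat_lit 2563073131) (nat_lit 84) (nat_lit 1061500998) (nat_lit 0) (nat_lit 1061500998) (nat_lit 317) (nat_lit 1) (nat_lit 295) (nat_lit 1) (nat_lit 294) (nat_lit 1) (nat_lit 227) (nat_lit 252) (nat_lit 241)) (XT.lf (nat_lit 1932) (nat_lit 1171808888) (nat_lit 0) (nat_lit 2293827240) (nat_lit 1848) (nat_lit 1171808888) (nat_lit 318) (nat_lit 1) (nat_lit 295) (nat_lit 1) (nat_lit 317) (nat_lit 1) (nat_lit 228) (nat_lit 252) (nat_lit 240))) (XT.nd (nat_lit 94) (nat_lit 0) (nat_lit 84) (XT.lf (nat_lit 1932) (nat_lit 2112308258) (nat_lit 84) (nat_lit 1238598304) (nat_lit 0) (nat_lit 1238598304) (nat_lit 318) (nat_lit 1) (nat_lit 296) (nat_lit 1) (nat_lit 295) (nat_lit 1) (nat_lit 229) (nat_lit 252) (nat_lit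 239)) (XT.lf (nat_lit 1932) (nat_lit 935300256) (nat_lit 0) (nat_lit 2671665163) (nat_lit 1848) (nat_lit 935300256) (nat_lit 319) (nat_lit 1) (nat_lit 296) (nat_lit 1) (nat_lit 318) (nat_lit 1) (nat_lit 230) (nat_lit 252) (nat_lit 238))))) (XT.nd (nat_lit 282) (nat_lit 1680) (nat_lit 0) (XT.nd (nat_lit 94) (nat_lit 0) (nat_lit 84) (XT.lf (nat_lit 1932) (nat_lit 1614786858) (nat_lit 84) (nat_lit 1440420431) (nat_lit 0) (nat_lit 1440420431) (nat_lit 319) (nat_lit 1) (nat_lit 297) (nat_lit 1) (nat_lit 296) (nat_lit 1) (nat_lit 231) (nat_lit 252) (nat_lit 237)) (XT.nd (nat_lit 94) (nat_lit 0) (nat_lit 0) (XT.lf (nat_lit 1932) (nat_lit 676362196) (nat_lit 0) (nat_lit 3097016268) (nat_lit 1848) (nat_lit 676362196) (nat_lit 320) (nat_lit 1) (nat_lit 297) (nat_lit 1) (nat_lit 319) (nat_lit 1) (nat_lit 232) (nat_lit 252) (nat_lit 236)) (XT.lf (nat_lit 1932) (nat_lit 1073920026) (nat_lit 84) (nat_lit 1665219763)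 (nat_lit 0) (nat_lit 1665219763) (nat_lit 320) (nat_lit 1) (nat_lit 298) (nat_lit 1) (nat_lit 297) (nat_lit 1) (nat_lit 233) (nat_lit 252) (nat_lit 235)))) (XT.nd (nat_lit 188) (nat_lit 1848) (nat_lit 0) (XT.nd (nat_lit 94) (nat_lit 0) (nat_lit 0) (XT.lf (nat_lit 1932) (nat_lit 396649619) (nat_lit 0) (nat_lit 3566487804) (nat_lit 1848) (nat_lit 396649619) (nat_lit 321) (nat_lit 1) (nat_lit 298) (nat_lit 1) (nat_lit 320) (nat_lit 1) (nat_lit 234) (nat_lit 252) (nat_lit 234)) (XT.lf (nat_lit 1932) (nat_lit 492943019) (nat_lit 84) (nat_lit 1911338066) (nat_lit 0) (nat_lit 1911338066) (nat_lit 321) (nat_lit 1) (nat_lit 299) (nat_lit 1) (nat_lit 298) (nat_lit 1) (nat_lit 235) (nat_lit 252) (nat_lit 233))) (XT.nd (nat_lit 94) (nat_lit 1932) (nat_lit 0) (XT.lf (nat_lit 1932) (nat_lit 97731897) (nat_lit 0) (nat_lit 4076860992) (nat_lit 1848) (nat_lit 97731897) (nat_lit 322) (nat_lit 1) (nat_lit 299) (nat_lit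 1) (nat_lit 321) (nat_lit 1) (nat_lit 236) (nat_lit 252) (nat_lit 232)) (XT.lf (nat_lit 2016) (nat_lit 2053016711) (nat_lit 0) (nat_lit 123275097) (nat_lit 1932) (nat_lit 2053016711) (nat_lit 300) (nat_lit 1) (nat_lit 276) (nat_lit 1) (nat_lit 299) (nat_lit 1) (nat_lit 237) (nat_lit 252) (nat_lit 231)))))) (XT.nd (nat_lit 658) (nat_lit 3444) (nat_lit 0) (XT.nd (nat_lit 282) (nat_lit 1848) (nat_lit 0) (XT.nd (nat_lit 94) (nat_lit 1008) (nat_lit 0) (XT.lf (nat_lit 2016) (nat_lit 3752496715) (nat_lit 84) (nat_lit 217321090) (nat_lit 0) (nat_lit 217321090) (nat_lit 300) (nat_lit 1) (nat_lit 277) (nat_lit 1) (nat_lit 276) (nat_lit 1) (nat_lit 238) (nat_lit 252) (nat_lit 230)) (XT.nd (nat_lit 94) (nat_lit 1092) (nat_lit 0) (XT.lf (nat_lit 84) (nat_lit 1689626204) (nat_lit 0) (nat_lit 766036565) (nat_lit 1932) (nat_lit 1689626204) (nat_lit 278) (nat_lit 1) (nat_lit 277) (nat_lit 1) (nat_lit 300) (nat_lit 1)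 (nat_lit 239) (nat_lit 252) (nat_lit 229)) (XT.lf (nat_lit 1176) (nat_lit 3008506315) (nat_lit 0) (nat_lit 547857219) (nat_lit 1092) (nat_lit 547857219) (nat_lit 278) (nat_lit 1) (nat_lit 264) (nat_lit 1) (nat_lit 277) (nat_lit 1) (nat_lit 240) (nat_lit 252) (nat_lit 228)))) (XT.nd (nat_lit 188) (nat_lit 924) (nat_lit 0) (XT.nd (nat_lit 94) (nat_lit 924) (nat_lit 0) (XT.lf (nat_lit 84) (nat_lit 1311919645) (nat_lit 0) (nat_lit 1439725827) (nat_lit 1176) (nat_lit 1311919645) (nat_lit 265) (nat_lit 1) (nat_lit 264) (nat_lit 1) (nat_lit 278) (nat_lit 1) (nat_lit 241) (nat_lit 252) (nat_lit 227)) (XT.lf (nat_lit 1008) (nat_lit 2237047392) (nat_lit 0) (nat_lit 893256634) (nat_lit 924) (nat_lit 893256634) (nat_lit 265) (nat_lit 1) (nat_lit 253) (nat_lit 1) (nat_lit 264) (nat_lit 1) (nat_lit 242) (nat_lit 252) (nat_lit 226))) (XT.nd (nat_lit 94) (nat_lit 924) (nat_lit 0) (XT.lf (nat_lit 84) (nat_lit 921148075)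 (nat_lit 0) (nat_lit 2141770635) (nat_lit 1008) (nat_lit 921148075) (nat_lit 254) (nat_lit 1) (nat_lit 253) (nat_lit 1) (nat_lit 265) (nat_lit 1) (nat_lit 243) (nat_lit 252) (nat_lit 225)) (XT.lf (nat_lit 1008) (nat_lit 1440563202) (nat_lit 0) (nat_lit 1252263329) (nat_lit 924) (nat_lit 1252263329) (nat_lit 254) (nat_lit 1) (nat_lit 242) (nat_lit 1) (nat_lit 253) (nat_lit 1) (nat_lit 244) (nat_lit 252) (nat_lit 224))))) (XT.nd (nat_lit 376) (nat_lit 1680) (nat_lit 0) (XT.nd (nat_lit 188) (nat_lit 924) (nat_lit 0) (XT.nd (nat_lit 94) (nat_lit 840) (nat_lit 0) (XT.lf (nat_lit 84) (nat_lit 518495451) (nat_lit 0) (nat_lit 2869735314) (nat_lit 1008) (nat_lit 518495451) (nat_lit 243) (nat_lit 1) (nat_lit 242) (nat_lit 1) (nat_lit 254) (nat_lit 1) (nat_lit 245) (nat_lit 252) (nat_lit 223)) (XT.lf (nat_lit 924) (nat_lit 621365536) (nat_lit 0) (nat_lit 1623688198) (nat_lit 840) (nat_lit 1623688198) (nat_lit 243)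 (nat_lit 1) (nat_lit 232) (nat_lit 1) (nat_lit 242) (nat_lit 1) (nat_lit 246) (nat_lit 252) (nat_lit 222))) (XT.nd (nat_lit 94) (nat_lit 924) (nat_lit 0) (XT.lf (nat_lit 84) (nat_lit 105081794) (nat_lit 0) (nat_lit 3621314354) (nat_lit 924) (nat_lit 105081794) (nat_lit 233) (nat_lit 1) (nat_lit 232) (nat_lit 1) (nat_lit 243) (nat_lit 1) (nat_lit 247) (nat_lit 252) (nat_lit 221)) (XT.lf (nat_lit 84) (nat_lit 1789602230) (nat_lit 0) (nat_lit 215214031) (nat_lit 924) (nat_lit 1789602230) (nat_lit 222) (nat_lit 1) (nat_lit 221) (nat_lit 1) (nat_lit 232) (nat_lit 1) (nat_lit 248) (nat_lit 252) (nat_lit 220)))) (XT.nd (nat_lit 188) (nat_lit 840) (nat_lit 0) (XT.nd (nat_lit 94) (nat_lit 0) (nat_lit 0) (XT.lf (nat_lit 924) (nat_lit 3126588118) (nat_lit 0) (nat_lit 315735254) (nat_lit 840) (nat_lit 315735254) (nat_lit 222) (nat_lit 1) (nat_lit 211) (nat_lit 1) (nat_lit 221) (nat_lit 1) (nat_lit 249) (nat_lit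 252) (nat_lit 219)) (XT.lf (nat_lit 84) (nat_lit 1330476794) (nat_lit 0) (nat_lit 1061037901) (nat_lit 924) (nat_lit 1330476794) (nat_lit 212) (nat_lit 1) (nat_lit 211) (nat_lit 1) (nat_lit 222) (nat_lit 1) (nat_lit 250) (nat_lit 252) (nat_lit 218))) (XT.nd (nat_lit 94) (nat_lit 0) (nat_lit 0) (XT.lf (nat_lit 924) (nat_lit 2197674027) (nat_lit 0) (nat_lit 744430821) (nat_lit 840) (nat_lit 744430821) (nat_lit 212) (nat_lit 1) (nat_lit 201) (nat_lit 1) (nat_lit 211) (nat_lit 1) (nat_lit 251) (nat_lit 252) (nat_lit 217)) (XT.lf (nat_lit 84) (nat_lit 864184133) (nat_lit 0) (nat_lit 1923130424) (nat_lit 924) (nat_lit 864184133) (nat_lit 202) (nat_lit 1) (nat_lit 201) (nat_lit 1) (nat_lit 212) (nat_lit 1) (nat_lit 252) (nat_lit 252) (nat_lit 216))))))) (XT.nd (nat_lit 41642) (nat_lit 0) (nat_lit 13272) (XT.nd (nat_lit 658) (nat_lit 2772) (nat_lit 0) (XT.nd (nat_lit 282) (nat_lit 1596) (nat_lit 0) (XT.nd (nat_lit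 94) (nat_lit 756) (nat_lit 0) (XT.lf (nat_lit 840) (nat_lit 1255265875) (nat_lit 0) (nat_lit 1180825429) (nat_lit 756) (nat_lit 1180825429) (nat_lit 202) (nat_lit 1) (nat_lit 192) (nat_lit 1) (nat_lit 201) (nat_lit 1) (nat_lit 253) (nat_lit 252) (nat_lit 215)) (XT.nd (nat_lit 94) (nat_lit 756) (nat_lit 0) (XT.lf (nat_lit 84) (nat_lit 391604707) (nat_lit 0) (nat_lit 2799673072) (nat_lit 840) (nat_lit 391604707) (nat_lit 193) (nat_lit 1) (nat_lit 192) (nat_lit 1) (nat_lit 202) (nat_lit 1) (nat_lit 254) (nat_lit 252) (nat_lit 214)) (XT.lf (nat_lit 840) (nat_lit 301080471) (nat_lit 0) (nat_lit 1624032417) (nat_lit 756) (nat_lit 1624032417) (nat_lit 193) (nat_lit 1) (nat_lit 183) (nat_lit 1) (nat_lit 192) (nat_lit 1) (nat_lit 255) (nat_lit 252) (nat_lit 213)))) (XT.nd (nat_lit 188) (nat_lit 756) (nat_lit 0) (XT.nd (nat_lit 94) (nat_lit 0) (nat_lit 0) (XT.lf (nat_lit 840) (nat_lit 3344420324) (nat_lit 0) (nat_lit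 85806241) (nat_lit 756) (nat_lit 85806241) (nat_lit 183) (nat_lit 1) (nat_lit 173) (nat_lit 1) (nat_lit 182) (nat_lit 1) (nat_lit 256) (nat_lit 252) (nat_lit 212)) (XT.lf (nat_lit 84) (nat_lit 1414676423) (nat_lit 0) (nat_lit 653709977) (nat_lit 840) (nat_lit 1414676423) (nat_lit 174) (nat_lit 1) (nat_lit 173) (nat_lit 1) (nat_lit 183) (nat_lit 1) (nat_lit 257) (nat_lit 252) (nat_lit 211))) (XT.nd (nat_lit 94) (nat_lit 0) (nat_lit 0) (XT.lf (nat_lit 840) (nat_lit 2320648348) (nat_lit 0) (nat_lit 565026257) (nat_lit 756) (nat_lit 565026257) (nat_lit 174) (nat_lit 1) (nat_lit 164) (nat_lit 1) (nat_lit 173) (nat_lit 1) (nat_lit 258) (nat_lit 252) (nat_lit 210)) (XT.lf (nat_lit 84) (nat_lit 903000119) (nat_lit 0) (nat_lit 1612671630) (nat_lit 840) (nat_lit 903000119) (nat_lit 165) (nat_lit 1) (nat_lit 164) (nat_lit 1) (nat_lit 174) (nat_lit 1) (nat_lit 259) (nat_lit 252) (nat_lit 209))))) (XT.nd (nat_lit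 282) (nat_lit 1428) (nat_lit 0) (XT.nd (nat_lit 94) (nat_lit 672) (nat_lit 0) (XT.lf (nat_lit 756) (nat_lit 1290775346) (nat_lit 0) (nat_lit 1048153050) (nat_lit 672) (nat_lit 1048153050) (nat_lit 165) (nat_lit 1) (nat_lit 156) (nat_lit 1) (nat_lit 164) (nat_lit 1) (nat_lit 260) (nat_lit 252) (nat_lit 208)) (XT.nd (nat_lit 94) (nat_lit 672) (nat_lit 0) (XT.lf (nat_lit 84) (nat_lit 388622312) (nat_lit 0) (nat_lit 2578724150) (nat_lit 756) (nat_lit 388622312) (nat_lit 157) (nat_lit 1) (nat_lit 156) (nat_lit 1) (nat_lit 165) (nat_lit 1) (nat_lit 261) (nat_lit 252) (nat_lit 207)) (XT.lf (nat_lit 756) (nat_lit 256131082) (nat_lit 0) (nat_lit 1534496784) (nat_lit 672) (nat_lit 1534496784) (nat_lit 157) (nat_lit 1) (nat_lit 148) (nat_lit 1) (nat_lit 156) (nat_lit 1) (nat_lit 262) (nat_lit 252) (nat_lit 206)))) (XT.nd (nat_lit 188) (nat_lit 672) (nat_lit 0) (XT.nd (nat_lit 94) (nat_lit 0) (nat_lit 0) (XT.lf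 (nat_lit 756) (nat_lit 3041042087) (nat_lit 0) (nat_lit 126890926) (nat_lit 672) (nat_lit 126890926) (nat_lit 148) (nat_lit 1) (nat_lit 139) (nat_lit 1) (nat_lit 147) (nat_lit 1) (nat_lit 263) (nat_lit 252) (nat_lit 205)) (XT.lf (nat_lit 84) (nat_lit 1246944546) (nat_lit 0) (nat_lit 770770558) (nat_lit 756) (nat_lit 1246944546) (nat_lit 140) (nat_lit 1) (nat_lit 139) (nat_lit 1) (nat_lit 148) (nat_lit 1) (nat_lit 264) (nat_lit 252) (nat_lit 204))) (XT.nd (nat_lit 40420) (nat_lit 0) (nat_lit 13272) (XT.lf (nat_lit 756) (nat_lit 1952943729) (nat_lit 0) (nat_lit 641040524) (nat_lit 672) (nat_lit 641040524) (nat_lit 140) (nat_lit 1) (nat_lit 131) (nat_lit 1) (nat_lit 139) (nat_lit 1) (nat_lit 265) (nat_lit 252) (nat_lit 203)) (XT.lf (nat_lit 1932) (nat_lit 1029819085) (nat_lit 0) (nat_lit 632973351) (nat_lit 1932) (nat_lit 1029819085) (nat_lit 312) (nat_lit 1) (nat_lit 289) (nat_lit 0) (nat_lit 312) (nat_lit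 0) (nat_lit 214) (nat_lit 253) (nat_lit 253)))))) (XT.nd (nat_lit 658) (nat_lit 0) (nat_lit 336) (XT.nd (nat_lit 282) (nat_lit 0) (nat_lit 168) (XT.nd (nat_lit 94) (nat_lit 0) (nat_lit 84) (XT.lf (nat_lit 1932) (nat_lit 4070364998) (nat_lit 84) (nat_lit 628398642) (nat_lit 0) (nat_lit 628398642) (nat_lit 312) (nat_lit 1) (nat_lit 290) (nat_lit 1) (nat_lit 289) (nat_lit 0) (nat_lit 215) (nat_lit 253) (nat_lit 252)) (XT.nd (nat_lit 94) (nat_lit 0) (nat_lit 0) (XT.lf (nat_lit 1932) (nat_lit 1996437250) (nat_lit 0) (nat_lit 1276838991) (nat_lit 1848) (nat_lit 1996437250) (nat_lit 313) (nat_lit 1) (nat_lit 290) (nat_lit 1) (nat_lit 312) (nat_lit 1) (nat_lit 216) (nat_lit 253) (nat_lit 251)) (XT.lf (nat_lit 1932) (nat_lit 3907823954) (nat_lit 84) (nat_lit 652739381) (nat_lit 0) (nat_lit 652739381) (nat_lit 313) (nat_lit 1) (nat_lit 291) (nat_lit 1) (nat_lit 290) (nat_lit 1) (nat_lit 217) (nat_lit 253) (nat_lit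 250)))) (XT.nd (nat_lit 188) (nat_lit 0) (nat_lit 84) (XT.nd (nat_lit 94) (nat_lit 0) (nat_lit 0) (XT.lf (nat_lit 1932) (nat_lit 1898077745) (nat_lit 0) (nat_lit 1361338374) (nat_lit 1848) (nat_lit 1898077745) (nat_lit 314) (nat_lit 1) (nat_lit 291) (nat_lit 1) (nat_lit 313) (nat_lit 1) (nat_lit 218) (nat_lit 253) (nat_lit 249)) (XT.lf (nat_lit 1932) (nat_lit 3677052005) (nat_lit 84) (nat_lit 712811289) (nat_lit 0) (nat_lit 712811289) (nat_lit 314) (nat_lit 1) (nat_lit 292) (nat_lit 1) (nat_lit 291) (nat_lit 1) (nat_lit 219) (nat_lit 253) (nat_lit 248))) (XT.nd (nat_lit 94) (nat_lit 0) (nat_lit 0) (XT.lf (nat_lit 1932) (nat_lit 1766871823) (nat_lit 0) (nat_lit 1514715482) (nat_lit 1848) (nat_lit 1766871823) (nat_lit 315) (nat_lit 1) (nat_lit 292) (nat_lit 1) (nat_lit 314) (nat_lit 1) (nat_lit 220) (nat_lit 253) (nat_lit 247)) (XT.lf (nat_lit 1932) (nat_lit 3382572852) (nat_lit 84) (nat_lit 806301115)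 (nat_lit 0) (nat_lit 806301115) (nat_lit 315) (nat_lit 1) (nat_lit 293) (nat_lit 1) (nat_lit 292) (nat_lit 1) (nat_lit 221) (nat_lit 253) (nat_lit 246))))) (XT.nd (nat_lit 376) (nat_lit 0) (nat_lit 168) (XT.nd (nat_lit 188) (nat_lit 0) (nat_lit 84) (XT.nd (nat_lit 94) (nat_lit 0) (nat_lit 0) (XT.lf (nat_lit 1932) (nat_lit 1605015635) (nat_lit 0) (nat_lit 1732476691) (nat_lit 1848) (nat_lit 1605015635) (nat_lit 316) (nat_lit 1) (nat_lit 293) (nat_lit 1) (nat_lit 315) (nat_lit 1) (nat_lit 222) (nat_lit 253) (nat_lit 245)) (XT.lf (nat_lit 1932) (nat_lit 3028682708) (nat_lit 84) (nat_lit 931011166) (nat_lit 0) (nat_lit 931011166) (nat_lit 316) (nat_lit 1) (nat_lit 294) (nat_lit 1) (nat_lit 293) (nat_lit 1) (nat_lit 223) (nat_lit 253) (nat_lit 244))) (XT.nd (nat_lit 94) (nat_lit 0) (nat_lit 0) (XT.lf (nat_lit 1932) (nat_lit 1414594640) (nat_lit 0) (nat_lit 2010353342) (nat_lit 1848) (nat_lit 1414594640) (nat_lit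 317) (nat_lit 1) (nat_lit 294) (nat_lit 1) (nat_lit 316) (nat_lit 1) (nat_lit 224) (nat_lit 253) (nat_lit 243)) (XT.lf (nat_lit 1932) (nat_lit 2619460740) (nat_lit 84) (nat_lit 1084854020) (nat_lit 0) (nat_lit 1084854020) (nat_lit 317) (nat_lit 1) (nat_lit 295) (nat_lit 1) (nat_lit 294) (nat_lit 1) (nat_lit 225) (nat_lit 253) (nat_lit 242)))) (XT.nd (nat_lit 188) (nat_lit 0) (nat_lit 84) (XT.nd (nat_lit 94) (nat_lit 0) (nat_lit 0) (XT.lf (nat_lit 1932) (nat_lit 1197588684) (nat_lit 0) (nat_lit 2344291439) (nat_lit 1848) (nat_lit 1197588684) (nat_lit 318) (nat_lit 1) (nat_lit 295) (nat_lit 1) (nat_lit 317) (nat_lit 1) (nat_lit 226) (nat_lit 253) (nat_lit 241)) (XT.lf (nat_lit 1932) (nat_lit 2158779040) (nat_lit 84) (nat_lit 1265847467) (nat_lit 0) (nat_lit 1265847467) (nat_lit 318) (nat_lit 1) (nat_lit 296) (nat_lit 1) (nat_lit 295) (nat_lit 1) (nat_lit 227) (nat_lit 253) (nat_lit 240))) (XT.nd (nat_lit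 94) (nat_lit 0) (nat_lit 0) (XT.lf (nat_lit 1932) (nat_lit 955876862) (nat_lit 0) (nat_lit 2730441797) (nat_lit 1848) (nat_lit 955876862) (nat_lit 319) (nat_lit 1) (nat_lit 296) (nat_lit 1) (nat_lit 318) (nat_lit 1) (nat_lit 228) (nat_lit 253) (nat_lit 239)) (XT.lf (nat_lit 1932) (nat_lit 1650312169) (nat_lit 84) (nat_lit 1472109681) (nat_lit 0) (nat_lit 1472109681) (nat_lit 319) (nat_lit 1) (nat_lit 297) (nat_lit 1) (nat_lit 296) (nat_lit 1) (nat_lit 229) (nat_lit 253) (nat_lit 238))))))))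
noncomputable def ec13 : XT := (XT.nd (nat_lit 2726) (nat_lit 2688) (nat_lit 0) (XT.nd (nat_lit 1316) (nat_lit 7224) (nat_lit 0) (XT.nd (nat_lit 658) (nat_lit 2856) (nat_lit 0) (XT.nd (nat_lit 282) (nat_lit 1764) (nat_lit 0) (XT.nd (nat_lit 94) (nat_lit 0) (nat_lit 0) (XT.lf (nat_lit 1932) (nat_lit 691242164) (nat_lit 0) (nat_lit 3165150626) (nat_lit 1848) (nat_lit 691242164) (nat_lit 320) (nat_lit 1) (nat_lit 297) (nat_lit 1) (nat_lit 319) (nat_lit 1) (nat_lit 230) (nat_lit 253) (nat_lit 237)) (XT.nd (nat_lit 94) (nat_lit 0) (nat_lit 84) (XT.lf (nat_lit 1932) (nat_lit 1097546267) (nat_lit 84) (nat_lit 1701854598) (nat_lit 0) (nat_lit 1701854598) (nat_lit 320) (nat_lit 1) (nat_lit 298) (nat_lit 1) (nat_lit 297) (nat_lit 1) (nat_lit 231) (nat_lit 253) (nat_lit 236)) (XT.lf (nat_lit 1932) (nat_lit 405375911) (nat_lit 0) (nat_lit 3644950536) (nat_lit 1848) (nat_lit 405375911) (nat_lit 321) (nat_lit 1) (nat_lit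 298) (nat_lit 1) (nat_lit 320) (nat_lit 1) (nat_lit 232) (nat_lit 253) (nat_lit 235)))) (XT.nd (nat_lit 188) (nat_lit 1848) (nat_lit 0) (XT.nd (nat_lit 94) (nat_lit 0) (nat_lit 84) (XT.lf (nat_lit 1932) (nat_lit 503787765) (nat_lit 84) (nat_lit 1953387503) (nat_lit 0) (nat_lit 1953387503) (nat_lit 321) (nat_lit 1) (nat_lit 299) (nat_lit 1) (nat_lit 298) (nat_lit 1) (nat_lit 233) (nat_lit 253) (nat_lit 234)) (XT.lf (nat_lit 1932) (nat_lit 99881998) (nat_lit 0) (nat_lit 4166551934) (nat_lit 1848) (nat_lit 99881998) (nat_lit 322) (nat_lit 1) (nat_lit 299) (nat_lit 1) (nat_lit 321) (nat_lit 1) (nat_lit 234) (nat_lit 253) (nat_lit 233))) (XT.nd (nat_lit 94) (nat_lit 0) (nat_lit 0) (XT.lf (nat_lit 2016) (nat_lit 2098183079) (nat_lit 0) (nat_lit 125987149) (nat_lit 1932) (nat_lit 2098183079) (nat_lit 300) (nat_lit 1) (nat_lit 276) (nat_lit 1) (nat_lit 299) (nat_lit 1) (nat_lit 235) (nat_lit 253) (nat_lit 232))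 (XT.lf (nat_lit 2016) (nat_lit 3835051643) (nat_lit 84) (nat_lit 222102154) (nat_lit 0) (nat_lit 222102154) (nat_lit 300) (nat_lit 1) (nat_lit 277) (nat_lit 1) (nat_lit 276) (nat_lit 1) (nat_lit 236) (nat_lit 253) (nat_lit 231))))) (XT.nd (nat_lit 282) (nat_lit 1848) (nat_lit 0) (XT.nd (nat_lit 94) (nat_lit 1092) (nat_lit 0) (XT.lf (nat_lit 84) (nat_lit 1726797981) (nat_lit 0) (nat_lit 782889370) (nat_lit 1932) (nat_lit 1726797981) (nat_lit 278) (nat_lit 1) (nat_lit 277) (nat_lit 1) (nat_lit 300) (nat_lit 1) (nat_lit 237) (nat_lit 253) (nat_lit 230)) (XT.nd (nat_lit 94) (nat_lit 0) (nat_lit 0) (XT.lf (nat_lit 1176) (nat_lit 3074693454) (nat_lit 0) (nat_lit 559910077) (nat_lit 1092) (nat_lit 559910077) (nat_lit 278) (nat_lit 1) (nat_lit 264) (nat_lit 1) (nat_lit 277) (nat_lit 1) (nat_lit 238) (nat_lit 253) (nat_lit 229)) (XT.lf (nat_lit 84) (nat_lit 1340781877) (nat_lit 0) (nat_lit 1471399795) (nat_lit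 1176) (nat_lit 1340781877) (nat_lit 265) (nat_lit 1) (nat_lit 264) (nat_lit 1) (nat_lit 278) (nat_lit 1) (nat_lit 239) (nat_lit 253) (nat_lit 228)))) (XT.nd (nat_lit 188) (nat_lit 924) (nat_lit 0) (XT.nd (nat_lit 94) (nat_lit 0) (nat_lit 0) (XT.lf (nat_lit 1008) (nat_lit 2286262434) (nat_lit 0) (nat_lit 912908280) (nat_lit 924) (nat_lit 912908280) (nat_lit 265) (nat_lit 1) (nat_lit 253) (nat_lit 1) (nat_lit 264) (nat_lit 1) (nat_lit 240) (nat_lit 253) (nat_lit 227)) (XT.lf (nat_lit 84) (nat_lit 941413333) (nat_lit 0) (nat_lit 2188889589) (nat_lit 1008) (nat_lit 941413333) (nat_lit 254) (nat_lit 1) (nat_lit 253) (nat_lit 1) (nat_lit 265) (nat_lit 1) (nat_lit 241) (nat_lit 253) (nat_lit 226))) (XT.nd (nat_lit 94) (nat_lit 0) (nat_lit 0) (XT.lf (nat_lit 1008) (nat_lit 1472255593) (nat_lit 0) (nat_lit 1279813122) (nat_lit 924) (nat_lit 1279813122) (nat_lit 254) (nat_lit 1) (nat_lit 242) (nat_lit 1) (nat_lit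 253) (nat_lit 1) (nat_lit 242) (nat_lit 253) (nat_lit 225)) (XT.lf (nat_lit 84) (nat_lit 529902350) (nat_lit 0) (nat_lit 2932869491) (nat_lit 1008) (nat_lit 529902350) (nat_lit 243) (nat_lit 1) (nat_lit 242) (nat_lit 1) (nat_lit 254) (nat_lit 1) (nat_lit 243) (nat_lit 253) (nat_lit 224)))))) (XT.nd (nat_lit 658) (nat_lit 3780) (nat_lit 0) (XT.nd (nat_lit 282) (nat_lit 1680) (nat_lit 0) (XT.nd (nat_lit 94) (nat_lit 924) (nat_lit 0) (XT.lf (nat_lit 924) (nat_lit 635035578) (nat_lit 0) (nat_lit 1659409339) (nat_lit 840) (nat_lit 1659409339) (nat_lit 243) (nat_lit 1) (nat_lit 232) (nat_lit 1) (nat_lit 242) (nat_lit 1) (nat_lit 244) (nat_lit 253) (nat_lit 223)) (XT.nd (nat_lit 94) (nat_lit 924) (nat_lit 0) (XT.lf (nat_lit 84) (nat_lit 107393593) (nat_lit 0) (nat_lit 3700983270) (nat_lit 924) (nat_lit 107393593) (nat_lit 233) (nat_lit 1) (nat_lit 232) (nat_lit 1) (nat_lit 243) (nat_lit 1) (nat_lit 245) (nat_lit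 253) (nat_lit 222)) (XT.lf (nat_lit 84) (nat_lit 1828973479) (nat_lit 0) (nat_lit 219948739) (nat_lit 924) (nat_lit 1828973479) (nat_lit 222) (nat_lit 1) (nat_lit 221) (nat_lit 1) (nat_lit 232) (nat_lit 1) (nat_lit 246) (nat_lit 253) (nat_lit 221)))) (XT.nd (nat_lit 188) (nat_lit 840) (nat_lit 0) (XT.nd (nat_lit 94) (nat_lit 0) (nat_lit 0) (XT.lf (nat_lit 924) (nat_lit 3195373056) (nat_lit 0) (nat_lit 322681430) (nat_lit 840) (nat_lit 322681430) (nat_lit 222) (nat_lit 1) (nat_lit 211) (nat_lit 1) (nat_lit 221) (nat_lit 1) (nat_lit 247) (nat_lit 253) (nat_lit 220)) (XT.lf (nat_lit 84) (nat_lit 1359747283) (nat_lit 0) (nat_lit 1084380734) (nat_lit 924) (nat_lit 1359747283) (nat_lit 212) (nat_lit 1) (nat_lit 211) (nat_lit 1) (nat_lit 222) (nat_lit 1) (nat_lit 248) (nat_lit 253) (nat_lit 219))) (XT.nd (nat_lit 94) (nat_lit 0) (nat_lit 0) (XT.lf (nat_lit 924) (nat_lit 2246022856) (nat_lit 0) (nat_lit 760808300)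 (nat_lit 840) (nat_lit 760808300) (nat_lit 212) (nat_lit 1) (nat_lit 201) (nat_lit 1) (nat_lit 211) (nat_lit 1) (nat_lit 249) (nat_lit 253) (nat_lit 218)) (XT.lf (nat_lit 84) (nat_lit 883196184) (nat_lit 0) (nat_lit 1965439293) (nat_lit 924) (nat_lit 883196184) (nat_lit 202) (nat_lit 1) (nat_lit 201) (nat_lit 1) (nat_lit 212) (nat_lit 1) (nat_lit 250) (nat_lit 253) (nat_lit 217))))) (XT.nd (nat_lit 376) (nat_lit 1428) (nat_lit 0) (XT.nd (nat_lit 188) (nat_lit 1596) (nat_lit 0) (XT.nd (nat_lit 94) (nat_lit 0) (nat_lit 0) (XT.lf (nat_lit 840) (nat_lit 1282881724) (nat_lit 0) (nat_lit 1206803588) (nat_lit 756) (nat_lit 1206803588) (nat_lit 202) (nat_lit 1) (nat_lit 192) (nat_lit 1) (nat_lit 201) (nat_lit 1) (nat_lit 251) (nat_lit 253) (nat_lit 216)) (XT.lf (nat_lit 84) (nat_lit 400220011) (nat_lit 0) (nat_lit 2861265879) (nat_lit 840) (nat_lit 400220011) (nat_lit 193) (nat_lit 1) (nat_lit 192) (nat_lit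 1) (nat_lit 202) (nat_lit 1) (nat_lit 252) (nat_lit 253) (nat_lit 215))) (XT.nd (nat_lit 94) (nat_lit 840) (nat_lit 0) (XT.lf (nat_lit 840) (nat_lit 307704242) (nat_lit 0) (nat_lit 1659761130) (nat_lit 756) (nat_lit 1659761130) (nat_lit 193) (nat_lit 1) (nat_lit 183) (nat_lit 1) (nat_lit 192) (nat_lit 1) (nat_lit 253) (nat_lit 253) (nat_lit 214)) (XT.lf (nat_lit 840) (nat_lit 3417997571) (nat_lit 0) (nat_lit 87693978) (nat_lit 756) (nat_lit 87693978) (nat_lit 183) (nat_lit 1) (nat_lit 173) (nat_lit 1) (nat_lit 182) (nat_lit 1) (nat_lit 254) (nat_lit 253) (nat_lit 213)))) (XT.nd (nat_lit 188) (nat_lit 672) (nat_lit 0) (XT.nd (nat_lit 94) (nat_lit 756) (nat_lit 0) (XT.lf (nat_lit 84) (nat_lit 1445799304) (nat_lit 0) (nat_lit 668091596) (nat_lit 840) (nat_lit 1445799304) (nat_lit 174) (nat_lit 1) (nat_lit 173) (nat_lit 1) (nat_lit 183) (nat_lit 1) (nat_lit 255) (nat_lit 253) (nat_lit 212)) (XT.lf (nat_lit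 840) (nat_lit 2371702612) (nat_lit 0) (nat_lit 577456835) (nat_lit 756) (nat_lit 577456835) (nat_lit 174) (nat_lit 1) (nat_lit 164) (nat_lit 1) (nat_lit 173) (nat_lit 1) (nat_lit 256) (nat_lit 253) (nat_lit 211))) (XT.nd (nat_lit 94) (nat_lit 672) (nat_lit 0) (XT.lf (nat_lit 84) (nat_lit 922866122) (nat_lit 0) (nat_lit 1648150406) (nat_lit 840) (nat_lit 922866122) (nat_lit 165) (nat_lit 1) (nat_lit 164) (nat_lit 1) (nat_lit 174) (nat_lit 1) (nat_lit 257) (nat_lit 253) (nat_lit 210)) (XT.lf (nat_lit 756) (nat_lit 1319172404) (nat_lit 0) (nat_lit 1071212417) (nat_lit 672) (nat_lit 1071212417) (nat_lit 165) (nat_lit 1) (nat_lit 156) (nat_lit 1) (nat_lit 164) (nat_lit 1) (nat_lit 258) (nat_lit 253) (nat_lit 209))))))) (XT.nd (nat_lit 41548) (nat_lit 0) (nat_lit 12768) (XT.nd (nat_lit 40796) (nat_lit 0) (nat_lit 13860) (XT.nd (nat_lit 282) (nat_lit 1260) (nat_lit 0) (XT.nd (nat_lit 94) (nat_lit 1428) (nat_lit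 0) (XT.lf (nat_lit 84) (nat_lit 397172003) (nat_lit 0) (nat_lit 2635456081) (nat_lit 756) (nat_lit 397172003) (nat_lit 157) (nat_lit 1) (nat_lit 156) (nat_lit 1) (nat_lit 165) (nat_lit 1) (nat_lit 259) (nat_lit 253) (nat_lit 208)) (XT.nd (nat_lit 94) (nat_lit 756) (nat_lit 0) (XT.lf (nat_lit 756) (nat_lit 261765966) (nat_lit 0) (nat_lit 1568255714) (nat_lit 672) (nat_lit 1568255714) (nat_lit 157) (nat_lit 1) (nat_lit 148) (nat_lit 1) (nat_lit 156) (nat_lit 1) (nat_lit 260) (nat_lit 253) (nat_lit 207)) (XT.lf (nat_lit 756) (nat_lit 3107945013) (nat_lit 0) (nat_lit 129682526) (nat_lit 672) (nat_lit 129682526) (nat_lit 148) (nat_lit 1) (nat_lit 139) (nat_lit 1) (nat_lit 147) (nat_lit 1) (nat_lit 261) (nat_lit 253) (nat_lit 206)))) (XT.nd (nat_lit 188) (nat_lit 588) (nat_lit 0) (XT.nd (nat_lit 94) (nat_lit 672) (nat_lit 0) (XT.lf (nat_lit 84) (nat_lit 1274377326) (nat_lit 0) (nat_lit 787727511) (nat_lit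 756) (nat_lit 1274377326) (nat_lit 140) (nat_lit 1) (nat_lit 139) (nat_lit 1) (nat_lit 148) (nat_lit 1) (nat_lit 262) (nat_lit 253) (nat_lit 205)) (XT.lf (nat_lit 756) (nat_lit 1995908491) (nat_lit 0) (nat_lit 655143416) (nat_lit 672) (nat_lit 655143416) (nat_lit 140) (nat_lit 1) (nat_lit 131) (nat_lit 1) (nat_lit 139) (nat_lit 1) (nat_lit 263) (nat_lit 253) (nat_lit 204))) (XT.nd (nat_lit 94) (nat_lit 588) (nat_lit 0) (XT.lf (nat_lit 84) (nat_lit 720216509) (nat_lit 0) (nat_lit 1835814650) (nat_lit 756) (nat_lit 720216509) (nat_lit 132) (nat_lit 1) (nat_lit 131) (nat_lit 1) (nat_lit 140) (nat_lit 1) (nat_lit 264) (nat_lit 253) (nat_lit 203)) (XT.lf (nat_lit 672) (nat_lit 883646901) (nat_lit 0) (nat_lit 1181506082) (nat_lit 588) (nat_lit 1181506082) (nat_lit 132) (nat_lit 1) (nat_lit 124) (nat_lit 1) (nat_lit 131) (nat_lit 1) (nat_lit 265) (nat_lit 253) (nat_lit 202))))) (XT.nd (nat_lit 376) (nat_lit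 0) (nat_lit 168) (XT.nd (nat_lit 188) (nat_lit 0) (nat_lit 84) (XT.nd (nat_lit 94) (nat_lit 0) (nat_lit 0) (XT.lf (nat_lit 1932) (nat_lit 1052475105) (nat_lit 0) (nat_lit 646898765) (nat_lit 1932) (nat_lit 1052475105) (nat_lit 312) (nat_lit 1) (nat_lit 289) (nat_lit 0) (nat_lit 312) (nat_lit 0) (nat_lit 212) (nat_lit 254) (nat_lit 254)) (XT.lf (nat_lit 1932) (nat_lit 4159913028) (nat_lit 84) (nat_lit 642223412) (nat_lit 0) (nat_lit 642223412) (nat_lit 312) (nat_lit 1) (nat_lit 290) (nat_lit 1) (nat_lit 289) (nat_lit 0) (nat_lit 213) (nat_lit 254) (nat_lit 253))) (XT.nd (nat_lit 94) (nat_lit 0) (nat_lit 0) (XT.lf (nat_lit 1932) (nat_lit 2040358869) (nat_lit 0) (nat_lit 1304929449) (nat_lit 1848) (nat_lit 2040358869) (nat_lit 313) (nat_lit 1) (nat_lit 290) (nat_lit 1) (nat_lit 312) (nat_lit 1) (nat_lit 214) (nat_lit 254) (nat_lit 252)) (XT.lf (nat_lit 1932) (nat_lit 3993796081) (nat_lit 84) (nat_lit 667099648)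 (nat_lit 0) (nat_lit 667099648) (nat_lit 313) (nat_lit 1) (nat_lit 291) (nat_lit 1) (nat_lit 290) (nat_lit 1) (nat_lit 215) (nat_lit 254) (nat_lit 251)))) (XT.nd (nat_lit 188) (nat_lit 0) (nat_lit 84) (XT.nd (nat_lit 94) (nat_lit 0) (nat_lit 0) (XT.lf (nat_lit 1932) (nat_lit 1939835456) (nat_lit 0) (nat_lit 1391287818) (nat_lit 1848) (nat_lit 1939835456) (nat_lit 314) (nat_lit 1) (nat_lit 291) (nat_lit 1) (nat_lit 313) (nat_lit 1) (nat_lit 216) (nat_lit 254) (nat_lit 250)) (XT.lf (nat_lit 1932) (nat_lit 3757947149) (nat_lit 84) (nat_lit 728493137) (nat_lit 0) (nat_lit 728493137) (nat_lit 314) (nat_lit 1) (nat_lit 292) (nat_lit 1) (nat_lit 291) (nat_lit 1) (nat_lit 217) (nat_lit 254) (nat_lit 249))) (XT.nd (nat_lit 94) (nat_lit 0) (nat_lit 0) (XT.lf (nat_lit 1932) (nat_lit 1805743003) (nat_lit 0) (nat_lit 1548039223) (nat_lit 1848) (nat_lit 1805743003) (nat_lit 315) (nat_lit 1) (nat_lit 292) (nat_lit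 1) (nat_lit 314) (nat_lit 1) (nat_lit 218) (nat_lit 254) (nat_lit 248)) (XT.lf (nat_lit 1932) (nat_lit 3456989455) (nat_lit 84) (nat_lit 824039739) (nat_lit 0) (nat_lit 824039739) (nat_lit 315) (nat_lit 1) (nat_lit 293) (nat_lit 1) (nat_lit 292) (nat_lit 1) (nat_lit 219) (nat_lit 254) (nat_lit 247)))))) (XT.nd (nat_lit 658) (nat_lit 1428) (nat_lit 0) (XT.nd (nat_lit 282) (nat_lit 0) (nat_lit 84) (XT.nd (nat_lit 94) (nat_lit 0) (nat_lit 0) (XT.lf (nat_lit 1932) (nat_lit 1640325979) (nat_lit 0) (nat_lit 1770591178) (nat_lit 1848) (nat_lit 1640325979) (nat_lit 316) (nat_lit 1) (nat_lit 293) (nat_lit 1) (nat_lit 315) (nat_lit 1) (nat_lit 220) (nat_lit 254) (nat_lit 246)) (XT.nd (nat_lit 94) (nat_lit 0) (nat_lit 84) (XT.lf (nat_lit 1932) (nat_lit 3095313728) (nat_lit 84) (nat_lit 951493412) (nat_lit 0) (nat_lit 951493412) (nat_lit 316) (nat_lit 1) (nat_lit 294) (nat_lit 1) (nat_lit 293) (nat_lit 1) (nat_lit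 221) (nat_lit 254) (nat_lit 245)) (XT.lf (nat_lit 1932) (nat_lit 1445715722) (nat_lit 0) (nat_lit 2054581116) (nat_lit 1848) (nat_lit 1445715722) (nat_lit 317) (nat_lit 1) (nat_lit 294) (nat_lit 1) (nat_lit 316) (nat_lit 1) (nat_lit 222) (nat_lit 254) (nat_lit 244)))) (XT.nd (nat_lit 188) (nat_lit 0) (nat_lit 84) (XT.nd (nat_lit 94) (nat_lit 0) (nat_lit 84) (XT.lf (nat_lit 1932) (nat_lit 2677088876) (nat_lit 84) (nat_lit 1108720808) (nat_lit 0) (nat_lit 1108720808) (nat_lit 317) (nat_lit 1) (nat_lit 295) (nat_lit 1) (nat_lit 294) (nat_lit 1) (nat_lit 223) (nat_lit 254) (nat_lit 243)) (XT.lf (nat_lit 1932) (nat_lit 1223935635) (nat_lit 0) (nat_lit 2395865851) (nat_lit 1848) (nat_lit 1223935635) (nat_lit 318) (nat_lit 1) (nat_lit 295) (nat_lit 1) (nat_lit 317) (nat_lit 1) (nat_lit 224) (nat_lit 254) (nat_lit 242))) (XT.nd (nat_lit 94) (nat_lit 0) (nat_lit 84) (XT.lf (nat_lit 1932) (nat_lit 2206272179)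 (nat_lit 84) (nat_lit 1293696111) (nat_lit 0) (nat_lit 1293696111) (nat_lit 318) (nat_lit 1) (nat_lit 296) (nat_lit 1) (nat_lit 295) (nat_lit 1) (nat_lit 225) (nat_lit 254) (nat_lit 241)) (XT.lf (nat_lit 1932) (nat_lit 976906153) (nat_lit 0) (nat_lit 2790511516) (nat_lit 1848) (nat_lit 976906153) (nat_lit 319) (nat_lit 1) (nat_lit 296) (nat_lit 1) (nat_lit 318) (nat_lit 1) (nat_lit 226) (nat_lit 254) (nat_lit 240))))) (XT.nd (nat_lit 376) (nat_lit 1680) (nat_lit 0) (XT.nd (nat_lit 188) (nat_lit 0) (nat_lit 84) (XT.nd (nat_lit 94) (nat_lit 0) (nat_lit 84) (XT.lf (nat_lit 1932) (nat_lit 1686619037) (nat_lit 84) (nat_lit 1504496094) (nat_lit 0) (nat_lit 1504496094) (nat_lit 319) (nat_lit 1) (nat_lit 297) (nat_lit 1) (nat_lit 296) (nat_lit 1) (nat_lit 227) (nat_lit 254) (nat_lit 239)) (XT.lf (nat_lit 1932) (nat_lit 706449492) (nat_lit 0) (nat_lit 3234783939) (nat_lit 1848) (nat_lit 706449492) (nat_lit 320)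 (nat_lit 1) (nat_lit 297) (nat_lit 1) (nat_lit 319) (nat_lit 1) (nat_lit 228) (nat_lit 254) (nat_lit 238))) (XT.nd (nat_lit 94) (nat_lit 0) (nat_lit 84) (XT.lf (nat_lit 1932) (nat_lit 1121692285) (nat_lit 84) (nat_lit 1739295399) (nat_lit 0) (nat_lit 1739295399) (nat_lit 320) (nat_lit 1) (nat_lit 298) (nat_lit 1) (nat_lit 297) (nat_lit 1) (nat_lit 229) (nat_lit 254) (nat_lit 237)) (XT.lf (nat_lit 1932) (nat_lit 414294181) (nat_lit 0) (nat_lit 3725139448) (nat_lit 1848) (nat_lit 414294181) (nat_lit 321) (nat_lit 1) (nat_lit 298) (nat_lit 1) (nat_lit 320) (nat_lit 1) (nat_lit 230) (nat_lit 254) (nat_lit 236)))) (XT.nd (nat_lit 188) (nat_lit 1848) (nat_lit 0) (XT.nd (nat_lit 94) (nat_lit 0) (nat_lit 84) (XT.lf (nat_lit 1932) (nat_lit 514871096) (nat_lit 84) (nat_lit 1996362028) (nat_lit 0) (nat_lit 1996362028) (nat_lit 321) (nat_lit 1) (nat_lit 299) (nat_lit 1) (nat_lit 298) (nat_lit 1) (nat_lit 231) (nat_lit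 254) (nat_lit 235)) (XT.lf (nat_lit 1932) (nat_lit 102079402) (nat_lit 0) (nat_lit 4258216076) (nat_lit 1848) (nat_lit 102079402) (nat_lit 322) (nat_lit 1) (nat_lit 299) (nat_lit 1) (nat_lit 321) (nat_lit 1) (nat_lit 232) (nat_lit 254) (nat_lit 234))) (XT.nd (nat_lit 94) (nat_lit 0) (nat_lit 0) (XT.lf (nat_lit 2016) (nat_lit 2144343107) (nat_lit 0) (nat_lit 128758866) (nat_lit 1932) (nat_lit 2144343107) (nat_lit 300) (nat_lit 1) (nat_lit 276) (nat_lit 1) (nat_lit 299) (nat_lit 1) (nat_lit 233) (nat_lit 254) (nat_lit 233)) (XT.lf (nat_lit 2016) (nat_lit 3919422779) (nat_lit 84) (nat_lit 226988401) (nat_lit 0) (nat_lit 226988401) (nat_lit 300) (nat_lit 1) (nat_lit 277) (nat_lit 1) (nat_lit 276) (nat_lit 1) (nat_lit 234) (nat_lit 254) (nat_lit 232))))))))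
noncomputable def ec14 : XT := (XT.nd (nat_lit 2726) (nat_lit 0) (nat_lit 0) (XT.nd (nat_lit 1316) (nat_lit 6468) (nat_lit 0) (XT.nd (nat_lit 658) (nat_lit 3444) (nat_lit 0) (XT.nd (nat_lit 282) (nat_lit 1848) (nat_lit 0) (XT.nd (nat_lit 94) (nat_lit 1092) (nat_lit 0) (XT.lf (nat_lit 84) (nat_lit 1764787536) (nat_lit 0) (nat_lit 800112936) (nat_lit 1932) (nat_lit 1764787536) (nat_lit 278) (nat_lit 1) (nat_lit 277) (nat_lit 1) (nat_lit 300) (nat_lit 1) (nat_lit 235) (nat_lit 254) (nat_lit 231)) (XT.nd (nat_lit 94) (nat_lit 0) (nat_lit 0) (XT.lf (nat_lit 1176) (nat_lit 3142336710) (nat_lit 0) (nat_lit 572228099) (nat_lit 1092) (nat_lit 572228099) (nat_lit 278) (nat_lit 1) (nat_lit 264) (nat_lit 1) (nat_lit 277) (nat_lit 1) (nat_lit 236) (nat_lit 254) (nat_lit 230)) (XT.lf (nat_lit 84) (nat_lit 1370279078) (nat_lit 0) (nat_lit 1503770590) (nat_lit 1176) (nat_lit 1370279078) (nat_lit 265) (nat_lit 1) (nat_lit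 264) (nat_lit 1) (nat_lit 278) (nat_lit 1) (nat_lit 237) (nat_lit 254) (nat_lit 229)))) (XT.nd (nat_lit 188) (nat_lit 924) (nat_lit 0) (XT.nd (nat_lit 94) (nat_lit 0) (nat_lit 0) (XT.lf (nat_lit 1008) (nat_lit 2336560208) (nat_lit 0) (nat_lit 932992262) (nat_lit 924) (nat_lit 932992262) (nat_lit 265) (nat_lit 1) (nat_lit 253) (nat_lit 1) (nat_lit 264) (nat_lit 1) (nat_lit 238) (nat_lit 254) (nat_lit 228)) (XT.lf (nat_lit 84) (nat_lit 962124426) (nat_lit 0) (nat_lit 2237045160) (nat_lit 1008) (nat_lit 962124426) (nat_lit 254) (nat_lit 1) (nat_lit 253) (nat_lit 1) (nat_lit 265) (nat_lit 1) (nat_lit 239) (nat_lit 254) (nat_lit 227))) (XT.nd (nat_lit 94) (nat_lit 0) (nat_lit 0) (XT.lf (nat_lit 1008) (nat_lit 1504645216) (nat_lit 0) (nat_lit 1307969011) (nat_lit 924) (nat_lit 1307969011) (nat_lit 254) (nat_lit 1) (nat_lit 242) (nat_lit 1) (nat_lit 253) (nat_lit 1) (nat_lit 240) (nat_lit 254) (nat_lit 226))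 (XT.lf (nat_lit 84) (nat_lit 541560202) (nat_lit 0) (nat_lit 2997392620) (nat_lit 1008) (nat_lit 541560202) (nat_lit 243) (nat_lit 1) (nat_lit 242) (nat_lit 1) (nat_lit 254) (nat_lit 1) (nat_lit 241) (nat_lit 254) (nat_lit 225))))) (XT.nd (nat_lit 282) (nat_lit 1680) (nat_lit 0) (XT.nd (nat_lit 94) (nat_lit 924) (nat_lit 0) (XT.lf (nat_lit 924) (nat_lit 649006360) (nat_lit 0) (nat_lit 1695916344) (nat_lit 840) (nat_lit 1695916344) (nat_lit 243) (nat_lit 1) (nat_lit 232) (nat_lit 1) (nat_lit 242) (nat_lit 1) (nat_lit 242) (nat_lit 254) (nat_lit 224)) (XT.nd (nat_lit 94) (nat_lit 924) (nat_lit 0) (XT.lf (nat_lit 84) (nat_lit 109756252) (nat_lit 0) (nat_lit 3782404902) (nat_lit 924) (nat_lit 109756252) (nat_lit 233) (nat_lit 1) (nat_lit 232) (nat_lit 1) (nat_lit 243) (nat_lit 1) (nat_lit 243) (nat_lit 254) (nat_lit 223)) (XT.lf (nat_lit 84) (nat_lit 1869210896) (nat_lit 0) (nat_lit 224787612) (nat_lit 924)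 (nat_lit 1869210896) (nat_lit 222) (nat_lit 1) (nat_lit 221) (nat_lit 1) (nat_lit 232) (nat_lit 1) (nat_lit 244) (nat_lit 254) (nat_lit 222)))) (XT.nd (nat_lit 188) (nat_lit 840) (nat_lit 0) (XT.nd (nat_lit 94) (nat_lit 0) (nat_lit 0) (XT.lf (nat_lit 924) (nat_lit 3265671264) (nat_lit 0) (nat_lit 329780421) (nat_lit 840) (nat_lit 329780421) (nat_lit 222) (nat_lit 1) (nat_lit 211) (nat_lit 1) (nat_lit 221) (nat_lit 1) (nat_lit 245) (nat_lit 254) (nat_lit 221)) (XT.lf (nat_lit 84) (nat_lit 1389661723) (nat_lit 0) (nat_lit 1108237111) (nat_lit 924) (nat_lit 1389661723) (nat_lit 212) (nat_lit 1) (nat_lit 211) (nat_lit 1) (nat_lit 222) (nat_lit 1) (nat_lit 246) (nat_lit 254) (nat_lit 220))) (XT.nd (nat_lit 94) (nat_lit 0) (nat_lit 0) (XT.lf (nat_lit 924) (nat_lit 2295435359) (nat_lit 0) (nat_lit 777546082) (nat_lit 840) (nat_lit 777546082) (nat_lit 212) (nat_lit 1) (nat_lit 201) (nat_lit 1) (nat_lit 211)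 (nat_lit 1) (nat_lit 247) (nat_lit 254) (nat_lit 219)) (XT.lf (nat_lit 84) (nat_lit 902626500) (nat_lit 0) (nat_lit 2008678958) (nat_lit 924) (nat_lit 902626500) (nat_lit 202) (nat_lit 1) (nat_lit 201) (nat_lit 1) (nat_lit 212) (nat_lit 1) (nat_lit 248) (nat_lit 254) (nat_lit 218)))))) (XT.nd (nat_lit 658) (nat_lit 3360) (nat_lit 0) (XT.nd (nat_lit 282) (nat_lit 1596) (nat_lit 0) (XT.nd (nat_lit 94) (nat_lit 756) (nat_lit 0) (XT.lf (nat_lit 840) (nat_lit 1311105122) (nat_lit 0) (nat_lit 1233353267) (nat_lit 756) (nat_lit 1233353267) (nat_lit 202) (nat_lit 1) (nat_lit 192) (nat_lit 1) (nat_lit 201) (nat_lit 1) (nat_lit 249) (nat_lit 254) (nat_lit 217)) (XT.nd (nat_lit 94) (nat_lit 756) (nat_lit 0) (XT.lf (nat_lit 84) (nat_lit 409024851) (nat_lit 0) (nat_lit 2924213729) (nat_lit 840) (nat_lit 409024851) (nat_lit 193) (nat_lit 1) (nat_lit 192) (nat_lit 1) (nat_lit 202) (nat_lit 1) (nat_lit 250) (nat_lit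 254) (nat_lit 216)) (XT.lf (nat_lit 840) (nat_lit 314473735) (nat_lit 0) (nat_lit 1696275875) (nat_lit 756) (nat_lit 1696275875) (nat_lit 193) (nat_lit 1) (nat_lit 183) (nat_lit 1) (nat_lit 192) (nat_lit 1) (nat_lit 251) (nat_lit 254) (nat_lit 215)))) (XT.nd (nat_lit 188) (nat_lit 756) (nat_lit 0) (XT.nd (nat_lit 94) (nat_lit 0) (nat_lit 0) (XT.lf (nat_lit 840) (nat_lit 3493193517) (nat_lit 0) (nat_lit 89623245) (nat_lit 756) (nat_lit 89623245) (nat_lit 183) (nat_lit 1) (nat_lit 173) (nat_lit 1) (nat_lit 182) (nat_lit 1) (nat_lit 252) (nat_lit 254) (nat_lit 214)) (XT.lf (nat_lit 84) (nat_lit 1477606889) (nat_lit 0) (nat_lit 682789611) (nat_lit 840) (nat_lit 1477606889) (nat_lit 174) (nat_lit 1) (nat_lit 173) (nat_lit 1) (nat_lit 183) (nat_lit 1) (nat_lit 253) (nat_lit 254) (nat_lit 213))) (XT.nd (nat_lit 94) (nat_lit 0) (nat_lit 0) (XT.lf (nat_lit 840) (nat_lit 2423880069) (nat_lit 0) (nat_lit 590160885)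 (nat_lit 756) (nat_lit 590160885) (nat_lit 174) (nat_lit 1) (nat_lit 164) (nat_lit 1) (nat_lit 173) (nat_lit 1) (nat_lit 254) (nat_lit 254) (nat_lit 212)) (XT.lf (nat_lit 84) (nat_lit 943169176) (nat_lit 0) (nat_lit 1684409715) (nat_lit 840) (nat_lit 943169176) (nat_lit 165) (nat_lit 1) (nat_lit 164) (nat_lit 1) (nat_lit 174) (nat_lit 1) (nat_lit 255) (nat_lit 254) (nat_lit 211))))) (XT.nd (nat_lit 376) (nat_lit 1260) (nat_lit 0) (XT.nd (nat_lit 188) (nat_lit 1428) (nat_lit 0) (XT.nd (nat_lit 94) (nat_lit 0) (nat_lit 0) (XT.lf (nat_lit 756) (nat_lit 1348194196) (nat_lit 0) (nat_lit 1094779090) (nat_lit 672) (nat_lit 1094779090) (nat_lit 165) (nat_lit 1) (nat_lit 156) (nat_lit 1) (nat_lit 164) (nat_lit 1) (nat_lit 256) (nat_lit 254) (nat_lit 210)) (XT.lf (nat_lit 84) (nat_lit 405909787) (nat_lit 0) (nat_lit 2693436115) (nat_lit 756) (nat_lit 405909787) (nat_lit 157) (nat_lit 1) (nat_lit 156) (nat_lit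 1) (nat_lit 165) (nat_lit 1) (nat_lit 257) (nat_lit 254) (nat_lit 209))) (XT.nd (nat_lit 94) (nat_lit 756) (nat_lit 0) (XT.lf (nat_lit 756) (nat_lit 267524818) (nat_lit 0) (nat_lit 1602757339) (nat_lit 672) (nat_lit 1602757339) (nat_lit 157) (nat_lit 1) (nat_lit 148) (nat_lit 1) (nat_lit 156) (nat_lit 1) (nat_lit 258) (nat_lit 254) (nat_lit 208)) (XT.lf (nat_lit 756) (nat_lit 3176319803) (nat_lit 0) (nat_lit 132535542) (nat_lit 672) (nat_lit 132535542) (nat_lit 148) (nat_lit 1) (nat_lit 139) (nat_lit 1) (nat_lit 147) (nat_lit 1) (nat_lit 259) (nat_lit 254) (nat_lit 207)))) (XT.nd (nat_lit 188) (nat_lit 588) (nat_lit 0) (XT.nd (nat_lit 94) (nat_lit 672) (nat_lit 0) (XT.lf (nat_lit 84) (nat_lit 1302413627) (nat_lit 0) (nat_lit 805057516) (nat_lit 756) (nat_lit 1302413627) (nat_lit 140) (nat_lit 1) (nat_lit 139) (nat_lit 1) (nat_lit 148) (nat_lit 1) (nat_lit 260) (nat_lit 254) (nat_lit 206)) (XT.lf (nat_lit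 756) (nat_lit 2039818478) (nat_lit 0) (nat_lit 669556571) (nat_lit 672) (nat_lit 669556571) (nat_lit 140) (nat_lit 1) (nat_lit 131) (nat_lit 1) (nat_lit 139) (nat_lit 1) (nat_lit 261) (nat_lit 254) (nat_lit 205))) (XT.nd (nat_lit 94) (nat_lit 588) (nat_lit 0) (XT.lf (nat_lit 84) (nat_lit 736061272) (nat_lit 0) (nat_lit 1876202572) (nat_lit 756) (nat_lit 736061272) (nat_lit 132) (nat_lit 1) (nat_lit 131) (nat_lit 1) (nat_lit 140) (nat_lit 1) (nat_lit 262) (nat_lit 254) (nat_lit 204)) (XT.lf (nat_lit 672) (nat_lit 903087133) (nat_lit 0) (nat_lit 1207499216) (nat_lit 588) (nat_lit 1207499216) (nat_lit 132) (nat_lit 1) (nat_lit 124) (nat_lit 1) (nat_lit 131) (nat_lit 1) (nat_lit 263) (nat_lit 254) (nat_lit 203))))))) (XT.nd (nat_lit 41360) (nat_lit 0) (nat_lit 10836) (XT.nd (nat_lit 40702) (nat_lit 0) (nat_lit 14112) (XT.nd (nat_lit 40326) (nat_lit 0) (nat_lit 13944) (XT.nd (nat_lit 40138) (nat_lit 0) (nat_lit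 13860) (XT.lf (nat_lit 84) (nat_lit 169863294) (nat_lit 0) (nat_lit 2948628850) (nat_lit 672) (nat_lit 169863294) (nat_lit 125) (nat_lit 1) (nat_lit 124) (nat_lit 1) (nat_lit 132) (nat_lit 1) (nat_lit 264) (nat_lit 254) (nat_lit 202)) (XT.nd (nat_lit 94) (nat_lit 0) (nat_lit 0) (XT.lf (nat_lit 1932) (nat_lit 1075629557) (nat_lit 0) (nat_lit 661130538) (nat_lit 1932) (nat_lit 1075629557) (nat_lit 312) (nat_lit 1) (nat_lit 289) (nat_lit 0) (nat_lit 312) (nat_lit 0) (nat_lit 210) (nat_lit 255) (nat_lit 255)) (XT.lf (nat_lit 1932) (nat_lit 4251431114) (nat_lit 84) (nat_lit 656352327) (nat_lit 0) (nat_lit 656352327) (nat_lit 312) (nat_lit 1) (nat_lit 290) (nat_lit 1) (nat_lit 289) (nat_lit 0) (nat_lit 211) (nat_lit 255) (nat_lit 254)))) (XT.nd (nat_lit 188) (nat_lit 0) (nat_lit 84) (XT.nd (nat_lit 94) (nat_lit 0) (nat_lit 0) (XT.lf (nat_lit 1932) (nat_lit 2085246764) (nat_lit 0) (nat_lit 1333637897) (nat_lit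 1848) (nat_lit 2085246764) (nat_lit 313) (nat_lit 1) (nat_lit 290) (nat_lit 1) (nat_lit 312) (nat_lit 1) (nat_lit 212) (nat_lit 255) (nat_lit 253)) (XT.lf (nat_lit 1932) (nat_lit 4081659595) (nat_lit 84) (nat_lit 681775840) (nat_lit 0) (nat_lit 681775840) (nat_lit 313) (nat_lit 1) (nat_lit 291) (nat_lit 1) (nat_lit 290) (nat_lit 1) (nat_lit 213) (nat_lit 255) (nat_lit 252))) (XT.nd (nat_lit 94) (nat_lit 0) (nat_lit 0) (XT.lf (nat_lit 1932) (nat_lit 1982511836) (nat_lit 0) (nat_lit 1421896150) (nat_lit 1848) (nat_lit 1982511836) (nat_lit 314) (nat_lit 1) (nat_lit 291) (nat_lit 1) (nat_lit 313) (nat_lit 1) (nat_lit 214) (nat_lit 255) (nat_lit 251)) (XT.lf (nat_lit 1932) (nat_lit 3840621987) (nat_lit 84) (nat_lit 744519986) (nat_lit 0) (nat_lit 744519986) (nat_lit 314) (nat_lit 1) (nat_lit 292) (nat_lit 1) (nat_lit 291) (nat_lit 1) (nat_lit 215) (nat_lit 255) (nat_lit 250))))) (XT.nd (nat_lit 282) (nat_lit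 0) (nat_lit 84) (XT.nd (nat_lit 94) (nat_lit 0) (nat_lit 0) (XT.lf (nat_lit 1932) (nat_lit 1845469349) (nat_lit 0) (nat_lit 1582096086) (nat_lit 1848) (nat_lit 1845469349) (nat_lit 315) (nat_lit 1) (nat_lit 292) (nat_lit 1) (nat_lit 314) (nat_lit 1) (nat_lit 216) (nat_lit 255) (nat_lit 249)) (XT.nd (nat_lit 94) (nat_lit 0) (nat_lit 84) (XT.lf (nat_lit 1932) (nat_lit 3533043223) (nat_lit 84) (nat_lit 842168614) (nat_lit 0) (nat_lit 842168614) (nat_lit 315) (nat_lit 1) (nat_lit 293) (nat_lit 1) (nat_lit 292) (nat_lit 1) (nat_lit 217) (nat_lit 255) (nat_lit 248)) (XT.lf (nat_lit 1932) (nat_lit 1676413151) (nat_lit 0) (nat_lit 1809544184) (nat_lit 1848) (nat_lit 1676413151) (nat_lit 316) (nat_lit 1) (nat_lit 293) (nat_lit 1) (nat_lit 315) (nat_lit 1) (nat_lit 218) (nat_lit 255) (nat_lit 247)))) (XT.nd (nat_lit 188) (nat_lit 0) (nat_lit 84) (XT.nd (nat_lit 94) (nat_lit 0) (nat_lit 84) (XT.lf (nat_lit 1932)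 (nat_lit 3163410630) (nat_lit 84) (nat_lit 972426267) (nat_lit 0) (nat_lit 972426267) (nat_lit 316) (nat_lit 1) (nat_lit 294) (nat_lit 1) (nat_lit 293) (nat_lit 1) (nat_lit 219) (nat_lit 255) (nat_lit 246)) (XT.lf (nat_lit 1932) (nat_lit 1477521468) (nat_lit 0) (nat_lit 2099781901) (nat_lit 1848) (nat_lit 1477521468) (nat_lit 317) (nat_lit 1) (nat_lit 294) (nat_lit 1) (nat_lit 316) (nat_lit 1) (nat_lit 220) (nat_lit 255) (nat_lit 245))) (XT.nd (nat_lit 94) (nat_lit 0) (nat_lit 84) (XT.lf (nat_lit 1932) (nat_lit 2735984831) (nat_lit 84) (nat_lit 1133112666) (nat_lit 0) (nat_lit 1133112666) (nat_lit 317) (nat_lit 1) (nat_lit 295) (nat_lit 1) (nat_lit 294) (nat_lit 1) (nat_lit 221) (nat_lit 255) (nat_lit 244)) (XT.lf (nat_lit 1932) (nat_lit 1250862219) (nat_lit 0) (nat_lit 2448574900) (nat_lit 1848) (nat_lit 1250862219) (nat_lit 318) (nat_lit 1) (nat_lit 295) (nat_lit 1) (nat_lit 317) (nat_lit 1) (nat_lit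 222) (nat_lit 255) (nat_lit 243)))))) (XT.nd (nat_lit 658) (nat_lit 3528) (nat_lit 0) (XT.nd (nat_lit 282) (nat_lit 0) (nat_lit 168) (XT.nd (nat_lit 94) (nat_lit 0) (nat_lit 84) (XT.lf (nat_lit 1932) (nat_lit 2254810167) (nat_lit 84) (nat_lit 1322157426) (nat_lit 0) (nat_lit 1322157426) (nat_lit 318) (nat_lit 1) (nat_lit 296) (nat_lit 1) (nat_lit 295) (nat_lit 1) (nat_lit 223) (nat_lit 255) (nat_lit 242)) (XT.nd (nat_lit 94) (nat_lit 0) (nat_lit 0) (XT.lf (nat_lit 1932) (nat_lit 998398088) (nat_lit 0) (nat_lit 2851902769) (nat_lit 1848) (nat_lit 998398088) (nat_lit 319) (nat_lit 1) (nat_lit 296) (nat_lit 1) (nat_lit 318) (nat_lit 1) (nat_lit 224) (nat_lit 255) (nat_lit 241)) (XT.lf (nat_lit 1932) (nat_lit 1723724656) (nat_lit 84) (nat_lit 1537595008) (nat_lit 0) (nat_lit 1537595008) (nat_lit 319) (nat_lit 1) (nat_lit 297) (nat_lit 1) (nat_lit 296) (nat_lit 1) (nat_lit 225) (nat_lit 255) (nat_lit 240))))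 (XT.nd (nat_lit 188) (nat_lit 0) (nat_lit 84) (XT.nd (nat_lit 94) (nat_lit 0) (nat_lit 0) (XT.lf (nat_lit 1932) (nat_lit 721991381) (nat_lit 0) (nat_lit 3305949186) (nat_lit 1848) (nat_lit 721991381) (nat_lit 320) (nat_lit 1) (nat_lit 297) (nat_lit 1) (nat_lit 319) (nat_lit 1) (nat_lit 226) (nat_lit 255) (nat_lit 239)) (XT.lf (nat_lit 1932) (nat_lit 1146369515) (nat_lit 84) (nat_lit 1777559898) (nat_lit 0) (nat_lit 1777559898) (nat_lit 320) (nat_lit 1) (nat_lit 298) (nat_lit 1) (nat_lit 297) (nat_lit 1) (nat_lit 227) (nat_lit 255) (nat_lit 238))) (XT.nd (nat_lit 94) (nat_lit 0) (nat_lit 0) (XT.lf (nat_lit 1932) (nat_lit 423408653) (nat_lit 0) (nat_lit 3807092516) (nat_lit 1848) (nat_lit 423408653) (nat_lit 321) (nat_lit 1) (nat_lit 298) (nat_lit 1) (nat_lit 320) (nat_lit 1) (nat_lit 228) (nat_lit 255) (nat_lit 237)) (XT.lf (nat_lit 1932) (nat_lit 526198260) (nat_lit 84) (nat_lit 2040281993) (nat_lit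 0) (nat_lit 2040281993) (nat_lit 321) (nat_lit 1) (nat_lit 299) (nat_lit 1) (nat_lit 298) (nat_lit 1) (nat_lit 229) (nat_lit 255) (nat_lit 236))))) (XT.nd (nat_lit 376) (nat_lit 1932) (nat_lit 0) (XT.nd (nat_lit 188) (nat_lit 0) (nat_lit 0) (XT.nd (nat_lit 94) (nat_lit 1932) (nat_lit 0) (XT.lf (nat_lit 1932) (nat_lit 104325149) (nat_lit 0) (nat_lit 4351896830) (nat_lit 1848) (nat_lit 104325149) (nat_lit 322) (nat_lit 1) (nat_lit 299) (nat_lit 1) (nat_lit 321) (nat_lit 1) (nat_lit 230) (nat_lit 255) (nat_lit 235)) (XT.lf (nat_lit 2016) (nat_lit 2191518655) (nat_lit 0) (nat_lit 131591561) (nat_lit 1932) (nat_lit 2191518655) (nat_lit 300) (nat_lit 1) (nat_lit 276) (nat_lit 1) (nat_lit 299) (nat_lit 1) (nat_lit 231) (nat_lit 255) (nat_lit 234))) (XT.nd (nat_lit 94) (nat_lit 0) (nat_lit 84) (XT.lf (nat_lit 2016) (nat_lit 4005650080) (nat_lit 84) (nat_lit 231982146) (nat_lit 0) (nat_lit 231982146) (nat_lit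 300) (nat_lit 1) (nat_lit 277) (nat_lit 1) (nat_lit 276) (nat_lit 1) (nat_lit 232) (nat_lit 255) (nat_lit 233)) (XT.lf (nat_lit 84) (nat_lit 1803612862) (nat_lit 0) (nat_lit 817715420) (nat_lit 1932) (nat_lit 1803612862) (nat_lit 278) (nat_lit 1) (nat_lit 277) (nat_lit 1) (nat_lit 300) (nat_lit 1) (nat_lit 233) (nat_lit 255) (nat_lit 232)))) (XT.nd (nat_lit 188) (nat_lit 924) (nat_lit 0) (XT.nd (nat_lit 94) (nat_lit 0) (nat_lit 0) (XT.lf (nat_lit 1176) (nat_lit 3211468118) (nat_lit 0) (nat_lit 584817117) (nat_lit 1092) (nat_lit 584817117) (nat_lit 278) (nat_lit 1) (nat_lit 264) (nat_lit 1) (nat_lit 277) (nat_lit 1) (nat_lit 234) (nat_lit 255) (nat_lit 231)) (XT.lf (nat_lit 84) (nat_lit 1400425218) (nat_lit 0) (nat_lit 1536853543) (nat_lit 1176) (nat_lit 1400425218) (nat_lit 265) (nat_lit 1) (nat_lit 264) (nat_lit 1) (nat_lit 278) (nat_lit 1) (nat_lit 235) (nat_lit 255) (nat_lit 230))) (XT.nd (nat_lit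 94) (nat_lit 0) (nat_lit 0) (XT.lf (nat_lit 1008) (nat_lit 2387964532) (nat_lit 0) (nat_lit 953518092) (nat_lit 924) (nat_lit 953518092) (nat_lit 265) (nat_lit 1) (nat_lit 253) (nat_lit 1) (nat_lit 264) (nat_lit 1) (nat_lit 236) (nat_lit 255) (nat_lit 229)) (XT.lf (nat_lit 84) (nat_lit 983291164) (nat_lit 0) (nat_lit 2286260154) (nat_lit 1008) (nat_lit 983291164) (nat_lit 254) (nat_lit 1) (nat_lit 253) (nat_lit 1) (nat_lit 265) (nat_lit 1) (nat_lit 237) (nat_lit 255) (nat_lit 228))))))))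
noncomputable def ec15 : XT := (XT.nd (nat_lit 42582) (nat_lit 0) (nat_lit 10332) (XT.nd (nat_lit 1316) (nat_lit 5376) (nat_lit 0) (XT.nd (nat_lit 658) (nat_lit 3192) (nat_lit 0) (XT.nd (nat_lit 282) (nat_lit 1764) (nat_lit 0) (XT.nd (nat_lit 94) (nat_lit 840) (nat_lit 0) (XT.lf (nat_lit 1008) (nat_lit 1537747411) (nat_lit 0) (nat_lit 1336744329) (nat_lit 924) (nat_lit 1336744329) (nat_lit 254) (nat_lit 1) (nat_lit 242) (nat_lit 1) (nat_lit 253) (nat_lit 1) (nat_lit 238) (nat_lit 255) (nat_lit 227)) (XT.nd (nat_lit 94) (nat_lit 840) (nat_lit 0) (XT.lf (nat_lit 84) (nat_lit 553474527) (nat_lit 0) (nat_lit 3063335257) (nat_lit 1008) (nat_lit 553474527) (nat_lit 243) (nat_lit 1) (nat_lit 242) (nat_lit 1) (nat_lit 254) (nat_lit 1) (nat_lit 239) (nat_lit 255) (nat_lit 226)) (XT.lf (nat_lit 924) (nat_lit 663284500) (nat_lit 0) (nat_lit 1733226504) (nat_lit 840) (nat_lit 1733226504) (nat_lit 243) (nat_lit 1)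 (nat_lit 232) (nat_lit 1) (nat_lit 242) (nat_lit 1) (nat_lit 240) (nat_lit 255) (nat_lit 225)))) (XT.nd (nat_lit 188) (nat_lit 840) (nat_lit 0) (XT.nd (nat_lit 94) (nat_lit 924) (nat_lit 0) (XT.lf (nat_lit 84) (nat_lit 112170890) (nat_lit 0) (nat_lit 3865617809) (nat_lit 924) (nat_lit 112170890) (nat_lit 233) (nat_lit 1) (nat_lit 232) (nat_lit 1) (nat_lit 243) (nat_lit 1) (nat_lit 241) (nat_lit 255) (nat_lit 224)) (XT.lf (nat_lit 84) (nat_lit 1910333536) (nat_lit 0) (nat_lit 229732939) (nat_lit 924) (nat_lit 1910333536) (nat_lit 222) (nat_lit 1) (nat_lit 221) (nat_lit 1) (nat_lit 232) (nat_lit 1) (nat_lit 242) (nat_lit 255) (nat_lit 223))) (XT.nd (nat_lit 94) (nat_lit 0) (nat_lit 0) (XT.lf (nat_lit 924) (nat_lit 3337516032) (nat_lit 0) (nat_lit 337035591) (nat_lit 840) (nat_lit 337035591) (nat_lit 222) (nat_lit 1) (nat_lit 211) (nat_lit 1) (nat_lit 221) (nat_lit 1) (nat_lit 243) (nat_lit 255) (nat_lit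 222)) (XT.lf (nat_lit 84) (nat_lit 1420234281) (nat_lit 0) (nat_lit 1132618327) (nat_lit 924) (nat_lit 1420234281) (nat_lit 212) (nat_lit 1) (nat_lit 211) (nat_lit 1) (nat_lit 222) (nat_lit 1) (nat_lit 244) (nat_lit 255) (nat_lit 221))))) (XT.nd (nat_lit 282) (nat_lit 1596) (nat_lit 0) (XT.nd (nat_lit 94) (nat_lit 756) (nat_lit 0) (XT.lf (nat_lit 924) (nat_lit 2345934937) (nat_lit 0) (nat_lit 794652096) (nat_lit 840) (nat_lit 794652096) (nat_lit 212) (nat_lit 1) (nat_lit 201) (nat_lit 1) (nat_lit 211) (nat_lit 1) (nat_lit 245) (nat_lit 255) (nat_lit 220)) (XT.nd (nat_lit 94) (nat_lit 756) (nat_lit 0) (XT.lf (nat_lit 84) (nat_lit 922484283) (nat_lit 0) (nat_lit 2052869895) (nat_lit 924) (nat_lit 922484283) (nat_lit 202) (nat_lit 1) (nat_lit 201) (nat_lit 1) (nat_lit 212) (nat_lit 1) (nat_lit 246) (nat_lit 255) (nat_lit 219)) (XT.lf (nat_lit 840) (nat_lit 1339949435) (nat_lit 0) (nat_lit 1260487039) (nat_lit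 756) (nat_lit 1260487039) (nat_lit 202) (nat_lit 1) (nat_lit 192) (nat_lit 1) (nat_lit 201) (nat_lit 1) (nat_lit 247) (nat_lit 255) (nat_lit 218)))) (XT.nd (nat_lit 188) (nat_lit 840) (nat_lit 0) (XT.nd (nat_lit 94) (nat_lit 756) (nat_lit 0) (XT.lf (nat_lit 84) (nat_lit 418023398) (nat_lit 0) (nat_lit 2988546431) (nat_lit 840) (nat_lit 418023398) (nat_lit 193) (nat_lit 1) (nat_lit 192) (nat_lit 1) (nat_lit 202) (nat_lit 1) (nat_lit 248) (nat_lit 255) (nat_lit 217)) (XT.lf (nat_lit 840) (nat_lit 321392157) (nat_lit 0) (nat_lit 1733593945) (nat_lit 756) (nat_lit 1733593945) (nat_lit 193) (nat_lit 1) (nat_lit 183) (nat_lit 1) (nat_lit 192) (nat_lit 1) (nat_lit 249) (nat_lit 255) (nat_lit 216))) (XT.nd (nat_lit 94) (nat_lit 0) (nat_lit 0) (XT.lf (nat_lit 840) (nat_lit 3570043775) (nat_lit 0) (nat_lit 91594957) (nat_lit 756) (nat_lit 91594957) (nat_lit 183) (nat_lit 1) (nat_lit 173) (nat_lit 1) (nat_lit 182)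 (nat_lit 1) (nat_lit 250) (nat_lit 255) (nat_lit 215)) (XT.lf (nat_lit 84) (nat_lit 1510114241) (nat_lit 0) (nat_lit 697810983) (nat_lit 840) (nat_lit 1510114241) (nat_lit 174) (nat_lit 1) (nat_lit 173) (nat_lit 1) (nat_lit 183) (nat_lit 1) (nat_lit 251) (nat_lit 255) (nat_lit 214)))))) (XT.nd (nat_lit 658) (nat_lit 2520) (nat_lit 0) (XT.nd (nat_lit 282) (nat_lit 1428) (nat_lit 0) (XT.nd (nat_lit 94) (nat_lit 672) (nat_lit 0) (XT.lf (nat_lit 840) (nat_lit 2477205431) (nat_lit 0) (nat_lit 603144425) (nat_lit 756) (nat_lit 603144425) (nat_lit 174) (nat_lit 1) (nat_lit 164) (nat_lit 1) (nat_lit 173) (nat_lit 1) (nat_lit 252) (nat_lit 255) (nat_lit 213)) (XT.nd (nat_lit 94) (nat_lit 672) (nat_lit 0) (XT.lf (nat_lit 84) (nat_lit 963918898) (nat_lit 0) (nat_lit 1721466728) (nat_lit 840) (nat_lit 963918898) (nat_lit 165) (nat_lit 1) (nat_lit 164) (nat_lit 1) (nat_lit 174) (nat_lit 1) (nat_lit 253) (nat_lit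 255) (nat_lit 212)) (XT.lf (nat_lit 756) (nat_lit 1377854469) (nat_lit 0) (nat_lit 1118864230) (nat_lit 672) (nat_lit 1118864230) (nat_lit 165) (nat_lit 1) (nat_lit 156) (nat_lit 1) (nat_lit 164) (nat_lit 1) (nat_lit 254) (nat_lit 255) (nat_lit 211)))) (XT.nd (nat_lit 188) (nat_lit 756) (nat_lit 0) (XT.nd (nat_lit 94) (nat_lit 672) (nat_lit 0) (XT.lf (nat_lit 84) (nat_lit 414839802) (nat_lit 0) (nat_lit 2752691710) (nat_lit 756) (nat_lit 414839802) (nat_lit 157) (nat_lit 1) (nat_lit 156) (nat_lit 1) (nat_lit 165) (nat_lit 1) (nat_lit 255) (nat_lit 255) (nat_lit 210)) (XT.lf (nat_lit 756) (nat_lit 273410364) (nat_lit 0) (nat_lit 1638018001) (nat_lit 672) (nat_lit 1638018001) (nat_lit 157) (nat_lit 1) (nat_lit 148) (nat_lit 1) (nat_lit 156) (nat_lit 1) (nat_lit 256) (nat_lit 255) (nat_lit 209))) (XT.nd (nat_lit 94) (nat_lit 0) (nat_lit 0) (XT.lf (nat_lit 756) (nat_lit 3246198839) (nat_lit 0) (nat_lit 135451324)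 (nat_lit 672) (nat_lit 135451324) (nat_lit 148) (nat_lit 1) (nat_lit 139) (nat_lit 1) (nat_lit 147) (nat_lit 1) (nat_lit 257) (nat_lit 255) (nat_lit 208)) (XT.lf (nat_lit 84) (nat_lit 1331066727) (nat_lit 0) (nat_lit 822768781) (nat_lit 756) (nat_lit 1331066727) (nat_lit 140) (nat_lit 1) (nat_lit 139) (nat_lit 1) (nat_lit 148) (nat_lit 1) (nat_lit 258) (nat_lit 255) (nat_lit 207))))) (XT.nd (nat_lit 376) (nat_lit 1260) (nat_lit 0) (XT.nd (nat_lit 188) (nat_lit 588) (nat_lit 0) (XT.nd (nat_lit 94) (nat_lit 0) (nat_lit 0) (XT.lf (nat_lit 756) (nat_lit 2084694484) (nat_lit 0) (nat_lit 684286815) (nat_lit 672) (nat_lit 684286815) (nat_lit 140) (nat_lit 1) (nat_lit 131) (nat_lit 1) (nat_lit 139) (nat_lit 1) (nat_lit 259) (nat_lit 255) (nat_lit 206)) (XT.lf (nat_lit 84) (nat_lit 752254620) (nat_lit 0) (nat_lit 1917479029) (nat_lit 756) (nat_lit 752254620) (nat_lit 132) (nat_lit 1) (nat_lit 131) (nat_lit 1)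 (nat_lit 140) (nat_lit 1) (nat_lit 260) (nat_lit 255) (nat_lit 205))) (XT.nd (nat_lit 94) (nat_lit 0) (nat_lit 0) (XT.lf (nat_lit 672) (nat_lit 922955050) (nat_lit 0) (nat_lit 1234064199) (nat_lit 588) (nat_lit 1234064199) (nat_lit 132) (nat_lit 1) (nat_lit 124) (nat_lit 1) (nat_lit 131) (nat_lit 1) (nat_lit 261) (nat_lit 255) (nat_lit 204)) (XT.lf (nat_lit 84) (nat_lit 173600287) (nat_lit 0) (nat_lit 3013498685) (nat_lit 672) (nat_lit 173600287) (nat_lit 125) (nat_lit 1) (nat_lit 124) (nat_lit 1) (nat_lit 132) (nat_lit 1) (nat_lit 262) (nat_lit 255) (nat_lit 203)))) (XT.nd (nat_lit 40044) (nat_lit 0) (nat_lit 15120) (XT.nd (nat_lit 94) (nat_lit 588) (nat_lit 0) (XT.lf (nat_lit 84) (nat_lit 1547975284) (nat_lit 0) (nat_lit 234512440) (nat_lit 672) (nat_lit 1547975284) (nat_lit 117) (nat_lit 1) (nat_lit 116) (nat_lit 1) (nat_lit 124) (nat_lit 1) (nat_lit 263) (nat_lit 255) (nat_lit 202)) (XT.lf (nat_lit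 672) (nat_lit 2497827927) (nat_lit 0) (nat_lit 401453176) (nat_lit 588) (nat_lit 401453176) (nat_lit 117) (nat_lit 1) (nat_lit 109) (nat_lit 1) (nat_lit 116) (nat_lit 1) (nat_lit 264) (nat_lit 255) (nat_lit 201))) (XT.nd (nat_lit 94) (nat_lit 0) (nat_lit 0) (XT.lf (nat_lit 1932) (nat_lit 1099293407) (nat_lit 0) (nat_lit 675675410) (nat_lit 1932) (nat_lit 1099293407) (nat_lit 312) (nat_lit 1) (nat_lit 289) (nat_lit 0) (nat_lit 312) (nat_lit 0) (nat_lit 208) (nat_lit 256) (nat_lit 256)) (XT.lf (nat_lit 1932) (nat_lit 4344962599) (nat_lit 84) (nat_lit 670792079) (nat_lit 0) (nat_lit 670792079) (nat_lit 312) (nat_lit 1) (nat_lit 290) (nat_lit 1) (nat_lit 289) (nat_lit 0) (nat_lit 209) (nat_lit 256) (nat_lit 255))))))) (XT.nd (nat_lit 1410) (nat_lit 4872) (nat_lit 0) (XT.nd (nat_lit 658) (nat_lit 0) (nat_lit 252) (XT.nd (nat_lit 282) (nat_lit 0) (nat_lit 84) (XT.nd (nat_lit 94) (nat_lit 0) (nat_lit 0) (XT.lf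 (nat_lit 1932) (nat_lit 2131122193) (nat_lit 0) (nat_lit 1362977931) (nat_lit 1848) (nat_lit 2131122193) (nat_lit 313) (nat_lit 1) (nat_lit 290) (nat_lit 1) (nat_lit 312) (nat_lit 1) (nat_lit 210) (nat_lit 256) (nat_lit 254)) (XT.nd (nat_lit 94) (nat_lit 0) (nat_lit 84) (XT.lf (nat_lit 1932) (nat_lit 4171456106) (nat_lit 84) (nat_lit 696774908) (nat_lit 0) (nat_lit 696774908) (nat_lit 313) (nat_lit 1) (nat_lit 291) (nat_lit 1) (nat_lit 290) (nat_lit 1) (nat_lit 211) (nat_lit 256) (nat_lit 253)) (XT.lf (nat_lit 1932) (nat_lit 2026127096) (nat_lit 0) (nat_lit 1453177866) (nat_lit 1848) (nat_lit 2026127096) (nat_lit 314) (nat_lit 1) (nat_lit 291) (nat_lit 1) (nat_lit 313) (nat_lit 1) (nat_lit 212) (nat_lit 256) (nat_lit 252)))) (XT.nd (nat_lit 188) (nat_lit 0) (nat_lit 84) (XT.nd (nat_lit 94) (nat_lit 0) (nat_lit 84) (XT.lf (nat_lit 1932) (nat_lit 3925115670) (nat_lit 84) (nat_lit 760899426) (nat_lit 0)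 (nat_lit 760899426) (nat_lit 314) (nat_lit 1) (nat_lit 292) (nat_lit 1) (nat_lit 291) (nat_lit 1) (nat_lit 213) (nat_lit 256) (nat_lit 251)) (XT.lf (nat_lit 1932) (nat_lit 1886069675) (nat_lit 0) (nat_lit 1616902200) (nat_lit 1848) (nat_lit 1886069675) (nat_lit 315) (nat_lit 1) (nat_lit 292) (nat_lit 1) (nat_lit 314) (nat_lit 1) (nat_lit 214) (nat_lit 256) (nat_lit 250))) (XT.nd (nat_lit 94) (nat_lit 0) (nat_lit 84) (XT.lf (nat_lit 1932) (nat_lit 3610770173) (nat_lit 84) (nat_lit 860696323) (nat_lit 0) (nat_lit 860696323) (nat_lit 315) (nat_lit 1) (nat_lit 293) (nat_lit 1) (nat_lit 292) (nat_lit 1) (nat_lit 215) (nat_lit 256) (nat_lit 249)) (XT.lf (nat_lit 1932) (nat_lit 1713294240) (nat_lit 0) (nat_lit 1849354156) (nat_lit 1848) (nat_lit 1713294240) (nat_lit 316) (nat_lit 1) (nat_lit 293) (nat_lit 1) (nat_lit 315) (nat_lit 1) (nat_lit 216) (nat_lit 256) (nat_lit 248))))) (XT.nd (nat_lit 376) (nat_lit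 0) (nat_lit 168) (XT.nd (nat_lit 188) (nat_lit 0) (nat_lit 84) (XT.nd (nat_lit 94) (nat_lit 0) (nat_lit 84) (XT.lf (nat_lit 1932) (nat_lit 3233005664) (nat_lit 84) (nat_lit 993819645) (nat_lit 0) (nat_lit 993819645) (nat_lit 316) (nat_lit 1) (nat_lit 294) (nat_lit 1) (nat_lit 293) (nat_lit 1) (nat_lit 217) (nat_lit 256) (nat_lit 247)) (XT.lf (nat_lit 1932) (nat_lit 1510026940) (nat_lit 0) (nat_lit 2145977102) (nat_lit 1848) (nat_lit 1510026940) (nat_lit 317) (nat_lit 1) (nat_lit 294) (nat_lit 1) (nat_lit 316) (nat_lit 1) (nat_lit 218) (nat_lit 256) (nat_lit 246))) (XT.nd (nat_lit 94) (nat_lit 0) (nat_lit 84) (XT.lf (nat_lit 1932) (nat_lit 2796176497) (nat_lit 84) (nat_lit 1158041145) (nat_lit 0) (nat_lit 1158041145) (nat_lit 317) (nat_lit 1) (nat_lit 295) (nat_lit 1) (nat_lit 294) (nat_lit 1) (nat_lit 219) (nat_lit 256) (nat_lit 245)) (XT.lf (nat_lit 1932) (nat_lit 1278381187) (nat_lit 0) (nat_lit 2502443548)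 (nat_lit 1848) (nat_lit 1278381187) (nat_lit 318) (nat_lit 1) (nat_lit 295) (nat_lit 1) (nat_lit 317) (nat_lit 1) (nat_lit 220) (nat_lit 256) (nat_lit 244)))) (XT.nd (nat_lit 188) (nat_lit 0) (nat_lit 84) (XT.nd (nat_lit 94) (nat_lit 0) (nat_lit 84) (XT.lf (nat_lit 1932) (nat_lit 2304415991) (nat_lit 84) (nat_lit 1351244889) (nat_lit 0) (nat_lit 1351244889) (nat_lit 318) (nat_lit 1) (nat_lit 296) (nat_lit 1) (nat_lit 295) (nat_lit 1) (nat_lit 221) (nat_lit 256) (nat_lit 243)) (XT.lf (nat_lit 1932) (nat_lit 1020362846) (nat_lit 0) (nat_lit 2914644630) (nat_lit 1848) (nat_lit 1020362846) (nat_lit 319) (nat_lit 1) (nat_lit 296) (nat_lit 1) (nat_lit 318) (nat_lit 1) (nat_lit 222) (nat_lit 256) (nat_lit 242))) (XT.nd (nat_lit 94) (nat_lit 0) (nat_lit 84) (XT.lf (nat_lit 1932) (nat_lit 1761646598) (nat_lit 84) (nat_lit 1571422098) (nat_lit 0) (nat_lit 1571422098) (nat_lit 319) (nat_lit 1) (nat_lit 297) (nat_lit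 1) (nat_lit 296) (nat_lit 1) (nat_lit 223) (nat_lit 256) (nat_lit 241)) (XT.lf (nat_lit 1932) (nat_lit 737875191) (nat_lit 0) (nat_lit 3378680068) (nat_lit 1848) (nat_lit 737875191) (nat_lit 320) (nat_lit 1) (nat_lit 297) (nat_lit 1) (nat_lit 319) (nat_lit 1) (nat_lit 224) (nat_lit 256) (nat_lit 240)))))) (XT.nd (nat_lit 658) (nat_lit 3696) (nat_lit 0) (XT.nd (nat_lit 282) (nat_lit 1764) (nat_lit 0) (XT.nd (nat_lit 94) (nat_lit 0) (nat_lit 84) (XT.lf (nat_lit 1932) (nat_lit 1171589644) (nat_lit 84) (nat_lit 1816666216) (nat_lit 0) (nat_lit 1816666216) (nat_lit 320) (nat_lit 1) (nat_lit 298) (nat_lit 1) (nat_lit 297) (nat_lit 1) (nat_lit 225) (nat_lit 256) (nat_lit 239)) (XT.nd (nat_lit 94) (nat_lit 0) (nat_lit 0) (XT.lf (nat_lit 1932) (nat_lit 432723643) (nat_lit 0) (nat_lit 3890848551) (nat_lit 1848) (nat_lit 432723643) (nat_lit 321) (nat_lit 1) (nat_lit 298) (nat_lit 1) (nat_lit 320) (nat_lit 1) (nat_lit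 226) (nat_lit 256) (nat_lit 238)) (XT.lf (nat_lit 1932) (nat_lit 537774622) (nat_lit 84) (nat_lit 2085168197) (nat_lit 0) (nat_lit 2085168197) (nat_lit 321) (nat_lit 1) (nat_lit 299) (nat_lit 1) (nat_lit 298) (nat_lit 1) (nat_lit 227) (nat_lit 256) (nat_lit 237)))) (XT.nd (nat_lit 188) (nat_lit 0) (nat_lit 0) (XT.nd (nat_lit 94) (nat_lit 1932) (nat_lit 0) (XT.lf (nat_lit 1932) (nat_lit 106620302) (nat_lit 0) (nat_lit 4447638560) (nat_lit 1848) (nat_lit 106620302) (nat_lit 322) (nat_lit 1) (nat_lit 299) (nat_lit 1) (nat_lit 321) (nat_lit 1) (nat_lit 228) (nat_lit 256) (nat_lit 236)) (XT.lf (nat_lit 2016) (nat_lit 2239732065) (nat_lit 0) (nat_lit 134486575) (nat_lit 1932) (nat_lit 2239732065) (nat_lit 300) (nat_lit 1) (nat_lit 276) (nat_lit 1) (nat_lit 299) (nat_lit 1) (nat_lit 229) (nat_lit 256) (nat_lit 235))) (XT.nd (nat_lit 94) (nat_lit 0) (nat_lit 84) (XT.lf (nat_lit 2016) (nat_lit 4093774382) (nat_lit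 84) (nat_lit 237085753) (nat_lit 0) (nat_lit 237085753) (nat_lit 300) (nat_lit 1) (nat_lit 277) (nat_lit 1) (nat_lit 276) (nat_lit 1) (nat_lit 230) (nat_lit 256) (nat_lit 234)) (XT.lf (nat_lit 84) (nat_lit 1843292345) (nat_lit 0) (nat_lit 835705160) (nat_lit 1932) (nat_lit 1843292345) (nat_lit 278) (nat_lit 1) (nat_lit 277) (nat_lit 1) (nat_lit 300) (nat_lit 1) (nat_lit 231) (nat_lit 256) (nat_lit 233))))) (XT.nd (nat_lit 376) (nat_lit 1764) (nat_lit 0) (XT.nd (nat_lit 188) (nat_lit 924) (nat_lit 0) (XT.nd (nat_lit 94) (nat_lit 0) (nat_lit 0) (XT.lf (nat_lit 1176) (nat_lit 3282120416) (nat_lit 0) (nat_lit 597683094) (nat_lit 1092) (nat_lit 597683094) (nat_lit 278) (nat_lit 1) (nat_lit 264) (nat_lit 1) (nat_lit 277) (nat_lit 1) (nat_lit 232) (nat_lit 256) (nat_lit 232)) (XT.lf (nat_lit 84) (nat_lit 1431234573) (nat_lit 0) (nat_lit 1570664321) (nat_lit 1176) (nat_lit 1431234573) (nat_lit 265) (nat_lit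 1) (nat_lit 264) (nat_lit 1) (nat_lit 278) (nat_lit 1) (nat_lit 233) (nat_lit 256) (nat_lit 231))) (XT.nd (nat_lit 94) (nat_lit 0) (nat_lit 0) (XT.lf (nat_lit 1008) (nat_lit 2440499752) (nat_lit 0) (nat_lit 974495490) (nat_lit 924) (nat_lit 974495490) (nat_lit 265) (nat_lit 1) (nat_lit 253) (nat_lit 1) (nat_lit 264) (nat_lit 1) (nat_lit 234) (nat_lit 256) (nat_lit 230)) (XT.lf (nat_lit 84) (nat_lit 1004923569) (nat_lit 0) (nat_lit 2336557877) (nat_lit 1008) (nat_lit 1004923569) (nat_lit 254) (nat_lit 1) (nat_lit 253) (nat_lit 1) (nat_lit 265) (nat_lit 1) (nat_lit 235) (nat_lit 256) (nat_lit 229)))) (XT.nd (nat_lit 188) (nat_lit 840) (nat_lit 0) (XT.nd (nat_lit 94) (nat_lit 0) (nat_lit 0) (XT.lf (nat_lit 1008) (nat_lit 1571577854) (nat_lit 0) (nat_lit 1366152704) (nat_lit 924) (nat_lit 1366152704) (nat_lit 254) (nat_lit 1) (nat_lit 242) (nat_lit 1) (nat_lit 253) (nat_lit 1) (nat_lit 236) (nat_lit 256)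 (nat_lit 228)) (XT.lf (nat_lit 84) (nat_lit 565650966) (nat_lit 0) (nat_lit 3130728633) (nat_lit 1008) (nat_lit 565650966) (nat_lit 243) (nat_lit 1) (nat_lit 242) (nat_lit 1) (nat_lit 254) (nat_lit 1) (nat_lit 237) (nat_lit 256) (nat_lit 227))) (XT.nd (nat_lit 94) (nat_lit 0) (nat_lit 0) (XT.lf (nat_lit 924) (nat_lit 677876759) (nat_lit 0) (nat_lit 1771357487) (nat_lit 840) (nat_lit 1771357487) (nat_lit 243) (nat_lit 1) (nat_lit 232) (nat_lit 1) (nat_lit 242) (nat_lit 1) (nat_lit 238) (nat_lit 256) (nat_lit 226)) (XT.lf (nat_lit 84) (nat_lit 114638649) (nat_lit 0) (nat_lit 3950661401) (nat_lit 924) (nat_lit 114638649) (nat_lit 233) (nat_lit 1) (nat_lit 232) (nat_lit 1) (nat_lit 243) (nat_lit 1) (nat_lit 239) (nat_lit 256) (nat_lit 225))))))))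
noncomputable def ec16 : XT := (XT.nd (nat_lit 42488) (nat_lit 0) (nat_lit 8568) (XT.nd (nat_lit 1316) (nat_lit 3948) (nat_lit 0) (XT.nd (nat_lit 658) (nat_lit 3024) (nat_lit 0) (XT.nd (nat_lit 282) (nat_lit 1596) (nat_lit 0) (XT.nd (nat_lit 94) (nat_lit 840) (nat_lit 0) (XT.lf (nat_lit 84) (nat_lit 1952360874) (nat_lit 0) (nat_lit 234787064) (nat_lit 924) (nat_lit 1952360874) (nat_lit 222) (nat_lit 1) (nat_lit 221) (nat_lit 1) (nat_lit 232) (nat_lit 1) (nat_lit 240) (nat_lit 256) (nat_lit 224)) (XT.nd (nat_lit 94) (nat_lit 0) (nat_lit 0) (XT.lf (nat_lit 924) (nat_lit 3410941384) (nat_lit 0) (nat_lit 344450374) (nat_lit 840) (nat_lit 344450374) (nat_lit 222) (nat_lit 1) (nat_lit 211) (nat_lit 1) (nat_lit 221) (nat_lit 1) (nat_lit 241) (nat_lit 256) (nat_lit 223)) (XT.lf (nat_lit 84) (nat_lit 1451479435) (nat_lit 0) (nat_lit 1157535930) (nat_lit 924) (nat_lit 1451479435) (nat_lit 212) (nat_lit 1) (nat_lit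 211) (nat_lit 1) (nat_lit 222) (nat_lit 1) (nat_lit 242) (nat_lit 256) (nat_lit 222)))) (XT.nd (nat_lit 188) (nat_lit 756) (nat_lit 0) (XT.nd (nat_lit 94) (nat_lit 0) (nat_lit 0) (XT.lf (nat_lit 924) (nat_lit 2397545505) (nat_lit 0) (nat_lit 812134442) (nat_lit 840) (nat_lit 812134442) (nat_lit 212) (nat_lit 1) (nat_lit 201) (nat_lit 1) (nat_lit 211) (nat_lit 1) (nat_lit 243) (nat_lit 256) (nat_lit 221)) (XT.lf (nat_lit 84) (nat_lit 942778937) (nat_lit 0) (nat_lit 2098033032) (nat_lit 924) (nat_lit 942778937) (nat_lit 202) (nat_lit 1) (nat_lit 201) (nat_lit 1) (nat_lit 212) (nat_lit 1) (nat_lit 244) (nat_lit 256) (nat_lit 220))) (XT.nd (nat_lit 94) (nat_lit 0) (nat_lit 0) (XT.lf (nat_lit 840) (nat_lit 1369428322) (nat_lit 0) (nat_lit 1288217754) (nat_lit 756) (nat_lit 1288217754) (nat_lit 202) (nat_lit 1) (nat_lit 192) (nat_lit 1) (nat_lit 201) (nat_lit 1) (nat_lit 245) (nat_lit 256) (nat_lit 219)) (XT.lf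 (nat_lit 84) (nat_lit 427219912) (nat_lit 0) (nat_lit 3054294452) (nat_lit 840) (nat_lit 427219912) (nat_lit 193) (nat_lit 1) (nat_lit 192) (nat_lit 1) (nat_lit 202) (nat_lit 1) (nat_lit 246) (nat_lit 256) (nat_lit 218))))) (XT.nd (nat_lit 282) (nat_lit 1428) (nat_lit 0) (XT.nd (nat_lit 94) (nat_lit 840) (nat_lit 0) (XT.lf (nat_lit 840) (nat_lit 328462785) (nat_lit 0) (nat_lit 1771733011) (nat_lit 756) (nat_lit 1771733011) (nat_lit 193) (nat_lit 1) (nat_lit 183) (nat_lit 1) (nat_lit 192) (nat_lit 1) (nat_lit 247) (nat_lit 256) (nat_lit 217)) (XT.nd (nat_lit 94) (nat_lit 0) (nat_lit 0) (XT.lf (nat_lit 840) (nat_lit 3648584738) (nat_lit 0) (nat_lit 93610046) (nat_lit 756) (nat_lit 93610046) (nat_lit 183) (nat_lit 1) (nat_lit 173) (nat_lit 1) (nat_lit 182) (nat_lit 1) (nat_lit 248) (nat_lit 256) (nat_lit 216)) (XT.lf (nat_lit 84) (nat_lit 1543336754) (nat_lit 0) (nat_lit 713162824) (nat_lit 840) (nat_lit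 1543336754) (nat_lit 174) (nat_lit 1) (nat_lit 173) (nat_lit 1) (nat_lit 183) (nat_lit 1) (nat_lit 249) (nat_lit 256) (nat_lit 215)))) (XT.nd (nat_lit 188) (nat_lit 672) (nat_lit 0) (XT.nd (nat_lit 94) (nat_lit 0) (nat_lit 0) (XT.lf (nat_lit 840) (nat_lit 2531703950) (nat_lit 0) (nat_lit 616413602) (nat_lit 756) (nat_lit 616413602) (nat_lit 174) (nat_lit 1) (nat_lit 164) (nat_lit 1) (nat_lit 173) (nat_lit 1) (nat_lit 250) (nat_lit 256) (nat_lit 214)) (XT.lf (nat_lit 84) (nat_lit 985125114) (nat_lit 0) (nat_lit 1759338996) (nat_lit 840) (nat_lit 985125114) (nat_lit 165) (nat_lit 1) (nat_lit 164) (nat_lit 1) (nat_lit 174) (nat_lit 1) (nat_lit 251) (nat_lit 256) (nat_lit 213))) (XT.nd (nat_lit 94) (nat_lit 0) (nat_lit 0) (XT.lf (nat_lit 756) (nat_lit 1408167267) (nat_lit 0) (nat_lit 1143479243) (nat_lit 672) (nat_lit 1143479243) (nat_lit 165) (nat_lit 1) (nat_lit 156) (nat_lit 1) (nat_lit 164) (nat_lit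 1) (nat_lit 252) (nat_lit 256) (nat_lit 212)) (XT.lf (nat_lit 84) (nat_lit 423966278) (nat_lit 0) (nat_lit 2813250927) (nat_lit 756) (nat_lit 423966278) (nat_lit 157) (nat_lit 1) (nat_lit 156) (nat_lit 1) (nat_lit 165) (nat_lit 1) (nat_lit 253) (nat_lit 256) (nat_lit 211)))))) (XT.nd (nat_lit 658) (nat_lit 1260) (nat_lit 0) (XT.nd (nat_lit 282) (nat_lit 1260) (nat_lit 0) (XT.nd (nat_lit 94) (nat_lit 756) (nat_lit 0) (XT.lf (nat_lit 756) (nat_lit 279425392) (nat_lit 0) (nat_lit 1674054397) (nat_lit 672) (nat_lit 1674054397) (nat_lit 157) (nat_lit 1) (nat_lit 148) (nat_lit 1) (nat_lit 156) (nat_lit 1) (nat_lit 254) (nat_lit 256) (nat_lit 210)) (XT.nd (nat_lit 94) (nat_lit 0) (nat_lit 0) (XT.lf (nat_lit 756) (nat_lit 3317615213) (nat_lit 0) (nat_lit 138431253) (nat_lit 672) (nat_lit 138431253) (nat_lit 148) (nat_lit 1) (nat_lit 139) (nat_lit 1) (nat_lit 147) (nat_lit 1) (nat_lit 255) (nat_lit 256) (nat_lit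 209)) (XT.lf (nat_lit 84) (nat_lit 1360350195) (nat_lit 0) (nat_lit 840869694) (nat_lit 756) (nat_lit 1360350195) (nat_lit 140) (nat_lit 1) (nat_lit 139) (nat_lit 1) (nat_lit 148) (nat_lit 1) (nat_lit 256) (nat_lit 256) (nat_lit 208)))) (XT.nd (nat_lit 188) (nat_lit 588) (nat_lit 0) (XT.nd (nat_lit 94) (nat_lit 0) (nat_lit 0) (XT.lf (nat_lit 756) (nat_lit 2130557763) (nat_lit 0) (nat_lit 699341125) (nat_lit 672) (nat_lit 699341125) (nat_lit 140) (nat_lit 1) (nat_lit 131) (nat_lit 1) (nat_lit 139) (nat_lit 1) (nat_lit 257) (nat_lit 256) (nat_lit 207)) (XT.lf (nat_lit 84) (nat_lit 768804222) (nat_lit 0) (nat_lit 1959663567) (nat_lit 756) (nat_lit 768804222) (nat_lit 132) (nat_lit 1) (nat_lit 131) (nat_lit 1) (nat_lit 140) (nat_lit 1) (nat_lit 258) (nat_lit 256) (nat_lit 206))) (XT.nd (nat_lit 94) (nat_lit 0) (nat_lit 0) (XT.lf (nat_lit 672) (nat_lit 943260061) (nat_lit 0) (nat_lit 1261213611) (nat_lit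 588) (nat_lit 1261213611) (nat_lit 132) (nat_lit 1) (nat_lit 124) (nat_lit 1) (nat_lit 131) (nat_lit 1) (nat_lit 259) (nat_lit 256) (nat_lit 205)) (XT.lf (nat_lit 84) (nat_lit 177419493) (nat_lit 0) (nat_lit 3079795656) (nat_lit 672) (nat_lit 177419493) (nat_lit 125) (nat_lit 1) (nat_lit 124) (nat_lit 1) (nat_lit 132) (nat_lit 1) (nat_lit 260) (nat_lit 256) (nat_lit 204))))) (XT.nd (nat_lit 40138) (nat_lit 0) (nat_lit 15120) (XT.nd (nat_lit 188) (nat_lit 0) (nat_lit 0) (XT.nd (nat_lit 94) (nat_lit 588) (nat_lit 0) (XT.lf (nat_lit 84) (nat_lit 1582030740) (nat_lit 0) (nat_lit 239671713) (nat_lit 672) (nat_lit 1582030740) (nat_lit 117) (nat_lit 1) (nat_lit 116) (nat_lit 1) (nat_lit 124) (nat_lit 1) (nat_lit 261) (nat_lit 256) (nat_lit 203)) (XT.lf (nat_lit 672) (nat_lit 2552780142) (nat_lit 0) (nat_lit 410285146) (nat_lit 588) (nat_lit 410285146) (nat_lit 117) (nat_lit 1) (nat_lit 109) (nat_lit 1) (nat_lit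 116) (nat_lit 1) (nat_lit 262) (nat_lit 256) (nat_lit 202))) (XT.nd (nat_lit 39856) (nat_lit 0) (nat_lit 15120) (XT.lf (nat_lit 84) (nat_lit 968036698) (nat_lit 0) (nat_lit 1407148262) (nat_lit 672) (nat_lit 968036698) (nat_lit 110) (nat_lit 1) (nat_lit 109) (nat_lit 1) (nat_lit 117) (nat_lit 1) (nat_lit 263) (nat_lit 256) (nat_lit 201)) (XT.lf (nat_lit 1932) (nat_lit 1123477862) (nat_lit 0) (nat_lit 690540269) (nat_lit 1932) (nat_lit 1123477862) (nat_lit 312) (nat_lit 1) (nat_lit 289) (nat_lit 0) (nat_lit 312) (nat_lit 0) (nat_lit 206) (nat_lit 257) (nat_lit 257)))) (XT.nd (nat_lit 188) (nat_lit 0) (nat_lit 84) (XT.nd (nat_lit 94) (nat_lit 0) (nat_lit 84) (XT.lf (nat_lit 1932) (nat_lit 4440551776) (nat_lit 84) (nat_lit 685549504) (nat_lit 0) (nat_lit 685549504) (nat_lit 312) (nat_lit 1) (nat_lit 290) (nat_lit 1) (nat_lit 289) (nat_lit 0) (nat_lit 207) (nat_lit 257) (nat_lit 256)) (XT.lf (nat_lit 1932)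 (nat_lit 2178006881) (nat_lit 0) (nat_lit 1392963445) (nat_lit 1848) (nat_lit 2178006881) (nat_lit 313) (nat_lit 1) (nat_lit 290) (nat_lit 1) (nat_lit 312) (nat_lit 1) (nat_lit 208) (nat_lit 257) (nat_lit 255))) (XT.nd (nat_lit 94) (nat_lit 0) (nat_lit 84) (XT.lf (nat_lit 1932) (nat_lit 4263228141) (nat_lit 84) (nat_lit 712103956) (nat_lit 0) (nat_lit 712103956) (nat_lit 313) (nat_lit 1) (nat_lit 291) (nat_lit 1) (nat_lit 290) (nat_lit 1) (nat_lit 209) (nat_lit 257) (nat_lit 254)) (XT.lf (nat_lit 1932) (nat_lit 2070701892) (nat_lit 0) (nat_lit 1485147779) (nat_lit 1848) (nat_lit 2070701892) (nat_lit 314) (nat_lit 1) (nat_lit 291) (nat_lit 1) (nat_lit 313) (nat_lit 1) (nat_lit 210) (nat_lit 257) (nat_lit 253))))))) (XT.nd (nat_lit 1316) (nat_lit 6720) (nat_lit 0) (XT.nd (nat_lit 658) (nat_lit 0) (nat_lit 336) (XT.nd (nat_lit 282) (nat_lit 0) (nat_lit 168) (XT.nd (nat_lit 94) (nat_lit 0) (nat_lit 84) (XT.lf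 (nat_lit 1932) (nat_lit 4011468215) (nat_lit 84) (nat_lit 777639213) (nat_lit 0) (nat_lit 777639213) (nat_lit 314) (nat_lit 1) (nat_lit 292) (nat_lit 1) (nat_lit 291) (nat_lit 1) (nat_lit 211) (nat_lit 257) (nat_lit 252)) (XT.nd (nat_lit 94) (nat_lit 0) (nat_lit 0) (XT.lf (nat_lit 1932) (nat_lit 1927563208) (nat_lit 0) (nat_lit 1652474048) (nat_lit 1848) (nat_lit 1927563208) (nat_lit 315) (nat_lit 1) (nat_lit 292) (nat_lit 1) (nat_lit 314) (nat_lit 1) (nat_lit 212) (nat_lit 257) (nat_lit 251)) (XT.lf (nat_lit 1932) (nat_lit 3690207117) (nat_lit 84) (nat_lit 879631642) (nat_lit 0) (nat_lit 879631642) (nat_lit 315) (nat_lit 1) (nat_lit 293) (nat_lit 1) (nat_lit 292) (nat_lit 1) (nat_lit 213) (nat_lit 257) (nat_lit 250)))) (XT.nd (nat_lit 188) (nat_lit 0) (nat_lit 84) (XT.nd (nat_lit 94) (nat_lit 0) (nat_lit 0) (XT.lf (nat_lit 1932) (nat_lit 1750986714) (nat_lit 0) (nat_lit 1890039948) (nat_lit 1848) (nat_lit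 1750986714) (nat_lit 316) (nat_lit 1) (nat_lit 293) (nat_lit 1) (nat_lit 315) (nat_lit 1) (nat_lit 214) (nat_lit 257) (nat_lit 249)) (XT.lf (nat_lit 1932) (nat_lit 3304131788) (nat_lit 84) (nat_lit 1015683677) (nat_lit 0) (nat_lit 1015683677) (nat_lit 316) (nat_lit 1) (nat_lit 294) (nat_lit 1) (nat_lit 293) (nat_lit 1) (nat_lit 215) (nat_lit 257) (nat_lit 248))) (XT.nd (nat_lit 94) (nat_lit 0) (nat_lit 0) (XT.lf (nat_lit 1932) (nat_lit 1543247533) (nat_lit 0) (nat_lit 2193188599) (nat_lit 1848) (nat_lit 1543247533) (nat_lit 317) (nat_lit 1) (nat_lit 294) (nat_lit 1) (nat_lit 316) (nat_lit 1) (nat_lit 216) (nat_lit 257) (nat_lit 247)) (XT.lf (nat_lit 1932) (nat_lit 2857692380) (nat_lit 84) (nat_lit 1183518050) (nat_lit 0) (nat_lit 1183518050) (nat_lit 317) (nat_lit 1) (nat_lit 295) (nat_lit 1) (nat_lit 294) (nat_lit 1) (nat_lit 217) (nat_lit 257) (nat_lit 246))))) (XT.nd (nat_lit 282) (nat_lit 0) (nat_lit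 84) (XT.nd (nat_lit 94) (nat_lit 0) (nat_lit 0) (XT.lf (nat_lit 1932) (nat_lit 1306505574) (nat_lit 0) (nat_lit 2557497306) (nat_lit 1848) (nat_lit 1306505574) (nat_lit 318) (nat_lit 1) (nat_lit 295) (nat_lit 1) (nat_lit 317) (nat_lit 1) (nat_lit 218) (nat_lit 257) (nat_lit 245)) (XT.nd (nat_lit 94) (nat_lit 0) (nat_lit 84) (XT.lf (nat_lit 1932) (nat_lit 2355113142) (nat_lit 84) (nat_lit 1380972277) (nat_lit 0) (nat_lit 1380972277) (nat_lit 318) (nat_lit 1) (nat_lit 296) (nat_lit 1) (nat_lit 295) (nat_lit 1) (nat_lit 219) (nat_lit 257) (nat_lit 244)) (XT.lf (nat_lit 1932) (nat_lit 1042810829) (nat_lit 0) (nat_lit 2978766812) (nat_lit 1848) (nat_lit 1042810829) (nat_lit 319) (nat_lit 1) (nat_lit 296) (nat_lit 1) (nat_lit 318) (nat_lit 1) (nat_lit 220) (nat_lit 257) (nat_lit 243)))) (XT.nd (nat_lit 188) (nat_lit 0) (nat_lit 84) (XT.nd (nat_lit 94) (nat_lit 0) (nat_lit 84) (XT.lf (nat_lit 1932) (nat_lit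 1800402823) (nat_lit 84) (nat_lit 1605993384) (nat_lit 0) (nat_lit 1605993384) (nat_lit 319) (nat_lit 1) (nat_lit 297) (nat_lit 1) (nat_lit 296) (nat_lit 1) (nat_lit 221) (nat_lit 257) (nat_lit 242)) (XT.lf (nat_lit 1932) (nat_lit 754108445) (nat_lit 0) (nat_lit 3453011030) (nat_lit 1848) (nat_lit 754108445) (nat_lit 320) (nat_lit 1) (nat_lit 297) (nat_lit 1) (nat_lit 319) (nat_lit 1) (nat_lit 222) (nat_lit 257) (nat_lit 241))) (XT.nd (nat_lit 94) (nat_lit 0) (nat_lit 84) (XT.lf (nat_lit 1932) (nat_lit 1197364616) (nat_lit 84) (nat_lit 1856632872) (nat_lit 0) (nat_lit 1856632872) (nat_lit 320) (nat_lit 1) (nat_lit 298) (nat_lit 1) (nat_lit 297) (nat_lit 1) (nat_lit 223) (nat_lit 257) (nat_lit 240)) (XT.lf (nat_lit 1932) (nat_lit 442243563) (nat_lit 0) (nat_lit 3976447219) (nat_lit 1848) (nat_lit 442243563) (nat_lit 321) (nat_lit 1) (nat_lit 298) (nat_lit 1) (nat_lit 320) (nat_lit 1) (nat_lit 224) (nat_lit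 257) (nat_lit 239)))))) (XT.nd (nat_lit 658) (nat_lit 4452) (nat_lit 0) (XT.nd (nat_lit 282) (nat_lit 1008) (nat_lit 0) (XT.nd (nat_lit 94) (nat_lit 1848) (nat_lit 0) (XT.lf (nat_lit 1932) (nat_lit 549605664) (nat_lit 84) (nat_lit 2131041897) (nat_lit 0) (nat_lit 2131041897) (nat_lit 321) (nat_lit 1) (nat_lit 299) (nat_lit 1) (nat_lit 298) (nat_lit 1) (nat_lit 225) (nat_lit 257) (nat_lit 238)) (XT.nd (nat_lit 94) (nat_lit 1932) (nat_lit 0) (XT.lf (nat_lit 1932) (nat_lit 108965949) (nat_lit 0) (nat_lit 4545486608) (nat_lit 1848) (nat_lit 108965949) (nat_lit 322) (nat_lit 1) (nat_lit 299) (nat_lit 1) (nat_lit 321) (nat_lit 1) (nat_lit 226) (nat_lit 257) (nat_lit 237)) (XT.lf (nat_lit 2016) (nat_lit 2289006171) (nat_lit 0) (nat_lit 137445280) (nat_lit 1932) (nat_lit 2289006171) (nat_lit 300) (nat_lit 1) (nat_lit 276) (nat_lit 1) (nat_lit 299) (nat_lit 1) (nat_lit 227) (nat_lit 257) (nat_lit 236)))) (XT.nd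 (nat_lit 188) (nat_lit 1008) (nat_lit 0) (XT.nd (nat_lit 94) (nat_lit 0) (nat_lit 84) (XT.lf (nat_lit 2016) (nat_lit 4183837418) (nat_lit 84) (nat_lit 242301640) (nat_lit 0) (nat_lit 242301640) (nat_lit 300) (nat_lit 1) (nat_lit 277) (nat_lit 1) (nat_lit 276) (nat_lit 1) (nat_lit 228) (nat_lit 257) (nat_lit 235)) (XT.lf (nat_lit 84) (nat_lit 1883844777) (nat_lit 0) (nat_lit 854090673) (nat_lit 1932) (nat_lit 1883844777) (nat_lit 278) (nat_lit 1) (nat_lit 277) (nat_lit 1) (nat_lit 300) (nat_lit 1) (nat_lit 229) (nat_lit 257) (nat_lit 234))) (XT.nd (nat_lit 94) (nat_lit 0) (nat_lit 0) (XT.lf (nat_lit 1176) (nat_lit 3354327065) (nat_lit 0) (nat_lit 610832122) (nat_lit 1092) (nat_lit 610832122) (nat_lit 278) (nat_lit 1) (nat_lit 264) (nat_lit 1) (nat_lit 277) (nat_lit 1) (nat_lit 230) (nat_lit 257) (nat_lit 233)) (XT.lf (nat_lit 84) (nat_lit 1462721734) (nat_lit 0) (nat_lit 1605218936) (nat_lit 1176) (nat_lit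 1462721734) (nat_lit 265) (nat_lit 1) (nat_lit 264) (nat_lit 1) (nat_lit 278) (nat_lit 1) (nat_lit 231) (nat_lit 257) (nat_lit 232))))) (XT.nd (nat_lit 376) (nat_lit 2604) (nat_lit 0) (XT.nd (nat_lit 188) (nat_lit 924) (nat_lit 0) (XT.nd (nat_lit 94) (nat_lit 0) (nat_lit 0) (XT.lf (nat_lit 1008) (nat_lit 2494190747) (nat_lit 0) (nat_lit 995934391) (nat_lit 924) (nat_lit 995934391) (nat_lit 265) (nat_lit 1) (nat_lit 253) (nat_lit 1) (nat_lit 264) (nat_lit 1) (nat_lit 232) (nat_lit 257) (nat_lit 231)) (XT.lf (nat_lit 84) (nat_lit 1027031888) (nat_lit 0) (nat_lit 2387962151) (nat_lit 1008) (nat_lit 1027031888) (nat_lit 254) (nat_lit 1) (nat_lit 253) (nat_lit 1) (nat_lit 265) (nat_lit 1) (nat_lit 233) (nat_lit 257) (nat_lit 230))) (XT.nd (nat_lit 94) (nat_lit 0) (nat_lit 0) (XT.lf (nat_lit 1008) (nat_lit 1606152566) (nat_lit 0) (nat_lit 1396208064) (nat_lit 924) (nat_lit 1396208064) (nat_lit 254) (nat_lit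 1) (nat_lit 242) (nat_lit 1) (nat_lit 253) (nat_lit 1) (nat_lit 234) (nat_lit 257) (nat_lit 229)) (XT.lf (nat_lit 84) (nat_lit 578095288) (nat_lit 0) (nat_lit 3199604663) (nat_lit 1008) (nat_lit 578095288) (nat_lit 243) (nat_lit 1) (nat_lit 242) (nat_lit 1) (nat_lit 254) (nat_lit 1) (nat_lit 235) (nat_lit 257) (nat_lit 228)))) (XT.nd (nat_lit 188) (nat_lit 1764) (nat_lit 0) (XT.nd (nat_lit 94) (nat_lit 0) (nat_lit 0) (XT.lf (nat_lit 924) (nat_lit 692790048) (nat_lit 0) (nat_lit 1810327352) (nat_lit 840) (nat_lit 1810327352) (nat_lit 243) (nat_lit 1) (nat_lit 232) (nat_lit 1) (nat_lit 242) (nat_lit 1) (nat_lit 236) (nat_lit 257) (nat_lit 227)) (XT.lf (nat_lit 84) (nat_lit 117160700) (nat_lit 0) (nat_lit 4037575952) (nat_lit 924) (nat_lit 117160700) (nat_lit 233) (nat_lit 1) (nat_lit 232) (nat_lit 1) (nat_lit 243) (nat_lit 1) (nat_lit 237) (nat_lit 257) (nat_lit 226))) (XT.nd (nat_lit 94) (nat_lit 840)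 (nat_lit 0) (XT.lf (nat_lit 84) (nat_lit 1995312813) (nat_lit 0) (nat_lit 239952379) (nat_lit 924) (nat_lit 1995312813) (nat_lit 222) (nat_lit 1) (nat_lit 221) (nat_lit 1) (nat_lit 232) (nat_lit 1) (nat_lit 238) (nat_lit 257) (nat_lit 225)) (XT.lf (nat_lit 924) (nat_lit 3485982095) (nat_lit 0) (nat_lit 352028282) (nat_lit 840) (nat_lit 352028282) (nat_lit 222) (nat_lit 1) (nat_lit 211) (nat_lit 1) (nat_lit 221) (nat_lit 1) (nat_lit 239) (nat_lit 257) (nat_lit 224))))))))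
noncomputable def ec17 : XT := (XT.nd (nat_lit 42300) (nat_lit 0) (nat_lit 9156) (XT.nd (nat_lit 1316) (nat_lit 3108) (nat_lit 0) (XT.nd (nat_lit 658) (nat_lit 2856) (nat_lit 0) (XT.nd (nat_lit 282) (nat_lit 2352) (nat_lit 0) (XT.nd (nat_lit 94) (nat_lit 840) (nat_lit 0) (XT.lf (nat_lit 84) (nat_lit 1483411983) (nat_lit 0) (nat_lit 1183001721) (nat_lit 924) (nat_lit 1483411983) (nat_lit 212) (nat_lit 1) (nat_lit 211) (nat_lit 1) (nat_lit 222) (nat_lit 1) (nat_lit 240) (nat_lit 257) (nat_lit 223)) (XT.nd (nat_lit 94) (nat_lit 0) (nat_lit 0) (XT.lf (nat_lit 924) (nat_lit 2450291506) (nat_lit 0) (nat_lit 830001400) (nat_lit 840) (nat_lit 830001400) (nat_lit 212) (nat_lit 1) (nat_lit 201) (nat_lit 1) (nat_lit 211) (nat_lit 1) (nat_lit 241) (nat_lit 257) (nat_lit 222)) (XT.lf (nat_lit 84) (nat_lit 963520074) (nat_lit 0) (nat_lit 2144189759) (nat_lit 924) (nat_lit 963520074) (nat_lit 202) (nat_lit 1) (nat_lit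 201) (nat_lit 1) (nat_lit 212) (nat_lit 1) (nat_lit 242) (nat_lit 257) (nat_lit 221)))) (XT.nd (nat_lit 188) (nat_lit 1596) (nat_lit 0) (XT.nd (nat_lit 94) (nat_lit 0) (nat_lit 0) (XT.lf (nat_lit 840) (nat_lit 1399555746) (nat_lit 0) (nat_lit 1316558544) (nat_lit 756) (nat_lit 1316558544) (nat_lit 202) (nat_lit 1) (nat_lit 192) (nat_lit 1) (nat_lit 201) (nat_lit 1) (nat_lit 243) (nat_lit 257) (nat_lit 220)) (XT.lf (nat_lit 84) (nat_lit 436618750) (nat_lit 0) (nat_lit 3121488930) (nat_lit 840) (nat_lit 436618750) (nat_lit 193) (nat_lit 1) (nat_lit 192) (nat_lit 1) (nat_lit 202) (nat_lit 1) (nat_lit 244) (nat_lit 257) (nat_lit 219))) (XT.nd (nat_lit 94) (nat_lit 840) (nat_lit 0) (XT.lf (nat_lit 840) (nat_lit 335688966) (nat_lit 0) (nat_lit 1810711138) (nat_lit 756) (nat_lit 1810711138) (nat_lit 193) (nat_lit 1) (nat_lit 183) (nat_lit 1) (nat_lit 192) (nat_lit 1) (nat_lit 245) (nat_lit 257) (nat_lit 218))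 (XT.lf (nat_lit 840) (nat_lit 3728853602) (nat_lit 0) (nat_lit 95669467) (nat_lit 756) (nat_lit 95669467) (nat_lit 183) (nat_lit 1) (nat_lit 173) (nat_lit 1) (nat_lit 182) (nat_lit 1) (nat_lit 246) (nat_lit 257) (nat_lit 217))))) (XT.nd (nat_lit 282) (nat_lit 2100) (nat_lit 0) (XT.nd (nat_lit 94) (nat_lit 756) (nat_lit 0) (XT.lf (nat_lit 84) (nat_lit 1577290162) (nat_lit 0) (nat_lit 728852406) (nat_lit 840) (nat_lit 1577290162) (nat_lit 174) (nat_lit 1) (nat_lit 173) (nat_lit 1) (nat_lit 183) (nat_lit 1) (nat_lit 247) (nat_lit 257) (nat_lit 216)) (XT.nd (nat_lit 94) (nat_lit 0) (nat_lit 0) (XT.lf (nat_lit 840) (nat_lit 2587401437) (nat_lit 0) (nat_lit 629974701) (nat_lit 756) (nat_lit 629974701) (nat_lit 174) (nat_lit 1) (nat_lit 164) (nat_lit 1) (nat_lit 173) (nat_lit 1) (nat_lit 248) (nat_lit 257) (nat_lit 215)) (XT.lf (nat_lit 84) (nat_lit 1006797867) (nat_lit 0) (nat_lit 1798044454) (nat_lit 840)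 (nat_lit 1006797867) (nat_lit 165) (nat_lit 1) (nat_lit 164) (nat_lit 1) (nat_lit 174) (nat_lit 1) (nat_lit 249) (nat_lit 257) (nat_lit 214)))) (XT.nd (nat_lit 188) (nat_lit 1428) (nat_lit 0) (XT.nd (nat_lit 94) (nat_lit 0) (nat_lit 0) (XT.lf (nat_lit 756) (nat_lit 1439146947) (nat_lit 0) (nat_lit 1168635787) (nat_lit 672) (nat_lit 1168635787) (nat_lit 165) (nat_lit 1) (nat_lit 156) (nat_lit 1) (nat_lit 164) (nat_lit 1) (nat_lit 250) (nat_lit 257) (nat_lit 213)) (XT.lf (nat_lit 84) (nat_lit 433293536) (nat_lit 0) (nat_lit 2875142448) (nat_lit 756) (nat_lit 433293536) (nat_lit 157) (nat_lit 1) (nat_lit 156) (nat_lit 1) (nat_lit 165) (nat_lit 1) (nat_lit 251) (nat_lit 257) (nat_lit 212))) (XT.nd (nat_lit 94) (nat_lit 756) (nat_lit 0) (XT.lf (nat_lit 756) (nat_lit 285572750) (nat_lit 0) (nat_lit 1710883594) (nat_lit 672) (nat_lit 1710883594) (nat_lit 157) (nat_lit 1) (nat_lit 148) (nat_lit 1) (nat_lit 156)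 (nat_lit 1) (nat_lit 252) (nat_lit 257) (nat_lit 211)) (XT.lf (nat_lit 756) (nat_lit 3390602748) (nat_lit 0) (nat_lit 141476740) (nat_lit 672) (nat_lit 141476740) (nat_lit 148) (nat_lit 1) (nat_lit 139) (nat_lit 1) (nat_lit 147) (nat_lit 1) (nat_lit 253) (nat_lit 257) (nat_lit 210)))))) (XT.nd (nat_lit 658) (nat_lit 588) (nat_lit 0) (XT.nd (nat_lit 282) (nat_lit 1848) (nat_lit 0) (XT.nd (nat_lit 94) (nat_lit 672) (nat_lit 0) (XT.lf (nat_lit 84) (nat_lit 1390277900) (nat_lit 0) (nat_lit 859368828) (nat_lit 756) (nat_lit 1390277900) (nat_lit 140) (nat_lit 1) (nat_lit 139) (nat_lit 1) (nat_lit 148) (nat_lit 1) (nat_lit 254) (nat_lit 257) (nat_lit 209)) (XT.nd (nat_lit 94) (nat_lit 0) (nat_lit 0) (XT.lf (nat_lit 756) (nat_lit 2177430034) (nat_lit 0) (nat_lit 714726630) (nat_lit 672) (nat_lit 714726630) (nat_lit 140) (nat_lit 1) (nat_lit 131) (nat_lit 1) (nat_lit 139) (nat_lit 1) (nat_lit 255) (nat_lit 257)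 (nat_lit 208)) (XT.lf (nat_lit 84) (nat_lit 785717915) (nat_lit 0) (nat_lit 2002776166) (nat_lit 756) (nat_lit 785717915) (nat_lit 132) (nat_lit 1) (nat_lit 131) (nat_lit 1) (nat_lit 140) (nat_lit 1) (nat_lit 256) (nat_lit 257) (nat_lit 207)))) (XT.nd (nat_lit 188) (nat_lit 1260) (nat_lit 0) (XT.nd (nat_lit 94) (nat_lit 0) (nat_lit 0) (XT.lf (nat_lit 672) (nat_lit 964011782) (nat_lit 0) (nat_lit 1288960311) (nat_lit 588) (nat_lit 1288960311) (nat_lit 132) (nat_lit 1) (nat_lit 124) (nat_lit 1) (nat_lit 131) (nat_lit 1) (nat_lit 257) (nat_lit 257) (nat_lit 206)) (XT.lf (nat_lit 84) (nat_lit 181322722) (nat_lit 0) (nat_lit 3147551160) (nat_lit 672) (nat_lit 181322722) (nat_lit 125) (nat_lit 1) (nat_lit 124) (nat_lit 1) (nat_lit 132) (nat_lit 1) (nat_lit 258) (nat_lit 257) (nat_lit 205))) (XT.nd (nat_lit 94) (nat_lit 588) (nat_lit 0) (XT.lf (nat_lit 84) (nat_lit 1616835417) (nat_lit 0) (nat_lit 244944491)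 (nat_lit 672) (nat_lit 1616835417) (nat_lit 117) (nat_lit 1) (nat_lit 116) (nat_lit 1) (nat_lit 124) (nat_lit 1) (nat_lit 259) (nat_lit 257) (nat_lit 204)) (XT.lf (nat_lit 672) (nat_lit 2608941305) (nat_lit 0) (nat_lit 419311420) (nat_lit 588) (nat_lit 419311420) (nat_lit 117) (nat_lit 1) (nat_lit 109) (nat_lit 1) (nat_lit 116) (nat_lit 1) (nat_lit 260) (nat_lit 257) (nat_lit 203))))) (XT.nd (nat_lit 39950) (nat_lit 0) (nat_lit 15708) (XT.nd (nat_lit 188) (nat_lit 0) (nat_lit 0) (XT.nd (nat_lit 94) (nat_lit 588) (nat_lit 0) (XT.lf (nat_lit 84) (nat_lit 989333505) (nat_lit 0) (nat_lit 1438105524) (nat_lit 672) (nat_lit 989333505) (nat_lit 110) (nat_lit 1) (nat_lit 109) (nat_lit 1) (nat_lit 117) (nat_lit 1) (nat_lit 261) (nat_lit 257) (nat_lit 202)) (XT.lf (nat_lit 672) (nat_lit 1351566598) (nat_lit 0) (nat_lit 1017426710) (nat_lit 588) (nat_lit 1017426710) (nat_lit 110) (nat_lit 1) (nat_lit 102) (nat_lit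 1) (nat_lit 109) (nat_lit 1) (nat_lit 262) (nat_lit 257) (nat_lit 201))) (XT.nd (nat_lit 39668) (nat_lit 0) (nat_lit 15708) (XT.lf (nat_lit 84) (nat_lit 364063039) (nat_lit 0) (nat_lit 2628383000) (nat_lit 672) (nat_lit 364063039) (nat_lit 103) (nat_lit 1) (nat_lit 102) (nat_lit 1) (nat_lit 110) (nat_lit 1) (nat_lit 263) (nat_lit 257) (nat_lit 200)) (XT.lf (nat_lit 1932) (nat_lit 1148194375) (nat_lit 0) (nat_lit 705732154) (nat_lit 1932) (nat_lit 1148194375) (nat_lit 312) (nat_lit 1) (nat_lit 289) (nat_lit 0) (nat_lit 312) (nat_lit 0) (nat_lit 204) (nat_lit 258) (nat_lit 258)))) (XT.nd (nat_lit 188) (nat_lit 0) (nat_lit 84) (XT.nd (nat_lit 94) (nat_lit 0) (nat_lit 84) (XT.lf (nat_lit 1932) (nat_lit 4538243915) (nat_lit 84) (nat_lit 700631594) (nat_lit 0) (nat_lit 700631594) (nat_lit 312) (nat_lit 1) (nat_lit 290) (nat_lit 1) (nat_lit 289) (nat_lit 0) (nat_lit 205) (nat_lit 258) (nat_lit 257)) (XT.lf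 (nat_lit 1932) (nat_lit 2225923033) (nat_lit 0) (nat_lit 1423608641) (nat_lit 1848) (nat_lit 2225923033) (nat_lit 313) (nat_lit 1) (nat_lit 290) (nat_lit 1) (nat_lit 312) (nat_lit 1) (nat_lit 206) (nat_lit 258) (nat_lit 256))) (XT.nd (nat_lit 94) (nat_lit 0) (nat_lit 84) (XT.lf (nat_lit 1932) (nat_lit 4357019160) (nat_lit 84) (nat_lit 727770243) (nat_lit 0) (nat_lit 727770243) (nat_lit 313) (nat_lit 1) (nat_lit 291) (nat_lit 1) (nat_lit 290) (nat_lit 1) (nat_lit 207) (nat_lit 258) (nat_lit 255)) (XT.lf (nat_lit 1932) (nat_lit 2116257334) (nat_lit 0) (nat_lit 1517821030) (nat_lit 1848) (nat_lit 2116257334) (nat_lit 314) (nat_lit 1) (nat_lit 291) (nat_lit 1) (nat_lit 313) (nat_lit 1) (nat_lit 208) (nat_lit 258) (nat_lit 254))))))) (XT.nd (nat_lit 1316) (nat_lit 6720) (nat_lit 0) (XT.nd (nat_lit 658) (nat_lit 0) (nat_lit 336) (XT.nd (nat_lit 282) (nat_lit 0) (nat_lit 168) (XT.nd (nat_lit 94) (nat_lit 0)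 (nat_lit 84) (XT.lf (nat_lit 1932) (nat_lit 4099720516) (nat_lit 84) (nat_lit 794747276) (nat_lit 0) (nat_lit 794747276) (nat_lit 314) (nat_lit 1) (nat_lit 292) (nat_lit 1) (nat_lit 291) (nat_lit 1) (nat_lit 209) (nat_lit 258) (nat_lit 253)) (XT.nd (nat_lit 94) (nat_lit 0) (nat_lit 0) (XT.lf (nat_lit 1932) (nat_lit 1969969598) (nat_lit 0) (nat_lit 1688828477) (nat_lit 1848) (nat_lit 1969969598) (nat_lit 315) (nat_lit 1) (nat_lit 292) (nat_lit 1) (nat_lit 314) (nat_lit 1) (nat_lit 210) (nat_lit 258) (nat_lit 252)) (XT.lf (nat_lit 1932) (nat_lit 3771391674) (nat_lit 84) (nat_lit 898983538) (nat_lit 0) (nat_lit 898983538) (nat_lit 315) (nat_lit 1) (nat_lit 293) (nat_lit 1) (nat_lit 292) (nat_lit 1) (nat_lit 211) (nat_lit 258) (nat_lit 251)))) (XT.nd (nat_lit 188) (nat_lit 0) (nat_lit 84) (XT.nd (nat_lit 94) (nat_lit 0) (nat_lit 0) (XT.lf (nat_lit 1932) (nat_lit 1789508421) (nat_lit 0) (nat_lit 1931620827)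 (nat_lit 1848) (nat_lit 1789508421) (nat_lit 316) (nat_lit 1) (nat_lit 293) (nat_lit 1) (nat_lit 315) (nat_lit 1) (nat_lit 212) (nat_lit 258) (nat_lit 250)) (XT.lf (nat_lit 1932) (nat_lit 3376822688) (nat_lit 84) (nat_lit 1038028718) (nat_lit 0) (nat_lit 1038028718) (nat_lit 316) (nat_lit 1) (nat_lit 294) (nat_lit 1) (nat_lit 293) (nat_lit 1) (nat_lit 213) (nat_lit 258) (nat_lit 249))) (XT.nd (nat_lit 94) (nat_lit 0) (nat_lit 0) (XT.lf (nat_lit 1932) (nat_lit 1577198979) (nat_lit 0) (nat_lit 2241438748) (nat_lit 1848) (nat_lit 1577198979) (nat_lit 317) (nat_lit 1) (nat_lit 294) (nat_lit 1) (nat_lit 316) (nat_lit 1) (nat_lit 214) (nat_lit 258) (nat_lit 248)) (XT.lf (nat_lit 1932) (nat_lit 2920561613) (nat_lit 84) (nat_lit 1209555447) (nat_lit 0) (nat_lit 1209555447) (nat_lit 317) (nat_lit 1) (nat_lit 295) (nat_lit 1) (nat_lit 294) (nat_lit 1) (nat_lit 215) (nat_lit 258) (nat_lit 247))))) (XT.nd (nat_lit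 282) (nat_lit 0) (nat_lit 84) (XT.nd (nat_lit 94) (nat_lit 0) (nat_lit 0) (XT.lf (nat_lit 1932) (nat_lit 1335248696) (nat_lit 0) (nat_lit 2613762246) (nat_lit 1848) (nat_lit 1335248696) (nat_lit 318) (nat_lit 1) (nat_lit 295) (nat_lit 1) (nat_lit 317) (nat_lit 1) (nat_lit 216) (nat_lit 258) (nat_lit 246)) (XT.nd (nat_lit 94) (nat_lit 0) (nat_lit 84) (XT.lf (nat_lit 1932) (nat_lit 2406925632) (nat_lit 84) (nat_lit 1411353667) (nat_lit 0) (nat_lit 1411353667) (nat_lit 318) (nat_lit 1) (nat_lit 296) (nat_lit 1) (nat_lit 295) (nat_lit 1) (nat_lit 217) (nat_lit 258) (nat_lit 245)) (XT.lf (nat_lit 1932) (nat_lit 1065752667) (nat_lit 0) (nat_lit 3044299682) (nat_lit 1848) (nat_lit 1065752667) (nat_lit 319) (nat_lit 1) (nat_lit 296) (nat_lit 1) (nat_lit 318) (nat_lit 1) (nat_lit 218) (nat_lit 258) (nat_lit 244)))) (XT.nd (nat_lit 188) (nat_lit 0) (nat_lit 84) (XT.nd (nat_lit 94) (nat_lit 0) (nat_lit 84) (XT.lf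 (nat_lit 1932) (nat_lit 1840011685) (nat_lit 84) (nat_lit 1641325239) (nat_lit 0) (nat_lit 1641325239) (nat_lit 319) (nat_lit 1) (nat_lit 297) (nat_lit 1) (nat_lit 296) (nat_lit 1) (nat_lit 219) (nat_lit 258) (nat_lit 243)) (XT.lf (nat_lit 1932) (nat_lit 770698831) (nat_lit 0) (nat_lit 3528977272) (nat_lit 1848) (nat_lit 770698831) (nat_lit 320) (nat_lit 1) (nat_lit 297) (nat_lit 1) (nat_lit 319) (nat_lit 1) (nat_lit 220) (nat_lit 258) (nat_lit 242))) (XT.nd (nat_lit 94) (nat_lit 0) (nat_lit 84) (XT.lf (nat_lit 1932) (nat_lit 1223706638) (nat_lit 84) (nat_lit 1897478796) (nat_lit 0) (nat_lit 1897478796) (nat_lit 320) (nat_lit 1) (nat_lit 298) (nat_lit 1) (nat_lit 297) (nat_lit 1) (nat_lit 221) (nat_lit 258) (nat_lit 241)) (XT.lf (nat_lit 1932) (nat_lit 451972922) (nat_lit 0) (nat_lit 4063929058) (nat_lit 1848) (nat_lit 451972922) (nat_lit 321) (nat_lit 1) (nat_lit 298) (nat_lit 1) (nat_lit 320) (nat_lit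 1) (nat_lit 222) (nat_lit 258) (nat_lit 240)))))) (XT.nd (nat_lit 658) (nat_lit 4452) (nat_lit 0) (XT.nd (nat_lit 282) (nat_lit 1008) (nat_lit 0) (XT.nd (nat_lit 94) (nat_lit 1848) (nat_lit 0) (XT.lf (nat_lit 1932) (nat_lit 561696988) (nat_lit 84) (nat_lit 2177924819) (nat_lit 0) (nat_lit 2177924819) (nat_lit 321) (nat_lit 1) (nat_lit 299) (nat_lit 1) (nat_lit 298) (nat_lit 1) (nat_lit 223) (nat_lit 258) (nat_lit 239)) (XT.nd (nat_lit 94) (nat_lit 1932) (nat_lit 0) (XT.lf (nat_lit 1932) (nat_lit 111363200) (nat_lit 0) (nat_lit 4645487314) (nat_lit 1848) (nat_lit 111363200) (nat_lit 322) (nat_lit 1) (nat_lit 299) (nat_lit 1) (nat_lit 321) (nat_lit 1) (nat_lit 224) (nat_lit 258) (nat_lit 238)) (XT.lf (nat_lit 2016) (nat_lit 2339364307) (nat_lit 0) (nat_lit 140469076) (nat_lit 1932) (nat_lit 2339364307) (nat_lit 300) (nat_lit 1) (nat_lit 276) (nat_lit 1) (nat_lit 299) (nat_lit 1) (nat_lit 225) (nat_lit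 258) (nat_lit 237)))) (XT.nd (nat_lit 188) (nat_lit 1008) (nat_lit 0) (XT.nd (nat_lit 94) (nat_lit 0) (nat_lit 84) (XT.lf (nat_lit 2016) (nat_lit 4275881841) (nat_lit 84) (nat_lit 247632276) (nat_lit 0) (nat_lit 247632276) (nat_lit 300) (nat_lit 1) (nat_lit 277) (nat_lit 1) (nat_lit 276) (nat_lit 1) (nat_lit 226) (nat_lit 258) (nat_lit 236)) (XT.lf (nat_lit 84) (nat_lit 1925289362) (nat_lit 0) (nat_lit 872880668) (nat_lit 1932) (nat_lit 1925289362) (nat_lit 278) (nat_lit 1) (nat_lit 277) (nat_lit 1) (nat_lit 300) (nat_lit 1) (nat_lit 227) (nat_lit 258) (nat_lit 235))) (XT.nd (nat_lit 94) (nat_lit 0) (nat_lit 0) (XT.lf (nat_lit 1176) (nat_lit 3428122261) (nat_lit 0) (nat_lit 624270429) (nat_lit 1092) (nat_lit 624270429) (nat_lit 278) (nat_lit 1) (nat_lit 264) (nat_lit 1) (nat_lit 277) (nat_lit 1) (nat_lit 228) (nat_lit 258) (nat_lit 234)) (XT.lf (nat_lit 84) (nat_lit 1494901612) (nat_lit 0) (nat_lit 1640533753)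 (nat_lit 1176) (nat_lit 1494901612) (nat_lit 265) (nat_lit 1) (nat_lit 264) (nat_lit 1) (nat_lit 278) (nat_lit 1) (nat_lit 229) (nat_lit 258) (nat_lit 233))))) (XT.nd (nat_lit 376) (nat_lit 2604) (nat_lit 0) (XT.nd (nat_lit 188) (nat_lit 924) (nat_lit 0) (XT.nd (nat_lit 94) (nat_lit 0) (nat_lit 0) (XT.lf (nat_lit 1008) (nat_lit 2549062943) (nat_lit 0) (nat_lit 1017844947) (nat_lit 924) (nat_lit 1017844947) (nat_lit 265) (nat_lit 1) (nat_lit 253) (nat_lit 1) (nat_lit 264) (nat_lit 1) (nat_lit 230) (nat_lit 258) (nat_lit 232)) (XT.lf (nat_lit 84) (nat_lit 1049626589) (nat_lit 0) (nat_lit 2440497318) (nat_lit 1008) (nat_lit 1049626589) (nat_lit 254) (nat_lit 1) (nat_lit 253) (nat_lit 1) (nat_lit 265) (nat_lit 1) (nat_lit 231) (nat_lit 258) (nat_lit 231))) (XT.nd (nat_lit 94) (nat_lit 0) (nat_lit 0) (XT.lf (nat_lit 1008) (nat_lit 1641487923) (nat_lit 0) (nat_lit 1426924641) (nat_lit 924) (nat_lit 1426924641)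 (nat_lit 254) (nat_lit 1) (nat_lit 242) (nat_lit 1) (nat_lit 253) (nat_lit 1) (nat_lit 232) (nat_lit 258) (nat_lit 230)) (XT.lf (nat_lit 84) (nat_lit 590813384) (nat_lit 0) (nat_lit 3269995965) (nat_lit 1008) (nat_lit 590813384) (nat_lit 243) (nat_lit 1) (nat_lit 242) (nat_lit 1) (nat_lit 254) (nat_lit 1) (nat_lit 233) (nat_lit 258) (nat_lit 229)))) (XT.nd (nat_lit 188) (nat_lit 1764) (nat_lit 0) (XT.nd (nat_lit 94) (nat_lit 0) (nat_lit 0) (XT.lf (nat_lit 924) (nat_lit 708031429) (nat_lit 0) (nat_lit 1850154553) (nat_lit 840) (nat_lit 1850154553) (nat_lit 243) (nat_lit 1) (nat_lit 232) (nat_lit 1) (nat_lit 242) (nat_lit 1) (nat_lit 234) (nat_lit 258) (nat_lit 228)) (XT.lf (nat_lit 84) (nat_lit 119738235) (nat_lit 0) (nat_lit 4126402623) (nat_lit 924) (nat_lit 119738235) (nat_lit 233) (nat_lit 1) (nat_lit 232) (nat_lit 1) (nat_lit 243) (nat_lit 1) (nat_lit 235) (nat_lit 258) (nat_lit 227))) (XT.nd (nat_lit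 94) (nat_lit 840) (nat_lit 0) (XT.lf (nat_lit 84) (nat_lit 2039209695) (nat_lit 0) (nat_lit 245231332) (nat_lit 924) (nat_lit 2039209695) (nat_lit 222) (nat_lit 1) (nat_lit 221) (nat_lit 1) (nat_lit 232) (nat_lit 1) (nat_lit 236) (nat_lit 258) (nat_lit 226)) (XT.lf (nat_lit 924) (nat_lit 3562673701) (nat_lit 0) (nat_lit 359772904) (nat_lit 840) (nat_lit 359772904) (nat_lit 222) (nat_lit 1) (nat_lit 211) (nat_lit 1) (nat_lit 221) (nat_lit 1) (nat_lit 237) (nat_lit 258) (nat_lit 225))))))))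
noncomputable def ec18 : XT := (XT.nd (nat_lit 42206) (nat_lit 0) (nat_lit 10500) (XT.nd (nat_lit 1316) (nat_lit 3612) (nat_lit 0) (XT.nd (nat_lit 658) (nat_lit 2856) (nat_lit 0) (XT.nd (nat_lit 282) (nat_lit 2352) (nat_lit 0) (XT.nd (nat_lit 94) (nat_lit 840) (nat_lit 0) (XT.lf (nat_lit 84) (nat_lit 1516047047) (nat_lit 0) (nat_lit 1209027759) (nat_lit 924) (nat_lit 1516047047) (nat_lit 212) (nat_lit 1) (nat_lit 211) (nat_lit 1) (nat_lit 222) (nat_lit 1) (nat_lit 238) (nat_lit 258) (nat_lit 224)) (XT.nd (nat_lit 94) (nat_lit 0) (nat_lit 0) (XT.lf (nat_lit 924) (nat_lit 2504197920) (nat_lit 0) (nat_lit 848261431) (nat_lit 840) (nat_lit 848261431) (nat_lit 212) (nat_lit 1) (nat_lit 201) (nat_lit 1) (nat_lit 211) (nat_lit 1) (nat_lit 239) (nat_lit 258) (nat_lit 223)) (XT.lf (nat_lit 84) (nat_lit 984717515) (nat_lit 0) (nat_lit 2191361934) (nat_lit 924) (nat_lit 984717515) (nat_lit 202) (nat_lit 1) (nat_lit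 201) (nat_lit 1) (nat_lit 212) (nat_lit 1) (nat_lit 240) (nat_lit 258) (nat_lit 222)))) (XT.nd (nat_lit 188) (nat_lit 1596) (nat_lit 0) (XT.nd (nat_lit 94) (nat_lit 0) (nat_lit 0) (XT.lf (nat_lit 840) (nat_lit 1430345972) (nat_lit 0) (nat_lit 1345522832) (nat_lit 756) (nat_lit 1345522832) (nat_lit 202) (nat_lit 1) (nat_lit 192) (nat_lit 1) (nat_lit 201) (nat_lit 1) (nat_lit 241) (nat_lit 258) (nat_lit 221)) (XT.lf (nat_lit 84) (nat_lit 446224363) (nat_lit 0) (nat_lit 3190161687) (nat_lit 840) (nat_lit 446224363) (nat_lit 193) (nat_lit 1) (nat_lit 192) (nat_lit 1) (nat_lit 202) (nat_lit 1) (nat_lit 242) (nat_lit 258) (nat_lit 220))) (XT.nd (nat_lit 94) (nat_lit 840) (nat_lit 0) (XT.lf (nat_lit 840) (nat_lit 343074123) (nat_lit 0) (nat_lit 1850546783) (nat_lit 756) (nat_lit 1850546783) (nat_lit 193) (nat_lit 1) (nat_lit 183) (nat_lit 1) (nat_lit 192) (nat_lit 1) (nat_lit 243) (nat_lit 258) (nat_lit 219))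 (XT.lf (nat_lit 840) (nat_lit 3810888381) (nat_lit 0) (nat_lit 97774195) (nat_lit 756) (nat_lit 97774195) (nat_lit 183) (nat_lit 1) (nat_lit 173) (nat_lit 1) (nat_lit 182) (nat_lit 1) (nat_lit 244) (nat_lit 258) (nat_lit 218))))) (XT.nd (nat_lit 282) (nat_lit 2100) (nat_lit 0) (XT.nd (nat_lit 94) (nat_lit 756) (nat_lit 0) (XT.lf (nat_lit 84) (nat_lit 1611990546) (nat_lit 0) (nat_lit 744887159) (nat_lit 840) (nat_lit 1611990546) (nat_lit 174) (nat_lit 1) (nat_lit 173) (nat_lit 1) (nat_lit 183) (nat_lit 1) (nat_lit 245) (nat_lit 258) (nat_lit 217)) (XT.nd (nat_lit 94) (nat_lit 0) (nat_lit 0) (XT.lf (nat_lit 840) (nat_lit 2644324269) (nat_lit 0) (nat_lit 643834145) (nat_lit 756) (nat_lit 643834145) (nat_lit 174) (nat_lit 1) (nat_lit 164) (nat_lit 1) (nat_lit 173) (nat_lit 1) (nat_lit 246) (nat_lit 258) (nat_lit 216)) (XT.lf (nat_lit 84) (nat_lit 1028947420) (nat_lit 0) (nat_lit 1837601432) (nat_lit 840)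 (nat_lit 1028947420) (nat_lit 165) (nat_lit 1) (nat_lit 164) (nat_lit 1) (nat_lit 174) (nat_lit 1) (nat_lit 247) (nat_lit 258) (nat_lit 215)))) (XT.nd (nat_lit 188) (nat_lit 1428) (nat_lit 0) (XT.nd (nat_lit 94) (nat_lit 0) (nat_lit 0) (XT.lf (nat_lit 756) (nat_lit 1470808180) (nat_lit 0) (nat_lit 1194345774) (nat_lit 672) (nat_lit 1194345774) (nat_lit 165) (nat_lit 1) (nat_lit 156) (nat_lit 1) (nat_lit 164) (nat_lit 1) (nat_lit 248) (nat_lit 258) (nat_lit 214)) (XT.lf (nat_lit 84) (nat_lit 442825994) (nat_lit 0) (nat_lit 2938395582) (nat_lit 756) (nat_lit 442825994) (nat_lit 157) (nat_lit 1) (nat_lit 156) (nat_lit 1) (nat_lit 165) (nat_lit 1) (nat_lit 249) (nat_lit 258) (nat_lit 213))) (XT.nd (nat_lit 94) (nat_lit 756) (nat_lit 0) (XT.lf (nat_lit 756) (nat_lit 291855351) (nat_lit 0) (nat_lit 1748523033) (nat_lit 672) (nat_lit 1748523033) (nat_lit 157) (nat_lit 1) (nat_lit 148) (nat_lit 1) (nat_lit 156)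 (nat_lit 1) (nat_lit 250) (nat_lit 258) (nat_lit 212)) (XT.lf (nat_lit 756) (nat_lit 3465196008) (nat_lit 0) (nat_lit 144589229) (nat_lit 672) (nat_lit 144589229) (nat_lit 148) (nat_lit 1) (nat_lit 139) (nat_lit 1) (nat_lit 147) (nat_lit 1) (nat_lit 251) (nat_lit 258) (nat_lit 211)))))) (XT.nd (nat_lit 658) (nat_lit 1092) (nat_lit 0) (XT.nd (nat_lit 282) (nat_lit 1848) (nat_lit 0) (XT.nd (nat_lit 94) (nat_lit 672) (nat_lit 0) (XT.lf (nat_lit 84) (nat_lit 1420864013) (nat_lit 0) (nat_lit 878274942) (nat_lit 756) (nat_lit 1420864013) (nat_lit 140) (nat_lit 1) (nat_lit 139) (nat_lit 1) (nat_lit 148) (nat_lit 1) (nat_lit 252) (nat_lit 258) (nat_lit 210)) (XT.nd (nat_lit 94) (nat_lit 0) (nat_lit 0) (XT.lf (nat_lit 756) (nat_lit 2225333494) (nat_lit 0) (nat_lit 730450616) (nat_lit 672) (nat_lit 730450616) (nat_lit 140) (nat_lit 1) (nat_lit 131) (nat_lit 1) (nat_lit 139) (nat_lit 1) (nat_lit 253) (nat_lit 258)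 (nat_lit 209)) (XT.lf (nat_lit 84) (nat_lit 803003709) (nat_lit 0) (nat_lit 2046837241) (nat_lit 756) (nat_lit 803003709) (nat_lit 132) (nat_lit 1) (nat_lit 131) (nat_lit 1) (nat_lit 140) (nat_lit 1) (nat_lit 254) (nat_lit 258) (nat_lit 208)))) (XT.nd (nat_lit 188) (nat_lit 1260) (nat_lit 0) (XT.nd (nat_lit 94) (nat_lit 0) (nat_lit 0) (XT.lf (nat_lit 672) (nat_lit 985220041) (nat_lit 0) (nat_lit 1317317437) (nat_lit 588) (nat_lit 1317317437) (nat_lit 132) (nat_lit 1) (nat_lit 124) (nat_lit 1) (nat_lit 131) (nat_lit 1) (nat_lit 255) (nat_lit 258) (nat_lit 207)) (XT.lf (nat_lit 84) (nat_lit 185311822) (nat_lit 0) (nat_lit 3216797286) (nat_lit 672) (nat_lit 185311822) (nat_lit 125) (nat_lit 1) (nat_lit 124) (nat_lit 1) (nat_lit 132) (nat_lit 1) (nat_lit 256) (nat_lit 258) (nat_lit 206))) (XT.nd (nat_lit 94) (nat_lit 588) (nat_lit 0) (XT.lf (nat_lit 84) (nat_lit 1652405796) (nat_lit 0) (nat_lit 250333270)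 (nat_lit 672) (nat_lit 1652405796) (nat_lit 117) (nat_lit 1) (nat_lit 116) (nat_lit 1) (nat_lit 124) (nat_lit 1) (nat_lit 257) (nat_lit 258) (nat_lit 205)) (XT.lf (nat_lit 672) (nat_lit 2666338014) (nat_lit 0) (nat_lit 428536271) (nat_lit 588) (nat_lit 428536271) (nat_lit 117) (nat_lit 1) (nat_lit 109) (nat_lit 1) (nat_lit 116) (nat_lit 1) (nat_lit 258) (nat_lit 258) (nat_lit 204))))) (XT.nd (nat_lit 39856) (nat_lit 0) (nat_lit 16212) (XT.nd (nat_lit 188) (nat_lit 504) (nat_lit 0) (XT.nd (nat_lit 94) (nat_lit 588) (nat_lit 0) (XT.lf (nat_lit 84) (nat_lit 1011098842) (nat_lit 0) (nat_lit 1469743845) (nat_lit 672) (nat_lit 1011098842) (nat_lit 110) (nat_lit 1) (nat_lit 109) (nat_lit 1) (nat_lit 117) (nat_lit 1) (nat_lit 259) (nat_lit 258) (nat_lit 203)) (XT.lf (nat_lit 672) (nat_lit 1381301063) (nat_lit 0) (nat_lit 1039810098) (nat_lit 588) (nat_lit 1039810098) (nat_lit 110) (nat_lit 1) (nat_lit 102) (nat_lit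 1) (nat_lit 109) (nat_lit 1) (nat_lit 260) (nat_lit 258) (nat_lit 202))) (XT.nd (nat_lit 94) (nat_lit 504) (nat_lit 0) (XT.lf (nat_lit 84) (nat_lit 372072426) (nat_lit 0) (nat_lit 2686207426) (nat_lit 672) (nat_lit 372072426) (nat_lit 103) (nat_lit 1) (nat_lit 102) (nat_lit 1) (nat_lit 110) (nat_lit 1) (nat_lit 261) (nat_lit 258) (nat_lit 201)) (XT.lf (nat_lit 588) (nat_lit 101290218) (nat_lit 0) (nat_lit 1649366602) (nat_lit 504) (nat_lit 1649366602) (nat_lit 103) (nat_lit 1) (nat_lit 96) (nat_lit 1) (nat_lit 102) (nat_lit 1) (nat_lit 262) (nat_lit 258) (nat_lit 200)))) (XT.nd (nat_lit 188) (nat_lit 0) (nat_lit 84) (XT.nd (nat_lit 94) (nat_lit 0) (nat_lit 0) (XT.lf (nat_lit 1932) (nat_lit 1173454651) (nat_lit 0) (nat_lit 721258262) (nat_lit 1932) (nat_lit 1173454651) (nat_lit 312) (nat_lit 1) (nat_lit 289) (nat_lit 0) (nat_lit 312) (nat_lit 0) (nat_lit 202) (nat_lit 259) (nat_lit 259)) (XT.lf (nat_lit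 1932) (nat_lit 4638085281) (nat_lit 84) (nat_lit 716045489) (nat_lit 0) (nat_lit 716045489) (nat_lit 312) (nat_lit 1) (nat_lit 290) (nat_lit 1) (nat_lit 289) (nat_lit 0) (nat_lit 203) (nat_lit 259) (nat_lit 258))) (XT.nd (nat_lit 94) (nat_lit 0) (nat_lit 0) (XT.lf (nat_lit 1932) (nat_lit 2274893339) (nat_lit 0) (nat_lit 1454928031) (nat_lit 1848) (nat_lit 2274893339) (nat_lit 313) (nat_lit 1) (nat_lit 290) (nat_lit 1) (nat_lit 312) (nat_lit 1) (nat_lit 204) (nat_lit 259) (nat_lit 257)) (XT.lf (nat_lit 1932) (nat_lit 4452873581) (nat_lit 84) (nat_lit 743781189) (nat_lit 0) (nat_lit 743781189) (nat_lit 313) (nat_lit 1) (nat_lit 291) (nat_lit 1) (nat_lit 290) (nat_lit 1) (nat_lit 205) (nat_lit 259) (nat_lit 256))))))) (XT.nd (nat_lit 1316) (nat_lit 5880) (nat_lit 0) (XT.nd (nat_lit 658) (nat_lit 0) (nat_lit 252) (XT.nd (nat_lit 282) (nat_lit 0) (nat_lit 84) (XT.nd (nat_lit 94) (nat_lit 0) (nat_lit 0) (XT.lf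 (nat_lit 1932) (nat_lit 2162814995) (nat_lit 0) (nat_lit 1551213093) (nat_lit 1848) (nat_lit 2162814995) (nat_lit 314) (nat_lit 1) (nat_lit 291) (nat_lit 1) (nat_lit 313) (nat_lit 1) (nat_lit 206) (nat_lit 259) (nat_lit 255)) (XT.nd (nat_lit 94) (nat_lit 0) (nat_lit 84) (XT.lf (nat_lit 1932) (nat_lit 4189914367) (nat_lit 84) (nat_lit 812231716) (nat_lit 0) (nat_lit 812231716) (nat_lit 314) (nat_lit 1) (nat_lit 292) (nat_lit 1) (nat_lit 291) (nat_lit 1) (nat_lit 207) (nat_lit 259) (nat_lit 254)) (XT.lf (nat_lit 1932) (nat_lit 2013308930) (nat_lit 0) (nat_lit 1725982704) (nat_lit 1848) (nat_lit 2013308930) (nat_lit 315) (nat_lit 1) (nat_lit 292) (nat_lit 1) (nat_lit 314) (nat_lit 1) (nat_lit 208) (nat_lit 259) (nat_lit 253)))) (XT.nd (nat_lit 188) (nat_lit 0) (nat_lit 84) (XT.nd (nat_lit 94) (nat_lit 0) (nat_lit 84) (XT.lf (nat_lit 1932) (nat_lit 3854362291) (nat_lit 84) (nat_lit 918761176) (nat_lit 0)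 (nat_lit 918761176) (nat_lit 315) (nat_lit 1) (nat_lit 293) (nat_lit 1) (nat_lit 292) (nat_lit 1) (nat_lit 209) (nat_lit 259) (nat_lit 252)) (XT.lf (nat_lit 1932) (nat_lit 1828877607) (nat_lit 0) (nat_lit 1974116485) (nat_lit 1848) (nat_lit 1828877607) (nat_lit 316) (nat_lit 1) (nat_lit 293) (nat_lit 1) (nat_lit 315) (nat_lit 1) (nat_lit 210) (nat_lit 259) (nat_lit 251))) (XT.nd (nat_lit 94) (nat_lit 0) (nat_lit 84) (XT.lf (nat_lit 1932) (nat_lit 3451112787) (nat_lit 84) (nat_lit 1060865350) (nat_lit 0) (nat_lit 1060865350) (nat_lit 316) (nat_lit 1) (nat_lit 294) (nat_lit 1) (nat_lit 293) (nat_lit 1) (nat_lit 211) (nat_lit 259) (nat_lit 250)) (XT.lf (nat_lit 1932) (nat_lit 1611897356) (nat_lit 0) (nat_lit 2290750400) (nat_lit 1848) (nat_lit 1611897356) (nat_lit 317) (nat_lit 1) (nat_lit 294) (nat_lit 1) (nat_lit 316) (nat_lit 1) (nat_lit 212) (nat_lit 259) (nat_lit 249))))) (XT.nd (nat_lit 282) (nat_lit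 0) (nat_lit 168) (XT.nd (nat_lit 94) (nat_lit 0) (nat_lit 84) (XT.lf (nat_lit 1932) (nat_lit 2984813968) (nat_lit 84) (nat_lit 1236165667) (nat_lit 0) (nat_lit 1236165667) (nat_lit 317) (nat_lit 1) (nat_lit 295) (nat_lit 1) (nat_lit 294) (nat_lit 1) (nat_lit 213) (nat_lit 259) (nat_lit 248)) (XT.nd (nat_lit 94) (nat_lit 0) (nat_lit 0) (XT.lf (nat_lit 1932) (nat_lit 1364624168) (nat_lit 0) (nat_lit 2671265016) (nat_lit 1848) (nat_lit 1364624168) (nat_lit 318) (nat_lit 1) (nat_lit 295) (nat_lit 1) (nat_lit 317) (nat_lit 1) (nat_lit 214) (nat_lit 259) (nat_lit 247)) (XT.lf (nat_lit 1932) (nat_lit 2459877995) (nat_lit 84) (nat_lit 1442403448) (nat_lit 0) (nat_lit 1442403448) (nat_lit 318) (nat_lit 1) (nat_lit 296) (nat_lit 1) (nat_lit 295) (nat_lit 1) (nat_lit 215) (nat_lit 259) (nat_lit 246)))) (XT.nd (nat_lit 188) (nat_lit 0) (nat_lit 84) (XT.nd (nat_lit 94) (nat_lit 0) (nat_lit 0) (XT.lf (nat_lit 1932)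 (nat_lit 1089199226) (nat_lit 0) (nat_lit 3111274275) (nat_lit 1848) (nat_lit 1089199226) (nat_lit 319) (nat_lit 1) (nat_lit 296) (nat_lit 1) (nat_lit 318) (nat_lit 1) (nat_lit 216) (nat_lit 259) (nat_lit 245)) (XT.lf (nat_lit 1932) (nat_lit 1880491942) (nat_lit 84) (nat_lit 1677434394) (nat_lit 0) (nat_lit 1677434394) (nat_lit 319) (nat_lit 1) (nat_lit 297) (nat_lit 1) (nat_lit 296) (nat_lit 1) (nat_lit 217) (nat_lit 259) (nat_lit 244))) (XT.nd (nat_lit 94) (nat_lit 0) (nat_lit 0) (XT.lf (nat_lit 1932) (nat_lit 787654205) (nat_lit 0) (nat_lit 3606614772) (nat_lit 1848) (nat_lit 787654205) (nat_lit 320) (nat_lit 1) (nat_lit 297) (nat_lit 1) (nat_lit 319) (nat_lit 1) (nat_lit 218) (nat_lit 259) (nat_lit 243)) (XT.lf (nat_lit 1932) (nat_lit 1250628184) (nat_lit 84) (nat_lit 1939223329) (nat_lit 0) (nat_lit 1939223329) (nat_lit 320) (nat_lit 1) (nat_lit 298) (nat_lit 1) (nat_lit 297) (nat_lit 1) (nat_lit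 219) (nat_lit 259) (nat_lit 242)))))) (XT.nd (nat_lit 658) (nat_lit 3612) (nat_lit 0) (XT.nd (nat_lit 282) (nat_lit 2856) (nat_lit 0) (XT.nd (nat_lit 94) (nat_lit 0) (nat_lit 0) (XT.lf (nat_lit 1932) (nat_lit 461916326) (nat_lit 0) (nat_lit 4153335497) (nat_lit 1848) (nat_lit 461916326) (nat_lit 321) (nat_lit 1) (nat_lit 298) (nat_lit 1) (nat_lit 320) (nat_lit 1) (nat_lit 220) (nat_lit 259) (nat_lit 241)) (XT.nd (nat_lit 94) (nat_lit 0) (nat_lit 84) (XT.lf (nat_lit 1932) (nat_lit 574054322) (nat_lit 84) (nat_lit 2225839165) (nat_lit 0) (nat_lit 2225839165) (nat_lit 321) (nat_lit 1) (nat_lit 299) (nat_lit 1) (nat_lit 298) (nat_lit 1) (nat_lit 221) (nat_lit 259) (nat_lit 240)) (XT.lf (nat_lit 1932) (nat_lit 113813190) (nat_lit 0) (nat_lit 4747688035) (nat_lit 1848) (nat_lit 113813190) (nat_lit 322) (nat_lit 1) (nat_lit 299) (nat_lit 1) (nat_lit 321) (nat_lit 1) (nat_lit 222) (nat_lit 259) (nat_lit 239))))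 (XT.nd (nat_lit 188) (nat_lit 1008) (nat_lit 0) (XT.nd (nat_lit 94) (nat_lit 0) (nat_lit 0) (XT.lf (nat_lit 2016) (nat_lit 2390830321) (nat_lit 0) (nat_lit 143559396) (nat_lit 1932) (nat_lit 2390830321) (nat_lit 300) (nat_lit 1) (nat_lit 276) (nat_lit 1) (nat_lit 299) (nat_lit 1) (nat_lit 223) (nat_lit 259) (nat_lit 238)) (XT.lf (nat_lit 2016) (nat_lit 4369951242) (nat_lit 84) (nat_lit 253080186) (nat_lit 0) (nat_lit 253080186) (nat_lit 300) (nat_lit 1) (nat_lit 277) (nat_lit 1) (nat_lit 276) (nat_lit 1) (nat_lit 224) (nat_lit 259) (nat_lit 237))) (XT.nd (nat_lit 94) (nat_lit 1092) (nat_lit 0) (XT.lf (nat_lit 84) (nat_lit 1967645728) (nat_lit 0) (nat_lit 892084043) (nat_lit 1932) (nat_lit 1967645728) (nat_lit 278) (nat_lit 1) (nat_lit 277) (nat_lit 1) (nat_lit 300) (nat_lit 1) (nat_lit 225) (nat_lit 259) (nat_lit 236)) (XT.lf (nat_lit 1176) (nat_lit 3503540951) (nat_lit 0) (nat_lit 638004378) (nat_lit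 1092) (nat_lit 638004378) (nat_lit 278) (nat_lit 1) (nat_lit 264) (nat_lit 1) (nat_lit 277) (nat_lit 1) (nat_lit 226) (nat_lit 259) (nat_lit 235))))) (XT.nd (nat_lit 376) (nat_lit 1764) (nat_lit 0) (XT.nd (nat_lit 188) (nat_lit 924) (nat_lit 0) (XT.nd (nat_lit 94) (nat_lit 924) (nat_lit 0) (XT.lf (nat_lit 84) (nat_lit 1527789447) (nat_lit 0) (nat_lit 1676625495) (nat_lit 1176) (nat_lit 1527789447) (nat_lit 265) (nat_lit 1) (nat_lit 264) (nat_lit 1) (nat_lit 278) (nat_lit 1) (nat_lit 227) (nat_lit 259) (nat_lit 234)) (XT.lf (nat_lit 1008) (nat_lit 2605142328) (nat_lit 0) (nat_lit 1040237536) (nat_lit 924) (nat_lit 1040237536) (nat_lit 265) (nat_lit 1) (nat_lit 253) (nat_lit 1) (nat_lit 264) (nat_lit 1) (nat_lit 228) (nat_lit 259) (nat_lit 233))) (XT.nd (nat_lit 94) (nat_lit 924) (nat_lit 0) (XT.lf (nat_lit 84) (nat_lit 1072718374) (nat_lit 0) (nat_lit 2494188259) (nat_lit 1008) (nat_lit 1072718374) (nat_lit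 254) (nat_lit 1) (nat_lit 253) (nat_lit 1) (nat_lit 265) (nat_lit 1) (nat_lit 229) (nat_lit 259) (nat_lit 232)) (XT.lf (nat_lit 1008) (nat_lit 1677600657) (nat_lit 0) (nat_lit 1458316983) (nat_lit 924) (nat_lit 1458316983) (nat_lit 254) (nat_lit 1) (nat_lit 242) (nat_lit 1) (nat_lit 253) (nat_lit 1) (nat_lit 230) (nat_lit 259) (nat_lit 231)))) (XT.nd (nat_lit 188) (nat_lit 924) (nat_lit 0) (XT.nd (nat_lit 94) (nat_lit 840) (nat_lit 0) (XT.lf (nat_lit 84) (nat_lit 603811278) (nat_lit 0) (nat_lit 3341935877) (nat_lit 1008) (nat_lit 603811278) (nat_lit 243) (nat_lit 1) (nat_lit 242) (nat_lit 1) (nat_lit 254) (nat_lit 1) (nat_lit 231) (nat_lit 259) (nat_lit 230)) (XT.lf (nat_lit 924) (nat_lit 723608121) (nat_lit 0) (nat_lit 1890857954) (nat_lit 840) (nat_lit 1890857954) (nat_lit 243) (nat_lit 1) (nat_lit 232) (nat_lit 1) (nat_lit 242) (nat_lit 1) (nat_lit 232) (nat_lit 259) (nat_lit 229))) (XT.nd (nat_lit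 94) (nat_lit 924) (nat_lit 0) (XT.lf (nat_lit 84) (nat_lit 122372476) (nat_lit 0) (nat_lit 4217183481) (nat_lit 924) (nat_lit 122372476) (nat_lit 233) (nat_lit 1) (nat_lit 232) (nat_lit 1) (nat_lit 243) (nat_lit 1) (nat_lit 233) (nat_lit 259) (nat_lit 228)) (XT.lf (nat_lit 84) (nat_lit 2084072308) (nat_lit 0) (nat_lit 250626421) (nat_lit 924) (nat_lit 2084072308) (nat_lit 222) (nat_lit 1) (nat_lit 221) (nat_lit 1) (nat_lit 232) (nat_lit 1) (nat_lit 234) (nat_lit 259) (nat_lit 227))))))))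
noncomputable def ec19 : XT := (XT.nd (nat_lit 42206) (nat_lit 0) (nat_lit 11172) (XT.nd (nat_lit 1316) (nat_lit 5040) (nat_lit 0) (XT.nd (nat_lit 658) (nat_lit 2940) (nat_lit 0) (XT.nd (nat_lit 282) (nat_lit 1512) (nat_lit 0) (XT.nd (nat_lit 94) (nat_lit 840) (nat_lit 0) (XT.lf (nat_lit 924) (nat_lit 3641052522) (nat_lit 0) (nat_lit 367687908) (nat_lit 840) (nat_lit 367687908) (nat_lit 222) (nat_lit 1) (nat_lit 211) (nat_lit 1) (nat_lit 221) (nat_lit 1) (nat_lit 235) (nat_lit 259) (nat_lit 226)) (XT.nd (nat_lit 94) (nat_lit 840) (nat_lit 0) (XT.lf (nat_lit 84) (nat_lit 1549400082) (nat_lit 0) (nat_lit 1235626369) (nat_lit 924) (nat_lit 1549400082) (nat_lit 212) (nat_lit 1) (nat_lit 211) (nat_lit 1) (nat_lit 222) (nat_lit 1) (nat_lit 236) (nat_lit 259) (nat_lit 225)) (XT.lf (nat_lit 924) (nat_lit 2559290274) (nat_lit 0) (nat_lit 866923182) (nat_lit 840) (nat_lit 866923182) (nat_lit 212) (nat_lit 1) (nat_lit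 201) (nat_lit 1) (nat_lit 211) (nat_lit 1) (nat_lit 237) (nat_lit 259) (nat_lit 224)))) (XT.nd (nat_lit 188) (nat_lit 756) (nat_lit 0) (XT.nd (nat_lit 94) (nat_lit 756) (nat_lit 0) (XT.lf (nat_lit 84) (nat_lit 1006381301) (nat_lit 0) (nat_lit 2239571896) (nat_lit 924) (nat_lit 1006381301) (nat_lit 202) (nat_lit 1) (nat_lit 201) (nat_lit 1) (nat_lit 212) (nat_lit 1) (nat_lit 238) (nat_lit 259) (nat_lit 223)) (XT.lf (nat_lit 840) (nat_lit 1461813583) (nat_lit 0) (nat_lit 1375124335) (nat_lit 756) (nat_lit 1375124335) (nat_lit 202) (nat_lit 1) (nat_lit 192) (nat_lit 1) (nat_lit 201) (nat_lit 1) (nat_lit 239) (nat_lit 259) (nat_lit 222))) (XT.nd (nat_lit 94) (nat_lit 756) (nat_lit 0) (XT.lf (nat_lit 84) (nat_lit 456041299) (nat_lit 0) (nat_lit 3260345244) (nat_lit 840) (nat_lit 456041299) (nat_lit 193) (nat_lit 1) (nat_lit 192) (nat_lit 1) (nat_lit 202) (nat_lit 1) (nat_lit 240) (nat_lit 259) (nat_lit 221))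 (XT.lf (nat_lit 840) (nat_lit 350621754) (nat_lit 0) (nat_lit 1891258812) (nat_lit 756) (nat_lit 1891258812) (nat_lit 193) (nat_lit 1) (nat_lit 183) (nat_lit 1) (nat_lit 192) (nat_lit 1) (nat_lit 241) (nat_lit 259) (nat_lit 220))))) (XT.nd (nat_lit 282) (nat_lit 1344) (nat_lit 0) (XT.nd (nat_lit 94) (nat_lit 756) (nat_lit 0) (XT.lf (nat_lit 840) (nat_lit 3894727926) (nat_lit 0) (nat_lit 99925228) (nat_lit 756) (nat_lit 99925228) (nat_lit 183) (nat_lit 1) (nat_lit 173) (nat_lit 1) (nat_lit 182) (nat_lit 1) (nat_lit 242) (nat_lit 259) (nat_lit 219)) (XT.nd (nat_lit 94) (nat_lit 756) (nat_lit 0) (XT.lf (nat_lit 84) (nat_lit 1647454338) (nat_lit 0) (nat_lit 761274677) (nat_lit 840) (nat_lit 1647454338) (nat_lit 174) (nat_lit 1) (nat_lit 173) (nat_lit 1) (nat_lit 183) (nat_lit 1) (nat_lit 243) (nat_lit 259) (nat_lit 218)) (XT.lf (nat_lit 840) (nat_lit 2702499403) (nat_lit 0) (nat_lit 657998496) (nat_lit 756)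 (nat_lit 657998496) (nat_lit 174) (nat_lit 1) (nat_lit 164) (nat_lit 1) (nat_lit 173) (nat_lit 1) (nat_lit 244) (nat_lit 259) (nat_lit 217)))) (XT.nd (nat_lit 188) (nat_lit 672) (nat_lit 0) (XT.nd (nat_lit 94) (nat_lit 672) (nat_lit 0) (XT.lf (nat_lit 84) (nat_lit 1051584263) (nat_lit 0) (nat_lit 1878028664) (nat_lit 840) (nat_lit 1051584263) (nat_lit 165) (nat_lit 1) (nat_lit 164) (nat_lit 1) (nat_lit 174) (nat_lit 1) (nat_lit 245) (nat_lit 259) (nat_lit 216)) (XT.lf (nat_lit 756) (nat_lit 1503165960) (nat_lit 0) (nat_lit 1220621381) (nat_lit 672) (nat_lit 1220621381) (nat_lit 165) (nat_lit 1) (nat_lit 156) (nat_lit 1) (nat_lit 164) (nat_lit 1) (nat_lit 246) (nat_lit 259) (nat_lit 215))) (XT.nd (nat_lit 94) (nat_lit 672) (nat_lit 0) (XT.lf (nat_lit 84) (nat_lit 452568165) (nat_lit 0) (nat_lit 3003040284) (nat_lit 756) (nat_lit 452568165) (nat_lit 157) (nat_lit 1) (nat_lit 156) (nat_lit 1) (nat_lit 165)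 (nat_lit 1) (nat_lit 247) (nat_lit 259) (nat_lit 214)) (XT.lf (nat_lit 756) (nat_lit 298276168) (nat_lit 0) (nat_lit 1786990539) (nat_lit 672) (nat_lit 1786990539) (nat_lit 157) (nat_lit 1) (nat_lit 148) (nat_lit 1) (nat_lit 156) (nat_lit 1) (nat_lit 248) (nat_lit 259) (nat_lit 213)))))) (XT.nd (nat_lit 658) (nat_lit 2352) (nat_lit 0) (XT.nd (nat_lit 282) (nat_lit 1260) (nat_lit 0) (XT.nd (nat_lit 94) (nat_lit 672) (nat_lit 0) (XT.lf (nat_lit 756) (nat_lit 3541430320) (nat_lit 0) (nat_lit 147770192) (nat_lit 672) (nat_lit 147770192) (nat_lit 148) (nat_lit 1) (nat_lit 139) (nat_lit 1) (nat_lit 147) (nat_lit 1) (nat_lit 249) (nat_lit 259) (nat_lit 212)) (XT.nd (nat_lit 94) (nat_lit 672) (nat_lit 0) (XT.lf (nat_lit 84) (nat_lit 1452123022) (nat_lit 0) (nat_lit 897596991) (nat_lit 756) (nat_lit 1452123022) (nat_lit 140) (nat_lit 1) (nat_lit 139) (nat_lit 1) (nat_lit 148) (nat_lit 1) (nat_lit 250) (nat_lit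 259) (nat_lit 211)) (XT.lf (nat_lit 756) (nat_lit 2274290831) (nat_lit 0) (nat_lit 746520530) (nat_lit 672) (nat_lit 746520530) (nat_lit 140) (nat_lit 1) (nat_lit 131) (nat_lit 1) (nat_lit 139) (nat_lit 1) (nat_lit 251) (nat_lit 259) (nat_lit 210)))) (XT.nd (nat_lit 188) (nat_lit 672) (nat_lit 0) (XT.nd (nat_lit 94) (nat_lit 588) (nat_lit 0) (XT.lf (nat_lit 84) (nat_lit 820669791) (nat_lit 0) (nat_lit 2091867661) (nat_lit 756) (nat_lit 820669791) (nat_lit 132) (nat_lit 1) (nat_lit 131) (nat_lit 1) (nat_lit 140) (nat_lit 1) (nat_lit 252) (nat_lit 259) (nat_lit 209)) (XT.lf (nat_lit 672) (nat_lit 1006894882) (nat_lit 0) (nat_lit 1346298421) (nat_lit 588) (nat_lit 1346298421) (nat_lit 132) (nat_lit 1) (nat_lit 124) (nat_lit 1) (nat_lit 131) (nat_lit 1) (nat_lit 253) (nat_lit 259) (nat_lit 208))) (XT.nd (nat_lit 94) (nat_lit 672) (nat_lit 0) (XT.lf (nat_lit 84) (nat_lit 189388682) (nat_lit 0) (nat_lit 3287566826)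 (nat_lit 672) (nat_lit 189388682) (nat_lit 125) (nat_lit 1) (nat_lit 124) (nat_lit 1) (nat_lit 132) (nat_lit 1) (nat_lit 254) (nat_lit 259) (nat_lit 207)) (XT.lf (nat_lit 84) (nat_lit 1688758723) (nat_lit 0) (nat_lit 255840602) (nat_lit 672) (nat_lit 1688758723) (nat_lit 117) (nat_lit 1) (nat_lit 116) (nat_lit 1) (nat_lit 124) (nat_lit 1) (nat_lit 255) (nat_lit 259) (nat_lit 206))))) (XT.nd (nat_lit 376) (nat_lit 1176) (nat_lit 0) (XT.nd (nat_lit 188) (nat_lit 588) (nat_lit 0) (XT.nd (nat_lit 94) (nat_lit 0) (nat_lit 0) (XT.lf (nat_lit 672) (nat_lit 2724997450) (nat_lit 0) (nat_lit 437964069) (nat_lit 588) (nat_lit 437964069) (nat_lit 117) (nat_lit 1) (nat_lit 109) (nat_lit 1) (nat_lit 116) (nat_lit 1) (nat_lit 256) (nat_lit 259) (nat_lit 205)) (XT.lf (nat_lit 84) (nat_lit 1033343017) (nat_lit 0) (nat_lit 1502078210) (nat_lit 672) (nat_lit 1033343017) (nat_lit 110) (nat_lit 1) (nat_lit 109) (nat_lit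 1) (nat_lit 117) (nat_lit 1) (nat_lit 257) (nat_lit 259) (nat_lit 204))) (XT.nd (nat_lit 94) (nat_lit 0) (nat_lit 0) (XT.lf (nat_lit 672) (nat_lit 1411689686) (nat_lit 0) (nat_lit 1062685920) (nat_lit 588) (nat_lit 1062685920) (nat_lit 110) (nat_lit 1) (nat_lit 102) (nat_lit 1) (nat_lit 109) (nat_lit 1) (nat_lit 258) (nat_lit 259) (nat_lit 203)) (XT.lf (nat_lit 84) (nat_lit 380258019) (nat_lit 0) (nat_lit 2745303990) (nat_lit 672) (nat_lit 380258019) (nat_lit 103) (nat_lit 1) (nat_lit 102) (nat_lit 1) (nat_lit 110) (nat_lit 1) (nat_lit 259) (nat_lit 259) (nat_lit 202)))) (XT.nd (nat_lit 39668) (nat_lit 0) (nat_lit 16884) (XT.nd (nat_lit 94) (nat_lit 672) (nat_lit 0) (XT.lf (nat_lit 588) (nat_lit 103518602) (nat_lit 0) (nat_lit 1685652667) (nat_lit 504) (nat_lit 1685652667) (nat_lit 103) (nat_lit 1) (nat_lit 96) (nat_lit 1) (nat_lit 102) (nat_lit 1) (nat_lit 260) (nat_lit 259) (nat_lit 201)) (XT.lf (nat_lit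 672) (nat_lit 2908122723) (nat_lit 0) (nat_lit 268093116) (nat_lit 588) (nat_lit 268093116) (nat_lit 96) (nat_lit 1) (nat_lit 88) (nat_lit 1) (nat_lit 95) (nat_lit 1) (nat_lit 261) (nat_lit 259) (nat_lit 200))) (XT.nd (nat_lit 94) (nat_lit 0) (nat_lit 84) (XT.lf (nat_lit 1932) (nat_lit 4740123158) (nat_lit 84) (nat_lit 731798489) (nat_lit 0) (nat_lit 731798489) (nat_lit 312) (nat_lit 1) (nat_lit 290) (nat_lit 1) (nat_lit 289) (nat_lit 0) (nat_lit 201) (nat_lit 260) (nat_lit 259)) (XT.lf (nat_lit 1932) (nat_lit 2324940993) (nat_lit 0) (nat_lit 1486936448) (nat_lit 1848) (nat_lit 2324940993) (nat_lit 313) (nat_lit 1) (nat_lit 290) (nat_lit 1) (nat_lit 312) (nat_lit 1) (nat_lit 202) (nat_lit 260) (nat_lit 258))))))) (XT.nd (nat_lit 1410) (nat_lit 5796) (nat_lit 0) (XT.nd (nat_lit 658) (nat_lit 0) (nat_lit 336) (XT.nd (nat_lit 282) (nat_lit 0) (nat_lit 168) (XT.nd (nat_lit 94) (nat_lit 0) (nat_lit 84) (XT.lf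 (nat_lit 1932) (nat_lit 4550836800) (nat_lit 84) (nat_lit 760144375) (nat_lit 0) (nat_lit 760144375) (nat_lit 313) (nat_lit 1) (nat_lit 291) (nat_lit 1) (nat_lit 290) (nat_lit 1) (nat_lit 203) (nat_lit 260) (nat_lit 257)) (XT.nd (nat_lit 94) (nat_lit 0) (nat_lit 0) (XT.lf (nat_lit 1932) (nat_lit 2210396925) (nat_lit 0) (nat_lit 1585339781) (nat_lit 1848) (nat_lit 2210396925) (nat_lit 314) (nat_lit 1) (nat_lit 291) (nat_lit 1) (nat_lit 313) (nat_lit 1) (nat_lit 204) (nat_lit 260) (nat_lit 256)) (XT.lf (nat_lit 1932) (nat_lit 4282092483) (nat_lit 84) (nat_lit 830100814) (nat_lit 0) (nat_lit 830100814) (nat_lit 314) (nat_lit 1) (nat_lit 292) (nat_lit 1) (nat_lit 291) (nat_lit 1) (nat_lit 205) (nat_lit 260) (nat_lit 255)))) (XT.nd (nat_lit 188) (nat_lit 0) (nat_lit 84) (XT.nd (nat_lit 94) (nat_lit 0) (nat_lit 0) (XT.lf (nat_lit 1932) (nat_lit 2057601726) (nat_lit 0) (nat_lit 1763954323) (nat_lit 1848) (nat_lit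 2057601726) (nat_lit 315) (nat_lit 1) (nat_lit 292) (nat_lit 1) (nat_lit 314) (nat_lit 1) (nat_lit 206) (nat_lit 260) (nat_lit 254)) (XT.lf (nat_lit 1932) (nat_lit 3939158261) (nat_lit 84) (nat_lit 938973922) (nat_lit 0) (nat_lit 938973922) (nat_lit 315) (nat_lit 1) (nat_lit 293) (nat_lit 1) (nat_lit 292) (nat_lit 1) (nat_lit 207) (nat_lit 260) (nat_lit 253))) (XT.nd (nat_lit 94) (nat_lit 0) (nat_lit 0) (XT.lf (nat_lit 1932) (nat_lit 1869112914) (nat_lit 0) (nat_lit 2017547047) (nat_lit 1848) (nat_lit 1869112914) (nat_lit 316) (nat_lit 1) (nat_lit 293) (nat_lit 1) (nat_lit 315) (nat_lit 1) (nat_lit 208) (nat_lit 260) (nat_lit 252)) (XT.lf (nat_lit 1932) (nat_lit 3527037268) (nat_lit 84) (nat_lit 1084204387) (nat_lit 0) (nat_lit 1084204387) (nat_lit 316) (nat_lit 1) (nat_lit 294) (nat_lit 1) (nat_lit 293) (nat_lit 1) (nat_lit 209) (nat_lit 260) (nat_lit 251))))) (XT.nd (nat_lit 376) (nat_lit 0) (nat_lit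 168) (XT.nd (nat_lit 188) (nat_lit 0) (nat_lit 84) (XT.nd (nat_lit 94) (nat_lit 0) (nat_lit 0) (XT.lf (nat_lit 1932) (nat_lit 1647359098) (nat_lit 0) (nat_lit 2341146909) (nat_lit 1848) (nat_lit 1647359098) (nat_lit 317) (nat_lit 1) (nat_lit 294) (nat_lit 1) (nat_lit 316) (nat_lit 1) (nat_lit 210) (nat_lit 260) (nat_lit 250)) (XT.lf (nat_lit 1932) (nat_lit 3050479876) (nat_lit 84) (nat_lit 1263361312) (nat_lit 0) (nat_lit 1263361312) (nat_lit 317) (nat_lit 1) (nat_lit 295) (nat_lit 1) (nat_lit 294) (nat_lit 1) (nat_lit 211) (nat_lit 260) (nat_lit 249))) (XT.nd (nat_lit 94) (nat_lit 0) (nat_lit 0) (XT.lf (nat_lit 1932) (nat_lit 1394645899) (nat_lit 0) (nat_lit 2730032846) (nat_lit 1848) (nat_lit 1394645899) (nat_lit 318) (nat_lit 1) (nat_lit 295) (nat_lit 1) (nat_lit 317) (nat_lit 1) (nat_lit 212) (nat_lit 260) (nat_lit 248)) (XT.lf (nat_lit 1932) (nat_lit 2513995311) (nat_lit 84) (nat_lit 1474136324)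 (nat_lit 0) (nat_lit 1474136324) (nat_lit 318) (nat_lit 1) (nat_lit 296) (nat_lit 1) (nat_lit 295) (nat_lit 1) (nat_lit 213) (nat_lit 260) (nat_lit 247)))) (XT.nd (nat_lit 188) (nat_lit 0) (nat_lit 84) (XT.nd (nat_lit 94) (nat_lit 0) (nat_lit 0) (XT.lf (nat_lit 1932) (nat_lit 1113161609) (nat_lit 0) (nat_lit 3179722309) (nat_lit 1848) (nat_lit 1113161609) (nat_lit 319) (nat_lit 1) (nat_lit 296) (nat_lit 1) (nat_lit 318) (nat_lit 1) (nat_lit 214) (nat_lit 260) (nat_lit 246)) (XT.lf (nat_lit 1932) (nat_lit 1921862765) (nat_lit 84) (nat_lit 1714337951) (nat_lit 0) (nat_lit 1714337951) (nat_lit 319) (nat_lit 1) (nat_lit 297) (nat_lit 1) (nat_lit 296) (nat_lit 1) (nat_lit 215) (nat_lit 260) (nat_lit 245))) (XT.nd (nat_lit 94) (nat_lit 0) (nat_lit 0) (XT.lf (nat_lit 1932) (nat_lit 804982598) (nat_lit 0) (nat_lit 3685960297) (nat_lit 1848) (nat_lit 804982598) (nat_lit 320) (nat_lit 1) (nat_lit 297) (nat_lit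 1) (nat_lit 319) (nat_lit 1) (nat_lit 216) (nat_lit 260) (nat_lit 244)) (XT.lf (nat_lit 1932) (nat_lit 1278142004) (nat_lit 84) (nat_lit 1981886242) (nat_lit 0) (nat_lit 1981886242) (nat_lit 320) (nat_lit 1) (nat_lit 298) (nat_lit 1) (nat_lit 297) (nat_lit 1) (nat_lit 217) (nat_lit 260) (nat_lit 243)))))) (XT.nd (nat_lit 658) (nat_lit 3612) (nat_lit 0) (XT.nd (nat_lit 282) (nat_lit 2856) (nat_lit 0) (XT.nd (nat_lit 94) (nat_lit 0) (nat_lit 0) (XT.lf (nat_lit 1932) (nat_lit 472078485) (nat_lit 0) (nat_lit 4244708878) (nat_lit 1848) (nat_lit 472078485) (nat_lit 321) (nat_lit 1) (nat_lit 298) (nat_lit 1) (nat_lit 320) (nat_lit 1) (nat_lit 218) (nat_lit 260) (nat_lit 242)) (XT.nd (nat_lit 94) (nat_lit 0) (nat_lit 84) (XT.lf (nat_lit 1932) (nat_lit 586683517) (nat_lit 84) (nat_lit 2274807626) (nat_lit 0) (nat_lit 2274807626) (nat_lit 321) (nat_lit 1) (nat_lit 299) (nat_lit 1) (nat_lit 298) (nat_lit 1) (nat_lit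 219) (nat_lit 260) (nat_lit 241)) (XT.lf (nat_lit 1932) (nat_lit 116317081) (nat_lit 0) (nat_lit 4852137171) (nat_lit 1848) (nat_lit 116317081) (nat_lit 322) (nat_lit 1) (nat_lit 299) (nat_lit 1) (nat_lit 321) (nat_lit 1) (nat_lit 220) (nat_lit 260) (nat_lit 240)))) (XT.nd (nat_lit 188) (nat_lit 1008) (nat_lit 0) (XT.nd (nat_lit 94) (nat_lit 0) (nat_lit 0) (XT.lf (nat_lit 2016) (nat_lit 2443428588) (nat_lit 0) (nat_lit 146717703) (nat_lit 1932) (nat_lit 2443428588) (nat_lit 300) (nat_lit 1) (nat_lit 276) (nat_lit 1) (nat_lit 299) (nat_lit 1) (nat_lit 221) (nat_lit 260) (nat_lit 239)) (XT.lf (nat_lit 2016) (nat_lit 4466090169) (nat_lit 84) (nat_lit 258647950) (nat_lit 0) (nat_lit 258647950) (nat_lit 300) (nat_lit 1) (nat_lit 277) (nat_lit 1) (nat_lit 276) (nat_lit 1) (nat_lit 222) (nat_lit 260) (nat_lit 238))) (XT.nd (nat_lit 94) (nat_lit 1092) (nat_lit 0) (XT.lf (nat_lit 84) (nat_lit 2010933934) (nat_lit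 0) (nat_lit 911709892) (nat_lit 1932) (nat_lit 2010933934) (nat_lit 278) (nat_lit 1) (nat_lit 277) (nat_lit 1) (nat_lit 300) (nat_lit 1) (nat_lit 223) (nat_lit 260) (nat_lit 237)) (XT.lf (nat_lit 1176) (nat_lit 3580618852) (nat_lit 0) (nat_lit 652040475) (nat_lit 1092) (nat_lit 652040475) (nat_lit 278) (nat_lit 1) (nat_lit 264) (nat_lit 1) (nat_lit 277) (nat_lit 1) (nat_lit 224) (nat_lit 260) (nat_lit 236))))) (XT.nd (nat_lit 376) (nat_lit 1764) (nat_lit 0) (XT.nd (nat_lit 188) (nat_lit 924) (nat_lit 0) (XT.nd (nat_lit 94) (nat_lit 924) (nat_lit 0) (XT.lf (nat_lit 84) (nat_lit 1561400815) (nat_lit 0) (nat_lit 1713511256) (nat_lit 1176) (nat_lit 1561400815) (nat_lit 265) (nat_lit 1) (nat_lit 264) (nat_lit 1) (nat_lit 278) (nat_lit 1) (nat_lit 225) (nat_lit 260) (nat_lit 235)) (XT.lf (nat_lit 1008) (nat_lit 2662455459) (nat_lit 0) (nat_lit 1063122762) (nat_lit 924) (nat_lit 1063122762) (nat_lit 265) (nat_lit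 1) (nat_lit 253) (nat_lit 1) (nat_lit 264) (nat_lit 1) (nat_lit 226) (nat_lit 260) (nat_lit 234))) (XT.nd (nat_lit 94) (nat_lit 924) (nat_lit 0) (XT.lf (nat_lit 84) (nat_lit 1096318179) (nat_lit 0) (nat_lit 2549060401) (nat_lit 1008) (nat_lit 1096318179) (nat_lit 254) (nat_lit 1) (nat_lit 253) (nat_lit 1) (nat_lit 265) (nat_lit 1) (nat_lit 227) (nat_lit 260) (nat_lit 233)) (XT.lf (nat_lit 1008) (nat_lit 1714507872) (nat_lit 0) (nat_lit 1490399957) (nat_lit 924) (nat_lit 1490399957) (nat_lit 254) (nat_lit 1) (nat_lit 242) (nat_lit 1) (nat_lit 253) (nat_lit 1) (nat_lit 228) (nat_lit 260) (nat_lit 232)))) (XT.nd (nat_lit 188) (nat_lit 924) (nat_lit 0) (XT.nd (nat_lit 94) (nat_lit 840) (nat_lit 0) (XT.lf (nat_lit 84) (nat_lit 617095126) (nat_lit 0) (nat_lit 3415458466) (nat_lit 1008) (nat_lit 617095126) (nat_lit 243) (nat_lit 1) (nat_lit 242) (nat_lit 1) (nat_lit 254) (nat_lit 1) (nat_lit 229) (nat_lit 260)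 (nat_lit 231)) (XT.lf (nat_lit 924) (nat_lit 739527499) (nat_lit 0) (nat_lit 1932456829) (nat_lit 840) (nat_lit 1932456829) (nat_lit 243) (nat_lit 1) (nat_lit 232) (nat_lit 1) (nat_lit 242) (nat_lit 1) (nat_lit 230) (nat_lit 260) (nat_lit 230))) (XT.nd (nat_lit 94) (nat_lit 924) (nat_lit 0) (XT.lf (nat_lit 84) (nat_lit 125064671) (nat_lit 0) (nat_lit 4309961517) (nat_lit 924) (nat_lit 125064671) (nat_lit 233) (nat_lit 1) (nat_lit 232) (nat_lit 1) (nat_lit 243) (nat_lit 1) (nat_lit 231) (nat_lit 260) (nat_lit 229)) (XT.lf (nat_lit 84) (nat_lit 2129921899) (nat_lit 0) (nat_lit 256140202) (nat_lit 924) (nat_lit 2129921899) (nat_lit 222) (nat_lit 1) (nat_lit 221) (nat_lit 1) (nat_lit 232) (nat_lit 1) (nat_lit 232) (nat_lit 260) (nat_lit 228))))))))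
noncomputable def ec20 : XT := (XT.nd (nat_lit 42112) (nat_lit 0) (nat_lit 12096) (XT.nd (nat_lit 1316) (nat_lit 5040) (nat_lit 0) (XT.nd (nat_lit 658) (nat_lit 2940) (nat_lit 0) (XT.nd (nat_lit 282) (nat_lit 1512) (nat_lit 0) (XT.nd (nat_lit 94) (nat_lit 840) (nat_lit 0) (XT.lf (nat_lit 924) (nat_lit 3721155678) (nat_lit 0) (nat_lit 375777042) (nat_lit 840) (nat_lit 375777042) (nat_lit 222) (nat_lit 1) (nat_lit 211) (nat_lit 1) (nat_lit 221) (nat_lit 1) (nat_lit 233) (nat_lit 260) (nat_lit 227)) (XT.nd (nat_lit 94) (nat_lit 840) (nat_lit 0) (XT.lf (nat_lit 84) (nat_lit 1583486883) (nat_lit 0) (nat_lit 1262810149) (nat_lit 924) (nat_lit 1583486883) (nat_lit 212) (nat_lit 1) (nat_lit 211) (nat_lit 1) (nat_lit 222) (nat_lit 1) (nat_lit 234) (nat_lit 260) (nat_lit 226)) (XT.lf (nat_lit 924) (nat_lit 2615594660) (nat_lit 0) (nat_lit 885995492) (nat_lit 840) (nat_lit 885995492) (nat_lit 212) (nat_lit 1) (nat_lit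 201) (nat_lit 1) (nat_lit 211) (nat_lit 1) (nat_lit 235) (nat_lit 260) (nat_lit 225)))) (XT.nd (nat_lit 188) (nat_lit 756) (nat_lit 0) (XT.nd (nat_lit 94) (nat_lit 756) (nat_lit 0) (XT.lf (nat_lit 84) (nat_lit 1028521689) (nat_lit 0) (nat_lit 2288842478) (nat_lit 924) (nat_lit 1028521689) (nat_lit 202) (nat_lit 1) (nat_lit 201) (nat_lit 1) (nat_lit 212) (nat_lit 1) (nat_lit 236) (nat_lit 260) (nat_lit 224)) (XT.lf (nat_lit 840) (nat_lit 1493973482) (nat_lit 0) (nat_lit 1405377070) (nat_lit 756) (nat_lit 1405377070) (nat_lit 202) (nat_lit 1) (nat_lit 192) (nat_lit 1) (nat_lit 201) (nat_lit 1) (nat_lit 237) (nat_lit 260) (nat_lit 223))) (XT.nd (nat_lit 94) (nat_lit 756) (nat_lit 0) (XT.lf (nat_lit 84) (nat_lit 466074208) (nat_lit 0) (nat_lit 3332072839) (nat_lit 840) (nat_lit 466074208) (nat_lit 193) (nat_lit 1) (nat_lit 192) (nat_lit 1) (nat_lit 202) (nat_lit 1) (nat_lit 238) (nat_lit 260) (nat_lit 222))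 (XT.lf (nat_lit 840) (nat_lit 358335432) (nat_lit 0) (nat_lit 1932866506) (nat_lit 756) (nat_lit 1932866506) (nat_lit 193) (nat_lit 1) (nat_lit 183) (nat_lit 1) (nat_lit 192) (nat_lit 1) (nat_lit 239) (nat_lit 260) (nat_lit 221))))) (XT.nd (nat_lit 282) (nat_lit 1344) (nat_lit 0) (XT.nd (nat_lit 94) (nat_lit 756) (nat_lit 0) (XT.lf (nat_lit 840) (nat_lit 3980411940) (nat_lit 0) (nat_lit 102123583) (nat_lit 756) (nat_lit 102123583) (nat_lit 183) (nat_lit 1) (nat_lit 173) (nat_lit 1) (nat_lit 182) (nat_lit 1) (nat_lit 240) (nat_lit 260) (nat_lit 220)) (XT.nd (nat_lit 94) (nat_lit 756) (nat_lit 0) (XT.lf (nat_lit 84) (nat_lit 1683698334) (nat_lit 0) (nat_lit 778022720) (nat_lit 840) (nat_lit 1683698334) (nat_lit 174) (nat_lit 1) (nat_lit 173) (nat_lit 1) (nat_lit 183) (nat_lit 1) (nat_lit 241) (nat_lit 260) (nat_lit 219)) (XT.lf (nat_lit 840) (nat_lit 2761954390) (nat_lit 0) (nat_lit 672474463) (nat_lit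 756) (nat_lit 672474463) (nat_lit 174) (nat_lit 1) (nat_lit 164) (nat_lit 1) (nat_lit 173) (nat_lit 1) (nat_lit 242) (nat_lit 260) (nat_lit 218)))) (XT.nd (nat_lit 188) (nat_lit 672) (nat_lit 0) (XT.nd (nat_lit 94) (nat_lit 672) (nat_lit 0) (XT.lf (nat_lit 84) (nat_lit 1074719117) (nat_lit 0) (nat_lit 1919345294) (nat_lit 840) (nat_lit 1074719117) (nat_lit 165) (nat_lit 1) (nat_lit 164) (nat_lit 1) (nat_lit 174) (nat_lit 1) (nat_lit 243) (nat_lit 260) (nat_lit 217)) (XT.lf (nat_lit 756) (nat_lit 1536235611) (nat_lit 0) (nat_lit 1247475051) (nat_lit 672) (nat_lit 1247475051) (nat_lit 165) (nat_lit 1) (nat_lit 156) (nat_lit 1) (nat_lit 164) (nat_lit 1) (nat_lit 244) (nat_lit 260) (nat_lit 216))) (XT.nd (nat_lit 94) (nat_lit 672) (nat_lit 0) (XT.lf (nat_lit 84) (nat_lit 462524665) (nat_lit 0) (nat_lit 3069107171) (nat_lit 756) (nat_lit 462524665) (nat_lit 157) (nat_lit 1) (nat_lit 156) (nat_lit 1) (nat_lit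 165) (nat_lit 1) (nat_lit 245) (nat_lit 260) (nat_lit 215)) (XT.lf (nat_lit 756) (nat_lit 304838244) (nat_lit 0) (nat_lit 1826304331) (nat_lit 672) (nat_lit 1826304331) (nat_lit 157) (nat_lit 1) (nat_lit 148) (nat_lit 1) (nat_lit 156) (nat_lit 1) (nat_lit 246) (nat_lit 260) (nat_lit 214)))))) (XT.nd (nat_lit 658) (nat_lit 2352) (nat_lit 0) (XT.nd (nat_lit 282) (nat_lit 1260) (nat_lit 0) (XT.nd (nat_lit 94) (nat_lit 672) (nat_lit 0) (XT.lf (nat_lit 756) (nat_lit 3619341787) (nat_lit 0) (nat_lit 151021136) (nat_lit 672) (nat_lit 151021136) (nat_lit 148) (nat_lit 1) (nat_lit 139) (nat_lit 1) (nat_lit 147) (nat_lit 1) (nat_lit 247) (nat_lit 260) (nat_lit 213)) (XT.nd (nat_lit 94) (nat_lit 672) (nat_lit 0) (XT.lf (nat_lit 84) (nat_lit 1484069728) (nat_lit 0) (nat_lit 917344124) (nat_lit 756) (nat_lit 1484069728) (nat_lit 140) (nat_lit 1) (nat_lit 139) (nat_lit 1) (nat_lit 148) (nat_lit 1) (nat_lit 248) (nat_lit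 260) (nat_lit 212)) (XT.lf (nat_lit 756) (nat_lit 2324325230) (nat_lit 0) (nat_lit 762943981) (nat_lit 672) (nat_lit 762943981) (nat_lit 140) (nat_lit 1) (nat_lit 131) (nat_lit 1) (nat_lit 139) (nat_lit 1) (nat_lit 249) (nat_lit 260) (nat_lit 211)))) (XT.nd (nat_lit 188) (nat_lit 672) (nat_lit 0) (XT.nd (nat_lit 94) (nat_lit 588) (nat_lit 0) (XT.lf (nat_lit 84) (nat_lit 838724526) (nat_lit 0) (nat_lit 2137888749) (nat_lit 756) (nat_lit 838724526) (nat_lit 132) (nat_lit 1) (nat_lit 131) (nat_lit 1) (nat_lit 140) (nat_lit 1) (nat_lit 250) (nat_lit 260) (nat_lit 210)) (XT.lf (nat_lit 672) (nat_lit 1029046570) (nat_lit 0) (nat_lit 1375916986) (nat_lit 588) (nat_lit 1375916986) (nat_lit 132) (nat_lit 1) (nat_lit 124) (nat_lit 1) (nat_lit 131) (nat_lit 1) (nat_lit 251) (nat_lit 260) (nat_lit 209))) (XT.nd (nat_lit 94) (nat_lit 672) (nat_lit 0) (XT.lf (nat_lit 84) (nat_lit 193555233) (nat_lit 0) (nat_lit 3359893296)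 (nat_lit 672) (nat_lit 193555233) (nat_lit 125) (nat_lit 1) (nat_lit 124) (nat_lit 1) (nat_lit 132) (nat_lit 1) (nat_lit 252) (nat_lit 260) (nat_lit 208)) (XT.lf (nat_lit 84) (nat_lit 1725911415) (nat_lit 0) (nat_lit 261469095) (nat_lit 672) (nat_lit 1725911415) (nat_lit 117) (nat_lit 1) (nat_lit 116) (nat_lit 1) (nat_lit 124) (nat_lit 1) (nat_lit 253) (nat_lit 260) (nat_lit 207))))) (XT.nd (nat_lit 376) (nat_lit 1176) (nat_lit 0) (XT.nd (nat_lit 188) (nat_lit 588) (nat_lit 0) (XT.nd (nat_lit 94) (nat_lit 0) (nat_lit 0) (XT.lf (nat_lit 672) (nat_lit 2784947394) (nat_lit 0) (nat_lit 447599278) (nat_lit 588) (nat_lit 447599278) (nat_lit 117) (nat_lit 1) (nat_lit 109) (nat_lit 1) (nat_lit 116) (nat_lit 1) (nat_lit 254) (nat_lit 260) (nat_lit 206)) (XT.lf (nat_lit 84) (nat_lit 1056076563) (nat_lit 0) (nat_lit 1535123930) (nat_lit 672) (nat_lit 1056076563) (nat_lit 110) (nat_lit 1) (nat_lit 109) (nat_lit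 1) (nat_lit 117) (nat_lit 1) (nat_lit 255) (nat_lit 260) (nat_lit 205))) (XT.nd (nat_lit 94) (nat_lit 0) (nat_lit 0) (XT.lf (nat_lit 672) (nat_lit 1442746859) (nat_lit 0) (nat_lit 1086065010) (nat_lit 588) (nat_lit 1086065010) (nat_lit 110) (nat_lit 1) (nat_lit 102) (nat_lit 1) (nat_lit 109) (nat_lit 1) (nat_lit 256) (nat_lit 260) (nat_lit 204)) (XT.lf (nat_lit 84) (nat_lit 388623695) (nat_lit 0) (nat_lit 2805700677) (nat_lit 672) (nat_lit 388623695) (nat_lit 103) (nat_lit 1) (nat_lit 102) (nat_lit 1) (nat_lit 110) (nat_lit 1) (nat_lit 257) (nat_lit 260) (nat_lit 203)))) (XT.nd (nat_lit 188) (nat_lit 0) (nat_lit 0) (XT.nd (nat_lit 94) (nat_lit 672) (nat_lit 0) (XT.lf (nat_lit 588) (nat_lit 105796012) (nat_lit 0) (nat_lit 1722737025) (nat_lit 504) (nat_lit 1722737025) (nat_lit 103) (nat_lit 1) (nat_lit 96) (nat_lit 1) (nat_lit 102) (nat_lit 1) (nat_lit 258) (nat_lit 260) (nat_lit 202)) (XT.lf (nat_lit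 672) (nat_lit 2972101422) (nat_lit 0) (nat_lit 273991165) (nat_lit 588) (nat_lit 273991165) (nat_lit 96) (nat_lit 1) (nat_lit 88) (nat_lit 1) (nat_lit 95) (nat_lit 1) (nat_lit 259) (nat_lit 260) (nat_lit 201))) (XT.nd (nat_lit 39480) (nat_lit 0) (nat_lit 16884) (XT.lf (nat_lit 84) (nat_lit 1140859819) (nat_lit 0) (nat_lit 1207367149) (nat_lit 672) (nat_lit 1140859819) (nat_lit 89) (nat_lit 1) (nat_lit 88) (nat_lit 1) (nat_lit 96) (nat_lit 1) (nat_lit 260) (nat_lit 260) (nat_lit 200)) (XT.lf (nat_lit 1932) (nat_lit 4844405867) (nat_lit 84) (nat_lit 747898056) (nat_lit 0) (nat_lit 747898056) (nat_lit 312) (nat_lit 1) (nat_lit 290) (nat_lit 1) (nat_lit 289) (nat_lit 0) (nat_lit 199) (nat_lit 261) (nat_lit 260))))))) (XT.nd (nat_lit 1316) (nat_lit 4872) (nat_lit 0) (XT.nd (nat_lit 658) (nat_lit 0) (nat_lit 252) (XT.nd (nat_lit 282) (nat_lit 0) (nat_lit 84) (XT.nd (nat_lit 94) (nat_lit 0) (nat_lit 0) (XT.lf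 (nat_lit 1932) (nat_lit 2376089695) (nat_lit 0) (nat_lit 1519649050) (nat_lit 1848) (nat_lit 2376089695) (nat_lit 313) (nat_lit 1) (nat_lit 290) (nat_lit 1) (nat_lit 312) (nat_lit 1) (nat_lit 200) (nat_lit 261) (nat_lit 259)) (XT.nd (nat_lit 94) (nat_lit 0) (nat_lit 84) (XT.lf (nat_lit 1932) (nat_lit 4650955210) (nat_lit 84) (nat_lit 776867551) (nat_lit 0) (nat_lit 776867551) (nat_lit 313) (nat_lit 1) (nat_lit 291) (nat_lit 1) (nat_lit 290) (nat_lit 1) (nat_lit 201) (nat_lit 261) (nat_lit 258)) (XT.lf (nat_lit 1932) (nat_lit 2259025658) (nat_lit 0) (nat_lit 1620217256) (nat_lit 1848) (nat_lit 2259025658) (nat_lit 314) (nat_lit 1) (nat_lit 291) (nat_lit 1) (nat_lit 313) (nat_lit 1) (nat_lit 202) (nat_lit 261) (nat_lit 257)))) (XT.nd (nat_lit 188) (nat_lit 0) (nat_lit 84) (XT.nd (nat_lit 94) (nat_lit 0) (nat_lit 84) (XT.lf (nat_lit 1932) (nat_lit 4376298518) (nat_lit 84) (nat_lit 848363032) (nat_lit 0)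 (nat_lit 848363032) (nat_lit 314) (nat_lit 1) (nat_lit 292) (nat_lit 1) (nat_lit 291) (nat_lit 1) (nat_lit 203) (nat_lit 261) (nat_lit 256)) (XT.lf (nat_lit 1932) (nat_lit 2102868964) (nat_lit 0) (nat_lit 1802761318) (nat_lit 1848) (nat_lit 2102868964) (nat_lit 315) (nat_lit 1) (nat_lit 292) (nat_lit 1) (nat_lit 314) (nat_lit 1) (nat_lit 204) (nat_lit 261) (nat_lit 255))) (XT.nd (nat_lit 94) (nat_lit 0) (nat_lit 84) (XT.lf (nat_lit 1932) (nat_lit 4025819743) (nat_lit 84) (nat_lit 959631348) (nat_lit 0) (nat_lit 959631348) (nat_lit 315) (nat_lit 1) (nat_lit 293) (nat_lit 1) (nat_lit 292) (nat_lit 1) (nat_lit 205) (nat_lit 261) (nat_lit 254)) (XT.lf (nat_lit 1932) (nat_lit 1910233398) (nat_lit 0) (nat_lit 2061933082) (nat_lit 1848) (nat_lit 1910233398) (nat_lit 316) (nat_lit 1) (nat_lit 293) (nat_lit 1) (nat_lit 315) (nat_lit 1) (nat_lit 206) (nat_lit 261) (nat_lit 253))))) (XT.nd (nat_lit 282) (nat_lit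 0) (nat_lit 168) (XT.nd (nat_lit 94) (nat_lit 0) (nat_lit 84) (XT.lf (nat_lit 1932) (nat_lit 3604632088) (nat_lit 84) (nat_lit 1108056884) (nat_lit 0) (nat_lit 1108056884) (nat_lit 316) (nat_lit 1) (nat_lit 294) (nat_lit 1) (nat_lit 293) (nat_lit 1) (nat_lit 207) (nat_lit 261) (nat_lit 252)) (XT.nd (nat_lit 94) (nat_lit 0) (nat_lit 0) (XT.lf (nat_lit 1932) (nat_lit 1683600998) (nat_lit 0) (nat_lit 2392652141) (nat_lit 1848) (nat_lit 1683600998) (nat_lit 317) (nat_lit 1) (nat_lit 294) (nat_lit 1) (nat_lit 316) (nat_lit 1) (nat_lit 208) (nat_lit 261) (nat_lit 251)) (XT.lf (nat_lit 1932) (nat_lit 3117590433) (nat_lit 84) (nat_lit 1291155261) (nat_lit 0) (nat_lit 1291155261) (nat_lit 317) (nat_lit 1) (nat_lit 295) (nat_lit 1) (nat_lit 294) (nat_lit 1) (nat_lit 209) (nat_lit 261) (nat_lit 250)))) (XT.nd (nat_lit 188) (nat_lit 0) (nat_lit 84) (XT.nd (nat_lit 94) (nat_lit 0) (nat_lit 0) (XT.lf (nat_lit 1932)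 (nat_lit 1425328109) (nat_lit 0) (nat_lit 2790093569) (nat_lit 1848) (nat_lit 1425328109) (nat_lit 318) (nat_lit 1) (nat_lit 295) (nat_lit 1) (nat_lit 317) (nat_lit 1) (nat_lit 210) (nat_lit 261) (nat_lit 249)) (XT.lf (nat_lit 1932) (nat_lit 2569303208) (nat_lit 84) (nat_lit 1506567323) (nat_lit 0) (nat_lit 1506567323) (nat_lit 318) (nat_lit 1) (nat_lit 296) (nat_lit 1) (nat_lit 295) (nat_lit 1) (nat_lit 211) (nat_lit 261) (nat_lit 248))) (XT.nd (nat_lit 94) (nat_lit 0) (nat_lit 0) (XT.lf (nat_lit 1932) (nat_lit 1137651164) (nat_lit 0) (nat_lit 3249676200) (nat_lit 1848) (nat_lit 1137651164) (nat_lit 319) (nat_lit 1) (nat_lit 296) (nat_lit 1) (nat_lit 318) (nat_lit 1) (nat_lit 212) (nat_lit 261) (nat_lit 247)) (XT.lf (nat_lit 1932) (nat_lit 1964143746) (nat_lit 84) (nat_lit 1752053386) (nat_lit 0) (nat_lit 1752053386) (nat_lit 319) (nat_lit 1) (nat_lit 297) (nat_lit 1) (nat_lit 296) (nat_lit 1) (nat_lit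 213) (nat_lit 261) (nat_lit 246)))))) (XT.nd (nat_lit 658) (nat_lit 3696) (nat_lit 0) (XT.nd (nat_lit 282) (nat_lit 1764) (nat_lit 0) (XT.nd (nat_lit 94) (nat_lit 0) (nat_lit 0) (XT.lf (nat_lit 1932) (nat_lit 822692215) (nat_lit 0) (nat_lit 3767051424) (nat_lit 1848) (nat_lit 822692215) (nat_lit 320) (nat_lit 1) (nat_lit 297) (nat_lit 1) (nat_lit 319) (nat_lit 1) (nat_lit 214) (nat_lit 261) (nat_lit 245)) (XT.nd (nat_lit 94) (nat_lit 0) (nat_lit 84) (XT.lf (nat_lit 1932) (nat_lit 1306261128) (nat_lit 84) (nat_lit 2025487740) (nat_lit 0) (nat_lit 2025487740) (nat_lit 320) (nat_lit 1) (nat_lit 298) (nat_lit 1) (nat_lit 297) (nat_lit 1) (nat_lit 215) (nat_lit 261) (nat_lit 244)) (XT.lf (nat_lit 1932) (nat_lit 482464212) (nat_lit 0) (nat_lit 4338092474) (nat_lit 1848) (nat_lit 482464212) (nat_lit 321) (nat_lit 1) (nat_lit 298) (nat_lit 1) (nat_lit 320) (nat_lit 1) (nat_lit 216) (nat_lit 261) (nat_lit 243))))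 (XT.nd (nat_lit 188) (nat_lit 1848) (nat_lit 0) (XT.nd (nat_lit 94) (nat_lit 0) (nat_lit 84) (XT.lf (nat_lit 1932) (nat_lit 599590555) (nat_lit 84) (nat_lit 2324853394) (nat_lit 0) (nat_lit 2324853394) (nat_lit 321) (nat_lit 1) (nat_lit 299) (nat_lit 1) (nat_lit 298) (nat_lit 1) (nat_lit 217) (nat_lit 261) (nat_lit 242)) (XT.lf (nat_lit 1932) (nat_lit 118876056) (nat_lit 0) (nat_lit 4958884189) (nat_lit 1848) (nat_lit 118876056) (nat_lit 322) (nat_lit 1) (nat_lit 299) (nat_lit 1) (nat_lit 321) (nat_lit 1) (nat_lit 218) (nat_lit 261) (nat_lit 241))) (XT.nd (nat_lit 94) (nat_lit 0) (nat_lit 0) (XT.lf (nat_lit 2016) (nat_lit 2497184017) (nat_lit 0) (nat_lit 149945492) (nat_lit 1932) (nat_lit 2497184017) (nat_lit 300) (nat_lit 1) (nat_lit 276) (nat_lit 1) (nat_lit 299) (nat_lit 1) (nat_lit 219) (nat_lit 261) (nat_lit 240)) (XT.lf (nat_lit 2016) (nat_lit 4564344153) (nat_lit 84) (nat_lit 264338205) (nat_lit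 0) (nat_lit 264338205) (nat_lit 300) (nat_lit 1) (nat_lit 277) (nat_lit 1) (nat_lit 276) (nat_lit 1) (nat_lit 220) (nat_lit 261) (nat_lit 239))))) (XT.nd (nat_lit 376) (nat_lit 1764) (nat_lit 0) (XT.nd (nat_lit 188) (nat_lit 924) (nat_lit 0) (XT.nd (nat_lit 94) (nat_lit 1092) (nat_lit 0) (XT.lf (nat_lit 84) (nat_lit 2055174480) (nat_lit 0) (nat_lit 931767509) (nat_lit 1932) (nat_lit 2055174480) (nat_lit 278) (nat_lit 1) (nat_lit 277) (nat_lit 1) (nat_lit 300) (nat_lit 1) (nat_lit 221) (nat_lit 261) (nat_lit 238)) (XT.lf (nat_lit 1176) (nat_lit 3659392466) (nat_lit 0) (nat_lit 666385365) (nat_lit 1092) (nat_lit 666385365) (nat_lit 278) (nat_lit 1) (nat_lit 264) (nat_lit 1) (nat_lit 277) (nat_lit 1) (nat_lit 222) (nat_lit 261) (nat_lit 237))) (XT.nd (nat_lit 94) (nat_lit 924) (nat_lit 0) (XT.lf (nat_lit 84) (nat_lit 1595751633) (nat_lit 0) (nat_lit 1751208504) (nat_lit 1176) (nat_lit 1595751633) (nat_lit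 265) (nat_lit 1) (nat_lit 264) (nat_lit 1) (nat_lit 278) (nat_lit 1) (nat_lit 223) (nat_lit 261) (nat_lit 236)) (XT.lf (nat_lit 1008) (nat_lit 2721029479) (nat_lit 0) (nat_lit 1086511463) (nat_lit 924) (nat_lit 1086511463) (nat_lit 265) (nat_lit 1) (nat_lit 253) (nat_lit 1) (nat_lit 264) (nat_lit 1) (nat_lit 224) (nat_lit 261) (nat_lit 235)))) (XT.nd (nat_lit 188) (nat_lit 840) (nat_lit 0) (XT.nd (nat_lit 94) (nat_lit 924) (nat_lit 0) (XT.lf (nat_lit 84) (nat_lit 1120437178) (nat_lit 0) (nat_lit 2605139729) (nat_lit 1008) (nat_lit 1120437178) (nat_lit 254) (nat_lit 1) (nat_lit 253) (nat_lit 1) (nat_lit 265) (nat_lit 1) (nat_lit 225) (nat_lit 261) (nat_lit 234)) (XT.lf (nat_lit 1008) (nat_lit 1752227045) (nat_lit 0) (nat_lit 1523188756) (nat_lit 924) (nat_lit 1523188756) (nat_lit 254) (nat_lit 1) (nat_lit 242) (nat_lit 1) (nat_lit 253) (nat_lit 1) (nat_lit 226) (nat_lit 261) (nat_lit 233))) (XT.nd (nat_lit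 94) (nat_lit 840) (nat_lit 0) (XT.lf (nat_lit 84) (nat_lit 630671219) (nat_lit 0) (nat_lit 3490598552) (nat_lit 1008) (nat_lit 630671219) (nat_lit 243) (nat_lit 1) (nat_lit 242) (nat_lit 1) (nat_lit 254) (nat_lit 1) (nat_lit 227) (nat_lit 261) (nat_lit 232)) (XT.lf (nat_lit 924) (nat_lit 755797104) (nat_lit 0) (nat_lit 1974970879) (nat_lit 840) (nat_lit 1974970879) (nat_lit 243) (nat_lit 1) (nat_lit 232) (nat_lit 1) (nat_lit 242) (nat_lit 1) (nat_lit 228) (nat_lit 261) (nat_lit 231))))))))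
noncomputable def ec21 : XT := (XT.nd (nat_lit 2726) (nat_lit 504) (nat_lit 0) (XT.nd (nat_lit 1316) (nat_lit 5712) (nat_lit 0) (XT.nd (nat_lit 658) (nat_lit 3024) (nat_lit 0) (XT.nd (nat_lit 282) (nat_lit 1596) (nat_lit 0) (XT.nd (nat_lit 94) (nat_lit 1764) (nat_lit 0) (XT.lf (nat_lit 84) (nat_lit 127816093) (nat_lit 0) (nat_lit 4404780671) (nat_lit 924) (nat_lit 127816093) (nat_lit 233) (nat_lit 1) (nat_lit 232) (nat_lit 1) (nat_lit 243) (nat_lit 1) (nat_lit 229) (nat_lit 261) (nat_lit 230)) (XT.nd (nat_lit 94) (nat_lit 840) (nat_lit 0) (XT.lf (nat_lit 84) (nat_lit 2176780181) (nat_lit 0) (nat_lit 261775287) (nat_lit 924) (nat_lit 2176780181) (nat_lit 222) (nat_lit 1) (nat_lit 221) (nat_lit 1) (nat_lit 232) (nat_lit 1) (nat_lit 230) (nat_lit 261) (nat_lit 229)) (XT.lf (nat_lit 924) (nat_lit 3803021103) (nat_lit 0) (nat_lit 384044137) (nat_lit 840) (nat_lit 384044137) (nat_lit 222) (nat_lit 1) (nat_lit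 211) (nat_lit 1) (nat_lit 221) (nat_lit 1) (nat_lit 231) (nat_lit 261) (nat_lit 228)))) (XT.nd (nat_lit 188) (nat_lit 756) (nat_lit 0) (XT.nd (nat_lit 94) (nat_lit 840) (nat_lit 0) (XT.lf (nat_lit 84) (nat_lit 1618323595) (nat_lit 0) (nat_lit 1290591973) (nat_lit 924) (nat_lit 1618323595) (nat_lit 212) (nat_lit 1) (nat_lit 211) (nat_lit 1) (nat_lit 222) (nat_lit 1) (nat_lit 232) (nat_lit 261) (nat_lit 227)) (XT.lf (nat_lit 924) (nat_lit 2673137742) (nat_lit 0) (nat_lit 905487393) (nat_lit 840) (nat_lit 905487393) (nat_lit 212) (nat_lit 1) (nat_lit 201) (nat_lit 1) (nat_lit 211) (nat_lit 1) (nat_lit 233) (nat_lit 261) (nat_lit 226))) (XT.nd (nat_lit 94) (nat_lit 756) (nat_lit 0) (XT.lf (nat_lit 84) (nat_lit 1051149167) (nat_lit 0) (nat_lit 2339197013) (nat_lit 924) (nat_lit 1051149167) (nat_lit 202) (nat_lit 1) (nat_lit 201) (nat_lit 1) (nat_lit 212) (nat_lit 1) (nat_lit 234) (nat_lit 261) (nat_lit 225))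 (XT.lf (nat_lit 840) (nat_lit 1526840899) (nat_lit 0) (nat_lit 1436295365) (nat_lit 756) (nat_lit 1436295365) (nat_lit 202) (nat_lit 1) (nat_lit 192) (nat_lit 1) (nat_lit 201) (nat_lit 1) (nat_lit 235) (nat_lit 261) (nat_lit 224))))) (XT.nd (nat_lit 282) (nat_lit 1428) (nat_lit 0) (XT.nd (nat_lit 94) (nat_lit 1596) (nat_lit 0) (XT.lf (nat_lit 84) (nat_lit 476327840) (nat_lit 0) (nat_lit 3405378441) (nat_lit 840) (nat_lit 476327840) (nat_lit 193) (nat_lit 1) (nat_lit 192) (nat_lit 1) (nat_lit 202) (nat_lit 1) (nat_lit 236) (nat_lit 261) (nat_lit 223)) (XT.nd (nat_lit 94) (nat_lit 840) (nat_lit 0) (XT.lf (nat_lit 840) (nat_lit 366218812) (nat_lit 0) (nat_lit 1975389569) (nat_lit 756) (nat_lit 1975389569) (nat_lit 193) (nat_lit 1) (nat_lit 183) (nat_lit 1) (nat_lit 192) (nat_lit 1) (nat_lit 237) (nat_lit 261) (nat_lit 222)) (XT.lf (nat_lit 840) (nat_lit 4067981003) (nat_lit 0) (nat_lit 104370301) (nat_lit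 756) (nat_lit 104370301) (nat_lit 183) (nat_lit 1) (nat_lit 173) (nat_lit 1) (nat_lit 182) (nat_lit 1) (nat_lit 238) (nat_lit 261) (nat_lit 221)))) (XT.nd (nat_lit 188) (nat_lit 672) (nat_lit 0) (XT.nd (nat_lit 94) (nat_lit 756) (nat_lit 0) (XT.lf (nat_lit 84) (nat_lit 1720739697) (nat_lit 0) (nat_lit 795139220) (nat_lit 840) (nat_lit 1720739697) (nat_lit 174) (nat_lit 1) (nat_lit 173) (nat_lit 1) (nat_lit 183) (nat_lit 1) (nat_lit 239) (nat_lit 261) (nat_lit 220)) (XT.lf (nat_lit 840) (nat_lit 2822717386) (nat_lit 0) (nat_lit 687268901) (nat_lit 756) (nat_lit 687268901) (nat_lit 174) (nat_lit 1) (nat_lit 164) (nat_lit 1) (nat_lit 173) (nat_lit 1) (nat_lit 240) (nat_lit 261) (nat_lit 219))) (XT.nd (nat_lit 94) (nat_lit 672) (nat_lit 0) (XT.lf (nat_lit 84) (nat_lit 1098362937) (nat_lit 0) (nat_lit 1961570891) (nat_lit 840) (nat_lit 1098362937) (nat_lit 165) (nat_lit 1) (nat_lit 164) (nat_lit 1) (nat_lit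 174) (nat_lit 1) (nat_lit 241) (nat_lit 261) (nat_lit 218)) (XT.lf (nat_lit 756) (nat_lit 1570032794) (nat_lit 0) (nat_lit 1274919503) (nat_lit 672) (nat_lit 1274919503) (nat_lit 165) (nat_lit 1) (nat_lit 156) (nat_lit 1) (nat_lit 164) (nat_lit 1) (nat_lit 242) (nat_lit 261) (nat_lit 217)))))) (XT.nd (nat_lit 658) (nat_lit 3024) (nat_lit 0) (XT.nd (nat_lit 282) (nat_lit 1260) (nat_lit 0) (XT.nd (nat_lit 94) (nat_lit 1428) (nat_lit 0) (XT.lf (nat_lit 84) (nat_lit 472700208) (nat_lit 0) (nat_lit 3136627528) (nat_lit 756) (nat_lit 472700208) (nat_lit 157) (nat_lit 1) (nat_lit 156) (nat_lit 1) (nat_lit 165) (nat_lit 1) (nat_lit 243) (nat_lit 261) (nat_lit 216)) (XT.nd (nat_lit 94) (nat_lit 756) (nat_lit 0) (XT.lf (nat_lit 756) (nat_lit 311544686) (nat_lit 0) (nat_lit 1866483027) (nat_lit 672) (nat_lit 1866483027) (nat_lit 157) (nat_lit 1) (nat_lit 148) (nat_lit 1) (nat_lit 156) (nat_lit 1) (nat_lit 244)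 (nat_lit 261) (nat_lit 215)) (XT.lf (nat_lit 756) (nat_lit 3698967307) (nat_lit 0) (nat_lit 154343601) (nat_lit 672) (nat_lit 154343601) (nat_lit 148) (nat_lit 1) (nat_lit 139) (nat_lit 1) (nat_lit 147) (nat_lit 1) (nat_lit 245) (nat_lit 261) (nat_lit 214)))) (XT.nd (nat_lit 188) (nat_lit 588) (nat_lit 0) (XT.nd (nat_lit 94) (nat_lit 672) (nat_lit 0) (XT.lf (nat_lit 84) (nat_lit 1516719262) (nat_lit 0) (nat_lit 937525695) (nat_lit 756) (nat_lit 1516719262) (nat_lit 140) (nat_lit 1) (nat_lit 139) (nat_lit 1) (nat_lit 148) (nat_lit 1) (nat_lit 246) (nat_lit 261) (nat_lit 213)) (XT.lf (nat_lit 756) (nat_lit 2375460385) (nat_lit 0) (nat_lit 779728749) (nat_lit 672) (nat_lit 779728749) (nat_lit 140) (nat_lit 1) (nat_lit 131) (nat_lit 1) (nat_lit 139) (nat_lit 1) (nat_lit 247) (nat_lit 261) (nat_lit 212))) (XT.nd (nat_lit 94) (nat_lit 588) (nat_lit 0) (XT.lf (nat_lit 84) (nat_lit 857176465) (nat_lit 0) (nat_lit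 2184922302) (nat_lit 756) (nat_lit 857176465) (nat_lit 132) (nat_lit 1) (nat_lit 131) (nat_lit 1) (nat_lit 140) (nat_lit 1) (nat_lit 248) (nat_lit 261) (nat_lit 211)) (XT.lf (nat_lit 672) (nat_lit 1051685594) (nat_lit 0) (nat_lit 1406187160) (nat_lit 588) (nat_lit 1406187160) (nat_lit 132) (nat_lit 1) (nat_lit 124) (nat_lit 1) (nat_lit 131) (nat_lit 1) (nat_lit 249) (nat_lit 261) (nat_lit 210))))) (XT.nd (nat_lit 376) (nat_lit 1764) (nat_lit 0) (XT.nd (nat_lit 188) (nat_lit 588) (nat_lit 0) (XT.nd (nat_lit 94) (nat_lit 672) (nat_lit 0) (XT.lf (nat_lit 84) (nat_lit 197813448) (nat_lit 0) (nat_lit 3433810949) (nat_lit 672) (nat_lit 197813448) (nat_lit 125) (nat_lit 1) (nat_lit 124) (nat_lit 1) (nat_lit 132) (nat_lit 1) (nat_lit 250) (nat_lit 261) (nat_lit 209)) (XT.lf (nat_lit 84) (nat_lit 1763881467) (nat_lit 0) (nat_lit 267221415) (nat_lit 672) (nat_lit 1763881467) (nat_lit 117) (nat_lit 1) (nat_lit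 116) (nat_lit 1) (nat_lit 124) (nat_lit 1) (nat_lit 251) (nat_lit 261) (nat_lit 208))) (XT.nd (nat_lit 94) (nat_lit 0) (nat_lit 0) (XT.lf (nat_lit 672) (nat_lit 2846216236) (nat_lit 0) (nat_lit 457446462) (nat_lit 588) (nat_lit 457446462) (nat_lit 117) (nat_lit 1) (nat_lit 109) (nat_lit 1) (nat_lit 116) (nat_lit 1) (nat_lit 252) (nat_lit 261) (nat_lit 207)) (XT.lf (nat_lit 84) (nat_lit 1079310247) (nat_lit 0) (nat_lit 1568896657) (nat_lit 672) (nat_lit 1079310247) (nat_lit 110) (nat_lit 1) (nat_lit 109) (nat_lit 1) (nat_lit 117) (nat_lit 1) (nat_lit 253) (nat_lit 261) (nat_lit 206)))) (XT.nd (nat_lit 188) (nat_lit 1176) (nat_lit 0) (XT.nd (nat_lit 94) (nat_lit 0) (nat_lit 0) (XT.lf (nat_lit 672) (nat_lit 1474487290) (nat_lit 0) (nat_lit 1109958440) (nat_lit 588) (nat_lit 1109958440) (nat_lit 110) (nat_lit 1) (nat_lit 102) (nat_lit 1) (nat_lit 109) (nat_lit 1) (nat_lit 254) (nat_lit 261) (nat_lit 205))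 (XT.lf (nat_lit 84) (nat_lit 397173417) (nat_lit 0) (nat_lit 2867426092) (nat_lit 672) (nat_lit 397173417) (nat_lit 103) (nat_lit 1) (nat_lit 102) (nat_lit 1) (nat_lit 110) (nat_lit 1) (nat_lit 255) (nat_lit 261) (nat_lit 204))) (XT.nd (nat_lit 94) (nat_lit 672) (nat_lit 0) (XT.lf (nat_lit 588) (nat_lit 108123524) (nat_lit 0) (nat_lit 1760637240) (nat_lit 504) (nat_lit 1760637240) (nat_lit 103) (nat_lit 1) (nat_lit 96) (nat_lit 1) (nat_lit 102) (nat_lit 1) (nat_lit 256) (nat_lit 261) (nat_lit 203)) (XT.lf (nat_lit 672) (nat_lit 3037487654) (nat_lit 0) (nat_lit 280018971) (nat_lit 588) (nat_lit 280018971) (nat_lit 96) (nat_lit 1) (nat_lit 88) (nat_lit 1) (nat_lit 95) (nat_lit 1) (nat_lit 257) (nat_lit 261) (nat_lit 202))))))) (XT.nd (nat_lit 40608) (nat_lit 0) (nat_lit 14364) (XT.nd (nat_lit 39950) (nat_lit 0) (nat_lit 17640) (XT.nd (nat_lit 39574) (nat_lit 0) (nat_lit 17472) (XT.nd (nat_lit 94) (nat_lit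 504) (nat_lit 0) (XT.lf (nat_lit 84) (nat_lit 1165958735) (nat_lit 0) (nat_lit 1233929226) (nat_lit 672) (nat_lit 1165958735) (nat_lit 89) (nat_lit 1) (nat_lit 88) (nat_lit 1) (nat_lit 96) (nat_lit 1) (nat_lit 258) (nat_lit 261) (nat_lit 201)) (XT.nd (nat_lit 39386) (nat_lit 0) (nat_lit 17388) (XT.lf (nat_lit 588) (nat_lit 1632617671) (nat_lit 0) (nat_lit 951020044) (nat_lit 504) (nat_lit 951020044) (nat_lit 89) (nat_lit 1) (nat_lit 82) (nat_lit 1) (nat_lit 88) (nat_lit 1) (nat_lit 259) (nat_lit 261) (nat_lit 200)) (XT.lf (nat_lit 1932) (nat_lit 4950982796) (nat_lit 84) (nat_lit 764351813) (nat_lit 0) (nat_lit 764351813) (nat_lit 312) (nat_lit 1) (nat_lit 290) (nat_lit 1) (nat_lit 289) (nat_lit 0) (nat_lit 197) (nat_lit 262) (nat_lit 261)))) (XT.nd (nat_lit 188) (nat_lit 0) (nat_lit 84) (XT.nd (nat_lit 94) (nat_lit 0) (nat_lit 0) (XT.lf (nat_lit 1932) (nat_lit 2428363668) (nat_lit 0) (nat_lit 1553081329)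 (nat_lit 1848) (nat_lit 2428363668) (nat_lit 313) (nat_lit 1) (nat_lit 290) (nat_lit 1) (nat_lit 312) (nat_lit 1) (nat_lit 198) (nat_lit 262) (nat_lit 260)) (XT.lf (nat_lit 1932) (nat_lit 4753276224) (nat_lit 84) (nat_lit 793958637) (nat_lit 0) (nat_lit 793958637) (nat_lit 313) (nat_lit 1) (nat_lit 291) (nat_lit 1) (nat_lit 290) (nat_lit 1) (nat_lit 199) (nat_lit 262) (nat_lit 259))) (XT.nd (nat_lit 94) (nat_lit 0) (nat_lit 0) (XT.lf (nat_lit 1932) (nat_lit 2308724222) (nat_lit 0) (nat_lit 1655862036) (nat_lit 1848) (nat_lit 2308724222) (nat_lit 314) (nat_lit 1) (nat_lit 291) (nat_lit 1) (nat_lit 313) (nat_lit 1) (nat_lit 200) (nat_lit 262) (nat_lit 258)) (XT.lf (nat_lit 1932) (nat_lit 4472577085) (nat_lit 84) (nat_lit 867027018) (nat_lit 0) (nat_lit 867027018) (nat_lit 314) (nat_lit 1) (nat_lit 292) (nat_lit 1) (nat_lit 291) (nat_lit 1) (nat_lit 201) (nat_lit 262) (nat_lit 257))))) (XT.nd (nat_lit 282)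 (nat_lit 0) (nat_lit 84) (XT.nd (nat_lit 94) (nat_lit 0) (nat_lit 0) (XT.lf (nat_lit 1932) (nat_lit 2149132081) (nat_lit 0) (nat_lit 1842422067) (nat_lit 1848) (nat_lit 2149132081) (nat_lit 315) (nat_lit 1) (nat_lit 292) (nat_lit 1) (nat_lit 314) (nat_lit 1) (nat_lit 202) (nat_lit 262) (nat_lit 256)) (XT.nd (nat_lit 94) (nat_lit 0) (nat_lit 84) (XT.lf (nat_lit 1932) (nat_lit 4114387777) (nat_lit 84) (nat_lit 980743238) (nat_lit 0) (nat_lit 980743238) (nat_lit 315) (nat_lit 1) (nat_lit 293) (nat_lit 1) (nat_lit 292) (nat_lit 1) (nat_lit 203) (nat_lit 262) (nat_lit 255)) (XT.lf (nat_lit 1932) (nat_lit 1952258533) (nat_lit 0) (nat_lit 2107295610) (nat_lit 1848) (nat_lit 1952258533) (nat_lit 316) (nat_lit 1) (nat_lit 293) (nat_lit 1) (nat_lit 315) (nat_lit 1) (nat_lit 204) (nat_lit 262) (nat_lit 254)))) (XT.nd (nat_lit 188) (nat_lit 0) (nat_lit 84) (XT.nd (nat_lit 94) (nat_lit 0) (nat_lit 84) (XT.lf (nat_lit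 1932) (nat_lit 3683933994) (nat_lit 84) (nat_lit 1132434135) (nat_lit 0) (nat_lit 1132434135) (nat_lit 316) (nat_lit 1) (nat_lit 294) (nat_lit 1) (nat_lit 293) (nat_lit 1) (nat_lit 205) (nat_lit 262) (nat_lit 253)) (XT.lf (nat_lit 1932) (nat_lit 1720640220) (nat_lit 0) (nat_lit 2445290488) (nat_lit 1848) (nat_lit 1720640220) (nat_lit 317) (nat_lit 1) (nat_lit 294) (nat_lit 1) (nat_lit 316) (nat_lit 1) (nat_lit 206) (nat_lit 262) (nat_lit 252))) (XT.nd (nat_lit 94) (nat_lit 0) (nat_lit 84) (XT.lf (nat_lit 1932) (nat_lit 3186177422) (nat_lit 84) (nat_lit 1319560676) (nat_lit 0) (nat_lit 1319560676) (nat_lit 317) (nat_lit 1) (nat_lit 295) (nat_lit 1) (nat_lit 294) (nat_lit 1) (nat_lit 207) (nat_lit 262) (nat_lit 251)) (XT.lf (nat_lit 1932) (nat_lit 1456685327) (nat_lit 0) (nat_lit 2851475627) (nat_lit 1848) (nat_lit 1456685327) (nat_lit 318) (nat_lit 1) (nat_lit 295) (nat_lit 1) (nat_lit 317) (nat_lit 1)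 (nat_lit 208) (nat_lit 262) (nat_lit 250)))))) (XT.nd (nat_lit 658) (nat_lit 3528) (nat_lit 0) (XT.nd (nat_lit 282) (nat_lit 0) (nat_lit 168) (XT.nd (nat_lit 94) (nat_lit 0) (nat_lit 84) (XT.lf (nat_lit 1932) (nat_lit 2625827879) (nat_lit 84) (nat_lit 1539711804) (nat_lit 0) (nat_lit 1539711804) (nat_lit 318) (nat_lit 1) (nat_lit 296) (nat_lit 1) (nat_lit 295) (nat_lit 1) (nat_lit 209) (nat_lit 262) (nat_lit 249)) (XT.nd (nat_lit 94) (nat_lit 0) (nat_lit 0) (XT.lf (nat_lit 1932) (nat_lit 1162679490) (nat_lit 0) (nat_lit 3321169076) (nat_lit 1848) (nat_lit 1162679490) (nat_lit 319) (nat_lit 1) (nat_lit 296) (nat_lit 1) (nat_lit 318) (nat_lit 1) (nat_lit 210) (nat_lit 262) (nat_lit 248)) (XT.lf (nat_lit 1932) (nat_lit 2007354908) (nat_lit 84) (nat_lit 1790598560) (nat_lit 0) (nat_lit 1790598560) (nat_lit 319) (nat_lit 1) (nat_lit 297) (nat_lit 1) (nat_lit 296) (nat_lit 1) (nat_lit 211) (nat_lit 262) (nat_lit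 247)))) (XT.nd (nat_lit 188) (nat_lit 0) (nat_lit 84) (XT.nd (nat_lit 94) (nat_lit 0) (nat_lit 0) (XT.lf (nat_lit 1932) (nat_lit 840791444) (nat_lit 0) (nat_lit 3849926555) (nat_lit 1848) (nat_lit 840791444) (nat_lit 320) (nat_lit 1) (nat_lit 297) (nat_lit 1) (nat_lit 319) (nat_lit 1) (nat_lit 212) (nat_lit 262) (nat_lit 246)) (XT.lf (nat_lit 1932) (nat_lit 1334998873) (nat_lit 84) (nat_lit 2070048470) (nat_lit 0) (nat_lit 2070048470) (nat_lit 320) (nat_lit 1) (nat_lit 298) (nat_lit 1) (nat_lit 297) (nat_lit 1) (nat_lit 213) (nat_lit 262) (nat_lit 245))) (XT.nd (nat_lit 94) (nat_lit 0) (nat_lit 0) (XT.lf (nat_lit 1932) (nat_lit 493078425) (nat_lit 0) (nat_lit 4433530508) (nat_lit 1848) (nat_lit 493078425) (nat_lit 321) (nat_lit 1) (nat_lit 298) (nat_lit 1) (nat_lit 320) (nat_lit 1) (nat_lit 214) (nat_lit 262) (nat_lit 244)) (XT.lf (nat_lit 1932) (nat_lit 612781547) (nat_lit 84) (nat_lit 2376000169) (nat_lit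 0) (nat_lit 2376000169) (nat_lit 321) (nat_lit 1) (nat_lit 299) (nat_lit 1) (nat_lit 298) (nat_lit 1) (nat_lit 215) (nat_lit 262) (nat_lit 243))))) (XT.nd (nat_lit 376) (nat_lit 1932) (nat_lit 0) (XT.nd (nat_lit 188) (nat_lit 0) (nat_lit 0) (XT.nd (nat_lit 94) (nat_lit 1932) (nat_lit 0) (XT.lf (nat_lit 1932) (nat_lit 121491330) (nat_lit 0) (nat_lit 5067979641) (nat_lit 1848) (nat_lit 121491330) (nat_lit 322) (nat_lit 1) (nat_lit 299) (nat_lit 1) (nat_lit 321) (nat_lit 1) (nat_lit 216) (nat_lit 262) (nat_lit 242)) (XT.lf (nat_lit 2016) (nat_lit 2552122066) (nat_lit 0) (nat_lit 153244293) (nat_lit 1932) (nat_lit 2552122066) (nat_lit 300) (nat_lit 1) (nat_lit 276) (nat_lit 1) (nat_lit 299) (nat_lit 1) (nat_lit 217) (nat_lit 262) (nat_lit 241))) (XT.nd (nat_lit 94) (nat_lit 0) (nat_lit 84) (XT.lf (nat_lit 2016) (nat_lit 4664759724) (nat_lit 84) (nat_lit 270153646) (nat_lit 0) (nat_lit 270153646) (nat_lit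 300) (nat_lit 1) (nat_lit 277) (nat_lit 1) (nat_lit 276) (nat_lit 1) (nat_lit 218) (nat_lit 262) (nat_lit 240)) (XT.lf (nat_lit 84) (nat_lit 2100388319) (nat_lit 0) (nat_lit 952266395) (nat_lit 1932) (nat_lit 2100388319) (nat_lit 278) (nat_lit 1) (nat_lit 277) (nat_lit 1) (nat_lit 300) (nat_lit 1) (nat_lit 219) (nat_lit 262) (nat_lit 239)))) (XT.nd (nat_lit 188) (nat_lit 924) (nat_lit 0) (XT.nd (nat_lit 94) (nat_lit 0) (nat_lit 0) (XT.lf (nat_lit 1176) (nat_lit 3739899101) (nat_lit 0) (nat_lit 681045843) (nat_lit 1092) (nat_lit 681045843) (nat_lit 278) (nat_lit 1) (nat_lit 264) (nat_lit 1) (nat_lit 277) (nat_lit 1) (nat_lit 220) (nat_lit 262) (nat_lit 238)) (XT.lf (nat_lit 84) (nat_lit 1630858169) (nat_lit 0) (nat_lit 1789735091) (nat_lit 1176) (nat_lit 1630858169) (nat_lit 265) (nat_lit 1) (nat_lit 264) (nat_lit 1) (nat_lit 278) (nat_lit 1) (nat_lit 221) (nat_lit 262) (nat_lit 237))) (XT.nd (nat_lit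 94) (nat_lit 0) (nat_lit 0) (XT.lf (nat_lit 1008) (nat_lit 2780892128) (nat_lit 0) (nat_lit 1110414715) (nat_lit 924) (nat_lit 1110414715) (nat_lit 265) (nat_lit 1) (nat_lit 253) (nat_lit 1) (nat_lit 264) (nat_lit 1) (nat_lit 222) (nat_lit 262) (nat_lit 236)) (XT.lf (nat_lit 84) (nat_lit 1145086796) (nat_lit 0) (nat_lit 2662452803) (nat_lit 1008) (nat_lit 1145086796) (nat_lit 254) (nat_lit 1) (nat_lit 253) (nat_lit 1) (nat_lit 265) (nat_lit 1) (nat_lit 223) (nat_lit 262) (nat_lit 235))))))))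
noncomputable def ec22 : XT := (XT.nd (nat_lit 2726) (nat_lit 2184) (nat_lit 0) (XT.nd (nat_lit 1316) (nat_lit 5964) (nat_lit 0) (XT.nd (nat_lit 658) (nat_lit 3192) (nat_lit 0) (XT.nd (nat_lit 282) (nat_lit 1764) (nat_lit 0) (XT.nd (nat_lit 94) (nat_lit 840) (nat_lit 0) (XT.lf (nat_lit 1008) (nat_lit 1790776040) (nat_lit 0) (nat_lit 1556698908) (nat_lit 924) (nat_lit 1556698908) (nat_lit 254) (nat_lit 1) (nat_lit 242) (nat_lit 1) (nat_lit 253) (nat_lit 1) (nat_lit 224) (nat_lit 262) (nat_lit 234)) (XT.nd (nat_lit 94) (nat_lit 840) (nat_lit 0) (XT.lf (nat_lit 84) (nat_lit 644545986) (nat_lit 0) (nat_lit 3567391720) (nat_lit 1008) (nat_lit 644545986) (nat_lit 243) (nat_lit 1) (nat_lit 242) (nat_lit 1) (nat_lit 254) (nat_lit 1) (nat_lit 225) (nat_lit 262) (nat_lit 233)) (XT.lf (nat_lit 924) (nat_lit 772424641) (nat_lit 0) (nat_lit 2018420238) (nat_lit 840) (nat_lit 2018420238) (nat_lit 243) (nat_lit 1)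 (nat_lit 232) (nat_lit 1) (nat_lit 242) (nat_lit 1) (nat_lit 226) (nat_lit 262) (nat_lit 232)))) (XT.nd (nat_lit 188) (nat_lit 840) (nat_lit 0) (XT.nd (nat_lit 94) (nat_lit 924) (nat_lit 0) (XT.lf (nat_lit 84) (nat_lit 130628048) (nat_lit 0) (nat_lit 4501685845) (nat_lit 924) (nat_lit 130628048) (nat_lit 233) (nat_lit 1) (nat_lit 232) (nat_lit 1) (nat_lit 243) (nat_lit 1) (nat_lit 227) (nat_lit 262) (nat_lit 231)) (XT.lf (nat_lit 84) (nat_lit 2224669345) (nat_lit 0) (nat_lit 267534343) (nat_lit 924) (nat_lit 2224669345) (nat_lit 222) (nat_lit 1) (nat_lit 221) (nat_lit 1) (nat_lit 232) (nat_lit 1) (nat_lit 228) (nat_lit 262) (nat_lit 230))) (XT.nd (nat_lit 94) (nat_lit 0) (nat_lit 0) (XT.lf (nat_lit 924) (nat_lit 3886687567) (nat_lit 0) (nat_lit 392493108) (nat_lit 840) (nat_lit 392493108) (nat_lit 222) (nat_lit 1) (nat_lit 211) (nat_lit 1) (nat_lit 221) (nat_lit 1) (nat_lit 229) (nat_lit 262) (nat_lit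 229)) (XT.lf (nat_lit 84) (nat_lit 1653926714) (nat_lit 0) (nat_lit 1318984996) (nat_lit 924) (nat_lit 1653926714) (nat_lit 212) (nat_lit 1) (nat_lit 211) (nat_lit 1) (nat_lit 222) (nat_lit 1) (nat_lit 230) (nat_lit 262) (nat_lit 228))))) (XT.nd (nat_lit 282) (nat_lit 1596) (nat_lit 0) (XT.nd (nat_lit 94) (nat_lit 756) (nat_lit 0) (XT.lf (nat_lit 924) (nat_lit 2731946773) (nat_lit 0) (nat_lit 925408116) (nat_lit 840) (nat_lit 925408116) (nat_lit 212) (nat_lit 1) (nat_lit 201) (nat_lit 1) (nat_lit 211) (nat_lit 1) (nat_lit 231) (nat_lit 262) (nat_lit 227)) (XT.nd (nat_lit 94) (nat_lit 756) (nat_lit 0) (XT.lf (nat_lit 84) (nat_lit 1074274448) (nat_lit 0) (nat_lit 2390659347) (nat_lit 924) (nat_lit 1074274448) (nat_lit 202) (nat_lit 1) (nat_lit 201) (nat_lit 1) (nat_lit 212) (nat_lit 1) (nat_lit 232) (nat_lit 262) (nat_lit 226)) (XT.lf (nat_lit 840) (nat_lit 1560431399) (nat_lit 0) (nat_lit 1467893864)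 (nat_lit 756) (nat_lit 1467893864) (nat_lit 202) (nat_lit 1) (nat_lit 192) (nat_lit 1) (nat_lit 201) (nat_lit 1) (nat_lit 233) (nat_lit 262) (nat_lit 225)))) (XT.nd (nat_lit 188) (nat_lit 840) (nat_lit 0) (XT.nd (nat_lit 94) (nat_lit 756) (nat_lit 0) (XT.lf (nat_lit 84) (nat_lit 486807053) (nat_lit 0) (nat_lit 3480296767) (nat_lit 840) (nat_lit 486807053) (nat_lit 193) (nat_lit 1) (nat_lit 192) (nat_lit 1) (nat_lit 202) (nat_lit 1) (nat_lit 234) (nat_lit 262) (nat_lit 224)) (XT.lf (nat_lit 840) (nat_lit 374275626) (nat_lit 0) (nat_lit 2018848139) (nat_lit 756) (nat_lit 2018848139) (nat_lit 193) (nat_lit 1) (nat_lit 183) (nat_lit 1) (nat_lit 192) (nat_lit 1) (nat_lit 235) (nat_lit 262) (nat_lit 223))) (XT.nd (nat_lit 94) (nat_lit 0) (nat_lit 0) (XT.lf (nat_lit 840) (nat_lit 4157476585) (nat_lit 0) (nat_lit 106666448) (nat_lit 756) (nat_lit 106666448) (nat_lit 183) (nat_lit 1) (nat_lit 173) (nat_lit 1)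 (nat_lit 182) (nat_lit 1) (nat_lit 236) (nat_lit 262) (nat_lit 222)) (XT.lf (nat_lit 84) (nat_lit 1758595970) (nat_lit 0) (nat_lit 812632282) (nat_lit 840) (nat_lit 1758595970) (nat_lit 174) (nat_lit 1) (nat_lit 173) (nat_lit 1) (nat_lit 183) (nat_lit 1) (nat_lit 237) (nat_lit 262) (nat_lit 221)))))) (XT.nd (nat_lit 658) (nat_lit 3108) (nat_lit 0) (XT.nd (nat_lit 282) (nat_lit 1428) (nat_lit 0) (XT.nd (nat_lit 94) (nat_lit 672) (nat_lit 0) (XT.lf (nat_lit 840) (nat_lit 2884817169) (nat_lit 0) (nat_lit 702388817) (nat_lit 756) (nat_lit 702388817) (nat_lit 174) (nat_lit 1) (nat_lit 164) (nat_lit 1) (nat_lit 173) (nat_lit 1) (nat_lit 238) (nat_lit 262) (nat_lit 220)) (XT.nd (nat_lit 94) (nat_lit 672) (nat_lit 0) (XT.lf (nat_lit 84) (nat_lit 1122526922) (nat_lit 0) (nat_lit 2004725451) (nat_lit 840) (nat_lit 1122526922) (nat_lit 165) (nat_lit 1) (nat_lit 164) (nat_lit 1) (nat_lit 174) (nat_lit 1) (nat_lit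 239) (nat_lit 262) (nat_lit 219)) (XT.lf (nat_lit 756) (nat_lit 1604573516) (nat_lit 0) (nat_lit 1302967732) (nat_lit 672) (nat_lit 1302967732) (nat_lit 165) (nat_lit 1) (nat_lit 156) (nat_lit 1) (nat_lit 164) (nat_lit 1) (nat_lit 240) (nat_lit 262) (nat_lit 218)))) (XT.nd (nat_lit 188) (nat_lit 756) (nat_lit 0) (XT.nd (nat_lit 94) (nat_lit 672) (nat_lit 0) (XT.lf (nat_lit 84) (nat_lit 483099612) (nat_lit 0) (nat_lit 3205633334) (nat_lit 756) (nat_lit 483099612) (nat_lit 157) (nat_lit 1) (nat_lit 156) (nat_lit 1) (nat_lit 165) (nat_lit 1) (nat_lit 241) (nat_lit 262) (nat_lit 217)) (XT.lf (nat_lit 756) (nat_lit 318398669) (nat_lit 0) (nat_lit 1907545653) (nat_lit 672) (nat_lit 1907545653) (nat_lit 157) (nat_lit 1) (nat_lit 148) (nat_lit 1) (nat_lit 156) (nat_lit 1) (nat_lit 242) (nat_lit 262) (nat_lit 216))) (XT.nd (nat_lit 94) (nat_lit 0) (nat_lit 0) (XT.lf (nat_lit 756) (nat_lit 3780344588) (nat_lit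 0) (nat_lit 157739160) (nat_lit 672) (nat_lit 157739160) (nat_lit 148) (nat_lit 1) (nat_lit 139) (nat_lit 1) (nat_lit 147) (nat_lit 1) (nat_lit 243) (nat_lit 262) (nat_lit 215)) (XT.lf (nat_lit 84) (nat_lit 1550087086) (nat_lit 0) (nat_lit 958151260) (nat_lit 756) (nat_lit 1550087086) (nat_lit 140) (nat_lit 1) (nat_lit 139) (nat_lit 1) (nat_lit 148) (nat_lit 1) (nat_lit 244) (nat_lit 262) (nat_lit 214))))) (XT.nd (nat_lit 376) (nat_lit 1848) (nat_lit 0) (XT.nd (nat_lit 188) (nat_lit 588) (nat_lit 0) (XT.nd (nat_lit 94) (nat_lit 0) (nat_lit 0) (XT.lf (nat_lit 756) (nat_lit 2427720513) (nat_lit 0) (nat_lit 796882781) (nat_lit 672) (nat_lit 796882781) (nat_lit 140) (nat_lit 1) (nat_lit 131) (nat_lit 1) (nat_lit 139) (nat_lit 1) (nat_lit 245) (nat_lit 262) (nat_lit 213)) (XT.lf (nat_lit 84) (nat_lit 876034348) (nat_lit 0) (nat_lit 2232990592) (nat_lit 756) (nat_lit 876034348) (nat_lit 132) (nat_lit 1) (nat_lit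 131) (nat_lit 1) (nat_lit 140) (nat_lit 1) (nat_lit 246) (nat_lit 262) (nat_lit 212))) (XT.nd (nat_lit 94) (nat_lit 0) (nat_lit 0) (XT.lf (nat_lit 672) (nat_lit 1074822677) (nat_lit 0) (nat_lit 1437123278) (nat_lit 588) (nat_lit 1437123278) (nat_lit 132) (nat_lit 1) (nat_lit 124) (nat_lit 1) (nat_lit 131) (nat_lit 1) (nat_lit 247) (nat_lit 262) (nat_lit 211)) (XT.lf (nat_lit 84) (nat_lit 202165344) (nat_lit 0) (nat_lit 3509354790) (nat_lit 672) (nat_lit 202165344) (nat_lit 125) (nat_lit 1) (nat_lit 124) (nat_lit 1) (nat_lit 132) (nat_lit 1) (nat_lit 248) (nat_lit 262) (nat_lit 210)))) (XT.nd (nat_lit 188) (nat_lit 588) (nat_lit 0) (XT.nd (nat_lit 94) (nat_lit 588) (nat_lit 0) (XT.lf (nat_lit 84) (nat_lit 1802686859) (nat_lit 0) (nat_lit 273100286) (nat_lit 672) (nat_lit 1802686859) (nat_lit 117) (nat_lit 1) (nat_lit 116) (nat_lit 1) (nat_lit 124) (nat_lit 1) (nat_lit 249) (nat_lit 262) (nat_lit 209))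 (XT.lf (nat_lit 672) (nat_lit 2908832994) (nat_lit 0) (nat_lit 467510285) (nat_lit 588) (nat_lit 467510285) (nat_lit 117) (nat_lit 1) (nat_lit 109) (nat_lit 1) (nat_lit 116) (nat_lit 1) (nat_lit 250) (nat_lit 262) (nat_lit 208))) (XT.nd (nat_lit 94) (nat_lit 588) (nat_lit 0) (XT.lf (nat_lit 84) (nat_lit 1103055073) (nat_lit 0) (nat_lit 1603412383) (nat_lit 672) (nat_lit 1103055073) (nat_lit 110) (nat_lit 1) (nat_lit 109) (nat_lit 1) (nat_lit 117) (nat_lit 1) (nat_lit 251) (nat_lit 262) (nat_lit 207)) (XT.lf (nat_lit 672) (nat_lit 1506926011) (nat_lit 0) (nat_lit 1134377526) (nat_lit 588) (nat_lit 1134377526) (nat_lit 110) (nat_lit 1) (nat_lit 102) (nat_lit 1) (nat_lit 109) (nat_lit 1) (nat_lit 252) (nat_lit 262) (nat_lit 206))))))) (XT.nd (nat_lit 40514) (nat_lit 0) (nat_lit 16800) (XT.nd (nat_lit 39856) (nat_lit 0) (nat_lit 17976) (XT.nd (nat_lit 282) (nat_lit 1008) (nat_lit 0) (XT.nd (nat_lit 94) (nat_lit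 1176) (nat_lit 0) (XT.lf (nat_lit 84) (nat_lit 405911232) (nat_lit 0) (nat_lit 2930509466) (nat_lit 672) (nat_lit 405911232) (nat_lit 103) (nat_lit 1) (nat_lit 102) (nat_lit 1) (nat_lit 110) (nat_lit 1) (nat_lit 253) (nat_lit 262) (nat_lit 205)) (XT.nd (nat_lit 94) (nat_lit 672) (nat_lit 0) (XT.lf (nat_lit 588) (nat_lit 110502241) (nat_lit 0) (nat_lit 1799371259) (nat_lit 504) (nat_lit 1799371259) (nat_lit 103) (nat_lit 1) (nat_lit 96) (nat_lit 1) (nat_lit 102) (nat_lit 1) (nat_lit 254) (nat_lit 262) (nat_lit 204)) (XT.lf (nat_lit 672) (nat_lit 3104312382) (nat_lit 0) (nat_lit 286179388) (nat_lit 588) (nat_lit 286179388) (nat_lit 96) (nat_lit 1) (nat_lit 88) (nat_lit 1) (nat_lit 95) (nat_lit 1) (nat_lit 255) (nat_lit 262) (nat_lit 203)))) (XT.nd (nat_lit 188) (nat_lit 504) (nat_lit 0) (XT.nd (nat_lit 94) (nat_lit 504) (nat_lit 0) (XT.lf (nat_lit 84) (nat_lit 1191609828) (nat_lit 0) (nat_lit 1261075669)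 (nat_lit 672) (nat_lit 1191609828) (nat_lit 89) (nat_lit 1) (nat_lit 88) (nat_lit 1) (nat_lit 96) (nat_lit 1) (nat_lit 256) (nat_lit 262) (nat_lit 202)) (XT.lf (nat_lit 588) (nat_lit 1668535260) (nat_lit 0) (nat_lit 971942485) (nat_lit 504) (nat_lit 971942485) (nat_lit 89) (nat_lit 1) (nat_lit 82) (nat_lit 1) (nat_lit 88) (nat_lit 1) (nat_lit 257) (nat_lit 262) (nat_lit 201))) (XT.nd (nat_lit 94) (nat_lit 504) (nat_lit 0) (XT.lf (nat_lit 84) (nat_lit 478544306) (nat_lit 0) (nat_lit 2623881203) (nat_lit 588) (nat_lit 478544306) (nat_lit 83) (nat_lit 1) (nat_lit 82) (nat_lit 1) (nat_lit 89) (nat_lit 1) (nat_lit 258) (nat_lit 262) (nat_lit 200)) (XT.lf (nat_lit 588) (nat_lit 241993200) (nat_lit 0) (nat_lit 1653897497) (nat_lit 504) (nat_lit 1653897497) (nat_lit 83) (nat_lit 1) (nat_lit 76) (nat_lit 1) (nat_lit 82) (nat_lit 1) (nat_lit 259) (nat_lit 262) (nat_lit 199))))) (XT.nd (nat_lit 282) (nat_lit 0)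 (nat_lit 84) (XT.nd (nat_lit 94) (nat_lit 0) (nat_lit 0) (XT.lf (nat_lit 1932) (nat_lit 2481787669) (nat_lit 0) (nat_lit 1587249118) (nat_lit 1848) (nat_lit 2481787669) (nat_lit 313) (nat_lit 1) (nat_lit 290) (nat_lit 1) (nat_lit 312) (nat_lit 1) (nat_lit 196) (nat_lit 263) (nat_lit 261)) (XT.nd (nat_lit 94) (nat_lit 0) (nat_lit 84) (XT.lf (nat_lit 1932) (nat_lit 4857848301) (nat_lit 84) (nat_lit 811425727) (nat_lit 0) (nat_lit 811425727) (nat_lit 313) (nat_lit 1) (nat_lit 291) (nat_lit 1) (nat_lit 290) (nat_lit 1) (nat_lit 197) (nat_lit 263) (nat_lit 260)) (XT.lf (nat_lit 1932) (nat_lit 2359516155) (nat_lit 0) (nat_lit 1692291000) (nat_lit 1848) (nat_lit 2359516155) (nat_lit 314) (nat_lit 1) (nat_lit 291) (nat_lit 1) (nat_lit 313) (nat_lit 1) (nat_lit 198) (nat_lit 263) (nat_lit 259)))) (XT.nd (nat_lit 188) (nat_lit 0) (nat_lit 84) (XT.nd (nat_lit 94) (nat_lit 0) (nat_lit 84) (XT.lf (nat_lit 1932) (nat_lit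 4570973781) (nat_lit 84) (nat_lit 886101613) (nat_lit 0) (nat_lit 886101613) (nat_lit 314) (nat_lit 1) (nat_lit 292) (nat_lit 1) (nat_lit 291) (nat_lit 1) (nat_lit 199) (nat_lit 263) (nat_lit 258)) (XT.lf (nat_lit 1932) (nat_lit 2196412987) (nat_lit 0) (nat_lit 1882955353) (nat_lit 1848) (nat_lit 2196412987) (nat_lit 315) (nat_lit 1) (nat_lit 292) (nat_lit 1) (nat_lit 314) (nat_lit 1) (nat_lit 200) (nat_lit 263) (nat_lit 257))) (XT.nd (nat_lit 94) (nat_lit 0) (nat_lit 84) (XT.lf (nat_lit 1932) (nat_lit 4204904308) (nat_lit 84) (nat_lit 1002319589) (nat_lit 0) (nat_lit 1002319589) (nat_lit 315) (nat_lit 1) (nat_lit 293) (nat_lit 1) (nat_lit 292) (nat_lit 1) (nat_lit 201) (nat_lit 263) (nat_lit 256)) (XT.lf (nat_lit 1932) (nat_lit 1995208221) (nat_lit 0) (nat_lit 2153656114) (nat_lit 1848) (nat_lit 1995208221) (nat_lit 316) (nat_lit 1) (nat_lit 293) (nat_lit 1) (nat_lit 315) (nat_lit 1) (nat_lit 202) (nat_lit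 263) (nat_lit 255)))))) (XT.nd (nat_lit 658) (nat_lit 1428) (nat_lit 0) (XT.nd (nat_lit 282) (nat_lit 0) (nat_lit 168) (XT.nd (nat_lit 94) (nat_lit 0) (nat_lit 84) (XT.lf (nat_lit 1932) (nat_lit 3764980542) (nat_lit 84) (nat_lit 1157347686) (nat_lit 0) (nat_lit 1157347686) (nat_lit 316) (nat_lit 1) (nat_lit 294) (nat_lit 1) (nat_lit 293) (nat_lit 1) (nat_lit 203) (nat_lit 263) (nat_lit 254)) (XT.nd (nat_lit 94) (nat_lit 0) (nat_lit 0) (XT.lf (nat_lit 1932) (nat_lit 1758494305) (nat_lit 0) (nat_lit 2499086879) (nat_lit 1848) (nat_lit 1758494305) (nat_lit 317) (nat_lit 1) (nat_lit 294) (nat_lit 1) (nat_lit 316) (nat_lit 1) (nat_lit 204) (nat_lit 263) (nat_lit 253)) (XT.lf (nat_lit 1932) (nat_lit 3256273326) (nat_lit 84) (nat_lit 1348591011) (nat_lit 0) (nat_lit 1348591011) (nat_lit 317) (nat_lit 1) (nat_lit 295) (nat_lit 1) (nat_lit 294) (nat_lit 1) (nat_lit 205) (nat_lit 263) (nat_lit 252)))) (XT.nd (nat_lit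 188) (nat_lit 0) (nat_lit 84) (XT.nd (nat_lit 94) (nat_lit 0) (nat_lit 0) (XT.lf (nat_lit 1932) (nat_lit 1488732405) (nat_lit 0) (nat_lit 2914208091) (nat_lit 1848) (nat_lit 1488732405) (nat_lit 318) (nat_lit 1) (nat_lit 295) (nat_lit 1) (nat_lit 317) (nat_lit 1) (nat_lit 206) (nat_lit 263) (nat_lit 251)) (XT.lf (nat_lit 1932) (nat_lit 2683596092) (nat_lit 84) (nat_lit 1573585463) (nat_lit 0) (nat_lit 1573585463) (nat_lit 318) (nat_lit 1) (nat_lit 296) (nat_lit 1) (nat_lit 295) (nat_lit 1) (nat_lit 207) (nat_lit 263) (nat_lit 250))) (XT.nd (nat_lit 94) (nat_lit 0) (nat_lit 0) (XT.lf (nat_lit 1932) (nat_lit 1188258439) (nat_lit 0) (nat_lit 3394234796) (nat_lit 1848) (nat_lit 1188258439) (nat_lit 319) (nat_lit 1) (nat_lit 296) (nat_lit 1) (nat_lit 318) (nat_lit 1) (nat_lit 208) (nat_lit 263) (nat_lit 249)) (XT.lf (nat_lit 1932) (nat_lit 2051516716) (nat_lit 84) (nat_lit 1829991729) (nat_lit 0) (nat_lit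 1829991729) (nat_lit 319) (nat_lit 1) (nat_lit 297) (nat_lit 1) (nat_lit 296) (nat_lit 1) (nat_lit 209) (nat_lit 263) (nat_lit 248))))) (XT.nd (nat_lit 376) (nat_lit 1764) (nat_lit 0) (XT.nd (nat_lit 188) (nat_lit 0) (nat_lit 84) (XT.nd (nat_lit 94) (nat_lit 0) (nat_lit 0) (XT.lf (nat_lit 1932) (nat_lit 859288855) (nat_lit 0) (nat_lit 3934624940) (nat_lit 1848) (nat_lit 859288855) (nat_lit 320) (nat_lit 1) (nat_lit 297) (nat_lit 1) (nat_lit 319) (nat_lit 1) (nat_lit 210) (nat_lit 263) (nat_lit 247)) (XT.lf (nat_lit 1932) (nat_lit 1364368848) (nat_lit 84) (nat_lit 2115589536) (nat_lit 0) (nat_lit 2115589536) (nat_lit 320) (nat_lit 1) (nat_lit 298) (nat_lit 1) (nat_lit 297) (nat_lit 1) (nat_lit 211) (nat_lit 263) (nat_lit 246))) (XT.nd (nat_lit 94) (nat_lit 0) (nat_lit 0) (XT.lf (nat_lit 1932) (nat_lit 503926150) (nat_lit 0) (nat_lit 4531068179) (nat_lit 1848) (nat_lit 503926150) (nat_lit 321) (nat_lit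 1) (nat_lit 298) (nat_lit 1) (nat_lit 320) (nat_lit 1) (nat_lit 212) (nat_lit 263) (nat_lit 245)) (XT.lf (nat_lit 1932) (nat_lit 626262741) (nat_lit 84) (nat_lit 2428272173) (nat_lit 0) (nat_lit 2428272173) (nat_lit 321) (nat_lit 1) (nat_lit 299) (nat_lit 1) (nat_lit 298) (nat_lit 1) (nat_lit 213) (nat_lit 263) (nat_lit 244)))) (XT.nd (nat_lit 188) (nat_lit 0) (nat_lit 0) (XT.nd (nat_lit 94) (nat_lit 1932) (nat_lit 0) (XT.lf (nat_lit 1932) (nat_lit 124164139) (nat_lit 0) (nat_lit 5179475194) (nat_lit 1848) (nat_lit 124164139) (nat_lit 322) (nat_lit 1) (nat_lit 299) (nat_lit 1) (nat_lit 321) (nat_lit 1) (nat_lit 214) (nat_lit 263) (nat_lit 243)) (XT.lf (nat_lit 2016) (nat_lit 2608268751) (nat_lit 0) (nat_lit 156615668) (nat_lit 1932) (nat_lit 2608268751) (nat_lit 300) (nat_lit 1) (nat_lit 276) (nat_lit 1) (nat_lit 299) (nat_lit 1) (nat_lit 215) (nat_lit 263) (nat_lit 242))) (XT.nd (nat_lit 94) (nat_lit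 0) (nat_lit 84) (XT.lf (nat_lit 2016) (nat_lit 4767384438) (nat_lit 84) (nat_lit 276097026) (nat_lit 0) (nat_lit 276097026) (nat_lit 300) (nat_lit 1) (nat_lit 277) (nat_lit 1) (nat_lit 276) (nat_lit 1) (nat_lit 216) (nat_lit 263) (nat_lit 241)) (XT.lf (nat_lit 84) (nat_lit 2146596862) (nat_lit 0) (nat_lit 973216255) (nat_lit 1932) (nat_lit 2146596862) (nat_lit 278) (nat_lit 1) (nat_lit 277) (nat_lit 1) (nat_lit 300) (nat_lit 1) (nat_lit 217) (nat_lit 263) (nat_lit 240))))))))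
noncomputable def ec23 : XT := (XT.nd (nat_lit 2726) (nat_lit 4032) (nat_lit 0) (XT.nd (nat_lit 1316) (nat_lit 5712) (nat_lit 0) (XT.nd (nat_lit 658) (nat_lit 3360) (nat_lit 0) (XT.nd (nat_lit 282) (nat_lit 1764) (nat_lit 0) (XT.nd (nat_lit 94) (nat_lit 924) (nat_lit 0) (XT.lf (nat_lit 1176) (nat_lit 3822176881) (nat_lit 0) (nat_lit 696028852) (nat_lit 1092) (nat_lit 696028852) (nat_lit 278) (nat_lit 1) (nat_lit 264) (nat_lit 1) (nat_lit 277) (nat_lit 1) (nat_lit 218) (nat_lit 263) (nat_lit 239)) (XT.nd (nat_lit 94) (nat_lit 924) (nat_lit 0) (XT.lf (nat_lit 84) (nat_lit 1666737049) (nat_lit 0) (nat_lit 1829109263) (nat_lit 1176) (nat_lit 1666737049) (nat_lit 265) (nat_lit 1) (nat_lit 264) (nat_lit 1) (nat_lit 278) (nat_lit 1) (nat_lit 219) (nat_lit 263) (nat_lit 238)) (XT.lf (nat_lit 1008) (nat_lit 2842071755) (nat_lit 0) (nat_lit 1134843839) (nat_lit 924) (nat_lit 1134843839) (nat_lit 265) (nat_lit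 1) (nat_lit 253) (nat_lit 1) (nat_lit 264) (nat_lit 1) (nat_lit 220) (nat_lit 263) (nat_lit 237)))) (XT.nd (nat_lit 188) (nat_lit 840) (nat_lit 0) (XT.nd (nat_lit 94) (nat_lit 924) (nat_lit 0) (XT.lf (nat_lit 84) (nat_lit 1170278706) (nat_lit 0) (nat_lit 2721026765) (nat_lit 1008) (nat_lit 1170278706) (nat_lit 254) (nat_lit 1) (nat_lit 253) (nat_lit 1) (nat_lit 265) (nat_lit 1) (nat_lit 221) (nat_lit 263) (nat_lit 236)) (XT.lf (nat_lit 1008) (nat_lit 1830173113) (nat_lit 0) (nat_lit 1590946284) (nat_lit 924) (nat_lit 1590946284) (nat_lit 254) (nat_lit 1) (nat_lit 242) (nat_lit 1) (nat_lit 253) (nat_lit 1) (nat_lit 222) (nat_lit 263) (nat_lit 235))) (XT.nd (nat_lit 94) (nat_lit 840) (nat_lit 0) (XT.lf (nat_lit 84) (nat_lit 658725998) (nat_lit 0) (nat_lit 3645874338) (nat_lit 1008) (nat_lit 658725998) (nat_lit 243) (nat_lit 1) (nat_lit 242) (nat_lit 1) (nat_lit 254) (nat_lit 1) (nat_lit 223) (nat_lit 263)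 (nat_lit 234)) (XT.lf (nat_lit 924) (nat_lit 789417983) (nat_lit 0) (nat_lit 2062825483) (nat_lit 840) (nat_lit 2062825483) (nat_lit 243) (nat_lit 1) (nat_lit 232) (nat_lit 1) (nat_lit 242) (nat_lit 1) (nat_lit 224) (nat_lit 263) (nat_lit 233))))) (XT.nd (nat_lit 282) (nat_lit 1596) (nat_lit 0) (XT.nd (nat_lit 94) (nat_lit 1764) (nat_lit 0) (XT.lf (nat_lit 84) (nat_lit 133501865) (nat_lit 0) (nat_lit 4600722934) (nat_lit 924) (nat_lit 133501865) (nat_lit 233) (nat_lit 1) (nat_lit 232) (nat_lit 1) (nat_lit 243) (nat_lit 1) (nat_lit 225) (nat_lit 263) (nat_lit 232)) (XT.nd (nat_lit 94) (nat_lit 840) (nat_lit 0) (XT.lf (nat_lit 84) (nat_lit 2273612070) (nat_lit 0) (nat_lit 273420098) (nat_lit 924) (nat_lit 2273612070) (nat_lit 222) (nat_lit 1) (nat_lit 221) (nat_lit 1) (nat_lit 232) (nat_lit 1) (nat_lit 226) (nat_lit 263) (nat_lit 231)) (XT.lf (nat_lit 924) (nat_lit 3972194693) (nat_lit 0) (nat_lit 401127956)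 (nat_lit 840) (nat_lit 401127956) (nat_lit 222) (nat_lit 1) (nat_lit 211) (nat_lit 1) (nat_lit 221) (nat_lit 1) (nat_lit 227) (nat_lit 263) (nat_lit 230)))) (XT.nd (nat_lit 188) (nat_lit 756) (nat_lit 0) (XT.nd (nat_lit 94) (nat_lit 840) (nat_lit 0) (XT.lf (nat_lit 84) (nat_lit 1690313102) (nat_lit 0) (nat_lit 1348002666) (nat_lit 924) (nat_lit 1690313102) (nat_lit 212) (nat_lit 1) (nat_lit 211) (nat_lit 1) (nat_lit 222) (nat_lit 1) (nat_lit 228) (nat_lit 263) (nat_lit 229)) (XT.lf (nat_lit 924) (nat_lit 2792049602) (nat_lit 0) (nat_lit 945767094) (nat_lit 840) (nat_lit 945767094) (nat_lit 212) (nat_lit 1) (nat_lit 201) (nat_lit 1) (nat_lit 211) (nat_lit 1) (nat_lit 229) (nat_lit 263) (nat_lit 228))) (XT.nd (nat_lit 94) (nat_lit 756) (nat_lit 0) (XT.lf (nat_lit 84) (nat_lit 1097908486) (nat_lit 0) (nat_lit 2443253853) (nat_lit 924) (nat_lit 1097908486) (nat_lit 202) (nat_lit 1) (nat_lit 201) (nat_lit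 1) (nat_lit 212) (nat_lit 1) (nat_lit 230) (nat_lit 263) (nat_lit 227)) (XT.lf (nat_lit 840) (nat_lit 1594760889) (nat_lit 0) (nat_lit 1500187529) (nat_lit 756) (nat_lit 1500187529) (nat_lit 202) (nat_lit 1) (nat_lit 192) (nat_lit 1) (nat_lit 201) (nat_lit 1) (nat_lit 231) (nat_lit 263) (nat_lit 226)))))) (XT.nd (nat_lit 658) (nat_lit 2688) (nat_lit 0) (XT.nd (nat_lit 282) (nat_lit 1428) (nat_lit 0) (XT.nd (nat_lit 94) (nat_lit 1596) (nat_lit 0) (XT.lf (nat_lit 84) (nat_lit 497516808) (nat_lit 0) (nat_lit 3556863296) (nat_lit 840) (nat_lit 497516808) (nat_lit 193) (nat_lit 1) (nat_lit 192) (nat_lit 1) (nat_lit 202) (nat_lit 1) (nat_lit 232) (nat_lit 263) (nat_lit 225)) (XT.nd (nat_lit 94) (nat_lit 840) (nat_lit 0) (XT.lf (nat_lit 840) (nat_lit 382509690) (nat_lit 0) (nat_lit 2063262799) (nat_lit 756) (nat_lit 2063262799) (nat_lit 193) (nat_lit 1) (nat_lit 183) (nat_lit 1) (nat_lit 192) (nat_lit 1) (nat_lit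 233) (nat_lit 263) (nat_lit 224)) (XT.lf (nat_lit 840) (nat_lit 4248941070) (nat_lit 0) (nat_lit 109013110) (nat_lit 756) (nat_lit 109013110) (nat_lit 183) (nat_lit 1) (nat_lit 173) (nat_lit 1) (nat_lit 182) (nat_lit 1) (nat_lit 234) (nat_lit 263) (nat_lit 223)))) (XT.nd (nat_lit 188) (nat_lit 672) (nat_lit 0) (XT.nd (nat_lit 94) (nat_lit 756) (nat_lit 0) (XT.lf (nat_lit 84) (nat_lit 1797285082) (nat_lit 0) (nat_lit 830510193) (nat_lit 840) (nat_lit 1797285082) (nat_lit 174) (nat_lit 1) (nat_lit 173) (nat_lit 1) (nat_lit 183) (nat_lit 1) (nat_lit 235) (nat_lit 263) (nat_lit 222)) (XT.lf (nat_lit 840) (nat_lit 2948283146) (nat_lit 0) (nat_lit 717841371) (nat_lit 756) (nat_lit 717841371) (nat_lit 174) (nat_lit 1) (nat_lit 164) (nat_lit 1) (nat_lit 173) (nat_lit 1) (nat_lit 236) (nat_lit 263) (nat_lit 221))) (XT.nd (nat_lit 94) (nat_lit 672) (nat_lit 0) (XT.lf (nat_lit 84) (nat_lit 1147222514) (nat_lit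 0) (nat_lit 2048829410) (nat_lit 840) (nat_lit 1147222514) (nat_lit 165) (nat_lit 1) (nat_lit 164) (nat_lit 1) (nat_lit 174) (nat_lit 1) (nat_lit 237) (nat_lit 263) (nat_lit 220)) (XT.lf (nat_lit 756) (nat_lit 1639874133) (nat_lit 0) (nat_lit 1331633022) (nat_lit 672) (nat_lit 1331633022) (nat_lit 165) (nat_lit 1) (nat_lit 156) (nat_lit 1) (nat_lit 164) (nat_lit 1) (nat_lit 238) (nat_lit 263) (nat_lit 219))))) (XT.nd (nat_lit 376) (nat_lit 1260) (nat_lit 0) (XT.nd (nat_lit 188) (nat_lit 756) (nat_lit 0) (XT.nd (nat_lit 94) (nat_lit 672) (nat_lit 0) (XT.lf (nat_lit 84) (nat_lit 493727804) (nat_lit 0) (nat_lit 3276157267) (nat_lit 756) (nat_lit 493727804) (nat_lit 157) (nat_lit 1) (nat_lit 156) (nat_lit 1) (nat_lit 165) (nat_lit 1) (nat_lit 239) (nat_lit 263) (nat_lit 218)) (XT.lf (nat_lit 756) (nat_lit 325403439) (nat_lit 0) (nat_lit 1949511658) (nat_lit 672) (nat_lit 1949511658) (nat_lit 157) (nat_lit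 1) (nat_lit 148) (nat_lit 1) (nat_lit 156) (nat_lit 1) (nat_lit 240) (nat_lit 263) (nat_lit 217))) (XT.nd (nat_lit 94) (nat_lit 0) (nat_lit 0) (XT.lf (nat_lit 756) (nat_lit 3863512168) (nat_lit 0) (nat_lit 161209422) (nat_lit 672) (nat_lit 161209422) (nat_lit 148) (nat_lit 1) (nat_lit 139) (nat_lit 1) (nat_lit 147) (nat_lit 1) (nat_lit 241) (nat_lit 263) (nat_lit 216)) (XT.lf (nat_lit 84) (nat_lit 1584189002) (nat_lit 0) (nat_lit 979230588) (nat_lit 756) (nat_lit 1584189002) (nat_lit 140) (nat_lit 1) (nat_lit 139) (nat_lit 1) (nat_lit 148) (nat_lit 1) (nat_lit 242) (nat_lit 263) (nat_lit 215)))) (XT.nd (nat_lit 188) (nat_lit 588) (nat_lit 0) (XT.nd (nat_lit 94) (nat_lit 0) (nat_lit 0) (XT.lf (nat_lit 756) (nat_lit 2481130364) (nat_lit 0) (nat_lit 814414203) (nat_lit 672) (nat_lit 814414203) (nat_lit 140) (nat_lit 1) (nat_lit 131) (nat_lit 1) (nat_lit 139) (nat_lit 1) (nat_lit 243) (nat_lit 263) (nat_lit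 214)) (XT.lf (nat_lit 84) (nat_lit 895307103) (nat_lit 0) (nat_lit 2282116385) (nat_lit 756) (nat_lit 895307103) (nat_lit 132) (nat_lit 1) (nat_lit 131) (nat_lit 1) (nat_lit 140) (nat_lit 1) (nat_lit 244) (nat_lit 263) (nat_lit 213))) (XT.nd (nat_lit 94) (nat_lit 0) (nat_lit 0) (XT.lf (nat_lit 672) (nat_lit 1098468776) (nat_lit 0) (nat_lit 1468739990) (nat_lit 588) (nat_lit 1468739990) (nat_lit 132) (nat_lit 1) (nat_lit 124) (nat_lit 1) (nat_lit 131) (nat_lit 1) (nat_lit 245) (nat_lit 263) (nat_lit 212)) (XT.lf (nat_lit 84) (nat_lit 206612981) (nat_lit 0) (nat_lit 3586560595) (nat_lit 672) (nat_lit 206612981) (nat_lit 125) (nat_lit 1) (nat_lit 124) (nat_lit 1) (nat_lit 132) (nat_lit 1) (nat_lit 246) (nat_lit 263) (nat_lit 211))))))) (XT.nd (nat_lit 40796) (nat_lit 0) (nat_lit 16800) (XT.nd (nat_lit 658) (nat_lit 1008) (nat_lit 0) (XT.nd (nat_lit 282) (nat_lit 1764) (nat_lit 0) (XT.nd (nat_lit 94) (nat_lit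 588) (nat_lit 0) (XT.lf (nat_lit 84) (nat_lit 1842345970) (nat_lit 0) (nat_lit 279108493) (nat_lit 672) (nat_lit 1842345970) (nat_lit 117) (nat_lit 1) (nat_lit 116) (nat_lit 1) (nat_lit 124) (nat_lit 1) (nat_lit 247) (nat_lit 263) (nat_lit 210)) (XT.nd (nat_lit 94) (nat_lit 0) (nat_lit 0) (XT.lf (nat_lit 672) (nat_lit 2972827319) (nat_lit 0) (nat_lit 477795511) (nat_lit 588) (nat_lit 477795511) (nat_lit 117) (nat_lit 1) (nat_lit 109) (nat_lit 1) (nat_lit 116) (nat_lit 1) (nat_lit 248) (nat_lit 263) (nat_lit 209)) (XT.lf (nat_lit 84) (nat_lit 1127322284) (nat_lit 0) (nat_lit 1638687456) (nat_lit 672) (nat_lit 1127322284) (nat_lit 110) (nat_lit 1) (nat_lit 109) (nat_lit 1) (nat_lit 117) (nat_lit 1) (nat_lit 249) (nat_lit 263) (nat_lit 208)))) (XT.nd (nat_lit 188) (nat_lit 1176) (nat_lit 0) (XT.nd (nat_lit 94) (nat_lit 0) (nat_lit 0) (XT.lf (nat_lit 672) (nat_lit 1540078383) (nat_lit 0) (nat_lit 1159333832)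 (nat_lit 588) (nat_lit 1159333832) (nat_lit 110) (nat_lit 1) (nat_lit 102) (nat_lit 1) (nat_lit 109) (nat_lit 1) (nat_lit 250) (nat_lit 263) (nat_lit 207)) (XT.lf (nat_lit 84) (nat_lit 414841279) (nat_lit 0) (nat_lit 2994980675) (nat_lit 672) (nat_lit 414841279) (nat_lit 103) (nat_lit 1) (nat_lit 102) (nat_lit 1) (nat_lit 110) (nat_lit 1) (nat_lit 251) (nat_lit 263) (nat_lit 206))) (XT.nd (nat_lit 94) (nat_lit 672) (nat_lit 0) (XT.lf (nat_lit 588) (nat_lit 112933291) (nat_lit 0) (nat_lit 1838957427) (nat_lit 504) (nat_lit 1838957427) (nat_lit 103) (nat_lit 1) (nat_lit 96) (nat_lit 1) (nat_lit 102) (nat_lit 1) (nat_lit 252) (nat_lit 263) (nat_lit 205)) (XT.lf (nat_lit 672) (nat_lit 3172607255) (nat_lit 0) (nat_lit 292475334) (nat_lit 588) (nat_lit 292475334) (nat_lit 96) (nat_lit 1) (nat_lit 88) (nat_lit 1) (nat_lit 95) (nat_lit 1) (nat_lit 253) (nat_lit 263) (nat_lit 204))))) (XT.nd (nat_lit 39762) (nat_lit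 0) (nat_lit 18060) (XT.nd (nat_lit 188) (nat_lit 504) (nat_lit 0) (XT.nd (nat_lit 94) (nat_lit 504) (nat_lit 0) (XT.lf (nat_lit 84) (nat_lit 1217825244) (nat_lit 0) (nat_lit 1288819334) (nat_lit 672) (nat_lit 1217825244) (nat_lit 89) (nat_lit 1) (nat_lit 88) (nat_lit 1) (nat_lit 96) (nat_lit 1) (nat_lit 254) (nat_lit 263) (nat_lit 203)) (XT.lf (nat_lit 588) (nat_lit 1705243036) (nat_lit 0) (nat_lit 993325220) (nat_lit 504) (nat_lit 993325220) (nat_lit 89) (nat_lit 1) (nat_lit 82) (nat_lit 1) (nat_lit 88) (nat_lit 1) (nat_lit 255) (nat_lit 263) (nat_lit 202))) (XT.nd (nat_lit 94) (nat_lit 504) (nat_lit 0) (XT.lf (nat_lit 84) (nat_lit 489072280) (nat_lit 0) (nat_lit 2681606590) (nat_lit 588) (nat_lit 489072280) (nat_lit 83) (nat_lit 1) (nat_lit 82) (nat_lit 1) (nat_lit 89) (nat_lit 1) (nat_lit 256) (nat_lit 263) (nat_lit 201)) (XT.lf (nat_lit 588) (nat_lit 247317050) (nat_lit 0) (nat_lit 1690283242) (nat_lit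 504) (nat_lit 1690283242) (nat_lit 83) (nat_lit 1) (nat_lit 76) (nat_lit 1) (nat_lit 82) (nat_lit 1) (nat_lit 257) (nat_lit 263) (nat_lit 200)))) (XT.nd (nat_lit 188) (nat_lit 0) (nat_lit 84) (XT.nd (nat_lit 94) (nat_lit 0) (nat_lit 0) (XT.lf (nat_lit 1932) (nat_lit 2411425510) (nat_lit 0) (nat_lit 1729521402) (nat_lit 1848) (nat_lit 2411425510) (nat_lit 314) (nat_lit 1) (nat_lit 291) (nat_lit 1) (nat_lit 313) (nat_lit 1) (nat_lit 196) (nat_lit 264) (nat_lit 260)) (XT.lf (nat_lit 1932) (nat_lit 4671535204) (nat_lit 84) (nat_lit 905595848) (nat_lit 0) (nat_lit 905595848) (nat_lit 314) (nat_lit 1) (nat_lit 292) (nat_lit 1) (nat_lit 291) (nat_lit 1) (nat_lit 197) (nat_lit 264) (nat_lit 259))) (XT.nd (nat_lit 94) (nat_lit 0) (nat_lit 0) (XT.lf (nat_lit 1932) (nat_lit 2244734073) (nat_lit 0) (nat_lit 1924380370) (nat_lit 1848) (nat_lit 2244734073) (nat_lit 315) (nat_lit 1) (nat_lit 292) (nat_lit 1) (nat_lit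 314) (nat_lit 1) (nat_lit 198) (nat_lit 264) (nat_lit 258)) (XT.lf (nat_lit 1932) (nat_lit 4297412203) (nat_lit 84) (nat_lit 1024370620) (nat_lit 0) (nat_lit 1024370620) (nat_lit 315) (nat_lit 1) (nat_lit 293) (nat_lit 1) (nat_lit 292) (nat_lit 1) (nat_lit 199) (nat_lit 264) (nat_lit 257)))))) (XT.nd (nat_lit 658) (nat_lit 1428) (nat_lit 0) (XT.nd (nat_lit 282) (nat_lit 0) (nat_lit 84) (XT.nd (nat_lit 94) (nat_lit 0) (nat_lit 0) (XT.lf (nat_lit 1932) (nat_lit 2039102801) (nat_lit 0) (nat_lit 2201036548) (nat_lit 1848) (nat_lit 2039102801) (nat_lit 316) (nat_lit 1) (nat_lit 293) (nat_lit 1) (nat_lit 315) (nat_lit 1) (nat_lit 200) (nat_lit 264) (nat_lit 256)) (XT.nd (nat_lit 94) (nat_lit 0) (nat_lit 84) (XT.lf (nat_lit 1932) (nat_lit 3847810114) (nat_lit 84) (nat_lit 1182809336) (nat_lit 0) (nat_lit 1182809336) (nat_lit 316) (nat_lit 1) (nat_lit 294) (nat_lit 1) (nat_lit 293) (nat_lit 1) (nat_lit 201)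 (nat_lit 264) (nat_lit 255)) (XT.lf (nat_lit 1932) (nat_lit 1797181180) (nat_lit 0) (nat_lit 2554066790) (nat_lit 1848) (nat_lit 1797181180) (nat_lit 317) (nat_lit 1) (nat_lit 294) (nat_lit 1) (nat_lit 316) (nat_lit 1) (nat_lit 202) (nat_lit 264) (nat_lit 254)))) (XT.nd (nat_lit 188) (nat_lit 0) (nat_lit 84) (XT.nd (nat_lit 94) (nat_lit 0) (nat_lit 84) (XT.lf (nat_lit 1932) (nat_lit 3327911339) (nat_lit 84) (nat_lit 1378260014) (nat_lit 0) (nat_lit 1378260014) (nat_lit 317) (nat_lit 1) (nat_lit 295) (nat_lit 1) (nat_lit 294) (nat_lit 1) (nat_lit 203) (nat_lit 264) (nat_lit 253)) (XT.lf (nat_lit 1932) (nat_lit 1521484518) (nat_lit 0) (nat_lit 2978320669) (nat_lit 1848) (nat_lit 1521484518) (nat_lit 318) (nat_lit 1) (nat_lit 295) (nat_lit 1) (nat_lit 317) (nat_lit 1) (nat_lit 204) (nat_lit 264) (nat_lit 252))) (XT.nd (nat_lit 94) (nat_lit 0) (nat_lit 84) (XT.lf (nat_lit 1932) (nat_lit 2742635206) (nat_lit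 84) (nat_lit 1608204344) (nat_lit 0) (nat_lit 1608204344) (nat_lit 318) (nat_lit 1) (nat_lit 296) (nat_lit 1) (nat_lit 295) (nat_lit 1) (nat_lit 205) (nat_lit 264) (nat_lit 251)) (XT.lf (nat_lit 1932) (nat_lit 1214400124) (nat_lit 0) (nat_lit 3468907962) (nat_lit 1848) (nat_lit 1214400124) (nat_lit 319) (nat_lit 1) (nat_lit 296) (nat_lit 1) (nat_lit 318) (nat_lit 1) (nat_lit 206) (nat_lit 264) (nat_lit 250))))) (XT.nd (nat_lit 376) (nat_lit 1680) (nat_lit 0) (XT.nd (nat_lit 188) (nat_lit 0) (nat_lit 84) (XT.nd (nat_lit 94) (nat_lit 0) (nat_lit 84) (XT.lf (nat_lit 1932) (nat_lit 2096650084) (nat_lit 84) (nat_lit 1870251547) (nat_lit 0) (nat_lit 1870251547) (nat_lit 319) (nat_lit 1) (nat_lit 297) (nat_lit 1) (nat_lit 296) (nat_lit 1) (nat_lit 207) (nat_lit 264) (nat_lit 249)) (XT.lf (nat_lit 1932) (nat_lit 878193210) (nat_lit 0) (nat_lit 4021186688) (nat_lit 1848) (nat_lit 878193210) (nat_lit 320) (nat_lit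 1) (nat_lit 297) (nat_lit 1) (nat_lit 319) (nat_lit 1) (nat_lit 208) (nat_lit 264) (nat_lit 248))) (XT.nd (nat_lit 94) (nat_lit 0) (nat_lit 84) (XT.lf (nat_lit 1932) (nat_lit 1394384963) (nat_lit 84) (nat_lit 2162132506) (nat_lit 0) (nat_lit 2162132506) (nat_lit 320) (nat_lit 1) (nat_lit 298) (nat_lit 1) (nat_lit 297) (nat_lit 1) (nat_lit 209) (nat_lit 264) (nat_lit 247)) (XT.lf (nat_lit 1932) (nat_lit 515012525) (nat_lit 0) (nat_lit 4630751679) (nat_lit 1848) (nat_lit 515012525) (nat_lit 321) (nat_lit 1) (nat_lit 298) (nat_lit 1) (nat_lit 320) (nat_lit 1) (nat_lit 210) (nat_lit 264) (nat_lit 246)))) (XT.nd (nat_lit 188) (nat_lit 1848) (nat_lit 0) (XT.nd (nat_lit 94) (nat_lit 0) (nat_lit 84) (XT.lf (nat_lit 1932) (nat_lit 640040521) (nat_lit 84) (nat_lit 2481694161) (nat_lit 0) (nat_lit 2481694161) (nat_lit 321) (nat_lit 1) (nat_lit 299) (nat_lit 1) (nat_lit 298) (nat_lit 1) (nat_lit 211) (nat_lit 264)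 (nat_lit 245)) (XT.lf (nat_lit 1932) (nat_lit 126895750) (nat_lit 0) (nat_lit 5293423648) (nat_lit 1848) (nat_lit 126895750) (nat_lit 322) (nat_lit 1) (nat_lit 299) (nat_lit 1) (nat_lit 321) (nat_lit 1) (nat_lit 212) (nat_lit 264) (nat_lit 244))) (XT.nd (nat_lit 94) (nat_lit 0) (nat_lit 0) (XT.lf (nat_lit 2016) (nat_lit 2665650664) (nat_lit 0) (nat_lit 160061212) (nat_lit 1932) (nat_lit 2665650664) (nat_lit 300) (nat_lit 1) (nat_lit 276) (nat_lit 1) (nat_lit 299) (nat_lit 1) (nat_lit 213) (nat_lit 264) (nat_lit 243)) (XT.lf (nat_lit 2016) (nat_lit 4872266896) (nat_lit 84) (nat_lit 282171161) (nat_lit 0) (nat_lit 282171161) (nat_lit 300) (nat_lit 1) (nat_lit 277) (nat_lit 1) (nat_lit 276) (nat_lit 1) (nat_lit 214) (nat_lit 264) (nat_lit 242))))))))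
noncomputable def ec24 : XT := (XT.nd (nat_lit 2726) (nat_lit 4620) (nat_lit 0) (XT.nd (nat_lit 1316) (nat_lit 6468) (nat_lit 0) (XT.nd (nat_lit 658) (nat_lit 3444) (nat_lit 0) (XT.nd (nat_lit 282) (nat_lit 1848) (nat_lit 0) (XT.nd (nat_lit 94) (nat_lit 1092) (nat_lit 0) (XT.lf (nat_lit 84) (nat_lit 2193821993) (nat_lit 0) (nat_lit 994627013) (nat_lit 1932) (nat_lit 2193821993) (nat_lit 278) (nat_lit 1) (nat_lit 277) (nat_lit 1) (nat_lit 300) (nat_lit 1) (nat_lit 215) (nat_lit 264) (nat_lit 241)) (XT.nd (nat_lit 94) (nat_lit 0) (nat_lit 0) (XT.lf (nat_lit 1176) (nat_lit 3906264772) (nat_lit 0) (nat_lit 711341486) (nat_lit 1092) (nat_lit 711341486) (nat_lit 278) (nat_lit 1) (nat_lit 264) (nat_lit 1) (nat_lit 277) (nat_lit 1) (nat_lit 216) (nat_lit 264) (nat_lit 240)) (XT.lf (nat_lit 84) (nat_lit 1703405264) (nat_lit 0) (nat_lit 1869349667) (nat_lit 1176) (nat_lit 1703405264) (nat_lit 265) (nat_lit 1)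 (nat_lit 264) (nat_lit 1) (nat_lit 278) (nat_lit 1) (nat_lit 217) (nat_lit 264) (nat_lit 239)))) (XT.nd (nat_lit 188) (nat_lit 924) (nat_lit 0) (XT.nd (nat_lit 94) (nat_lit 0) (nat_lit 0) (XT.lf (nat_lit 1008) (nat_lit 2904597333) (nat_lit 0) (nat_lit 1159810403) (nat_lit 924) (nat_lit 1159810403) (nat_lit 265) (nat_lit 1) (nat_lit 253) (nat_lit 1) (nat_lit 264) (nat_lit 1) (nat_lit 218) (nat_lit 264) (nat_lit 238)) (XT.lf (nat_lit 84) (nat_lit 1196024837) (nat_lit 0) (nat_lit 2780889354) (nat_lit 1008) (nat_lit 1196024837) (nat_lit 254) (nat_lit 1) (nat_lit 253) (nat_lit 1) (nat_lit 265) (nat_lit 1) (nat_lit 219) (nat_lit 264) (nat_lit 237))) (XT.nd (nat_lit 94) (nat_lit 0) (nat_lit 0) (XT.lf (nat_lit 1008) (nat_lit 1870436921) (nat_lit 0) (nat_lit 1625947103) (nat_lit 924) (nat_lit 1625947103) (nat_lit 254) (nat_lit 1) (nat_lit 242) (nat_lit 1) (nat_lit 253) (nat_lit 1) (nat_lit 220) (nat_lit 264)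 (nat_lit 236)) (XT.lf (nat_lit 84) (nat_lit 673217970) (nat_lit 0) (nat_lit 3726083574) (nat_lit 1008) (nat_lit 673217970) (nat_lit 243) (nat_lit 1) (nat_lit 242) (nat_lit 1) (nat_lit 254) (nat_lit 1) (nat_lit 221) (nat_lit 264) (nat_lit 235))))) (XT.nd (nat_lit 282) (nat_lit 1680) (nat_lit 0) (XT.nd (nat_lit 94) (nat_lit 924) (nat_lit 0) (XT.lf (nat_lit 924) (nat_lit 806785178) (nat_lit 0) (nat_lit 2108207644) (nat_lit 840) (nat_lit 2108207644) (nat_lit 243) (nat_lit 1) (nat_lit 232) (nat_lit 1) (nat_lit 242) (nat_lit 1) (nat_lit 222) (nat_lit 264) (nat_lit 234)) (XT.nd (nat_lit 94) (nat_lit 924) (nat_lit 0) (XT.lf (nat_lit 84) (nat_lit 136438906) (nat_lit 0) (nat_lit 4701938839) (nat_lit 924) (nat_lit 136438906) (nat_lit 233) (nat_lit 1) (nat_lit 232) (nat_lit 1) (nat_lit 243) (nat_lit 1) (nat_lit 223) (nat_lit 264) (nat_lit 233)) (XT.lf (nat_lit 84) (nat_lit 2323631536) (nat_lit 0) (nat_lit 279435341)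 (nat_lit 924) (nat_lit 2323631536) (nat_lit 222) (nat_lit 1) (nat_lit 221) (nat_lit 1) (nat_lit 232) (nat_lit 1) (nat_lit 224) (nat_lit 264) (nat_lit 232)))) (XT.nd (nat_lit 188) (nat_lit 840) (nat_lit 0) (XT.nd (nat_lit 94) (nat_lit 0) (nat_lit 0) (XT.lf (nat_lit 924) (nat_lit 4059582977) (nat_lit 0) (nat_lit 409952771) (nat_lit 840) (nat_lit 409952771) (nat_lit 222) (nat_lit 1) (nat_lit 211) (nat_lit 1) (nat_lit 221) (nat_lit 1) (nat_lit 225) (nat_lit 264) (nat_lit 231)) (XT.lf (nat_lit 84) (nat_lit 1727499990) (nat_lit 0) (nat_lit 1377658725) (nat_lit 924) (nat_lit 1727499990) (nat_lit 212) (nat_lit 1) (nat_lit 211) (nat_lit 1) (nat_lit 222) (nat_lit 1) (nat_lit 226) (nat_lit 264) (nat_lit 230))) (XT.nd (nat_lit 94) (nat_lit 0) (nat_lit 0) (XT.lf (nat_lit 924) (nat_lit 2853474693) (nat_lit 0) (nat_lit 966573970) (nat_lit 840) (nat_lit 966573970) (nat_lit 212) (nat_lit 1) (nat_lit 201) (nat_lit 1)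 (nat_lit 211) (nat_lit 1) (nat_lit 227) (nat_lit 264) (nat_lit 229)) (XT.lf (nat_lit 84) (nat_lit 1122062473) (nat_lit 0) (nat_lit 2497005437) (nat_lit 924) (nat_lit 1122062473) (nat_lit 202) (nat_lit 1) (nat_lit 201) (nat_lit 1) (nat_lit 212) (nat_lit 1) (nat_lit 228) (nat_lit 264) (nat_lit 228)))))) (XT.nd (nat_lit 658) (nat_lit 3360) (nat_lit 0) (XT.nd (nat_lit 282) (nat_lit 1596) (nat_lit 0) (XT.nd (nat_lit 94) (nat_lit 756) (nat_lit 0) (XT.lf (nat_lit 840) (nat_lit 1629845629) (nat_lit 0) (nat_lit 1533191654) (nat_lit 756) (nat_lit 1533191654) (nat_lit 202) (nat_lit 1) (nat_lit 192) (nat_lit 1) (nat_lit 201) (nat_lit 1) (nat_lit 229) (nat_lit 264) (nat_lit 227)) (XT.nd (nat_lit 94) (nat_lit 756) (nat_lit 0) (XT.lf (nat_lit 84) (nat_lit 508462178) (nat_lit 0) (nat_lit 3635114289) (nat_lit 840) (nat_lit 508462178) (nat_lit 193) (nat_lit 1) (nat_lit 192) (nat_lit 1) (nat_lit 202) (nat_lit 1) (nat_lit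 230) (nat_lit 264) (nat_lit 226)) (XT.lf (nat_lit 840) (nat_lit 390924903) (nat_lit 0) (nat_lit 2108654580) (nat_lit 756) (nat_lit 2108654580) (nat_lit 193) (nat_lit 1) (nat_lit 183) (nat_lit 1) (nat_lit 192) (nat_lit 1) (nat_lit 231) (nat_lit 264) (nat_lit 225)))) (XT.nd (nat_lit 188) (nat_lit 756) (nat_lit 0) (XT.nd (nat_lit 94) (nat_lit 0) (nat_lit 0) (XT.lf (nat_lit 840) (nat_lit 4342417773) (nat_lit 0) (nat_lit 111411398) (nat_lit 756) (nat_lit 111411398) (nat_lit 183) (nat_lit 1) (nat_lit 173) (nat_lit 1) (nat_lit 182) (nat_lit 1) (nat_lit 232) (nat_lit 264) (nat_lit 224)) (XT.lf (nat_lit 84) (nat_lit 1836825353) (nat_lit 0) (nat_lit 848781417) (nat_lit 840) (nat_lit 1836825353) (nat_lit 174) (nat_lit 1) (nat_lit 173) (nat_lit 1) (nat_lit 183) (nat_lit 1) (nat_lit 233) (nat_lit 264) (nat_lit 223))) (XT.nd (nat_lit 94) (nat_lit 0) (nat_lit 0) (XT.lf (nat_lit 840) (nat_lit 3013145376) (nat_lit 0)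 (nat_lit 733633881) (nat_lit 756) (nat_lit 733633881) (nat_lit 174) (nat_lit 1) (nat_lit 164) (nat_lit 1) (nat_lit 173) (nat_lit 1) (nat_lit 234) (nat_lit 264) (nat_lit 222)) (XT.lf (nat_lit 84) (nat_lit 1172461410) (nat_lit 0) (nat_lit 2093903658) (nat_lit 840) (nat_lit 1172461410) (nat_lit 165) (nat_lit 1) (nat_lit 164) (nat_lit 1) (nat_lit 174) (nat_lit 1) (nat_lit 235) (nat_lit 264) (nat_lit 221))))) (XT.nd (nat_lit 376) (nat_lit 1260) (nat_lit 0) (XT.nd (nat_lit 188) (nat_lit 1428) (nat_lit 0) (XT.nd (nat_lit 94) (nat_lit 0) (nat_lit 0) (XT.lf (nat_lit 756) (nat_lit 1675951364) (nat_lit 0) (nat_lit 1360928948) (nat_lit 672) (nat_lit 1360928948) (nat_lit 165) (nat_lit 1) (nat_lit 156) (nat_lit 1) (nat_lit 164) (nat_lit 1) (nat_lit 236) (nat_lit 264) (nat_lit 220)) (XT.lf (nat_lit 84) (nat_lit 504589815) (nat_lit 0) (nat_lit 3348232727) (nat_lit 756) (nat_lit 504589815) (nat_lit 157) (nat_lit 1) (nat_lit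 156) (nat_lit 1) (nat_lit 165) (nat_lit 1) (nat_lit 237) (nat_lit 264) (nat_lit 219))) (XT.nd (nat_lit 94) (nat_lit 756) (nat_lit 0) (XT.lf (nat_lit 756) (nat_lit 332562315) (nat_lit 0) (nat_lit 1992400914) (nat_lit 672) (nat_lit 1992400914) (nat_lit 157) (nat_lit 1) (nat_lit 148) (nat_lit 1) (nat_lit 156) (nat_lit 1) (nat_lit 238) (nat_lit 264) (nat_lit 218)) (XT.lf (nat_lit 756) (nat_lit 3948509436) (nat_lit 0) (nat_lit 164756029) (nat_lit 672) (nat_lit 164756029) (nat_lit 148) (nat_lit 1) (nat_lit 139) (nat_lit 1) (nat_lit 147) (nat_lit 1) (nat_lit 239) (nat_lit 264) (nat_lit 217)))) (XT.nd (nat_lit 188) (nat_lit 588) (nat_lit 0) (XT.nd (nat_lit 94) (nat_lit 672) (nat_lit 0) (XT.lf (nat_lit 84) (nat_lit 1619041160) (nat_lit 0) (nat_lit 1000773661) (nat_lit 756) (nat_lit 1619041160) (nat_lit 140) (nat_lit 1) (nat_lit 139) (nat_lit 1) (nat_lit 148) (nat_lit 1) (nat_lit 240) (nat_lit 264) (nat_lit 216))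 (XT.lf (nat_lit 756) (nat_lit 2535715232) (nat_lit 0) (nat_lit 832331315) (nat_lit 672) (nat_lit 832331315) (nat_lit 140) (nat_lit 1) (nat_lit 131) (nat_lit 1) (nat_lit 139) (nat_lit 1) (nat_lit 241) (nat_lit 264) (nat_lit 215))) (XT.nd (nat_lit 94) (nat_lit 588) (nat_lit 0) (XT.lf (nat_lit 84) (nat_lit 915003860) (nat_lit 0) (nat_lit 2332322946) (nat_lit 756) (nat_lit 915003860) (nat_lit 132) (nat_lit 1) (nat_lit 131) (nat_lit 1) (nat_lit 140) (nat_lit 1) (nat_lit 242) (nat_lit 264) (nat_lit 214)) (XT.lf (nat_lit 672) (nat_lit 1122635089) (nat_lit 0) (nat_lit 1501052269) (nat_lit 588) (nat_lit 1501052269) (nat_lit 132) (nat_lit 1) (nat_lit 124) (nat_lit 1) (nat_lit 131) (nat_lit 1) (nat_lit 243) (nat_lit 264) (nat_lit 213))))))) (XT.nd (nat_lit 40796) (nat_lit 0) (nat_lit 17388) (XT.nd (nat_lit 658) (nat_lit 2268) (nat_lit 0) (XT.nd (nat_lit 282) (nat_lit 1092) (nat_lit 0) (XT.nd (nat_lit 94) (nat_lit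 1260) (nat_lit 0) (XT.lf (nat_lit 84) (nat_lit 211158467) (nat_lit 0) (nat_lit 3665464928) (nat_lit 672) (nat_lit 211158467) (nat_lit 125) (nat_lit 1) (nat_lit 124) (nat_lit 1) (nat_lit 132) (nat_lit 1) (nat_lit 244) (nat_lit 264) (nat_lit 212)) (XT.nd (nat_lit 94) (nat_lit 588) (nat_lit 0) (XT.lf (nat_lit 84) (nat_lit 1882877581) (nat_lit 0) (nat_lit 285248879) (nat_lit 672) (nat_lit 1882877581) (nat_lit 117) (nat_lit 1) (nat_lit 116) (nat_lit 1) (nat_lit 124) (nat_lit 1) (nat_lit 245) (nat_lit 264) (nat_lit 211)) (XT.lf (nat_lit 672) (nat_lit 3038229521) (nat_lit 0) (nat_lit 488307012) (nat_lit 588) (nat_lit 488307012) (nat_lit 117) (nat_lit 1) (nat_lit 109) (nat_lit 1) (nat_lit 116) (nat_lit 1) (nat_lit 246) (nat_lit 264) (nat_lit 210)))) (XT.nd (nat_lit 188) (nat_lit 504) (nat_lit 0) (XT.nd (nat_lit 94) (nat_lit 588) (nat_lit 0) (XT.lf (nat_lit 84) (nat_lit 1152123375) (nat_lit 0) (nat_lit 1674738580)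 (nat_lit 672) (nat_lit 1152123375) (nat_lit 110) (nat_lit 1) (nat_lit 109) (nat_lit 1) (nat_lit 117) (nat_lit 1) (nat_lit 247) (nat_lit 264) (nat_lit 209)) (XT.lf (nat_lit 672) (nat_lit 1573960107) (nat_lit 0) (nat_lit 1184839176) (nat_lit 588) (nat_lit 1184839176) (nat_lit 110) (nat_lit 1) (nat_lit 102) (nat_lit 1) (nat_lit 109) (nat_lit 1) (nat_lit 248) (nat_lit 264) (nat_lit 208))) (XT.nd (nat_lit 94) (nat_lit 504) (nat_lit 0) (XT.lf (nat_lit 84) (nat_lit 423967787) (nat_lit 0) (nat_lit 3060870249) (nat_lit 672) (nat_lit 423967787) (nat_lit 103) (nat_lit 1) (nat_lit 102) (nat_lit 1) (nat_lit 110) (nat_lit 1) (nat_lit 249) (nat_lit 264) (nat_lit 207)) (XT.lf (nat_lit 588) (nat_lit 115417823) (nat_lit 0) (nat_lit 1879414490) (nat_lit 504) (nat_lit 1879414490) (nat_lit 103) (nat_lit 1) (nat_lit 96) (nat_lit 1) (nat_lit 102) (nat_lit 1) (nat_lit 250) (nat_lit 264) (nat_lit 206))))) (XT.nd (nat_lit 282)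 (nat_lit 1092) (nat_lit 0) (XT.nd (nat_lit 94) (nat_lit 504) (nat_lit 0) (XT.lf (nat_lit 672) (nat_lit 3242404614) (nat_lit 0) (nat_lit 298909792) (nat_lit 588) (nat_lit 298909792) (nat_lit 96) (nat_lit 1) (nat_lit 88) (nat_lit 1) (nat_lit 95) (nat_lit 1) (nat_lit 251) (nat_lit 264) (nat_lit 205)) (XT.nd (nat_lit 94) (nat_lit 504) (nat_lit 0) (XT.lf (nat_lit 84) (nat_lit 1244617399) (nat_lit 0) (nat_lit 1317173359) (nat_lit 672) (nat_lit 1244617399) (nat_lit 89) (nat_lit 1) (nat_lit 88) (nat_lit 1) (nat_lit 96) (nat_lit 1) (nat_lit 252) (nat_lit 264) (nat_lit 204)) (XT.lf (nat_lit 588) (nat_lit 1742758383) (nat_lit 0) (nat_lit 1015178375) (nat_lit 504) (nat_lit 1015178375) (nat_lit 89) (nat_lit 1) (nat_lit 82) (nat_lit 1) (nat_lit 88) (nat_lit 1) (nat_lit 253) (nat_lit 264) (nat_lit 203)))) (XT.nd (nat_lit 188) (nat_lit 588) (nat_lit 0) (XT.nd (nat_lit 94) (nat_lit 504) (nat_lit 0) (XT.lf (nat_lit 84)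 (nat_lit 499831871) (nat_lit 0) (nat_lit 2740601935) (nat_lit 588) (nat_lit 499831871) (nat_lit 83) (nat_lit 1) (nat_lit 82) (nat_lit 1) (nat_lit 89) (nat_lit 1) (nat_lit 254) (nat_lit 264) (nat_lit 202)) (XT.lf (nat_lit 588) (nat_lit 252758026) (nat_lit 0) (nat_lit 1727469473) (nat_lit 504) (nat_lit 1727469473) (nat_lit 83) (nat_lit 1) (nat_lit 76) (nat_lit 1) (nat_lit 82) (nat_lit 1) (nat_lit 255) (nat_lit 264) (nat_lit 201))) (XT.nd (nat_lit 39574) (nat_lit 0) (nat_lit 18732) (XT.lf (nat_lit 588) (nat_lit 3199197693) (nat_lit 0) (nat_lit 238220541) (nat_lit 504) (nat_lit 238220541) (nat_lit 76) (nat_lit 1) (nat_lit 69) (nat_lit 1) (nat_lit 75) (nat_lit 1) (nat_lit 256) (nat_lit 264) (nat_lit 200)) (XT.lf (nat_lit 1932) (nat_lit 2294118222) (nat_lit 0) (nat_lit 1966716739) (nat_lit 1848) (nat_lit 2294118222) (nat_lit 315) (nat_lit 1) (nat_lit 292) (nat_lit 1) (nat_lit 314) (nat_lit 1) (nat_lit 196)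 (nat_lit 265) (nat_lit 259)))))) (XT.nd (nat_lit 658) (nat_lit 1344) (nat_lit 0) (XT.nd (nat_lit 282) (nat_lit 0) (nat_lit 168) (XT.nd (nat_lit 94) (nat_lit 0) (nat_lit 84) (XT.lf (nat_lit 1932) (nat_lit 4391955272) (nat_lit 84) (nat_lit 1046906774) (nat_lit 0) (nat_lit 1046906774) (nat_lit 315) (nat_lit 1) (nat_lit 293) (nat_lit 1) (nat_lit 292) (nat_lit 1) (nat_lit 197) (nat_lit 265) (nat_lit 258)) (XT.nd (nat_lit 94) (nat_lit 0) (nat_lit 0) (XT.lf (nat_lit 1932) (nat_lit 2083963063) (nat_lit 0) (nat_lit 2249459352) (nat_lit 1848) (nat_lit 2083963063) (nat_lit 316) (nat_lit 1) (nat_lit 293) (nat_lit 1) (nat_lit 315) (nat_lit 1) (nat_lit 198) (nat_lit 265) (nat_lit 257)) (XT.lf (nat_lit 1932) (nat_lit 3932461936) (nat_lit 84) (nat_lit 1208831141) (nat_lit 0) (nat_lit 1208831141) (nat_lit 316) (nat_lit 1) (nat_lit 294) (nat_lit 1) (nat_lit 293) (nat_lit 1) (nat_lit 199) (nat_lit 265) (nat_lit 256))))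 (XT.nd (nat_lit 188) (nat_lit 0) (nat_lit 84) (XT.nd (nat_lit 94) (nat_lit 0) (nat_lit 0) (XT.lf (nat_lit 1932) (nat_lit 1836719166) (nat_lit 0) (nat_lit 2610256260) (nat_lit 1848) (nat_lit 1836719166) (nat_lit 317) (nat_lit 1) (nat_lit 294) (nat_lit 1) (nat_lit 316) (nat_lit 1) (nat_lit 200) (nat_lit 265) (nat_lit 255)) (XT.lf (nat_lit 1932) (nat_lit 3401125388) (nat_lit 84) (nat_lit 1408581734) (nat_lit 0) (nat_lit 1408581734) (nat_lit 317) (nat_lit 1) (nat_lit 295) (nat_lit 1) (nat_lit 294) (nat_lit 1) (nat_lit 201) (nat_lit 265) (nat_lit 254))) (XT.nd (nat_lit 94) (nat_lit 0) (nat_lit 0) (XT.lf (nat_lit 1932) (nat_lit 1554957177) (nat_lit 0) (nat_lit 3043843724) (nat_lit 1848) (nat_lit 1554957177) (nat_lit 318) (nat_lit 1) (nat_lit 295) (nat_lit 1) (nat_lit 317) (nat_lit 1) (nat_lit 202) (nat_lit 265) (nat_lit 253)) (XT.lf (nat_lit 1932) (nat_lit 2802973181) (nat_lit 84) (nat_lit 1643584839) (nat_lit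 0) (nat_lit 1643584839) (nat_lit 318) (nat_lit 1) (nat_lit 296) (nat_lit 1) (nat_lit 295) (nat_lit 1) (nat_lit 203) (nat_lit 265) (nat_lit 252))))) (XT.nd (nat_lit 376) (nat_lit 1680) (nat_lit 0) (XT.nd (nat_lit 188) (nat_lit 0) (nat_lit 84) (XT.nd (nat_lit 94) (nat_lit 0) (nat_lit 0) (XT.lf (nat_lit 1932) (nat_lit 1241116927) (nat_lit 0) (nat_lit 3545223937) (nat_lit 1848) (nat_lit 1241116927) (nat_lit 319) (nat_lit 1) (nat_lit 296) (nat_lit 1) (nat_lit 318) (nat_lit 1) (nat_lit 204) (nat_lit 265) (nat_lit 251)) (XT.lf (nat_lit 1932) (nat_lit 2142776386) (nat_lit 84) (nat_lit 1911397081) (nat_lit 0) (nat_lit 1911397081) (nat_lit 319) (nat_lit 1) (nat_lit 297) (nat_lit 1) (nat_lit 296) (nat_lit 1) (nat_lit 205) (nat_lit 265) (nat_lit 250))) (XT.nd (nat_lit 94) (nat_lit 0) (nat_lit 0) (XT.lf (nat_lit 1932) (nat_lit 897513461) (nat_lit 0) (nat_lit 4109652795) (nat_lit 1848) (nat_lit 897513461) (nat_lit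 320) (nat_lit 1) (nat_lit 297) (nat_lit 1) (nat_lit 319) (nat_lit 1) (nat_lit 206) (nat_lit 265) (nat_lit 249)) (XT.lf (nat_lit 1932) (nat_lit 1425061432) (nat_lit 84) (nat_lit 2209699421) (nat_lit 0) (nat_lit 2209699421) (nat_lit 320) (nat_lit 1) (nat_lit 298) (nat_lit 1) (nat_lit 297) (nat_lit 1) (nat_lit 207) (nat_lit 265) (nat_lit 248)))) (XT.nd (nat_lit 188) (nat_lit 1848) (nat_lit 0) (XT.nd (nat_lit 94) (nat_lit 0) (nat_lit 0) (XT.lf (nat_lit 1932) (nat_lit 526342801) (nat_lit 0) (nat_lit 4732628216) (nat_lit 1848) (nat_lit 526342801) (nat_lit 321) (nat_lit 1) (nat_lit 298) (nat_lit 1) (nat_lit 320) (nat_lit 1) (nat_lit 208) (nat_lit 265) (nat_lit 247)) (XT.lf (nat_lit 1932) (nat_lit 654121413) (nat_lit 84) (nat_lit 2536291432) (nat_lit 0) (nat_lit 2536291432) (nat_lit 321) (nat_lit 1) (nat_lit 299) (nat_lit 1) (nat_lit 298) (nat_lit 1) (nat_lit 209) (nat_lit 265) (nat_lit 246))) (XT.nd (nat_lit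 94) (nat_lit 1932) (nat_lit 0) (XT.lf (nat_lit 1932) (nat_lit 129687457) (nat_lit 0) (nat_lit 5409878968) (nat_lit 1848) (nat_lit 129687457) (nat_lit 322) (nat_lit 1) (nat_lit 299) (nat_lit 1) (nat_lit 321) (nat_lit 1) (nat_lit 210) (nat_lit 265) (nat_lit 245)) (XT.lf (nat_lit 2016) (nat_lit 2724294978) (nat_lit 0) (nat_lit 163582559) (nat_lit 1932) (nat_lit 2724294978) (nat_lit 300) (nat_lit 1) (nat_lit 276) (nat_lit 1) (nat_lit 299) (nat_lit 1) (nat_lit 211) (nat_lit 265) (nat_lit 244))))))))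
noncomputable def ec25 : XT := (XT.nd (nat_lit 2726) (nat_lit 5208) (nat_lit 0) (XT.nd (nat_lit 1316) (nat_lit 5880) (nat_lit 0) (XT.nd (nat_lit 658) (nat_lit 3444) (nat_lit 0) (XT.nd (nat_lit 282) (nat_lit 1848) (nat_lit 0) (XT.nd (nat_lit 94) (nat_lit 1008) (nat_lit 0) (XT.lf (nat_lit 2016) (nat_lit 4979456768) (nat_lit 84) (nat_lit 288378926) (nat_lit 0) (nat_lit 288378926) (nat_lit 300) (nat_lit 1) (nat_lit 277) (nat_lit 1) (nat_lit 276) (nat_lit 1) (nat_lit 212) (nat_lit 265) (nat_lit 243)) (XT.nd (nat_lit 94) (nat_lit 1092) (nat_lit 0) (XT.lf (nat_lit 84) (nat_lit 2242086077) (nat_lit 0) (nat_lit 1016508807) (nat_lit 1932) (nat_lit 2242086077) (nat_lit 278) (nat_lit 1) (nat_lit 277) (nat_lit 1) (nat_lit 300) (nat_lit 1) (nat_lit 213) (nat_lit 265) (nat_lit 242)) (XT.lf (nat_lit 1176) (nat_lit 3992202597) (nat_lit 0) (nat_lit 726990999) (nat_lit 1092) (nat_lit 726990999) (nat_lit 278) (nat_lit 1)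 (nat_lit 264) (nat_lit 1) (nat_lit 277) (nat_lit 1) (nat_lit 214) (nat_lit 265) (nat_lit 241)))) (XT.nd (nat_lit 188) (nat_lit 924) (nat_lit 0) (XT.nd (nat_lit 94) (nat_lit 924) (nat_lit 0) (XT.lf (nat_lit 84) (nat_lit 1740880179) (nat_lit 0) (nat_lit 1910475360) (nat_lit 1176) (nat_lit 1740880179) (nat_lit 265) (nat_lit 1) (nat_lit 264) (nat_lit 1) (nat_lit 278) (nat_lit 1) (nat_lit 215) (nat_lit 265) (nat_lit 240)) (XT.lf (nat_lit 1008) (nat_lit 2968498475) (nat_lit 0) (nat_lit 1185326232) (nat_lit 924) (nat_lit 1185326232) (nat_lit 265) (nat_lit 1) (nat_lit 253) (nat_lit 1) (nat_lit 264) (nat_lit 1) (nat_lit 216) (nat_lit 265) (nat_lit 239))) (XT.nd (nat_lit 94) (nat_lit 924) (nat_lit 0) (XT.lf (nat_lit 84) (nat_lit 1222337384) (nat_lit 0) (nat_lit 2842068920) (nat_lit 1008) (nat_lit 1222337384) (nat_lit 254) (nat_lit 1) (nat_lit 253) (nat_lit 1) (nat_lit 265) (nat_lit 1) (nat_lit 217) (nat_lit 265)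 (nat_lit 238)) (XT.lf (nat_lit 1008) (nat_lit 1911586534) (nat_lit 0) (nat_lit 1661717939) (nat_lit 924) (nat_lit 1661717939) (nat_lit 254) (nat_lit 1) (nat_lit 242) (nat_lit 1) (nat_lit 253) (nat_lit 1) (nat_lit 218) (nat_lit 265) (nat_lit 237))))) (XT.nd (nat_lit 282) (nat_lit 2604) (nat_lit 0) (XT.nd (nat_lit 94) (nat_lit 840) (nat_lit 0) (XT.lf (nat_lit 84) (nat_lit 688028765) (nat_lit 0) (nat_lit 3808057412) (nat_lit 1008) (nat_lit 688028765) (nat_lit 243) (nat_lit 1) (nat_lit 242) (nat_lit 1) (nat_lit 254) (nat_lit 1) (nat_lit 219) (nat_lit 265) (nat_lit 236)) (XT.nd (nat_lit 94) (nat_lit 0) (nat_lit 0) (XT.lf (nat_lit 924) (nat_lit 824534452) (nat_lit 0) (nat_lit 2154588212) (nat_lit 840) (nat_lit 2154588212) (nat_lit 243) (nat_lit 1) (nat_lit 232) (nat_lit 1) (nat_lit 242) (nat_lit 1) (nat_lit 220) (nat_lit 265) (nat_lit 235)) (XT.lf (nat_lit 84) (nat_lit 139440562) (nat_lit 0) (nat_lit 4805381493)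 (nat_lit 924) (nat_lit 139440562) (nat_lit 233) (nat_lit 1) (nat_lit 232) (nat_lit 1) (nat_lit 243) (nat_lit 1) (nat_lit 221) (nat_lit 265) (nat_lit 234)))) (XT.nd (nat_lit 188) (nat_lit 840) (nat_lit 0) (XT.nd (nat_lit 94) (nat_lit 840) (nat_lit 0) (XT.lf (nat_lit 84) (nat_lit 2374751429) (nat_lit 0) (nat_lit 285582918) (nat_lit 924) (nat_lit 2374751429) (nat_lit 222) (nat_lit 1) (nat_lit 221) (nat_lit 1) (nat_lit 232) (nat_lit 1) (nat_lit 222) (nat_lit 265) (nat_lit 233)) (XT.lf (nat_lit 924) (nat_lit 4148893802) (nat_lit 0) (nat_lit 418971732) (nat_lit 840) (nat_lit 418971732) (nat_lit 222) (nat_lit 1) (nat_lit 211) (nat_lit 1) (nat_lit 221) (nat_lit 1) (nat_lit 223) (nat_lit 265) (nat_lit 232))) (XT.nd (nat_lit 94) (nat_lit 840) (nat_lit 0) (XT.lf (nat_lit 84) (nat_lit 1765504990) (nat_lit 0) (nat_lit 1407967217) (nat_lit 924) (nat_lit 1765504990) (nat_lit 212) (nat_lit 1) (nat_lit 211) (nat_lit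 1) (nat_lit 222) (nat_lit 1) (nat_lit 224) (nat_lit 265) (nat_lit 231)) (XT.lf (nat_lit 924) (nat_lit 2916251136) (nat_lit 0) (nat_lit 987838598) (nat_lit 840) (nat_lit 987838598) (nat_lit 212) (nat_lit 1) (nat_lit 201) (nat_lit 1) (nat_lit 211) (nat_lit 1) (nat_lit 225) (nat_lit 265) (nat_lit 230)))))) (XT.nd (nat_lit 658) (nat_lit 2772) (nat_lit 0) (XT.nd (nat_lit 282) (nat_lit 2352) (nat_lit 0) (XT.nd (nat_lit 94) (nat_lit 756) (nat_lit 0) (XT.lf (nat_lit 84) (nat_lit 1146747847) (nat_lit 0) (nat_lit 2551939557) (nat_lit 924) (nat_lit 1146747847) (nat_lit 202) (nat_lit 1) (nat_lit 201) (nat_lit 1) (nat_lit 212) (nat_lit 1) (nat_lit 226) (nat_lit 265) (nat_lit 229)) (XT.nd (nat_lit 94) (nat_lit 0) (nat_lit 0) (XT.lf (nat_lit 840) (nat_lit 1665702233) (nat_lit 0) (nat_lit 1566921871) (nat_lit 756) (nat_lit 1566921871) (nat_lit 202) (nat_lit 1) (nat_lit 192) (nat_lit 1) (nat_lit 201) (nat_lit 1) (nat_lit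 227) (nat_lit 265) (nat_lit 228)) (XT.lf (nat_lit 84) (nat_lit 519648345) (nat_lit 0) (nat_lit 3715086803) (nat_lit 840) (nat_lit 519648345) (nat_lit 193) (nat_lit 1) (nat_lit 192) (nat_lit 1) (nat_lit 202) (nat_lit 1) (nat_lit 228) (nat_lit 265) (nat_lit 227)))) (XT.nd (nat_lit 188) (nat_lit 756) (nat_lit 0) (XT.nd (nat_lit 94) (nat_lit 840) (nat_lit 0) (XT.lf (nat_lit 840) (nat_lit 399525251) (nat_lit 0) (nat_lit 2155044981) (nat_lit 756) (nat_lit 2155044981) (nat_lit 193) (nat_lit 1) (nat_lit 183) (nat_lit 1) (nat_lit 192) (nat_lit 1) (nat_lit 229) (nat_lit 265) (nat_lit 226)) (XT.lf (nat_lit 840) (nat_lit 4437950964) (nat_lit 0) (nat_lit 113862449) (nat_lit 756) (nat_lit 113862449) (nat_lit 183) (nat_lit 1) (nat_lit 173) (nat_lit 1) (nat_lit 182) (nat_lit 1) (nat_lit 230) (nat_lit 265) (nat_lit 225))) (XT.nd (nat_lit 94) (nat_lit 756) (nat_lit 0) (XT.lf (nat_lit 84) (nat_lit 1877235511) (nat_lit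 0) (nat_lit 867454608) (nat_lit 840) (nat_lit 1877235511) (nat_lit 174) (nat_lit 1) (nat_lit 173) (nat_lit 1) (nat_lit 183) (nat_lit 1) (nat_lit 231) (nat_lit 265) (nat_lit 224)) (XT.lf (nat_lit 840) (nat_lit 3079434574) (nat_lit 0) (nat_lit 749773826) (nat_lit 756) (nat_lit 749773826) (nat_lit 174) (nat_lit 1) (nat_lit 164) (nat_lit 1) (nat_lit 173) (nat_lit 1) (nat_lit 232) (nat_lit 265) (nat_lit 223))))) (XT.nd (nat_lit 376) (nat_lit 1428) (nat_lit 0) (XT.nd (nat_lit 188) (nat_lit 672) (nat_lit 0) (XT.nd (nat_lit 94) (nat_lit 672) (nat_lit 0) (XT.lf (nat_lit 84) (nat_lit 1198255561) (nat_lit 0) (nat_lit 2139969538) (nat_lit 840) (nat_lit 1198255561) (nat_lit 165) (nat_lit 1) (nat_lit 164) (nat_lit 1) (nat_lit 174) (nat_lit 1) (nat_lit 233) (nat_lit 265) (nat_lit 222)) (XT.lf (nat_lit 756) (nat_lit 1712822294) (nat_lit 0) (nat_lit 1390869385) (nat_lit 672) (nat_lit 1390869385) (nat_lit 165) (nat_lit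 1) (nat_lit 156) (nat_lit 1) (nat_lit 164) (nat_lit 1) (nat_lit 234) (nat_lit 265) (nat_lit 221))) (XT.nd (nat_lit 94) (nat_lit 672) (nat_lit 0) (XT.lf (nat_lit 84) (nat_lit 515690791) (nat_lit 0) (nat_lit 3421893847) (nat_lit 756) (nat_lit 515690791) (nat_lit 157) (nat_lit 1) (nat_lit 156) (nat_lit 1) (nat_lit 165) (nat_lit 1) (nat_lit 235) (nat_lit 265) (nat_lit 220)) (XT.lf (nat_lit 756) (nat_lit 339878686) (nat_lit 0) (nat_lit 2036233734) (nat_lit 672) (nat_lit 2036233734) (nat_lit 157) (nat_lit 1) (nat_lit 148) (nat_lit 1) (nat_lit 156) (nat_lit 1) (nat_lit 236) (nat_lit 265) (nat_lit 219)))) (XT.nd (nat_lit 188) (nat_lit 672) (nat_lit 0) (XT.nd (nat_lit 94) (nat_lit 0) (nat_lit 0) (XT.lf (nat_lit 756) (nat_lit 4035376644) (nat_lit 0) (nat_lit 168380662) (nat_lit 672) (nat_lit 168380662) (nat_lit 148) (nat_lit 1) (nat_lit 139) (nat_lit 1) (nat_lit 147) (nat_lit 1) (nat_lit 237) (nat_lit 265) (nat_lit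 218)) (XT.lf (nat_lit 84) (nat_lit 1654660066) (nat_lit 0) (nat_lit 1022790682) (nat_lit 756) (nat_lit 1654660066) (nat_lit 140) (nat_lit 1) (nat_lit 139) (nat_lit 1) (nat_lit 148) (nat_lit 1) (nat_lit 238) (nat_lit 265) (nat_lit 217))) (XT.nd (nat_lit 94) (nat_lit 0) (nat_lit 0) (XT.lf (nat_lit 756) (nat_lit 2591500968) (nat_lit 0) (nat_lit 850642604) (nat_lit 672) (nat_lit 850642604) (nat_lit 140) (nat_lit 1) (nat_lit 131) (nat_lit 1) (nat_lit 139) (nat_lit 1) (nat_lit 239) (nat_lit 265) (nat_lit 216)) (XT.lf (nat_lit 84) (nat_lit 935133945) (nat_lit 0) (nat_lit 2383634051) (nat_lit 756) (nat_lit 935133945) (nat_lit 132) (nat_lit 1) (nat_lit 131) (nat_lit 1) (nat_lit 140) (nat_lit 1) (nat_lit 240) (nat_lit 265) (nat_lit 215))))))) (XT.nd (nat_lit 1316) (nat_lit 0) (nat_lit 0) (XT.nd (nat_lit 658) (nat_lit 2772) (nat_lit 0) (XT.nd (nat_lit 282) (nat_lit 1176) (nat_lit 0) (XT.nd (nat_lit 94) (nat_lit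 672) (nat_lit 0) (XT.lf (nat_lit 672) (nat_lit 1147333061) (nat_lit 0) (nat_lit 1534075419) (nat_lit 588) (nat_lit 1534075419) (nat_lit 132) (nat_lit 1) (nat_lit 124) (nat_lit 1) (nat_lit 131) (nat_lit 1) (nat_lit 241) (nat_lit 265) (nat_lit 214)) (XT.nd (nat_lit 94) (nat_lit 672) (nat_lit 0) (XT.lf (nat_lit 84) (nat_lit 215803953) (nat_lit 0) (nat_lit 3746105157) (nat_lit 672) (nat_lit 215803953) (nat_lit 125) (nat_lit 1) (nat_lit 124) (nat_lit 1) (nat_lit 132) (nat_lit 1) (nat_lit 242) (nat_lit 265) (nat_lit 213)) (XT.lf (nat_lit 84) (nat_lit 1924300888) (nat_lit 0) (nat_lit 291524355) (nat_lit 672) (nat_lit 1924300888) (nat_lit 117) (nat_lit 1) (nat_lit 116) (nat_lit 1) (nat_lit 124) (nat_lit 1) (nat_lit 243) (nat_lit 265) (nat_lit 212)))) (XT.nd (nat_lit 188) (nat_lit 588) (nat_lit 0) (XT.nd (nat_lit 94) (nat_lit 0) (nat_lit 0) (XT.lf (nat_lit 672) (nat_lit 3105070570) (nat_lit 0) (nat_lit 499049766)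 (nat_lit 588) (nat_lit 499049766) (nat_lit 117) (nat_lit 1) (nat_lit 109) (nat_lit 1) (nat_lit 116) (nat_lit 1) (nat_lit 244) (nat_lit 265) (nat_lit 211)) (XT.lf (nat_lit 84) (nat_lit 1177470089) (nat_lit 0) (nat_lit 1711582829) (nat_lit 672) (nat_lit 1177470089) (nat_lit 110) (nat_lit 1) (nat_lit 109) (nat_lit 1) (nat_lit 117) (nat_lit 1) (nat_lit 245) (nat_lit 265) (nat_lit 210))) (XT.nd (nat_lit 94) (nat_lit 0) (nat_lit 0) (XT.lf (nat_lit 672) (nat_lit 1608587230) (nat_lit 0) (nat_lit 1210905638) (nat_lit 588) (nat_lit 1210905638) (nat_lit 110) (nat_lit 1) (nat_lit 102) (nat_lit 1) (nat_lit 109) (nat_lit 1) (nat_lit 246) (nat_lit 265) (nat_lit 209)) (XT.lf (nat_lit 84) (nat_lit 433295078) (nat_lit 0) (nat_lit 3128209395) (nat_lit 672) (nat_lit 433295078) (nat_lit 103) (nat_lit 1) (nat_lit 102) (nat_lit 1) (nat_lit 110) (nat_lit 1) (nat_lit 247) (nat_lit 265) (nat_lit 208))))) (XT.nd (nat_lit 282)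 (nat_lit 1596) (nat_lit 0) (XT.nd (nat_lit 94) (nat_lit 672) (nat_lit 0) (XT.lf (nat_lit 588) (nat_lit 117957015) (nat_lit 0) (nat_lit 1920761609) (nat_lit 504) (nat_lit 1920761609) (nat_lit 103) (nat_lit 1) (nat_lit 96) (nat_lit 1) (nat_lit 102) (nat_lit 1) (nat_lit 248) (nat_lit 265) (nat_lit 207)) (XT.nd (nat_lit 94) (nat_lit 0) (nat_lit 0) (XT.lf (nat_lit 672) (nat_lit 3313737516) (nat_lit 0) (nat_lit 305485807) (nat_lit 588) (nat_lit 305485807) (nat_lit 96) (nat_lit 1) (nat_lit 88) (nat_lit 1) (nat_lit 95) (nat_lit 1) (nat_lit 249) (nat_lit 265) (nat_lit 206)) (XT.lf (nat_lit 84) (nat_lit 1271998982) (nat_lit 0) (nat_lit 1346151173) (nat_lit 672) (nat_lit 1271998982) (nat_lit 89) (nat_lit 1) (nat_lit 88) (nat_lit 1) (nat_lit 96) (nat_lit 1) (nat_lit 250) (nat_lit 265) (nat_lit 205)))) (XT.nd (nat_lit 188) (nat_lit 1092) (nat_lit 0) (XT.nd (nat_lit 94) (nat_lit 0) (nat_lit 0) (XT.lf (nat_lit 588)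 (nat_lit 1781099067) (nat_lit 0) (nat_lit 1037512299) (nat_lit 504) (nat_lit 1037512299) (nat_lit 89) (nat_lit 1) (nat_lit 82) (nat_lit 1) (nat_lit 88) (nat_lit 1) (nat_lit 251) (nat_lit 265) (nat_lit 204)) (XT.lf (nat_lit 84) (nat_lit 510828172) (nat_lit 0) (nat_lit 2800895177) (nat_lit 588) (nat_lit 510828172) (nat_lit 83) (nat_lit 1) (nat_lit 82) (nat_lit 1) (nat_lit 89) (nat_lit 1) (nat_lit 252) (nat_lit 265) (nat_lit 203))) (XT.nd (nat_lit 94) (nat_lit 588) (nat_lit 0) (XT.lf (nat_lit 588) (nat_lit 258318702) (nat_lit 0) (nat_lit 1765473802) (nat_lit 504) (nat_lit 1765473802) (nat_lit 83) (nat_lit 1) (nat_lit 76) (nat_lit 1) (nat_lit 82) (nat_lit 1) (nat_lit 253) (nat_lit 265) (nat_lit 202)) (XT.lf (nat_lit 588) (nat_lit 3269580042) (nat_lit 0) (nat_lit 243461393) (nat_lit 504) (nat_lit 243461393) (nat_lit 76) (nat_lit 1) (nat_lit 69) (nat_lit 1) (nat_lit 75) (nat_lit 1) (nat_lit 254) (nat_lit 265)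 (nat_lit 201)))))) (XT.nd (nat_lit 40232) (nat_lit 0) (nat_lit 17388) (XT.nd (nat_lit 39856) (nat_lit 0) (nat_lit 18900) (XT.nd (nat_lit 39668) (nat_lit 0) (nat_lit 18816) (XT.lf (nat_lit 84) (nat_lit 1244060638) (nat_lit 0) (nat_lit 1235771367) (nat_lit 588) (nat_lit 1244060638) (nat_lit 70) (nat_lit 1) (nat_lit 69) (nat_lit 1) (nat_lit 76) (nat_lit 1) (nat_lit 255) (nat_lit 265) (nat_lit 200)) (XT.nd (nat_lit 94) (nat_lit 0) (nat_lit 0) (XT.lf (nat_lit 1932) (nat_lit 2129810250) (nat_lit 0) (nat_lit 2298947458) (nat_lit 1848) (nat_lit 2129810250) (nat_lit 316) (nat_lit 1) (nat_lit 293) (nat_lit 1) (nat_lit 315) (nat_lit 1) (nat_lit 196) (nat_lit 266) (nat_lit 258)) (XT.lf (nat_lit 1932) (nat_lit 4018976099) (nat_lit 84) (nat_lit 1235425426) (nat_lit 0) (nat_lit 1235425426) (nat_lit 316) (nat_lit 1) (nat_lit 294) (nat_lit 1) (nat_lit 293) (nat_lit 1) (nat_lit 197) (nat_lit 266) (nat_lit 257)))) (XT.nd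 (nat_lit 188) (nat_lit 0) (nat_lit 84) (XT.nd (nat_lit 94) (nat_lit 0) (nat_lit 0) (XT.lf (nat_lit 1932) (nat_lit 1877126987) (nat_lit 0) (nat_lit 2667681897) (nat_lit 1848) (nat_lit 1877126987) (nat_lit 317) (nat_lit 1) (nat_lit 294) (nat_lit 1) (nat_lit 316) (nat_lit 1) (nat_lit 198) (nat_lit 266) (nat_lit 256)) (XT.lf (nat_lit 1932) (nat_lit 3475950147) (nat_lit 84) (nat_lit 1439570532) (nat_lit 0) (nat_lit 1439570532) (nat_lit 317) (nat_lit 1) (nat_lit 295) (nat_lit 1) (nat_lit 294) (nat_lit 1) (nat_lit 199) (nat_lit 266) (nat_lit 255))) (XT.nd (nat_lit 94) (nat_lit 0) (nat_lit 0) (XT.lf (nat_lit 1932) (nat_lit 1589166235) (nat_lit 0) (nat_lit 3110808286) (nat_lit 1848) (nat_lit 1589166235) (nat_lit 318) (nat_lit 1) (nat_lit 295) (nat_lit 1) (nat_lit 317) (nat_lit 1) (nat_lit 200) (nat_lit 266) (nat_lit 254)) (XT.lf (nat_lit 1932) (nat_lit 2864638591) (nat_lit 84) (nat_lit 1679743706) (nat_lit 0)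 (nat_lit 1679743706) (nat_lit 318) (nat_lit 1) (nat_lit 296) (nat_lit 1) (nat_lit 295) (nat_lit 1) (nat_lit 201) (nat_lit 266) (nat_lit 253))))) (XT.nd (nat_lit 376) (nat_lit 1680) (nat_lit 0) (XT.nd (nat_lit 188) (nat_lit 0) (nat_lit 84) (XT.nd (nat_lit 94) (nat_lit 0) (nat_lit 0) (XT.lf (nat_lit 1932) (nat_lit 1268421500) (nat_lit 0) (nat_lit 3623218863) (nat_lit 1848) (nat_lit 1268421500) (nat_lit 319) (nat_lit 1) (nat_lit 296) (nat_lit 1) (nat_lit 318) (nat_lit 1) (nat_lit 202) (nat_lit 266) (nat_lit 252)) (XT.lf (nat_lit 1932) (nat_lit 2189917467) (nat_lit 84) (nat_lit 1953447816) (nat_lit 0) (nat_lit 1953447816) (nat_lit 319) (nat_lit 1) (nat_lit 297) (nat_lit 1) (nat_lit 296) (nat_lit 1) (nat_lit 203) (nat_lit 266) (nat_lit 251))) (XT.nd (nat_lit 94) (nat_lit 0) (nat_lit 0) (XT.lf (nat_lit 1932) (nat_lit 917258757) (nat_lit 0) (nat_lit 4200065157) (nat_lit 1848) (nat_lit 917258757) (nat_lit 320)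 (nat_lit 1) (nat_lit 297) (nat_lit 1) (nat_lit 319) (nat_lit 1) (nat_lit 204) (nat_lit 266) (nat_lit 250)) (XT.lf (nat_lit 1932) (nat_lit 1456412784) (nat_lit 84) (nat_lit 2258312809) (nat_lit 0) (nat_lit 2258312809) (nat_lit 320) (nat_lit 1) (nat_lit 298) (nat_lit 1) (nat_lit 297) (nat_lit 1) (nat_lit 205) (nat_lit 266) (nat_lit 249)))) (XT.nd (nat_lit 188) (nat_lit 1848) (nat_lit 0) (XT.nd (nat_lit 94) (nat_lit 0) (nat_lit 0) (XT.lf (nat_lit 1932) (nat_lit 537922342) (nat_lit 0) (nat_lit 4836746037) (nat_lit 1848) (nat_lit 537922342) (nat_lit 321) (nat_lit 1) (nat_lit 298) (nat_lit 1) (nat_lit 320) (nat_lit 1) (nat_lit 206) (nat_lit 266) (nat_lit 248)) (XT.lf (nat_lit 1932) (nat_lit 668512084) (nat_lit 84) (nat_lit 2592089844) (nat_lit 0) (nat_lit 2592089844) (nat_lit 321) (nat_lit 1) (nat_lit 299) (nat_lit 1) (nat_lit 298) (nat_lit 1) (nat_lit 207) (nat_lit 266) (nat_lit 247))) (XT.nd (nat_lit 94)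 (nat_lit 1932) (nat_lit 0) (XT.lf (nat_lit 1932) (nat_lit 132540581) (nat_lit 0) (nat_lit 5528896305) (nat_lit 1848) (nat_lit 132540581) (nat_lit 322) (nat_lit 1) (nat_lit 299) (nat_lit 1) (nat_lit 321) (nat_lit 1) (nat_lit 208) (nat_lit 266) (nat_lit 246)) (XT.lf (nat_lit 2016) (nat_lit 2784229468) (nat_lit 0) (nat_lit 167181375) (nat_lit 1932) (nat_lit 2784229468) (nat_lit 300) (nat_lit 1) (nat_lit 276) (nat_lit 1) (nat_lit 299) (nat_lit 1) (nat_lit 209) (nat_lit 266) (nat_lit 245))))))))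
noncomputable def ec26 : XT := (XT.nd (nat_lit 2726) (nat_lit 5712) (nat_lit 0) (XT.nd (nat_lit 1316) (nat_lit 5880) (nat_lit 0) (XT.nd (nat_lit 658) (nat_lit 3444) (nat_lit 0) (XT.nd (nat_lit 282) (nat_lit 1848) (nat_lit 0) (XT.nd (nat_lit 94) (nat_lit 1008) (nat_lit 0) (XT.lf (nat_lit 2016) (nat_lit 5089004817) (nat_lit 84) (nat_lit 294723263) (nat_lit 0) (nat_lit 294723263) (nat_lit 300) (nat_lit 1) (nat_lit 277) (nat_lit 1) (nat_lit 276) (nat_lit 1) (nat_lit 210) (nat_lit 266) (nat_lit 244)) (XT.nd (nat_lit 94) (nat_lit 1092) (nat_lit 0) (XT.lf (nat_lit 84) (nat_lit 2291411970) (nat_lit 0) (nat_lit 1038872001) (nat_lit 1932) (nat_lit 2291411970) (nat_lit 278) (nat_lit 1) (nat_lit 277) (nat_lit 1) (nat_lit 300) (nat_lit 1) (nat_lit 211) (nat_lit 266) (nat_lit 243)) (XT.lf (nat_lit 1176) (nat_lit 4080031054) (nat_lit 0) (nat_lit 742984801) (nat_lit 1092) (nat_lit 742984801) (nat_lit 278) (nat_lit 1)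 (nat_lit 264) (nat_lit 1) (nat_lit 277) (nat_lit 1) (nat_lit 212) (nat_lit 266) (nat_lit 242)))) (XT.nd (nat_lit 188) (nat_lit 924) (nat_lit 0) (XT.nd (nat_lit 94) (nat_lit 924) (nat_lit 0) (XT.lf (nat_lit 84) (nat_lit 1779179543) (nat_lit 0) (nat_lit 1952505817) (nat_lit 1176) (nat_lit 1779179543) (nat_lit 265) (nat_lit 1) (nat_lit 264) (nat_lit 1) (nat_lit 278) (nat_lit 1) (nat_lit 213) (nat_lit 266) (nat_lit 241)) (XT.lf (nat_lit 1008) (nat_lit 3033805441) (nat_lit 0) (nat_lit 1211403409) (nat_lit 924) (nat_lit 1211403409) (nat_lit 265) (nat_lit 1) (nat_lit 253) (nat_lit 1) (nat_lit 264) (nat_lit 1) (nat_lit 214) (nat_lit 266) (nat_lit 240))) (XT.nd (nat_lit 94) (nat_lit 924) (nat_lit 0) (XT.lf (nat_lit 84) (nat_lit 1249228806) (nat_lit 0) (nat_lit 2904594436) (nat_lit 1008) (nat_lit 1249228806) (nat_lit 254) (nat_lit 1) (nat_lit 253) (nat_lit 1) (nat_lit 265) (nat_lit 1) (nat_lit 215) (nat_lit 266)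 (nat_lit 239)) (XT.lf (nat_lit 1008) (nat_lit 1953641437) (nat_lit 0) (nat_lit 1698275734) (nat_lit 924) (nat_lit 1698275734) (nat_lit 254) (nat_lit 1) (nat_lit 242) (nat_lit 1) (nat_lit 253) (nat_lit 1) (nat_lit 216) (nat_lit 266) (nat_lit 238))))) (XT.nd (nat_lit 282) (nat_lit 2604) (nat_lit 0) (XT.nd (nat_lit 94) (nat_lit 840) (nat_lit 0) (XT.lf (nat_lit 84) (nat_lit 703165398) (nat_lit 0) (nat_lit 3891834675) (nat_lit 1008) (nat_lit 703165398) (nat_lit 243) (nat_lit 1) (nat_lit 242) (nat_lit 1) (nat_lit 254) (nat_lit 1) (nat_lit 217) (nat_lit 266) (nat_lit 237)) (XT.nd (nat_lit 94) (nat_lit 0) (nat_lit 0) (XT.lf (nat_lit 924) (nat_lit 842674210) (nat_lit 0) (nat_lit 2201989153) (nat_lit 840) (nat_lit 2201989153) (nat_lit 243) (nat_lit 1) (nat_lit 232) (nat_lit 1) (nat_lit 242) (nat_lit 1) (nat_lit 218) (nat_lit 266) (nat_lit 236)) (XT.lf (nat_lit 84) (nat_lit 142508254) (nat_lit 0) (nat_lit 4911099886)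 (nat_lit 924) (nat_lit 142508254) (nat_lit 233) (nat_lit 1) (nat_lit 232) (nat_lit 1) (nat_lit 243) (nat_lit 1) (nat_lit 219) (nat_lit 266) (nat_lit 235)))) (XT.nd (nat_lit 188) (nat_lit 840) (nat_lit 0) (XT.nd (nat_lit 94) (nat_lit 840) (nat_lit 0) (XT.lf (nat_lit 84) (nat_lit 2426995961) (nat_lit 0) (nat_lit 291865742) (nat_lit 924) (nat_lit 2426995961) (nat_lit 222) (nat_lit 1) (nat_lit 221) (nat_lit 1) (nat_lit 232) (nat_lit 1) (nat_lit 220) (nat_lit 266) (nat_lit 234)) (XT.lf (nat_lit 924) (nat_lit 4240169466) (nat_lit 0) (nat_lit 428189110) (nat_lit 840) (nat_lit 428189110) (nat_lit 222) (nat_lit 1) (nat_lit 211) (nat_lit 1) (nat_lit 221) (nat_lit 1) (nat_lit 221) (nat_lit 266) (nat_lit 233))) (XT.nd (nat_lit 94) (nat_lit 840) (nat_lit 0) (XT.lf (nat_lit 84) (nat_lit 1804346099) (nat_lit 0) (nat_lit 1438942495) (nat_lit 924) (nat_lit 1804346099) (nat_lit 212) (nat_lit 1) (nat_lit 211) (nat_lit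 1) (nat_lit 222) (nat_lit 1) (nat_lit 222) (nat_lit 266) (nat_lit 232)) (XT.lf (nat_lit 924) (nat_lit 2980408661) (nat_lit 0) (nat_lit 1009571047) (nat_lit 840) (nat_lit 1009571047) (nat_lit 212) (nat_lit 1) (nat_lit 201) (nat_lit 1) (nat_lit 211) (nat_lit 1) (nat_lit 223) (nat_lit 266) (nat_lit 231)))))) (XT.nd (nat_lit 658) (nat_lit 2772) (nat_lit 0) (XT.nd (nat_lit 282) (nat_lit 2352) (nat_lit 0) (XT.nd (nat_lit 94) (nat_lit 756) (nat_lit 0) (XT.lf (nat_lit 84) (nat_lit 1171976300) (nat_lit 0) (nat_lit 2608082227) (nat_lit 924) (nat_lit 1171976300) (nat_lit 202) (nat_lit 1) (nat_lit 201) (nat_lit 1) (nat_lit 212) (nat_lit 1) (nat_lit 224) (nat_lit 266) (nat_lit 230)) (XT.nd (nat_lit 94) (nat_lit 0) (nat_lit 0) (XT.lf (nat_lit 840) (nat_lit 1702347682) (nat_lit 0) (nat_lit 1601394152) (nat_lit 756) (nat_lit 1601394152) (nat_lit 202) (nat_lit 1) (nat_lit 192) (nat_lit 1) (nat_lit 201) (nat_lit 1) (nat_lit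 225) (nat_lit 266) (nat_lit 229)) (XT.lf (nat_lit 84) (nat_lit 531080609) (nat_lit 0) (nat_lit 3796818713) (nat_lit 840) (nat_lit 531080609) (nat_lit 193) (nat_lit 1) (nat_lit 192) (nat_lit 1) (nat_lit 202) (nat_lit 1) (nat_lit 226) (nat_lit 266) (nat_lit 228)))) (XT.nd (nat_lit 188) (nat_lit 756) (nat_lit 0) (XT.nd (nat_lit 94) (nat_lit 840) (nat_lit 0) (XT.lf (nat_lit 840) (nat_lit 408314806) (nat_lit 0) (nat_lit 2202455970) (nat_lit 756) (nat_lit 2202455970) (nat_lit 193) (nat_lit 1) (nat_lit 183) (nat_lit 1) (nat_lit 192) (nat_lit 1) (nat_lit 227) (nat_lit 266) (nat_lit 227)) (XT.lf (nat_lit 840) (nat_lit 4535585886) (nat_lit 0) (nat_lit 116367423) (nat_lit 756) (nat_lit 116367423) (nat_lit 183) (nat_lit 1) (nat_lit 173) (nat_lit 1) (nat_lit 182) (nat_lit 1) (nat_lit 228) (nat_lit 266) (nat_lit 226))) (XT.nd (nat_lit 94) (nat_lit 756) (nat_lit 0) (XT.lf (nat_lit 84) (nat_lit 1918534692) (nat_lit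 0) (nat_lit 886538610) (nat_lit 840) (nat_lit 1918534692) (nat_lit 174) (nat_lit 1) (nat_lit 173) (nat_lit 1) (nat_lit 183) (nat_lit 1) (nat_lit 229) (nat_lit 266) (nat_lit 225)) (XT.lf (nat_lit 840) (nat_lit 3147182134) (nat_lit 0) (nat_lit 766268851) (nat_lit 756) (nat_lit 766268851) (nat_lit 174) (nat_lit 1) (nat_lit 164) (nat_lit 1) (nat_lit 173) (nat_lit 1) (nat_lit 230) (nat_lit 266) (nat_lit 224))))) (XT.nd (nat_lit 376) (nat_lit 1428) (nat_lit 0) (XT.nd (nat_lit 188) (nat_lit 672) (nat_lit 0) (XT.nd (nat_lit 94) (nat_lit 672) (nat_lit 0) (XT.lf (nat_lit 84) (nat_lit 1224617183) (nat_lit 0) (nat_lit 2187048868) (nat_lit 840) (nat_lit 1224617183) (nat_lit 165) (nat_lit 1) (nat_lit 164) (nat_lit 1) (nat_lit 174) (nat_lit 1) (nat_lit 231) (nat_lit 266) (nat_lit 223)) (XT.lf (nat_lit 756) (nat_lit 1750504385) (nat_lit 0) (nat_lit 1421468512) (nat_lit 672) (nat_lit 1421468512) (nat_lit 165) (nat_lit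 1) (nat_lit 156) (nat_lit 1) (nat_lit 164) (nat_lit 1) (nat_lit 232) (nat_lit 266) (nat_lit 222))) (XT.nd (nat_lit 94) (nat_lit 672) (nat_lit 0) (XT.lf (nat_lit 84) (nat_lit 527035989) (nat_lit 0) (nat_lit 3497175512) (nat_lit 756) (nat_lit 527035989) (nat_lit 157) (nat_lit 1) (nat_lit 156) (nat_lit 1) (nat_lit 165) (nat_lit 1) (nat_lit 233) (nat_lit 266) (nat_lit 221)) (XT.lf (nat_lit 756) (nat_lit 347356017) (nat_lit 0) (nat_lit 2081030876) (nat_lit 672) (nat_lit 2081030876) (nat_lit 157) (nat_lit 1) (nat_lit 148) (nat_lit 1) (nat_lit 156) (nat_lit 1) (nat_lit 234) (nat_lit 266) (nat_lit 220)))) (XT.nd (nat_lit 188) (nat_lit 672) (nat_lit 0) (XT.nd (nat_lit 94) (nat_lit 0) (nat_lit 0) (XT.lf (nat_lit 756) (nat_lit 4124154930) (nat_lit 0) (nat_lit 172085036) (nat_lit 672) (nat_lit 172085036) (nat_lit 148) (nat_lit 1) (nat_lit 139) (nat_lit 1) (nat_lit 147) (nat_lit 1) (nat_lit 235) (nat_lit 266) (nat_lit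 219)) (XT.lf (nat_lit 84) (nat_lit 1691062587) (nat_lit 0) (nat_lit 1045292077) (nat_lit 756) (nat_lit 1691062587) (nat_lit 140) (nat_lit 1) (nat_lit 139) (nat_lit 1) (nat_lit 148) (nat_lit 1) (nat_lit 236) (nat_lit 266) (nat_lit 218))) (XT.nd (nat_lit 94) (nat_lit 0) (nat_lit 0) (XT.lf (nat_lit 756) (nat_lit 2648513989) (nat_lit 0) (nat_lit 869356741) (nat_lit 672) (nat_lit 869356741) (nat_lit 140) (nat_lit 1) (nat_lit 131) (nat_lit 1) (nat_lit 139) (nat_lit 1) (nat_lit 237) (nat_lit 266) (nat_lit 217)) (XT.lf (nat_lit 84) (nat_lit 955706891) (nat_lit 0) (nat_lit 2436074000) (nat_lit 756) (nat_lit 955706891) (nat_lit 132) (nat_lit 1) (nat_lit 131) (nat_lit 1) (nat_lit 140) (nat_lit 1) (nat_lit 238) (nat_lit 266) (nat_lit 216))))))) (XT.nd (nat_lit 1316) (nat_lit 504) (nat_lit 0) (XT.nd (nat_lit 658) (nat_lit 2772) (nat_lit 0) (XT.nd (nat_lit 282) (nat_lit 1176) (nat_lit 0) (XT.nd (nat_lit 94) (nat_lit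 672) (nat_lit 0) (XT.lf (nat_lit 672) (nat_lit 1172574389) (nat_lit 0) (nat_lit 1567825079) (nat_lit 588) (nat_lit 1567825079) (nat_lit 132) (nat_lit 1) (nat_lit 124) (nat_lit 1) (nat_lit 131) (nat_lit 1) (nat_lit 239) (nat_lit 266) (nat_lit 215)) (XT.nd (nat_lit 94) (nat_lit 672) (nat_lit 0) (XT.lf (nat_lit 84) (nat_lit 220551640) (nat_lit 0) (nat_lit 3828519470) (nat_lit 672) (nat_lit 220551640) (nat_lit 125) (nat_lit 1) (nat_lit 124) (nat_lit 1) (nat_lit 132) (nat_lit 1) (nat_lit 240) (nat_lit 266) (nat_lit 214)) (XT.lf (nat_lit 84) (nat_lit 1966635507) (nat_lit 0) (nat_lit 297937891) (nat_lit 672) (nat_lit 1966635507) (nat_lit 117) (nat_lit 1) (nat_lit 116) (nat_lit 1) (nat_lit 124) (nat_lit 1) (nat_lit 241) (nat_lit 266) (nat_lit 213)))) (XT.nd (nat_lit 188) (nat_lit 588) (nat_lit 0) (XT.nd (nat_lit 94) (nat_lit 0) (nat_lit 0) (XT.lf (nat_lit 672) (nat_lit 3173382123) (nat_lit 0) (nat_lit 510028861)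 (nat_lit 588) (nat_lit 510028861) (nat_lit 117) (nat_lit 1) (nat_lit 109) (nat_lit 1) (nat_lit 116) (nat_lit 1) (nat_lit 242) (nat_lit 266) (nat_lit 212)) (XT.lf (nat_lit 84) (nat_lit 1203374431) (nat_lit 0) (nat_lit 1749237651) (nat_lit 672) (nat_lit 1203374431) (nat_lit 110) (nat_lit 1) (nat_lit 109) (nat_lit 1) (nat_lit 117) (nat_lit 1) (nat_lit 243) (nat_lit 266) (nat_lit 211))) (XT.nd (nat_lit 94) (nat_lit 0) (nat_lit 0) (XT.lf (nat_lit 672) (nat_lit 1643976149) (nat_lit 0) (nat_lit 1237545562) (nat_lit 588) (nat_lit 1237545562) (nat_lit 110) (nat_lit 1) (nat_lit 102) (nat_lit 1) (nat_lit 109) (nat_lit 1) (nat_lit 244) (nat_lit 266) (nat_lit 210)) (XT.lf (nat_lit 84) (nat_lit 442827570) (nat_lit 0) (nat_lit 3197030002) (nat_lit 672) (nat_lit 442827570) (nat_lit 103) (nat_lit 1) (nat_lit 102) (nat_lit 1) (nat_lit 110) (nat_lit 1) (nat_lit 245) (nat_lit 266) (nat_lit 209))))) (XT.nd (nat_lit 282)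 (nat_lit 1596) (nat_lit 0) (XT.nd (nat_lit 94) (nat_lit 672) (nat_lit 0) (XT.lf (nat_lit 588) (nat_lit 120552070) (nat_lit 0) (nat_lit 1963018365) (nat_lit 504) (nat_lit 1963018365) (nat_lit 103) (nat_lit 1) (nat_lit 96) (nat_lit 1) (nat_lit 102) (nat_lit 1) (nat_lit 246) (nat_lit 266) (nat_lit 208)) (XT.nd (nat_lit 94) (nat_lit 0) (nat_lit 0) (XT.lf (nat_lit 672) (nat_lit 3386639741) (nat_lit 0) (nat_lit 312206495) (nat_lit 588) (nat_lit 312206495) (nat_lit 96) (nat_lit 1) (nat_lit 88) (nat_lit 1) (nat_lit 95) (nat_lit 1) (nat_lit 247) (nat_lit 266) (nat_lit 207)) (XT.lf (nat_lit 84) (nat_lit 1299982960) (nat_lit 0) (nat_lit 1375766499) (nat_lit 672) (nat_lit 1299982960) (nat_lit 89) (nat_lit 1) (nat_lit 88) (nat_lit 1) (nat_lit 96) (nat_lit 1) (nat_lit 248) (nat_lit 266) (nat_lit 206)))) (XT.nd (nat_lit 188) (nat_lit 1092) (nat_lit 0) (XT.nd (nat_lit 94) (nat_lit 0) (nat_lit 0) (XT.lf (nat_lit 588)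 (nat_lit 1820283247) (nat_lit 0) (nat_lit 1060337569) (nat_lit 504) (nat_lit 1060337569) (nat_lit 89) (nat_lit 1) (nat_lit 82) (nat_lit 1) (nat_lit 88) (nat_lit 1) (nat_lit 249) (nat_lit 266) (nat_lit 205)) (XT.lf (nat_lit 84) (nat_lit 522066391) (nat_lit 0) (nat_lit 2862514871) (nat_lit 588) (nat_lit 522066391) (nat_lit 83) (nat_lit 1) (nat_lit 82) (nat_lit 1) (nat_lit 89) (nat_lit 1) (nat_lit 250) (nat_lit 266) (nat_lit 204))) (XT.nd (nat_lit 94) (nat_lit 588) (nat_lit 0) (XT.lf (nat_lit 588) (nat_lit 264001714) (nat_lit 0) (nat_lit 1804314225) (nat_lit 504) (nat_lit 1804314225) (nat_lit 83) (nat_lit 1) (nat_lit 76) (nat_lit 1) (nat_lit 82) (nat_lit 1) (nat_lit 251) (nat_lit 266) (nat_lit 203)) (XT.lf (nat_lit 588) (nat_lit 3341510803) (nat_lit 0) (nat_lit 248817544) (nat_lit 504) (nat_lit 248817544) (nat_lit 76) (nat_lit 1) (nat_lit 69) (nat_lit 1) (nat_lit 75) (nat_lit 1) (nat_lit 252) (nat_lit 266)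 (nat_lit 202)))))) (XT.nd (nat_lit 40420) (nat_lit 0) (nat_lit 17892) (XT.nd (nat_lit 40044) (nat_lit 0) (nat_lit 19488) (XT.nd (nat_lit 94) (nat_lit 504) (nat_lit 0) (XT.lf (nat_lit 84) (nat_lit 1271429972) (nat_lit 0) (nat_lit 1262958337) (nat_lit 588) (nat_lit 1271429972) (nat_lit 70) (nat_lit 1) (nat_lit 69) (nat_lit 1) (nat_lit 76) (nat_lit 1) (nat_lit 253) (nat_lit 266) (nat_lit 201)) (XT.nd (nat_lit 39856) (nat_lit 0) (nat_lit 19404) (XT.lf (nat_lit 588) (nat_lit 1752273359) (nat_lit 0) (nat_lit 1010369123) (nat_lit 504) (nat_lit 1010369123) (nat_lit 70) (nat_lit 1) (nat_lit 63) (nat_lit 1) (nat_lit 69) (nat_lit 1) (nat_lit 254) (nat_lit 266) (nat_lit 200)) (XT.lf (nat_lit 1932) (nat_lit 3552421050) (nat_lit 84) (nat_lit 1471241084) (nat_lit 0) (nat_lit 1471241084) (nat_lit 317) (nat_lit 1) (nat_lit 295) (nat_lit 1) (nat_lit 294) (nat_lit 1) (nat_lit 197) (nat_lit 267) (nat_lit 256)))) (XT.nd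 (nat_lit 188) (nat_lit 0) (nat_lit 84) (XT.nd (nat_lit 94) (nat_lit 0) (nat_lit 0) (XT.lf (nat_lit 1932) (nat_lit 1624127892) (nat_lit 0) (nat_lit 3179246068) (nat_lit 1848) (nat_lit 1624127892) (nat_lit 318) (nat_lit 1) (nat_lit 295) (nat_lit 1) (nat_lit 317) (nat_lit 1) (nat_lit 198) (nat_lit 267) (nat_lit 255)) (XT.lf (nat_lit 1932) (nat_lit 2927660640) (nat_lit 84) (nat_lit 1716698067) (nat_lit 0) (nat_lit 1716698067) (nat_lit 318) (nat_lit 1) (nat_lit 296) (nat_lit 1) (nat_lit 295) (nat_lit 1) (nat_lit 199) (nat_lit 267) (nat_lit 254))) (XT.nd (nat_lit 94) (nat_lit 0) (nat_lit 0) (XT.lf (nat_lit 1932) (nat_lit 1296326773) (nat_lit 0) (nat_lit 3702929678) (nat_lit 1848) (nat_lit 1296326773) (nat_lit 319) (nat_lit 1) (nat_lit 296) (nat_lit 1) (nat_lit 318) (nat_lit 1) (nat_lit 200) (nat_lit 267) (nat_lit 253)) (XT.lf (nat_lit 1932) (nat_lit 2238095651) (nat_lit 84) (nat_lit 1996423668) (nat_lit 0)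 (nat_lit 1996423668) (nat_lit 319) (nat_lit 1) (nat_lit 297) (nat_lit 1) (nat_lit 296) (nat_lit 1) (nat_lit 201) (nat_lit 267) (nat_lit 252))))) (XT.nd (nat_lit 376) (nat_lit 1764) (nat_lit 0) (XT.nd (nat_lit 188) (nat_lit 0) (nat_lit 84) (XT.nd (nat_lit 94) (nat_lit 0) (nat_lit 0) (XT.lf (nat_lit 1932) (nat_lit 937438450) (nat_lit 0) (nat_lit 4292466590) (nat_lit 1848) (nat_lit 937438450) (nat_lit 320) (nat_lit 1) (nat_lit 297) (nat_lit 1) (nat_lit 319) (nat_lit 1) (nat_lit 202) (nat_lit 267) (nat_lit 251)) (XT.lf (nat_lit 1932) (nat_lit 1488453865) (nat_lit 84) (nat_lit 2307995690) (nat_lit 0) (nat_lit 2307995690) (nat_lit 320) (nat_lit 1) (nat_lit 298) (nat_lit 1) (nat_lit 297) (nat_lit 1) (nat_lit 203) (nat_lit 267) (nat_lit 250))) (XT.nd (nat_lit 94) (nat_lit 0) (nat_lit 0) (XT.lf (nat_lit 1932) (nat_lit 549756634) (nat_lit 0) (nat_lit 4943154450) (nat_lit 1848) (nat_lit 549756634) (nat_lit 321)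 (nat_lit 1) (nat_lit 298) (nat_lit 1) (nat_lit 320) (nat_lit 1) (nat_lit 204) (nat_lit 267) (nat_lit 249)) (XT.lf (nat_lit 1932) (nat_lit 683219350) (nat_lit 84) (nat_lit 2649115820) (nat_lit 0) (nat_lit 2649115820) (nat_lit 321) (nat_lit 1) (nat_lit 299) (nat_lit 1) (nat_lit 298) (nat_lit 1) (nat_lit 205) (nat_lit 267) (nat_lit 248)))) (XT.nd (nat_lit 188) (nat_lit 0) (nat_lit 0) (XT.nd (nat_lit 94) (nat_lit 1932) (nat_lit 0) (XT.lf (nat_lit 1932) (nat_lit 135456473) (nat_lit 0) (nat_lit 5650532024) (nat_lit 1848) (nat_lit 135456473) (nat_lit 322) (nat_lit 1) (nat_lit 299) (nat_lit 1) (nat_lit 321) (nat_lit 1) (nat_lit 206) (nat_lit 267) (nat_lit 247)) (XT.lf (nat_lit 2016) (nat_lit 2845482516) (nat_lit 0) (nat_lit 170859365) (nat_lit 1932) (nat_lit 2845482516) (nat_lit 300) (nat_lit 1) (nat_lit 276) (nat_lit 1) (nat_lit 299) (nat_lit 1) (nat_lit 207) (nat_lit 267) (nat_lit 246))) (XT.nd (nat_lit 94)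 (nat_lit 0) (nat_lit 84) (XT.lf (nat_lit 2016) (nat_lit 5200962923) (nat_lit 84) (nat_lit 301207174) (nat_lit 0) (nat_lit 301207174) (nat_lit 300) (nat_lit 1) (nat_lit 277) (nat_lit 1) (nat_lit 276) (nat_lit 1) (nat_lit 208) (nat_lit 267) (nat_lit 245)) (XT.lf (nat_lit 84) (nat_lit 2341823034) (nat_lit 0) (nat_lit 1061727185) (nat_lit 1932) (nat_lit 2341823034) (nat_lit 278) (nat_lit 1) (nat_lit 277) (nat_lit 1) (nat_lit 300) (nat_lit 1) (nat_lit 209) (nat_lit 267) (nat_lit 244))))))))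
noncomputable def ec27 : XT := (XT.nd (nat_lit 2726) (nat_lit 5124) (nat_lit 0) (XT.nd (nat_lit 1316) (nat_lit 5712) (nat_lit 0) (XT.nd (nat_lit 658) (nat_lit 3360) (nat_lit 0) (XT.nd (nat_lit 282) (nat_lit 1764) (nat_lit 0) (XT.nd (nat_lit 94) (nat_lit 924) (nat_lit 0) (XT.lf (nat_lit 1176) (nat_lit 4169791737) (nat_lit 0) (nat_lit 759330467) (nat_lit 1092) (nat_lit 759330467) (nat_lit 278) (nat_lit 1) (nat_lit 264) (nat_lit 1) (nat_lit 277) (nat_lit 1) (nat_lit 210) (nat_lit 267) (nat_lit 243)) (XT.nd (nat_lit 94) (nat_lit 924) (nat_lit 0) (XT.lf (nat_lit 84) (nat_lit 1818321493) (nat_lit 0) (nat_lit 1995460945) (nat_lit 1176) (nat_lit 1818321493) (nat_lit 265) (nat_lit 1) (nat_lit 264) (nat_lit 1) (nat_lit 278) (nat_lit 1) (nat_lit 211) (nat_lit 267) (nat_lit 242)) (XT.lf (nat_lit 1008) (nat_lit 3100549161) (nat_lit 0) (nat_lit 1238054284) (nat_lit 924) (nat_lit 1238054284) (nat_lit 265) (nat_lit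 1) (nat_lit 253) (nat_lit 1) (nat_lit 264) (nat_lit 1) (nat_lit 212) (nat_lit 267) (nat_lit 241)))) (XT.nd (nat_lit 188) (nat_lit 840) (nat_lit 0) (XT.nd (nat_lit 94) (nat_lit 924) (nat_lit 0) (XT.lf (nat_lit 84) (nat_lit 1276711840) (nat_lit 0) (nat_lit 2968495514) (nat_lit 1008) (nat_lit 1276711840) (nat_lit 254) (nat_lit 1) (nat_lit 253) (nat_lit 1) (nat_lit 265) (nat_lit 1) (nat_lit 213) (nat_lit 267) (nat_lit 240)) (XT.lf (nat_lit 1008) (nat_lit 1996621549) (nat_lit 0) (nat_lit 1735637800) (nat_lit 924) (nat_lit 1735637800) (nat_lit 254) (nat_lit 1) (nat_lit 242) (nat_lit 1) (nat_lit 253) (nat_lit 1) (nat_lit 214) (nat_lit 267) (nat_lit 239))) (XT.nd (nat_lit 94) (nat_lit 840) (nat_lit 0) (XT.lf (nat_lit 84) (nat_lit 718635037) (nat_lit 0) (nat_lit 3977455038) (nat_lit 1008) (nat_lit 718635037) (nat_lit 243) (nat_lit 1) (nat_lit 242) (nat_lit 1) (nat_lit 254) (nat_lit 1) (nat_lit 215) (nat_lit 267)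 (nat_lit 238)) (XT.lf (nat_lit 924) (nat_lit 861213043) (nat_lit 0) (nat_lit 2250432914) (nat_lit 840) (nat_lit 2250432914) (nat_lit 243) (nat_lit 1) (nat_lit 232) (nat_lit 1) (nat_lit 242) (nat_lit 1) (nat_lit 216) (nat_lit 267) (nat_lit 237))))) (XT.nd (nat_lit 282) (nat_lit 1596) (nat_lit 0) (XT.nd (nat_lit 94) (nat_lit 1764) (nat_lit 0) (XT.lf (nat_lit 84) (nat_lit 145643436) (nat_lit 0) (nat_lit 5019144083) (nat_lit 924) (nat_lit 145643436) (nat_lit 233) (nat_lit 1) (nat_lit 232) (nat_lit 1) (nat_lit 243) (nat_lit 1) (nat_lit 217) (nat_lit 267) (nat_lit 236)) (XT.nd (nat_lit 94) (nat_lit 840) (nat_lit 0) (XT.lf (nat_lit 84) (nat_lit 2480389872) (nat_lit 0) (nat_lit 298286789) (nat_lit 924) (nat_lit 2480389872) (nat_lit 222) (nat_lit 1) (nat_lit 221) (nat_lit 1) (nat_lit 232) (nat_lit 1) (nat_lit 218) (nat_lit 267) (nat_lit 235)) (XT.lf (nat_lit 924) (nat_lit 4333453194) (nat_lit 0) (nat_lit 437609271)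 (nat_lit 840) (nat_lit 437609271) (nat_lit 222) (nat_lit 1) (nat_lit 211) (nat_lit 1) (nat_lit 221) (nat_lit 1) (nat_lit 219) (nat_lit 267) (nat_lit 234)))) (XT.nd (nat_lit 188) (nat_lit 756) (nat_lit 0) (XT.nd (nat_lit 94) (nat_lit 840) (nat_lit 0) (XT.lf (nat_lit 84) (nat_lit 1844041714) (nat_lit 0) (nat_lit 1470599230) (nat_lit 924) (nat_lit 1844041714) (nat_lit 212) (nat_lit 1) (nat_lit 211) (nat_lit 1) (nat_lit 222) (nat_lit 1) (nat_lit 220) (nat_lit 267) (nat_lit 233)) (XT.lf (nat_lit 924) (nat_lit 3045977652) (nat_lit 0) (nat_lit 1031781610) (nat_lit 840) (nat_lit 1031781610) (nat_lit 212) (nat_lit 1) (nat_lit 201) (nat_lit 1) (nat_lit 211) (nat_lit 1) (nat_lit 221) (nat_lit 267) (nat_lit 232))) (XT.nd (nat_lit 94) (nat_lit 756) (nat_lit 0) (XT.lf (nat_lit 84) (nat_lit 1197759779) (nat_lit 0) (nat_lit 2665460036) (nat_lit 924) (nat_lit 1197759779) (nat_lit 202) (nat_lit 1) (nat_lit 201) (nat_lit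 1) (nat_lit 212) (nat_lit 1) (nat_lit 222) (nat_lit 267) (nat_lit 231)) (XT.lf (nat_lit 840) (nat_lit 1739799331) (nat_lit 0) (nat_lit 1636624823) (nat_lit 756) (nat_lit 1636624823) (nat_lit 202) (nat_lit 1) (nat_lit 192) (nat_lit 1) (nat_lit 201) (nat_lit 1) (nat_lit 223) (nat_lit 267) (nat_lit 230)))))) (XT.nd (nat_lit 658) (nat_lit 2688) (nat_lit 0) (XT.nd (nat_lit 282) (nat_lit 1428) (nat_lit 0) (XT.nd (nat_lit 94) (nat_lit 1596) (nat_lit 0) (XT.lf (nat_lit 84) (nat_lit 542764383) (nat_lit 0) (nat_lit 3880348724) (nat_lit 840) (nat_lit 542764383) (nat_lit 193) (nat_lit 1) (nat_lit 192) (nat_lit 1) (nat_lit 202) (nat_lit 1) (nat_lit 224) (nat_lit 267) (nat_lit 229)) (XT.nd (nat_lit 94) (nat_lit 840) (nat_lit 0) (XT.lf (nat_lit 840) (nat_lit 417297732) (nat_lit 0) (nat_lit 2250910002) (nat_lit 756) (nat_lit 2250910002) (nat_lit 193) (nat_lit 1) (nat_lit 183) (nat_lit 1) (nat_lit 192) (nat_lit 1) (nat_lit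 225) (nat_lit 267) (nat_lit 228)) (XT.lf (nat_lit 840) (nat_lit 4635368775) (nat_lit 0) (nat_lit 118927506) (nat_lit 756) (nat_lit 118927506) (nat_lit 183) (nat_lit 1) (nat_lit 173) (nat_lit 1) (nat_lit 182) (nat_lit 1) (nat_lit 226) (nat_lit 267) (nat_lit 227)))) (XT.nd (nat_lit 188) (nat_lit 672) (nat_lit 0) (XT.nd (nat_lit 94) (nat_lit 756) (nat_lit 0) (XT.lf (nat_lit 84) (nat_lit 1960742456) (nat_lit 0) (nat_lit 906042459) (nat_lit 840) (nat_lit 1960742456) (nat_lit 174) (nat_lit 1) (nat_lit 173) (nat_lit 1) (nat_lit 183) (nat_lit 1) (nat_lit 227) (nat_lit 267) (nat_lit 226)) (XT.lf (nat_lit 840) (nat_lit 3216420141) (nat_lit 0) (nat_lit 783126765) (nat_lit 756) (nat_lit 783126765) (nat_lit 174) (nat_lit 1) (nat_lit 164) (nat_lit 1) (nat_lit 173) (nat_lit 1) (nat_lit 228) (nat_lit 267) (nat_lit 225))) (XT.nd (nat_lit 94) (nat_lit 672) (nat_lit 0) (XT.lf (nat_lit 84) (nat_lit 1251558761) (nat_lit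 0) (nat_lit 2235163943) (nat_lit 840) (nat_lit 1251558761) (nat_lit 165) (nat_lit 1) (nat_lit 164) (nat_lit 1) (nat_lit 174) (nat_lit 1) (nat_lit 229) (nat_lit 267) (nat_lit 224)) (XT.lf (nat_lit 756) (nat_lit 1789015481) (nat_lit 0) (nat_lit 1452740819) (nat_lit 672) (nat_lit 1452740819) (nat_lit 165) (nat_lit 1) (nat_lit 156) (nat_lit 1) (nat_lit 164) (nat_lit 1) (nat_lit 230) (nat_lit 267) (nat_lit 223))))) (XT.nd (nat_lit 376) (nat_lit 1260) (nat_lit 0) (XT.nd (nat_lit 188) (nat_lit 756) (nat_lit 0) (XT.nd (nat_lit 94) (nat_lit 672) (nat_lit 0) (XT.lf (nat_lit 84) (nat_lit 538630781) (nat_lit 0) (nat_lit 3574113373) (nat_lit 756) (nat_lit 538630781) (nat_lit 157) (nat_lit 1) (nat_lit 156) (nat_lit 1) (nat_lit 165) (nat_lit 1) (nat_lit 231) (nat_lit 267) (nat_lit 222)) (XT.lf (nat_lit 756) (nat_lit 354997849) (nat_lit 0) (nat_lit 2126813556) (nat_lit 672) (nat_lit 2126813556) (nat_lit 157) (nat_lit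 1) (nat_lit 148) (nat_lit 1) (nat_lit 156) (nat_lit 1) (nat_lit 232) (nat_lit 267) (nat_lit 221))) (XT.nd (nat_lit 94) (nat_lit 0) (nat_lit 0) (XT.lf (nat_lit 756) (nat_lit 4214886338) (nat_lit 0) (nat_lit 175870907) (nat_lit 672) (nat_lit 175870907) (nat_lit 148) (nat_lit 1) (nat_lit 139) (nat_lit 1) (nat_lit 147) (nat_lit 1) (nat_lit 233) (nat_lit 267) (nat_lit 220)) (XT.lf (nat_lit 84) (nat_lit 1728265964) (nat_lit 0) (nat_lit 1068288502) (nat_lit 756) (nat_lit 1728265964) (nat_lit 140) (nat_lit 1) (nat_lit 139) (nat_lit 1) (nat_lit 148) (nat_lit 1) (nat_lit 234) (nat_lit 267) (nat_lit 219)))) (XT.nd (nat_lit 188) (nat_lit 588) (nat_lit 0) (XT.nd (nat_lit 94) (nat_lit 0) (nat_lit 0) (XT.lf (nat_lit 756) (nat_lit 2706781297) (nat_lit 0) (nat_lit 888482590) (nat_lit 672) (nat_lit 888482590) (nat_lit 140) (nat_lit 1) (nat_lit 131) (nat_lit 1) (nat_lit 139) (nat_lit 1) (nat_lit 235) (nat_lit 267) (nat_lit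 218)) (XT.lf (nat_lit 84) (nat_lit 976732443) (nat_lit 0) (nat_lit 2489667628) (nat_lit 756) (nat_lit 976732443) (nat_lit 132) (nat_lit 1) (nat_lit 131) (nat_lit 1) (nat_lit 140) (nat_lit 1) (nat_lit 236) (nat_lit 267) (nat_lit 217))) (XT.nd (nat_lit 94) (nat_lit 0) (nat_lit 0) (XT.lf (nat_lit 672) (nat_lit 1198371025) (nat_lit 0) (nat_lit 1602317230) (nat_lit 588) (nat_lit 1602317230) (nat_lit 132) (nat_lit 1) (nat_lit 124) (nat_lit 1) (nat_lit 131) (nat_lit 1) (nat_lit 237) (nat_lit 267) (nat_lit 216)) (XT.lf (nat_lit 84) (nat_lit 225403776) (nat_lit 0) (nat_lit 3912746899) (nat_lit 672) (nat_lit 225403776) (nat_lit 125) (nat_lit 1) (nat_lit 124) (nat_lit 1) (nat_lit 132) (nat_lit 1) (nat_lit 238) (nat_lit 267) (nat_lit 215))))))) (XT.nd (nat_lit 41454) (nat_lit 0) (nat_lit 15036) (XT.nd (nat_lit 658) (nat_lit 2100) (nat_lit 0) (XT.nd (nat_lit 282) (nat_lit 1764) (nat_lit 0) (XT.nd (nat_lit 94) (nat_lit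 588) (nat_lit 0) (XT.lf (nat_lit 84) (nat_lit 2009901489) (nat_lit 0) (nat_lit 304492524) (nat_lit 672) (nat_lit 2009901489) (nat_lit 117) (nat_lit 1) (nat_lit 116) (nat_lit 1) (nat_lit 124) (nat_lit 1) (nat_lit 239) (nat_lit 267) (nat_lit 214)) (XT.nd (nat_lit 94) (nat_lit 0) (nat_lit 0) (XT.lf (nat_lit 672) (nat_lit 3243196529) (nat_lit 0) (nat_lit 521249496) (nat_lit 588) (nat_lit 521249496) (nat_lit 117) (nat_lit 1) (nat_lit 109) (nat_lit 1) (nat_lit 116) (nat_lit 1) (nat_lit 240) (nat_lit 267) (nat_lit 213)) (XT.lf (nat_lit 84) (nat_lit 1229848668) (nat_lit 0) (nat_lit 1787720879) (nat_lit 672) (nat_lit 1229848668) (nat_lit 110) (nat_lit 1) (nat_lit 109) (nat_lit 1) (nat_lit 117) (nat_lit 1) (nat_lit 241) (nat_lit 267) (nat_lit 212)))) (XT.nd (nat_lit 188) (nat_lit 1176) (nat_lit 0) (XT.nd (nat_lit 94) (nat_lit 0) (nat_lit 0) (XT.lf (nat_lit 672) (nat_lit 1680143624) (nat_lit 0) (nat_lit 1264771564)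 (nat_lit 588) (nat_lit 1264771564) (nat_lit 110) (nat_lit 1) (nat_lit 102) (nat_lit 1) (nat_lit 109) (nat_lit 1) (nat_lit 242) (nat_lit 267) (nat_lit 211)) (XT.lf (nat_lit 84) (nat_lit 452569777) (nat_lit 0) (nat_lit 3267364662) (nat_lit 672) (nat_lit 452569777) (nat_lit 103) (nat_lit 1) (nat_lit 102) (nat_lit 1) (nat_lit 110) (nat_lit 1) (nat_lit 243) (nat_lit 267) (nat_lit 210))) (XT.nd (nat_lit 94) (nat_lit 672) (nat_lit 0) (XT.lf (nat_lit 588) (nat_lit 123204215) (nat_lit 0) (nat_lit 2006204769) (nat_lit 504) (nat_lit 2006204769) (nat_lit 103) (nat_lit 1) (nat_lit 96) (nat_lit 1) (nat_lit 102) (nat_lit 1) (nat_lit 244) (nat_lit 267) (nat_lit 209)) (XT.lf (nat_lit 672) (nat_lit 3461145815) (nat_lit 0) (nat_lit 319075038) (nat_lit 588) (nat_lit 319075038) (nat_lit 96) (nat_lit 1) (nat_lit 88) (nat_lit 1) (nat_lit 95) (nat_lit 1) (nat_lit 245) (nat_lit 267) (nat_lit 208))))) (XT.nd (nat_lit 376) (nat_lit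 1092) (nat_lit 0) (XT.nd (nat_lit 188) (nat_lit 504) (nat_lit 0) (XT.nd (nat_lit 94) (nat_lit 504) (nat_lit 0) (XT.lf (nat_lit 84) (nat_lit 1328582585) (nat_lit 0) (nat_lit 1406033362) (nat_lit 672) (nat_lit 1328582585) (nat_lit 89) (nat_lit 1) (nat_lit 88) (nat_lit 1) (nat_lit 96) (nat_lit 1) (nat_lit 246) (nat_lit 267) (nat_lit 207)) (XT.lf (nat_lit 588) (nat_lit 1860329478) (nat_lit 0) (nat_lit 1083664996) (nat_lit 504) (nat_lit 1083664996) (nat_lit 89) (nat_lit 1) (nat_lit 82) (nat_lit 1) (nat_lit 88) (nat_lit 1) (nat_lit 247) (nat_lit 267) (nat_lit 206))) (XT.nd (nat_lit 94) (nat_lit 504) (nat_lit 0) (XT.lf (nat_lit 84) (nat_lit 533551852) (nat_lit 0) (nat_lit 2925490199) (nat_lit 588) (nat_lit 533551852) (nat_lit 83) (nat_lit 1) (nat_lit 82) (nat_lit 1) (nat_lit 89) (nat_lit 1) (nat_lit 248) (nat_lit 267) (nat_lit 205)) (XT.lf (nat_lit 588) (nat_lit 269809751) (nat_lit 0) (nat_lit 1844009138) (nat_lit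 504) (nat_lit 1844009138) (nat_lit 83) (nat_lit 1) (nat_lit 76) (nat_lit 1) (nat_lit 82) (nat_lit 1) (nat_lit 249) (nat_lit 267) (nat_lit 204)))) (XT.nd (nat_lit 188) (nat_lit 504) (nat_lit 0) (XT.nd (nat_lit 94) (nat_lit 0) (nat_lit 0) (XT.lf (nat_lit 588) (nat_lit 3415024041) (nat_lit 0) (nat_lit 254291530) (nat_lit 504) (nat_lit 254291530) (nat_lit 76) (nat_lit 1) (nat_lit 69) (nat_lit 1) (nat_lit 75) (nat_lit 1) (nat_lit 250) (nat_lit 267) (nat_lit 203)) (XT.lf (nat_lit 84) (nat_lit 1299401432) (nat_lit 0) (nat_lit 1290743420) (nat_lit 588) (nat_lit 1299401432) (nat_lit 70) (nat_lit 1) (nat_lit 69) (nat_lit 1) (nat_lit 76) (nat_lit 1) (nat_lit 251) (nat_lit 267) (nat_lit 202))) (XT.nd (nat_lit 40138) (nat_lit 0) (nat_lit 19572) (XT.lf (nat_lit 588) (nat_lit 1790823373) (nat_lit 0) (nat_lit 1032597244) (nat_lit 504) (nat_lit 1032597244) (nat_lit 70) (nat_lit 1) (nat_lit 63) (nat_lit 1) (nat_lit 69)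 (nat_lit 1) (nat_lit 252) (nat_lit 267) (nat_lit 201)) (XT.lf (nat_lit 1932) (nat_lit 1324845962) (nat_lit 0) (nat_lit 3784394131) (nat_lit 1848) (nat_lit 1324845962) (nat_lit 319) (nat_lit 1) (nat_lit 296) (nat_lit 1) (nat_lit 318) (nat_lit 1) (nat_lit 198) (nat_lit 268) (nat_lit 254)))))) (XT.nd (nat_lit 658) (nat_lit 2856) (nat_lit 0) (XT.nd (nat_lit 282) (nat_lit 1680) (nat_lit 0) (XT.nd (nat_lit 94) (nat_lit 0) (nat_lit 84) (XT.lf (nat_lit 1932) (nat_lit 2287333755) (nat_lit 84) (nat_lit 2040344989) (nat_lit 0) (nat_lit 2040344989) (nat_lit 319) (nat_lit 1) (nat_lit 297) (nat_lit 1) (nat_lit 296) (nat_lit 1) (nat_lit 199) (nat_lit 268) (nat_lit 253)) (XT.nd (nat_lit 94) (nat_lit 0) (nat_lit 0) (XT.lf (nat_lit 1932) (nat_lit 958062096) (nat_lit 0) (nat_lit 4386900855) (nat_lit 1848) (nat_lit 958062096) (nat_lit 320) (nat_lit 1) (nat_lit 297) (nat_lit 1) (nat_lit 319) (nat_lit 1) (nat_lit 200) (nat_lit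 268) (nat_lit 252)) (XT.lf (nat_lit 1932) (nat_lit 1521199850) (nat_lit 84) (nat_lit 2358771596) (nat_lit 0) (nat_lit 2358771596) (nat_lit 320) (nat_lit 1) (nat_lit 298) (nat_lit 1) (nat_lit 297) (nat_lit 1) (nat_lit 201) (nat_lit 268) (nat_lit 251)))) (XT.nd (nat_lit 188) (nat_lit 1848) (nat_lit 0) (XT.nd (nat_lit 94) (nat_lit 0) (nat_lit 0) (XT.lf (nat_lit 1932) (nat_lit 561851280) (nat_lit 0) (nat_lit 5051903848) (nat_lit 1848) (nat_lit 561851280) (nat_lit 321) (nat_lit 1) (nat_lit 298) (nat_lit 1) (nat_lit 320) (nat_lit 1) (nat_lit 202) (nat_lit 268) (nat_lit 250)) (XT.lf (nat_lit 1932) (nat_lit 698250175) (nat_lit 84) (nat_lit 2707396368) (nat_lit 0) (nat_lit 2707396368) (nat_lit 321) (nat_lit 1) (nat_lit 299) (nat_lit 1) (nat_lit 298) (nat_lit 1) (nat_lit 203) (nat_lit 268) (nat_lit 249))) (XT.nd (nat_lit 94) (nat_lit 1932) (nat_lit 0) (XT.lf (nat_lit 1932) (nat_lit 138436516) (nat_lit 0) (nat_lit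 5774843729) (nat_lit 1848) (nat_lit 138436516) (nat_lit 322) (nat_lit 1) (nat_lit 299) (nat_lit 1) (nat_lit 321) (nat_lit 1) (nat_lit 204) (nat_lit 268) (nat_lit 248)) (XT.lf (nat_lit 2016) (nat_lit 2908083132) (nat_lit 0) (nat_lit 174618272) (nat_lit 1932) (nat_lit 2908083132) (nat_lit 300) (nat_lit 1) (nat_lit 276) (nat_lit 1) (nat_lit 299) (nat_lit 1) (nat_lit 205) (nat_lit 268) (nat_lit 247))))) (XT.nd (nat_lit 376) (nat_lit 1848) (nat_lit 0) (XT.nd (nat_lit 188) (nat_lit 1008) (nat_lit 0) (XT.nd (nat_lit 94) (nat_lit 0) (nat_lit 84) (XT.lf (nat_lit 2016) (nat_lit 5315384107) (nat_lit 84) (nat_lit 307833732) (nat_lit 0) (nat_lit 307833732) (nat_lit 300) (nat_lit 1) (nat_lit 277) (nat_lit 1) (nat_lit 276) (nat_lit 1) (nat_lit 206) (nat_lit 268) (nat_lit 246)) (XT.lf (nat_lit 84) (nat_lit 2393343141) (nat_lit 0) (nat_lit 1085085183) (nat_lit 1932) (nat_lit 2393343141) (nat_lit 278) (nat_lit 1) (nat_lit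 277) (nat_lit 1) (nat_lit 300) (nat_lit 1) (nat_lit 207) (nat_lit 268) (nat_lit 245))) (XT.nd (nat_lit 94) (nat_lit 0) (nat_lit 0) (XT.lf (nat_lit 1176) (nat_lit 4261527156) (nat_lit 0) (nat_lit 776035737) (nat_lit 1092) (nat_lit 776035737) (nat_lit 278) (nat_lit 1) (nat_lit 264) (nat_lit 1) (nat_lit 277) (nat_lit 1) (nat_lit 208) (nat_lit 268) (nat_lit 244)) (XT.lf (nat_lit 84) (nat_lit 1858324566) (nat_lit 0) (nat_lit 2039361086) (nat_lit 1176) (nat_lit 1858324566) (nat_lit 265) (nat_lit 1) (nat_lit 264) (nat_lit 1) (nat_lit 278) (nat_lit 1) (nat_lit 209) (nat_lit 268) (nat_lit 243)))) (XT.nd (nat_lit 188) (nat_lit 924) (nat_lit 0) (XT.nd (nat_lit 94) (nat_lit 0) (nat_lit 0) (XT.lf (nat_lit 1008) (nat_lit 3168761242) (nat_lit 0) (nat_lit 1265291479) (nat_lit 924) (nat_lit 1265291479) (nat_lit 265) (nat_lit 1) (nat_lit 253) (nat_lit 1) (nat_lit 264) (nat_lit 1) (nat_lit 210) (nat_lit 268) (nat_lit 242))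 (XT.lf (nat_lit 84) (nat_lit 1304799501) (nat_lit 0) (nat_lit 3033802415) (nat_lit 1008) (nat_lit 1304799501) (nat_lit 254) (nat_lit 1) (nat_lit 253) (nat_lit 1) (nat_lit 265) (nat_lit 1) (nat_lit 211) (nat_lit 268) (nat_lit 241))) (XT.nd (nat_lit 94) (nat_lit 0) (nat_lit 0) (XT.lf (nat_lit 1008) (nat_lit 2040547223) (nat_lit 0) (nat_lit 1773821831) (nat_lit 924) (nat_lit 1773821831) (nat_lit 254) (nat_lit 1) (nat_lit 242) (nat_lit 1) (nat_lit 253) (nat_lit 1) (nat_lit 212) (nat_lit 268) (nat_lit 240)) (XT.lf (nat_lit 84) (nat_lit 734445007) (nat_lit 0) (nat_lit 4064959049) (nat_lit 1008) (nat_lit 734445007) (nat_lit 243) (nat_lit 1) (nat_lit 242) (nat_lit 1) (nat_lit 254) (nat_lit 1) (nat_lit 213) (nat_lit 268) (nat_lit 239))))))))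
noncomputable def ec28 : XT := (XT.nd (nat_lit 2726) (nat_lit 2772) (nat_lit 0) (XT.nd (nat_lit 1316) (nat_lit 5712) (nat_lit 0) (XT.nd (nat_lit 658) (nat_lit 3108) (nat_lit 0) (XT.nd (nat_lit 282) (nat_lit 1680) (nat_lit 0) (XT.nd (nat_lit 94) (nat_lit 924) (nat_lit 0) (XT.lf (nat_lit 924) (nat_lit 880159730) (nat_lit 0) (nat_lit 2299942438) (nat_lit 840) (nat_lit 2299942438) (nat_lit 243) (nat_lit 1) (nat_lit 232) (nat_lit 1) (nat_lit 242) (nat_lit 1) (nat_lit 214) (nat_lit 268) (nat_lit 238)) (XT.nd (nat_lit 94) (nat_lit 924) (nat_lit 0) (XT.lf (nat_lit 84) (nat_lit 148847591) (nat_lit 0) (nat_lit 5129565253) (nat_lit 924) (nat_lit 148847591) (nat_lit 233) (nat_lit 1) (nat_lit 232) (nat_lit 1) (nat_lit 243) (nat_lit 1) (nat_lit 215) (nat_lit 268) (nat_lit 237)) (XT.lf (nat_lit 84) (nat_lit 2534958449) (nat_lit 0) (nat_lit 304849098) (nat_lit 924) (nat_lit 2534958449) (nat_lit 222) (nat_lit 1) (nat_lit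 221) (nat_lit 1) (nat_lit 232) (nat_lit 1) (nat_lit 216) (nat_lit 268) (nat_lit 236)))) (XT.nd (nat_lit 188) (nat_lit 840) (nat_lit 0) (XT.nd (nat_lit 94) (nat_lit 0) (nat_lit 0) (XT.lf (nat_lit 924) (nat_lit 4428789164) (nat_lit 0) (nat_lit 447236675) (nat_lit 840) (nat_lit 447236675) (nat_lit 222) (nat_lit 1) (nat_lit 211) (nat_lit 1) (nat_lit 221) (nat_lit 1) (nat_lit 217) (nat_lit 268) (nat_lit 235)) (XT.lf (nat_lit 84) (nat_lit 1884610631) (nat_lit 0) (nat_lit 1502952413) (nat_lit 924) (nat_lit 1884610631) (nat_lit 212) (nat_lit 1) (nat_lit 211) (nat_lit 1) (nat_lit 222) (nat_lit 1) (nat_lit 218) (nat_lit 268) (nat_lit 234))) (XT.nd (nat_lit 94) (nat_lit 0) (nat_lit 0) (XT.lf (nat_lit 924) (nat_lit 3112989160) (nat_lit 0) (nat_lit 1054480805) (nat_lit 840) (nat_lit 1054480805) (nat_lit 212) (nat_lit 1) (nat_lit 201) (nat_lit 1) (nat_lit 211) (nat_lit 1) (nat_lit 219) (nat_lit 268) (nat_lit 233))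 (XT.lf (nat_lit 84) (nat_lit 1224110494) (nat_lit 0) (nat_lit 2724100157) (nat_lit 924) (nat_lit 1224110494) (nat_lit 202) (nat_lit 1) (nat_lit 201) (nat_lit 1) (nat_lit 212) (nat_lit 1) (nat_lit 220) (nat_lit 268) (nat_lit 232))))) (XT.nd (nat_lit 282) (nat_lit 1596) (nat_lit 0) (XT.nd (nat_lit 94) (nat_lit 756) (nat_lit 0) (XT.lf (nat_lit 840) (nat_lit 1778074916) (nat_lit 0) (nat_lit 1672630569) (nat_lit 756) (nat_lit 1672630569) (nat_lit 202) (nat_lit 1) (nat_lit 192) (nat_lit 1) (nat_lit 201) (nat_lit 1) (nat_lit 221) (nat_lit 268) (nat_lit 231)) (XT.nd (nat_lit 94) (nat_lit 756) (nat_lit 0) (XT.lf (nat_lit 84) (nat_lit 554705199) (nat_lit 0) (nat_lit 3965716396) (nat_lit 840) (nat_lit 554705199) (nat_lit 193) (nat_lit 1) (nat_lit 192) (nat_lit 1) (nat_lit 202) (nat_lit 1) (nat_lit 222) (nat_lit 268) (nat_lit 230)) (XT.lf (nat_lit 840) (nat_lit 426478282) (nat_lit 0) (nat_lit 2300430022) (nat_lit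 756) (nat_lit 2300430022) (nat_lit 193) (nat_lit 1) (nat_lit 183) (nat_lit 1) (nat_lit 192) (nat_lit 1) (nat_lit 223) (nat_lit 268) (nat_lit 229)))) (XT.nd (nat_lit 188) (nat_lit 756) (nat_lit 0) (XT.nd (nat_lit 94) (nat_lit 0) (nat_lit 0) (XT.lf (nat_lit 840) (nat_lit 4737346888) (nat_lit 0) (nat_lit 121543911) (nat_lit 756) (nat_lit 121543911) (nat_lit 183) (nat_lit 1) (nat_lit 173) (nat_lit 1) (nat_lit 182) (nat_lit 1) (nat_lit 224) (nat_lit 268) (nat_lit 228)) (XT.lf (nat_lit 84) (nat_lit 2003878790) (nat_lit 0) (nat_lit 925975393) (nat_lit 840) (nat_lit 2003878790) (nat_lit 174) (nat_lit 1) (nat_lit 173) (nat_lit 1) (nat_lit 183) (nat_lit 1) (nat_lit 225) (nat_lit 268) (nat_lit 227))) (XT.nd (nat_lit 94) (nat_lit 0) (nat_lit 0) (XT.lf (nat_lit 840) (nat_lit 3287181385) (nat_lit 0) (nat_lit 800355554) (nat_lit 756) (nat_lit 800355554) (nat_lit 174) (nat_lit 1) (nat_lit 164) (nat_lit 1) (nat_lit 173)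 (nat_lit 1) (nat_lit 226) (nat_lit 268) (nat_lit 226)) (XT.lf (nat_lit 84) (nat_lit 1279093054) (nat_lit 0) (nat_lit 2284337550) (nat_lit 840) (nat_lit 1279093054) (nat_lit 165) (nat_lit 1) (nat_lit 164) (nat_lit 1) (nat_lit 174) (nat_lit 1) (nat_lit 227) (nat_lit 268) (nat_lit 225)))))) (XT.nd (nat_lit 658) (nat_lit 2940) (nat_lit 0) (XT.nd (nat_lit 282) (nat_lit 1428) (nat_lit 0) (XT.nd (nat_lit 94) (nat_lit 672) (nat_lit 0) (XT.lf (nat_lit 756) (nat_lit 1828373822) (nat_lit 0) (nat_lit 1484701117) (nat_lit 672) (nat_lit 1484701117) (nat_lit 165) (nat_lit 1) (nat_lit 156) (nat_lit 1) (nat_lit 164) (nat_lit 1) (nat_lit 228) (nat_lit 268) (nat_lit 224)) (XT.nd (nat_lit 94) (nat_lit 672) (nat_lit 0) (XT.lf (nat_lit 84) (nat_lit 550480658) (nat_lit 0) (nat_lit 3652743868) (nat_lit 756) (nat_lit 550480658) (nat_lit 157) (nat_lit 1) (nat_lit 156) (nat_lit 1) (nat_lit 165) (nat_lit 1) (nat_lit 229) (nat_lit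 268) (nat_lit 223)) (XT.lf (nat_lit 756) (nat_lit 362807802) (nat_lit 0) (nat_lit 2173603454) (nat_lit 672) (nat_lit 2173603454) (nat_lit 157) (nat_lit 1) (nat_lit 148) (nat_lit 1) (nat_lit 156) (nat_lit 1) (nat_lit 230) (nat_lit 268) (nat_lit 222)))) (XT.nd (nat_lit 188) (nat_lit 672) (nat_lit 0) (XT.nd (nat_lit 94) (nat_lit 0) (nat_lit 0) (XT.lf (nat_lit 756) (nat_lit 4307613838) (nat_lit 0) (nat_lit 179740067) (nat_lit 672) (nat_lit 179740067) (nat_lit 148) (nat_lit 1) (nat_lit 139) (nat_lit 1) (nat_lit 147) (nat_lit 1) (nat_lit 231) (nat_lit 268) (nat_lit 221)) (XT.lf (nat_lit 84) (nat_lit 1766287815) (nat_lit 0) (nat_lit 1091790849) (nat_lit 756) (nat_lit 1766287815) (nat_lit 140) (nat_lit 1) (nat_lit 139) (nat_lit 1) (nat_lit 148) (nat_lit 1) (nat_lit 232) (nat_lit 268) (nat_lit 220))) (XT.nd (nat_lit 94) (nat_lit 0) (nat_lit 0) (XT.lf (nat_lit 756) (nat_lit 2766330485) (nat_lit 0) (nat_lit 908029207)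 (nat_lit 672) (nat_lit 908029207) (nat_lit 140) (nat_lit 1) (nat_lit 131) (nat_lit 1) (nat_lit 139) (nat_lit 1) (nat_lit 233) (nat_lit 268) (nat_lit 219)) (XT.lf (nat_lit 84) (nat_lit 998220557) (nat_lit 0) (nat_lit 2544440316) (nat_lit 756) (nat_lit 998220557) (nat_lit 132) (nat_lit 1) (nat_lit 131) (nat_lit 1) (nat_lit 140) (nat_lit 1) (nat_lit 234) (nat_lit 268) (nat_lit 218))))) (XT.nd (nat_lit 376) (nat_lit 1092) (nat_lit 0) (XT.nd (nat_lit 188) (nat_lit 1260) (nat_lit 0) (XT.nd (nat_lit 94) (nat_lit 0) (nat_lit 0) (XT.lf (nat_lit 672) (nat_lit 1224735188) (nat_lit 0) (nat_lit 1637568209) (nat_lit 588) (nat_lit 1637568209) (nat_lit 132) (nat_lit 1) (nat_lit 124) (nat_lit 1) (nat_lit 131) (nat_lit 1) (nat_lit 235) (nat_lit 268) (nat_lit 217)) (XT.lf (nat_lit 84) (nat_lit 230362659) (nat_lit 0) (nat_lit 3998827330) (nat_lit 672) (nat_lit 230362659) (nat_lit 125) (nat_lit 1) (nat_lit 124) (nat_lit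 1) (nat_lit 132) (nat_lit 1) (nat_lit 236) (nat_lit 268) (nat_lit 216))) (XT.nd (nat_lit 94) (nat_lit 588) (nat_lit 0) (XT.lf (nat_lit 84) (nat_lit 2054119321) (nat_lit 0) (nat_lit 311191360) (nat_lit 672) (nat_lit 2054119321) (nat_lit 117) (nat_lit 1) (nat_lit 116) (nat_lit 1) (nat_lit 124) (nat_lit 1) (nat_lit 237) (nat_lit 268) (nat_lit 215)) (XT.lf (nat_lit 672) (nat_lit 3314546853) (nat_lit 0) (nat_lit 532716985) (nat_lit 588) (nat_lit 532716985) (nat_lit 117) (nat_lit 1) (nat_lit 109) (nat_lit 1) (nat_lit 116) (nat_lit 1) (nat_lit 238) (nat_lit 268) (nat_lit 214)))) (XT.nd (nat_lit 188) (nat_lit 504) (nat_lit 0) (XT.nd (nat_lit 94) (nat_lit 588) (nat_lit 0) (XT.lf (nat_lit 84) (nat_lit 1256905339) (nat_lit 0) (nat_lit 1827050738) (nat_lit 672) (nat_lit 1256905339) (nat_lit 110) (nat_lit 1) (nat_lit 109) (nat_lit 1) (nat_lit 117) (nat_lit 1) (nat_lit 239) (nat_lit 268) (nat_lit 213)) (XT.lf (nat_lit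 672) (nat_lit 1717106784) (nat_lit 0) (nat_lit 1292596539) (nat_lit 588) (nat_lit 1292596539) (nat_lit 110) (nat_lit 1) (nat_lit 102) (nat_lit 1) (nat_lit 109) (nat_lit 1) (nat_lit 240) (nat_lit 268) (nat_lit 212))) (XT.nd (nat_lit 94) (nat_lit 504) (nat_lit 0) (XT.lf (nat_lit 84) (nat_lit 462526312) (nat_lit 0) (nat_lit 3339246684) (nat_lit 672) (nat_lit 462526312) (nat_lit 103) (nat_lit 1) (nat_lit 102) (nat_lit 1) (nat_lit 110) (nat_lit 1) (nat_lit 241) (nat_lit 268) (nat_lit 211)) (XT.lf (nat_lit 588) (nat_lit 125914708) (nat_lit 0) (nat_lit 2050341274) (nat_lit 504) (nat_lit 2050341274) (nat_lit 103) (nat_lit 1) (nat_lit 96) (nat_lit 1) (nat_lit 102) (nat_lit 1) (nat_lit 242) (nat_lit 268) (nat_lit 210))))))) (XT.nd (nat_lit 41642) (nat_lit 0) (nat_lit 10836) (XT.nd (nat_lit 658) (nat_lit 504) (nat_lit 0) (XT.nd (nat_lit 282) (nat_lit 1092) (nat_lit 0) (XT.nd (nat_lit 94) (nat_lit 504) (nat_lit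 0) (XT.lf (nat_lit 672) (nat_lit 3537291023) (nat_lit 0) (nat_lit 326094689) (nat_lit 588) (nat_lit 326094689) (nat_lit 96) (nat_lit 1) (nat_lit 88) (nat_lit 1) (nat_lit 95) (nat_lit 1) (nat_lit 243) (nat_lit 268) (nat_lit 209)) (XT.nd (nat_lit 94) (nat_lit 504) (nat_lit 0) (XT.lf (nat_lit 84) (nat_lit 1357811402) (nat_lit 0) (nat_lit 1436966096) (nat_lit 672) (nat_lit 1357811402) (nat_lit 89) (nat_lit 1) (nat_lit 88) (nat_lit 1) (nat_lit 96) (nat_lit 1) (nat_lit 244) (nat_lit 268) (nat_lit 208)) (XT.lf (nat_lit 588) (nat_lit 1901256726) (nat_lit 0) (nat_lit 1107505626) (nat_lit 504) (nat_lit 1107505626) (nat_lit 89) (nat_lit 1) (nat_lit 82) (nat_lit 1) (nat_lit 88) (nat_lit 1) (nat_lit 245) (nat_lit 268) (nat_lit 207)))) (XT.nd (nat_lit 188) (nat_lit 588) (nat_lit 0) (XT.nd (nat_lit 94) (nat_lit 504) (nat_lit 0) (XT.lf (nat_lit 84) (nat_lit 545289993) (nat_lit 0) (nat_lit 2989850983) (nat_lit 588) (nat_lit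 545289993) (nat_lit 83) (nat_lit 1) (nat_lit 82) (nat_lit 1) (nat_lit 89) (nat_lit 1) (nat_lit 246) (nat_lit 268) (nat_lit 206)) (XT.lf (nat_lit 588) (nat_lit 275745566) (nat_lit 0) (nat_lit 1884577339) (nat_lit 504) (nat_lit 1884577339) (nat_lit 83) (nat_lit 1) (nat_lit 76) (nat_lit 1) (nat_lit 82) (nat_lit 1) (nat_lit 247) (nat_lit 268) (nat_lit 205))) (XT.nd (nat_lit 94) (nat_lit 0) (nat_lit 0) (XT.lf (nat_lit 588) (nat_lit 3490154570) (nat_lit 0) (nat_lit 259885944) (nat_lit 504) (nat_lit 259885944) (nat_lit 76) (nat_lit 1) (nat_lit 69) (nat_lit 1) (nat_lit 75) (nat_lit 1) (nat_lit 248) (nat_lit 268) (nat_lit 204)) (XT.lf (nat_lit 84) (nat_lit 1327988263) (nat_lit 0) (nat_lit 1319139776) (nat_lit 588) (nat_lit 1327988263) (nat_lit 70) (nat_lit 1) (nat_lit 69) (nat_lit 1) (nat_lit 76) (nat_lit 1) (nat_lit 249) (nat_lit 268) (nat_lit 203))))) (XT.nd (nat_lit 40608) (nat_lit 0) (nat_lit 17892) (XT.nd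 (nat_lit 40420) (nat_lit 0) (nat_lit 19656) (XT.lf (nat_lit 588) (nat_lit 1830221488) (nat_lit 0) (nat_lit 1055314383) (nat_lit 504) (nat_lit 1055314383) (nat_lit 70) (nat_lit 1) (nat_lit 63) (nat_lit 1) (nat_lit 69) (nat_lit 1) (nat_lit 250) (nat_lit 268) (nat_lit 202)) (XT.nd (nat_lit 94) (nat_lit 0) (nat_lit 84) (XT.lf (nat_lit 1932) (nat_lit 1554666247) (nat_lit 84) (nat_lit 2410664571) (nat_lit 0) (nat_lit 2410664571) (nat_lit 320) (nat_lit 1) (nat_lit 298) (nat_lit 1) (nat_lit 297) (nat_lit 1) (nat_lit 199) (nat_lit 269) (nat_lit 252)) (XT.lf (nat_lit 1932) (nat_lit 574212008) (nat_lit 0) (nat_lit 5163045732) (nat_lit 1848) (nat_lit 574212008) (nat_lit 321) (nat_lit 1) (nat_lit 298) (nat_lit 1) (nat_lit 320) (nat_lit 1) (nat_lit 200) (nat_lit 269) (nat_lit 251)))) (XT.nd (nat_lit 188) (nat_lit 1848) (nat_lit 0) (XT.nd (nat_lit 94) (nat_lit 0) (nat_lit 84) (XT.lf (nat_lit 1932) (nat_lit 713611679)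 (nat_lit 84) (nat_lit 2766959088) (nat_lit 0) (nat_lit 2766959088) (nat_lit 321) (nat_lit 1) (nat_lit 299) (nat_lit 1) (nat_lit 298) (nat_lit 1) (nat_lit 201) (nat_lit 269) (nat_lit 250)) (XT.lf (nat_lit 1932) (nat_lit 141482119) (nat_lit 0) (nat_lit 5901890291) (nat_lit 1848) (nat_lit 141482119) (nat_lit 322) (nat_lit 1) (nat_lit 299) (nat_lit 1) (nat_lit 321) (nat_lit 1) (nat_lit 202) (nat_lit 269) (nat_lit 249))) (XT.nd (nat_lit 94) (nat_lit 0) (nat_lit 0) (XT.lf (nat_lit 2016) (nat_lit 2972060960) (nat_lit 0) (nat_lit 178459874) (nat_lit 1932) (nat_lit 2972060960) (nat_lit 300) (nat_lit 1) (nat_lit 276) (nat_lit 1) (nat_lit 299) (nat_lit 1) (nat_lit 203) (nat_lit 269) (nat_lit 248)) (XT.lf (nat_lit 2016) (nat_lit 5432322557) (nat_lit 84) (nat_lit 314606074) (nat_lit 0) (nat_lit 314606074) (nat_lit 300) (nat_lit 1) (nat_lit 277) (nat_lit 1) (nat_lit 276) (nat_lit 1) (nat_lit 204) (nat_lit 269) (nat_lit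 247)))))) (XT.nd (nat_lit 658) (nat_lit 4200) (nat_lit 0) (XT.nd (nat_lit 282) (nat_lit 1848) (nat_lit 0) (XT.nd (nat_lit 94) (nat_lit 1092) (nat_lit 0) (XT.lf (nat_lit 84) (nat_lit 2445996690) (nat_lit 0) (nat_lit 1108957057) (nat_lit 1932) (nat_lit 2445996690) (nat_lit 278) (nat_lit 1) (nat_lit 277) (nat_lit 1) (nat_lit 300) (nat_lit 1) (nat_lit 205) (nat_lit 269) (nat_lit 246)) (XT.nd (nat_lit 94) (nat_lit 0) (nat_lit 0) (XT.lf (nat_lit 1176) (nat_lit 4355280753) (nat_lit 0) (nat_lit 793108523) (nat_lit 1092) (nat_lit 793108523) (nat_lit 278) (nat_lit 1) (nat_lit 264) (nat_lit 1) (nat_lit 277) (nat_lit 1) (nat_lit 206) (nat_lit 269) (nat_lit 245)) (XT.lf (nat_lit 84) (nat_lit 1899207707) (nat_lit 0) (nat_lit 2084227030) (nat_lit 1176) (nat_lit 1899207707) (nat_lit 265) (nat_lit 1) (nat_lit 264) (nat_lit 1) (nat_lit 278) (nat_lit 1) (nat_lit 207) (nat_lit 269) (nat_lit 244)))) (XT.nd (nat_lit 188)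 (nat_lit 924) (nat_lit 0) (XT.nd (nat_lit 94) (nat_lit 0) (nat_lit 0) (XT.lf (nat_lit 1008) (nat_lit 3238473990) (nat_lit 0) (nat_lit 1293127891) (nat_lit 924) (nat_lit 1293127891) (nat_lit 265) (nat_lit 1) (nat_lit 253) (nat_lit 1) (nat_lit 264) (nat_lit 1) (nat_lit 208) (nat_lit 269) (nat_lit 243)) (XT.lf (nat_lit 84) (nat_lit 1333505090) (nat_lit 0) (nat_lit 3100546068) (nat_lit 1008) (nat_lit 1333505090) (nat_lit 254) (nat_lit 1) (nat_lit 253) (nat_lit 1) (nat_lit 265) (nat_lit 1) (nat_lit 209) (nat_lit 269) (nat_lit 242))) (XT.nd (nat_lit 94) (nat_lit 0) (nat_lit 0) (XT.lf (nat_lit 1008) (nat_lit 2085439262) (nat_lit 0) (nat_lit 1812845912) (nat_lit 924) (nat_lit 1812845912) (nat_lit 254) (nat_lit 1) (nat_lit 242) (nat_lit 1) (nat_lit 253) (nat_lit 1) (nat_lit 210) (nat_lit 269) (nat_lit 241)) (XT.lf (nat_lit 84) (nat_lit 750602798) (nat_lit 0) (nat_lit 4154388148) (nat_lit 1008) (nat_lit 750602798)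 (nat_lit 243) (nat_lit 1) (nat_lit 242) (nat_lit 1) (nat_lit 254) (nat_lit 1) (nat_lit 211) (nat_lit 269) (nat_lit 240))))) (XT.nd (nat_lit 376) (nat_lit 1596) (nat_lit 0) (XT.nd (nat_lit 188) (nat_lit 1764) (nat_lit 0) (XT.nd (nat_lit 94) (nat_lit 0) (nat_lit 0) (XT.lf (nat_lit 924) (nat_lit 899523244) (nat_lit 0) (nat_lit 2350541172) (nat_lit 840) (nat_lit 2350541172) (nat_lit 243) (nat_lit 1) (nat_lit 232) (nat_lit 1) (nat_lit 242) (nat_lit 1) (nat_lit 212) (nat_lit 269) (nat_lit 239)) (XT.lf (nat_lit 84) (nat_lit 152122238) (nat_lit 0) (nat_lit 5242415689) (nat_lit 924) (nat_lit 152122238) (nat_lit 233) (nat_lit 1) (nat_lit 232) (nat_lit 1) (nat_lit 243) (nat_lit 1) (nat_lit 213) (nat_lit 269) (nat_lit 238))) (XT.nd (nat_lit 94) (nat_lit 840) (nat_lit 0) (XT.lf (nat_lit 84) (nat_lit 2590727535) (nat_lit 0) (nat_lit 311555778) (nat_lit 924) (nat_lit 2590727535) (nat_lit 222) (nat_lit 1) (nat_lit 221)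 (nat_lit 1) (nat_lit 232) (nat_lit 1) (nat_lit 214) (nat_lit 269) (nat_lit 237)) (XT.lf (nat_lit 924) (nat_lit 4526222526) (nat_lit 0) (nat_lit 457075882) (nat_lit 840) (nat_lit 457075882) (nat_lit 222) (nat_lit 1) (nat_lit 211) (nat_lit 1) (nat_lit 221) (nat_lit 1) (nat_lit 215) (nat_lit 269) (nat_lit 236)))) (XT.nd (nat_lit 188) (nat_lit 756) (nat_lit 0) (XT.nd (nat_lit 94) (nat_lit 840) (nat_lit 0) (XT.lf (nat_lit 84) (nat_lit 1926072065) (nat_lit 0) (nat_lit 1536017367) (nat_lit 924) (nat_lit 1926072065) (nat_lit 212) (nat_lit 1) (nat_lit 211) (nat_lit 1) (nat_lit 222) (nat_lit 1) (nat_lit 216) (nat_lit 269) (nat_lit 235)) (XT.lf (nat_lit 924) (nat_lit 3181474922) (nat_lit 0) (nat_lit 1077679383) (nat_lit 840) (nat_lit 1077679383) (nat_lit 212) (nat_lit 1) (nat_lit 201) (nat_lit 1) (nat_lit 211) (nat_lit 1) (nat_lit 217) (nat_lit 269) (nat_lit 234))) (XT.nd (nat_lit 94) (nat_lit 756) (nat_lit 0)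 (XT.lf (nat_lit 84) (nat_lit 1251040925) (nat_lit 0) (nat_lit 2784030360) (nat_lit 924) (nat_lit 1251040925) (nat_lit 202) (nat_lit 1) (nat_lit 201) (nat_lit 1) (nat_lit 212) (nat_lit 1) (nat_lit 218) (nat_lit 269) (nat_lit 233)) (XT.lf (nat_lit 840) (nat_lit 1817192564) (nat_lit 0) (nat_lit 1709428442) (nat_lit 756) (nat_lit 1709428442) (nat_lit 202) (nat_lit 1) (nat_lit 192) (nat_lit 1) (nat_lit 201) (nat_lit 1) (nat_lit 219) (nat_lit 269) (nat_lit 232))))))))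
noncomputable def ec29 : XT := (XT.nd (nat_lit 43334) (nat_lit 0) (nat_lit 5712) (XT.nd (nat_lit 1316) (nat_lit 5124) (nat_lit 0) (XT.nd (nat_lit 658) (nat_lit 2688) (nat_lit 0) (XT.nd (nat_lit 282) (nat_lit 1428) (nat_lit 0) (XT.nd (nat_lit 94) (nat_lit 1596) (nat_lit 0) (XT.lf (nat_lit 84) (nat_lit 566908713) (nat_lit 0) (nat_lit 4052962157) (nat_lit 840) (nat_lit 566908713) (nat_lit 193) (nat_lit 1) (nat_lit 192) (nat_lit 1) (nat_lit 202) (nat_lit 1) (nat_lit 220) (nat_lit 269) (nat_lit 231)) (XT.nd (nat_lit 94) (nat_lit 840) (nat_lit 0) (XT.lf (nat_lit 840) (nat_lit 435860804) (nat_lit 0) (nat_lit 2351039482) (nat_lit 756) (nat_lit 2351039482) (nat_lit 193) (nat_lit 1) (nat_lit 183) (nat_lit 1) (nat_lit 192) (nat_lit 1) (nat_lit 221) (nat_lit 269) (nat_lit 230)) (XT.lf (nat_lit 840) (nat_lit 4841568520) (nat_lit 0) (nat_lit 124217877) (nat_lit 756) (nat_lit 124217877) (nat_lit 183) (nat_lit 1) (nat_lit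 173) (nat_lit 1) (nat_lit 182) (nat_lit 1) (nat_lit 222) (nat_lit 269) (nat_lit 229)))) (XT.nd (nat_lit 188) (nat_lit 672) (nat_lit 0) (XT.nd (nat_lit 94) (nat_lit 756) (nat_lit 0) (XT.lf (nat_lit 84) (nat_lit 2047964123) (nat_lit 0) (nat_lit 946346852) (nat_lit 840) (nat_lit 2047964123) (nat_lit 174) (nat_lit 1) (nat_lit 173) (nat_lit 1) (nat_lit 183) (nat_lit 1) (nat_lit 223) (nat_lit 269) (nat_lit 228)) (XT.lf (nat_lit 840) (nat_lit 3359499375) (nat_lit 0) (nat_lit 817963376) (nat_lit 756) (nat_lit 817963376) (nat_lit 174) (nat_lit 1) (nat_lit 164) (nat_lit 1) (nat_lit 173) (nat_lit 1) (nat_lit 224) (nat_lit 269) (nat_lit 227))) (XT.nd (nat_lit 94) (nat_lit 672) (nat_lit 0) (XT.lf (nat_lit 84) (nat_lit 1307233101) (nat_lit 0) (nat_lit 2334592976) (nat_lit 840) (nat_lit 1307233101) (nat_lit 165) (nat_lit 1) (nat_lit 164) (nat_lit 1) (nat_lit 174) (nat_lit 1) (nat_lit 225) (nat_lit 269) (nat_lit 226))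 (XT.lf (nat_lit 756) (nat_lit 1868598046) (nat_lit 0) (nat_lit 1517364541) (nat_lit 672) (nat_lit 1517364541) (nat_lit 165) (nat_lit 1) (nat_lit 156) (nat_lit 1) (nat_lit 164) (nat_lit 1) (nat_lit 226) (nat_lit 269) (nat_lit 225))))) (XT.nd (nat_lit 282) (nat_lit 1260) (nat_lit 0) (XT.nd (nat_lit 94) (nat_lit 1428) (nat_lit 0) (XT.lf (nat_lit 84) (nat_lit 562591232) (nat_lit 0) (nat_lit 3733104233) (nat_lit 756) (nat_lit 562591232) (nat_lit 157) (nat_lit 1) (nat_lit 156) (nat_lit 1) (nat_lit 165) (nat_lit 1) (nat_lit 227) (nat_lit 269) (nat_lit 224)) (XT.nd (nat_lit 94) (nat_lit 756) (nat_lit 0) (XT.lf (nat_lit 756) (nat_lit 370789574) (nat_lit 0) (nat_lit 2221422730) (nat_lit 672) (nat_lit 2221422730) (nat_lit 157) (nat_lit 1) (nat_lit 148) (nat_lit 1) (nat_lit 156) (nat_lit 1) (nat_lit 228) (nat_lit 269) (nat_lit 223)) (XT.lf (nat_lit 756) (nat_lit 4402381342) (nat_lit 0) (nat_lit 183694348) (nat_lit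 672) (nat_lit 183694348) (nat_lit 148) (nat_lit 1) (nat_lit 139) (nat_lit 1) (nat_lit 147) (nat_lit 1) (nat_lit 229) (nat_lit 269) (nat_lit 222)))) (XT.nd (nat_lit 188) (nat_lit 588) (nat_lit 0) (XT.nd (nat_lit 94) (nat_lit 672) (nat_lit 0) (XT.lf (nat_lit 84) (nat_lit 1805146147) (nat_lit 0) (nat_lit 1115810248) (nat_lit 756) (nat_lit 1805146147) (nat_lit 140) (nat_lit 1) (nat_lit 139) (nat_lit 1) (nat_lit 148) (nat_lit 1) (nat_lit 230) (nat_lit 269) (nat_lit 221)) (XT.lf (nat_lit 756) (nat_lit 2827189756) (nat_lit 0) (nat_lit 928005849) (nat_lit 672) (nat_lit 928005849) (nat_lit 140) (nat_lit 1) (nat_lit 131) (nat_lit 1) (nat_lit 139) (nat_lit 1) (nat_lit 231) (nat_lit 269) (nat_lit 220))) (XT.nd (nat_lit 94) (nat_lit 588) (nat_lit 0) (XT.lf (nat_lit 84) (nat_lit 1020181409) (nat_lit 0) (nat_lit 2600418003) (nat_lit 756) (nat_lit 1020181409) (nat_lit 132) (nat_lit 1) (nat_lit 131) (nat_lit 1) (nat_lit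 140) (nat_lit 1) (nat_lit 232) (nat_lit 269) (nat_lit 219)) (XT.lf (nat_lit 672) (nat_lit 1251679362) (nat_lit 0) (nat_lit 1673594710) (nat_lit 588) (nat_lit 1673594710) (nat_lit 132) (nat_lit 1) (nat_lit 124) (nat_lit 1) (nat_lit 131) (nat_lit 1) (nat_lit 233) (nat_lit 269) (nat_lit 218)))))) (XT.nd (nat_lit 658) (nat_lit 2772) (nat_lit 0) (XT.nd (nat_lit 282) (nat_lit 1092) (nat_lit 0) (XT.nd (nat_lit 94) (nat_lit 1260) (nat_lit 0) (XT.lf (nat_lit 84) (nat_lit 235430638) (nat_lit 0) (nat_lit 4086801532) (nat_lit 672) (nat_lit 235430638) (nat_lit 125) (nat_lit 1) (nat_lit 124) (nat_lit 1) (nat_lit 132) (nat_lit 1) (nat_lit 234) (nat_lit 269) (nat_lit 217)) (XT.nd (nat_lit 94) (nat_lit 588) (nat_lit 0) (XT.lf (nat_lit 84) (nat_lit 2099309946) (nat_lit 0) (nat_lit 318037570) (nat_lit 672) (nat_lit 2099309946) (nat_lit 117) (nat_lit 1) (nat_lit 116) (nat_lit 1) (nat_lit 124) (nat_lit 1) (nat_lit 235) (nat_lit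 269) (nat_lit 216)) (XT.lf (nat_lit 672) (nat_lit 3387466884) (nat_lit 0) (nat_lit 544436759) (nat_lit 588) (nat_lit 544436759) (nat_lit 117) (nat_lit 1) (nat_lit 109) (nat_lit 1) (nat_lit 116) (nat_lit 1) (nat_lit 236) (nat_lit 269) (nat_lit 215)))) (XT.nd (nat_lit 188) (nat_lit 504) (nat_lit 0) (XT.nd (nat_lit 94) (nat_lit 588) (nat_lit 0) (XT.lf (nat_lit 84) (nat_lit 1284557257) (nat_lit 0) (nat_lit 1867245855) (nat_lit 672) (nat_lit 1284557257) (nat_lit 110) (nat_lit 1) (nat_lit 109) (nat_lit 1) (nat_lit 117) (nat_lit 1) (nat_lit 237) (nat_lit 269) (nat_lit 214)) (XT.lf (nat_lit 672) (nat_lit 1754883133) (nat_lit 0) (nat_lit 1321033663) (nat_lit 588) (nat_lit 1321033663) (nat_lit 110) (nat_lit 1) (nat_lit 102) (nat_lit 1) (nat_lit 109) (nat_lit 1) (nat_lit 238) (nat_lit 269) (nat_lit 213))) (XT.nd (nat_lit 94) (nat_lit 504) (nat_lit 0) (XT.lf (nat_lit 84) (nat_lit 472701891) (nat_lit 0) (nat_lit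 3412710111) (nat_lit 672) (nat_lit 472701891) (nat_lit 103) (nat_lit 1) (nat_lit 102) (nat_lit 1) (nat_lit 110) (nat_lit 1) (nat_lit 239) (nat_lit 269) (nat_lit 212)) (XT.lf (nat_lit 588) (nat_lit 128684831) (nat_lit 0) (nat_lit 2095448782) (nat_lit 504) (nat_lit 2095448782) (nat_lit 103) (nat_lit 1) (nat_lit 96) (nat_lit 1) (nat_lit 102) (nat_lit 1) (nat_lit 240) (nat_lit 269) (nat_lit 211))))) (XT.nd (nat_lit 376) (nat_lit 1596) (nat_lit 0) (XT.nd (nat_lit 188) (nat_lit 504) (nat_lit 0) (XT.nd (nat_lit 94) (nat_lit 0) (nat_lit 0) (XT.lf (nat_lit 672) (nat_lit 3615111426) (nat_lit 0) (nat_lit 333268772) (nat_lit 588) (nat_lit 333268772) (nat_lit 96) (nat_lit 1) (nat_lit 88) (nat_lit 1) (nat_lit 95) (nat_lit 1) (nat_lit 241) (nat_lit 269) (nat_lit 210)) (XT.lf (nat_lit 84) (nat_lit 1387683252) (nat_lit 0) (nat_lit 1468579350) (nat_lit 672) (nat_lit 1387683252) (nat_lit 89) (nat_lit 1) (nat_lit 88) (nat_lit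 1) (nat_lit 96) (nat_lit 1) (nat_lit 242) (nat_lit 269) (nat_lit 209))) (XT.nd (nat_lit 94) (nat_lit 0) (nat_lit 0) (XT.lf (nat_lit 588) (nat_lit 1943084374) (nat_lit 0) (nat_lit 1131870750) (nat_lit 504) (nat_lit 1131870750) (nat_lit 89) (nat_lit 1) (nat_lit 82) (nat_lit 1) (nat_lit 88) (nat_lit 1) (nat_lit 243) (nat_lit 269) (nat_lit 208)) (XT.lf (nat_lit 84) (nat_lit 557286373) (nat_lit 0) (nat_lit 3055627705) (nat_lit 588) (nat_lit 557286373) (nat_lit 83) (nat_lit 1) (nat_lit 82) (nat_lit 1) (nat_lit 89) (nat_lit 1) (nat_lit 244) (nat_lit 269) (nat_lit 207)))) (XT.nd (nat_lit 188) (nat_lit 504) (nat_lit 0) (XT.nd (nat_lit 94) (nat_lit 588) (nat_lit 0) (XT.lf (nat_lit 588) (nat_lit 281811968) (nat_lit 0) (nat_lit 1926038041) (nat_lit 504) (nat_lit 1926038041) (nat_lit 83) (nat_lit 1) (nat_lit 76) (nat_lit 1) (nat_lit 82) (nat_lit 1) (nat_lit 245) (nat_lit 269) (nat_lit 206)) (XT.lf (nat_lit 588) (nat_lit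 3566937970) (nat_lit 0) (nat_lit 265603434) (nat_lit 504) (nat_lit 265603434) (nat_lit 76) (nat_lit 1) (nat_lit 69) (nat_lit 1) (nat_lit 75) (nat_lit 1) (nat_lit 246) (nat_lit 269) (nat_lit 205))) (XT.nd (nat_lit 94) (nat_lit 504) (nat_lit 0) (XT.lf (nat_lit 84) (nat_lit 1357204005) (nat_lit 0) (nat_lit 1348160851) (nat_lit 588) (nat_lit 1357204005) (nat_lit 70) (nat_lit 1) (nat_lit 69) (nat_lit 1) (nat_lit 76) (nat_lit 1) (nat_lit 247) (nat_lit 269) (nat_lit 204)) (XT.lf (nat_lit 588) (nat_lit 1870486360) (nat_lit 0) (nat_lit 1078531300) (nat_lit 504) (nat_lit 1078531300) (nat_lit 70) (nat_lit 1) (nat_lit 63) (nat_lit 1) (nat_lit 69) (nat_lit 1) (nat_lit 248) (nat_lit 269) (nat_lit 203))))))) (XT.nd (nat_lit 1410) (nat_lit 6720) (nat_lit 0) (XT.nd (nat_lit 658) (nat_lit 3528) (nat_lit 0) (XT.nd (nat_lit 282) (nat_lit 1932) (nat_lit 0) (XT.nd (nat_lit 94) (nat_lit 1932) (nat_lit 0) (XT.lf (nat_lit 1932)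 (nat_lit 144594726) (nat_lit 0) (nat_lit 6031731877) (nat_lit 1848) (nat_lit 144594726) (nat_lit 322) (nat_lit 1) (nat_lit 299) (nat_lit 1) (nat_lit 321) (nat_lit 1) (nat_lit 200) (nat_lit 270) (nat_lit 250)) (XT.nd (nat_lit 94) (nat_lit 0) (nat_lit 0) (XT.lf (nat_lit 2016) (nat_lit 3037446302) (nat_lit 0) (nat_lit 182385991) (nat_lit 1932) (nat_lit 3037446302) (nat_lit 300) (nat_lit 1) (nat_lit 276) (nat_lit 1) (nat_lit 299) (nat_lit 1) (nat_lit 201) (nat_lit 270) (nat_lit 249)) (XT.lf (nat_lit 2016) (nat_lit 5551833653) (nat_lit 84) (nat_lit 321527408) (nat_lit 0) (nat_lit 321527408) (nat_lit 300) (nat_lit 1) (nat_lit 277) (nat_lit 1) (nat_lit 276) (nat_lit 1) (nat_lit 202) (nat_lit 270) (nat_lit 248)))) (XT.nd (nat_lit 188) (nat_lit 924) (nat_lit 0) (XT.nd (nat_lit 94) (nat_lit 1092) (nat_lit 0) (XT.lf (nat_lit 84) (nat_lit 2499808617) (nat_lit 0) (nat_lit 1133354112) (nat_lit 1932) (nat_lit 2499808617)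 (nat_lit 278) (nat_lit 1) (nat_lit 277) (nat_lit 1) (nat_lit 300) (nat_lit 1) (nat_lit 203) (nat_lit 270) (nat_lit 247)) (XT.lf (nat_lit 1176) (nat_lit 4451096930) (nat_lit 0) (nat_lit 810556911) (nat_lit 1092) (nat_lit 810556911) (nat_lit 278) (nat_lit 1) (nat_lit 264) (nat_lit 1) (nat_lit 277) (nat_lit 1) (nat_lit 204) (nat_lit 270) (nat_lit 246))) (XT.nd (nat_lit 94) (nat_lit 924) (nat_lit 0) (XT.lf (nat_lit 84) (nat_lit 1940990276) (nat_lit 0) (nat_lit 2130080025) (nat_lit 1176) (nat_lit 1940990276) (nat_lit 265) (nat_lit 1) (nat_lit 264) (nat_lit 1) (nat_lit 278) (nat_lit 1) (nat_lit 205) (nat_lit 270) (nat_lit 245)) (XT.lf (nat_lit 1008) (nat_lit 3309720417) (nat_lit 0) (nat_lit 1321576705) (nat_lit 924) (nat_lit 1321576705) (nat_lit 265) (nat_lit 1) (nat_lit 253) (nat_lit 1) (nat_lit 264) (nat_lit 1) (nat_lit 206) (nat_lit 270) (nat_lit 244))))) (XT.nd (nat_lit 376) (nat_lit 1764) (nat_lit 0)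 (XT.nd (nat_lit 188) (nat_lit 840) (nat_lit 0) (XT.nd (nat_lit 94) (nat_lit 924) (nat_lit 0) (XT.lf (nat_lit 84) (nat_lit 1362842202) (nat_lit 0) (nat_lit 3168758082) (nat_lit 1008) (nat_lit 1362842202) (nat_lit 254) (nat_lit 1) (nat_lit 253) (nat_lit 1) (nat_lit 265) (nat_lit 1) (nat_lit 207) (nat_lit 270) (nat_lit 243)) (XT.lf (nat_lit 1008) (nat_lit 2131318926) (nat_lit 0) (nat_lit 1852728522) (nat_lit 924) (nat_lit 1852728522) (nat_lit 254) (nat_lit 1) (nat_lit 242) (nat_lit 1) (nat_lit 253) (nat_lit 1) (nat_lit 208) (nat_lit 270) (nat_lit 242))) (XT.nd (nat_lit 94) (nat_lit 840) (nat_lit 0) (XT.lf (nat_lit 84) (nat_lit 767116059) (nat_lit 0) (nat_lit 4245784688) (nat_lit 1008) (nat_lit 767116059) (nat_lit 243) (nat_lit 1) (nat_lit 242) (nat_lit 1) (nat_lit 254) (nat_lit 1) (nat_lit 209) (nat_lit 270) (nat_lit 241)) (XT.lf (nat_lit 924) (nat_lit 919312755) (nat_lit 0) (nat_lit 2402253078) (nat_lit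 840) (nat_lit 2402253078) (nat_lit 243) (nat_lit 1) (nat_lit 232) (nat_lit 1) (nat_lit 242) (nat_lit 1) (nat_lit 210) (nat_lit 270) (nat_lit 240)))) (XT.nd (nat_lit 188) (nat_lit 840) (nat_lit 0) (XT.nd (nat_lit 94) (nat_lit 924) (nat_lit 0) (XT.lf (nat_lit 84) (nat_lit 155468927) (nat_lit 0) (nat_lit 5357748834) (nat_lit 924) (nat_lit 155468927) (nat_lit 233) (nat_lit 1) (nat_lit 232) (nat_lit 1) (nat_lit 243) (nat_lit 1) (nat_lit 211) (nat_lit 270) (nat_lit 239)) (XT.lf (nat_lit 84) (nat_lit 2647723541) (nat_lit 0) (nat_lit 318410005) (nat_lit 924) (nat_lit 2647723541) (nat_lit 222) (nat_lit 1) (nat_lit 221) (nat_lit 1) (nat_lit 232) (nat_lit 1) (nat_lit 212) (nat_lit 270) (nat_lit 238))) (XT.nd (nat_lit 94) (nat_lit 0) (nat_lit 0) (XT.lf (nat_lit 924) (nat_lit 4625799422) (nat_lit 0) (nat_lit 467131551) (nat_lit 840) (nat_lit 467131551) (nat_lit 222) (nat_lit 1) (nat_lit 211) (nat_lit 1) (nat_lit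 221) (nat_lit 1) (nat_lit 213) (nat_lit 270) (nat_lit 237)) (XT.lf (nat_lit 84) (nat_lit 1968445651) (nat_lit 0) (nat_lit 1569809749) (nat_lit 924) (nat_lit 1968445651) (nat_lit 212) (nat_lit 1) (nat_lit 211) (nat_lit 1) (nat_lit 222) (nat_lit 1) (nat_lit 214) (nat_lit 270) (nat_lit 236)))))) (XT.nd (nat_lit 658) (nat_lit 3528) (nat_lit 0) (XT.nd (nat_lit 282) (nat_lit 1596) (nat_lit 0) (XT.nd (nat_lit 94) (nat_lit 756) (nat_lit 0) (XT.lf (nat_lit 924) (nat_lit 3251467370) (nat_lit 0) (nat_lit 1101388329) (nat_lit 840) (nat_lit 1101388329) (nat_lit 212) (nat_lit 1) (nat_lit 201) (nat_lit 1) (nat_lit 211) (nat_lit 1) (nat_lit 215) (nat_lit 270) (nat_lit 235)) (XT.nd (nat_lit 94) (nat_lit 756) (nat_lit 0) (XT.lf (nat_lit 84) (nat_lit 1278563825) (nat_lit 0) (nat_lit 2845279028) (nat_lit 924) (nat_lit 1278563825) (nat_lit 202) (nat_lit 1) (nat_lit 201) (nat_lit 1) (nat_lit 212) (nat_lit 1) (nat_lit 216)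 (nat_lit 270) (nat_lit 234)) (XT.lf (nat_lit 840) (nat_lit 1857170801) (nat_lit 0) (nat_lit 1747035867) (nat_lit 756) (nat_lit 1747035867) (nat_lit 202) (nat_lit 1) (nat_lit 192) (nat_lit 1) (nat_lit 201) (nat_lit 1) (nat_lit 217) (nat_lit 270) (nat_lit 233)))) (XT.nd (nat_lit 188) (nat_lit 840) (nat_lit 0) (XT.nd (nat_lit 94) (nat_lit 756) (nat_lit 0) (XT.lf (nat_lit 84) (nat_lit 579380705) (nat_lit 0) (nat_lit 4142127324) (nat_lit 840) (nat_lit 579380705) (nat_lit 193) (nat_lit 1) (nat_lit 192) (nat_lit 1) (nat_lit 202) (nat_lit 1) (nat_lit 218) (nat_lit 270) (nat_lit 232)) (XT.lf (nat_lit 840) (nat_lit 445449742) (nat_lit 0) (nat_lit 2402762351) (nat_lit 756) (nat_lit 2402762351) (nat_lit 193) (nat_lit 1) (nat_lit 183) (nat_lit 1) (nat_lit 192) (nat_lit 1) (nat_lit 219) (nat_lit 270) (nat_lit 231))) (XT.nd (nat_lit 94) (nat_lit 0) (nat_lit 0) (XT.lf (nat_lit 840) (nat_lit 4948083027) (nat_lit 0) (nat_lit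 126950671) (nat_lit 756) (nat_lit 126950671) (nat_lit 183) (nat_lit 1) (nat_lit 173) (nat_lit 1) (nat_lit 182) (nat_lit 1) (nat_lit 220) (nat_lit 270) (nat_lit 230)) (XT.lf (nat_lit 84) (nat_lit 2093019334) (nat_lit 0) (nat_lit 967166482) (nat_lit 840) (nat_lit 2093019334) (nat_lit 174) (nat_lit 1) (nat_lit 173) (nat_lit 1) (nat_lit 183) (nat_lit 1) (nat_lit 221) (nat_lit 270) (nat_lit 229))))) (XT.nd (nat_lit 376) (nat_lit 2100) (nat_lit 0) (XT.nd (nat_lit 188) (nat_lit 672) (nat_lit 0) (XT.nd (nat_lit 94) (nat_lit 0) (nat_lit 0) (XT.lf (nat_lit 840) (nat_lit 3433408361) (nat_lit 0) (nat_lit 835958571) (nat_lit 756) (nat_lit 835958571) (nat_lit 174) (nat_lit 1) (nat_lit 164) (nat_lit 1) (nat_lit 173) (nat_lit 1) (nat_lit 222) (nat_lit 270) (nat_lit 228)) (XT.lf (nat_lit 84) (nat_lit 1335992229) (nat_lit 0) (nat_lit 2385954021) (nat_lit 840) (nat_lit 1335992229) (nat_lit 165) (nat_lit 1) (nat_lit 164)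 (nat_lit 1) (nat_lit 174) (nat_lit 1) (nat_lit 223) (nat_lit 270) (nat_lit 227))) (XT.nd (nat_lit 94) (nat_lit 0) (nat_lit 0) (XT.lf (nat_lit 756) (nat_lit 1909707203) (nat_lit 0) (nat_lit 1550746561) (nat_lit 672) (nat_lit 1550746561) (nat_lit 165) (nat_lit 1) (nat_lit 156) (nat_lit 1) (nat_lit 164) (nat_lit 1) (nat_lit 224) (nat_lit 270) (nat_lit 226)) (XT.lf (nat_lit 84) (nat_lit 574968239) (nat_lit 0) (nat_lit 3815232526) (nat_lit 756) (nat_lit 574968239) (nat_lit 157) (nat_lit 1) (nat_lit 156) (nat_lit 1) (nat_lit 165) (nat_lit 1) (nat_lit 225) (nat_lit 270) (nat_lit 225)))) (XT.nd (nat_lit 188) (nat_lit 672) (nat_lit 0) (XT.nd (nat_lit 94) (nat_lit 756) (nat_lit 0) (XT.lf (nat_lit 756) (nat_lit 378946944) (nat_lit 0) (nat_lit 2270294030) (nat_lit 672) (nat_lit 2270294030) (nat_lit 157) (nat_lit 1) (nat_lit 148) (nat_lit 1) (nat_lit 156) (nat_lit 1) (nat_lit 226) (nat_lit 270) (nat_lit 224)) (XT.lf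 (nat_lit 756) (nat_lit 4499233732) (nat_lit 0) (nat_lit 187735624) (nat_lit 672) (nat_lit 187735624) (nat_lit 148) (nat_lit 1) (nat_lit 139) (nat_lit 1) (nat_lit 147) (nat_lit 1) (nat_lit 227) (nat_lit 270) (nat_lit 223))) (XT.nd (nat_lit 94) (nat_lit 672) (nat_lit 0) (XT.lf (nat_lit 84) (nat_lit 1844859362) (nat_lit 0) (nat_lit 1140358074) (nat_lit 756) (nat_lit 1844859362) (nat_lit 140) (nat_lit 1) (nat_lit 139) (nat_lit 1) (nat_lit 148) (nat_lit 1) (nat_lit 228) (nat_lit 270) (nat_lit 222)) (XT.lf (nat_lit 756) (nat_lit 2889387931) (nat_lit 0) (nat_lit 948421978) (nat_lit 672) (nat_lit 948421978) (nat_lit 140) (nat_lit 1) (nat_lit 131) (nat_lit 1) (nat_lit 139) (nat_lit 1) (nat_lit 229) (nat_lit 270) (nat_lit 221))))))))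
noncomputable def ec30 : XT := (XT.nd (nat_lit 43804) (nat_lit 0) (nat_lit 0) (XT.nd (nat_lit 1316) (nat_lit 588) (nat_lit 0) (XT.nd (nat_lit 658) (nat_lit 2184) (nat_lit 0) (XT.nd (nat_lit 282) (nat_lit 1848) (nat_lit 0) (XT.nd (nat_lit 94) (nat_lit 588) (nat_lit 0) (XT.lf (nat_lit 84) (nat_lit 1042625400) (nat_lit 0) (nat_lit 2657627199) (nat_lit 756) (nat_lit 1042625400) (nat_lit 132) (nat_lit 1) (nat_lit 131) (nat_lit 1) (nat_lit 140) (nat_lit 1) (nat_lit 230) (nat_lit 270) (nat_lit 220)) (XT.nd (nat_lit 94) (nat_lit 0) (nat_lit 0) (XT.lf (nat_lit 672) (nat_lit 1279216308) (nat_lit 0) (nat_lit 1710413794) (nat_lit 588) (nat_lit 1710413794) (nat_lit 132) (nat_lit 1) (nat_lit 124) (nat_lit 1) (nat_lit 131) (nat_lit 1) (nat_lit 231) (nat_lit 270) (nat_lit 219)) (XT.lf (nat_lit 84) (nat_lit 240610112) (nat_lit 0) (nat_lit 4176711165) (nat_lit 672) (nat_lit 240610112) (nat_lit 125) (nat_lit 1) (nat_lit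 124) (nat_lit 1) (nat_lit 132) (nat_lit 1) (nat_lit 232) (nat_lit 270) (nat_lit 218)))) (XT.nd (nat_lit 188) (nat_lit 588) (nat_lit 0) (XT.nd (nat_lit 94) (nat_lit 588) (nat_lit 0) (XT.lf (nat_lit 84) (nat_lit 2145494765) (nat_lit 0) (nat_lit 325034396) (nat_lit 672) (nat_lit 2145494765) (nat_lit 117) (nat_lit 1) (nat_lit 116) (nat_lit 1) (nat_lit 124) (nat_lit 1) (nat_lit 233) (nat_lit 270) (nat_lit 217)) (XT.lf (nat_lit 672) (nat_lit 3461991155) (nat_lit 0) (nat_lit 556414368) (nat_lit 588) (nat_lit 556414368) (nat_lit 117) (nat_lit 1) (nat_lit 109) (nat_lit 1) (nat_lit 116) (nat_lit 1) (nat_lit 234) (nat_lit 270) (nat_lit 216))) (XT.nd (nat_lit 94) (nat_lit 588) (nat_lit 0) (XT.lf (nat_lit 84) (nat_lit 1312817516) (nat_lit 0) (nat_lit 1908325264) (nat_lit 672) (nat_lit 1312817516) (nat_lit 110) (nat_lit 1) (nat_lit 109) (nat_lit 1) (nat_lit 117) (nat_lit 1) (nat_lit 235) (nat_lit 270) (nat_lit 215))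 (XT.lf (nat_lit 672) (nat_lit 1793490562) (nat_lit 0) (nat_lit 1350096403) (nat_lit 588) (nat_lit 1350096403) (nat_lit 110) (nat_lit 1) (nat_lit 102) (nat_lit 1) (nat_lit 109) (nat_lit 1) (nat_lit 236) (nat_lit 270) (nat_lit 214))))) (XT.nd (nat_lit 282) (nat_lit 1008) (nat_lit 0) (XT.nd (nat_lit 94) (nat_lit 1176) (nat_lit 0) (XT.lf (nat_lit 84) (nat_lit 483101332) (nat_lit 0) (nat_lit 3487789734) (nat_lit 672) (nat_lit 483101332) (nat_lit 103) (nat_lit 1) (nat_lit 102) (nat_lit 1) (nat_lit 110) (nat_lit 1) (nat_lit 237) (nat_lit 270) (nat_lit 213)) (XT.nd (nat_lit 94) (nat_lit 672) (nat_lit 0) (XT.lf (nat_lit 588) (nat_lit 131515898) (nat_lit 0) (nat_lit 2141548655) (nat_lit 504) (nat_lit 2141548655) (nat_lit 103) (nat_lit 1) (nat_lit 96) (nat_lit 1) (nat_lit 102) (nat_lit 1) (nat_lit 238) (nat_lit 270) (nat_lit 212)) (XT.lf (nat_lit 672) (nat_lit 3694643877) (nat_lit 0) (nat_lit 340600685) (nat_lit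 588) (nat_lit 340600685) (nat_lit 96) (nat_lit 1) (nat_lit 88) (nat_lit 1) (nat_lit 95) (nat_lit 1) (nat_lit 239) (nat_lit 270) (nat_lit 211)))) (XT.nd (nat_lit 188) (nat_lit 504) (nat_lit 0) (XT.nd (nat_lit 94) (nat_lit 504) (nat_lit 0) (XT.lf (nat_lit 84) (nat_lit 1418212284) (nat_lit 0) (nat_lit 1500888096) (nat_lit 672) (nat_lit 1418212284) (nat_lit 89) (nat_lit 1) (nat_lit 88) (nat_lit 1) (nat_lit 96) (nat_lit 1) (nat_lit 240) (nat_lit 270) (nat_lit 210)) (XT.lf (nat_lit 588) (nat_lit 1985832231) (nat_lit 0) (nat_lit 1156771906) (nat_lit 504) (nat_lit 1156771906) (nat_lit 89) (nat_lit 1) (nat_lit 82) (nat_lit 1) (nat_lit 88) (nat_lit 1) (nat_lit 241) (nat_lit 270) (nat_lit 209))) (XT.nd (nat_lit 94) (nat_lit 504) (nat_lit 0) (XT.lf (nat_lit 84) (nat_lit 569546673) (nat_lit 0) (nat_lit 3122851514) (nat_lit 588) (nat_lit 569546673) (nat_lit 83) (nat_lit 1) (nat_lit 82) (nat_lit 1) (nat_lit 89) (nat_lit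 1) (nat_lit 242) (nat_lit 270) (nat_lit 208)) (XT.lf (nat_lit 588) (nat_lit 288011832) (nat_lit 0) (nat_lit 1968410878) (nat_lit 504) (nat_lit 1968410878) (nat_lit 83) (nat_lit 1) (nat_lit 76) (nat_lit 1) (nat_lit 82) (nat_lit 1) (nat_lit 243) (nat_lit 270) (nat_lit 207)))))) (XT.nd (nat_lit 41736) (nat_lit 0) (nat_lit 11088) (XT.nd (nat_lit 41360) (nat_lit 0) (nat_lit 14532) (XT.nd (nat_lit 94) (nat_lit 0) (nat_lit 0) (XT.lf (nat_lit 588) (nat_lit 3645410606) (nat_lit 0) (nat_lit 271446710) (nat_lit 504) (nat_lit 271446710) (nat_lit 76) (nat_lit 1) (nat_lit 69) (nat_lit 1) (nat_lit 75) (nat_lit 1) (nat_lit 244) (nat_lit 270) (nat_lit 206)) (XT.nd (nat_lit 41172) (nat_lit 0) (nat_lit 16380) (XT.lf (nat_lit 84) (nat_lit 1387062493) (nat_lit 0) (nat_lit 1377820389) (nat_lit 588) (nat_lit 1387062493) (nat_lit 70) (nat_lit 1) (nat_lit 69) (nat_lit 1) (nat_lit 76) (nat_lit 1) (nat_lit 245) (nat_lit 270) (nat_lit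 205)) (XT.lf (nat_lit 1176) (nat_lit 4549021062) (nat_lit 0) (nat_lit 828389163) (nat_lit 1092) (nat_lit 828389163) (nat_lit 278) (nat_lit 1) (nat_lit 264) (nat_lit 1) (nat_lit 277) (nat_lit 1) (nat_lit 202) (nat_lit 271) (nat_lit 247)))) (XT.nd (nat_lit 188) (nat_lit 924) (nat_lit 0) (XT.nd (nat_lit 94) (nat_lit 924) (nat_lit 0) (XT.lf (nat_lit 84) (nat_lit 1983692062) (nat_lit 0) (nat_lit 2176941785) (nat_lit 1176) (nat_lit 1983692062) (nat_lit 265) (nat_lit 1) (nat_lit 264) (nat_lit 1) (nat_lit 278) (nat_lit 1) (nat_lit 203) (nat_lit 271) (nat_lit 246)) (XT.lf (nat_lit 1008) (nat_lit 3382534267) (nat_lit 0) (nat_lit 1350651392) (nat_lit 924) (nat_lit 1350651392) (nat_lit 265) (nat_lit 1) (nat_lit 253) (nat_lit 1) (nat_lit 264) (nat_lit 1) (nat_lit 204) (nat_lit 271) (nat_lit 245))) (XT.nd (nat_lit 94) (nat_lit 924) (nat_lit 0) (XT.lf (nat_lit 84) (nat_lit 1392824730) (nat_lit 0) (nat_lit 3238470759)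 (nat_lit 1008) (nat_lit 1392824730) (nat_lit 254) (nat_lit 1) (nat_lit 253) (nat_lit 1) (nat_lit 265) (nat_lit 1) (nat_lit 205) (nat_lit 271) (nat_lit 244)) (XT.lf (nat_lit 1008) (nat_lit 2178207942) (nat_lit 0) (nat_lit 1893488549) (nat_lit 924) (nat_lit 1893488549) (nat_lit 254) (nat_lit 1) (nat_lit 242) (nat_lit 1) (nat_lit 253) (nat_lit 1) (nat_lit 206) (nat_lit 271) (nat_lit 243))))) (XT.nd (nat_lit 376) (nat_lit 1680) (nat_lit 0) (XT.nd (nat_lit 188) (nat_lit 924) (nat_lit 0) (XT.nd (nat_lit 94) (nat_lit 840) (nat_lit 0) (XT.lf (nat_lit 84) (nat_lit 783992613) (nat_lit 0) (nat_lit 4339191951) (nat_lit 1008) (nat_lit 783992613) (nat_lit 243) (nat_lit 1) (nat_lit 242) (nat_lit 1) (nat_lit 254) (nat_lit 1) (nat_lit 207) (nat_lit 271) (nat_lit 242)) (XT.lf (nat_lit 924) (nat_lit 939537636) (nat_lit 0) (nat_lit 2455102646) (nat_lit 840) (nat_lit 2455102646) (nat_lit 243) (nat_lit 1) (nat_lit 232) (nat_lit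 1) (nat_lit 242) (nat_lit 1) (nat_lit 208) (nat_lit 271) (nat_lit 241))) (XT.nd (nat_lit 94) (nat_lit 924) (nat_lit 0) (XT.lf (nat_lit 84) (nat_lit 158889244) (nat_lit 0) (nat_lit 5475619308) (nat_lit 924) (nat_lit 158889244) (nat_lit 233) (nat_lit 1) (nat_lit 232) (nat_lit 1) (nat_lit 243) (nat_lit 1) (nat_lit 209) (nat_lit 271) (nat_lit 240)) (XT.lf (nat_lit 84) (nat_lit 2705973459) (nat_lit 0) (nat_lit 325415026) (nat_lit 924) (nat_lit 2705973459) (nat_lit 222) (nat_lit 1) (nat_lit 221) (nat_lit 1) (nat_lit 232) (nat_lit 1) (nat_lit 210) (nat_lit 271) (nat_lit 239)))) (XT.nd (nat_lit 188) (nat_lit 840) (nat_lit 0) (XT.nd (nat_lit 94) (nat_lit 0) (nat_lit 0) (XT.lf (nat_lit 924) (nat_lit 4727567009) (nat_lit 0) (nat_lit 477408445) (nat_lit 840) (nat_lit 477408445) (nat_lit 222) (nat_lit 1) (nat_lit 211) (nat_lit 1) (nat_lit 221) (nat_lit 1) (nat_lit 211) (nat_lit 271) (nat_lit 238)) (XT.lf (nat_lit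 84) (nat_lit 2011751455) (nat_lit 0) (nat_lit 1604345563) (nat_lit 924) (nat_lit 2011751455) (nat_lit 212) (nat_lit 1) (nat_lit 211) (nat_lit 1) (nat_lit 222) (nat_lit 1) (nat_lit 212) (nat_lit 271) (nat_lit 237))) (XT.nd (nat_lit 94) (nat_lit 0) (nat_lit 0) (XT.lf (nat_lit 924) (nat_lit 3322999652) (nat_lit 0) (nat_lit 1125618873) (nat_lit 840) (nat_lit 1125618873) (nat_lit 212) (nat_lit 1) (nat_lit 201) (nat_lit 1) (nat_lit 211) (nat_lit 1) (nat_lit 213) (nat_lit 271) (nat_lit 236)) (XT.lf (nat_lit 84) (nat_lit 1306692229) (nat_lit 0) (nat_lit 2907875167) (nat_lit 924) (nat_lit 1306692229) (nat_lit 202) (nat_lit 1) (nat_lit 201) (nat_lit 1) (nat_lit 212) (nat_lit 1) (nat_lit 214) (nat_lit 271) (nat_lit 235))))))) (XT.nd (nat_lit 1316) (nat_lit 5208) (nat_lit 0) (XT.nd (nat_lit 658) (nat_lit 2772) (nat_lit 0) (XT.nd (nat_lit 282) (nat_lit 1596) (nat_lit 0) (XT.nd (nat_lit 94) (nat_lit 756) (nat_lit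 0) (XT.lf (nat_lit 840) (nat_lit 1898028559) (nat_lit 0) (nat_lit 1785470657) (nat_lit 756) (nat_lit 1785470657) (nat_lit 202) (nat_lit 1) (nat_lit 192) (nat_lit 1) (nat_lit 201) (nat_lit 1) (nat_lit 215) (nat_lit 271) (nat_lit 234)) (XT.nd (nat_lit 94) (nat_lit 756) (nat_lit 0) (XT.lf (nat_lit 84) (nat_lit 592127081) (nat_lit 0) (nat_lit 4233254126) (nat_lit 840) (nat_lit 592127081) (nat_lit 193) (nat_lit 1) (nat_lit 192) (nat_lit 1) (nat_lit 202) (nat_lit 1) (nat_lit 216) (nat_lit 271) (nat_lit 233)) (XT.lf (nat_lit 840) (nat_lit 455249636) (nat_lit 0) (nat_lit 2455623123) (nat_lit 756) (nat_lit 2455623123) (nat_lit 193) (nat_lit 1) (nat_lit 183) (nat_lit 1) (nat_lit 192) (nat_lit 1) (nat_lit 217) (nat_lit 271) (nat_lit 232)))) (XT.nd (nat_lit 188) (nat_lit 756) (nat_lit 0) (XT.nd (nat_lit 94) (nat_lit 0) (nat_lit 0) (XT.lf (nat_lit 840) (nat_lit 5056940854) (nat_lit 0) (nat_lit 129743586) (nat_lit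 756) (nat_lit 129743586) (nat_lit 183) (nat_lit 1) (nat_lit 173) (nat_lit 1) (nat_lit 182) (nat_lit 1) (nat_lit 218) (nat_lit 271) (nat_lit 231)) (XT.lf (nat_lit 84) (nat_lit 2139065759) (nat_lit 0) (nat_lit 988444145) (nat_lit 840) (nat_lit 2139065759) (nat_lit 174) (nat_lit 1) (nat_lit 173) (nat_lit 1) (nat_lit 183) (nat_lit 1) (nat_lit 219) (nat_lit 271) (nat_lit 230))) (XT.nd (nat_lit 94) (nat_lit 0) (nat_lit 0) (XT.lf (nat_lit 840) (nat_lit 3508943345) (nat_lit 0) (nat_lit 854349659) (nat_lit 756) (nat_lit 854349659) (nat_lit 174) (nat_lit 1) (nat_lit 164) (nat_lit 1) (nat_lit 173) (nat_lit 1) (nat_lit 220) (nat_lit 271) (nat_lit 229)) (XT.lf (nat_lit 84) (nat_lit 1365384058) (nat_lit 0) (nat_lit 2438445010) (nat_lit 840) (nat_lit 1365384058) (nat_lit 165) (nat_lit 1) (nat_lit 164) (nat_lit 1) (nat_lit 174) (nat_lit 1) (nat_lit 221) (nat_lit 271) (nat_lit 228))))) (XT.nd (nat_lit 282) (nat_lit 1428)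 (nat_lit 0) (XT.nd (nat_lit 94) (nat_lit 672) (nat_lit 0) (XT.lf (nat_lit 756) (nat_lit 1951720761) (nat_lit 0) (nat_lit 1584862986) (nat_lit 672) (nat_lit 1584862986) (nat_lit 165) (nat_lit 1) (nat_lit 156) (nat_lit 1) (nat_lit 164) (nat_lit 1) (nat_lit 222) (nat_lit 271) (nat_lit 227)) (XT.nd (nat_lit 94) (nat_lit 672) (nat_lit 0) (XT.lf (nat_lit 84) (nat_lit 587617541) (nat_lit 0) (nat_lit 3899167641) (nat_lit 756) (nat_lit 587617541) (nat_lit 157) (nat_lit 1) (nat_lit 156) (nat_lit 1) (nat_lit 165) (nat_lit 1) (nat_lit 223) (nat_lit 271) (nat_lit 226)) (XT.lf (nat_lit 756) (nat_lit 387283777) (nat_lit 0) (nat_lit 2320240499) (nat_lit 672) (nat_lit 2320240499) (nat_lit 157) (nat_lit 1) (nat_lit 148) (nat_lit 1) (nat_lit 156) (nat_lit 1) (nat_lit 224) (nat_lit 271) (nat_lit 225)))) (XT.nd (nat_lit 188) (nat_lit 672) (nat_lit 0) (XT.nd (nat_lit 94) (nat_lit 0) (nat_lit 0) (XT.lf (nat_lit 756) (nat_lit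 4598216874) (nat_lit 0) (nat_lit 191865808) (nat_lit 672) (nat_lit 191865808) (nat_lit 148) (nat_lit 1) (nat_lit 139) (nat_lit 1) (nat_lit 147) (nat_lit 1) (nat_lit 225) (nat_lit 271) (nat_lit 224)) (XT.lf (nat_lit 84) (nat_lit 1885446268) (nat_lit 0) (nat_lit 1165445951) (nat_lit 756) (nat_lit 1885446268) (nat_lit 140) (nat_lit 1) (nat_lit 139) (nat_lit 1) (nat_lit 148) (nat_lit 1) (nat_lit 226) (nat_lit 271) (nat_lit 223))) (XT.nd (nat_lit 94) (nat_lit 0) (nat_lit 0) (XT.lf (nat_lit 756) (nat_lit 2952954465) (nat_lit 0) (nat_lit 969287261) (nat_lit 672) (nat_lit 969287261) (nat_lit 140) (nat_lit 1) (nat_lit 131) (nat_lit 1) (nat_lit 139) (nat_lit 1) (nat_lit 227) (nat_lit 271) (nat_lit 222)) (XT.lf (nat_lit 84) (nat_lit 1065563159) (nat_lit 0) (nat_lit 2716094997) (nat_lit 756) (nat_lit 1065563159) (nat_lit 132) (nat_lit 1) (nat_lit 131) (nat_lit 1) (nat_lit 140) (nat_lit 1) (nat_lit 228) (nat_lit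 271) (nat_lit 221)))))) (XT.nd (nat_lit 658) (nat_lit 2772) (nat_lit 0) (XT.nd (nat_lit 282) (nat_lit 1176) (nat_lit 0) (XT.nd (nat_lit 94) (nat_lit 672) (nat_lit 0) (XT.lf (nat_lit 672) (nat_lit 1307359067) (nat_lit 0) (nat_lit 1748042897) (nat_lit 588) (nat_lit 1748042897) (nat_lit 132) (nat_lit 1) (nat_lit 124) (nat_lit 1) (nat_lit 131) (nat_lit 1) (nat_lit 229) (nat_lit 271) (nat_lit 220)) (XT.nd (nat_lit 94) (nat_lit 672) (nat_lit 0) (XT.lf (nat_lit 84) (nat_lit 245903534) (nat_lit 0) (nat_lit 4268598811) (nat_lit 672) (nat_lit 245903534) (nat_lit 125) (nat_lit 1) (nat_lit 124) (nat_lit 1) (nat_lit 132) (nat_lit 1) (nat_lit 230) (nat_lit 271) (nat_lit 219)) (XT.lf (nat_lit 84) (nat_lit 2192695650) (nat_lit 0) (nat_lit 332185153) (nat_lit 672) (nat_lit 2192695650) (nat_lit 117) (nat_lit 1) (nat_lit 116) (nat_lit 1) (nat_lit 124) (nat_lit 1) (nat_lit 231) (nat_lit 271) (nat_lit 218)))) (XT.nd (nat_lit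 188) (nat_lit 588) (nat_lit 0) (XT.nd (nat_lit 94) (nat_lit 0) (nat_lit 0) (XT.lf (nat_lit 672) (nat_lit 3538154961) (nat_lit 0) (nat_lit 568655484) (nat_lit 588) (nat_lit 568655484) (nat_lit 117) (nat_lit 1) (nat_lit 109) (nat_lit 1) (nat_lit 116) (nat_lit 1) (nat_lit 232) (nat_lit 271) (nat_lit 217)) (XT.lf (nat_lit 84) (nat_lit 1341699502) (nat_lit 0) (nat_lit 1950308419) (nat_lit 672) (nat_lit 1341699502) (nat_lit 110) (nat_lit 1) (nat_lit 109) (nat_lit 1) (nat_lit 117) (nat_lit 1) (nat_lit 233) (nat_lit 271) (nat_lit 216))) (XT.nd (nat_lit 94) (nat_lit 0) (nat_lit 0) (XT.lf (nat_lit 672) (nat_lit 1832947354) (nat_lit 0) (nat_lit 1379798524) (nat_lit 588) (nat_lit 1379798524) (nat_lit 110) (nat_lit 1) (nat_lit 102) (nat_lit 1) (nat_lit 109) (nat_lit 1) (nat_lit 234) (nat_lit 271) (nat_lit 215)) (XT.lf (nat_lit 84) (nat_lit 493729562) (nat_lit 0) (nat_lit 3564521108) (nat_lit 672) (nat_lit 493729562)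 (nat_lit 103) (nat_lit 1) (nat_lit 102) (nat_lit 1) (nat_lit 110) (nat_lit 1) (nat_lit 235) (nat_lit 271) (nat_lit 214))))) (XT.nd (nat_lit 376) (nat_lit 1092) (nat_lit 0) (XT.nd (nat_lit 188) (nat_lit 504) (nat_lit 0) (XT.nd (nat_lit 94) (nat_lit 672) (nat_lit 0) (XT.lf (nat_lit 588) (nat_lit 134409248) (nat_lit 0) (nat_lit 2188662725) (nat_lit 504) (nat_lit 2188662725) (nat_lit 103) (nat_lit 1) (nat_lit 96) (nat_lit 1) (nat_lit 102) (nat_lit 1) (nat_lit 236) (nat_lit 271) (nat_lit 213)) (XT.lf (nat_lit 672) (nat_lit 3775926043) (nat_lit 0) (nat_lit 348093900) (nat_lit 588) (nat_lit 348093900) (nat_lit 96) (nat_lit 1) (nat_lit 88) (nat_lit 1) (nat_lit 95) (nat_lit 1) (nat_lit 237) (nat_lit 271) (nat_lit 212))) (XT.nd (nat_lit 94) (nat_lit 504) (nat_lit 0) (XT.lf (nat_lit 84) (nat_lit 1449412954) (nat_lit 0) (nat_lit 1533907634) (nat_lit 672) (nat_lit 1449412954) (nat_lit 89) (nat_lit 1) (nat_lit 88)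 (nat_lit 1) (nat_lit 96) (nat_lit 1) (nat_lit 238) (nat_lit 271) (nat_lit 211)) (XT.lf (nat_lit 588) (nat_lit 2029520540) (nat_lit 0) (nat_lit 1182220888) (nat_lit 504) (nat_lit 1182220888) (nat_lit 89) (nat_lit 1) (nat_lit 82) (nat_lit 1) (nat_lit 88) (nat_lit 1) (nat_lit 239) (nat_lit 271) (nat_lit 210)))) (XT.nd (nat_lit 188) (nat_lit 588) (nat_lit 0) (XT.nd (nat_lit 94) (nat_lit 504) (nat_lit 0) (XT.lf (nat_lit 84) (nat_lit 582076700) (nat_lit 0) (nat_lit 3191554247) (nat_lit 588) (nat_lit 582076700) (nat_lit 83) (nat_lit 1) (nat_lit 82) (nat_lit 1) (nat_lit 89) (nat_lit 1) (nat_lit 240) (nat_lit 271) (nat_lit 209)) (XT.lf (nat_lit 588) (nat_lit 294348092) (nat_lit 0) (nat_lit 2011715917) (nat_lit 504) (nat_lit 2011715917) (nat_lit 83) (nat_lit 1) (nat_lit 76) (nat_lit 1) (nat_lit 82) (nat_lit 1) (nat_lit 241) (nat_lit 271) (nat_lit 208))) (XT.nd (nat_lit 41736) (nat_lit 0) (nat_lit 14532) (XT.lf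 (nat_lit 588) (nat_lit 3725609639) (nat_lit 0) (nat_lit 277418538) (nat_lit 504) (nat_lit 277418538) (nat_lit 76) (nat_lit 1) (nat_lit 69) (nat_lit 1) (nat_lit 75) (nat_lit 1) (nat_lit 242) (nat_lit 271) (nat_lit 207)) (XT.lf (nat_lit 84) (nat_lit 801240450) (nat_lit 0) (nat_lit 4434654174) (nat_lit 1008) (nat_lit 801240450) (nat_lit 243) (nat_lit 1) (nat_lit 242) (nat_lit 1) (nat_lit 254) (nat_lit 1) (nat_lit 205) (nat_lit 272) (nat_lit 243))))))))
noncomputable def ec31 : XT := (XT.nd (nat_lit 2726) (nat_lit 1680) (nat_lit 0) (XT.nd (nat_lit 1316) (nat_lit 5712) (nat_lit 0) (XT.nd (nat_lit 658) (nat_lit 3108) (nat_lit 0) (XT.nd (nat_lit 282) (nat_lit 1680) (nat_lit 0) (XT.nd (nat_lit 94) (nat_lit 924) (nat_lit 0) (XT.lf (nat_lit 924) (nat_lit 960207464) (nat_lit 0) (nat_lit 2509114904) (nat_lit 840) (nat_lit 2509114904) (nat_lit 243) (nat_lit 1) (nat_lit 232) (nat_lit 1) (nat_lit 242) (nat_lit 1) (nat_lit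 206) (nat_lit 272) (nat_lit 242)) (XT.nd (nat_lit 94) (nat_lit 924) (nat_lit 0) (XT.lf (nat_lit 84) (nat_lit 162384807) (nat_lit 0) (nat_lit 5596082933) (nat_lit 924) (nat_lit 162384807) (nat_lit 233) (nat_lit 1) (nat_lit 232) (nat_lit 1) (nat_lit 243) (nat_lit 1) (nat_lit 207) (nat_lit 272) (nat_lit 241)) (XT.lf (nat_lit 84) (nat_lit 2765504875) (nat_lit 0) (nat_lit 332574156) (nat_lit 924) (nat_lit 2765504875) (nat_lit 222) (nat_lit 1) (nat_lit 221) (nat_lit 1) (nat_lit 232) (nat_lit 1) (nat_lit 208) (nat_lit 272) (nat_lit 240)))) (XT.nd (nat_lit 188) (nat_lit 840) (nat_lit 0) (XT.nd (nat_lit 94) (nat_lit 0) (nat_lit 0) (XT.lf (nat_lit 924) (nat_lit 4831573483) (nat_lit 0) (nat_lit 487911431) (nat_lit 840) (nat_lit 487911431) (nat_lit 222) (nat_lit 1) (nat_lit 211) (nat_lit 1) (nat_lit 221) (nat_lit 1) (nat_lit 209) (nat_lit 272) (nat_lit 239)) (XT.lf (nat_lit 84) (nat_lit 2056009987) (nat_lit 0) (nat_lit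 1639641165) (nat_lit 924) (nat_lit 2056009987) (nat_lit 212) (nat_lit 1) (nat_lit 211) (nat_lit 1) (nat_lit 222) (nat_lit 1) (nat_lit 210) (nat_lit 272) (nat_lit 238))) (XT.nd (nat_lit 94) (nat_lit 0) (nat_lit 0) (XT.lf (nat_lit 924) (nat_lit 3396105645) (nat_lit 0) (nat_lit 1150382488) (nat_lit 840) (nat_lit 1150382488) (nat_lit 212) (nat_lit 1) (nat_lit 201) (nat_lit 1) (nat_lit 211) (nat_lit 1) (nat_lit 211) (nat_lit 272) (nat_lit 237)) (XT.lf (nat_lit 84) (nat_lit 1335439458) (nat_lit 0) (nat_lit 2971848421) (nat_lit 924) (nat_lit 1335439458) (nat_lit 202) (nat_lit 1) (nat_lit 201) (nat_lit 1) (nat_lit 212) (nat_lit 1) (nat_lit 212) (nat_lit 272) (nat_lit 236))))) (XT.nd (nat_lit 282) (nat_lit 1596) (nat_lit 0) (XT.nd (nat_lit 94) (nat_lit 756) (nat_lit 0) (XT.lf (nat_lit 840) (nat_lit 1939785187) (nat_lit 0) (nat_lit 1824751011) (nat_lit 756) (nat_lit 1824751011) (nat_lit 202) (nat_lit 1) (nat_lit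 192) (nat_lit 1) (nat_lit 201) (nat_lit 1) (nat_lit 213) (nat_lit 272) (nat_lit 235)) (XT.nd (nat_lit 94) (nat_lit 756) (nat_lit 0) (XT.lf (nat_lit 84) (nat_lit 605153876) (nat_lit 0) (nat_lit 4326385716) (nat_lit 840) (nat_lit 605153876) (nat_lit 193) (nat_lit 1) (nat_lit 192) (nat_lit 1) (nat_lit 202) (nat_lit 1) (nat_lit 214) (nat_lit 272) (nat_lit 234)) (XT.lf (nat_lit 840) (nat_lit 465265128) (nat_lit 0) (nat_lit 2509646831) (nat_lit 756) (nat_lit 2509646831) (nat_lit 193) (nat_lit 1) (nat_lit 183) (nat_lit 1) (nat_lit 192) (nat_lit 1) (nat_lit 215) (nat_lit 272) (nat_lit 233)))) (XT.nd (nat_lit 188) (nat_lit 756) (nat_lit 0) (XT.nd (nat_lit 94) (nat_lit 0) (nat_lit 0) (XT.lf (nat_lit 840) (nat_lit 5168193552) (nat_lit 0) (nat_lit 132597944) (nat_lit 756) (nat_lit 132597944) (nat_lit 183) (nat_lit 1) (nat_lit 173) (nat_lit 1) (nat_lit 182) (nat_lit 1) (nat_lit 216) (nat_lit 272) (nat_lit 232)) (XT.lf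 (nat_lit 84) (nat_lit 2186125206) (nat_lit 0) (nat_lit 1010189916) (nat_lit 840) (nat_lit 2186125206) (nat_lit 174) (nat_lit 1) (nat_lit 173) (nat_lit 1) (nat_lit 183) (nat_lit 1) (nat_lit 217) (nat_lit 272) (nat_lit 231))) (XT.nd (nat_lit 94) (nat_lit 0) (nat_lit 0) (XT.lf (nat_lit 840) (nat_lit 3586140099) (nat_lit 0) (nat_lit 873145352) (nat_lit 756) (nat_lit 873145352) (nat_lit 174) (nat_lit 1) (nat_lit 164) (nat_lit 1) (nat_lit 173) (nat_lit 1) (nat_lit 218) (nat_lit 272) (nat_lit 230)) (XT.lf (nat_lit 84) (nat_lit 1395422507) (nat_lit 0) (nat_lit 2492090800) (nat_lit 840) (nat_lit 1395422507) (nat_lit 165) (nat_lit 1) (nat_lit 164) (nat_lit 1) (nat_lit 174) (nat_lit 1) (nat_lit 219) (nat_lit 272) (nat_lit 229)))))) (XT.nd (nat_lit 658) (nat_lit 2940) (nat_lit 0) (XT.nd (nat_lit 282) (nat_lit 1428) (nat_lit 0) (XT.nd (nat_lit 94) (nat_lit 672) (nat_lit 0) (XT.lf (nat_lit 756) (nat_lit 1994658618)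 (nat_lit 0) (nat_lit 1619729971) (nat_lit 672) (nat_lit 1619729971) (nat_lit 165) (nat_lit 1) (nat_lit 156) (nat_lit 1) (nat_lit 164) (nat_lit 1) (nat_lit 220) (nat_lit 272) (nat_lit 228)) (XT.nd (nat_lit 94) (nat_lit 672) (nat_lit 0) (XT.lf (nat_lit 84) (nat_lit 600545127) (nat_lit 0) (nat_lit 3984949329) (nat_lit 756) (nat_lit 600545127) (nat_lit 157) (nat_lit 1) (nat_lit 156) (nat_lit 1) (nat_lit 165) (nat_lit 1) (nat_lit 221) (nat_lit 272) (nat_lit 227)) (XT.lf (nat_lit 756) (nat_lit 395804020) (nat_lit 0) (nat_lit 2371285790) (nat_lit 672) (nat_lit 2371285790) (nat_lit 157) (nat_lit 1) (nat_lit 148) (nat_lit 1) (nat_lit 156) (nat_lit 1) (nat_lit 222) (nat_lit 272) (nat_lit 226)))) (XT.nd (nat_lit 188) (nat_lit 672) (nat_lit 0) (XT.nd (nat_lit 94) (nat_lit 0) (nat_lit 0) (XT.lf (nat_lit 756) (nat_lit 4699377645) (nat_lit 0) (nat_lit 196086856) (nat_lit 672) (nat_lit 196086856) (nat_lit 148) (nat_lit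 1) (nat_lit 139) (nat_lit 1) (nat_lit 147) (nat_lit 1) (nat_lit 223) (nat_lit 272) (nat_lit 225)) (XT.lf (nat_lit 84) (nat_lit 1926926086) (nat_lit 0) (nat_lit 1191085762) (nat_lit 756) (nat_lit 1926926086) (nat_lit 140) (nat_lit 1) (nat_lit 139) (nat_lit 1) (nat_lit 148) (nat_lit 1) (nat_lit 224) (nat_lit 272) (nat_lit 224))) (XT.nd (nat_lit 94) (nat_lit 0) (nat_lit 0) (XT.lf (nat_lit 756) (nat_lit 3017919463) (nat_lit 0) (nat_lit 990611581) (nat_lit 672) (nat_lit 990611581) (nat_lit 140) (nat_lit 1) (nat_lit 131) (nat_lit 1) (nat_lit 139) (nat_lit 1) (nat_lit 225) (nat_lit 272) (nat_lit 223)) (XT.lf (nat_lit 84) (nat_lit 1089005548) (nat_lit 0) (nat_lit 2775849087) (nat_lit 756) (nat_lit 1089005548) (nat_lit 132) (nat_lit 1) (nat_lit 131) (nat_lit 1) (nat_lit 140) (nat_lit 1) (nat_lit 226) (nat_lit 272) (nat_lit 222))))) (XT.nd (nat_lit 376) (nat_lit 1092) (nat_lit 0) (XT.nd (nat_lit 188) (nat_lit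 1260) (nat_lit 0) (XT.nd (nat_lit 94) (nat_lit 0) (nat_lit 0) (XT.lf (nat_lit 672) (nat_lit 1336120966) (nat_lit 0) (nat_lit 1786499841) (nat_lit 588) (nat_lit 1786499841) (nat_lit 132) (nat_lit 1) (nat_lit 124) (nat_lit 1) (nat_lit 131) (nat_lit 1) (nat_lit 227) (nat_lit 272) (nat_lit 221)) (XT.lf (nat_lit 84) (nat_lit 251313412) (nat_lit 0) (nat_lit 4362507985) (nat_lit 672) (nat_lit 251313412) (nat_lit 125) (nat_lit 1) (nat_lit 124) (nat_lit 1) (nat_lit 132) (nat_lit 1) (nat_lit 228) (nat_lit 272) (nat_lit 220))) (XT.nd (nat_lit 94) (nat_lit 588) (nat_lit 0) (XT.lf (nat_lit 84) (nat_lit 2240934954) (nat_lit 0) (nat_lit 339493226) (nat_lit 672) (nat_lit 2240934954) (nat_lit 117) (nat_lit 1) (nat_lit 116) (nat_lit 1) (nat_lit 124) (nat_lit 1) (nat_lit 229) (nat_lit 272) (nat_lit 219)) (XT.lf (nat_lit 672) (nat_lit 3615994370) (nat_lit 0) (nat_lit 581165904) (nat_lit 588) (nat_lit 581165904) (nat_lit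 117) (nat_lit 1) (nat_lit 109) (nat_lit 1) (nat_lit 116) (nat_lit 1) (nat_lit 230) (nat_lit 272) (nat_lit 218)))) (XT.nd (nat_lit 188) (nat_lit 504) (nat_lit 0) (XT.nd (nat_lit 94) (nat_lit 588) (nat_lit 0) (XT.lf (nat_lit 84) (nat_lit 1371216891) (nat_lit 0) (nat_lit 1993215205) (nat_lit 672) (nat_lit 1371216891) (nat_lit 110) (nat_lit 1) (nat_lit 109) (nat_lit 1) (nat_lit 117) (nat_lit 1) (nat_lit 231) (nat_lit 272) (nat_lit 217)) (XT.lf (nat_lit 672) (nat_lit 1873272196) (nat_lit 0) (nat_lit 1410154092) (nat_lit 588) (nat_lit 1410154092) (nat_lit 110) (nat_lit 1) (nat_lit 102) (nat_lit 1) (nat_lit 109) (nat_lit 1) (nat_lit 232) (nat_lit 272) (nat_lit 216))) (XT.nd (nat_lit 94) (nat_lit 504) (nat_lit 0) (XT.lf (nat_lit 84) (nat_lit 504591612) (nat_lit 0) (nat_lit 3642940572) (nat_lit 672) (nat_lit 504591612) (nat_lit 103) (nat_lit 1) (nat_lit 102) (nat_lit 1) (nat_lit 110) (nat_lit 1) (nat_lit 233)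 (nat_lit 272) (nat_lit 215)) (XT.lf (nat_lit 588) (nat_lit 137366251) (nat_lit 0) (nat_lit 2236813305) (nat_lit 504) (nat_lit 2236813305) (nat_lit 103) (nat_lit 1) (nat_lit 96) (nat_lit 1) (nat_lit 102) (nat_lit 1) (nat_lit 234) (nat_lit 272) (nat_lit 214))))))) (XT.nd (nat_lit 43710) (nat_lit 0) (nat_lit 1008) (XT.nd (nat_lit 42958) (nat_lit 0) (nat_lit 6720) (XT.nd (nat_lit 282) (nat_lit 504) (nat_lit 0) (XT.nd (nat_lit 94) (nat_lit 504) (nat_lit 0) (XT.lf (nat_lit 672) (nat_lit 3858996416) (nat_lit 0) (nat_lit 355751966) (nat_lit 588) (nat_lit 355751966) (nat_lit 96) (nat_lit 1) (nat_lit 88) (nat_lit 1) (nat_lit 95) (nat_lit 1) (nat_lit 235) (nat_lit 272) (nat_lit 213)) (XT.nd (nat_lit 94) (nat_lit 504) (nat_lit 0) (XT.lf (nat_lit 84) (nat_lit 1481300039) (nat_lit 0) (nat_lit 1567653602) (nat_lit 672) (nat_lit 1481300039) (nat_lit 89) (nat_lit 1) (nat_lit 88) (nat_lit 1) (nat_lit 96) (nat_lit 1) (nat_lit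 236) (nat_lit 272) (nat_lit 212)) (XT.lf (nat_lit 588) (nat_lit 2074169992) (nat_lit 0) (nat_lit 1208229748) (nat_lit 504) (nat_lit 1208229748) (nat_lit 89) (nat_lit 1) (nat_lit 82) (nat_lit 1) (nat_lit 88) (nat_lit 1) (nat_lit 237) (nat_lit 272) (nat_lit 211)))) (XT.nd (nat_lit 42488) (nat_lit 0) (nat_lit 10500) (XT.nd (nat_lit 94) (nat_lit 504) (nat_lit 0) (XT.lf (nat_lit 84) (nat_lit 594882387) (nat_lit 0) (nat_lit 3261768441) (nat_lit 588) (nat_lit 594882387) (nat_lit 83) (nat_lit 1) (nat_lit 82) (nat_lit 1) (nat_lit 89) (nat_lit 1) (nat_lit 238) (nat_lit 272) (nat_lit 210)) (XT.lf (nat_lit 588) (nat_lit 300823750) (nat_lit 0) (nat_lit 2055973667) (nat_lit 504) (nat_lit 2055973667) (nat_lit 83) (nat_lit 1) (nat_lit 76) (nat_lit 1) (nat_lit 82) (nat_lit 1) (nat_lit 239) (nat_lit 272) (nat_lit 209))) (XT.nd (nat_lit 94) (nat_lit 0) (nat_lit 0) (XT.lf (nat_lit 924) (nat_lit 3470819969) (nat_lit 0) (nat_lit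 1175690903) (nat_lit 840) (nat_lit 1175690903) (nat_lit 212) (nat_lit 1) (nat_lit 201) (nat_lit 1) (nat_lit 211) (nat_lit 1) (nat_lit 209) (nat_lit 273) (nat_lit 238)) (XT.lf (nat_lit 84) (nat_lit 1364819126) (nat_lit 0) (nat_lit 3037229086) (nat_lit 924) (nat_lit 1364819126) (nat_lit 202) (nat_lit 1) (nat_lit 201) (nat_lit 1) (nat_lit 212) (nat_lit 1) (nat_lit 210) (nat_lit 273) (nat_lit 237))))) (XT.nd (nat_lit 376) (nat_lit 1428) (nat_lit 0) (XT.nd (nat_lit 188) (nat_lit 1596) (nat_lit 0) (XT.nd (nat_lit 94) (nat_lit 0) (nat_lit 0) (XT.lf (nat_lit 840) (nat_lit 1982460461) (nat_lit 0) (nat_lit 1864895533) (nat_lit 756) (nat_lit 1864895533) (nat_lit 202) (nat_lit 1) (nat_lit 192) (nat_lit 1) (nat_lit 201) (nat_lit 1) (nat_lit 211) (nat_lit 273) (nat_lit 236)) (XT.lf (nat_lit 84) (nat_lit 618467262) (nat_lit 0) (nat_lit 4421566202) (nat_lit 840) (nat_lit 618467262) (nat_lit 193) (nat_lit 1) (nat_lit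 192) (nat_lit 1) (nat_lit 202) (nat_lit 1) (nat_lit 212) (nat_lit 273) (nat_lit 235))) (XT.nd (nat_lit 94) (nat_lit 840) (nat_lit 0) (XT.lf (nat_lit 840) (nat_lit 475500961) (nat_lit 0) (nat_lit 2564859062) (nat_lit 756) (nat_lit 2564859062) (nat_lit 193) (nat_lit 1) (nat_lit 183) (nat_lit 1) (nat_lit 192) (nat_lit 1) (nat_lit 213) (nat_lit 273) (nat_lit 234)) (XT.lf (nat_lit 840) (nat_lit 5281893811) (nat_lit 0) (nat_lit 135515099) (nat_lit 756) (nat_lit 135515099) (nat_lit 183) (nat_lit 1) (nat_lit 173) (nat_lit 1) (nat_lit 182) (nat_lit 1) (nat_lit 214) (nat_lit 273) (nat_lit 233)))) (XT.nd (nat_lit 188) (nat_lit 672) (nat_lit 0) (XT.nd (nat_lit 94) (nat_lit 756) (nat_lit 0) (XT.lf (nat_lit 84) (nat_lit 2234219960) (nat_lit 0) (nat_lit 1032414094) (nat_lit 840) (nat_lit 2234219960) (nat_lit 174) (nat_lit 1) (nat_lit 173) (nat_lit 1) (nat_lit 183) (nat_lit 1) (nat_lit 215) (nat_lit 273) (nat_lit 232))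 (XT.lf (nat_lit 840) (nat_lit 3665035181) (nat_lit 0) (nat_lit 892354550) (nat_lit 756) (nat_lit 892354550) (nat_lit 174) (nat_lit 1) (nat_lit 164) (nat_lit 1) (nat_lit 173) (nat_lit 1) (nat_lit 216) (nat_lit 273) (nat_lit 231))) (XT.nd (nat_lit 94) (nat_lit 672) (nat_lit 0) (XT.lf (nat_lit 84) (nat_lit 1426121803) (nat_lit 0) (nat_lit 2546916798) (nat_lit 840) (nat_lit 1426121803) (nat_lit 165) (nat_lit 1) (nat_lit 164) (nat_lit 1) (nat_lit 174) (nat_lit 1) (nat_lit 217) (nat_lit 273) (nat_lit 230)) (XT.lf (nat_lit 756) (nat_lit 2038541108) (nat_lit 0) (nat_lit 1655364031) (nat_lit 672) (nat_lit 1655364031) (nat_lit 165) (nat_lit 1) (nat_lit 156) (nat_lit 1) (nat_lit 164) (nat_lit 1) (nat_lit 218) (nat_lit 273) (nat_lit 229)))))) (XT.nd (nat_lit 658) (nat_lit 3024) (nat_lit 0) (XT.nd (nat_lit 282) (nat_lit 1260) (nat_lit 0) (XT.nd (nat_lit 94) (nat_lit 1428) (nat_lit 0) (XT.lf (nat_lit 84) (nat_lit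 613757119) (nat_lit 0) (nat_lit 4072618215) (nat_lit 756) (nat_lit 613757119) (nat_lit 157) (nat_lit 1) (nat_lit 156) (nat_lit 1) (nat_lit 165) (nat_lit 1) (nat_lit 219) (nat_lit 273) (nat_lit 228)) (XT.nd (nat_lit 94) (nat_lit 756) (nat_lit 0) (XT.lf (nat_lit 756) (nat_lit 404511709) (nat_lit 0) (nat_lit 2423454077) (nat_lit 672) (nat_lit 2423454077) (nat_lit 157) (nat_lit 1) (nat_lit 148) (nat_lit 1) (nat_lit 156) (nat_lit 1) (nat_lit 220) (nat_lit 273) (nat_lit 227)) (XT.lf (nat_lit 756) (nat_lit 4802763953) (nat_lit 0) (nat_lit 200400766) (nat_lit 672) (nat_lit 200400766) (nat_lit 148) (nat_lit 1) (nat_lit 139) (nat_lit 1) (nat_lit 147) (nat_lit 1) (nat_lit 221) (nat_lit 273) (nat_lit 226)))) (XT.nd (nat_lit 188) (nat_lit 588) (nat_lit 0) (XT.nd (nat_lit 94) (nat_lit 672) (nat_lit 0) (XT.lf (nat_lit 84) (nat_lit 1969318460) (nat_lit 0) (nat_lit 1217289649) (nat_lit 756) (nat_lit 1969318460) (nat_lit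 140) (nat_lit 1) (nat_lit 139) (nat_lit 1) (nat_lit 148) (nat_lit 1) (nat_lit 222) (nat_lit 273) (nat_lit 225)) (XT.lf (nat_lit 756) (nat_lit 3084313691) (nat_lit 0) (nat_lit 1012405036) (nat_lit 672) (nat_lit 1012405036) (nat_lit 140) (nat_lit 1) (nat_lit 131) (nat_lit 1) (nat_lit 139) (nat_lit 1) (nat_lit 223) (nat_lit 273) (nat_lit 224))) (XT.nd (nat_lit 94) (nat_lit 588) (nat_lit 0) (XT.lf (nat_lit 84) (nat_lit 1112963670) (nat_lit 0) (nat_lit 2836917767) (nat_lit 756) (nat_lit 1112963670) (nat_lit 132) (nat_lit 1) (nat_lit 131) (nat_lit 1) (nat_lit 140) (nat_lit 1) (nat_lit 224) (nat_lit 273) (nat_lit 223)) (XT.lf (nat_lit 672) (nat_lit 1365515628) (nat_lit 0) (nat_lit 1825802837) (nat_lit 588) (nat_lit 1825802837) (nat_lit 132) (nat_lit 1) (nat_lit 124) (nat_lit 1) (nat_lit 131) (nat_lit 1) (nat_lit 225) (nat_lit 273) (nat_lit 222))))) (XT.nd (nat_lit 376) (nat_lit 1764) (nat_lit 0) (XT.nd (nat_lit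 188) (nat_lit 588) (nat_lit 0) (XT.nd (nat_lit 94) (nat_lit 672) (nat_lit 0) (XT.lf (nat_lit 84) (nat_lit 256842307) (nat_lit 0) (nat_lit 4458483160) (nat_lit 672) (nat_lit 256842307) (nat_lit 125) (nat_lit 1) (nat_lit 124) (nat_lit 1) (nat_lit 132) (nat_lit 1) (nat_lit 226) (nat_lit 273) (nat_lit 221)) (XT.lf (nat_lit 84) (nat_lit 2290235523) (nat_lit 0) (nat_lit 346962077) (nat_lit 672) (nat_lit 2290235523) (nat_lit 117) (nat_lit 1) (nat_lit 116) (nat_lit 1) (nat_lit 124) (nat_lit 1) (nat_lit 227) (nat_lit 273) (nat_lit 220))) (XT.nd (nat_lit 94) (nat_lit 0) (nat_lit 0) (XT.lf (nat_lit 672) (nat_lit 3695546246) (nat_lit 0) (nat_lit 593951554) (nat_lit 588) (nat_lit 593951554) (nat_lit 117) (nat_lit 1) (nat_lit 109) (nat_lit 1) (nat_lit 116) (nat_lit 1) (nat_lit 228) (nat_lit 273) (nat_lit 219)) (XT.lf (nat_lit 84) (nat_lit 1401383662) (nat_lit 0) (nat_lit 2037065939) (nat_lit 672) (nat_lit 1401383662)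 (nat_lit 110) (nat_lit 1) (nat_lit 109) (nat_lit 1) (nat_lit 117) (nat_lit 1) (nat_lit 229) (nat_lit 273) (nat_lit 218)))) (XT.nd (nat_lit 188) (nat_lit 1176) (nat_lit 0) (XT.nd (nat_lit 94) (nat_lit 0) (nat_lit 0) (XT.lf (nat_lit 672) (nat_lit 1914484185) (nat_lit 0) (nat_lit 1441177482) (nat_lit 588) (nat_lit 1441177482) (nat_lit 110) (nat_lit 1) (nat_lit 102) (nat_lit 1) (nat_lit 109) (nat_lit 1) (nat_lit 230) (nat_lit 273) (nat_lit 217)) (XT.lf (nat_lit 84) (nat_lit 515692627) (nat_lit 0) (nat_lit 3723085265) (nat_lit 672) (nat_lit 515692627) (nat_lit 103) (nat_lit 1) (nat_lit 102) (nat_lit 1) (nat_lit 110) (nat_lit 1) (nat_lit 231) (nat_lit 273) (nat_lit 216))) (XT.nd (nat_lit 94) (nat_lit 672) (nat_lit 0) (XT.lf (nat_lit 588) (nat_lit 140388308) (nat_lit 0) (nat_lit 2286023198) (nat_lit 504) (nat_lit 2286023198) (nat_lit 103) (nat_lit 1) (nat_lit 96) (nat_lit 1) (nat_lit 102) (nat_lit 1) (nat_lit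 232) (nat_lit 273) (nat_lit 215)) (XT.lf (nat_lit 672) (nat_lit 3943894337) (nat_lit 0) (nat_lit 363578509) (nat_lit 588) (nat_lit 363578509) (nat_lit 96) (nat_lit 1) (nat_lit 88) (nat_lit 1) (nat_lit 95) (nat_lit 1) (nat_lit 233) (nat_lit 273) (nat_lit 214))))))))

set_option maxRecDepth 10000000 in
noncomputable def Tp : PT := (PT.nd (nat_lit 2943516) (PT.nd (nat_lit 2131168) (PT.nd (nat_lit 1454462) (PT.nd (nat_lit 1001946) (PT.nd (nat_lit 686106) (PT.nd (nat_lit 505438) pc0 pc1) (PT.nd (nat_lit 180010) pc2 pc3)) (PT.nd (nat_lit 226822) (PT.nd (nat_lit 135266) pc4 pc5) (PT.nd (nat_lit 134702) pc6 pc7))) (PT.nd (nat_lit 361712) (PT.nd (nat_lit 224378) (PT.nd (nat_lit 133950) pc8 pc9) (PT.nd (nat_lit 90052) pc10 pc11)) (PT.nd (nat_lit 179258) (PT.nd (nat_lit 89770) pc12 pc13) (PT.nd (nat_lit 46812) pc14 pc15)))) (PT.nd (nat_lit 451952) (PT.nd (nat_lit 227104) (PT.nd (nat_lit 134796) (PT.nd (nat_lit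 46436) pc16 pc17) (PT.nd (nat_lit 46154) pc18 pc19)) (PT.nd (nat_lit 133386) (PT.nd (nat_lit 87514) pc20 pc21) (PT.nd (nat_lit 45778) pc22 pc23))) (PT.nd (nat_lit 181232) (PT.nd (nat_lit 90898) (PT.nd (nat_lit 45496) pc24 pc25) (PT.nd (nat_lit 45214) pc26 pc27)) (PT.nd (nat_lit 89864) (PT.nd (nat_lit 44932) pc28 pc29) (PT.nd (nat_lit 44744) pc30 pc31))))) (PT.nd (nat_lit 539654) (PT.nd (nat_lit 272788) (PT.nd (nat_lit 137052) (PT.nd (nat_lit 88642) (PT.nd (nat_lit 44368) pc32 pc33) (PT.nd (nat_lit 4324) pc34 pc35)) (PT.nd (nat_lit 87702) (PT.nd (nat_lit 43898) pc36 pc37) (PT.nd (nat_lit 4418) pc38 pc39))) (PT.nd (nat_lit 134232) (PT.nd (nat_lit 86762) (PT.nd (nat_lit 43428) pc40 pc41) (PT.nd (nat_lit 4324) pc42 pc43)) (PT.nd (nat_lit 47282) (PT.nd (nat_lit 42864) pc44 pc45) (PT.nd (nat_lit 42770) pc46 pc47)))) (PT.nd (nat_lit 186214) (PT.nd (nat_lit 93342) (PT.nd (nat_lit 46718) (PT.nd (nat_lit 4324)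 pc48 pc49) (PT.nd (nat_lit 4324) pc50 pc51)) (PT.nd (nat_lit 46436) (PT.nd (nat_lit 42018) pc52 pc53) (PT.nd (nat_lit 42018) pc54 pc55))) (PT.nd (nat_lit 135266) (PT.nd (nat_lit 46436) (PT.nd (nat_lit 42018) pc56 pc57) (PT.nd (nat_lit 43992) pc58 pc59)) (PT.nd (nat_lit 91086) (PT.nd (nat_lit 45214) pc60 pc61) (PT.nd (nat_lit 83566) pc62 pc63))))))

set_option maxRecDepth 10000000 in
noncomputable def Tx : XT := (XT.nd (nat_lit 9252984) (nat_lit 0) (nat_lit 2436) XT.nil (XT.nd (nat_lit 4339698) (nat_lit 0) (nat_lit 0) (XT.nd (nat_lit 1985844) (nat_lit 0) (nat_lit 5124) (XT.nd (nat_lit 1353694) (nat_lit 0) (nat_lit 2520) (XT.nd (nat_lit 947238) (nat_lit 0) (nat_lit 1176) (XT.nd (nat_lit 675390) (nat_lit 0) (nat_lit 756) (XT.nd (nat_lit 451200) (nat_lit 0) (nat_lit 336) (XT.nd (nat_lit 315558) (nat_lit 0) (nat_lit 0) xc0 xc1) (XT.nd (nat_lit 91368) (nat_lit 0) (nat_lit 0) xc2 xc3)) (XT.nd (nat_lit 136770)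 (nat_lit 0) (nat_lit 0) (XT.nd (nat_lit 47658) (nat_lit 0) (nat_lit 0) xc4 xc5) (XT.nd (nat_lit 88360) (nat_lit 0) (nat_lit 420) xc6 xc7))) (XT.nd (nat_lit 225130) (nat_lit 0) (nat_lit 420) (XT.nd (nat_lit 133386) (nat_lit 0) (nat_lit 420) (XT.nd (nat_lit 46530) (nat_lit 0) (nat_lit 0) xc8 xc9) (XT.nd (nat_lit 45966) (nat_lit 0) (nat_lit 0) xc10 xc11)) (XT.nd (nat_lit 90992) (nat_lit 0) (nat_lit 420) (XT.nd (nat_lit 45590) (nat_lit 0) (nat_lit 420) xc12 xc13) (XT.nd (nat_lit 45214) (nat_lit 0) (nat_lit 0) xc14 xc15)))) (XT.nd (nat_lit 315840) (nat_lit 0) (nat_lit 1008) (XT.nd (nat_lit 178224) (nat_lit 0) (nat_lit 504) (XT.nd (nat_lit 89488) (nat_lit 0) (nat_lit 504) (XT.nd (nat_lit 44838) (nat_lit 0) (nat_lit 84) xc16 xc17) (XT.nd (nat_lit 44462) (nat_lit 0) (nat_lit 0) xc18 xc19)) (XT.nd (nat_lit 49726) (nat_lit 0) (nat_lit 504) (XT.nd (nat_lit 44086) (nat_lit 0) (nat_lit 4536) xc20 xc21) (XT.nd (nat_lit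 43898) (nat_lit 0) (nat_lit 0) xc22 xc23))) (XT.nd (nat_lit 138180) (nat_lit 0) (nat_lit 1008) (XT.nd (nat_lit 88266) (nat_lit 0) (nat_lit 504) (XT.nd (nat_lit 44086) (nat_lit 0) (nat_lit 504) xc24 xc25) (XT.nd (nat_lit 5640) (nat_lit 588) (nat_lit 0) xc26 xc27)) (XT.nd (nat_lit 88830) (nat_lit 0) (nat_lit 588) (XT.nd (nat_lit 44368) (nat_lit 0) (nat_lit 0) xc28 xc29) (XT.nd (nat_lit 44556) (nat_lit 0) (nat_lit 0) xc30 xc31))))) (XT.nd (nat_lit 769390) (nat_lit 0) (nat_lit 5628) (XT.nd (nat_lit 361242) (nat_lit 0) (nat_lit 2940) (XT.nd (nat_lit 179822) (nat_lit 0) (nat_lit 1680) (XT.nd (nat_lit 89676) (nat_lit 0) (nat_lit 1092) (XT.nd (nat_lit 44744) (nat_lit 0) (nat_lit 1092) xc32 xc33) (XT.nd (nat_lit 45026) (nat_lit 0) (nat_lit 0) xc34 xc35)) (XT.nd (nat_lit 90522) (nat_lit 0) (nat_lit 672) (XT.nd (nat_lit 45214) (nat_lit 0) (nat_lit 84) xc36 xc37) (XT.nd (nat_lit 45402) (nat_lit 0) (nat_lit 0) xc38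 xc39))) (XT.nd (nat_lit 182924) (nat_lit 0) (nat_lit 1260) (XT.nd (nat_lit 91274) (nat_lit 0) (nat_lit 588) (XT.nd (nat_lit 45590) (nat_lit 0) (nat_lit 0) xc40 xc41) (XT.nd (nat_lit 45778) (nat_lit 0) (nat_lit 0) xc42 xc43)) (XT.nd (nat_lit 92026) (nat_lit 0) (nat_lit 756) (XT.nd (nat_lit 45966) (nat_lit 0) (nat_lit 0) xc44 xc45) (XT.nd (nat_lit 86762) (nat_lit 0) (nat_lit 672) xc46 xc47)))) (XT.nd (nat_lit 499892) (nat_lit 0) (nat_lit 4620) (XT.nd (nat_lit 227668) (nat_lit 0) (nat_lit 2268) (XT.nd (nat_lit 92966) (nat_lit 0) (nat_lit 672) (XT.nd (nat_lit 46436) (nat_lit 0) (nat_lit 672) xc48 xc49) (XT.nd (nat_lit 87796) (nat_lit 0) (nat_lit 1512) xc50 xc51)) (XT.nd (nat_lit 135642) (nat_lit 0) (nat_lit 1512) (XT.nd (nat_lit 88454) (nat_lit 0) (nat_lit 756) xc52 xc53) (XT.nd (nat_lit 89018) (nat_lit 0) (nat_lit 840) xc54 xc55))) (XT.nd (nat_lit 361242) (nat_lit 0) (nat_lit 5544) (XT.nd (nat_lit 179728)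 (nat_lit 0) (nat_lit 2604) (XT.nd (nat_lit 89582) (nat_lit 0) (nat_lit 1680) xc56 xc57) (XT.nd (nat_lit 90522) (nat_lit 0) (nat_lit 924) xc58 xc59)) (XT.nd (nat_lit 270062) (nat_lit 0) (nat_lit 1512) (XT.nd (nat_lit 134514) (nat_lit 0) (nat_lit 1596) xc60 xc61) (XT.nd (nat_lit 136676) (nat_lit 0) (nat_lit 1344) xc62 xc63)))))) XT.nil))

set_option maxRecDepth 10000000 in
noncomputable def Te : XT := (XT.nd (nat_lit 10243650) (nat_lit 0) (nat_lit 5292) XT.nil (XT.nd (nat_lit 2121768) (nat_lit 0) (nat_lit 0) (XT.nd (nat_lit 1353694) (nat_lit 3864) (nat_lit 0) (XT.nd (nat_lit 945640) (nat_lit 6216) (nat_lit 0) (XT.nd (nat_lit 631680) (nat_lit 5880) (nat_lit 0) (XT.nd (nat_lit 406832) (nat_lit 3024) (nat_lit 0) (XT.nd (nat_lit 271096) (nat_lit 0) (nat_lit 0) ec0 ec1) (XT.nd (nat_lit 134326) (nat_lit 1932) (nat_lit 0) ec2 ec3)) (XT.nd (nat_lit 178788) (nat_lit 2352) (nat_lit 0) (XT.nd (nat_lit 89676) (nat_lit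 1764) (nat_lit 0) ec4 ec5) (XT.nd (nat_lit 47000) (nat_lit 1512) (nat_lit 0) ec6 ec7))) (XT.nd (nat_lit 225694) (nat_lit 2520) (nat_lit 0) (XT.nd (nat_lit 92872) (nat_lit 2100) (nat_lit 0) (XT.nd (nat_lit 46530) (nat_lit 756) (nat_lit 0) ec8 ec9) (XT.nd (nat_lit 46248) (nat_lit 1428) (nat_lit 0) ec10 ec11)) (XT.nd (nat_lit 91462) (nat_lit 1260) (nat_lit 0) (XT.nd (nat_lit 45778) (nat_lit 588) (nat_lit 0) ec12 ec13) (XT.nd (nat_lit 45496) (nat_lit 1260) (nat_lit 0) ec14 ec15)))) (XT.nd (nat_lit 359362) (nat_lit 1092) (nat_lit 0) (XT.nd (nat_lit 180198) (nat_lit 1008) (nat_lit 0) (XT.nd (nat_lit 90240) (nat_lit 1176) (nat_lit 0) (XT.nd (nat_lit 45214) (nat_lit 588) (nat_lit 0) ec16 ec17) (XT.nd (nat_lit 44932) (nat_lit 672) (nat_lit 0) ec18 ec19)) (XT.nd (nat_lit 89582) (nat_lit 504) (nat_lit 0) (XT.nd (nat_lit 44838) (nat_lit 504) (nat_lit 0) ec20 ec21) (XT.nd (nat_lit 44650) (nat_lit 0) (nat_lit 0) ec22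 ec23))) (XT.nd (nat_lit 180762) (nat_lit 0) (nat_lit 0) (XT.nd (nat_lit 89958) (nat_lit 504) (nat_lit 0) (XT.nd (nat_lit 44932) (nat_lit 0) (nat_lit 0) ec24 ec25) (XT.nd (nat_lit 45214) (nat_lit 0) (nat_lit 0) ec26 ec27)) (XT.nd (nat_lit 91932) (nat_lit 0) (nat_lit 504) (XT.nd (nat_lit 45778) (nat_lit 0) (nat_lit 0) ec28 ec29) (XT.nd (nat_lit 88172) (nat_lit 0) (nat_lit 588) ec30 ec31))))) XT.nil))

set_option maxRecDepth 10000000 in
noncomputable def Tz : ZL := (ZL.cons (nat_lit 1932) (nat_lit 6) (nat_lit 146646785341697011388) (ZL.cons (nat_lit 2016) (nat_lit 3) (nat_lit 73307325505217482811) (ZL.cons (nat_lit 2352) (nat_lit 6) (nat_lit 145457527332586117052) (ZL.cons (nat_lit 2436) (nat_lit 6) (nat_lit 145393950407134202632) (ZL.cons (nat_lit 2688) (nat_lit 6) (nat_lit 144304313989204249204) (ZL.cons (nat_lit 2772) (nat_lit 6) (nat_lit 144209971316012737274) (ZL.cons (nat_lit 2856) (nat_lit 3) (nat_lit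 72089264360911434310) (ZL.cons (nat_lit 3108) (nat_lit 6) (nat_lit 143186599171377046962) (ZL.cons (nat_lit 3192) (nat_lit 6) (nat_lit 143062153026816065846) (ZL.cons (nat_lit 3276) (nat_lit 6) (nat_lit 142999944684886599682) (ZL.cons (nat_lit 3612) (nat_lit 6) (nat_lit 141949951954366134340) (ZL.cons (nat_lit 3696) (nat_lit 6) (nat_lit 141857640141067198990) (ZL.cons (nat_lit 3780) (nat_lit 3) (nat_lit 70913437196663800740) (ZL.cons (nat_lit 4032) (nat_lit 6) (nat_lit 140872841381129610310) (ZL.cons (nat_lit 4116) (nat_lit 6) (nat_lit 140751074116392838180) (ZL.cons (nat_lit 4200) (nat_lit 6) (nat_lit 140690204897283771484) (ZL.cons (nat_lit 4284) (nat_lit 6) (nat_lit 140312594262565426218) (ZL.cons (nat_lit 4368) (nat_lit 6) (nat_lit 140041235144763848938) (ZL.cons (nat_lit 4452) (nat_lit 6) (nat_lit 139830311207774354340) (ZL.cons (nat_lit 4536) (nat_lit 6) (nat_lit 139679722561982947398) (ZL.cons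 (nat_lit 4620) (nat_lit 6) (nat_lit 139589397891436043922) (ZL.cons (nat_lit 4704) (nat_lit 3) (nat_lit 69779647210033287368) (ZL.cons (nat_lit 4872) (nat_lit 6) (nat_lit 139060385542847725950) (ZL.cons (nat_lit 4956) (nat_lit 6) (nat_lit 138821867711595959442) (ZL.cons (nat_lit 5040) (nat_lit 6) (nat_lit 138643078105868510610) (ZL.cons (nat_lit 5124) (nat_lit 6) (nat_lit 138523932054266972322) (ZL.cons (nat_lit 5208) (nat_lit 6) (nat_lit 138464373131459666356) (ZL.cons (nat_lit 5292) (nat_lit 6) (nat_lit 138112551040490146690) (ZL.cons (nat_lit 5376) (nat_lit 6) (nat_lit 137847033312699953656) (ZL.cons (nat_lit 5460) (nat_lit 6) (nat_lit 137640649812710232914) (ZL.cons (nat_lit 5544) (nat_lit 6) (nat_lit 137493302801172652736) (ZL.cons (nat_lit 5628) (nat_lit 6) (nat_lit 137404922497310711958) (ZL.cons (nat_lit 5712) (nat_lit 3) (nat_lit 68687733522936437589) (ZL.cons (nat_lit 5796) (nat_lit 6) (nat_lit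 137197282761077470190) (ZL.cons (nat_lit 5880) (nat_lit 6) (nat_lit 136905346347828934178) (ZL.cons (nat_lit 5964) (nat_lit 6) (nat_lit 136671962951300786910) (ZL.cons (nat_lit 6048) (nat_lit 6) (nat_lit 136497022045500934822) (ZL.cons (nat_lit 6132) (nat_lit 6) (nat_lit 136380440781702952154) (ZL.cons (nat_lit 6216) (nat_lit 6) (nat_lit 136322163949210480562) (ZL.cons (nat_lit 6300) (nat_lit 6) (nat_lit 136314147250747430568) (ZL.cons (nat_lit 6384) (nat_lit 6) (nat_lit 135996360851727521776) (ZL.cons (nat_lit 6468) (nat_lit 6) (nat_lit 135736558769741031530) (ZL.cons (nat_lit 6552) (nat_lit 6) (nat_lit 135534617967402752916) (ZL.cons (nat_lit 6636) (nat_lit 6) (nat_lit 135390442809342498338) (ZL.cons (nat_lit 6720) (nat_lit 6) (nat_lit 135303965016913984856) (ZL.cons (nat_lit 6804) (nat_lit 3) (nat_lit 67637571817929675022) (ZL.cons (nat_lit 6888) (nat_lit 6) (nat_lit 135119646345941594060) (ZL.cons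 (nat_lit 6972) (nat_lit 6) (nat_lit 134833994278183731034) (ZL.cons (nat_lit 7056) (nat_lit 6) (nat_lit 134605634790387109442) (ZL.cons (nat_lit 7140) (nat_lit 6) (nat_lit 134434459735788428338) (ZL.cons (nat_lit 7224) (nat_lit 6) (nat_lit 134320388049097642946) (ZL.cons (nat_lit 7308) (nat_lit 6) (nat_lit 134263365708106966244) (ZL.cons (nat_lit 7392) (nat_lit 6) (nat_lit 134274787634951776870) (ZL.cons (nat_lit 7476) (nat_lit 6) (nat_lit 133963842039041885686) (ZL.cons (nat_lit 7560) (nat_lit 6) (nat_lit 133709632565473891314) (ZL.cons (nat_lit 7644) (nat_lit 6) (nat_lit 133512038825416867232) (ZL.cons (nat_lit 7728) (nat_lit 6) (nat_lit 133370967242187655314) (ZL.cons (nat_lit 7812) (nat_lit 6) (nat_lit 133286351006934706702) (ZL.cons (nat_lit 7896) (nat_lit 3) (nat_lit 66629075023499332406) (ZL.cons (nat_lit 7980) (nat_lit 6) (nat_lit 133461384609544646460) (ZL.cons (nat_lit 8064) (nat_lit 6) (nat_lit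 133125689964562320678) (ZL.cons (nat_lit 8148) (nat_lit 6) (nat_lit 132846186962842298148) (ZL.cons (nat_lit 8232) (nat_lit 6) (nat_lit 132622743237013901286) (ZL.cons (nat_lit 8316) (nat_lit 6) (nat_lit 132455252968326346390) (ZL.cons (nat_lit 8400) (nat_lit 6) (nat_lit 132343636836534971252) (ZL.cons (nat_lit 8484) (nat_lit 6) (nat_lit 132287841982336657452) (ZL.cons (nat_lit 8568) (nat_lit 6) (nat_lit 132319141121668667996) (ZL.cons (nat_lit 8652) (nat_lit 6) (nat_lit 132014889070876210868) (ZL.cons (nat_lit 8736) (nat_lit 6) (nat_lit 131766151816895785848) (ZL.cons (nat_lit 8820) (nat_lit 6) (nat_lit 131572811562436858172) (ZL.cons (nat_lit 8904) (nat_lit 6) (nat_lit 131434776745187140056) (ZL.cons (nat_lit 8988) (nat_lit 6) (nat_lit 131351981994450399730) (ZL.cons (nat_lit 9072) (nat_lit 3) (nat_lit 65662194050094063910) (ZL.cons (nat_lit 9156) (nat_lit 6) (nat_lit 131543813543981318514) (ZL.cons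 (nat_lit 9240) (nat_lit 6) (nat_lit 131215345202511332426) (ZL.cons (nat_lit 9324) (nat_lit 6) (nat_lit 130941858899458472808) (ZL.cons (nat_lit 9408) (nat_lit 6) (nat_lit 130723225116847516974) (ZL.cons (nat_lit 9492) (nat_lit 6) (nat_lit 130559340313826426078) (ZL.cons (nat_lit 9576) (nat_lit 6) (nat_lit 130450126877631342774) (ZL.cons (nat_lit 9660) (nat_lit 6) (nat_lit 130395533086830644338) (ZL.cons (nat_lit 9744) (nat_lit 6) (nat_lit 130799340050925320494) (ZL.cons (nat_lit 9828) (nat_lit 6) (nat_lit 130447176708792390216) (ZL.cons (nat_lit 9912) (nat_lit 6) (nat_lit 130149474115062001638) (ZL.cons (nat_lit 9996) (nat_lit 6) (nat_lit 129906091283378611206) (ZL.cons (nat_lit 10080) (nat_lit 6) (nat_lit 129716912952205492152) (ZL.cons (nat_lit 10164) (nat_lit 6) (nat_lit 129581849530239036068) (ZL.cons (nat_lit 10248) (nat_lit 6) (nat_lit 129500837053979994654) (ZL.cons (nat_lit 10332) (nat_lit 3)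 (nat_lit 64736918578720784064) (ZL.cons (nat_lit 10416) (nat_lit 6) (nat_lit 129710019799552104428) (ZL.cons (nat_lit 10500) (nat_lit 6) (nat_lit 129388622205158771660) (ZL.cons (nat_lit 10584) (nat_lit 6) (nat_lit 129121023082797852268) (ZL.cons (nat_lit 10668) (nat_lit 6) (nat_lit 128907095702552298616) (ZL.cons (nat_lit 10752) (nat_lit 6) (nat_lit 128746738752433814374) (ZL.cons (nat_lit 10836) (nat_lit 6) (nat_lit 128639876290403400180) (ZL.cons (nat_lit 10920) (nat_lit 6) (nat_lit 128586457708406630676) (ZL.cons (nat_lit 11004) (nat_lit 6) (nat_lit 129003525371126999232) (ZL.cons (nat_lit 11088) (nat_lit 6) (nat_lit 128658942844578143774) (ZL.cons (nat_lit 11172) (nat_lit 6) (nat_lit 128367648721554280192) (ZL.cons (nat_lit 11256) (nat_lit 6) (nat_lit 128129505050631197580) (ZL.cons (nat_lit 11340) (nat_lit 6) (nat_lit 127944399051440278740) (ZL.cons (nat_lit 11424) (nat_lit 6) (nat_lit 127812243061257836388)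 (ZL.cons (nat_lit 11508) (nat_lit 6) (nat_lit 127732974493489694104) (ZL.cons (nat_lit 11592) (nat_lit 3) (nat_lit 63853277904015675563) (ZL.cons (nat_lit 11676) (nat_lit 6) (nat_lit 128327358841028466258) (ZL.cons (nat_lit 11760) (nat_lit 6) (nat_lit 127960090470883208952) (ZL.cons (nat_lit 11844) (nat_lit 6) (nat_lit 127645611415703822680) (ZL.cons (nat_lit 11928) (nat_lit 6) (nat_lit 127383772744117795878) (ZL.cons (nat_lit 12012) (nat_lit 6) (nat_lit 127174450454249348078) (ZL.cons (nat_lit 12096) (nat_lit 6) (nat_lit 127017545414994471128) (ZL.cons (nat_lit 12180) (nat_lit 6) (nat_lit 126912983319074300686) (ZL.cons (nat_lit 12264) (nat_lit 6) (nat_lit 126860714647844584928) (ZL.cons (nat_lit 12348) (nat_lit 6) (nat_lit 127681199989490783698) (ZL.cons (nat_lit 12432) (nat_lit 6) (nat_lit 127291734120718910102) (ZL.cons (nat_lit 12516) (nat_lit 6) (nat_lit 126954569221943121982) (ZL.cons (nat_lit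 12600) (nat_lit 6) (nat_lit 126669545618201572490) (ZL.cons (nat_lit 12684) (nat_lit 6) (nat_lit 126436528327670180500) (ZL.cons (nat_lit 12768) (nat_lit 6) (nat_lit 126255406997737774590) (ZL.cons (nat_lit 12852) (nat_lit 6) (nat_lit 126126095852745169550) (ZL.cons (nat_lit 12936) (nat_lit 6) (nat_lit 126048533653363425634) (ZL.cons (nat_lit 13020) (nat_lit 3) (nat_lit 63011341833796026427) (ZL.cons (nat_lit 13104) (nat_lit 6) (nat_lit 126653557273074014816) (ZL.cons (nat_lit 13188) (nat_lit 6) (nat_lit 126294194875671610406) (ZL.cons (nat_lit 13272) (nat_lit 6) (nat_lit 125986485428333659066) (ZL.cons (nat_lit 13356) (nat_lit 6) (nat_lit 125730283205646744386) (ZL.cons (nat_lit 13440) (nat_lit 6) (nat_lit 125525466875051394286) (ZL.cons (nat_lit 13524) (nat_lit 6) (nat_lit 125371939439381260286) (ZL.cons (nat_lit 13608) (nat_lit 6) (nat_lit 125269628190927081772) (ZL.cons (nat_lit 13692) (nat_lit 6)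 (nat_lit 125218484677003680834) (ZL.cons (nat_lit 13776) (nat_lit 6) (nat_lit 126045257699382710836) (ZL.cons (nat_lit 13860) (nat_lit 6) (nat_lit 125664175636005143714) (ZL.cons (nat_lit 13944) (nat_lit 6) (nat_lit 125334268690040576084) (ZL.cons (nat_lit 14028) (nat_lit 6) (nat_lit 125055380623757259556) (ZL.cons (nat_lit 14112) (nat_lit 6) (nat_lit 124827379361006386766) (ZL.cons (nat_lit 14196) (nat_lit 6) (nat_lit 124650156924673308576) (ZL.cons (nat_lit 14280) (nat_lit 6) (nat_lit 124523629385541601102) (ZL.cons (nat_lit 14364) (nat_lit 6) (nat_lit 124447736822545765566) (ZL.cons (nat_lit 14448) (nat_lit 3) (nat_lit 62211221647196868704) (ZL.cons (nat_lit 14532) (nat_lit 6) (nat_lit 125466547320394835154) (ZL.cons (nat_lit 14616) (nat_lit 6) (nat_lit 125064213137667793756) (ZL.cons (nat_lit 14700) (nat_lit 6) (nat_lit 124712586525728063414) (ZL.cons (nat_lit 14784) (nat_lit 6) (nat_lit 124411500960818130596)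 (ZL.cons (nat_lit 14868) (nat_lit 6) (nat_lit 124160813854470855958) (ZL.cons (nat_lit 14952) (nat_lit 6) (nat_lit 123960406485982255078) (ZL.cons (nat_lit 15036) (nat_lit 6) (nat_lit 123810183946187603414) (ZL.cons (nat_lit 15120) (nat_lit 6) (nat_lit 123710075092514238918) (ZL.cons (nat_lit 15204) (nat_lit 6) (nat_lit 123660032515289776162) (ZL.cons (nat_lit 15288) (nat_lit 6) (nat_lit 124917152069746953202) (ZL.cons (nat_lit 15372) (nat_lit 6) (nat_lit 124494023249691659088) (ZL.cons (nat_lit 15456) (nat_lit 6) (nat_lit 124121144518402454470) (ZL.cons (nat_lit 15540) (nat_lit 6) (nat_lit 123798339287517358940) (ZL.cons (nat_lit 15624) (nat_lit 6) (nat_lit 123525454682543468012) (ZL.cons (nat_lit 15708) (nat_lit 6) (nat_lit 123302361470458465284) (ZL.cons (nat_lit 15792) (nat_lit 6) (nat_lit 123128953998508290930) (ZL.cons (nat_lit 15876) (nat_lit 6) (nat_lit 123005150144171982244) (ZL.cons (nat_lit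 15960) (nat_lit 6) (nat_lit 122930891276269990528) (ZL.cons (nat_lit 16044) (nat_lit 3) (nat_lit 61453071113598777965) (ZL.cons (nat_lit 16128) (nat_lit 6) (nat_lit 123953335940857776448) (ZL.cons (nat_lit 16212) (nat_lit 6) (nat_lit 123559662572240319114) (ZL.cons (nat_lit 16296) (nat_lit 6) (nat_lit 123215605222005749308) (ZL.cons (nat_lit 16380) (nat_lit 6) (nat_lit 122921000951056695668) (ZL.cons (nat_lit 16464) (nat_lit 6) (nat_lit 122675710240345076650) (ZL.cons (nat_lit 16548) (nat_lit 6) (nat_lit 122479616924798500448) (ZL.cons (nat_lit 16632) (nat_lit 6) (nat_lit 122332628138306669072) (ZL.cons (nat_lit 16716) (nat_lit 6) (nat_lit 122234674269741733166) (ZL.cons (nat_lit 16800) (nat_lit 6) (nat_lit 122185708929991769608) (ZL.cons (nat_lit 16884) (nat_lit 6) (nat_lit 123441895151814408464) (ZL.cons (nat_lit 16968) (nat_lit 6) (nat_lit 123027874779940343774) (ZL.cons (nat_lit 17052) (nat_lit 6)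 (nat_lit 122663022792377521252) (ZL.cons (nat_lit 17136) (nat_lit 6) (nat_lit 122347166402078993336) (ZL.cons (nat_lit 17220) (nat_lit 6) (nat_lit 122080156025392211606) (ZL.cons (nat_lit 17304) (nat_lit 6) (nat_lit 121861865211219019114) (ZL.cons (nat_lit 17388) (nat_lit 6) (nat_lit 121692190581130785890) (ZL.cons (nat_lit 17472) (nat_lit 6) (nat_lit 121571051780410327294) (ZL.cons (nat_lit 17556) (nat_lit 6) (nat_lit 121498391439997419546) (ZL.cons (nat_lit 17640) (nat_lit 3) (nat_lit 60737087574659945293) (ZL.cons (nat_lit 17724) (nat_lit 6) (nat_lit 122959458673812145164) (ZL.cons (nat_lit 17808) (nat_lit 6) (nat_lit 122525529296794629050) (ZL.cons (nat_lit 17892) (nat_lit 6) (nat_lit 122140330305975199172) (ZL.cons (nat_lit 17976) (nat_lit 6) (nat_lit 121803679278348418540) (ZL.cons (nat_lit 18060) (nat_lit 6) (nat_lit 121515416782312162534) (ZL.cons (nat_lit 18144) (nat_lit 6) (nat_lit 121275406302163807330)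 (ZL.cons (nat_lit 18228) (nat_lit 6) (nat_lit 121083534173448957816) (ZL.cons (nat_lit 18312) (nat_lit 6) (nat_lit 120939709529132097372) (ZL.cons (nat_lit 18396) (nat_lit 6) (nat_lit 120843864256563666934) (ZL.cons (nat_lit 18480) (nat_lit 6) (nat_lit 120795952965223193784) (ZL.cons (nat_lit 18564) (nat_lit 6) (nat_lit 122505798033998390562) (ZL.cons (nat_lit 18648) (nat_lit 6) (nat_lit 122052388221419767380) (ZL.cons (nat_lit 18732) (nat_lit 6) (nat_lit 121647280225456886078) (ZL.cons (nat_lit 18816) (nat_lit 6) (nat_lit 121290282194573498090) (ZL.cons (nat_lit 18900) (nat_lit 6) (nat_lit 120981225061208989368) (ZL.cons (nat_lit 18984) (nat_lit 6) (nat_lit 120719962461711159888) (ZL.cons (nat_lit 19068) (nat_lit 6) (nat_lit 120506370667021147662) (ZL.cons (nat_lit 19152) (nat_lit 6) (nat_lit 120340348524077670928) (ZL.cons (nat_lit 19236) (nat_lit 6) (nat_lit 120221817407912838642) (ZL.cons (nat_lit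 19320) (nat_lit 6) (nat_lit 120150721184416842802) (ZL.cons (nat_lit 19404) (nat_lit 3) (nat_lit 60063513091876949306) (ZL.cons (nat_lit 19488) (nat_lit 6) (nat_lit 121608227483091217246) (ZL.cons (nat_lit 19572) (nat_lit 6) (nat_lit 121183639051567228876) (ZL.cons (nat_lit 19656) (nat_lit 6) (nat_lit 120806732015540389464) (ZL.cons (nat_lit 19740) (nat_lit 6) (nat_lit 120477327878919273386) (ZL.cons (nat_lit 19824) (nat_lit 6) (nat_lit 120195270642093191190) (ZL.cons (nat_lit 19908) (nat_lit 6) (nat_lit 119960426728053704688) (ZL.cons (nat_lit 19992) (nat_lit 6) (nat_lit 119772684919135065242) (ZL.cons (nat_lit 20076) (nat_lit 6) (nat_lit 119631956304343616666) (ZL.cons (nat_lit 20160) (nat_lit 6) (nat_lit 119538174237251218978) (ZL.cons (nat_lit 20244) (nat_lit 6) (nat_lit 119491294304432752098) (ZL.cons (nat_lit 20328) (nat_lit 6) (nat_lit 121192836735627617570) (ZL.cons (nat_lit 20412) (nat_lit 6)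 (nat_lit 120749187212556557706) (ZL.cons (nat_lit 20496) (nat_lit 6) (nat_lit 120352799740968611226) (ZL.cons (nat_lit 20580) (nat_lit 6) (nat_lit 120003486599204043724) (ZL.cons (nat_lit 20664) (nat_lit 6) (nat_lit 119701082359121354172) (ZL.cons (nat_lit 20748) (nat_lit 6) (nat_lit 119445443807753614954) (ZL.cons (nat_lit 20832) (nat_lit 6) (nat_lit 119236449879485501232) (ZL.cons (nat_lit 20916) (nat_lit 6) (nat_lit 119074001598718889944) (ZL.cons (nat_lit 21000) (nat_lit 6) (nat_lit 118958022032999875966) (ZL.cons (nat_lit 21084) (nat_lit 6) (nat_lit 118888456256585007238) (ZL.cons (nat_lit 21168) (nat_lit 3) (nat_lit 59432635662214742274) (ZL.cons (nat_lit 21252) (nat_lit 6) (nat_lit 120806019257774787946) (ZL.cons (nat_lit 21336) (nat_lit 6) (nat_lit 120343718960195830334) (ZL.cons (nat_lit 21420) (nat_lit 6) (nat_lit 119928270397060812360) (ZL.cons (nat_lit 21504) (nat_lit 6) (nat_lit 119559476819735137790)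 (ZL.cons (nat_lit 21588) (nat_lit 6) (nat_lit 119237163574508996814) (ZL.cons (nat_lit 21672) (nat_lit 6) (nat_lit 118961178019884650240) (ZL.cons (nat_lit 21756) (nat_lit 6) (nat_lit 118731389454288283802) (ZL.cons (nat_lit 21840) (nat_lit 6) (nat_lit 118547689054172198238) (ZL.cons (nat_lit 21924) (nat_lit 6) (nat_lit 118409989822478021548) (ZL.cons (nat_lit 22008) (nat_lit 6) (nat_lit 118318226547436536530) (ZL.cons (nat_lit 22092) (nat_lit 6) (nat_lit 118272355771684611992) (ZL.cons (nat_lit 22176) (nat_lit 6) (nat_lit 120447591860042238376) (ZL.cons (nat_lit 22260) (nat_lit 6) (nat_lit 119967042272338136202) (ZL.cons (nat_lit 22344) (nat_lit 6) (nat_lit 119532942934695220480) (ZL.cons (nat_lit 22428) (nat_lit 6) (nat_lit 119145088265822474416) (ZL.cons (nat_lit 22512) (nat_lit 6) (nat_lit 118803294585035226372) (ZL.cons (nat_lit 22596) (nat_lit 6) (nat_lit 118507400025267428374) (ZL.cons (nat_lit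 22680) (nat_lit 6) (nat_lit 118257264456414454580) (ZL.cons (nat_lit 22764) (nat_lit 6) (nat_lit 118052769418970116300) (ZL.cons (nat_lit 22848) (nat_lit 6) (nat_lit 117893818067926465334) (ZL.cons (nat_lit 22932) (nat_lit 6) (nat_lit 117780335126909817604) (ZL.cons (nat_lit 23016) (nat_lit 6) (nat_lit 117712266852531276776) (ZL.cons (nat_lit 23100) (nat_lit 3) (nat_lit 58844790504467437464) (ZL.cons (nat_lit 23184) (nat_lit 6) (nat_lit 119815241691631168022) (ZL.cons (nat_lit 23268) (nat_lit 6) (nat_lit 120117384797948068130) (ZL.cons (nat_lit 23352) (nat_lit 6) (nat_lit 119618978761980615108) (ZL.cons (nat_lit 23436) (nat_lit 6) (nat_lit 119166630134212554824) (ZL.cons (nat_lit 23520) (nat_lit 6) (nat_lit 118760124690831911012) (ZL.cons (nat_lit 23604) (nat_lit 6) (nat_lit 118399269918497591474) (ZL.cons (nat_lit 23688) (nat_lit 6) (nat_lit 118083894923168686408) (ZL.cons (nat_lit 23772) (nat_lit 6)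 (nat_lit 117813850349172261190) (ZL.cons (nat_lit 23856) (nat_lit 6) (nat_lit 117589008308471315554) (ZL.cons (nat_lit 23940) (nat_lit 6) (nat_lit 117409262320099411872) (ZL.cons (nat_lit 24024) (nat_lit 6) (nat_lit 117274527259733289866) (ZL.cons (nat_lit 24108) (nat_lit 6) (nat_lit 117184739319379586326) (ZL.cons (nat_lit 24192) (nat_lit 6) (nat_lit 117139855977156568188) (ZL.cons (nat_lit 24276) (nat_lit 3) (nat_lit 58813702789645128436) (ZL.cons (nat_lit 24360) (nat_lit 6) (nat_lit 117641158164048447514) (ZL.cons (nat_lit 24444) (nat_lit 6) (nat_lit 117682422431288795336) (ZL.cons (nat_lit 24528) (nat_lit 6) (nat_lit 117751217922993046252) (ZL.cons (nat_lit 24612) (nat_lit 6) (nat_lit 117847577219413631632) (ZL.cons (nat_lit 24696) (nat_lit 6) (nat_lit 117971545954503063770) (ZL.cons (nat_lit 24780) (nat_lit 6) (nat_lit 118123182837525318480) (ZL.cons (nat_lit 24864) (nat_lit 6) (nat_lit 118302559680859439570)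 (ZL.cons (nat_lit 24948) (nat_lit 6) (nat_lit 118509761434008532440) (ZL.cons (nat_lit 25032) (nat_lit 6) (nat_lit 118744886223830252822) (ZL.cons (nat_lit 25116) (nat_lit 6) (nat_lit 119008045401007843094) (ZL.cons (nat_lit 25200) (nat_lit 6) (nat_lit 119299363592783723960) (ZL.cons (nat_lit 25284) (nat_lit 6) (nat_lit 118829158516752312828) (ZL.cons (nat_lit 25368) (nat_lit 6) (nat_lit 118404403783246524454) (ZL.cons (nat_lit 25452) (nat_lit 6) (nat_lit 118024898236404307168) (ZL.cons (nat_lit 25536) (nat_lit 6) (nat_lit 117690462149528330608) (ZL.cons (nat_lit 25620) (nat_lit 6) (nat_lit 117400937139970798322) (ZL.cons (nat_lit 25704) (nat_lit 6) (nat_lit 117156186094126401262) (ZL.cons (nat_lit 25788) (nat_lit 6) (nat_lit 116956093102497890224) (ZL.cons (nat_lit 25872) (nat_lit 6) (nat_lit 116800563404803515502) (ZL.cons (nat_lit 25956) (nat_lit 6) (nat_lit 116689523345100337686) (ZL.cons (nat_lit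 26040) (nat_lit 6) (nat_lit 116622920336902156836) (ZL.cons (nat_lit 26124) (nat_lit 3) (nat_lit 58300361419137770273) (ZL.cons (nat_lit 26208) (nat_lit 6) (nat_lit 116984413837782481650) (ZL.cons (nat_lit 26292) (nat_lit 6) (nat_lit 117012221564163543128) (ZL.cons (nat_lit 26376) (nat_lit 6) (nat_lit 117067850186142464944) (ZL.cons (nat_lit 26460) (nat_lit 6) (nat_lit 117151326048389538482) (ZL.cons (nat_lit 26544) (nat_lit 6) (nat_lit 117262688683504888582) (ZL.cons (nat_lit 26628) (nat_lit 6) (nat_lit 117401990830740370264) (ZL.cons (nat_lit 26712) (nat_lit 6) (nat_lit 117569298460975887606) (ZL.cons (nat_lit 26796) (nat_lit 6) (nat_lit 117764690807961963110) (ZL.cons (nat_lit 26880) (nat_lit 6) (nat_lit 117988260405843353388) (ZL.cons (nat_lit 26964) (nat_lit 6) (nat_lit 118240113132981481720) (ZL.cons (nat_lit 27048) (nat_lit 6) (nat_lit 118520368262096440922) (ZL.cons (nat_lit 27132) (nat_lit 6)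 (nat_lit 118077757080327301700) (ZL.cons (nat_lit 27216) (nat_lit 6) (nat_lit 117680002243359939852) (ZL.cons (nat_lit 27300) (nat_lit 6) (nat_lit 117326915381976065544) (ZL.cons (nat_lit 27384) (nat_lit 6) (nat_lit 117018329280871461764) (ZL.cons (nat_lit 27468) (nat_lit 6) (nat_lit 116754097799465957636) (ZL.cons (nat_lit 27552) (nat_lit 6) (nat_lit 116534095802693995174) (ZL.cons (nat_lit 27636) (nat_lit 6) (nat_lit 116358219101743013096) (ZL.cons (nat_lit 27720) (nat_lit 6) (nat_lit 116226384404711582564) (ZL.cons (nat_lit 27804) (nat_lit 6) (nat_lit 116138529277163927438) (ZL.cons (nat_lit 27888) (nat_lit 6) (nat_lit 116094612112562148436) (ZL.cons (nat_lit 27972) (nat_lit 3) (nat_lit 58184507995268489169) (ZL.cons (nat_lit 28056) (nat_lit 6) (nat_lit 116383071132159849174) (ZL.cons (nat_lit 28140) (nat_lit 6) (nat_lit 116425243213279484646) (ZL.cons (nat_lit 28224) (nat_lit 6) (nat_lit 116495552205801229084)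 (ZL.cons (nat_lit 28308) (nat_lit 6) (nat_lit 116594031406743067342) (ZL.cons (nat_lit 28392) (nat_lit 6) (nat_lit 116720727454004466986) (ZL.cons (nat_lit 28476) (nat_lit 6) (nat_lit 116875700348453211300) (ZL.cons (nat_lit 28560) (nat_lit 6) (nat_lit 117059023482340683056) (ZL.cons (nat_lit 28644) (nat_lit 6) (nat_lit 117270783674059055968) (ZL.cons (nat_lit 28728) (nat_lit 6) (nat_lit 117511081209256854196) (ZL.cons (nat_lit 28812) (nat_lit 6) (nat_lit 117780029888332351458) (ZL.cons (nat_lit 28896) (nat_lit 6) (nat_lit 117364418603101638762) (ZL.cons (nat_lit 28980) (nat_lit 6) (nat_lit 116993082451592619892) (ZL.cons (nat_lit 29064) (nat_lit 6) (nat_lit 116665845575980118364) (ZL.cons (nat_lit 29148) (nat_lit 6) (nat_lit 116382553003027542742) (ZL.cons (nat_lit 29232) (nat_lit 6) (nat_lit 116143070570694473212) (ZL.cons (nat_lit 29316) (nat_lit 6) (nat_lit 115947284864600039710) (ZL.cons (nat_lit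 29400) (nat_lit 6) (nat_lit 115795103164312001822) (ZL.cons (nat_lit 29484) (nat_lit 6) (nat_lit 115686453399436093980) (ZL.cons (nat_lit 29568) (nat_lit 6) (nat_lit 115621284115484840702) (ZL.cons (nat_lit 29652) (nat_lit 3) (nat_lit 57799782224754838995) (ZL.cons (nat_lit 29736) (nat_lit 6) (nat_lit 115794673181452772388) (ZL.cons (nat_lit 29820) (nat_lit 6) (nat_lit 115823092677814217218) (ZL.cons (nat_lit 29904) (nat_lit 6) (nat_lit 115879945129476675312) (ZL.cons (nat_lit 29988) (nat_lit 6) (nat_lit 115965257460693184470) (ZL.cons (nat_lit 30072) (nat_lit 6) (nat_lit 116079070073781072272) (ZL.cons (nat_lit 30156) (nat_lit 6) (nat_lit 116221436868255734548) (ZL.cons (nat_lit 30240) (nat_lit 6) (nat_lit 116392425266356433276) (ZL.cons (nat_lit 30324) (nat_lit 6) (nat_lit 116592116244976202440) (ZL.cons (nat_lit 30408) (nat_lit 6) (nat_lit 116820604374010983302) (ZL.cons (nat_lit 30492) (nat_lit 6)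 (nat_lit 117077997861146150460) (ZL.cons (nat_lit 30576) (nat_lit 6) (nat_lit 116688805261373780742) (ZL.cons (nat_lit 30660) (nat_lit 6) (nat_lit 116343319095636134652) (ZL.cons (nat_lit 30744) (nat_lit 6) (nat_lit 116041375748175661282) (ZL.cons (nat_lit 30828) (nat_lit 6) (nat_lit 115782832224295520258) (ZL.cons (nat_lit 30912) (nat_lit 6) (nat_lit 115567566082639979688) (ZL.cons (nat_lit 30996) (nat_lit 6) (nat_lit 115395475377208490376) (ZL.cons (nat_lit 31080) (nat_lit 6) (nat_lit 115266478609075975178) (ZL.cons (nat_lit 31164) (nat_lit 6) (nat_lit 115180514687796469184) (ZL.cons (nat_lit 31248) (nat_lit 6) (nat_lit 115137542902471832196) (ZL.cons (nat_lit 31332) (nat_lit 3) (nat_lit 57623374528913454708) (ZL.cons (nat_lit 31416) (nat_lit 6) (nat_lit 115261113412565483410) (ZL.cons (nat_lit 31500) (nat_lit 6) (nat_lit 115304213279469750862) (ZL.cons (nat_lit 31584) (nat_lit 6) (nat_lit 115376069069826973676)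 (ZL.cons (nat_lit 31668) (nat_lit 6) (nat_lit 115476714813189532378) (ZL.cons (nat_lit 31752) (nat_lit 6) (nat_lit 115606198173490682812) (ZL.cons (nat_lit 31836) (nat_lit 6) (nat_lit 115764580471617299502) (ZL.cons (nat_lit 31920) (nat_lit 6) (nat_lit 115951936714450295638) (ZL.cons (nat_lit 32004) (nat_lit 6) (nat_lit 116168355630386472752) (ZL.cons (nat_lit 32088) (nat_lit 6) (nat_lit 116413939711358622544) (ZL.cons (nat_lit 32172) (nat_lit 6) (nat_lit 116050597097357625606) (ZL.cons (nat_lit 32256) (nat_lit 6) (nat_lit 115730404459772007674) (ZL.cons (nat_lit 32340) (nat_lit 6) (nat_lit 115453210161383968902) (ZL.cons (nat_lit 32424) (nat_lit 6) (nat_lit 115218882928181356838) (ZL.cons (nat_lit 32508) (nat_lit 6) (nat_lit 115027311787188760458) (ZL.cons (nat_lit 32592) (nat_lit 6) (nat_lit 114878406013912793836) (ZL.cons (nat_lit 32676) (nat_lit 6) (nat_lit 114772095089376680486) (ZL.cons (nat_lit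 32760) (nat_lit 6) (nat_lit 114708328666723790782) (ZL.cons (nat_lit 32844) (nat_lit 3) (nat_lit 57343538273687158253) (ZL.cons (nat_lit 32928) (nat_lit 6) (nat_lit 114739039274710993218) (ZL.cons (nat_lit 33012) (nat_lit 6) (nat_lit 114768083999992389834) (ZL.cons (nat_lit 33096) (nat_lit 6) (nat_lit 114826187205591422006) (ZL.cons (nat_lit 33180) (nat_lit 6) (nat_lit 114913376408094694364) (ZL.cons (nat_lit 33264) (nat_lit 6) (nat_lit 115029692898670515698) (ZL.cons (nat_lit 33348) (nat_lit 6) (nat_lit 115175191762623620546) (ZL.cons (nat_lit 33432) (nat_lit 6) (nat_lit 115349941905482534644) (ZL.cons (nat_lit 33516) (nat_lit 6) (nat_lit 115554026085631938730) (ZL.cons (nat_lit 33600) (nat_lit 6) (nat_lit 115787540953505484774) (ZL.cons (nat_lit 33684) (nat_lit 6) (nat_lit 115449491867656515994) (ZL.cons (nat_lit 33768) (nat_lit 6) (nat_lit 115154048279143332660) (ZL.cons (nat_lit 33852) (nat_lit 6)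 (nat_lit 114901070271432822848) (ZL.cons (nat_lit 33936) (nat_lit 6) (nat_lit 114690438038893154974) (ZL.cons (nat_lit 34020) (nat_lit 6) (nat_lit 114522051830056081284) (ZL.cons (nat_lit 34104) (nat_lit 6) (nat_lit 114395831900376516510) (ZL.cons (nat_lit 34188) (nat_lit 6) (nat_lit 114311718474467019450) (ZL.cons (nat_lit 34272) (nat_lit 6) (nat_lit 114269671717789292458) (ZL.cons (nat_lit 34356) (nat_lit 3) (nat_lit 57128311509873552589) (ZL.cons (nat_lit 34440) (nat_lit 6) (nat_lit 114271303390289927800) (ZL.cons (nat_lit 34524) (nat_lit 6) (nat_lit 114315351454266089136) (ZL.cons (nat_lit 34608) (nat_lit 6) (nat_lit 114388788072011170852) (ZL.cons (nat_lit 34692) (nat_lit 6) (nat_lit 114491648021727705842) (ZL.cons (nat_lit 34776) (nat_lit 6) (nat_lit 114623980015955481590) (ZL.cons (nat_lit 34860) (nat_lit 6) (nat_lit 114785846724640883846) (ZL.cons (nat_lit 34944) (nat_lit 6) (nat_lit 114977324804816205894)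 (ZL.cons (nat_lit 35028) (nat_lit 6) (nat_lit 115198504936902978910) (ZL.cons (nat_lit 35112) (nat_lit 6) (nat_lit 114885204900126444728) (ZL.cons (nat_lit 35196) (nat_lit 6) (nat_lit 114613977602290790354) (ZL.cons (nat_lit 35280) (nat_lit 6) (nat_lit 114384694595243224732) (ZL.cons (nat_lit 35364) (nat_lit 6) (nat_lit 114197247294859079548) (ZL.cons (nat_lit 35448) (nat_lit 6) (nat_lit 114051546929618407706) (ZL.cons (nat_lit 35532) (nat_lit 6) (nat_lit 113947524498565459222) (ZL.cons (nat_lit 35616) (nat_lit 6) (nat_lit 113885130738631124874) (ZL.cons (nat_lit 35700) (nat_lit 3) (nat_lit 56932168050651436079) (ZL.cons (nat_lit 35784) (nat_lit 6) (nat_lit 113813636184398474358) (ZL.cons (nat_lit 35868) (nat_lit 6) (nat_lit 113843319893636061700) (ZL.cons (nat_lit 35952) (nat_lit 6) (nat_lit 113902701369758272580) (ZL.cons (nat_lit 36036) (nat_lit 6) (nat_lit 113991808734716616928) (ZL.cons (nat_lit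 36120) (nat_lit 6) (nat_lit 114110684188085106332) (ZL.cons (nat_lit 36204) (nat_lit 6) (nat_lit 114259384027045179488) (ZL.cons (nat_lit 36288) (nat_lit 6) (nat_lit 114437978673046989694) (ZL.cons (nat_lit 36372) (nat_lit 6) (nat_lit 114646552705159680672) (ZL.cons (nat_lit 36456) (nat_lit 6) (nat_lit 114357468959060675450) (ZL.cons (nat_lit 36540) (nat_lit 6) (nat_lit 114109936661887965266) (ZL.cons (nat_lit 36624) (nat_lit 6) (nat_lit 113903838586995922334) (ZL.cons (nat_lit 36708) (nat_lit 6) (nat_lit 113739077130208178998) (ZL.cons (nat_lit 36792) (nat_lit 6) (nat_lit 113615574263594123446) (ZL.cons (nat_lit 36876) (nat_lit 6) (nat_lit 113533271498516337674) (ZL.cons (nat_lit 36960) (nat_lit 6) (nat_lit 113492129857931477602) (ZL.cons (nat_lit 37044) (nat_lit 3) (nat_lit 56697432819863686249) (ZL.cons (nat_lit 37128) (nat_lit 6) (nat_lit 113409868978422137218) (ZL.cons (nat_lit 37212) (nat_lit 6)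 (nat_lit 113454886099805774104) (ZL.cons (nat_lit 37296) (nat_lit 6) (nat_lit 113529938323141247616) (ZL.cons (nat_lit 37380) (nat_lit 6) (nat_lit 113635061191751546378) (ZL.cons (nat_lit 37464) (nat_lit 6) (nat_lit 113770304489852333190) (ZL.cons (nat_lit 37548) (nat_lit 6) (nat_lit 113935732266128814296) (ZL.cons (nat_lit 37632) (nat_lit 6) (nat_lit 114131422864067993432) (ZL.cons (nat_lit 37716) (nat_lit 6) (nat_lit 113866034118631932400) (ZL.cons (nat_lit 37800) (nat_lit 6) (nat_lit 113641686753614744906) (ZL.cons (nat_lit 37884) (nat_lit 6) (nat_lit 113458274522319103822) (ZL.cons (nat_lit 37968) (nat_lit 6) (nat_lit 113315710564157976776) (ZL.cons (nat_lit 38052) (nat_lit 6) (nat_lit 113213927363519083936) (ZL.cons (nat_lit 38136) (nat_lit 6) (nat_lit 113152876717790772440) (ZL.cons (nat_lit 38220) (nat_lit 3) (nat_lit 56566264857267082542) (ZL.cons (nat_lit 38304) (nat_lit 6) (nat_lit 113014793434413979548)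 (ZL.cons (nat_lit 38388) (nat_lit 6) (nat_lit 113045130185254793812) (ZL.cons (nat_lit 38472) (nat_lit 6) (nat_lit 113105818053851693330) (ZL.cons (nat_lit 38556) (nat_lit 6) (nat_lit 113196885780839121256) (ZL.cons (nat_lit 38640) (nat_lit 6) (nat_lit 113318376494181717426) (ZL.cons (nat_lit 38724) (nat_lit 6) (nat_lit 113470347729598912188) (ZL.cons (nat_lit 38808) (nat_lit 6) (nat_lit 113652871457812762224) (ZL.cons (nat_lit 38892) (nat_lit 6) (nat_lit 113410667644532223882) (ZL.cons (nat_lit 38976) (nat_lit 6) (nat_lit 113209006123111438236) (ZL.cons (nat_lit 39060) (nat_lit 6) (nat_lit 113047791390442413442) (ZL.cons (nat_lit 39144) (nat_lit 6) (nat_lit 112926947098256449108) (ZL.cons (nat_lit 39228) (nat_lit 6) (nat_lit 112846416016967030544) (ZL.cons (nat_lit 39312) (nat_lit 6) (nat_lit 112806160008566971764) (ZL.cons (nat_lit 39396) (nat_lit 3) (nat_lit 56328953080628054644) (ZL.cons (nat_lit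 39480) (nat_lit 6) (nat_lit 112673239573402158832) (ZL.cons (nat_lit 39564) (nat_lit 6) (nat_lit 112719247071456235728) (ZL.cons (nat_lit 39648) (nat_lit 6) (nat_lit 112795950443705089660) (ZL.cons (nat_lit 39732) (nat_lit 6) (nat_lit 112903386015424814994) (ZL.cons (nat_lit 39816) (nat_lit 6) (nat_lit 113041604666083819114) (ZL.cons (nat_lit 39900) (nat_lit 6) (nat_lit 113210671853438382806) (ZL.cons (nat_lit 39984) (nat_lit 6) (nat_lit 112991153883754246312) (ZL.cons (nat_lit 40068) (nat_lit 6) (nat_lit 112811689860960076956) (ZL.cons (nat_lit 40152) (nat_lit 6) (nat_lit 112672194794266214874) (ZL.cons (nat_lit 40236) (nat_lit 6) (nat_lit 112572602621429724816) (ZL.cons (nat_lit 40320) (nat_lit 6) (nat_lit 112512866177468558968) (ZL.cons (nat_lit 40404) (nat_lit 3) (nat_lit 56246478586162553772) (ZL.cons (nat_lit 40488) (nat_lit 6) (nat_lit 112339038143840690420) (ZL.cons (nat_lit 40572) (nat_lit 6)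 (nat_lit 112370042303200002596) (ZL.cons (nat_lit 40656) (nat_lit 6) (nat_lit 112432065304906033906) (ZL.cons (nat_lit 40740) (nat_lit 6) (nat_lit 112525136521887185246) (ZL.cons (nat_lit 40824) (nat_lit 6) (nat_lit 112649300030923318530) (ZL.cons (nat_lit 40908) (nat_lit 6) (nat_lit 112804614633519691580) (ZL.cons (nat_lit 40992) (nat_lit 6) (nat_lit 112607294162462171376) (ZL.cons (nat_lit 41076) (nat_lit 6) (nat_lit 112449549805643164732) (ZL.cons (nat_lit 41160) (nat_lit 6) (nat_lit 112331306858298776926) (ZL.cons (nat_lit 41244) (nat_lit 6) (nat_lit 112252509322790539584) (ZL.cons (nat_lit 41328) (nat_lit 6) (nat_lit 112213119882085981092) (ZL.cons (nat_lit 41412) (nat_lit 3) (nat_lit 56021183812525943921) (ZL.cons (nat_lit 41496) (nat_lit 6) (nat_lit 112058038372265150474) (ZL.cons (nat_lit 41580) (nat_lit 6) (nat_lit 112105058035276417064) (ZL.cons (nat_lit 41664) (nat_lit 6) (nat_lit 112183448881714745782)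 (ZL.cons (nat_lit 41748) (nat_lit 6) (nat_lit 112293248036012305072) (ZL.cons (nat_lit 41832) (nat_lit 6) (nat_lit 112434507496985807286) (ZL.cons (nat_lit 41916) (nat_lit 6) (nat_lit 112258906691903449794) (ZL.cons (nat_lit 42000) (nat_lit 6) (nat_lit 112122414454433917426) (ZL.cons (nat_lit 42084) (nat_lit 6) (nat_lit 112024966144417782336) (ZL.cons (nat_lit 42168) (nat_lit 6) (nat_lit 111966515612166152350) (ZL.cons (nat_lit 42252) (nat_lit 3) (nat_lit 55973517588302522641) (ZL.cons (nat_lit 42336) (nat_lit 6) (nat_lit 111783087519451510608) (ZL.cons (nat_lit 42420) (nat_lit 6) (nat_lit 111814773770316727654) (ZL.cons (nat_lit 42504) (nat_lit 6) (nat_lit 111878161278060291652) (ZL.cons (nat_lit 42588) (nat_lit 6) (nat_lit 111973280061815028320) (ZL.cons (nat_lit 42672) (nat_lit 6) (nat_lit 112100175168049956540) (ZL.cons (nat_lit 42756) (nat_lit 6) (nat_lit 111945826482317073324) (ZL.cons (nat_lit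 42840) (nat_lit 6) (nat_lit 111830128882175793672) (ZL.cons (nat_lit 42924) (nat_lit 6) (nat_lit 111753027575416265938) (ZL.cons (nat_lit 43008) (nat_lit 6) (nat_lit 111714486048308087376) (ZL.cons (nat_lit 43092) (nat_lit 3) (nat_lit 55772529766600303825) (ZL.cons (nat_lit 43176) (nat_lit 6) (nat_lit 111561075036852562064) (ZL.cons (nat_lit 43260) (nat_lit 6) (nat_lit 111609129132450076518) (ZL.cons (nat_lit 43344) (nat_lit 6) (nat_lit 111689244577510048466) (ZL.cons (nat_lit 43428) (nat_lit 6) (nat_lit 111801459313202154064) (ZL.cons (nat_lit 43512) (nat_lit 6) (nat_lit 111667905264797523564) (ZL.cons (nat_lit 43596) (nat_lit 6) (nat_lit 111572554667912851268) (ZL.cons (nat_lit 43680) (nat_lit 6) (nat_lit 111515362366296774958) (ZL.cons (nat_lit 43764) (nat_lit 3) (nat_lit 55748150637374851732) (ZL.cons (nat_lit 43848) (nat_lit 6) (nat_lit 111343841687929911822) (ZL.cons (nat_lit 43932) (nat_lit 6)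 (nat_lit 111376225036314163644) (ZL.cons (nat_lit 44016) (nat_lit 6) (nat_lit 111441007069228086048) (ZL.cons (nat_lit 44100) (nat_lit 6) (nat_lit 111538218466225426926) (ZL.cons (nat_lit 44184) (nat_lit 6) (nat_lit 111425011421077403782) (ZL.cons (nat_lit 44268) (nat_lit 6) (nat_lit 111349569829336182910) (ZL.cons (nat_lit 44352) (nat_lit 6) (nat_lit 111311857963281213668) (ZL.cons (nat_lit 44436) (nat_lit 3) (nat_lit 55581485422957911675) (ZL.cons (nat_lit 44520) (nat_lit 6) (nat_lit 111179338690648120758) (ZL.cons (nat_lit 44604) (nat_lit 6) (nat_lit 111228449976348780530) (ZL.cons (nat_lit 44688) (nat_lit 6) (nat_lit 111310327961200071864) (ZL.cons (nat_lit 44772) (nat_lit 6) (nat_lit 111217029921195500144) (ZL.cons (nat_lit 44856) (nat_lit 6) (nat_lit 111161068765015386340) (ZL.cons (nat_lit 44940) (nat_lit 3) (nat_lit 55571208995253744296) (ZL.cons (nat_lit 45024) (nat_lit 6) (nat_lit 111018376853777483710)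 (ZL.cons (nat_lit 45108) (nat_lit 6) (nat_lit 111051472635826189068) (ZL.cons (nat_lit 45192) (nat_lit 6) (nat_lit 111117679873464217770) (ZL.cons (nat_lit 45276) (nat_lit 6) (nat_lit 111043862269020753118) (ZL.cons (nat_lit 45360) (nat_lit 6) (nat_lit 111006962204387710808) (ZL.cons (nat_lit 45444) (nat_lit 3) (nat_lit 55446631648600125569) (ZL.cons (nat_lit 45528) (nat_lit 6) (nat_lit 110909991234516659088) (ZL.cons (nat_lit 45612) (nat_lit 6) (nat_lit 110960182968502733376) (ZL.cons (nat_lit 45696) (nat_lit 6) (nat_lit 110905426455606340218) (ZL.cons (nat_lit 45780) (nat_lit 3) (nat_lit 55443588582740597828) (ZL.cons (nat_lit 45864) (nat_lit 6) (nat_lit 110803938769486498010) (ZL.cons (nat_lit 45948) (nat_lit 6) (nat_lit 110837762658740274890) (ZL.cons (nat_lit 46032) (nat_lit 6) (nat_lit 110801656920351779480) (ZL.cons (nat_lit 46116) (nat_lit 3) (nat_lit 55366632508140321315) (ZL.cons (nat_lit 46200)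 (nat_lit 6) (nat_lit 110750360968218011560) (ZL.cons (nat_lit 46284) (nat_lit 3) (nat_lit 55366252259977330356) (ZL.cons (nat_lit 46368) (nat_lit 6) (nat_lit 110697936505137300742) (ZL.cons (nat_lit 46452) (nat_lit 1) (nat_lit 18446744073709551617) ZL.nil))))))))))))))))))))))))))))))))))))))))))))))))))))))))))))))))))))))))))))))))))))))))))))))))))))))))))))))))))))))))))))))))))))))))))))))))))))))))))))))))))))))))))))))))))))))))))))))))))))))))))))))))))))))))))))))))))))))))))))))))))))))))))))))))))))))))))))))))))))))))))))))))))))))))))))))))))))))))))))))))))))))))))))))))))))))))))))))))))))))))))))))))))))))))))))))))))))))))))))))))))))))))))))))))))))))))))))))))))))))))))))))))))))))))))))))))))))))))))))))))))))))))))))))))))))))))))))))))))))))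

noncomputable def vl : XL := ⟨(nat_lit 0), (nat_lit 0), (nat_lit 536870912), (nat_lit 0), (nat_lit 0), (nat_lit 0), (nat_lit 0), (nat_lit 0), (nat_lit 0), (nat_lit 1), (nat_lit 0), (nat_lit 1), (nat_lit 0), (nat_lit 0), (nat_lit 0), (nat_lit 0)⟩

noncomputable def cp0 : Nat := (nat_lit 547826764694184565153942896828789365248649639232498462145618143007007005261675354066108195504417150922169850432453659213263533427280143947558103162220079279603498485504803009209021559205189602019210238440079257923048765765901338945329456727145252774914506786595212112713159431404761916937742961706795759222831058480580170502743332297585699246905021355224124508571763581495795006557853597766067463007099912101716206394805924455574404050985811520384633943706393998757861035797729646651944617109190004853430606264091706043625221164350775271579486139728503044808436235023096848729048808466306226715485906793459427895841074877918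9372112381296828059188957586521845591012502984537983706819325262980712088440099637091280879848518171832219966113638043304533933947987550800099870592737758137709388552237202336606142997552715931737466269939037969329593043578725285203567086524004289775299372378511601062176643029459019510860747401311615917602055035432060397462193003562064154791310352090150294673939567721440643459609823928301640617822573528397932298007727463430571911534819102120287951269375749838324495795510880810988687123476602245018885599345065905247534495049220473595751065399172400284775700798959187313321589952237443810997335925656516204934170013435121961119956667856753005311152318686729170993948874690047414544033709065838161904614565354849059661589623533514367434556727410226177856270729386733458019032327473665979712593985270559049268252603490273952425819082251866174804646763001382005794506004044843676285013470163250391300476145762931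0634953146033317929363241340281653565997688902041767714366796092466651582736930528917536095232825174093203258557443149652681141102827951244292136162415501651739057568785933350491703631916544912585730167943947318573827551267810240972022781852956738902079548235124378648947467812891088272962303725134937014650531665085384671854542755806604657975085803269986922191511177847156859896070083810549144779251938459850522606717079222649586374187197480211855791584668013034177241328468463606966108111623175119481300084093105798627647481997379176038728580447405672559450786403474005100780453848228829962949592872837761085055979033526432963658505739906118922941882488297326543230870147535352473362721975575723654847285790087374640167762869975702333067971068578421193306822846641664627459125090914569123544490302384653186512911392384141777584024768870133264996051420991149282558848008042764878026341999941575202633731335958179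2717251594911473841688481280002048658715426346395415375165930121385857839991572417187755243323096088930065151139610315528286011925011100736057733111244499521090128037037342603027744087969822835529500555945206579989185163769044479493924420356413888016095998362731196937347775910858880267666983612319969015951426911557673554185806021831806518833447089551764663652076304906106319424783150733712955850915133678244493513910486939505000442613145453381691300613646935107139189625785950229695054234985998444708063124857855116886494903554741155606884838957471708471174551073419188313438837245031825771189684486083163597997904000309298430005013199361703288104747549998736797951768539727653936652331180448498372208870590940743020407312680451168496802992506796444904980624090151152368221724777101859608805152798606414120251067612912555767318371856852655621002193675682063366873079383446444884493731776485986886246414831459331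0483087361509536407766154239111805982113001456374044270526725519186362048254866464518332751479191288131197743901227488223031718231161985327899785562628582374745866121158448774284950127490843767612118422562325403653837061652808983343777842750325909440984554592516389268112101119092214813636461814455531509636469212155864399214617930051698041610108086084724874704601796339484439693507946851945694651828208574588586290658412070991735171060078166697116110754480910465243549143758626924639876159136418879763289778739083542791565296575004989272169249030805231579259194317855685797020043185104825077637963575498345065068536108070170702877117643257328938369777680154748272832368971881976605797422032307912956503680944671783100600414135128404274902061304329194056600619159739209750222974085935990421327208127239721501728386971659255929140243803406410706648678702705779525179858484944440736239011438483088210584743502761758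5347852070373547705553023490367682065289356650256908944302052312966551924200609851565359639371146023736415923186060434084123454301840407134445044992631843802629314609587042527492944222645270105293726361342692618904321952643179986860941937096396625536164083781981705210886011759259179632058461568942292371118434094213399163360114393530043540492878663406034272147723078987880872222610445721287021112076800635967609911943508526500067754815189333951940598344054270324521901893670901167284724836924113545248793626580868914680679929474599453748692842312531597169606388695124770555396630909375253182690985289185587599828047010669536651059161837308692125976894802528387141614151242432143885226977064303594448996180182550867439278140967480933891990600523937719968963766302745453915918428790480779639021889345033762329640006716166808871289685957294708831129439910538520139029146723295962117677999419902590330148605882965849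9313343298534543187654923829056993580936497329569554787733335176588856077217940512097625516311794164493656530008568884499286773199780555698786259294052115759519037606934678048824055046846113686979365597050637767624221951527576008496266962314839490785321188915732545636532446566916100165806662972285265761167469616783814913847887312074863261040909266488144187193463227732324262089837865418925815996585554187505887231188228847617335777907123503234826126791141746111991635124126868710551021420769849145607712938183463068501063269743935490046852185444217575943755825610956049808477652094968478854797800653927088896421036499801604790812427029252826124303916609207054405893967474541024912015882835996067517641910876691745555048001521998550793876600990115162854471304736166423779769666474355224120402598004761045946403603933922897084369860957896000418894089115666389830608679416172935428894583493822947518785044324088513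4409362013318262736147631907528544994551926485413435619217515436333952671434469587935232801943829684631136036659752044070656852791651307410660292903991547944870048707101278999332748749381597444928888646207490122733864297562652565778383309137167411627506209680966088262866869179879681897782241806899211761565297330604901256015045790368813051142183908091612330652121623968308651413027188381788597037751356177332079199723383218988297739005343155965076500626507148622239307334162864654611152181110866665090274540923346950675730963107837536997006051169086130846960895012869303064106364784422677379163364181612362384293611280474504365136186128978470586830629581605581973752760588236022168084489613349269935380255215082884295145122539618350985992295784490051647676704324297141359950052178145759455337175894962193818049021052485275698765539530429629207068946789552665799655704475277537306959069293901822708982068934156338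0596880000558408705205385127408753025297162593774038422752374780420628794051176541970100167470889934346385879372524876230399718550776331056286142676189257558739491425184173660958349862558540762857980708139620295226665824145373727000307131773337652066024117522359522898210956979704466501927264399232575114884379109451745061192721154706066398195792482496784944402905816994936316363487218360185391474404196046698244686130028114906166008230967490275277822022502978029022288914044953330533214907453842024012282309225376799360237197665235238492671746816289144246843427343297053958875401967549352192606978968187014631320015875205590384622899905124637535898200816424634175551629748883351290589238921612949433868302642621481217390922108431011113284922926301369414354314230379568296447584065325205905988789838479023320180528873177584268804102259378595603055284172992345289719287018388318947710820026345519419878318966768235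8716720843221240457465555826152704426251724737517009565577546122257607356337797366072310804662935269427755782083824751627591991618799807684483660451406765370021824031191110598637028196961590700153132480841441393129327877355414076548813041598586448221657101653139662212956117153769886190802095996007591244013184156665430287530064374928558425061320051800277078470961413887903405788182257975519872320895330481099201115151112081827747695565221761637649096799456295744055772270172716976694399400690821164822099963279373940953290238785115171020647666090536983756245782280603313514127377876894597136363339341368356823895217441819728033503806034820690590158678442116830995128439645264255545435678136631255866834670612408298625257631801408984167975610461828486822432306032486862423507300870607121458364954829373394137783495072104408900931119745066044834700117021725023398292632289083599871202653251267913970969655381465648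1381716946596054136154484789557708875457212311769062816759359799406995137181560503355834039857865392401288283922075941938601265966300760075938232485630497937311098697583627103786720526120783625162027538704768743190823979468401488688264399424450269300033563259483335002825084468654816478961395015140487675877927977546014251617647556868949498553616028515443982327473410035615578324475000908867502364270464000526673588480635055964811922164253444243420508857447507396890660523331633766122127946819033956720388224123740065225120447934742922258942143400125961352408750743015058373143572183601699792083251531809883420047645513221819294423080599616298801941774667789570834045796702147670642536304951149693886520146603784452054862209330334022392446341381910710823881090696469066131644568561385594497682136788060980893985221578207465403906621386678084753202156522381583933991210355030108681905151626350824052553953248131950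1089394600000681706448294494348583408982606490146380316938671118137698140811632245490549331919311448307802361304389121570565526238116639478567424744194867138792485448673737999243831860223406517391986626292026414374489360319443214661481120029868524238144773261436496411693372105450129540151569112664911899558175308819124950352072906901906113438489932115390825699617622660035996854810727348527929179307454320795664038910225801746764171037037674558395232810488700070845711635055405463066688113710958508793059123483137554614521275165191825919161676665518783555300792071181446196730400186095958513775469557938951122248001643825824777629389031847728728622212953176848871384603846260883414449789492016027195766574124483053403914229980012692941787311803830560862060566775429269965467922077415584095080735715722840550993696187860788461827737311197353170102348685075992109047592064119695535500926947782637424376197733386464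5218155001298046062837874141159624455079753759801929821035698413352602269041720405516684265985752461721925689001539356963735894752271397041133310977242100339993114618453440035780760370641610698804566846681474483774550905692437115329198242428572079534732856935792033111596177373035390004495551070084062678207969383314693511449102175032517136546812910508140479100077914900904275827508535071582997959310979464907221561737673973881393067010716439745141509664650130350572962141332500392879907056801409735854395327905140108521471836880976162718145370356460486601665235417130239972608768467417862220416778027834086389989164067495675051907601970654982197836802383281692120101771299264790046500167262864463137074987376114218954323460853189374510606874927855383499621303585544888192868339047237667000833300185333649254024945816639173926534889234909380015246188504376370694106412309440603291123276202006742045077379665747209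1397002189739796903765746429470037524119490914844296112740336982036993560377167423972980612846177276320608418496594386592656621006466324211821107907124988107817663310929298816877224199792453458724732405700843430424782967233042693203196804875742056308175795250220205413915865075957578592515409042721431216561279963636354506043710513182504066573051020359006784514753614008729630915949630566764804089686707086887643173537469343559450066151129639368437153069944220071494526074416282333988629535296089529945059077567336313172904383010392501656433821943771412366641734584626131624723616930167064654270001299229043392381707178057714799706579217637758212458595289291623381249327108279765760892959752730113183557267783091377916556928299176154286134037650658253714238544264967558880141019191640352893106037991434430814824639500485159051463394403612240722101394457631108877276612755188578015635647547213740884574411170208709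1513270727767155137888758709582657568816031315380394626009089602592971919749852221989064684693037848525652831279774516987560867130088421935572002816175314665123440010192180447357469650576273673160124962013453662109953663290212905401229699935270213510018176663297049448829592258268981203947926174066354537477874993597142511058615861323397990220078175004267863365917459745197950850473902032784377113552874637036169523299715521143656097216005467481043697887532910431200798233602170081782566039582063228682190891309873596364851300555161371772322516602692297116217168327791718376785631698918020907610517749374783730287971777141316623066176871135123669109920721147856032322961089511861945444937179675684357490794978341023128968567842465092436575618993192414570078444464485907527113399797649955468063353898431315622779931224927325174478825183932543763678500348445205021435385501776205162300318415805100529490703431111799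8730099443343397426421228035669639739786197845388316737876426207004056271275827712291354249630238866861747892017293139541961681603563005846205556460183784222829787992328877046907677249169289672174638575334596204205899809469650827372465584313582240892714000920809590029233368206238615432961987924393731097165578244249800304436558668886635080152513804329129359696682053290769453938532196191988378477018981410235815256006760400071340483429263352916066889658969264865868167233903397658109634295777088292456465086968355334552145749818289919741671097179700421350764110829434301429464207268747864122064896)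

noncomputable def cp1 : Nat := (nat_lit 9608121023091212355648943113220621751329746658648127004211131279133761696475901599265242287634981364588801278943379243477067579162008205141379792955155663437428351812101453007225279434806901674041924129886055863348687296617248675472077920829983601335175455240943192422002325376977467195660929655615042136511152615836543477573924866416619708113705754272736677318825210078493139257372694033206594455361329957875123261475108432899105336329710520318425223590332254729008045694618023190180770089516350523208277992742058464935865456795968446630880168546816478603318459940482719926895571606835500066624332113264087341495998489354080985205580737379160596430751224267578865272331907904307631333341832617566386224428329509178537570748573116068272521678625588575113014479727117220437700566203091019446833645852151582270414985133054809415749756169543562504829139222902970643287130802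6885879996014360400556310243718036631873211704208050045290932287702226582349782714322723186136708766568065476040394949657803160509702191748356608269532350901412709432877268279163415302979699114899330252184400924807544892344745783277591222923376109402182326897360770837958360438797569681734610757881751195539518889006852442036315795265898525801738002788437787418053217355899327133346890954901905933115812616706962682941401677402681430731962640987438462220321789479951971265053055244489770359368770333622690325392659114116876499469879065193376285168634383452204486871662059947164858571464028662115246014545575550506885461597387024984011957723403336262562754407205262323351033379265597867414432317689829598688100855332365335385111704636502609854188062307465425382643140601834106429298621169669874953688280089117860899371072923502368913202820628381881131219559074183996345471525371947837321979236399698520689686600335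3838728137511725327402441767901692527684806558375666922305324943523575414557855524094694680337510628633114328178323458939656244454181873021908059757454557327043509921183864355723099931775392802707394026644362366236698125271112571607294793043306723730784036348440052305991929540321812539370967997813677345016274952005139773129743577988812969632281856727952761407801188231007098724211930386229582559369572969785219700990282540866439964997731811026329469827723663448318963659944131852087970811178036133156900703743727148157780674758540742357332797812111529052937840455064449778849038486085786208425985413055704471252185781884185094790374853796946094967635166924821191156956570232342927608430080146961475336915908351480407224476927652355409816439443211916524711787525274543658142790958618528827093326601869244226794391143895522771387087295478614746911800316033432937630704010653896399412833746258000310544439976519873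8196147002964525896405343105432107784387156498991283448651925999082675701069787311564207471570980859299506468901318393494371847335012493113405406041978196457258652956573472188223375164523191025299052294121747204737296995780563177111919248424584838605256275779406313016075340176878144000528965328677983725554577754038836240855294201272835654500477357317944121068471187840967396565927743417252809475013984100099690143078560374465016191299691642709568789297841298880912105245321481582900676180216418023388516140627643189588177346598230644070277321257093236121591777633911647355209737434603311204119298244320142785377159788451162993119760207827630053750625395078351607654219127146690015064910231201476114287909620308836868307122551300517725442750111522904931621309410006658661524369143432080746601198812938900578076842987629293662832527621777549965076274492635511785071284582690507438870532900611761770861627913003884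0043570549011559558577720334256735796200067690909826505967097162782585860872186546568684770355838418770619348780481843389799068430380465356493438553178766346192577526279302758640049042694705036133930771772764528471577341365592922636465459693644461650475411655798451707352623551436717010297137960516717567540137043809793337174859523406194994605332511943182833627413044125676260432470795133800644756589015562205062709500912972278065539239090622096631945075010593096458742152691919727640862501837702950128361983933435918006713290797867660235379791195325496403514411107981827193977503521641630477145684898398344480725907816614010450725814409861423563476104054892105701385768494961237175772960923986248846496436034640084668314054622691720096802654362472730385666435388848480208826753869533498633928419936936746713529121087747279225629316018256961103352535098416383259358100422605024907701318242822241652089416304699526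0611998095099309558182149745555866832824865524389580493143692114417890469145946148673804840250372116334181727102142964988323800923612705568360649268781702690322513828192738357480239484327423433590241447953426782825815402147691738791118302216249462925025795374819535193868480612938217824181733033558723867435967320158827479761555506738033753272592762019513511801590551838791457530305025767185920174410146238005650848921900953359752426567912953097042174306345023620510581954425765590721652060121841383045805303319465184834589818852825342268287570042941736798075405446460475308183391103109474465732653806238753255412622266052180072061032754980326474207085241643627219167163587698140678775977868059524388618631200463540098079022077807904353836008102568099353045166790302842589267998261450047959318339230836707216967013195865197767574041371347082826453108262903673921869213939512158404254709216440619703266591409836902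2494474210502358494404099153006250085112371871778101105248811421709320285366489141809085032121206908124776532576997359872736510612601847799643633520640052201057202143681510037983998323504257434155110768456644489831024904175448831368175637478618881613173628609905910405348393716415775747572529809017221817831429563331402366564956342259741923830751963494940388234847993980403678583548677655272089150750535481678884370499675194714614136897101636229443715144425028050802425954531881540540185412391014266878403219897481048460922587689136863851046789691940120630428443703843175487659671216024638102338234017762584623466383742066900915010172441922841266201149151251194504185156706934601596950979483939299291231189891155510420229097058117810802537883190659500726720682835436021758644875949433480319748224088173480141068579590293469657481264239069137647543286825903597290994709904844750017228859093716294191468382061360119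7500570443794008125050244382000216742393109907781529860251410048361676934291397703918790833087682042000357008735768045943658310308884099375768516708713921769678595072104543682731427784605827087462434293744946029970828226423121507685692367436261001373987617475534311075815722081314662381037973837672700253152203076243879256764443821677808268209400404180120296085040967483249725811046233275318583657218273532327327979248892683407060756019143461072737472616837986093960445165042870576496035233280456259434156896159717550956485291426633554804464710207047822949005936874195993011213330283081620665852861876350345997267598399663293416641921902228363158750207556291758336570401777763244203999368183653762201846809946841129375760560953590492893521463758714829227716727303537124812865484649816430714994656507557246606941454164812281996873851090309894427636124798821016021580344203486643252224446735476854533457799513979029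0170458555458165792845352531873621525242869373549525079888761874340021336217019439880585727331576891196440697712873730210553172140137518065944195612696208794421558547423787685452091738446012852817033588305617286035442839950007030593128192948630091231862076823784613964615691469747083228303889784940195967613216228483479004870229522909379277385659822509169326921980763421759525302574120292058016560818028059584586350171723235854852672105893833145436303008981320594073806509407584707309595997521393337806183342376450675845074755906870985436940984867208366385309724516050039503851007487430723933824054056197231856368985020558273347347526550775065788641082391790027865122561969474397933496309108021624388718705871759017254595228100399539567100070083233796817952266719522076008471454057510968607525705628069499579088782367694865852877420625797619255959699954791968024643678913131996828726034872627593822301965081880863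2738192597779390231538466813793132043296717675570076149891185170270972936953988426165992279659026734535768034412883400352087842709481360056322247442869635151115546851645231658128702402630337559026458653264918576148934075921580563313997302593268197791294449948272535078833535032919718182018213054964072007058671249552469432824521420228308393305193624719394469649818205520247475214069593323907128793133280086119168291882788964852469256534429182184386677069243846157017111776521826652661664403493052858677913667035940381593109214074298487235346983924997503324399421776817535362746972696938917636671054707166254074578676460793771943552389337512272357296330843307417084578281118537107620683708812231070016796246011322814191469434882949545214664960440675704634940649460049080921296628553928135988247394897084894787909532575212571257073662530143355268350970703436346696017853671206677123539541946312764088425264946683147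4276096914803475031783625766577973708720320975013549715398846729822441509178168752090626522646964329589248115845813965366045202448317216828707492782729337670711211686496088082255094569788248949040284245230356822280522578645487804954214674197350814002789884212270707527867359999427017496312300640192760627009767162188073199270941402518827426037512429866414069977311276190194478978546322450892478637244802780819320562774788437550952285768651672905131119580157837277847592055299882232953504011879678608946875564062775781563722549570130588887088501503735177487999633178754658499433086999937259210391280903575187885560677641658597468591206517819747735529544198753002416796255011460911012928415867630211459416966325028037965118410545036715771166915191599009950131756164990151431847101308886733037851720982730277119543381876583863633119498129180679737767812943672324364391790828756808846528701895502037231471483460614699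7299420182754330914401264693946850437816535857628519092866984258350507977778985808560098236769642791083204895936447030309330939193347934109774996523792993821073375148554480575257956857057493780268212372992556695905307178267678803298172980187884916537844875341988848024204052462501981867760284524053491419376420840495735818749231391578982207968049634931088444575286509938348169885878445525309888365182948272254682630295959669268703272393506240087256809828818515110047572129485839036724689881584219053025326764455469763860531589219681828336765996369435987703395664252838549678913862320148776169723260748501018868482344479024032666296430583745669097208041875567870965317359143812904642028917468721235653318871221767601564860431719153059530628526845960641069674109785502055156875113278065469367330797372655787403137065472369488746954268216355770627441651927056240959757455046833944408194826594659676465633044078326931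0526157974321571695394758952565771512587413337649211658018439958164546841914723019318141470243322268473821465612652365016817169004966228602097468541811767722963528099429247975987932150794690448652898884736698010751728469535373796024984779881549589459350043457679948263682017389588819294198489004855204371975478649100818802813052684679680013485222259640629683588090686293820377489677620484540292605609561053066712261389967774877324689689566118200544385051853076785234239405670503270818232857152721118814964065924648000495846270554005912962900894415270494732733242101877214384704416182400632614916628707956286438727407949932621972484842206022634744924374596644470286040567249369595888383689546072924493956196647405282420707679505897590198695812969038472656830858667129454805721946748321991100430090492562299735752739595143051859824263918242669742283104325619097698768116462936493545767791985983127502242983290715387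0433826139088271207395870558518780209487175575163367411581505694545821293608490191055938739327674789909809049731296900929931229304194973083172919322557712625366753453213815588852436914695151602521165450923902083299592991615523470197993446058986173822793302223380622901170239581101100726016125509551905489053072832686457847992909608254857823637126300695354908868034876625033415299441480495425223577319317249938891481280873358274852108848813964577498869994121576176955731765478591320136593998366920720393049440021653751185404975099389033008448892697256328910208224752913624726777550166925673235347135733436186306681161853463253652700450577623932905882133785352321127059399035827238553347928060324257222185800770020918633465038689673665185148626009481039292845924162005183865015446400630054374176455694025465172733713356117000388184486993653009706557444952377957038360401873754919205221181751994755078645720124993129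9336854892722551132345921912009643941120591542821446584209875128590444162683677623632321703493119585991145842565445677021494809072605585060797884010977399111428453340187690798666057618556639535239563799530443801690917657092405417890867450787332110333505261242186542078671199227746048548422645256129553690510224526301393695657604632515373027709810449585866923676742387405827948142872209757369638752730522199273387970180032926067754571229369357547503358677442852809353434759759361869678941351049192753686543705947461529755384098348606380928116154624859728953637576029754382869580486330997222691754894996308688910182989274756602785711281497190253919865738554591974270182288103331391411534411052208086289531054497707129540567178770643501411857521908364187566300463998245917414087094241639298515804038557157703193876335127373386920643383444183790254804900943812686658637198542563661351137955981814446887069001738468584551817187010748438369708563230239264208205273343688413500946981969083510773374547538746976536565209353808543370723536711075312708351374897229775811258630617349111506428825143332363744161821450487659761532852947945751778066128654138492600493944483997882816837097689791221689727245938138873514369208811052045242334040758261900962389209430023279373975552)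

noncomputable def rc0 : Nat := (nat_lit 5816158375939992545852841760148374032776212078779743426315554769705659136587322419172606371241884041522852661188253187902957251896715254572375785884358397841391804405284506408556430641774756517410374919704623811160499792140494827486737451354574794439440065371887210757873148691353940341081100114366392216797041430123163216898533463820855234491852089503706710080398295130582719348015503791697420081574704414921257910959052820494659131331562833120143787920455564565605121399933812948551613547874013249721319579052008811464707268005478159945313599536994990930697814381244236105434114474581091356604295170221193186593284115038883226529409309067565652655173150793525814535280547996457059758202659474437910192343193326311979902406683253399740129768534743961406338323250849817200514995896623917410458511896165106297555228002934760471744643241554194443653978121026791385504089633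0922469107629327434766556989250579406222345220002763154570008817510295390042522374369899437007596851251705137574182324114419897221283170042354958749560768580362051565063064807599026982918780150032362523765507788403411381053740106600657268769339794656808815323382001919131817418682002136426625652260600645258109919348756583489437288918385537827190944663913516940585291563249951299560411064359253616863460247809392104877492897958471356956808907354651409104951321432947515702828185027399082018120772916134463763895070373987263748559443379671121805263731345636667396607503196722110017340608169828547536269189524593503783131589175314098038608952592423638665421075866212895462681970685655791114634384891987254517018327708201018284280231438667047673293214907393565678155554886027631318338631665685795543577003666325993743627168738764242017979019901380258475204621871846046713181383582861322259214671801235510322155181410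5222770037208336980010762138117323604876166030103234660064442650657462533656641311290016453880335190908242371098755914138759692004627049901745419848993277136347559168142604834755677818850328547287481554963728392038873420942129708455934599610071894241571851645662534428041723530888824867074478707952326008467583105082940566196545432451680741973061973373506552164773060048421133149556620527842043948784137695551597785256432653825518744636454921626695312920323171892511125167378502633300182278877526433899000599018158717299995351211487991491993548786424498059825570174015739309276185511736537479039275569377482643163706263094463454496655153931627147468874368230191336422604084868642495865101238352016446054881393064906060219644908038560178513422013375657321586787418325055022247558282656128120511638239721114382374242950603226642244111201767813038399405065871094569511347267639154852046795827482480878420226300534868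8373596062961328272315272428846792957850816926799577365833265964445707191971592751398502987616139866396626715233272837035015107975263509473351336023954746440212949737724968541893463191870171258084789857386589755002087964072100310927955871311879646345864465484360188184271607707958339092957599185980534872904553023368594613789896654130841051714356233565150840406453579451389522516376020818690925690513070293396519508080088341784657392587018889912059513895937841338792524725862957927387071776122347502200255188152237905826596361872144406734547761930737830058286533387815475490480630485556809866377813542498969572660693238410522712315341975791971040537348923725910370551039426282316614184332439531597642048597821398641872262419083231403316874703395665450380693114830538809726135196436500808671506019473975545664558332225074429997288123818463117247168419333580934102049800814812859903229079777859557484277989782542260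2179788655046963473227896239533259700867663304384592497734976975690220398054239104493561381791301748141477703171924795995083126812966566759326475040778214267061475761407304826818600835736924313098936730139614061697582405560126240856545927290355005113363031983764728234517889730324000309939634844258444135126333373551947464251394406762175788893006767815125078328303221108996105080847563259244222233730769641022494986511739881832409045115340139707782843612376955619708578971423593042285646114175380296756578855492295346252780551378620517322484883940670036794400043150821642244201990926697550440118483658606024617520010269861692222757383037530419104526290735867201226798767414332677902256808459721096040849742670087985668582983618170767879101702538601154695122359047953255071606034636710344833739174149407276896446341280101327328478995888630001311200703199394127301266487681922039658747044909355829302498891064056532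5550478220199290608283050804281727768734460052408832795826672988806468875689582574519905590289391853101797133153646030588464781865443576013339119908950464516022804828217930415417449291705684521930059620703763726685141878539236525077559569033636459962668052774990853309526929367975556339250496639268091854962643430216929889009778423663520563447011849857238277316946248049975971769650310302556214741978354677977236307285059794353131043967540694504055470338295655303225311048803956517465623232091097517153551580025852728737987399066744037288131107123447262634062001556727312326273834696951765254576416511833851745866326040512960533070101626236138499061173029889572989932582123308635543508124213203975382750191158927520883907908684462111960956040997753444021838271875635790735682769212668173134004633585231168271378292365005510871450304395523396384541489200329169858440847697894438265419633354440671963776606182818375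1448774393008719424796073929679071642409979130719871472909086768983887677375871013906915006325383900600190260507835194520551935906172216608734627866404795083511005587908530211108118603307353012439962731179054626679996075093442199225570742132415414791251944051348635274800428538742580191242335444757131928557668866739474392052519068943211135362039627032698423444433407398912189533362237322524260512104694206156623899271656930195131309961005624468545335493200170160015686515215585961008171624282946774402383430895380891216778962212435648840195924618839507916717115156602801137528159213381488722260091760391215745732954076540629630834710328578063560657099578333607701212944024144267274906704872738881881432649695018000475864072214151647020032352249544364290583864722353314330795506901272780864360537211990974971410669140288747369699214566184820419332805034171244299064457546404117142828634891756189501818554759048015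0439450532090635001697622596052223081447076856867572567702969390276506307908722641887543821173757420827041212152930839963941946781264377791816509113316448724084532599468069590859917503132225346359413607366925055756070339368192798862587597589793951490382165128766407217952992900307086620711410856881470016463259503682824229366645284547085121713388856906053265235975399604847697714313155312242083022274755584118631795925432647158339780036547371530651540700527094304447826460036150694775888351685465116292914544664047512738389540638598048044022665700562105999315819603067393895745033043820410101058412191349554482425686300936412350936496845804418607284540756151259618774242549241842814682967547876371480640210320117621712255021749284144778283594178162351314980014478331337003181297594791296733212887904413029887302212837899348774314480418118849948190206747912589034736619997555063475069503522157211955520658111493162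4152641430118541850518321618277113420326745877872415621084224707522899307668635159239854547045667032775324682812325034299382857127164543761308901032245651357912376854092206436959008572019611192151658018275187081845924039300965337183206161101338498805452049976773978436550788457460812770778648883052410460378833003990513397387706407801336687710650541013193841296980280920334197395844242846534162977574078465971813067692122165162257909573559151529718251849379356413797201508861078658293043431554616002596531684952728584700033394479215234177465230327616042731436913984591300294015981707364502836063785803462890485293786305031313155344061926731106182152251465716868134135928132289758114516590053746573240222060195202564569837551245970006358172915394774898708818465398958938037904433817827145294601407111131470680172838367250846595482075003771480562077392729210138331601303815631751859700118489732950092815656657687945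1719111480655930149073014835958414300961188772392847094493672882678570870035916886514951224767059783739135386081825529157542738441660311177652896102894561159557420646667288939993923315521735837626734713720142016357263169170727516769997535002208334308497231155871305843463693333150986786467020471987259929109652916906461643567267367966351481138183474270489964933745616612174365999679950264125339676944135453472089534222921953698663150070214617169127424325750397338962541218087943281333593668655715269143253739497997964259096534284725878306811159372196039381657276702435734557031635936001750776969956037617888575398311906415348712180729765699956167092706872854633747404849667691848623890489749982329281555617951760534257391023186254563285778890650700191293461815452746692721245350428695511473606154059838638145831764886421079233574901903159560747108886595815847555713970642141190022267962203008859356301173021083083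5022177078997967235387283728574063453778755798181923719595672598655138346524912530634795863057808166131084170279898220200699862164544652101374036391930928192333384542341214065992108770984050807387900749345137273070665206865521934143842906558638447147604804355420831948467059351604194544783037516335597392798022160989790028894486570482641819378867732479050596140167663849965542366908803438367041218977293580502921279518593855438205111746481411662091007025321845510221504337578567790494188637268346905122428389281406689876004225328869467594504485171972830642478520110636111161151902092568294156820704215116185452296206436585686032267153613526298310162851281496007631154659084493464728178633355747054964598425451825377710685767454793479125768377117136678097780880094853833278601676413602361843614735894352355528915587209064788030798717848017292948792470544878166982185563099661656435330714491722353172878621167116971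2416909128807520653461865771562363643631994371508879055249913249269836810202058075618880400020066551099996752899156206562999733947728700911891815387475764148536951161040252098240275662062466611108015351999873304756997481057612743767612110314461127106058440762987661433160841589600040733954600393090082899444531922192739032199838312688268468720624880872956512228635638268794394634536990089360297828750256008120943645046991522650212332700485162056855623108525362974377783303008121486209428395958030944976731548272391771645534442150747235744908733082653846426384415610628733499896387668664192414072196718462610307814818727797526033235147930099854001921104691139473557859171295850760468181260902616273193097406020262921614530306388772111948663857048496756389253748085114630814485617272842278241053982712754376184194931782380373371698430551002370250163178172980187936510655065189632263371024856273936809670244343213556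5033331831108905939426922469647167679901833847475622234135582306832851824411870083256082664284865641845767607714184044252772131265329405285999692728497382856352152178373482045838072389497981923746057501935397106339777376651205355342005040406909112735504531041106587822845767767732265205128084720952010702716605605872139915898287965813567257982148423088732484596193004120194551356146636048488476206381468231448490793124929518668524481499052496375725439971911433289752078879315930341338336354608594122552709522652866703265311659965928010944125940983439761132027805181158982844564401702189809271377317841472245400714755519040078223191733896837024969963363949173076894763499952533227510467725655315598436120153000044808406681669065606580664259875050758799864458961161971941427540500035305496190120957979785128344834504344377839063726288256418514559603718981016266464785309403082192248678643344664472651512943967843382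2948597771634352680246514128243230389040075658608911732530414677220766486107415931681919178393956840711300329831943227189294963367758564372237145615260988534185779256424879662574434252963687389143367010674129928508215645725808212427612096013061677925475215748684254088647771005974742242068753163249111648119792502038916374407595693837571053235636267593189548059473453273589289172928587536144778840912996351317289756056424070320808253591901384207722589867550573145772842264526328356427266977696973813687794662257803004675635944440772372907478649037900844926764969716006497288168446900150923686849474579498549789647421679179123038531085278570332083852244596076507742249574693884424091944017334313838322190594432508276761337257808894748560043064479924713630913779013849934097149036063291269209235204558093651986320616657248843238925933283623047825046503284838708551998492663448728798683411750402803928070522103223482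9979050633166170632604841194996850968156400465823834516427062462295301834066041793986374448709844156075243441427653859983554374938533748189096333352293416341864483084201463564392180532368425819248055964781013275004898177720377930377914246128782396326100951965137003492412861457391071529294975161174342721478102800615511048282152300771956507352862629892229729496942191574782651769692666835602724916213752804240339830095225316906432428935834767506513162291496306492598164563066904800095351502780668553770596284770454977107458103815705126687824369110616297543580437195551985081106703572851597913213422352483935012989714835686397687967870551714713748826072656878623582312327321090914643550897641581531619165026028348111782142341391414396435491341716821135630465504137291485304925535017907650776011036501140667545995904423809197143351917761866817888449534874945557451408272199058277079521365203345637462905431816908577349992545320215445677989289133560464096797171835656257164154053747530748332926475427829354159477309060458629267200779573239942569734919887443978426409404458782048700103065302155384774810556904206981105519597088602814952935637993937034478019685791889403655413419521543937843548215125808838692953605774188704607885569441711173552222285475890050545745920)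

noncomputable def rc1 : Nat := (nat_lit 7658874093313231800011781959319845781528098221226362752753460288350371732827711282702959404952027525108180723205708685796075680752213728482986904363608167990742085268983588041511504249360660197115956155839280554997706567325295966003935627666837132012466937517165668779840946276360124308913751697165398666632600401924721686003210954746640706434384326023699363751498558164312375477919051093631418136687538374488188139087273986206533270465158791886510258395003261966640913811283686440791110638915758651410250940831138906226999005343896369691466560332894414757188872981116548265236558807755021516687246598054434491280512729072883350680907167547620581505221306816161421642711957588215692836462302834669406484637726130525323819404479805243605444393226944528293643098301230944352021916485616547388532179897126939420635194155672295782618334333814221970734421407286496543402319401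1487207690466319721136051063558193842251028677188295884468029730579245762561280609163902165848286418548696339749175657492632559708538691985948877472471517422410243046136760609322425074983592169229496135467816610731702224953653455962758230877565293886377605787737221762979311498471253199197086254019639891832711983365215438702714784695976949248914599702506919162629466184772037705769878053360313785278265599399079273020262609403790964328134205919844913213414794097371504911155931610313613773642252726146501843541161709495911480190144686586875244520645839132283360027504480246746414890548084184390522988572788807641638947454380413519537450550743097398208767615912779923054702328661465413967227409410527347714501817393758641397531631030687743668675968781373702891864387895807310694513681849846583515875669863108506997192852992662095133176458592084165643536178659034123816521967170919023004283827436364747464729064311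2365265756090083950808345889881700627479682686941446183214904032123993410978462086744223124112519961939911411567074471365613751787315345775900590243848310063747681298637945723372398382265697056745877014733182772327172762330415999190136143057712376284638466307711541523225296879152214996706498615627790470209703220281146328046952906877363226724447273509702646933850101578880462450009557211065644107497778606215548106464324210447896343949833964489820755827962727715768499603923136420503241050387364454394697728635836104442113506354454839056063189461714519737395354608979585185201508977356478574162668717472370350551578181657997414920211199483753090572625606648428853860692743567239327445294271894572168529361646474129131214492852210302607140185220785385087563929960631597453472399113440813119765615642027854965224926630146413545294044410957637700889769043346290246455395753075778715517863922703631983531339416599617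7042849774336797368775523126972288941344989915407470795265327310496188286287386797504965184309197238536102940879048129268347457031480399171856694306601709191151518445014846908443433810066084358601192607718761609589509392681948478681548931423648042987781134137638151354143423033007355330266738306368733449705491696057737207225584381058314174923703072931452581965285718714128911908178116982730695944558949919952857460874737640122133970931411087709688741406796342091786350448866003387730243925035206488818874564313033136009642164994903839399125173103276267241297993689927979479369358078478328265583419336104141433188977239522911524115652869354725220716144545592955218982563281596729062044616093497327214590889019988911900541339002109781951450400841517184945564416253493325552369343202294923647604162231242705130433727493665663357225967764499828029089997011996378007278283888710135166663549293526675038246511093669278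4263194070906076462747958775351047831006283854406755433151413014662117854194484317368872536467631283352428580738007650000719127496412974120825032073147484416180953375043552495245064566211342720425649953817448192113747535242815620464247358233719284713237495806576490592729543166666787116700777952849764189978505118480709587844564229889422970329794130263810232424407115769895282792326543059761933358176238131770257782719750797738334012911317360952808338418397882387348038181860702708089114104464179780103975939185323559776246023822521901359441811776749601770696631149020390854983921470821511444424104249099709209019747575959373325269312223580341271983534537355112064733861484361204109892132660383669815950462943787106175442711148559874751349861739087194823198701193831396147401146060511669684663766189623998107102232700909400270593348220816166504023478229036690006129067380382566876822244829443410788980133626466841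3378468453088326738301780437708390596419325826281554932786977935007739445418599995164885064220205172289684645990339238514006012125041595883313628023928795094861478939230123278162209658782605513640890549331391202530127216277383471617558848716189220789556525506279046001178521504442220023529819984610516572472941767479006698590064888463526681119760528847589219069472112397779188352971334216832188647277030694652922427766178768035548395849269843462245767497038725506006937239857215305598466162896083289972291609443009661513967957135923015677628843685732360008960585175192032075126417728583434544848152528287444562549665830084892610909842245081559034172388555112264238493475443906469205927098747490011358046079180230230123796141890553925654237536959354866223674778390630789679473057261335563697722987202976244495337567005923456474588448590832288501719334047180260004386337026587124608711147564840894320915750881111477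7731892663893222643782161161054924699880979666818043600172700472409172862197773061453519211614003396379360241012018318670173994389145320184607788158215626071029766223022571101997441291100824323070964735294325067590392156066625434667686666908329014017902471558673445242628955565816815840063678958874989754789184925766794555044395420562685649283848679784795566850484169052512866447542861458595316173746846396957734180217782244480411935342399386952394237620720029952388860689863273695564014171241082192692343266566429870941848525371322806211225079289313096726841193315257983923441618804311558217396740600977564281412566519642783213201549092060600116614917466661175235618222101801396245406068163751340189297749465290484697151086116480444449230707173963359029699336158051134041518366705023603106826049305346628305730981395467056445904139924006140096883952394033187059753177506570831934880190298340586929331586733731716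4695222277200334590204771487633385472252937798882995081326529929789347899142729101374186649017255568827495464243431063120192819083768377287977951610315427572111015594262854636285623313176580410370927719753547913645234904632883575765618494197215313741897410967508835640754822896202987039019851881854540508887373689739024604248631005025167544043133086402867826233121494429610372581399317752107357530575070427967807653844105460723960749407669602715602609704724571344521155379393182543402761498358011491646309022662505963891185443531635127950778281711348724816273896289050645710740505628068174148592596717116759099205829402141770719223063610549034253228784152650914823696535993075636162744717869924058917429632351858025546467008887399582985420562274824385479624689067402717045738225734566893316209648345482339541231200919133454739106053343120150304378502349417314751005564250565089544755109783633155193528214021164290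4480801404345178034808964235594456895766059539227135993996206937119955896580632191756717316739208994941861299927735877388649126772118735268328247612344025274635009289517577375914272032668452216924575859635488618001146919510241415940191274765504352584708092974023836389510989534255615605527604075488464970035746549458611913116631204101000922543083159066418334476196261526417547542356617910621634270292196828909327373998706427521840905745625697575930307389372411762852988253929641698509583288087583083111414190252167225274902566885064108161460410802534003327738418443303751041098953990865498324857741408382899180003891804249857984363384848244685618584672965317416503395486413962567002465882366465601605861733481361377888837374405370328979138963301236779729840902034778350355124172637865074517763033262385340955337163930949182931844986040224028546022408410250737974025837565410322204557296080452164423769165186619390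2777752598321094287389598876836881455374242560184144808203129361786553003859969309976320854568784332324219889075077810802411898267576528665757950842589042891134257410540229422576092527224282832501219294228110112916070075675216015405604440836243542585450121045207906144154895299499714060964930100494145052068413384045781102665510765108530673411735879320506285819498272713469921853136365091136008863455111944975548750464779509041143500017282371389842331630054167758933683253392929846618979047858657290739281727534885909167764788477590633917343404672012287815686182716552666580823560737886862252856270437050123830790528607789145424898211423147561912578293215060681524954202572946341776777602541376178857004949341011829445294236285914050031461034696106327552220118694769041144304283220586980819459025428289102846625131766517779094986590388084147499148561577430472170458639416738975455174376859671498058656003213270052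4555945018841177217848220583437491428221991563162426981135528432197780744159711137254231787920640778187071740111174949160789164813984422086520579792224980483045893286142022158957933975442309100678114938263022650159957285646564426111691268266446566989487558839418669351163710746721289590121733943463177069716589718714537483040784694515813522009792230983040389546346061584313544454089401705502849804709739359576075580468158754745554161942778649297662964570479747400294482103388960133812226667950323781964641198715114541396852918637069639503272615350903985966073574138097842017442327448926027272205648387418572643531035546748789389794839251230047867160447018136874162160010406728214863471952322790059868314521583510573722243134698714595233604926314574971323188225698233251527073665201276647278830338250239400403244598992462247462058687627520610039732794795999341907690981428016344977587092090499588913572771145874942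5403658814257386263159722240344500932607053186783096765747974674299810000915407300257505968782375088574271362475500386664347412680531869267423891345074332931983681134267010166687152579314054679024749766740728296686438423933598931515486065098527464496448670795485208262772462986059432660434510867094322465323791120531102051896094298361669853815345150457048856032821715169438050187722450546799669887944301500704086298630952789314606879866223213659991674528973670313407789401082388673755587845366985051918062474254722176179113464541706035543618923133994022032523363912014088448501814970133406399829087720253786734833633157335940530362915668295958589414768031287750307313273760614737127580547860832450135482893039299253758473421183664661633220604589012966662769434399236746232703771730876606412147354675877148646881982906180671300385766762160978878337290840663557128300008005789759506466984608094839307817299779668690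6626578088787095762732501372305144779851696352074233676095239305433885211936281933136661924519328788497702604264247647806635808750326419941653213472555517643557406283564618528404929473246681491079154812709619204252623539447448740293793833752127830961469542853557926629856986490887081299183602168535473752320781127933412851070579335401374994761479759890848350797448833022040839742389181781077829147846481588630814891817002385271468256756630678003528575858658583862172421984850186374967626017361038893116881782179891668979040857234164673397508419754755524773660377672004132214843063289466547389970366379922729295684906352446907950272785732064702174631608549640947394443540288960349017110871461790435856921861595418756576129288478126032705894409473316578592700507383507445197066082756163019834223405543190926040730881305559730232915017525501393420005752668410437284547058088311543624287748000972351538950236287219582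9538190213127034644010887203592951095410032354355970734442979242506760393116508898262559891913415596843075080747583107841843131837746057955399702023586773131119120526995011964447773532191298828637177559121005195984851896636292182561881142234576581916286228548561756625785013704581494869166675350700879209262033522130633533241993358422021072498866219416150388994563506529260675618437062088530073038209403526570556033817479202983458415534406141627475937939548767198208077102812440499732202446826036081937749300678552722807536070824454280891225018979697730096070821261915209900553212592084634804888450135050499462203760179026718270742079314482633886246779287504071615608958378545483149109427844294810643733116475627720801079768153211704367084557618452602551258334646978464087876980879402099727002763773105856746733580156989592171991654841770243826910655268340820281606398297798922988057373800457613710555212744653699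1163943462366657889404914299998606085490150087176936866587936888449727524434507045130731982606950378876452083882937839520801629071662576958671450791002023184828582154742792660650825009017036624072704181724483330523134839065741026105880529132144822768849735322745099386124494960743241497926900496560490551462738688163200864478058895389921155223145633265522356544122090801114635509635738722500506135975288227692562630229936580085917274053787695416165973093266877415618072995659655993351547387713919186982374642267140333196907895482407631526487910663479579925416397997009470462129651712799825514473295107229594905329046966246504328968384566331981418104811304409853084901469323703288443592272237609378490539650290154278006864756802658826111744397581670396066101519046376916901739698727587394286575165995142990293258740462974627590327142492328159530466813887403607342863589284303189528973237602039644603069341690596427307665454774206724024835498683439692889972973273070000308621020687580277532677123255529365322063413014592999771083013626329650330562721402270234471529758281885699752580599740351284264567943379949144796553631290682850147566718850512928066218926416597921571434172309332560901179966372580626639407259099847954925753689333709258638295017529218416464887808)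

noncomputable def rc2 : Nat := (nat_lit 9317507116899515046586532824435798403164049132000523448049115893057838486982620184394100453043306245322105500830286608682111070129143725865965952277832886379920579624793022281656490687387012534408488882826807632813136270519717274614218950364049077396814115316242450134874609926646105433365131541247756185091228674089793963232974355652008778130286195084738619387384997956743296492006216976608338026655589294227064667120963978615023984121595185804147319805131323799999602001347507685749095508077820623486084796403748964128486909482290443606752268706588935364226555783209726135455689195295950976134590580177143586993655642876314966925938332042298153222915184267145157395736128795426519012126598501069901085900967103423192224509674009116575998269026040686952221570059726158682861343115569548941693158341428734911871081689612159653064601472389283912769148957724916672928680480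2577875574229451599155444406002396122979926626392789483487481156681418630768633529786720561695727798464616686150348686916486229901074716108011138046386783615019389044350432659352466017111577922106019712545710919501385658351056873481019930611841402230303361266250010739982896309900617574657491920802771303945083393887871637468633471878935100918753762255185820995683652331617586737697952902917890111168001289496626455577022864283264068743766033680152595079276400423724669879905188757743808958449694303079037586083800744370608558946860229111408542738423921426875640973921650925596825352784207414675464167737432120940943151358221602262243655895765258258574977530185751153168799021944067433517103002320689604692535674291129001564244446421505320872995788843001181555962481171946976320432050460550088479792455344460776365484880819167899177976448179759757370551510159194050669418578025307581013512254359117339009559957605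9409614797085586521026413537741572054842657155393327485220460576704395306766149887975252223399021259498654104269131969409263279252585110253434883361456395087527964217161538583969351255323346765855936472835065082370542493676386743871923890551063377735128672036907819386682775445093335344596663051686348638897868578833225751168499917880782739954030489555386766022270028371143715470241152174531832205663406275073616338444184221106616421884265135247065980376870540758408994231980124552783168856029392435171886011650012651251156385349594486912571123738287564610818776320712562230140675151692313394018048072703602356681983903228776545398684275886914127315902692285085912183043160441301568923242221336420145918696242614816732287367745073231898197134023249284108355626901647081353173400510852451246118014377031813858095756971358999127194295874945514472874715961979648287377550929805609924093335644950527504442021936734804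4120856717697517898241266737343079409137143167250774137182516192716821979075255202229695259799361619530454004389221687096149470780433446715715616003198733657085455706606013849533969958331822244348704503766825297132882717740811233094113403393664930913487204288320542862691792946503141631575893661950149339487934897501431118538741070603303342035731332943271314884672700125836891641104621419694222180544752042096842524192448263173326551029151342942921837065882818340162260214152417714204161660658670696893907928457546741606703702207044439193515095275665821706897963127441494669449792073765357290984863082070732012681620866754210221300341398982002720069691189045651008255332684752872559375042325266601345261154741477472037845373576620606075009536581181665319445874228605337664566268790282531006550740796153493361950381330365683751613031195664000049091655022573452316772238795213284784399256851442443915916929539503656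6762932347136030225714720884463744320545879032631458101587037004106474389436451956435637047330890060435531324995986743350472002357886801764628233648246127788594059450642216040873240349543520098173125035348133237845461759712832543702170239338668241079373530158539894852571213704213842486407180206220178843512323832046995781894139643405487510321036099906245960464322413561326606272984071115558653533920786911126782202503680126424672404121300909231263010723357341379388098289741719658885772380112141054926519058926578718389762071293971637660038301817912025351238701761214296649715814542550028819536319528491032663615025479521606255503389443144742872382703952519070397711569957289432248147479278909886568744236059446703775218260625716845762239631070300840506731873499261164123128797214411287568616725133139970605010235769619420924204074306578328581385985143759519436255738875497676902091041310561849805928141122670805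7351687689358772770429762779658103527107535833734516032637867335463558673546511366352308264293830849698586194449080006979410966917400362215209579439113635559339429529716183900193364048952788309593107293543103131794933830032073756501054717855422317396038856658600329769456378947014071633233904443651671633939759422927536375322759912973090731997889300513852160351821019275532202386017040758600196500575340660590506442993883775549592197679545073814193879552349177697946449073291985822366426551061299345272526796556020048660993714744103489466652168569238857467593481662450719437165258902256924402733025068527639115108831447530247676943572709460076779978633105373447398374246534538107066969965408202100220755557907751100341000590594006894879866506848156849887380147028162438075960830588485753040442992096112510885645589592787767981106440089098223999903633946334427786397010917740512778217919382560874580937355469632807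8893349551527566104314014451891484912425920451563449868430582177424567930078254196862231429961378703363656655871951845573661985598727903650177055794516293949914635977700353521103543626187612076966350735316182585742446804395397928736538167626336509907321906594544759400128722370411086455557827690087105099723967237688899492541764967999250509687295544105039523952972437191633405429313692653106542380518107121485260037110013645772351188443353001984624670280220763155384649546618771368232471060434575988474450773785135711721857448556972161711746786273277439315910925352427681886443862956228523041650452675435428144326177871092011261393556575804418514184848986350460834918975532837163978790760348276195017153063267635838949894675103931581656976972434657743664442652226880818908278148173224414398805035514708938675313684132363131110204636197025456033775429390719591815727185787599998787030729769224548199683832944790271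9954435560268306472530960775747461563016633987408153024258784954913058963244763687000127671477794037054077733335786011078946402148438571493793085859659382017617494657150813490282989253411337310322685219272555278629222899907897491792616539242749242026040826149348661477513278214058633648741547209829047591040396700743310613780812527779814129928815424949171332560810757294129213848823862212523919719982369919812694192316871327321299060759371903513128520464244204238488830743003310728225123885277771211905226394148259029121177386895198806886006958168526239605817481945256585568087254136672493544302460497893994963631604842560067522752886880234564111311889467679642928062209955043393226437845641102068817676471251813240357810232419766713682685273017636973827477626486036331297272329407134516065248855558974278880488441092186178156630125290317779212220466571014315767340002105937756695842602320087685602720156005791743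8225526913533688110206819718880963824737110603744319155558467182113715101553853793327425444004735755151930055150371960508973335832938055637003292505743993238924551669882280437274309421789591356843495399786887833897062951335351024845743653694924945525951129961140448925568209284874407776163286808133873275436879310923058710168355498396866530709221649699200885823147910627918269957396502906564328097391910305934045255148826707694286106989972202910928801672106425330363992890720219285524089214249751288425679761045036010789455015242295379195238303449642700260304365292642231230990998735710714773615753454091505179776835729864386949175202756253013307748650019516332867081117035647853193692653205857970949419422587540227270635391196773988505131212098905655509599397588229134034321139909490519735886865075889064217809622560359036262663547517049226158663638079097294953146703229077695951427763304792282230359975368368004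7402486596479658953527587441805816036457663011621473278290184392623825751231908743579668188921230475066964184283592422976920179681328250284358012059739834070724340025629115881444773728987766401986637034311403369646390087921288754627955562765821154857266459101242548776134982268802166814106493765937477900715729127273789585605245697297117338891536208246790234233056591374781131305275266111211984154109081334394508887881070592789232178369302181237809949996167834729000719856598683602588413256080928906162174002389564166718128401305527943590143932425892299110858683532728604671779991346166121506481622298658049845659420433627535176579575043606759940196086461499781276651053574593579001297217141644853294671932117427966277894687272880096182228951695101818515708988447881091640847950187996924073039416887008839283182018999946544072918114743906982425423343749038947604052770097764041412975141266225571493863425557264256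9937430811687733642758668426966356571144501154368304947899584356020535269096224485200566196998539925553515655212963286903387338237089795644806665389289748551094556364985037022257538721934754474420422389245702824698047195262386883893280017374262477834236931499651263949833319745205222107671210735368793286374212549920066027044115763020371172217187326409026438653667844290017660546316582564165154917621579965057184543963212809396065665101578865556171922994548061659885089328756320896812660368141041073315393658882469390445021502306252154975303473923335982236647236005085147279687665098797816378186741841513407708547272843056876182053157929128338934039696736500455549792225944721546098754656555536881937899307171555468690877404825816029321784655564712331506219369992990283596070110488319739499927467198260234285455905588460481817314836577985282539250149708983998819922123969897333339990019684117626447331502311965505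1899351864952125103116827560854860986686861258765523515126699590130611757176981227569867136212308736148346189686046352274809396343906109652477674040307063079025087288895076180274059565304290987811095669497950768367090780723675452338730981813932402019256082692445135400381683497638299486273192214184375000336891362177172444144846689602697549057220162118040573928043322685530013848569599349984823841464487801455072891206652755935625377443477583720965419734046877152553447256517087066902814117520945904969234421277762008581102893737540320038448980435405586774588302232784775343310881507001781419556336241195143240149113246385555151211027176914931017772912942461353470767278557432512451979851206043746792529365053020270894570785381403459638815179167773638191625585525706881278721571254044545983930991034746743097306834911902224988901131289628343897025614460013285043403196382278442396751666183996496698535663184623051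9666018635705032454023592582551386037330248056611996712848049606966086262511523282072747467606996147025881292029756622453963018248603741994863655894326256024041189380066864191059084245135511328647566249120765716356274548873723812227966129846546179669052992679413320305455231804918974926431237409594646783833163655484986906815463192245839314063176771435279401367936465094364977412085118018879592981259426833016060962938149892147652214162188783148839093316044028374047064029760235599143368470951003508335384340381072184962016044318004282223443629460398013632819815159817202411313953827361101466244112188870595003981924435786324482745650442881181282257981272988104540039075161106310863740049540886738445126675751440020384967444217260537271320016370821365113649780184612384776100973470887170532813053075861801911879400928021009618693621102272705592528032310469316181211907646171929486181441889575657572609275304964669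2452556512132566243162586905568179788461030141817816038603263531338321595603284585826374611393839924257395026624630749855626941931958588974785354143507417729086345070659254015491863486525449547417698073756169445763456548482318091771336593752774792954457762474128830967044689862519093086340599666809971908347965783654068601533255981713030901890174297754856534730721612494731626965644926129790003720271848196331406381932479951299879048010024147356974030948930702142173584963048833897394283813511831818771563737500122789661361413643181765511942376491618791619435749369096472572494503705244123406619761027703664454324366397105569373443292945719296846433381958986428450209039833212042202075407953916013864929897756885070938647383055205447983738962393291884144400037311817570680032438473259160033337748951348495424387689131373137499950784505566346188315881323046509301595666501491747412477690024416355061633030808618997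6118920714226820432979262595707529518802700706448070438752165451305378722836582378361451116274863828237452876370192614535368364752836622118487475820393822275301440026108552364941775801351429534790659020004049175358203636258503729689400206933883982296805912194819453367165112934381286400229066753111662429116218294419622046367921235351089622460353891503365665643168506827224352116370218540417305375420192944872455464664473605667691956695016963454230668578288023796808463228840528976779030152993289481511111745976508302896205420513069953863023824514575545384565883303404034848388818649085660073822853457482968508566312656229034251577938680429419112855052420299942050286277985028277179571640384969964082383973058953796945254383444477583995530096820001275117834353054849770430902861114287512636308052188489506510747588552998689818541835305412916999220057482686046126388694433147863589060957334974914300610009859585355276423152673121711442260668721966744068201651107221901066504490958997786985367845665374031055715385317245574219584928940449103990804073188487353619195077414029395531601875325189860531401156867248701641095297732909604398476632773276733631966255215512314174010017929184891454586565565947663801115190530126841067745208412638217063260922987142905222660096)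

noncomputable def rc3 : Nat := (nat_lit 9608121023091212355648943113220621751329746658648127004211131279133761696475901599265242287634981364588801278943379243477067579162008205141379792955155663437428351812101453007225279434806901674041924129886055863348687296617248675472077920829983601335175455240943192422002325376977467195660929655615042136511152615836543477573924866416619708113705754272736677318825210078493139257372694033206594455361329957875123261475108432899105336329710520318425223590332254729008045694618023190180770089516350523208277992742058464935865456795968446630880168546816478603318459940482719926895571606835500066624332113264087341495998489354080985205580737379160596430751224267578865272331907904307631333341832617566386224428329509178537570748573116068272521678625588575113014479727117220437700566203091019446833645852151582270414985133054809415749756169543562504829139222902970643287130802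6885879996014360400556310243718036631873211704208050045290932287702226582349782714322723186136708766568065476040394949657803160509702191748356608269532350901412709432877268279163415302979699114899330252184400924807544892344745783277591222923376109402182326897360770837958360438797569681734610757881751195539518889006852442036315795265898525801738002788437787418053217355899327133346890954901905933115812616706962682941401677402681430731962640987438462220321789479951971265053055244489770359368770333622690325392659114116876499469879065193376285168634383452204486871662059947164858571464028662115246014545575550506885461597387024984011957723403336262562754407205262323351033379265597867414432317689829598688100855332365335385111704636502609854188062307465425382643140601834106429298621169669874953688280089117860899371072923502368913202820628381881131219559074183996345471525371947837321979236399698520689686600335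3838728137511725327402441767901692527684806558375666922305324943523575414557855524094694680337510628633114328178323458939656244454181873021908059757454557327043509921183864355723099931775392802707394026644362366236698125271112571607294793043306723730784036348440052305991929540321812539370967997813677345016274952005139773129743577988812969632281856727952761407801188231007098724211930386229582559369572969785219700990282540866439964997731811026329469827723663448318963659944131852087970811178036133156900703743727148157780674758540742357332797812111529052937840455064449778849038486085786208425985413055704471252185781884185094790374853796946094967635166924821191156956570232342927608430080146961475336915908351480407224476927652355409816439443211916524711787525274543658142790958618528827093326601869244226794391143895522771387087295478614746911800316033432937630704010653896399412833746258000310544439976519873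8196147002964525896405343105432107784387156498991283448651925999082675701069787311564207471570980859299506468901318393494371847335012493113405406041978196457258652956573472188223375164523191025299052294121747204737296995780563177111919248424584838605256275779406313016075340176878144000528965328677983725554577754038836240855294201272835654500477357317944121068471187840967396565927743417252809475013984100099690143078560374465016191299691642709568789297841298880912105245321481582900676180216418023388516140627643189588177346598230644070277321257093236121591777633911647355209737434603311204119298244320142785377159788451162993119760207827630053750625395078351607654219127146690015064910231201476114287909620308836868307122551300517725442750111522904931621309410006658661524369143432080746601198812938900578076842987629293662832527621777549965076274492635511785071284582690507438870532900611761770861627913003884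0043570549011559558577720334256735796200067690909826505967097162782585860872186546568684770355838418770619348780481843389799068430380465356493438553178766346192577526279302758640049042694705036133930771772764528471577341365592922636465459693644461650475411655798451707352623551436717010297137960516717567540137043809793337174859523406194994605332511943182833627413044125676260432470795133800644756589015562205062709500912972278065539239090622096631945075010593096458742152691919727640862501837702950128361983933435918006713290797867660235379791195325496403514411107981827193977503521641630477145684898398344480725907816614010450725814409861423563476104054892105701385768494961237175772960923986248846496436034640084668314054622691720096802654362472730385666435388848480208826753869533498633928419936936746713529121087747279225629316018256961103352535098416383259358100422605024907701318242822241652089416304699526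0611998095099309558182149745555866832824865524389580493143692114417890469145946148673804840250372116334181727102142964988323800923612705568360649268781702690322513828192738357480239484327423433590241447953426782825815402147691738791118302216249462925025795374819535193868480612938217824181733033558723867435967320158827479761555506738033753272592762019513511801590551838791457530305025767185920174410146238005650848921900953359752426567912953097042174306345023620510581954425765590721652060121841383045805303319465184834589818852825342268287570042941736798075405446460475308183391103109474465732653806238753255412622266052180072061032754980326474207085241643627219167163587698140678775977868059524388618631200463540098079022077807904353836008102568099353045166790302842589267998261450047959318339230836707216967013195865197767574041371347082826453108262903673921869213939512158404254709216440619703266591409836902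2494474210502358494404099153006250085112371871778101105248811421709320285366489141809085032121206908124776532576997359872736510612601847799643633520640052201057202143681510037983998323504257434155110768456644489831024904175448831368175637478618881613173628609905910405348393716415775747572529809017221817831429563331402366564956342259741923830751963494940388234847993980403678583548677655272089150750535481678884370499675194714614136897101636229443715144425028050802425954531881540540185412391014266878403219897481048460922587689136863851046789691940120630428443703843175487659671216024638102338234017762584623466383742066900915010172441922841266201149151251194504185156706934601596950979483939299291231189891155510420229097058117810802537883190659500726720682835436021758644875949433480319748224088173480141068579590293469657481264239069137647543286825903597290994709904844750017228859093716294191468382061360119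7500570443794008125050244382000216742393109907781529860251410048361676934291397703918790833087682042000357008735768045943658310308884099375768516708713921769678595072104543682731427784605827087462434293744946029970828226423121507685692367436261001373987617475534311075815722081314662381037973837672700253152203076243879256764443821677808268209400404180120296085040967483249725811046233275318583657218273532327327979248892683407060756019143461072737472616837986093960445165042870576496035233280456259434156896159717550956485291426633554804464710207047822949005936874195993011213330283081620665852861876350345997267598399663293416641921902228363158750207556291758336570401777763244203999368183653762201846809946841129375760560953590492893521463758714829227716727303537124812865484649816430714994656507557246606941454164812281996873851090309894427636124798821016021580344203486643252224446735476854533457799513979029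0170458555458165792845352531873621525242869373549525079888761874340021336217019439880585727331576891196440697712873730210553172140137518065944195612696208794421558547423787685452091738446012852817033588305617286035442839950007030593128192948630091231862076823784613964615691469747083228303889784940195967613216228483479004870229522909379277385659822509169326921980763421759525302574120292058016560818028059584586350171723235854852672105893833145436303008981320594073806509407584707309595997521393337806183342376450675845074755906870985436940984867208366385309724516050039503851007487430723933824054056197231856368985020558273347347526550775065788641082391790027865122561969474397933496309108021624388718705871759017254595228100399539567100070083233796817952266719522076008471454057510968607525705628069499579088782367694865852877420625797619255959699954791968024643678913131996828726034872627593822301965081880863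2738192597779390231538466813793132043296717675570076149891185170270972936953988426165992279659026734535768034412883400352087842709481360056322247442869635151115546851645231658128702402630337559026458653264918576148934075921580563313997302593268197791294449948272535078833535032919718182018213054964072007058671249552469432824521420228308393305193624719394469649818205520247475214069593323907128793133280086119168291882788964852469256534429182184386677069243846157017111776521826652661664403493052858677913667035940381593109214074298487235346983924997503324399421776817535362746972696938917636671054707166254074578676460793771943552389337512272357296330843307417084578281118537107620683708812231070016796246011322814191469434882949545214664960440675704634940649460049080921296628553928135988247394897084894787909532575212571257073662530143355268350970703436346696017853671206677123539541946312764088425264946683147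4276096914803475031783625766577973708720320975013549715398846729822441509178168752090626522646964329589248115845813965366045202448317216828707492782729337670711211686496088082255094569788248949040284245230356822280522578645487804954214674197350814002789884212270707527867359999427017496312300640192760627009767162188073199270941402518827426037512429866414069977311276190194478978546322450892478637244802780819320562774788437550952285768651672905131119580157837277847592055299882232953504011879678608946875564062775781563722549570130588887088501503735177487999633178754658499433086999937259210391280903575187885560677641658597468591206517819747735529544198753002416796255011460911012928415867630211459416966325028037965118410545036715771166915191599009950131756164990151431847101308886733037851720982730277119543381876583863633119498129180679737767812943672324364391790828756808846528701895502037231471483460614699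7299420182754330914401264693946850437816535857628519092866984258350507977778985808560098236769642791083204895936447030309330939193347934109774996523792993821073375148554480575257956857057493780268212372992556695905307178267678803298172980187884916537844875341988848024204052462501981867760284524053491419376420840495735818749231391578982207968049634931088444575286509938348169885878445525309888365182948272254682630295959669268703272393506240087256809828818515110047572129485839036724689881584219053025326764455469763860531589219681828336765996369435987703395664252838549678913862320148776169723260748501018868482344479024032666296430583745669097208041875567870965317359143812904642028917468721235653318871221767601564860431719153059530628526845960641069674109785502055156875113278065469367330797372655787403137065472369488746954268216355770627441651927056240959757455046833944408194826594659676465633044078326931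0526157974321571695394758952565771512587413337649211658018439958164546841914723019318141470243322268473821465612652365016817169004966228602097468541811767722963528099429247975987932150794690448652898884736698010751728469535373796024984779881549589459350043457679948263682017389588819294198489004855204371975478649100818802813052684679680013485222259640629683588090686293820377489677620484540292605609561053066712261389967774877324689689566118200544385051853076785234239405670503270818232857152721118814964065924648000495846270554005912962900894415270494732733242101877214384704416182400632614916628707956286438727407949932621972484842206022634744924374596644470286040567249369595888383689546072924493956196647405282420707679505897590198695812969038472656830858667129454805721946748321991100430090492562299735752739595143051859824263918242669742283104325619097698768116462936493545767791985983127502242983290715387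0433826139088271207395870558518780209487175575163367411581505694545821293608490191055938739327674789909809049731296900929931229304194973083172919322557712625366753453213815588852436914695151602521165450923902083299592991615523470197993446058986173822793302223380622901170239581101100726016125509551905489053072832686457847992909608254857823637126300695354908868034876625033415299441480495425223577319317249938891481280873358274852108848813964577498869994121576176955731765478591320136593998366920720393049440021653751185404975099389033008448892697256328910208224752913624726777550166925673235347135733436186306681161853463253652700450577623932905882133785352321127059399035827238553347928060324257222185800770020918633465038689673665185148626009481039292845924162005183865015446400630054374176455694025465172733713356117000388184486993653009706557444952377957038360401873754919205221181751994755078645720124993129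9336854892722551132345921912009643941120591542821446584209875128590444162683677623632321703493119585991145842565445677021494809072605585060797884010977399111428453340187690798666057618556639535239563799530443801690917657092405417890867450787332110333505261242186542078671199227746048548422645256129553690510224526301393695657604632515373027709810449585866923676742387405827948142872209757369638752730522199273387970180032926067754571229369357547503358677442852809353434759759361869678941351049192753686543705947461529755384098348606380928116154624859728953637576029754382869580486330997222691754894996308688910182989274756602785711281497190253919865738554591974270182288103331391411534411052208086289531054497707129540567178770643501411857521908364187566300463998245917414087094241639298515804038557157703193876335127373386920643383444183790254804900943812686658637198542563661351137955981814446887069001738468584551817187010748438369708563230239264208205273343688413500946981969083510773374547538746976536565209353808543370723536711075312708351374897229775811258630617349111506428825143332363744161821450487659761532852947945751778066128654138492600493944483997882816837097689791221689727245938138873514369208811052045242334040758261900962389209430023279373975552)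

end Vale.Agent.Lib.P154.Chain.D4.S7
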